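import Vale.Agent.P142K.CertB.Sp0Rows
import Vale.Agent.P142K.Fast

/-!
# An expanded part of the certificate

Generated from a semidefinite program; only the checker is trusted.
-/

namespace Vale.Agent.P142K.CertB

open Vale.Agent.P142J (MP)

/-- A coefficient. -/
noncomputable def sp0_m1_0_0 : MP 10 :=
  []

/-- A coefficient. -/
noncomputable def sp0_m1_0_1 : MP 10 :=
  []

/-- A coefficient. -/
noncomputable def sp0_m1_0_2 : MP 10 :=
  []

/-- A coefficient. -/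
noncomputable def sp0_m1_0_3 : MP 10 :=
  []

/-- A coefficient. -/
noncomputable def sp0_m1_0_4 : MP 10 :=
  []

/-- A coefficient. -/
noncomputable def sp0_m1_0_5 : MP 10 :=
  []

/-- A coefficient. -/
noncomputable def sp0_m1_0_6 : MP 10 :=
  []

/-- A coefficient. -/
noncomputable def sp0_m1_0_7 : MP 10 :=
  []

/-- A coefficient. -/
noncomputable def sp0_m1_0_8 : MP 10 :=
  []

/-- A coefficient. -/
noncomputable def sp0_m1_0_9 : MP 10 :=
  []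

/-- A coefficient. -/
noncomputable def sp0_m1_0_10 : MP 10 :=
  []

/-- A coefficient. -/
noncomputable def sp0_m1_0_11 : MP 10 :=
  []

/-- A coefficient. -/
noncomputable def sp0_m1_0_12 : MP 10 :=
  [[[[[[[[[[Int.ofNat (nat_lit 833303821124083353)]]]]]]]]]]

/-- A coefficient. -/
noncomputable def sp0_m1_1_0 : MP 10 :=
  []

/-- A coefficient. -/
noncomputable def sp0_m1_1_1 : MP 10 :=
  []

/-- A coefficient. -/
noncomputable def sp0_m1_1_2 : MP 10 :=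
  []

/-- A coefficient. -/
noncomputable def sp0_m1_1_3 : MP 10 :=
  []

/-- A coefficient. -/
noncomputable def sp0_m1_1_4 : MP 10 :=
  []

/-- A coefficient. -/
noncomputable def sp0_m1_1_5 : MP 10 :=
  []

/-- A coefficient. -/
noncomputable def sp0_m1_1_6 : MP 10 :=
  [[[[[[[[[[Int.negSucc (nat_lit 492138098218869)]]],[[[Int.ofNat (nat_lit 19344517880318726)]]]]],[[[[[Int.negSucc (nat_lit 20290014256461769)]]]]]]],[[[[[[[Int.ofNat (nat_lit 8896949803826566)]]]]]]]],[[[],[[[[[[Int.ofNat (nat_lit 1323364719362092)]]]]]]]],[[[[[[[[Int.negSucc (nat_lit 326228426909305)]]]]]]]]],[[[[[[[[[Int.ofNat (nat_lit 12180605672503568)]]]]]]],[[[[[[[Int.negSucc (nat_lit 1367361658204781)]]]]]]]]],[[[[[[[[[Int.ofNat (nat_lit 1107831225857594)]]]]]]]]]]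

/-- A coefficient. -/
noncomputable def sp0_m1_1_7 : MP 10 :=
  [[[[[[[],[[[[Int.negSucc (nat_lit 3657824732134007)]]]]]],[[[[[[Int.negSucc (nat_lit 7362642937473337)]]]]]]]],[[[[[[[[Int.ofNat (nat_lit 12776785082948148)]]]]]]]]],[[],[[[[[[[[Int.ofNat (nat_lit 439306324017046)]]]]]]]]]]

/-- A coefficient. -/
noncomputable def sp0_m1_1_8 : MP 10 :=
  [[[[[[[[[[Int.negSucc (nat_lit 205102409119965279)]]]]]]],[[[[[[[Int.negSucc (nat_lit 15710650940143217)]]]]]]]]],[[[[[[[[[Int.negSucc (nat_lit 27594949548402503)]]]]]]]]]]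

/-- A coefficient. -/
noncomputable def sp0_m1_1_9 : MP 10 :=
  [[[],[[[[[[[[Int.ofNat (nat_lit 11473837238891794)]]]]]]]]]]

/-- A coefficient. -/
noncomputable def sp0_m1_1_10 : MP 10 :=
  [[[[[[[[[[Int.ofNat (nat_lit 251728936767366624)]]]]]]]]]]

/-- A coefficient. -/
noncomputable def sp0_m1_2_0 : MP 10 :=
  [[[[[[[[[[Int.ofNat (nat_lit 18480199864286994)]]],[[[Int.negSucc (nat_lit 8114292293384109)]]],[[[Int.ofNat (nat_lit 48746770492328764)]]]]],[[[[[Int.ofNat (nat_lit 2959018086367248)]]],[[[Int.ofNat (nat_lit 13150119315817422)]]]]],[[[[[Int.ofNat (nat_lit 24717349169995098)]]]]]]],[[[[[[[Int.negSucc (nat_lit 3153346965832443)]]],[[[Int.negSucc (nat_lit 991733031465817)]]]]],[[[[[Int.ofNat (nat_lit 7498305089605946)]]]]]]],[[[[[[[Int.ofNat (nat_lit 60992552990223951)]]]]]]]],[[[],[[[[[[Int.negSucc (nat_lit 1359374668096949)]]],[[[Int.negSucc (nat_lit 1599260312865089)]]]]],[[[[[Int.negSucc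 (nat_lit 1051998054914171)]]]]]]],[[],[[[[[[Int.negSucc (nat_lit 4012612401480523)]]]]]]]],[[[[[[[[Int.ofNat (nat_lit 809303616161640)]]],[[[Int.ofNat (nat_lit 109470380821546)]]]]],[[[[[Int.negSucc (nat_lit 924372468185055)]]]]]],[],[[[[[[Int.ofNat (nat_lit 1280875894016359)]]]]]]],[[[[[[[Int.ofNat (nat_lit 2502830126027638)]]]]]]]],[[[],[[[[[[Int.negSucc (nat_lit 1427181211113413)]]]]]]]],[[[[[[[[Int.ofNat (nat_lit 549528526554879)]]]]]]]]],[[[[[[[[[Int.ofNat (nat_lit 33732867482458868)]]],[[[Int.ofNat (nat_lit 5211239549226506)]]]]],[[[[[Int.ofNat (nat_lit 2292912030850248)]]]]]]],[[[[[[[Int.negSucc (nat_lit 40329198917034013)]]],[[[Int.ofNat (nat_lit 3188703982129076)]]]]],[[[[[Int.ofNat (nat_lit 1597590467951292)]]]]]]],[[[[[[[Int.negSucc (nat_lit 3102737716638703)]]]]]]]],[[[],[[[[[[Int.negSucc (nat_lit 99692304700019)]]]]]]],[[],[[[[[[Int.negSucc (nat_lit 1016912194943465)]]]]]]]],[[[[[[[[Int.negSucc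 (nat_lit 36706104973713)]]]]]]],[[[[[[[Int.ofNat (nat_lit 466612845290010)]]]]]]]]],[[[[[[[[[Int.ofNat (nat_lit 49471587635801994)]]],[[[Int.ofNat (nat_lit 1587751245310928)]]]]],[[[[[Int.ofNat (nat_lit 1645340597823154)]]]]]]],[[[[[[[Int.negSucc (nat_lit 2130322299036675)]]]]]]],[[[[[[[Int.ofNat (nat_lit 1728205246143244)]]]]]]]],[[[],[[[[[[Int.ofNat (nat_lit 779386084402536)]]]]]]]],[[[[[[[[Int.negSucc (nat_lit 713085221575393)]]]]]]]]],[[[[[[[[[Int.ofNat (nat_lit 3386581815734722)]]]]]]],[[[[[[[Int.negSucc (nat_lit 1901156401467725)]]]]]]]]],[[[[[[[[[Int.ofNat (nat_lit 1465164039101308)]]]]]]]]]]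

/-- A coefficient. -/
noncomputable def sp0_m1_2_1 : MP 10 :=
  [[[[[[[],[[[[Int.negSucc (nat_lit 2290216048303371)]]],[[[Int.ofNat (nat_lit 9162447682524860)]]]]],[[],[[[[Int.negSucc (nat_lit 2278840473922569)]]]]]],[[[[[[Int.ofNat (nat_lit 5529203838646164)]]],[[[Int.negSucc (nat_lit 320324412264369)]]]]],[[[[[Int.ofNat (nat_lit 10373769906080820)]]]]]]],[[[[],[[[[Int.negSucc (nat_lit 6796383222883647)]]]]]],[[[[[[Int.ofNat (nat_lit 7253217651622224)]]]]]]]],[[[[[[[[Int.negSucc (nat_lit 17626294207490755)]]],[[[Int.negSucc (nat_lit 10830303861959473)]]]]],[[[[[Int.negSucc (nat_lit 10614610936569343)]]]]]],[[[],[[[[Int.negSucc (nat_lit 4009216492305567)]]]]]],[[[[[[Int.negSucc (nat_lit 9332569534188555)]]]]]]],[[[[[[[Int.negSucc (nat_lit 72681158936952155)]]]]]]]],[[[[[],[[[[Int.ofNat (nat_lit 2272129901338920)]]]]]],[[[[[[Int.ofNat (nat_lit 19064353342387138)]]]]]]]],[[[[[[[[Int.negSucc (nat_lit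 8278253681937727)]]]]]]]]],[[[[[[],[[[[Int.negSucc (nat_lit 1553823614197019)]]]]]],[[[[[[Int.ofNat (nat_lit 408653467815794)]]]]]]],[[[[],[[[[Int.ofNat (nat_lit 2542781486026478)]]]]]],[[[[[[Int.ofNat (nat_lit 4434904710638290)]]]]]]]],[[[[[[[[Int.negSucc (nat_lit 374811871462375)]]],[[[Int.ofNat (nat_lit 549135614581962)]]]]],[[[[[Int.negSucc (nat_lit 729520114025747)]]]]]]],[[[[[[[Int.negSucc (nat_lit 4007113345182419)]]]]]]]],[[[],[[[[[[Int.ofNat (nat_lit 222478081891426)]]]]]]]],[[[[[[[[Int.negSucc (nat_lit 124998106142833)]]]]]]]]],[[[[[[],[[[[Int.negSucc (nat_lit 816725399083851)]]]]]],[[[[[[Int.negSucc (nat_lit 3424539644052461)]]]]]]]],[[[[[[[[Int.ofNat (nat_lit 6025572150494550)]]]]]]],[[[[[[[Int.negSucc (nat_lit 231547177504295)]]]]]]]]],[[],[[[[[[[[Int.ofNat (nat_lit 140551218968092)]]]]]]]]]]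

/-- A coefficient. -/
noncomputable def sp0_m1_2_2 : MP 10 :=
  [[[[[[[[[[Int.negSucc (nat_lit 102320283827349033)]]],[[[Int.ofNat (nat_lit 47270940710916344)]]]],[],[[[[Int.ofNat (nat_lit 103284116857006080)]]]]],[[[[[Int.negSucc (nat_lit 3785911725869515)]]]]]],[[[],[[[[Int.negSucc (nat_lit 1463899338416283)]]]]]],[[[[[[Int.ofNat (nat_lit 55196319814826291)]]]]]]],[[[[[[[Int.ofNat (nat_lit 93538508863189698)]]],[[[Int.ofNat (nat_lit 3886537494575204)]]]]],[[[[[Int.negSucc (nat_lit 12369838608924385)]]]]]]],[[[[[[[Int.negSucc (nat_lit 81053071130572411)]]]]]]]],[[[[[],[[[[Int.negSucc (nat_lit 32833163020327523)]]]]]],[[[[[[Int.negSucc (nat_lit 73513023279517277)]]]]]]],[[],[[[[[[Int.ofNat (nat_lit 1437727985249634)]]]]]]]],[[[[[[[[Int.ofNat (nat_lit 286652355993307478)]]]]]]],[[[[[[[Int.negSucc (nat_lit 553878353408463)]]]]]]]]],[[[[[[[[[Int.negSucc (nat_lit 152186080982122945)]]],[[[Int.negSucc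 (nat_lit 14689792136676305)]]]]],[[[[[Int.ofNat (nat_lit 4764466741956412)]]]]]]],[[[[[[[Int.ofNat (nat_lit 88779945713307180)]]]]]]],[[[[[[[Int.ofNat (nat_lit 657786578363944)]]]]]]]],[[[[[],[[[[Int.ofNat (nat_lit 12251352229103024)]]]]]],[[[[[[Int.negSucc (nat_lit 3767674939136491)]]]]]]]],[[[[[[[[Int.ofNat (nat_lit 4268523197797860)]]]]]]]]],[[[[[[[[[Int.negSucc (nat_lit 113370238425690975)]]]]]]],[[[[[[[Int.negSucc (nat_lit 1129482381734089)]]]]]]]],[],[[[[[[[[Int.ofNat (nat_lit 3920261442294245)]]]]]]]]],[[[[[[[[[Int.ofNat (nat_lit 367821569083740)]]]]]]]]]]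

/-- A coefficient. -/
noncomputable def sp0_m1_2_3 : MP 10 :=
  [[[[[[[],[[[[Int.ofNat (nat_lit 46391940980732138)]]]]]],[[[[[[Int.ofNat (nat_lit 53104796202326836)]]]]]]],[[[[],[[[[Int.negSucc (nat_lit 38301957009837325)]]]]]],[[[[[[Int.negSucc (nat_lit 15991708022352029)]]]]]]]],[[[[[[[[Int.negSucc (nat_lit 501582488971995305)]]],[[[Int.ofNat (nat_lit 25528345201100970)]]]]],[[[[[Int.ofNat (nat_lit 11720277237169828)]]]]]]],[[[[[[[Int.ofNat (nat_lit 101978115665189044)]]]]]]]],[[[],[[[[[[Int.negSucc (nat_lit 4863442511194475)]]]]]]]],[[[[[[[[Int.ofNat (nat_lit 2109715446298190)]]]]]]]]],[[[[[[],[[[[Int.negSucc (nat_lit 9186452555765885)]]]]]],[[[[[[Int.ofNat (nat_lit 12160817421962274)]]]]]]]],[[[[[[[[Int.negSucc (nat_lit 11158399037578757)]]]]]]],[[[[[[[Int.ofNat (nat_lit 1252205778627460)]]]]]]]]],[[],[[[[[[[[Int.negSucc (nat_lit 5123823405858479)]]]]]]]]]]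

/-- A coefficient. -/
noncomputable def sp0_m1_2_4 : MP 10 :=
  [[[[[[[[[[Int.ofNat (nat_lit 1192471987685356566)]]],[[[Int.negSucc (nat_lit 49142481821185407)]]]]],[[[[[Int.ofNat (nat_lit 2817117666907694)]]]]]]],[[[[[[[Int.negSucc (nat_lit 172133303235734609)]]]]]]],[[[[[[[Int.ofNat (nat_lit 175369429620022067)]]]]]]]],[[[[[],[[[[Int.ofNat (nat_lit 18970505587016096)]]]]]],[[[[[[Int.ofNat (nat_lit 15011933616472284)]]]]]]]],[[[[[[[[Int.negSucc (nat_lit 539790617541101967)]]]]]]]]],[[[[[[[[[Int.ofNat (nat_lit 248809881742474352)]]]]]]],[[[[[[[Int.negSucc (nat_lit 140290323783071859)]]]]]]]],[],[[[[[[[[Int.negSucc (nat_lit 3686729651951775)]]]]]]]]],[[[[[[[[[Int.ofNat (nat_lit 185722042050783487)]]]]]]]]]]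

/-- A coefficient. -/
noncomputable def sp0_m1_2_5 : MP 10 :=
  [[[[[[[],[[[[Int.negSucc (nat_lit 24887117925530293)]]]]]],[[[[[[Int.negSucc (nat_lit 9136094251954775)]]]]]]]],[[[[[[[[Int.ofNat (nat_lit 1004402267620365742)]]]]]]],[[[[[[[Int.negSucc (nat_lit 85544229515267041)]]]]]]]]],[[],[[[[[[[[Int.ofNat (nat_lit 15957945117838350)]]]]]]]]]]

/-- A coefficient. -/
noncomputable def sp0_m1_2_6 : MP 10 :=
  [[[[[[[[[[Int.negSucc (nat_lit 2313229766959242093)]]]]],[[[[[Int.negSucc (nat_lit 5394469112815371)]]]]]]],[[[[[[[Int.ofNat (nat_lit 112420821318744270)]]]]]]]],[],[[[[[[[[Int.ofNat (nat_lit 419663671716232816)]]]]]]]]],[[[[[[[[[Int.negSucc (nat_lit 111840707428444157)]]]]]]]]],[[[[[[[[[Int.ofNat (nat_lit 6397616407995036)]]]]]]]]]]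

/-- A coefficient. -/
noncomputable def sp0_m1_2_7 : MP 10 :=
  [[[[[],[[[[[[Int.negSucc (nat_lit 12392022561515789)]]]]]]]],[[[[[[[[Int.negSucc (nat_lit 658002590331978419)]]]]]]]]]]

/-- A coefficient. -/
noncomputable def sp0_m1_2_8 : MP 10 :=
  [[[[[[[[[[Int.ofNat (nat_lit 762291596596971085)]]]]]]]]],[[[[[[[[[Int.negSucc (nat_lit 151339077376941161)]]]]]]]]]]

/-- A coefficient. -/
noncomputable def sp0_m1_2_9 : MP 10 :=
  []

/-- A coefficient. -/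
noncomputable def sp0_m1_2_10 : MP 10 :=
  [[[[[[[[[[Int.ofNat (nat_lit 1693602923433285030)]]]]]]]]]]

/-- A coefficient. -/
noncomputable def sp0_m1_3_0 : MP 10 :=
  [[[[[[[[[[Int.negSucc (nat_lit 43737551704791121)]]],[[[Int.ofNat (nat_lit 17279998118755810)]]]]],[[[[[Int.negSucc (nat_lit 7453142328559077)]]],[[[Int.negSucc (nat_lit 2268311344613943)]]]]],[[[[[Int.negSucc (nat_lit 21262059240449175)]]]]]]],[[[[[[[Int.ofNat (nat_lit 21885428332162068)]]],[[[Int.negSucc (nat_lit 2156381690487071)]]]]],[[[[[Int.ofNat (nat_lit 401404645306548)]]]]]]],[[[[[[[Int.ofNat (nat_lit 19867505121635862)]]]]]]]],[[[],[[[[[[Int.negSucc (nat_lit 67509384572073)]]]]],[[[[[Int.ofNat (nat_lit 3402282556201836)]]]]]]],[[],[[[[[[Int.negSucc (nat_lit 644709170213391)]]]]]]]],[[[[[[[[Int.negSucc (nat_lit 887158822421893)]]],[[[Int.negSucc (nat_lit 1302261926715433)]]]]],[[[[[Int.negSucc (nat_lit 1296203460732097)]]]]]]],[[[[[[[Int.negSucc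 (nat_lit 2285227337570023)]]]]]]]],[[[],[[[[[[Int.ofNat (nat_lit 227163647295268)]]]]]]]],[[[[[[[[Int.negSucc (nat_lit 183631949001859)]]]]]]]]],[[[[[[[[[Int.negSucc (nat_lit 61477990338597665)]]],[[[Int.ofNat (nat_lit 4517098746674850)]]]]],[[[[[Int.ofNat (nat_lit 718869710599754)]]]]]]],[[[[[[[Int.negSucc (nat_lit 28039110594071799)]]]]],[[[[[Int.negSucc (nat_lit 5119392760494855)]]]]]]],[[[[[[[Int.negSucc (nat_lit 898837014650831)]]]]]]]],[[[],[[[[[[Int.negSucc (nat_lit 1339215355653965)]]]]]]]],[[[[[[[[Int.negSucc (nat_lit 444177057518839)]]]]]]],[[[[[[[Int.negSucc (nat_lit 113315567268647)]]]]]]]]],[[[[[[[[[Int.negSucc (nat_lit 21531215977411789)]]],[[[Int.ofNat (nat_lit 2525279273056820)]]]]],[[[[[Int.negSucc (nat_lit 534307507739899)]]]]]]],[[[[[[[Int.ofNat (nat_lit 6772889347347614)]]]]]]]],[[[],[[[[[[Int.negSucc (nat_lit 219071403607005)]]]]]]]],[[[[[[[[Int.ofNat (nat_lit 397858081439616)]]]]]]]]],[[[[[[[[[Int.ofNat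 (nat_lit 1983231636655290)]]]]]]],[[[[[[[Int.ofNat (nat_lit 257606141714616)]]]]]]]]],[[[[[[[[[Int.negSucc (nat_lit 171688795293539)]]]]]]]]]]

/-- A coefficient. -/
noncomputable def sp0_m1_3_1 : MP 10 :=
  [[[[[[[],[[[[Int.ofNat (nat_lit 5795896523679098)]]]]],[[],[[[[Int.negSucc (nat_lit 6061416261736689)]]]]]],[[[[[[Int.ofNat (nat_lit 1678312472207382)]]],[[[Int.ofNat (nat_lit 224371500495916)]]]]],[[[[[Int.negSucc (nat_lit 18675201502534909)]]]]]]],[[[[],[[[[Int.negSucc (nat_lit 2185205300925353)]]]]]],[[[[[[Int.ofNat (nat_lit 14235580998139996)]]]]]]]],[[[[[[[[Int.negSucc (nat_lit 8361309488106153)]]],[[[Int.ofNat (nat_lit 649287725957884)]]]]],[[[[[Int.ofNat (nat_lit 12098345634562178)]]]]]],[],[[[[[[Int.negSucc (nat_lit 2093981811827421)]]]]]]],[[[[[[[Int.negSucc (nat_lit 9668406801788817)]]]]]]]],[[[[[],[[[[Int.ofNat (nat_lit 795734169937088)]]]]]],[[[[[[Int.negSucc (nat_lit 112084168768025)]]]]]]]],[[[[[[[[Int.ofNat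 (nat_lit 3106027850174684)]]]]]]]]],[[[[[[],[[[[Int.negSucc (nat_lit 420627184120943)]]]]]],[[[[[[Int.ofNat (nat_lit 6883525320846042)]]]]]]],[[],[[[[[[Int.negSucc (nat_lit 732450169882593)]]]]]]]],[[[[[[[[Int.ofNat (nat_lit 8404920868379724)]]]]],[[[[[Int.ofNat (nat_lit 674685967986924)]]]]]]],[[[[[[[Int.negSucc (nat_lit 831645461075411)]]]]]]]],[],[[[[[[[[Int.ofNat (nat_lit 201428157301452)]]]]]]]]],[[[[[[],[[[[Int.negSucc (nat_lit 134601100551313)]]]]]],[[[[[[Int.negSucc (nat_lit 259973835853299)]]]]]]]],[[[[[[[[Int.negSucc (nat_lit 1659376973255291)]]]]]]]]],[[],[[[[[[[[Int.ofNat (nat_lit 19975978118674)]]]]]]]]]]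

/-- A coefficient. -/
noncomputable def sp0_m1_3_2 : MP 10 :=
  [[[[[[[[[[Int.ofNat (nat_lit 335647879071797838)]]],[[[Int.negSucc (nat_lit 26467819177284899)]]]]],[[[[[Int.ofNat (nat_lit 24528563321895042)]]]]]],[[[],[[[[Int.negSucc (nat_lit 27806183135989403)]]]]]],[[[[[[Int.negSucc (nat_lit 33232537982130625)]]]]]]],[[[[[[[Int.negSucc (nat_lit 70022415990355973)]]]]],[[[[[Int.ofNat (nat_lit 6374446523516570)]]]]]]],[[[[[[[Int.negSucc (nat_lit 12831165843256897)]]]]]]]],[[[[[],[[[[Int.ofNat (nat_lit 9354278796310640)]]]]]],[[[[[[Int.ofNat (nat_lit 440732948946770)]]]]]]]],[[[[[[[[Int.ofNat (nat_lit 72748983622212436)]]]]]]],[[[[[[[Int.ofNat (nat_lit 1029979852080286)]]]]]]]]],[[[[[[[[[Int.ofNat (nat_lit 172360561051303010)]]],[[[Int.negSucc (nat_lit 5859338201051269)]]]]],[[[[[Int.negSucc (nat_lit 7131839610296663)]]]]]]],[[[[[[[Int.ofNat (nat_lit 22830643401013880)]]]]]]]],[[[],[[[[[[Int.negSucc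 (nat_lit 3694313205839727)]]]]]]]],[[[[[[[[Int.negSucc (nat_lit 6733806936455023)]]]]]]]]],[[[[[[[[[Int.ofNat (nat_lit 41006931665358628)]]]]]]],[[[[[[[Int.ofNat (nat_lit 5191045899386494)]]]]]]]]],[[[[[[[[[Int.negSucc (nat_lit 13822988808460633)]]]]]]]]]]

/-- A coefficient. -/
noncomputable def sp0_m1_3_3 : MP 10 :=
  [[[[[[[],[[[[Int.ofNat (nat_lit 30581014445740496)]]]]]],[[[[[[Int.negSucc (nat_lit 18470931684632039)]]]]]]],[[],[[[[[[Int.ofNat (nat_lit 6078835881033650)]]]]]]]],[[[[[[[[Int.negSucc (nat_lit 94258188623329815)]]]]],[[[[[Int.negSucc (nat_lit 11174765033722873)]]]]]]],[[[[[[[Int.ofNat (nat_lit 3242557316894426)]]]]]]]],[],[[[[[[[[Int.negSucc (nat_lit 1701949198525747)]]]]]]]]],[[[[[[],[[[[Int.negSucc (nat_lit 19342674042310611)]]]]]],[[[[[[Int.ofNat (nat_lit 32183883915553662)]]]]]]]],[[[[[[[[Int.negSucc (nat_lit 50432511912314917)]]]]]]]]],[[],[[[[[[[[Int.negSucc (nat_lit 1235854901035085)]]]]]]]]]]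

/-- A coefficient. -/
noncomputable def sp0_m1_3_4 : MP 10 :=
  [[[[[[[[[[Int.negSucc (nat_lit 2246195667932162077)]]],[[[Int.ofNat (nat_lit 43817148338698600)]]]]],[[[[[Int.negSucc (nat_lit 35162339489244591)]]]]]]],[[[[[[[Int.ofNat (nat_lit 192705170149981598)]]]]]]]],[[[],[[[[[[Int.ofNat (nat_lit 2409766878985494)]]]]]]]],[[[[[[[[Int.negSucc (nat_lit 64987915264816095)]]]]]]]]],[[[[[[[[[Int.ofNat (nat_lit 1789734436916398)]]]]]]],[[[[[[[Int.ofNat (nat_lit 10028740068006524)]]]]]]]]],[[[[[[[[[Int.negSucc (nat_lit 111843755628943327)]]]]]]]]]]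

/-- A coefficient. -/
noncomputable def sp0_m1_3_5 : MP 10 :=
  [[[[[[[],[[[[Int.negSucc (nat_lit 44322788979823261)]]]]]],[[[[[[Int.negSucc (nat_lit 33635124036904499)]]]]]]]],[[[[[[[[Int.ofNat (nat_lit 77511786973531212)]]]]]]]]],[[],[[[[[[[[Int.ofNat (nat_lit 59893702851911638)]]]]]]]]]]

/-- A coefficient. -/
noncomputable def sp0_m1_3_6 : MP 10 :=
  [[[[[[[[[[Int.ofNat (nat_lit 4181019061127466742)]]]]]]],[[[[[[[Int.negSucc (nat_lit 48416172141217149)]]]]]]]]],[[[[[[[[[Int.negSucc (nat_lit 249284551789294195)]]]]]]]]]]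

/-- A coefficient. -/
noncomputable def sp0_m1_3_7 : MP 10 :=
  [[[],[[[[[[[[Int.ofNat (nat_lit 74206883902955754)]]]]]]]]]]

/-- A coefficient. -/
noncomputable def sp0_m1_3_8 : MP 10 :=
  [[[[[[[[[[Int.negSucc (nat_lit 2451296793759096315)]]]]]]]]]]

/-- A coefficient. -/
noncomputable def sp0_m1_4_0 : MP 10 :=
  [[[[[[[[[[Int.ofNat (nat_lit 14473770054308560)]]],[[[Int.negSucc (nat_lit 3840894822681913)]]]]],[[[[[Int.ofNat (nat_lit 5816265455792822)]]]]],[[[[[Int.ofNat (nat_lit 25900389199487965)]]]]]]],[[[[[[[Int.ofNat (nat_lit 12321010101029508)]]],[[[Int.ofNat (nat_lit 1986051352313850)]]]]],[[[[[Int.ofNat (nat_lit 2476303192839954)]]]]]]],[[[[[[[Int.negSucc (nat_lit 38603995081977047)]]]]]]]],[[[],[[[[[[Int.ofNat (nat_lit 2958908565951998)]]]]]]],[[],[[[[[[Int.ofNat (nat_lit 563407844200982)]]]]]]]],[[[[[[[[Int.negSucc (nat_lit 1242271882173713)]]]]],[[[[[Int.negSucc (nat_lit 1821740928137343)]]]]]]],[[[[[[[Int.negSucc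 (nat_lit 659212873796247)]]]]]]]],[],[[[[[[[[Int.ofNat (nat_lit 614793385938803)]]]]]]]]],[[[[[[[[[Int.ofNat (nat_lit 40392740656022900)]]],[[[Int.negSucc (nat_lit 7573614495748199)]]]]],[[[[[Int.negSucc (nat_lit 1428438299185099)]]]]]]],[[[[[[[Int.ofNat (nat_lit 31460010338320018)]]]]]]],[[[[[[[Int.negSucc (nat_lit 870429561014525)]]]]]]]],[[[],[[[[[[Int.ofNat (nat_lit 1389310952857868)]]]]]]]],[[[[[[[[Int.negSucc (nat_lit 1828604153121107)]]]]]]]]],[[[[[[[[[Int.ofNat (nat_lit 9370631118620735)]]]]],[[[[[Int.ofNat (nat_lit 2358459045685476)]]]]]]],[[[[[[[Int.negSucc (nat_lit 8115522365570511)]]]]]]]],[],[[[[[[[[Int.negSucc (nat_lit 984510567508949)]]]]]]]]],[[[[[[[[[Int.ofNat (nat_lit 13214991068994012)]]]]]]]]],[[[[[[[[[Int.ofNat (nat_lit 3656613392702550)]]]]]]]]]]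

/-- A coefficient. -/
noncomputable def sp0_m1_4_1 : MP 10 :=
  [[[[[[[],[[[[Int.ofNat (nat_lit 6774794379846962)]]]]]],[[[[[[Int.negSucc (nat_lit 2597958951216201)]]]]],[[[[[Int.ofNat (nat_lit 9849631373454484)]]]]]]],[[[[],[[[[Int.ofNat (nat_lit 3769373657727490)]]]]]],[[[[[[Int.negSucc (nat_lit 7741025208061029)]]]]]]]],[[[[[[[[Int.ofNat (nat_lit 25809485903440736)]]],[[[Int.ofNat (nat_lit 6858907900868748)]]]]],[[[[[Int.ofNat (nat_lit 12369566328501442)]]]]]]],[[[[[[[Int.ofNat (nat_lit 53607335529165968)]]]]]]]],[[[],[[[[[[Int.negSucc (nat_lit 2263398818898991)]]]]]]]],[[[[[[[[Int.negSucc (nat_lit 2495126246576893)]]]]]]]]],[[[[[[],[[[[Int.negSucc (nat_lit 3657504502651545)]]]]]],[[[[[[Int.ofNat (nat_lit 2467490567496126)]]]]]]]],[[[[[[[[Int.ofNat (nat_lit 18997506371549106)]]]]]]],[[[[[[[Int.negSucc (nat_lit 1561795748176777)]]]]]]]]],[[[[],[[[[[[Int.negSucc (nat_lit 703824741034677)]]]]]]]],[[[[[[[[Int.ofNat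 (nat_lit 8183810414276854)]]]]]]]]]]

/-- A coefficient. -/
noncomputable def sp0_m1_4_2 : MP 10 :=
  [[[[[[[[[[Int.negSucc (nat_lit 318374761119417377)]]],[[[Int.negSucc (nat_lit 27017098508144997)]]]]],[[[[[Int.ofNat (nat_lit 23169710478952246)]]]]]],[],[[[[[[Int.ofNat (nat_lit 120430582078089593)]]]]]]],[[[[[[[Int.negSucc (nat_lit 93773939852844273)]]]]]]],[[[[[[[Int.ofNat (nat_lit 60159847293163836)]]]]]]]],[[[[[],[[[[Int.ofNat (nat_lit 32771487990319982)]]]]]],[[[[[[Int.negSucc (nat_lit 50956133060124305)]]]]]]]],[[[[[[[[Int.negSucc (nat_lit 360317725122455817)]]]]]]]]],[[[[[[[[[Int.negSucc (nat_lit 125816703195009047)]]]]],[[[[[Int.negSucc (nat_lit 517172891394237)]]]]]]],[[[[[[[Int.negSucc (nat_lit 74778092931742659)]]]]]]]],[],[[[[[[[[Int.negSucc (nat_lit 530042434802341)]]]]]]]]],[[[[[[[[[Int.negSucc (nat_lit 87818652325519417)]]]]]]]]],[[[[[[[[[Int.negSucc (nat_lit 2729909665929289)]]]]]]]]]]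

/-- A coefficient. -/
noncomputable def sp0_m1_4_3 : MP 10 :=
  [[[[[[[],[[[[Int.negSucc (nat_lit 20050725972436015)]]]]]],[[[[[[Int.ofNat (nat_lit 74154034578886246)]]]]]]]],[[[[[[[[Int.ofNat (nat_lit 626738477491022168)]]]]]]],[[[[[[[Int.negSucc (nat_lit 56652700702212965)]]]]]]]]],[[[[],[[[[[[Int.ofNat (nat_lit 37691175366517288)]]]]]]]],[[[[[[[[Int.negSucc (nat_lit 30744593475350117)]]]]]]]]]]

/-- A coefficient. -/
noncomputable def sp0_m1_4_4 : MP 10 :=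
  [[[[[[[[[[Int.ofNat (nat_lit 1636100873259224375)]]]]],[[[[[Int.negSucc (nat_lit 11315381269408089)]]]]]]],[[[[[[[Int.ofNat (nat_lit 75826080691869472)]]]]]]]],[],[[[[[[[[Int.ofNat (nat_lit 459692042797426234)]]]]]]]]],[[[[[[[[[Int.ofNat (nat_lit 437918997576224754)]]]]]]]]],[[[[[[[[[Int.ofNat (nat_lit 599054860439957646)]]]]]]]]]]

/-- A coefficient. -/
noncomputable def sp0_m1_4_5 : MP 10 :=
  [[[[[],[[[[[[Int.negSucc (nat_lit 11362153863022165)]]]]]]]],[[[[[[[[Int.negSucc (nat_lit 772204048992277181)]]]]]]]]]]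

/-- A coefficient. -/
noncomputable def sp0_m1_4_6 : MP 10 :=
  [[[[[[[[[[Int.negSucc (nat_lit 4855994427039872165)]]]]]]]]],[[[[[[[[[Int.negSucc (nat_lit 242411922861543319)]]]]]]]]]]

/-- A coefficient. -/
noncomputable def sp0_m1_4_7 : MP 10 :=
  []

/-- A coefficient. -/
noncomputable def sp0_m1_4_8 : MP 10 :=
  [[[[[[[[[[Int.ofNat (nat_lit 4822977553118549364)]]]]]]]]]]

/-- A coefficient. -/
noncomputable def sp0_m1_5_0 : MP 10 :=
  [[[[[[[[[[Int.ofNat (nat_lit 58281194605629768)]]],[[[Int.negSucc (nat_lit 19872231321938301)]]]]],[[[[[Int.negSucc (nat_lit 21283281997652689)]]]]]]],[[[[[[[Int.negSucc (nat_lit 13049897105843639)]]]]],[[[[[Int.negSucc (nat_lit 507154525061587)]]]]]]],[[[[[[[Int.negSucc (nat_lit 58400194912076405)]]]]]]]],[[[],[[[[[[Int.negSucc (nat_lit 1405848085576597)]]]]]]]],[[[[[[[[Int.ofNat (nat_lit 4371563291238074)]]]]]]],[[[[[[[Int.ofNat (nat_lit 1377745656751004)]]]]]]]]],[[[[[[[[[Int.ofNat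 (nat_lit 7548074409123520)]]],[[[Int.negSucc (nat_lit 2335798011810005)]]]]],[[[[[Int.negSucc (nat_lit 9518073907959631)]]]]]]],[[[[[[[Int.ofNat (nat_lit 60446694896654772)]]]]]]]],[[[],[[[[[[Int.negSucc (nat_lit 688726105922305)]]]]]]]],[[[[[[[[Int.ofNat (nat_lit 3631532123194434)]]]]]]]]],[[[[[[[[[Int.ofNat (nat_lit 27486842735901348)]]]]]]],[[[[[[[Int.ofNat (nat_lit 7884396569752594)]]]]]]]]],[[[[[[[[[Int.negSucc (nat_lit 26836261423829575)]]]]]]]]]]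

/-- A coefficient. -/
noncomputable def sp0_m1_5_1 : MP 10 :=
  [[[[[[[],[[[[Int.negSucc (nat_lit 10018638743682899)]]]]]],[[[[[[Int.negSucc (nat_lit 17678112197288673)]]]]]]],[[],[[[[[[Int.ofNat (nat_lit 6525277732497664)]]]]]]]],[[[[[[[[Int.ofNat (nat_lit 16823642443852540)]]]]],[[[[[Int.ofNat (nat_lit 7005299898051532)]]]]]]],[[[[[[[Int.ofNat (nat_lit 40959179586662092)]]]]]]]],[],[[[[[[[[Int.negSucc (nat_lit 983876825445621)]]]]]]]]],[[[[[[],[[[[Int.ofNat (nat_lit 2400807373699380)]]]]]],[[[[[[Int.ofNat (nat_lit 6398397692101400)]]]]]]]],[[[[[[[[Int.negSucc (nat_lit 63522275594741823)]]]]]]]]],[[],[[[[[[[[Int.negSucc (nat_lit 2246934231930875)]]]]]]]]]]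

/-- A coefficient. -/
noncomputable def sp0_m1_5_2 : MP 10 :=
  [[[[[[[[[[Int.negSucc (nat_lit 450408122307073481)]]],[[[Int.ofNat (nat_lit 16592943681958952)]]]]],[[[[[Int.negSucc (nat_lit 5422779525738897)]]]]]]],[[[[[[[Int.ofNat (nat_lit 55176049383670694)]]]]]]]],[[[],[[[[[[Int.negSucc (nat_lit 2617492331927863)]]]]]]]],[[[[[[[[Int.negSucc (nat_lit 214100569063947125)]]]]]]]]],[[[[[[[[[Int.ofNat (nat_lit 49635169980534012)]]]]]]],[[[[[[[Int.ofNat (nat_lit 617994373674750)]]]]]]]]],[[[[[[[[[Int.negSucc (nat_lit 43905650131905527)]]]]]]]]]]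

/-- A coefficient. -/
noncomputable def sp0_m1_5_3 : MP 10 :=
  [[[[[[[],[[[[Int.negSucc (nat_lit 28894911592950873)]]]]]],[[[[[[Int.negSucc (nat_lit 62517944240443583)]]]]]]]],[[[[[[[[Int.ofNat (nat_lit 276150649815696418)]]]]]]]]],[[],[[[[[[[[Int.ofNat (nat_lit 90051044571470338)]]]]]]]]]]

/-- A coefficient. -/
noncomputable def sp0_m1_5_4 : MP 10 :=
  [[[[[[[[[[Int.ofNat (nat_lit 3667748782228172752)]]]]]]],[[[[[[[Int.negSucc (nat_lit 27347326445569739)]]]]]]]]],[[[[[[[[[Int.negSucc (nat_lit 869168430002660631)]]]]]]]]]]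

/-- A coefficient. -/
noncomputable def sp0_m1_5_5 : MP 10 :=
  [[[],[[[[[[[[Int.ofNat (nat_lit 35163074470647032)]]]]]]]]]]

/-- A coefficient. -/
noncomputable def sp0_m1_5_6 : MP 10 :=
  [[[[[[[[[[Int.negSucc (nat_lit 3374351471049815059)]]]]]]]]]]

/-- A coefficient. -/
noncomputable def sp0_m1_6_0 : MP 10 :=
  [[[[[[[[[[Int.negSucc (nat_lit 198337875587028517)]]],[[[Int.negSucc (nat_lit 312704071182817)]]]]],[[[[[Int.ofNat (nat_lit 21393389849101914)]]]]]]],[[[[[[[Int.negSucc (nat_lit 9044998317000881)]]]]]]]],[[[],[[[[[[Int.negSucc (nat_lit 1947630140776587)]]]]]]]],[[[[[[[[Int.negSucc (nat_lit 1765614371167975)]]]]]]]]],[[[[[[[[[Int.negSucc (nat_lit 207152632676910877)]]]]],[[[[[Int.ofNat (nat_lit 9305573621648276)]]]]]]],[[[[[[[Int.ofNat (nat_lit 7657831748286318)]]]]]]]],[],[[[[[[[[Int.negSucc (nat_lit 754199118654483)]]]]]]]]],[[[[[[[[[Int.negSucc (nat_lit 142502842793674619)]]]]]]]]],[[[[[[[[[Int.negSucc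 (nat_lit 193170029063171)]]]]]]]]]]

/-- A coefficient. -/
noncomputable def sp0_m1_6_1 : MP 10 :=
  [[[[[[[],[[[[Int.negSucc (nat_lit 7170001162272933)]]]]]],[[[[[[Int.ofNat (nat_lit 3873095362659358)]]]]]]]],[[[[[[[[Int.ofNat (nat_lit 28401302493642936)]]]]]]]]],[[[[],[[[[[[Int.negSucc (nat_lit 5073169707905267)]]]]]]]],[[[[[[[[Int.ofNat (nat_lit 1653342767581676)]]]]]]]]]]

/-- A coefficient. -/
noncomputable def sp0_m1_6_2 : MP 10 :=
  [[[[[[[[[[Int.ofNat (nat_lit 1098800178510056236)]]]]],[[[[[Int.negSucc (nat_lit 24178468880381307)]]]]]]],[[[[[[[Int.ofNat (nat_lit 14872435899978062)]]]]]]]],[],[[[[[[[[Int.ofNat (nat_lit 1257861846652270)]]]]]]]]],[[[[[[[[[Int.ofNat (nat_lit 367159934639547250)]]]]]]]]],[[[[[[[[[Int.ofNat (nat_lit 109832072358966394)]]]]]]]]]]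

/-- A coefficient. -/
noncomputable def sp0_m1_6_3 : MP 10 :=
  [[[[[],[[[[[[Int.ofNat (nat_lit 72336134491832706)]]]]]]]],[[[[[[[[Int.negSucc (nat_lit 101643304407069)]]]]]]]]]]

/-- A coefficient. -/
noncomputable def sp0_m1_6_4 : MP 10 :=
  [[[[[[[[[[Int.negSucc (nat_lit 6527054357170955563)]]]]]]]]],[[[[[[[[[Int.negSucc (nat_lit 109653678267280019)]]]]]]]]]]

/-- A coefficient. -/
noncomputable def sp0_m1_6_5 : MP 10 :=
  []

/-- A coefficient. -/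
noncomputable def sp0_m1_6_6 : MP 10 :=
  [[[[[[[[[[Int.ofNat (nat_lit 5232973766479897096)]]]]]]]]]]

/-- A coefficient. -/
noncomputable def sp0_m1_7_0 : MP 10 :=
  [[[[[[[[[[Int.ofNat (nat_lit 37098417333875700)]]],[[[Int.ofNat (nat_lit 10196855148166874)]]]]],[[[[[Int.ofNat (nat_lit 1474207456292830)]]]]]]],[[[[[[[Int.negSucc (nat_lit 21340909710904803)]]]]]]]],[[[],[[[[[[Int.ofNat (nat_lit 725733253860452)]]]]]]]],[[[[[[[[Int.negSucc (nat_lit 1569869690494641)]]]]]]]]],[[[[[[[[[Int.ofNat (nat_lit 118975004406940654)]]]]]]],[[[[[[[Int.ofNat (nat_lit 1189642533633340)]]]]]]]]],[[[[[[[[[Int.negSucc (nat_lit 280316335764679)]]]]]]]]]]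

/-- A coefficient. -/
noncomputable def sp0_m1_7_1 : MP 10 :=
  [[[[[[[],[[[[Int.ofNat (nat_lit 9611036960789140)]]]]]],[[[[[[Int.ofNat (nat_lit 15146536349032312)]]]]]]]],[[[[[[[[Int.negSucc (nat_lit 11101305198426675)]]]]]]]]],[[],[[[[[[[[Int.negSucc (nat_lit 483094286095635)]]]]]]]]]]

/-- A coefficient. -/
noncomputable def sp0_m1_7_2 : MP 10 :=
  [[[[[[[[[[Int.negSucc (nat_lit 92859054059948899)]]]]]]],[[[[[[[Int.ofNat (nat_lit 13119090918449438)]]]]]]]]],[[[[[[[[[Int.negSucc (nat_lit 80632237619974001)]]]]]]]]]]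

/-- A coefficient. -/
noncomputable def sp0_m1_7_3 : MP 10 :=
  [[[],[[[[[[[[Int.ofNat (nat_lit 24111818701972184)]]]]]]]]]]

/-- A coefficient. -/
noncomputable def sp0_m1_7_4 : MP 10 :=
  [[[[[[[[[[Int.ofNat (nat_lit 30727766916938982)]]]]]]]]]]

/-- A coefficient. -/
noncomputable def sp0_m1_8_0 : MP 10 :=
  [[[[[[[[[[Int.ofNat (nat_lit 70673129395814814)]]]]],[[[[[Int.negSucc (nat_lit 6971166640010305)]]]]]]],[[[[[[[Int.negSucc (nat_lit 5038371193255229)]]]]]]]],[],[[[[[[[[Int.ofNat (nat_lit 721021653954436)]]]]]]]]],[[[[[[[[[Int.ofNat (nat_lit 43174280828798100)]]]]]]]]],[[[[[[[[[Int.ofNat (nat_lit 545486939051574)]]]]]]]]]]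

/-- A coefficient. -/
noncomputable def sp0_m1_8_1 : MP 10 :=
  [[[[[],[[[[[[Int.negSucc (nat_lit 2670067266919301)]]]]]]]],[[[[[[[[Int.negSucc (nat_lit 11063144610835957)]]]]]]]]]]

/-- A coefficient. -/
noncomputable def sp0_m1_8_2 : MP 10 :=
  [[[[[[[[[[Int.negSucc (nat_lit 203819185144213049)]]]]]]]]],[[[[[[[[[Int.negSucc (nat_lit 36946658402071069)]]]]]]]]]]

/-- A coefficient. -/
noncomputable def sp0_m1_8_3 : MP 10 :=
  []

/-- A coefficient. -/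
noncomputable def sp0_m1_8_4 : MP 10 :=
  [[[[[[[[[[Int.ofNat (nat_lit 168275735184964248)]]]]]]]]]]

/-- An expanded part. -/
noncomputable def sp0_m1 : R12 :=
  [[sp0_m1_0_0, sp0_m1_0_1, sp0_m1_0_2, sp0_m1_0_3, sp0_m1_0_4, sp0_m1_0_5, sp0_m1_0_6, sp0_m1_0_7, sp0_m1_0_8, sp0_m1_0_9, sp0_m1_0_10, sp0_m1_0_11, sp0_m1_0_12],
   [sp0_m1_1_0, sp0_m1_1_1, sp0_m1_1_2, sp0_m1_1_3, sp0_m1_1_4, sp0_m1_1_5, sp0_m1_1_6, sp0_m1_1_7, sp0_m1_1_8, sp0_m1_1_9, sp0_m1_1_10],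
   [sp0_m1_2_0, sp0_m1_2_1, sp0_m1_2_2, sp0_m1_2_3, sp0_m1_2_4, sp0_m1_2_5, sp0_m1_2_6, sp0_m1_2_7, sp0_m1_2_8, sp0_m1_2_9, sp0_m1_2_10],
   [sp0_m1_3_0, sp0_m1_3_1, sp0_m1_3_2, sp0_m1_3_3, sp0_m1_3_4, sp0_m1_3_5, sp0_m1_3_6, sp0_m1_3_7, sp0_m1_3_8],
   [sp0_m1_4_0, sp0_m1_4_1, sp0_m1_4_2, sp0_m1_4_3, sp0_m1_4_4, sp0_m1_4_5, sp0_m1_4_6, sp0_m1_4_7, sp0_m1_4_8],
   [sp0_m1_5_0, sp0_m1_5_1, sp0_m1_5_2, sp0_m1_5_3, sp0_m1_5_4, sp0_m1_5_5, sp0_m1_5_6],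
   [sp0_m1_6_0, sp0_m1_6_1, sp0_m1_6_2, sp0_m1_6_3, sp0_m1_6_4, sp0_m1_6_5, sp0_m1_6_6],
   [sp0_m1_7_0, sp0_m1_7_1, sp0_m1_7_2, sp0_m1_7_3, sp0_m1_7_4],
   [sp0_m1_8_0, sp0_m1_8_1, sp0_m1_8_2, sp0_m1_8_3, sp0_m1_8_4]]

set_option maxRecDepth 100000 in
theorem sp0_check1 : partOk 0 sp0_rows 1 sp0_m1 = true :=
  Fast.partOk_of_fast (by decide +kernel)

end Vale.Agent.P142K.CertB
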