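import Vale.Agent.P142K.CertB.Sp0Rows
import Vale.Agent.P142K.Fast

/-!
# An expanded part of the certificate

Generated from a semidefinite program; only the checker is trusted.
-/

namespace Vale.Agent.P142K.CertB

open Vale.Agent.P142J (MP)

/-- A coefficient. -/
noncomputable def sp0_m2_6_0 : MP 10 :=
  [[[[[[[[[[Int.ofNat (nat_lit 207399933663051472)]]]]]]],[[[[[[[Int.negSucc (nat_lit 24324372080884585)]]]]]]],[[[[[[[Int.ofNat (nat_lit 57053630582736858)]]]]]]]]],[[[[[[[[[Int.ofNat (nat_lit 27638662091189734)]]]]]]],[[[[[[[Int.negSucc (nat_lit 70847969498892955)]]]]]]]]],[[[[[[[[[Int.ofNat (nat_lit 93292722538028733)]]]]]]]]]]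

/-- A coefficient. -/
noncomputable def sp0_m2_6_1 : MP 10 :=
  [[[],[[[[[[[[Int.negSucc (nat_lit 8911982533048765)]]]]]]],[[[[[[[Int.negSucc (nat_lit 40103973602575541)]]]]]]]]],[[],[[[[[[[[Int.ofNat (nat_lit 15492731953747988)]]]]]]]]]]

/-- A coefficient. -/
noncomputable def sp0_m2_6_2 : MP 10 :=
  [[[[[[[[[[Int.negSucc (nat_lit 379112364207731497)]]]]]]],[[[[[[[Int.ofNat (nat_lit 63127896930317036)]]]]]]]],[],[[[[[[[[Int.ofNat (nat_lit 364347745081804816)]]]]]]]]],[[[[[[[[[Int.negSucc (nat_lit 87005195309201383)]]]]]]]]]]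

/-- A coefficient. -/
noncomputable def sp0_m2_6_3 : MP 10 :=
  [[[],[[[[[[[[Int.negSucc (nat_lit 689491319390641399)]]]]]]]]]]

/-- A coefficient. -/
noncomputable def sp0_m2_6_4 : MP 10 :=
  [[[[[[[[[[Int.ofNat (nat_lit 1952887259539724770)]]]]]]]]]]

/-- A coefficient. -/
noncomputable def sp0_m2_7_0 : MP 10 :=
  [[[[[[[[[[Int.negSucc (nat_lit 246837934121600065)]]]]]]],[[[[[[[Int.ofNat (nat_lit 65663180520100500)]]]]]]]]],[[[[[[[[[Int.negSucc (nat_lit 40387153184938523)]]]]]]],[[[[[[[Int.ofNat (nat_lit 10725389029262226)]]]]]]]]],[[[[[[[[[Int.negSucc (nat_lit 69719440688243309)]]]]]]]]]]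

/-- A coefficient. -/
noncomputable def sp0_m2_7_1 : MP 10 :=
  [[[],[[[[[[[[Int.negSucc (nat_lit 31175599449792825)]]]]]]]]],[[],[[[[[[[[Int.ofNat (nat_lit 19284964472628436)]]]]]]]]]]

/-- A coefficient. -/
noncomputable def sp0_m2_7_2 : MP 10 :=
  [[[[[[[[[[Int.ofNat (nat_lit 665939138514958870)]]]]]]],[[[[[[[Int.negSucc (nat_lit 42081868120056139)]]]]]]]]],[[[[[[[[[Int.ofNat (nat_lit 8953936048302054)]]]]]]]]]]

/-- A coefficient. -/
noncomputable def sp0_m2_7_3 : MP 10 :=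
  [[[],[[[[[[[[Int.ofNat (nat_lit 110237174354480872)]]]]]]]]]]

/-- A coefficient. -/
noncomputable def sp0_m2_7_4 : MP 10 :=
  [[[[[[[[[[Int.negSucc (nat_lit 3109259729381988145)]]]]]]]]]]

/-- A coefficient. -/
noncomputable def sp0_m2_8_0 : MP 10 :=
  [[[[[[[[[[Int.ofNat (nat_lit 12817643892297734)]]]]]]],[[[[[[[Int.negSucc (nat_lit 22802297149313277)]]]]]]]]],[[[[[[[[[Int.ofNat (nat_lit 206344492582208250)]]]]]]]]],[[[[[[[[[Int.ofNat (nat_lit 91915939523205809)]]]]]]]]]]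

/-- A coefficient. -/
noncomputable def sp0_m2_8_1 : MP 10 :=
  [[[],[[[[[[[[Int.ofNat (nat_lit 7507414838047894)]]]]]]]]]]

/-- A coefficient. -/
noncomputable def sp0_m2_8_2 : MP 10 :=
  [[[[[[[[[[Int.negSucc (nat_lit 786306588069454519)]]]]]]]]],[[[[[[[[[Int.negSucc (nat_lit 96558629125306887)]]]]]]]]]]

/-- A coefficient. -/
noncomputable def sp0_m2_8_3 : MP 10 :=
  []

/-- A coefficient. -/
noncomputable def sp0_m2_8_4 : MP 10 :=
  [[[[[[[[[[Int.ofNat (nat_lit 3887202369467043322)]]]]]]]]]]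

/-- A coefficient. -/
noncomputable def sp0_m2_9_0 : MP 10 :=
  [[[[[[[[[[Int.ofNat (nat_lit 379309316718561858)]]]]]]],[[[[[[[Int.ofNat (nat_lit 16302666537316800)]]]]]]]]],[[[[[[[[[Int.negSucc (nat_lit 152151305587455173)]]]]]]]]]]

/-- A coefficient. -/
noncomputable def sp0_m2_9_1 : MP 10 :=
  [[[],[[[[[[[[Int.ofNat (nat_lit 3612279310493046)]]]]]]]]]]

/-- A coefficient. -/
noncomputable def sp0_m2_9_2 : MP 10 :=
  [[[[[[[[[[Int.negSucc (nat_lit 269072267242882765)]]]]]]]]]]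

/-- A coefficient. -/
noncomputable def sp0_m2_10_0 : MP 10 :=
  [[[[[[[[[[Int.negSucc (nat_lit 256548955642501689)]]]]]]]]],[[[[[[[[[Int.negSucc (nat_lit 40459763510618903)]]]]]]]]]]

/-- A coefficient. -/
noncomputable def sp0_m2_10_1 : MP 10 :=
  []

/-- A coefficient. -/
noncomputable def sp0_m2_10_2 : MP 10 :=
  [[[[[[[[[[Int.ofNat (nat_lit 471691785003059640)]]]]]]]]]]

/-- A coefficient. -/
noncomputable def sp0_m2_11_0 : MP 10 :=
  [[[[[[[[[[Int.negSucc (nat_lit 257324728584337347)]]]]]]]]]]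

/-- A coefficient. -/
noncomputable def sp0_m2_12_0 : MP 10 :=
  [[[[[[[[[[Int.ofNat (nat_lit 217289375932924004)]]]]]]]]]]

/-- An expanded part. -/
noncomputable def sp0_m2 : R12 :=
  [[],
   [],
   [],
   [],
   [],
   [],
   [sp0_m2_6_0, sp0_m2_6_1, sp0_m2_6_2, sp0_m2_6_3, sp0_m2_6_4],
   [sp0_m2_7_0, sp0_m2_7_1, sp0_m2_7_2, sp0_m2_7_3, sp0_m2_7_4],
   [sp0_m2_8_0, sp0_m2_8_1, sp0_m2_8_2, sp0_m2_8_3, sp0_m2_8_4],
   [sp0_m2_9_0, sp0_m2_9_1, sp0_m2_9_2],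
   [sp0_m2_10_0, sp0_m2_10_1, sp0_m2_10_2],
   [sp0_m2_11_0],
   [sp0_m2_12_0]]

set_option maxRecDepth 100000 in
theorem sp0_check2 : partOk 0 sp0_rows 2 sp0_m2 = true :=
  Fast.partOk_of_fast (by decide +kernel)

end Vale.Agent.P142K.CertB
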