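import Vale.Agent.P142K.CertB.Sp2Rows
import Vale.Agent.P142K.Fast

/-!
# An expanded part of the certificate

Generated from a semidefinite program; only the checker is trusted.
-/

namespace Vale.Agent.P142K.CertB

open Vale.Agent.P142J (MP)

/-- A coefficient. -/
noncomputable def sp2_m1_4_0 : MP 10 :=
  [[[[],[],[[[[[[[Int.ofNat (nat_lit 55649746190258825)]]]]]]]]],[[[],[[[[[[[Int.negSucc (nat_lit 67223937483805343)]]]]]]]]],[[[[[[[[[Int.ofNat (nat_lit 92870732679967001)]]]]]]]]]]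

/-- A coefficient. -/
noncomputable def sp2_m1_4_1 : MP 10 :=
  [[[],[[],[[[[[[[Int.negSucc (nat_lit 47652410108952361)]]]]]]]]],[[],[[[[[[[[Int.ofNat (nat_lit 26101208236608524)]]]]]]]]]]

/-- A coefficient. -/
noncomputable def sp2_m1_4_2 : MP 10 :=
  [[[[],[[[[[[[Int.ofNat (nat_lit 68774688601119368)]]]]]]],[[[[[[[Int.negSucc (nat_lit 55649746190258824)]]]]]]]],[],[[[[[[[[Int.ofNat (nat_lit 370722543907088349)]]]]]]]]],[[[[[[[[[Int.negSucc (nat_lit 135837597050747777)]]]]]]],[[[[[[[Int.ofNat (nat_lit 67223937483805344)]]]]]]]]],[[[[[[[[[Int.negSucc (nat_lit 92870732679967000)]]]]]]]]]]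

/-- A coefficient. -/
noncomputable def sp2_m1_4_3 : MP 10 :=
  [[[],[[[[[[[[Int.negSucc (nat_lit 723526174989746329)]]]]]]],[[[[[[[Int.ofNat (nat_lit 47652410108952362)]]]]]]]]],[[],[[[[[[[[Int.negSucc (nat_lit 26101208236608523)]]]]]]]]]]

/-- A coefficient. -/
noncomputable def sp2_m1_4_4 : MP 10 :=
  [[[[[[[[[[Int.ofNat (nat_lit 1913664056278212618)]]]]]]],[[[[[[[Int.negSucc (nat_lit 68774688601119367)]]]]]]]],[],[[[[[[[[Int.negSucc (nat_lit 370722543907088348)]]]]]]]]],[[[[[[[[[Int.ofNat (nat_lit 135837597050747778)]]]]]]]]]]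

/-- A coefficient. -/
noncomputable def sp2_m1_4_5 : MP 10 :=
  [[[],[[[[[[[[Int.ofNat (nat_lit 723526174989746330)]]]]]]]]]]

/-- A coefficient. -/
noncomputable def sp2_m1_4_6 : MP 10 :=
  [[[[[[[[[[Int.negSucc (nat_lit 1913664056278212617)]]]]]]]]]]

/-- A coefficient. -/
noncomputable def sp2_m1_5_0 : MP 10 :=
  [[[[],[[[[[[[Int.ofNat (nat_lit 69198491109146508)]]]]]]]]],[[[[[[[[[Int.negSucc (nat_lit 136099613344337359)]]]]]]],[[[[[[[Int.ofNat (nat_lit 7473162560244038)]]]]]]]]],[[[[[[[[[Int.negSucc (nat_lit 68372091491231717)]]]]]]]]]]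

/-- A coefficient. -/
noncomputable def sp2_m1_5_1 : MP 10 :=
  [[[],[[[[[[[[Int.negSucc (nat_lit 45133339813374901)]]]]]]]]],[[],[[[[[[[[Int.ofNat (nat_lit 22525194764443874)]]]]]]]]]]

/-- A coefficient. -/
noncomputable def sp2_m1_5_2 : MP 10 :=
  [[[[[[[[[[Int.ofNat (nat_lit 311313793828914560)]]]]]]],[[[[[[[Int.negSucc (nat_lit 130155597241147907)]]]]]]]]],[[[[[[[[[Int.ofNat (nat_lit 247343784568240434)]]]]]]],[[[[[[[Int.negSucc (nat_lit 7473162560244037)]]]]]]]]],[[[[[[[[[Int.ofNat (nat_lit 68372091491231718)]]]]]]]]]]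

/-- A coefficient. -/
noncomputable def sp2_m1_5_3 : MP 10 :=
  [[[],[[[[[[[[Int.ofNat (nat_lit 196989183115178792)]]]]]]]]],[[],[[[[[[[[Int.negSucc (nat_lit 22525194764443873)]]]]]]]]]]

/-- A coefficient. -/
noncomputable def sp2_m1_5_4 : MP 10 :=
  [[[[[[[[[[Int.negSucc (nat_lit 3330848278338583891)]]]]]]],[[[[[[[Int.ofNat (nat_lit 60957106132001400)]]]]]]]]],[[[[[[[[[Int.negSucc (nat_lit 111244171223903073)]]]]]]]]]]

/-- A coefficient. -/
noncomputable def sp2_m1_5_5 : MP 10 :=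
  [[[],[[[[[[[[Int.negSucc (nat_lit 151855843301803889)]]]]]]]]]]

/-- A coefficient. -/
noncomputable def sp2_m1_5_6 : MP 10 :=
  [[[[[[[[[[Int.ofNat (nat_lit 3019534484509669332)]]]]]]]]]]

/-- A coefficient. -/
noncomputable def sp2_m1_6_0 : MP 10 :=
  [[[[[[[[[[Int.ofNat (nat_lit 178813375494639403)]]]]]]],[[[[[[[Int.negSucc (nat_lit 22266432211326933)]]]]]]],[[[[[[[Int.negSucc (nat_lit 55649746190258824)]]]]]]]]],[[[[[[[[[Int.ofNat (nat_lit 180336590411816400)]]]]]]],[[[[[[[Int.ofNat (nat_lit 67223937483805344)]]]]]]]]],[[[[[[[[[Int.negSucc (nat_lit 5223747018975686)]]]]]]]]]]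

/-- A coefficient. -/
noncomputable def sp2_m1_6_1 : MP 10 :=
  [[[],[[[[[[[[Int.ofNat (nat_lit 4528763721774092)]]]]]]],[[[[[[[Int.ofNat (nat_lit 47652410108952362)]]]]]]]]],[[],[[[[[[[[Int.negSucc (nat_lit 26101208236608523)]]]]]]]]]]

/-- A coefficient. -/
noncomputable def sp2_m1_6_2 : MP 10 :=
  [[[[[[[[[[Int.negSucc (nat_lit 770318982242305276)]]]]]]],[[[[[[[Int.negSucc (nat_lit 46508256389792433)]]]]]]]],[],[[[[[[[[Int.negSucc (nat_lit 370722543907088348)]]]]]]]]],[[[[[[[[[Int.negSucc (nat_lit 126107768837982497)]]]]]]]]],[[[[[[[[[Int.negSucc (nat_lit 87646985660991313)]]]]]]]]]]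

/-- A coefficient. -/
noncomputable def sp2_m1_6_3 : MP 10 :=
  [[[],[[[[[[[[Int.ofNat (nat_lit 718997411267972238)]]]]]]]]]]

/-- A coefficient. -/
noncomputable def sp2_m1_6_4 : MP 10 :=
  [[[[[[[[[[Int.ofNat (nat_lit 2442314387251161896)]]]]]]]]],[[[[[[[[[Int.ofNat (nat_lit 81608775476913876)]]]]]]]]]]

/-- A coefficient. -/
noncomputable def sp2_m1_6_5 : MP 10 :=
  []

/-- A coefficient. -/
noncomputable def sp2_m1_6_6 : MP 10 :=
  [[[[[[[[[[Int.negSucc (nat_lit 3764472836781708639)]]]]]]]]]]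

/-- A coefficient. -/
noncomputable def sp2_m1_7_0 : MP 10 :=
  [[[[[[[[[[Int.negSucc (nat_lit 9126609742986115)]]]]]]],[[[[[[[Int.negSucc (nat_lit 52895824719559999)]]]]]]]]],[[[[[[[[[Int.negSucc (nat_lit 16051691294001449)]]]]]]],[[[[[[[Int.negSucc (nat_lit 7473162560244037)]]]]]]]]],[[[[[[[[[Int.ofNat (nat_lit 68372091491231718)]]]]]]]]]]

/-- A coefficient. -/
noncomputable def sp2_m1_7_1 : MP 10 :=
  [[[],[[[[[[[[Int.ofNat (nat_lit 52807498688229528)]]]]]]]]],[[],[[[[[[[[Int.negSucc (nat_lit 22525194764443873)]]]]]]]]]]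

/-- A coefficient. -/
noncomputable def sp2_m1_7_2 : MP 10 :=
  [[[[[[[[[[Int.negSucc (nat_lit 278118191132277285)]]]]]]],[[[[[[[Int.ofNat (nat_lit 44654439742414892)]]]]]]]]],[[[[[[[[[Int.ofNat (nat_lit 40907133414435736)]]]]]]]]]]

/-- A coefficient. -/
noncomputable def sp2_m1_7_3 : MP 10 :=
  [[[],[[[[[[[[Int.negSucc (nat_lit 159530002176658515)]]]]]]]]]]

/-- A coefficient. -/
noncomputable def sp2_m1_7_4 : MP 10 :=
  [[[[[[[[[[Int.ofNat (nat_lit 2995465491556018174)]]]]]]]]]]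

/-- A coefficient. -/
noncomputable def sp2_m1_8_0 : MP 10 :=
  [[[[[[[[[[Int.negSucc (nat_lit 218072956031205028)]]]]]]],[[[[[[[Int.ofNat (nat_lit 22266432211326934)]]]]]]]]],[[[[[[[[[Int.negSucc (nat_lit 220796354121498697)]]]]]]]]],[[[[[[[[[Int.negSucc (nat_lit 87646985660991313)]]]]]]]]]]

/-- A coefficient. -/
noncomputable def sp2_m1_8_1 : MP 10 :=
  [[[],[[[[[[[[Int.negSucc (nat_lit 4528763721774091)]]]]]]]]]]

/-- A coefficient. -/
noncomputable def sp2_m1_8_2 : MP 10 :=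
  [[[[[[[[[[Int.ofNat (nat_lit 814860804107274878)]]]]]]]]],[[[[[[[[[Int.ofNat (nat_lit 122068539186596174)]]]]]]]]]]

/-- A coefficient. -/
noncomputable def sp2_m1_8_3 : MP 10 :=
  []

/-- A coefficient. -/
noncomputable def sp2_m1_8_4 : MP 10 :=
  [[[[[[[[[[Int.negSucc (nat_lit 3948568453604752017)]]]]]]]]]]

/-- A coefficient. -/
noncomputable def sp2_m1_9_0 : MP 10 :=
  [[[[[[[[[[Int.negSucc (nat_lit 248198118813066973)]]]]]]],[[[[[[[Int.negSucc (nat_lit 16302666389586507)]]]]]]]]],[[[[[[[[[Int.ofNat (nat_lit 152151304638338810)]]]]]]]]]]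

/-- A coefficient. -/
noncomputable def sp2_m1_9_1 : MP 10 :=
  [[[],[[[[[[[[Int.negSucc (nat_lit 7674158874854625)]]]]]]]]]]

/-- A coefficient. -/
noncomputable def sp2_m1_9_2 : MP 10 :=
  [[[[[[[[[[Int.ofNat (nat_lit 233255735602401932)]]]]]]]]]]

/-- A coefficient. -/
noncomputable def sp2_m1_10_0 : MP 10 :=
  [[[[[[[[[[Int.ofNat (nat_lit 256548956724404817)]]]]]]]]],[[[[[[[[[Int.ofNat (nat_lit 40459763709682298)]]]]]]]]]]

/-- A coefficient. -/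
noncomputable def sp2_m1_10_1 : MP 10 :=
  []

/-- A coefficient. -/
noncomputable def sp2_m1_10_2 : MP 10 :=
  [[[[[[[[[[Int.negSucc (nat_lit 401384993010882568)]]]]]]]]]]

/-- A coefficient. -/
noncomputable def sp2_m1_11_0 : MP 10 :=
  [[[[[[[[[[Int.ofNat (nat_lit 257324728556053090)]]]]]]]]]]

/-- A coefficient. -/
noncomputable def sp2_m1_12_0 : MP 10 :=
  [[[[[[[[[[Int.negSucc (nat_lit 217289376187839190)]]]]]]]]]]

/-- An expanded part. -/
noncomputable def sp2_m1 : R12 :=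
  [[],
   [],
   [],
   [],
   [sp2_m1_4_0, sp2_m1_4_1, sp2_m1_4_2, sp2_m1_4_3, sp2_m1_4_4, sp2_m1_4_5, sp2_m1_4_6],
   [sp2_m1_5_0, sp2_m1_5_1, sp2_m1_5_2, sp2_m1_5_3, sp2_m1_5_4, sp2_m1_5_5, sp2_m1_5_6],
   [sp2_m1_6_0, sp2_m1_6_1, sp2_m1_6_2, sp2_m1_6_3, sp2_m1_6_4, sp2_m1_6_5, sp2_m1_6_6],
   [sp2_m1_7_0, sp2_m1_7_1, sp2_m1_7_2, sp2_m1_7_3, sp2_m1_7_4],
   [sp2_m1_8_0, sp2_m1_8_1, sp2_m1_8_2, sp2_m1_8_3, sp2_m1_8_4],
   [sp2_m1_9_0, sp2_m1_9_1, sp2_m1_9_2],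
   [sp2_m1_10_0, sp2_m1_10_1, sp2_m1_10_2],
   [sp2_m1_11_0],
   [sp2_m1_12_0]]

set_option maxRecDepth 100000 in
theorem sp2_check1 : partOk 2 sp2_rows 1 sp2_m1 = true :=
  Fast.partOk_of_fast (by decide +kernel)

end Vale.Agent.P142K.CertB
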