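import Vale.Agent.P142K.CertB.Sp3Rows
import Vale.Agent.P142K.Fast

/-!
# An expanded part of the certificate

Generated from a semidefinite program; only the checker is trusted.
-/

namespace Vale.Agent.P142K.CertB

open Vale.Agent.P142J (MP)

/-- A coefficient. -/
noncomputable def sp3_m1_2_0 : MP 10 :=
  [[[[[],[],[[[[[[Int.ofNat (nat_lit 30665231727510790)]]]]]]]],[[[],[[[[[[Int.negSucc (nat_lit 9292500845492669)]]]]]]],[[],[[[[[[Int.ofNat (nat_lit 2066357563818334)]]]]]]]],[[[[[[[[Int.ofNat (nat_lit 43873980561055702)]]]]]]],[[[[[[[Int.negSucc (nat_lit 4982858051107335)]]]]]]],[[[[[[[Int.ofNat (nat_lit 3175095565918726)]]]]]]]]],[[[[],[],[[[[[[Int.ofNat (nat_lit 125158383963692)]]]]]]]],[[[],[[[[[[Int.negSucc (nat_lit 481860913617923)]]]]]]],[[],[[[[[[Int.negSucc (nat_lit 1372485191932337)]]]]]]]],[[[[[[[[Int.ofNat (nat_lit 3212011019023500)]]]]]]],[[[[[[[Int.negSucc (nat_lit 3682799085924821)]]]]]]]]],[[[[],[],[[[[[[Int.ofNat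 (nat_lit 1981050672945688)]]]]]]]],[[[],[[[[[[Int.negSucc (nat_lit 184298221642939)]]]]]]]],[[[[[[[[Int.ofNat (nat_lit 1986104880221420)]]]]]]]]]]

/-- A coefficient. -/
noncomputable def sp3_m1_2_1 : MP 10 :=
  [[[[[],[[[[[[Int.ofNat (nat_lit 20407266373280318)]]]]],[[[[[Int.ofNat (nat_lit 6899268071500048)]]]]]]],[[],[[[[[[Int.negSucc (nat_lit 7386904111728689)]]]]]]]],[[[[[[[[Int.negSucc (nat_lit 118466904928429025)]]]]],[[[[[Int.ofNat (nat_lit 5763586291910338)]]]]]]],[[[[[[[Int.ofNat (nat_lit 18171762091078082)]]]]],[[[[[Int.negSucc (nat_lit 4653318228511947)]]]]]]],[[[[[[[Int.negSucc (nat_lit 9970071970724143)]]]]]]]],[[[],[[[[[[Int.negSucc (nat_lit 561795901337775)]]]]]]]],[[[[[[[[Int.ofNat (nat_lit 323641475145992)]]]]]]],[[[[[[[Int.negSucc (nat_lit 75545490414027)]]]]]]]]],[[[[],[[[[[[Int.ofNat (nat_lit 32294787149198586)]]]]],[[[[[Int.negSucc (nat_lit 1496196232370539)]]]]]]],[[],[[[[[[Int.ofNat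 (nat_lit 2218779493107088)]]]]]]]],[[[[[[[[Int.negSucc (nat_lit 24657671545003729)]]]]],[[[[[Int.ofNat (nat_lit 1844149483955112)]]]]]]],[[[[[[[Int.ofNat (nat_lit 18079782435500038)]]]]]]]],[[[],[[[[[[Int.negSucc (nat_lit 70959535658577)]]]]]]]],[[[[[[[[Int.ofNat (nat_lit 17828537736520)]]]]]]]]],[[[[],[[[[[[Int.negSucc (nat_lit 3037872798418733)]]]]]]]],[[[[[[[[Int.negSucc (nat_lit 8616284024456109)]]]]]]],[[[[[[[Int.ofNat (nat_lit 376175487790976)]]]]]]]]],[[[[],[[[[[[Int.negSucc (nat_lit 46591753350649)]]]]]]]],[[[[[[[[Int.negSucc (nat_lit 215453970530201)]]]]]]]]]]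

/-- A coefficient. -/
noncomputable def sp3_m1_2_2 : MP 10 :=
  [[[[[[[[[[Int.ofNat (nat_lit 248639832823421691)]]]]],[[[[[Int.ofNat (nat_lit 2269473934522800)]]]]],[[[[[Int.ofNat (nat_lit 101681940356655098)]]]]]],[],[[[[[[Int.negSucc (nat_lit 59395149697453851)]]]]]]],[[[[[[[Int.negSucc (nat_lit 30628360087575501)]]]]],[[[[[Int.ofNat (nat_lit 9788029343137004)]]]]]]],[[[[[[[Int.ofNat (nat_lit 60469780914557446)]]]]]]]],[[[],[[[[[[Int.ofNat (nat_lit 13272793492647472)]]]]]]],[[],[[[[[[Int.ofNat (nat_lit 1422227381904210)]]]]]]]],[[[[[[[[Int.negSucc (nat_lit 86123406150747053)]]]]],[[[[[Int.negSucc (nat_lit 6851925159032035)]]]]]]],[[[[[[[Int.negSucc (nat_lit 1204806147408495)]]]]]]]],[],[[[[[[[[Int.ofNat (nat_lit 887775776794165)]]]]]]]]],[[[[[[[[[Int.ofNat (nat_lit 176348177164325044)]]]]],[[[[[Int.negSucc (nat_lit 12811892916953621)]]]]]],[],[[[[[[Int.negSucc (nat_lit 890208968706295)]]]]]]],[[[[[[[Int.negSucc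 (nat_lit 80785161621727653)]]]]]]]],[[[],[[[[[[Int.negSucc (nat_lit 685314924872217)]]]]]]]],[[[[[[[[Int.negSucc (nat_lit 1378435676788209)]]]]]]]]],[[[[[[[[[Int.ofNat (nat_lit 337336312014867561)]]]]],[[[[[Int.ofNat (nat_lit 5903447493149514)]]]]]]],[[[[[[[Int.negSucc (nat_lit 8614613561525247)]]]]]]]],[],[[[[[[[[Int.negSucc (nat_lit 1335565739601841)]]]]]]]]],[[[[[[[[[Int.ofNat (nat_lit 12612663776001182)]]]]]]]]],[[[[[[[[[Int.ofNat (nat_lit 4095830951376128)]]]]]]]]]]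

/-- A coefficient. -/
noncomputable def sp3_m1_2_3 : MP 10 :=
  [[[[[],[[[[[[Int.negSucc (nat_lit 38258687158021153)]]]]],[[[[[Int.ofNat (nat_lit 21245721954952698)]]]]]]],[[],[[[[[[Int.negSucc (nat_lit 9876590225631573)]]]]]]]],[[[[[[[[Int.ofNat (nat_lit 310695358766332626)]]]]],[[[[[Int.ofNat (nat_lit 10379163461051484)]]]]]]],[[[[[[[Int.negSucc (nat_lit 31714190944200803)]]]]]]]],[[[],[[[[[[Int.ofNat (nat_lit 2022940223429722)]]]]]]]],[[[[[[[[Int.negSucc (nat_lit 5975524607399329)]]]]]]]]],[[[[],[[[[[[Int.negSucc (nat_lit 40213699804201787)]]]]]]]],[[[[[[[[Int.ofNat (nat_lit 38320706674371426)]]]]]]],[[[[[[[Int.negSucc (nat_lit 10177847978128715)]]]]]]]]],[[[[],[[[[[[Int.ofNat (nat_lit 4706493257667862)]]]]]]]],[[[[[[[[Int.ofNat (nat_lit 14418262893811726)]]]]]]]]]]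

/-- A coefficient. -/
noncomputable def sp3_m1_2_4 : MP 10 :=
  [[[[[[[[[[Int.negSucc (nat_lit 1272345998278320693)]]]]],[[[[[Int.ofNat (nat_lit 4936674037587436)]]]]]],[],[[[[[[Int.ofNat (nat_lit 125260394407932875)]]]]]]],[[[[[[[Int.ofNat (nat_lit 68249569865475924)]]]]]]]],[[[],[[[[[[Int.negSucc (nat_lit 63307279590044263)]]]]]]]],[[[[[[[[Int.ofNat (nat_lit 141274645446077976)]]]]]]]]],[[[[[[[[[Int.negSucc (nat_lit 535380490553931449)]]]]],[[[[[Int.ofNat (nat_lit 8781735126776570)]]]]]]],[[[[[[[Int.ofNat (nat_lit 29216340049076708)]]]]]]]],[],[[[[[[[[Int.ofNat (nat_lit 643940523310834)]]]]]]]]],[[[[[[[[[Int.negSucc (nat_lit 696022219671081443)]]]]]]]]],[[[[[[[[[Int.ofNat (nat_lit 1093225248708866)]]]]]]]]]]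

/-- A coefficient. -/
noncomputable def sp3_m1_2_5 : MP 10 :=
  [[[[[],[[[[[[Int.ofNat (nat_lit 89899393843409894)]]]]]]]],[[[[[[[[Int.negSucc (nat_lit 446883598812711235)]]]]]]],[[[[[[[Int.negSucc (nat_lit 2951435178924767)]]]]]]]]],[[[[],[[[[[[Int.ofNat (nat_lit 39922226563762430)]]]]]]]],[[[[[[[[Int.negSucc (nat_lit 12544763821411313)]]]]]]]]]]

/-- A coefficient. -/
noncomputable def sp3_m1_2_6 : MP 10 :=
  [[[[[[[[[[Int.ofNat (nat_lit 4016884730008556602)]]]]],[[[[[Int.ofNat (nat_lit 2450274351883258)]]]]]]],[[[[[[[Int.negSucc (nat_lit 19438210421470545)]]]]]]]],[],[[[[[[[[Int.ofNat (nat_lit 834085378538400)]]]]]]]]],[[[[[[[[[Int.ofNat (nat_lit 584537768606927904)]]]]]]]]],[[[[[[[[[Int.ofNat (nat_lit 574547961678961459)]]]]]]]]]]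

/-- A coefficient. -/
noncomputable def sp3_m1_2_7 : MP 10 :=
  [[[[[],[[[[[[Int.negSucc (nat_lit 10225365332299255)]]]]]]]],[[[[[[[[Int.ofNat (nat_lit 123750252903128460)]]]]]]]]]]

/-- A coefficient. -/
noncomputable def sp3_m1_2_8 : MP 10 :=
  [[[[[[[[[[Int.negSucc (nat_lit 5375326992156900931)]]]]]]]]],[[[[[[[[[Int.negSucc (nat_lit 222834939773657077)]]]]]]]]]]

/-- A coefficient. -/
noncomputable def sp3_m1_2_9 : MP 10 :=
  []

/-- A coefficient. -/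
noncomputable def sp3_m1_2_10 : MP 10 :=
  [[[[[[[[[[Int.ofNat (nat_lit 2651473398450324972)]]]]]]]]]]

/-- A coefficient. -/
noncomputable def sp3_m1_3_0 : MP 10 :=
  [[[[[],[[[],[[[[Int.ofNat (nat_lit 7920948142054126)]]]]]],[[[[[[Int.ofNat (nat_lit 10567677604952120)]]]]]]]],[[[[[],[[[[Int.ofNat (nat_lit 2032945535524800)]]]]]],[[[[[[Int.ofNat (nat_lit 906688710747336)]]]]]]],[[[[],[[[[Int.negSucc (nat_lit 3043875475769109)]]]]]],[[[[[[Int.ofNat (nat_lit 808262627211298)]]]]]]]],[[[[[[[[Int.negSucc (nat_lit 65483478384455587)]]]]]]],[[[[[[[Int.ofNat (nat_lit 15841523765052918)]]]]]]]]],[[[[],[[[],[[[[Int.negSucc (nat_lit 3645313972594287)]]]]]],[[[[[[Int.negSucc (nat_lit 3439431690066523)]]]]]]]],[[[[[],[[[[Int.ofNat (nat_lit 404282349389040)]]]]]],[[[[[[Int.negSucc (nat_lit 361083500786547)]]]]]]]],[[[[[[[[Int.negSucc (nat_lit 5200524216909725)]]]]]]],[[[[[[[Int.ofNat (nat_lit 225886254240788)]]]]]]]]],[[],[[[],[[[[[[Int.ofNat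 (nat_lit 123941420786028)]]]]]]]],[[[[[[[[Int.negSucc (nat_lit 455569690543827)]]]]]]]]]]

/-- A coefficient. -/
noncomputable def sp3_m1_3_1 : MP 10 :=
  [[[[[[[],[[[[Int.negSucc (nat_lit 2561590504185001)]]]]],[[],[[[[Int.ofNat (nat_lit 8056158005112474)]]]]]],[[[[[[Int.negSucc (nat_lit 37775325951091383)]]]]],[[[[[Int.ofNat (nat_lit 4167178943445752)]]]]]]],[[[[],[[[[Int.ofNat (nat_lit 3856531725996112)]]]]]],[[[[[[Int.negSucc (nat_lit 15344109318997915)]]]]]]]],[[[[[[[[Int.ofNat (nat_lit 145104576874809170)]]]]],[[[[[Int.negSucc (nat_lit 8843819178002201)]]]]]]],[[[[[[[Int.negSucc (nat_lit 56295770974762465)]]]]]]],[[[[[[[Int.negSucc (nat_lit 1545954013830645)]]]]]]]],[[[[[],[[[[Int.ofNat (nat_lit 94278713970600)]]]]]],[[[[[[Int.negSucc (nat_lit 222073607181391)]]]]]]]],[[[[[[[[Int.negSucc (nat_lit 787530807011929)]]]]]]]]],[[[[[[],[[[[Int.ofNat (nat_lit 4548790095635290)]]]]]],[[[[[[Int.ofNat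 (nat_lit 13977904397907280)]]]]]]],[[],[[[[[[Int.ofNat (nat_lit 3778343455535560)]]]]]]]],[[[[[[[[Int.ofNat (nat_lit 65671098119365336)]]]]],[[[[[Int.negSucc (nat_lit 310689612227289)]]]]]]],[[[[[[[Int.negSucc (nat_lit 651349802074117)]]]]]]]],[],[[[[[[[[Int.negSucc (nat_lit 15961646719621)]]]]]]]]],[[[[[[],[[[[Int.negSucc (nat_lit 246208378949163)]]]]]],[[[[[[Int.ofNat (nat_lit 400200150848562)]]]]]]]],[[[[[[[[Int.ofNat (nat_lit 6248539920038144)]]]]]]]]],[[],[[[[[[[[Int.negSucc (nat_lit 45636420934557)]]]]]]]]]]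

/-- A coefficient. -/
noncomputable def sp3_m1_3_2 : MP 10 :=
  [[[[[[[[[[Int.negSucc (nat_lit 315526428713734597)]]]]],[[[[[Int.negSucc (nat_lit 31543608422963885)]]]]]],[[[],[[[[Int.negSucc (nat_lit 461606785056715)]]]]]],[[[[[[Int.negSucc (nat_lit 2102631688006939)]]]]]]],[[[[[[[Int.ofNat (nat_lit 46290877536472222)]]]]],[[[[[Int.negSucc (nat_lit 13036193172027743)]]]]]]],[[[[[[[Int.negSucc (nat_lit 68069129820697167)]]]]]]]],[[[[[],[[[[Int.negSucc (nat_lit 9341725907975845)]]]]]],[[[[[[Int.ofNat (nat_lit 14700876354525916)]]]]]]]],[[[[[[[[Int.ofNat (nat_lit 121456951006943732)]]]]]]],[[[[[[[Int.ofNat (nat_lit 16473677454918)]]]]]]]]],[[[[[[[[[Int.negSucc (nat_lit 425820906621960843)]]]]],[[[[[Int.negSucc (nat_lit 10837036877465749)]]]]]]],[[[[[[[Int.ofNat (nat_lit 64940953020157898)]]]]]]]],[[[],[[[[[[Int.negSucc (nat_lit 3998888466579235)]]]]]]]],[[[[[[[[Int.negSucc (nat_lit 2843613244539583)]]]]]]]]],[[[[[[[[[Int.ofNat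 (nat_lit 11749057511321228)]]]]]]],[[[[[[[Int.ofNat (nat_lit 6734958909317532)]]]]]]]]],[[[[[[[[[Int.negSucc (nat_lit 29657936051601043)]]]]]]]]]]

/-- A coefficient. -/
noncomputable def sp3_m1_3_3 : MP 10 :=
  [[[[[[[],[[[[Int.negSucc (nat_lit 6314646387637987)]]]]]],[[[[[[Int.ofNat (nat_lit 20459367052161138)]]]]]]],[[],[[[[[[Int.ofNat (nat_lit 17605560198898066)]]]]]]]],[[[[[[[[Int.negSucc (nat_lit 250913058739391483)]]]]],[[[[[Int.ofNat (nat_lit 18755121819197300)]]]]]]],[[[[[[[Int.ofNat (nat_lit 89050446443429208)]]]]]]]],[],[[[[[[[[Int.ofNat (nat_lit 1296693377068722)]]]]]]]]],[[[[[[],[[[[Int.negSucc (nat_lit 1948780792453797)]]]]]],[[[[[[Int.negSucc (nat_lit 19655295743305277)]]]]]]]],[[[[[[[[Int.negSucc (nat_lit 147646347064009431)]]]]]]]]],[[],[[[[[[[[Int.negSucc (nat_lit 7941498050044067)]]]]]]]]]]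

/-- A coefficient. -/
noncomputable def sp3_m1_3_4 : MP 10 :=
  [[[[[[[[[[Int.ofNat (nat_lit 930028503608895138)]]]]],[[[[[Int.ofNat (nat_lit 20231761907710200)]]]]]]],[[[[[[[Int.negSucc (nat_lit 28279652783029779)]]]]]]]],[[[],[[[[[[Int.negSucc (nat_lit 18058827494207375)]]]]]]]],[[[[[[[[Int.negSucc (nat_lit 167787947384036141)]]]]]]]]],[[[[[[[[[Int.ofNat (nat_lit 967306210495088210)]]]]]]],[[[[[[[Int.ofNat (nat_lit 12818863772200450)]]]]]]]]],[[[[[[[[[Int.negSucc (nat_lit 56328182637768917)]]]]]]]]]]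

/-- A coefficient. -/
noncomputable def sp3_m1_3_5 : MP 10 :=
  [[[[[[[],[[[[Int.ofNat (nat_lit 17415434899404296)]]]]]],[[[[[[Int.negSucc (nat_lit 33850651807198009)]]]]]]]],[[[[[[[[Int.ofNat (nat_lit 253716117147344212)]]]]]]]]],[[],[[[[[[[[Int.ofNat (nat_lit 90390049174959142)]]]]]]]]]]

/-- A coefficient. -/
noncomputable def sp3_m1_3_6 : MP 10 :=
  [[[[[[[[[[Int.negSucc (nat_lit 673952984218724519)]]]]]]],[[[[[[[Int.negSucc (nat_lit 13773815261965873)]]]]]]]]],[[[[[[[[[Int.negSucc (nat_lit 826106649498962053)]]]]]]]]]]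

/-- A coefficient. -/
noncomputable def sp3_m1_3_7 : MP 10 :=
  [[[],[[[[[[[[Int.ofNat (nat_lit 18487445129660830)]]]]]]]]]]

/-- A coefficient. -/
noncomputable def sp3_m1_3_8 : MP 10 :=
  [[[[[[[[[[Int.negSucc (nat_lit 6236456404102881)]]]]]]]]]]

/-- A coefficient. -/
noncomputable def sp3_m1_4_0 : MP 10 :=
  [[[[[[[],[],[[[[Int.ofNat (nat_lit 27586673902598050)]]]]]],[[[],[[[[Int.ofNat (nat_lit 7737594642840866)]]]]]],[[[[[[Int.negSucc (nat_lit 32896050999592660)]]]]]]]],[[[[[],[[[[Int.negSucc (nat_lit 19392611781513463)]]]]]],[[[[[[Int.ofNat (nat_lit 6277055685486892)]]]]]]],[[],[[[[[[Int.negSucc (nat_lit 809865751400677)]]]]]]]],[[[[[[[[Int.ofNat (nat_lit 29068561659223934)]]]]]]],[[[[[[[Int.negSucc (nat_lit 1250326914399007)]]]]]]]]],[[[[],[],[[[[[[Int.negSucc (nat_lit 748841695508377)]]]]]]]],[[[[[],[[[[Int.ofNat (nat_lit 4148730838417724)]]]]]],[[[[[[Int.ofNat (nat_lit 1797043828097700)]]]]]]]],[[[[[[[[Int.ofNat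 (nat_lit 3311653782491956)]]]]]]]]],[[],[],[[[[[[[[Int.ofNat (nat_lit 2971614187177290)]]]]]]]]]]

/-- A coefficient. -/
noncomputable def sp3_m1_4_1 : MP 10 :=
  [[[[[[[],[[[[Int.ofNat (nat_lit 12799157305873450)]]]]]],[[[[[[Int.ofNat (nat_lit 5717837019342608)]]]]],[[[[[Int.negSucc (nat_lit 3140715987074435)]]]]]]],[[[[],[[[[Int.negSucc (nat_lit 29648010606333735)]]]]]],[[[[[[Int.negSucc (nat_lit 14524484858086343)]]]]]]]],[[[[[[[[Int.negSucc (nat_lit 42972408894873947)]]]]],[[[[[Int.ofNat (nat_lit 4250404880523762)]]]]]]],[[[[[[[Int.negSucc (nat_lit 2647506650232971)]]]]]]]],[[[],[[[[[[Int.ofNat (nat_lit 102137856115700)]]]]]]]],[[[[[[[[Int.negSucc (nat_lit 223817745468099)]]]]]]]]],[[[[[[],[[[[Int.negSucc (nat_lit 3573054482989795)]]]]]],[[[[[[Int.negSucc (nat_lit 62117383916552237)]]]]]]]],[[[[[[[[Int.ofNat (nat_lit 13415961874811876)]]]]]]],[[[[[[[Int.negSucc (nat_lit 11045633501572161)]]]]]]]]],[[[[],[[[[[[Int.ofNat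 (nat_lit 3164416679138790)]]]]]]]],[[[[[[[[Int.ofNat (nat_lit 2363229589963260)]]]]]]]]]]

/-- A coefficient. -/
noncomputable def sp3_m1_4_2 : MP 10 :=
  [[[[[[[[[[Int.ofNat (nat_lit 189832279913808139)]]]]],[[[[[Int.ofNat (nat_lit 46785934003432514)]]]]]],[],[[[[[[Int.ofNat (nat_lit 41167699818452440)]]]]]]],[[[[[[[Int.negSucc (nat_lit 44752312237720917)]]]]]]],[[[[[[[Int.ofNat (nat_lit 189647814624568814)]]]]]]]],[[[[[],[[[[Int.ofNat (nat_lit 17877431332082132)]]]]]],[[[[[[Int.negSucc (nat_lit 4987477065964585)]]]]]]]],[[[[[[[[Int.negSucc (nat_lit 151358015900450643)]]]]]]]]],[[[[[[[[[Int.negSucc (nat_lit 288445145452740207)]]]]],[[[[[Int.ofNat (nat_lit 19338796270633272)]]]]]]],[[[[[[[Int.negSucc (nat_lit 112368101386921971)]]]]]]]],[],[[[[[[[[Int.negSucc (nat_lit 1354530536920769)]]]]]]]]],[[[[[[[[[Int.negSucc (nat_lit 448783826844303136)]]]]]]]]],[[[[[[[[[Int.ofNat (nat_lit 695728028544952)]]]]]]]]]]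

/-- A coefficient. -/
noncomputable def sp3_m1_4_3 : MP 10 :=
  [[[[[[[],[[[[Int.negSucc (nat_lit 14992380172113779)]]]]]],[[[[[[Int.negSucc (nat_lit 29997434901300901)]]]]]]]],[[[[[[[[Int.ofNat (nat_lit 206350003495324116)]]]]]]],[[[[[[[Int.negSucc (nat_lit 114093233085582169)]]]]]]]]],[[[[],[[[[[[Int.ofNat (nat_lit 28210713022238302)]]]]]]]],[[[[[[[[Int.ofNat (nat_lit 42799179553524850)]]]]]]]]]]

/-- A coefficient. -/
noncomputable def sp3_m1_4_4 : MP 10 :=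
  [[[[[[[[[[Int.ofNat (nat_lit 723693395108042544)]]]]],[[[[[Int.negSucc (nat_lit 42016460084150689)]]]]]]],[[[[[[[Int.ofNat (nat_lit 70914567552646344)]]]]]]]],[],[[[[[[[[Int.ofNat (nat_lit 486589622857533573)]]]]]]]]],[[[[[[[[[Int.ofNat (nat_lit 513649277276387962)]]]]]]]]],[[[[[[[[[Int.ofNat (nat_lit 606642849926677748)]]]]]]]]]]

/-- A coefficient. -/
noncomputable def sp3_m1_4_5 : MP 10 :=
  [[[[[],[[[[[[Int.ofNat (nat_lit 67969192199945690)]]]]]]]],[[[[[[[[Int.negSucc (nat_lit 724140853685719973)]]]]]]]]]]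

/-- A coefficient. -/
noncomputable def sp3_m1_4_6 : MP 10 :=
  [[[[[[[[[[Int.negSucc (nat_lit 4536147811865055975)]]]]]]]]],[[[[[[[[[Int.negSucc (nat_lit 262345854149594677)]]]]]]]]]]

/-- A coefficient. -/
noncomputable def sp3_m1_4_7 : MP 10 :=
  []

/-- A coefficient. -/
noncomputable def sp3_m1_4_8 : MP 10 :=
  [[[[[[[[[[Int.ofNat (nat_lit 4467234042737325386)]]]]]]]]]]

/-- A coefficient. -/
noncomputable def sp3_m1_5_0 : MP 10 :=
  [[[[[],[[[],[[[[Int.negSucc (nat_lit 14125184601136191)]]]]]],[[[[[[Int.negSucc (nat_lit 31295310841462705)]]]]]]]],[[[[[],[[[[Int.ofNat (nat_lit 769519065506600)]]]]]],[[[[[[Int.ofNat (nat_lit 8121253153368384)]]]]]]]],[[[[[[[[Int.ofNat (nat_lit 120108516398021182)]]]]]]],[[[[[[[Int.ofNat (nat_lit 149705898291182)]]]]]]]]],[[],[[[],[[[[[[Int.negSucc (nat_lit 1099586881775213)]]]]]]]],[[[[[[[[Int.negSucc (nat_lit 11605755655687319)]]]]]]]]]]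

/-- A coefficient. -/
noncomputable def sp3_m1_5_1 : MP 10 :=
  [[[[[[[],[[[[Int.ofNat (nat_lit 27603101324451956)]]]]]],[[[[[[Int.ofNat (nat_lit 57007034442996304)]]]]]]],[[],[[[[[[Int.ofNat (nat_lit 7661562692139268)]]]]]]]],[[[[[[[[Int.negSucc (nat_lit 262213265334121799)]]]]],[[[[[Int.negSucc (nat_lit 3875062889483347)]]]]]]],[[[[[[[Int.ofNat (nat_lit 17621708394126680)]]]]]]]],[],[[[[[[[[Int.ofNat (nat_lit 409839539442334)]]]]]]]]],[[[[[[],[[[[Int.negSucc (nat_lit 15203479668735619)]]]]]],[[[[[[Int.negSucc (nat_lit 2062827096493227)]]]]]]]],[[[[[[[[Int.negSucc (nat_lit 69241125331503477)]]]]]]]]],[[],[[[[[[[[Int.negSucc (nat_lit 4204918828628323)]]]]]]]]]]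

/-- A coefficient. -/
noncomputable def sp3_m1_5_2 : MP 10 :=
  [[[[[[[[[[Int.negSucc (nat_lit 594009610706115009)]]]]],[[[[[Int.negSucc (nat_lit 1911315081475593)]]]]]]],[[[[[[[Int.ofNat (nat_lit 88279303499051990)]]]]]]]],[[[],[[[[[[Int.negSucc (nat_lit 18098164308114767)]]]]]]]],[[[[[[[[Int.negSucc (nat_lit 96864880052064259)]]]]]]]]],[[[[[[[[[Int.ofNat (nat_lit 712718632632363216)]]]]]]],[[[[[[[Int.ofNat (nat_lit 28520584461562290)]]]]]]]]],[[[[[[[[[Int.negSucc (nat_lit 177648030717517967)]]]]]]]]]]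

/-- A coefficient. -/
noncomputable def sp3_m1_5_3 : MP 10 :=
  [[[[[[[],[[[[Int.negSucc (nat_lit 21393248818725749)]]]]]],[[[[[[Int.negSucc (nat_lit 19473438538604343)]]]]]]]],[[[[[[[[Int.ofNat (nat_lit 196035642094311078)]]]]]]]]],[[],[[[[[[[[Int.ofNat (nat_lit 97357766798937736)]]]]]]]]]]

/-- A coefficient. -/
noncomputable def sp3_m1_5_4 : MP 10 :=
  [[[[[[[[[[Int.ofNat (nat_lit 1411209460168021832)]]]]]]],[[[[[[[Int.ofNat (nat_lit 49655723358638678)]]]]]]]]],[[[[[[[[[Int.negSucc (nat_lit 818639420540010999)]]]]]]]]]]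

/-- A coefficient. -/
noncomputable def sp3_m1_5_5 : MP 10 :=
  [[[],[[[[[[[[Int.ofNat (nat_lit 76595662149536712)]]]]]]]]]]

/-- A coefficient. -/
noncomputable def sp3_m1_5_6 : MP 10 :=
  [[[[[[[[[[Int.negSucc (nat_lit 2278223509149775563)]]]]]]]]]]

/-- A coefficient. -/
noncomputable def sp3_m1_6_0 : MP 10 :=
  [[[[[],[],[[[[[[Int.ofNat (nat_lit 47989775808586121)]]]]]]]],[[[[[],[[[[Int.ofNat (nat_lit 13576986838038176)]]]]]],[[[[[[Int.negSucc (nat_lit 12648512698397801)]]]]]]]],[[[[[[[[Int.negSucc (nat_lit 105690645194552648)]]]]]]]]],[[],[],[[[[[[[[Int.ofNat (nat_lit 986729709751272)]]]]]]]]]]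

/-- A coefficient. -/
noncomputable def sp3_m1_6_1 : MP 10 :=
  [[[[[[[],[[[[Int.ofNat (nat_lit 4168895223529428)]]]]]],[[[[[[Int.negSucc (nat_lit 21322823432181559)]]]]]]]],[[[[[[[[Int.ofNat (nat_lit 229271633928081668)]]]]]]],[[[[[[[Int.negSucc (nat_lit 3879778491116719)]]]]]]]]],[[[[],[[[[[[Int.ofNat (nat_lit 43641906729831552)]]]]]]]],[[[[[[[[Int.negSucc (nat_lit 11590504509092581)]]]]]]]]]]

/-- A coefficient. -/
noncomputable def sp3_m1_6_2 : MP 10 :=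
  [[[[[[[[[[Int.ofNat (nat_lit 153785109109798455)]]]]],[[[[[Int.negSucc (nat_lit 17709240651813767)]]]]]]],[[[[[[[Int.negSucc (nat_lit 82781502693299677)]]]]]]]],[],[[[[[[[[Int.ofNat (nat_lit 155299808977447708)]]]]]]]]],[[[[[[[[[Int.ofNat (nat_lit 467689496653334794)]]]]]]]]],[[[[[[[[[Int.ofNat (nat_lit 464898078703684585)]]]]]]]]]]

/-- A coefficient. -/
noncomputable def sp3_m1_6_3 : MP 10 :=
  [[[[[],[[[[[[Int.ofNat (nat_lit 35440297819860486)]]]]]]]],[[[[[[[[Int.negSucc (nat_lit 250982084419003761)]]]]]]]]]]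

/-- A coefficient. -/
noncomputable def sp3_m1_6_4 : MP 10 :=
  [[[[[[[[[[Int.negSucc (nat_lit 2644451010974250167)]]]]]]]]],[[[[[[[[[Int.negSucc (nat_lit 149747339153976323)]]]]]]]]]]

/-- A coefficient. -/
noncomputable def sp3_m1_6_5 : MP 10 :=
  []

/-- A coefficient. -/
noncomputable def sp3_m1_6_6 : MP 10 :=
  [[[[[[[[[[Int.ofNat (nat_lit 5146803189100618997)]]]]]]]]]]

/-- A coefficient. -/
noncomputable def sp3_m1_7_0 : MP 10 :=
  [[[],[[[],[[[[[[Int.ofNat (nat_lit 1441535463098892)]]]]]]]],[[[[[[[[Int.negSucc (nat_lit 99805956372446565)]]]]]]]]]]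

/-- A coefficient. -/
noncomputable def sp3_m1_7_1 : MP 10 :=
  [[[[[[[],[[[[Int.negSucc (nat_lit 29532715286329595)]]]]]],[[[[[[Int.negSucc (nat_lit 61369834753373893)]]]]]]]],[[[[[[[[Int.ofNat (nat_lit 207603894020405704)]]]]]]]]],[[],[[[[[[[[Int.ofNat (nat_lit 47256320728712494)]]]]]]]]]]

/-- A coefficient. -/
noncomputable def sp3_m1_7_2 : MP 10 :=
  [[[[[[[[[[Int.ofNat (nat_lit 1994128581602354724)]]]]]]],[[[[[[[Int.ofNat (nat_lit 89641411222279464)]]]]]]]]],[[[[[[[[[Int.negSucc (nat_lit 809530756789852419)]]]]]]]]]]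

/-- A coefficient. -/
noncomputable def sp3_m1_7_3 : MP 10 :=
  [[[],[[[[[[[[Int.negSucc (nat_lit 74310472589928855)]]]]]]]]]]

/-- A coefficient. -/
noncomputable def sp3_m1_7_4 : MP 10 :=
  [[[[[[[[[[Int.negSucc (nat_lit 1648696987018433415)]]]]]]]]]]

/-- A coefficient. -/
noncomputable def sp3_m1_8_0 : MP 10 :=
  []

/-- A coefficient. -/
noncomputable def sp3_m1_8_1 : MP 10 :=
  [[[[[],[[[[[[Int.ofNat (nat_lit 46907544295458132)]]]]]]]],[[[[[[[[Int.ofNat (nat_lit 33161594810962706)]]]]]]]]]]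

/-- A coefficient. -/
noncomputable def sp3_m1_8_2 : MP 10 :=
  [[[[[[[[[[Int.negSucc (nat_lit 2591636733478755603)]]]]]]]]],[[[[[[[[[Int.negSucc (nat_lit 632148941954247)]]]]]]]]]]

/-- A coefficient. -/
noncomputable def sp3_m1_8_3 : MP 10 :=
  []

/-- A coefficient. -/
noncomputable def sp3_m1_8_4 : MP 10 :=
  [[[[[[[[[[Int.ofNat (nat_lit 2256219589934712380)]]]]]]]]]]

/-- An expanded part. -/
noncomputable def sp3_m1 : R12 :=
  [[],
   [],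
   [sp3_m1_2_0, sp3_m1_2_1, sp3_m1_2_2, sp3_m1_2_3, sp3_m1_2_4, sp3_m1_2_5, sp3_m1_2_6, sp3_m1_2_7, sp3_m1_2_8, sp3_m1_2_9, sp3_m1_2_10],
   [sp3_m1_3_0, sp3_m1_3_1, sp3_m1_3_2, sp3_m1_3_3, sp3_m1_3_4, sp3_m1_3_5, sp3_m1_3_6, sp3_m1_3_7, sp3_m1_3_8],
   [sp3_m1_4_0, sp3_m1_4_1, sp3_m1_4_2, sp3_m1_4_3, sp3_m1_4_4, sp3_m1_4_5, sp3_m1_4_6, sp3_m1_4_7, sp3_m1_4_8],
   [sp3_m1_5_0, sp3_m1_5_1, sp3_m1_5_2, sp3_m1_5_3, sp3_m1_5_4, sp3_m1_5_5, sp3_m1_5_6],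
   [sp3_m1_6_0, sp3_m1_6_1, sp3_m1_6_2, sp3_m1_6_3, sp3_m1_6_4, sp3_m1_6_5, sp3_m1_6_6],
   [sp3_m1_7_0, sp3_m1_7_1, sp3_m1_7_2, sp3_m1_7_3, sp3_m1_7_4],
   [sp3_m1_8_0, sp3_m1_8_1, sp3_m1_8_2, sp3_m1_8_3, sp3_m1_8_4]]

set_option maxRecDepth 100000 in
theorem sp3_check1 : partOk 0 sp3_rows 1 sp3_m1 = true :=
  Fast.partOk_of_fast (by decide +kernel)

end Vale.Agent.P142K.CertB
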