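import Vale.Agent.P142K.CertB.Sp3Rows
import Vale.Agent.P142K.Fast

/-!
# An expanded part of the certificate

Generated from a semidefinite program; only the checker is trusted.
-/

namespace Vale.Agent.P142K.CertB

open Vale.Agent.P142J (MP)

/-- A coefficient. -/
noncomputable def sp3_m2_8_0 : MP 10 :=
  [[[],[],[[[[[[[[Int.ofNat (nat_lit 103076447341635404)]]]]]]]]]]

/-- A coefficient. -/
noncomputable def sp3_m2_8_1 : MP 10 :=
  [[[],[[[[[[[[Int.negSucc (nat_lit 253076635971330259)]]]]]]]]]]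

/-- A coefficient. -/
noncomputable def sp3_m2_8_2 : MP 10 :=
  [[[[[[[[[[Int.ofNat (nat_lit 1185945535688703647)]]]]]]]]]]

/-- A coefficient. -/
noncomputable def sp3_m2_9_0 : MP 10 :=
  []

/-- A coefficient. -/
noncomputable def sp3_m2_9_1 : MP 10 :=
  [[[],[[[[[[[[Int.ofNat (nat_lit 9071150839482202)]]]]]]]]]]

/-- A coefficient. -/
noncomputable def sp3_m2_9_2 : MP 10 :=
  [[[[[[[[[[Int.negSucc (nat_lit 1594247970141180601)]]]]]]]]]]

/-- A coefficient. -/
noncomputable def sp3_m2_10_0 : MP 10 :=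
  []

/-- A coefficient. -/
noncomputable def sp3_m2_10_1 : MP 10 :=
  []

/-- A coefficient. -/
noncomputable def sp3_m2_10_2 : MP 10 :=
  [[[[[[[[[[Int.ofNat (nat_lit 1455957422504190599)]]]]]]]]]]

/-- An expanded part. -/
noncomputable def sp3_m2 : R12 :=
  [[],
   [],
   [],
   [],
   [],
   [],
   [],
   [],
   [sp3_m2_8_0, sp3_m2_8_1, sp3_m2_8_2],
   [sp3_m2_9_0, sp3_m2_9_1, sp3_m2_9_2],
   [sp3_m2_10_0, sp3_m2_10_1, sp3_m2_10_2]]

set_option maxRecDepth 100000 in
theorem sp3_check2 : partOk 0 sp3_rows 2 sp3_m2 = true :=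
  Fast.partOk_of_fast (by decide +kernel)

end Vale.Agent.P142K.CertB
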