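import Vale.Agent.P142K.CertB.Sp3Part0
import Vale.Agent.P142K.CertB.Sp3Part1
import Vale.Agent.P142K.CertB.Sp3Part2

/-!
# A weighted square of the certificate

Generated from a semidefinite program; only the checker is trusted.
-/

namespace Vale.Agent.P142K.CertB

open Vale.Agent.P142J (MP)

/-- An expanded block. -/
noncomputable def sp3 : Block :=
  { g := 0, rows := sp3_rows, mons := [sp3_m0, sp3_m1, sp3_m2] }

theorem sp3_parts : sp3.parts.length = 3 := rfl

theorem sp3_ok : sp3.Ok := by
  refine ⟨sp3_parts.symm, fun j hj => ?_⟩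
  rw [sp3_parts] at hj
  match j, hj with
  | 0, _ => exact sp3_check0
  | 1, _ => exact sp3_check1
  | 2, _ => exact sp3_check2
  | _ + 3, h => exact absurd h (by omega)

end Vale.Agent.P142K.CertB
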