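import Vale.Agent.P142K.CertB.Sp5Rows
import Vale.Agent.P142K.Fast

/-!
# An expanded part of the certificate

Generated from a semidefinite program; only the checker is trusted.
-/

namespace Vale.Agent.P142K.CertB

open Vale.Agent.P142J (MP)

/-- A coefficient. -/
noncomputable def sp5_m1_4_0 : MP 10 :=
  []

/-- A coefficient. -/
noncomputable def sp5_m1_4_1 : MP 10 :=
  []

/-- A coefficient. -/
noncomputable def sp5_m1_4_2 : MP 10 :=
  [[],[],[[[[[[[[[Int.ofNat (nat_lit 463630319129889120)]]]]]]]]]]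

/-- A coefficient. -/
noncomputable def sp5_m1_4_3 : MP 10 :=
  []

/-- A coefficient. -/
noncomputable def sp5_m1_4_4 : MP 10 :=
  [[],[[[[[[[[[Int.negSucc (nat_lit 210234945473313871)]]]]]]]]],[[[[[[[[[Int.negSucc (nat_lit 463630319129889119)]]]]]]]]]]

/-- A coefficient. -/
noncomputable def sp5_m1_4_5 : MP 10 :=
  []

/-- A coefficient. -/
noncomputable def sp5_m1_4_6 : MP 10 :=
  [[[[[[[[[[Int.ofNat (nat_lit 3907358826926187083)]]]]]]]]],[[[[[[[[[Int.ofNat (nat_lit 210234945473313872)]]]]]]]]]]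

/-- A coefficient. -/
noncomputable def sp5_m1_4_7 : MP 10 :=
  []

/-- A coefficient. -/
noncomputable def sp5_m1_4_8 : MP 10 :=
  [[[[[[[[[[Int.negSucc (nat_lit 3907358826926187082)]]]]]]]]]]

/-- A coefficient. -/
noncomputable def sp5_m1_5_0 : MP 10 :=
  []

/-- A coefficient. -/
noncomputable def sp5_m1_5_1 : MP 10 :=
  [[],[[],[[[[[[[[Int.ofNat (nat_lit 57924978331631798)]]]]]]]]]]

/-- A coefficient. -/
noncomputable def sp5_m1_5_2 : MP 10 :=
  [[],[[[[[[[[[Int.negSucc (nat_lit 742626501513366703)]]]]]]]]]]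

/-- A coefficient. -/
noncomputable def sp5_m1_5_3 : MP 10 :=
  [[[],[[[[[[[[Int.negSucc (nat_lit 63260955412285571)]]]]]]]]],[[],[[[[[[[[Int.negSucc (nat_lit 57924978331631797)]]]]]]]]]]

/-- A coefficient. -/
noncomputable def sp5_m1_5_4 : MP 10 :=
  [[[[[[[[[[Int.ofNat (nat_lit 392690769709281860)]]]]]]]]],[[[[[[[[[Int.ofNat (nat_lit 742626501513366704)]]]]]]]]]]

/-- A coefficient. -/
noncomputable def sp5_m1_5_5 : MP 10 :=
  [[[],[[[[[[[[Int.ofNat (nat_lit 63260955412285572)]]]]]]]]]]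

/-- A coefficient. -/
noncomputable def sp5_m1_5_6 : MP 10 :=
  [[[[[[[[[[Int.negSucc (nat_lit 392690769709281859)]]]]]]]]]]

/-- A coefficient. -/
noncomputable def sp5_m1_6_0 : MP 10 :=
  [[[],[],[[[[[[[[Int.ofNat (nat_lit 105624253654274009)]]]]]]]]]]

/-- A coefficient. -/
noncomputable def sp5_m1_6_1 : MP 10 :=
  [[[],[[[[[[[[Int.negSucc (nat_lit 271076365943222089)]]]]]]]]]]

/-- A coefficient. -/
noncomputable def sp5_m1_6_2 : MP 10 :=
  [[[[[[[[[[Int.ofNat (nat_lit 1197478351297093064)]]]]]]]],[],[[[[[[[[Int.negSucc (nat_lit 105624253654274008)]]]]]]]]],[[[[[[[[[Int.ofNat (nat_lit 9323054664702014)]]]]]]]]],[[[[[[[[[Int.negSucc (nat_lit 463630319129889119)]]]]]]]]]]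

/-- A coefficient. -/
noncomputable def sp5_m1_6_3 : MP 10 :=
  [[[],[[[[[[[[Int.ofNat (nat_lit 271076365943222090)]]]]]]]]]]

/-- A coefficient. -/
noncomputable def sp5_m1_6_4 : MP 10 :=
  [[[[[[[[[[Int.negSucc (nat_lit 443606341142163797)]]]]]]]]],[[[[[[[[[Int.ofNat (nat_lit 200911890808611858)]]]]]]]]]]

/-- A coefficient. -/
noncomputable def sp5_m1_6_5 : MP 10 :=
  []

/-- A coefficient. -/
noncomputable def sp5_m1_6_6 : MP 10 :=
  [[[[[[[[[[Int.negSucc (nat_lit 4661230837081116348)]]]]]]]]]]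

/-- A coefficient. -/
noncomputable def sp5_m1_7_0 : MP 10 :=
  []

/-- A coefficient. -/
noncomputable def sp5_m1_7_1 : MP 10 :=
  [[[],[[[[[[[[Int.ofNat (nat_lit 5009271018203818)]]]]]]]]],[[],[[[[[[[[Int.negSucc (nat_lit 57924978331631797)]]]]]]]]]]

/-- A coefficient. -/
noncomputable def sp5_m1_7_2 : MP 10 :=
  [[[[[[[[[[Int.negSucc (nat_lit 1630064502064503021)]]]]]]]]],[[[[[[[[[Int.ofNat (nat_lit 742626501513366704)]]]]]]]]]]

/-- A coefficient. -/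
noncomputable def sp5_m1_7_3 : MP 10 :=
  [[[],[[[[[[[[Int.ofNat (nat_lit 58251684394081754)]]]]]]]]]]

/-- A coefficient. -/
noncomputable def sp5_m1_7_4 : MP 10 :=
  [[[[[[[[[[Int.ofNat (nat_lit 1237373732355221162)]]]]]]]]]]

/-- A coefficient. -/
noncomputable def sp5_m1_8_0 : MP 10 :=
  [[[],[],[[[[[[[[Int.negSucc (nat_lit 105624253654274008)]]]]]]]]]]

/-- A coefficient. -/
noncomputable def sp5_m1_8_1 : MP 10 :=
  [[[],[[[[[[[[Int.ofNat (nat_lit 271076365943222090)]]]]]]]]]]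

/-- A coefficient. -/
noncomputable def sp5_m1_8_2 : MP 10 :=
  [[[[[[[[[[Int.ofNat (nat_lit 328785864378750095)]]]]]]]]],[[[[[[[[[Int.negSucc (nat_lit 9323054664702013)]]]]]]]]]]

/-- A coefficient. -/
noncomputable def sp5_m1_8_3 : MP 10 :=
  []

/-- A coefficient. -/
noncomputable def sp5_m1_8_4 : MP 10 :=
  [[[[[[[[[[Int.negSucc (nat_lit 2280136225830772424)]]]]]]]]]]

/-- A coefficient. -/
noncomputable def sp5_m1_9_0 : MP 10 :=
  []

/-- A coefficient. -/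
noncomputable def sp5_m1_9_1 : MP 10 :=
  [[[],[[[[[[[[Int.negSucc (nat_lit 5009271018203817)]]]]]]]]]]

/-- A coefficient. -/
noncomputable def sp5_m1_9_2 : MP 10 :=
  [[[[[[[[[[Int.ofNat (nat_lit 1630064502064503022)]]]]]]]]]]

/-- A coefficient. -/
noncomputable def sp5_m1_10_0 : MP 10 :=
  []

/-- A coefficient. -/
noncomputable def sp5_m1_10_1 : MP 10 :=
  []

/-- A coefficient. -/
noncomputable def sp5_m1_10_2 : MP 10 :=
  [[[[[[[[[[Int.negSucc (nat_lit 1526264215675843158)]]]]]]]]]]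

/-- An expanded part. -/
noncomputable def sp5_m1 : R12 :=
  [[],
   [],
   [],
   [],
   [sp5_m1_4_0, sp5_m1_4_1, sp5_m1_4_2, sp5_m1_4_3, sp5_m1_4_4, sp5_m1_4_5, sp5_m1_4_6, sp5_m1_4_7, sp5_m1_4_8],
   [sp5_m1_5_0, sp5_m1_5_1, sp5_m1_5_2, sp5_m1_5_3, sp5_m1_5_4, sp5_m1_5_5, sp5_m1_5_6],
   [sp5_m1_6_0, sp5_m1_6_1, sp5_m1_6_2, sp5_m1_6_3, sp5_m1_6_4, sp5_m1_6_5, sp5_m1_6_6],
   [sp5_m1_7_0, sp5_m1_7_1, sp5_m1_7_2, sp5_m1_7_3, sp5_m1_7_4],
   [sp5_m1_8_0, sp5_m1_8_1, sp5_m1_8_2, sp5_m1_8_3, sp5_m1_8_4],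
   [sp5_m1_9_0, sp5_m1_9_1, sp5_m1_9_2],
   [sp5_m1_10_0, sp5_m1_10_1, sp5_m1_10_2]]

set_option maxRecDepth 100000 in
theorem sp5_check1 : partOk 2 sp5_rows 1 sp5_m1 = true :=
  Fast.partOk_of_fast (by decide +kernel)

end Vale.Agent.P142K.CertB
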