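import Vale.Agent.P142K.CertB.Sp5Part0
import Vale.Agent.P142K.CertB.Sp5Part1

/-!
# A weighted square of the certificate

Generated from a semidefinite program; only the checker is trusted.
-/

namespace Vale.Agent.P142K.CertB

open Vale.Agent.P142J (MP)

/-- An expanded block. -/
noncomputable def sp5 : Block :=
  { g := 2, rows := sp5_rows, mons := [sp5_m0, sp5_m1] }

theorem sp5_parts : sp5.parts.length = 2 := rfl

theorem sp5_ok : sp5.Ok := by
  refine ⟨sp5_parts.symm, fun j hj => ?_⟩
  rw [sp5_parts] at hj
  match j, hj with
  | 0, _ => exact sp5_check0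
  | 1, _ => exact sp5_check1
  | _ + 2, h => exact absurd h (by omega)

end Vale.Agent.P142K.CertB
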