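import Vale.Agent.P142K.CertB.Sr0Rows
import Vale.Agent.P142K.Fast

/-!
# An expanded part of the certificate

Generated from a semidefinite program; only the checker is trusted.
-/

namespace Vale.Agent.P142K.CertB

open Vale.Agent.P142J (MP)

/-- A coefficient. -/
noncomputable def sr0_m1_0_0 : MP 10 :=
  []

/-- A coefficient. -/
noncomputable def sr0_m1_0_1 : MP 10 :=
  []

/-- A coefficient. -/
noncomputable def sr0_m1_0_2 : MP 10 :=
  [[[],[],[[],[],[[[[[[[Int.ofNat (nat_lit 240290711421267215521)]]]]]]]],[],[[],[[[[[[[Int.ofNat (nat_lit 28705423283935796524)]]]]]]]],[],[[[[[[[[Int.ofNat (nat_lit 19700661852320488919)]]]]]]]]],[[],[[],[[[[],[[[[Int.ofNat (nat_lit 9451005122039617258)]]]]]],[[[[[[Int.negSucc (nat_lit 12390006230519254225)]]]]]]]],[[],[[[[[[[Int.negSucc (nat_lit 140935303982828742059)]]]]]]]],[[[[[],[[[[Int.negSucc (nat_lit 4332736924710481135)]]]]]],[[[[[[Int.negSucc (nat_lit 6230370630250568403)]]]]]]]],[[[[[[[[Int.ofNat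 (nat_lit 3764668761379704388)]]]]]]]]],[[[[[[],[],[[[[Int.ofNat (nat_lit 23312736753722894232)]]]]]],[[[],[[[[Int.negSucc (nat_lit 65868256387900420111)]]]]]],[[[[[[Int.ofNat (nat_lit 196308393810904852684)]]]]]]]],[[[[[],[[[[Int.ofNat (nat_lit 45765004168474117796)]]]]]],[[[[[[Int.negSucc (nat_lit 262160147006515261341)]]]]]]]],[[[[[[[[Int.ofNat (nat_lit 330092184072965138999)]]]]]]],[[[[[[[Int.ofNat (nat_lit 70317157517847818502)]]]]]]]],[],[[[[[[[[Int.ofNat (nat_lit 48424216137980986944)]]]]]]]]],[[],[[[[[],[[[[Int.negSucc (nat_lit 20902934180922244281)]]]]]],[[[[[[Int.ofNat (nat_lit 29527968235195174)]]]]]]]],[[[[[[[[Int.ofNat (nat_lit 59970015040410827536)]]]]]]]]],[[],[],[[[[[[[[Int.ofNat (nat_lit 103031977736521492951)]]]]]]]]]]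

/-- A coefficient. -/
noncomputable def sr0_m1_0_3 : MP 10 :=
  [[[],[[],[[[[[[[Int.ofNat (nat_lit 95207875530897502122)]]],[[[Int.ofNat (nat_lit 9483061896750920874)]]]]],[[[[[Int.negSucc (nat_lit 65053629341791849573)]]]]]]],[[[[[[[Int.negSucc (nat_lit 399510962663619204875)]]]]]]]],[[],[[],[[[[[[Int.negSucc (nat_lit 141922027167081165659)]]]]]]]],[[[[[[[[Int.ofNat (nat_lit 42080653499765596396)]]],[[[Int.ofNat (nat_lit 123473014560214756)]]]]],[[[[[Int.ofNat (nat_lit 17082093037213212586)]]]]]]],[[[[[[[Int.negSucc (nat_lit 115478195253867548341)]]]]]]]],[[[],[[[[[[Int.negSucc (nat_lit 58070787379221475147)]]]]]]]],[[[[[[[[Int.negSucc (nat_lit 20358961278590367585)]]]]]]]]],[[[[[[],[[[[Int.negSucc (nat_lit 40207457960069898373)]]],[[[Int.ofNat (nat_lit 4069781587624721092)]]]]],[[],[[[[Int.ofNat (nat_lit 18240516239352603406)]]]]]],[[[[[[Int.ofNat (nat_lit 210087701734020262822)]]],[[[Int.ofNat (nat_lit 2104097246814364746)]]]]],[[[[[Int.negSucc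 (nat_lit 73347199193990377847)]]]]]]],[[[[],[[[[Int.ofNat (nat_lit 26544385178880614222)]]]]]],[[[[[[Int.negSucc (nat_lit 66004657596014532311)]]]]]]]],[[[[[[[[Int.negSucc (nat_lit 378984884121832209209)]]],[[[Int.ofNat (nat_lit 3327919269205414824)]]]]],[[[[[Int.ofNat (nat_lit 113982466386023768330)]]]]]],[[[],[[[[Int.ofNat (nat_lit 16181056378264932446)]]]]]],[[[[[[Int.negSucc (nat_lit 35224953315446158919)]]]]]]],[[[[[[[Int.ofNat (nat_lit 289522084377572820624)]]]]]]],[[[[[[[Int.negSucc (nat_lit 37738188341880140059)]]]]]]]],[[[[[],[[[[Int.ofNat (nat_lit 34140739453915082194)]]]]]],[[[[[[Int.negSucc (nat_lit 68244261217279207871)]]]]]]]],[[[[[[[[Int.ofNat (nat_lit 137713977964739102018)]]]]]]],[[[[[[[Int.negSucc (nat_lit 36420564354679086267)]]]]]]]]],[[[[[[],[[[[Int.negSucc (nat_lit 13617188291290715151)]]]]]],[[[[[[Int.ofNat (nat_lit 277521229269968882244)]]]]]]],[[[[],[[[[Int.ofNat (nat_lit 11297991065889297108)]]]]]],[[[[[[Int.ofNat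 (nat_lit 23476857114221264984)]]]]]]]],[[[[[[[[Int.negSucc (nat_lit 504673331173527708835)]]],[[[Int.ofNat (nat_lit 5949168371695493660)]]]]],[[[[[Int.negSucc (nat_lit 904918200692183371)]]]]]]],[[[[[[[Int.negSucc (nat_lit 172321022010168035703)]]]]]]]],[[[],[[[[[[Int.negSucc (nat_lit 37282321521381123475)]]]]]]]],[[[[[[[[Int.negSucc (nat_lit 79328513382605192787)]]]]]]]]],[[[[[[],[[[[Int.ofNat (nat_lit 67087077913427016050)]]]]]],[[[[[[Int.negSucc (nat_lit 67939582002262986155)]]]]]]]],[[[[[[[[Int.ofNat (nat_lit 4159603720553079444)]]]]]]],[[[[[[[Int.negSucc (nat_lit 146868507996835915235)]]]]]]]]],[[],[[[[[[[[Int.negSucc (nat_lit 121409481597521564155)]]]]]]]]]]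

/-- A coefficient. -/
noncomputable def sr0_m1_0_4 : MP 10 :=
  [[[[[[[[[[Int.ofNat (nat_lit 641989015637828424326)]]],[[[Int.negSucc (nat_lit 25633307172140424269)]]],[[[Int.ofNat (nat_lit 7687913466281910393)]]]]],[[[[[Int.negSucc (nat_lit 31479612938190484093)]]],[[[Int.negSucc (nat_lit 8575241319331645117)]]]]],[[[[[Int.ofNat (nat_lit 93426474927690124445)]]]]]]],[[[[[[[Int.negSucc (nat_lit 508063373813945207029)]]],[[[Int.ofNat (nat_lit 8096924512804202262)]]]]],[[[[[Int.ofNat (nat_lit 24105004420627352340)]]]]]]],[[[[[[[Int.ofNat (nat_lit 389980282553188531630)]]]]]]]],[[[],[[[[[[Int.negSucc (nat_lit 80308940673570486383)]]],[[[Int.ofNat (nat_lit 3360087592931499810)]]]]],[[[[[Int.negSucc (nat_lit 8168523555332612463)]]]]]]],[[[[],[[[[Int.ofNat (nat_lit 43992802217362265274)]]]]]],[[[[[[Int.ofNat (nat_lit 177000492071297836722)]]]]]]]],[[[[[[[[Int.negSucc (nat_lit 279519872983283569379)]]],[[[Int.ofNat (nat_lit 5792492261209129146)]]]]],[[[[[Int.ofNat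 (nat_lit 45705487751530177998)]]]]]],[],[[[[[[Int.ofNat (nat_lit 178955290893662955241)]]]]]]],[[[[[[[Int.ofNat (nat_lit 254280336231618461080)]]]]]]]],[[[[[],[[[[Int.ofNat (nat_lit 8582760759933931546)]]]]]],[[[[[[Int.negSucc (nat_lit 4664645208493069231)]]]]]]]],[[[[[[[[Int.ofNat (nat_lit 248240596226080857466)]]]]]]]]],[[[[[[[[[Int.ofNat (nat_lit 1198840678809046774276)]]],[[[Int.negSucc (nat_lit 32697987988799723523)]]]],[],[[[[Int.ofNat (nat_lit 1649310786982175970)]]]]],[[[[[Int.negSucc (nat_lit 121844970588484832849)]]]]]],[[[],[[[[Int.negSucc (nat_lit 19570830293458498385)]]]]]],[[[[[[Int.negSucc (nat_lit 18469701189223120327)]]]]]]],[[[[[[[Int.negSucc (nat_lit 779535907028384463333)]]],[[[Int.ofNat (nat_lit 2136513842727309952)]]]]],[[[[[Int.ofNat (nat_lit 29421452704613802784)]]]]]]],[[[[[[[Int.ofNat (nat_lit 282882894295103184398)]]]]]]]],[[[[[],[[[[Int.negSucc (nat_lit 80359352367520183021)]]]]]],[[[[[[Int.ofNat (nat_lit 133082863831234748844)]]]]]]],[[],[[[[[[Int.ofNat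 (nat_lit 19249698573558666494)]]]]]]]],[[[[[[[[Int.negSucc (nat_lit 576200865656251671049)]]]]]]],[[[[[[[Int.ofNat (nat_lit 63264197410579984674)]]]]]]]],[],[[[[[[[[Int.ofNat (nat_lit 22061115216613340736)]]]]]]]]],[[[[[[[[[Int.ofNat (nat_lit 1215473338490355449658)]]],[[[Int.negSucc (nat_lit 11370808579451218531)]]]]],[[[[[Int.ofNat (nat_lit 5762950789326498320)]]]]]]],[[[[[[[Int.negSucc (nat_lit 294943940237477673797)]]]]]]],[[[[[[[Int.ofNat (nat_lit 204278810683538754299)]]]]]]]],[[[[[],[[[[Int.negSucc (nat_lit 12083273475161068761)]]]]]],[[[[[[Int.ofNat (nat_lit 248234584729324518996)]]]]]]]],[[[[[[[[Int.negSucc (nat_lit 131357714469751881883)]]]]]]]]],[[[[[[[[[Int.ofNat (nat_lit 660715729115931897462)]]]]]]],[[[[[[[Int.negSucc (nat_lit 37977348519396570787)]]]]]]]],[],[[[[[[[[Int.ofNat (nat_lit 10906197386410509876)]]]]]]]]],[[[[[[[[[Int.ofNat (nat_lit 280693107616437532406)]]]]]]]]]]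

/-- A coefficient. -/
noncomputable def sr0_m1_0_5 : MP 10 :=
  [[[[[[[],[[[[Int.ofNat (nat_lit 153416950749582016614)]]],[[[Int.negSucc (nat_lit 14227686096898860589)]]]]],[[],[[[[Int.negSucc (nat_lit 6057961346381851819)]]]]]],[[[[[[Int.negSucc (nat_lit 184425912103310788709)]]],[[[Int.ofNat (nat_lit 2516589704295791678)]]]]],[[[[[Int.ofNat (nat_lit 33191011770157034720)]]]]]]],[[[[],[[[[Int.negSucc (nat_lit 55743619175175297017)]]]]]],[[[[[[Int.negSucc (nat_lit 73280466175286530353)]]]]]]]],[[[[[[[[Int.ofNat (nat_lit 931115393814012933638)]]],[[[Int.negSucc (nat_lit 37295193424689311001)]]]]],[[[[[Int.negSucc (nat_lit 142725767488811059977)]]]]]],[[[],[[[[Int.negSucc (nat_lit 30082380199544471395)]]]]]],[[[[[[Int.negSucc (nat_lit 182081718073513309935)]]]]]]],[[[[[[[Int.negSucc (nat_lit 121999925367480889199)]]]]]]],[[[[[[[Int.ofNat (nat_lit 181937672556159846530)]]]]]]]],[[[[[],[[[[Int.negSucc (nat_lit 13514107222320790553)]]]]]],[[[[[[Int.ofNat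 (nat_lit 177270313743286325440)]]]]]]]],[[[[[[[[Int.negSucc (nat_lit 756279549643311131499)]]]]]]],[[[[[[[Int.negSucc (nat_lit 2553421504315039615)]]]]]]]]],[[[[[[],[[[[Int.ofNat (nat_lit 123507959985997178864)]]]]]],[[[[[[Int.negSucc (nat_lit 333466698527930854117)]]]]]]],[[[[],[[[[Int.negSucc (nat_lit 30805353289933776897)]]]]]],[[[[[[Int.ofNat (nat_lit 30955102946603573310)]]]]]]]],[[[[[[[[Int.ofNat (nat_lit 1112577222276902780120)]]],[[[Int.negSucc (nat_lit 2602410557239134205)]]]]],[[[[[Int.negSucc (nat_lit 27353382928326863179)]]]]]]],[[[[[[[Int.negSucc (nat_lit 371939436695633873911)]]]]]]]],[[[],[[[[[[Int.negSucc (nat_lit 2943971971621102063)]]]]]]]],[[[[[[[[Int.negSucc (nat_lit 95191296705639613079)]]]]]]]]],[[[[[[],[[[[Int.ofNat (nat_lit 51879697006564685714)]]]]]],[[[[[[Int.negSucc (nat_lit 382498670426851281507)]]]]]]]],[[[[[[[[Int.ofNat (nat_lit 790365729498583783056)]]]]]]],[[[[[[[Int.negSucc (nat_lit 70539044378918267263)]]]]]]]]],[[],[[[[[[[[Int.negSucc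 (nat_lit 47952645812058012065)]]]]]]]]]]

/-- A coefficient. -/
noncomputable def sr0_m1_0_6 : MP 10 :=
  [[[[[[[[[[Int.negSucc (nat_lit 1302130935067050681999)]]],[[[Int.ofNat (nat_lit 64120689926053762812)]]]],[],[[[[Int.ofNat (nat_lit 51678209297020538098)]]]]],[[[[[Int.ofNat (nat_lit 95587251980810811750)]]]]]],[[[],[[[[Int.negSucc (nat_lit 32784917278368779749)]]]]]],[[[[[[Int.ofNat (nat_lit 230451106809453276702)]]]]]]],[[[[[[[Int.ofNat (nat_lit 273889876052427076840)]]],[[[Int.ofNat (nat_lit 2346960529565951194)]]]]],[[[[[Int.ofNat (nat_lit 18558848007372097282)]]]]]]],[[[[[[[Int.negSucc (nat_lit 385057701860907523817)]]]]]]]],[[[[[],[[[[Int.ofNat (nat_lit 95546232449993220726)]]]]]],[[[[[[Int.negSucc (nat_lit 310612971791065102439)]]]]]]],[[],[[[[[[Int.negSucc (nat_lit 87120345605086477577)]]]]]]]],[[[[[[[[Int.ofNat (nat_lit 1492655179106496347954)]]]]]]],[[[[[[[Int.negSucc (nat_lit 3566749945023336083)]]]]]]]],[],[[[[[[[[Int.negSucc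 (nat_lit 18329393081788088251)]]]]]]]]],[[[[[[[[[Int.negSucc (nat_lit 2272997860447048866397)]]],[[[Int.ofNat (nat_lit 29677523643243142536)]]]]],[[[[[Int.ofNat (nat_lit 68750594986299213394)]]]]]]],[[[[[[[Int.ofNat (nat_lit 665707268149076026222)]]]]]]],[[[[[[[Int.negSucc (nat_lit 49850333288371456183)]]]]]]]],[[[[[],[[[[Int.ofNat (nat_lit 41874405640622950914)]]]]]],[[[[[[Int.negSucc (nat_lit 124662659126138371)]]]]]]]],[[[[[[[[Int.ofNat (nat_lit 653134370659841104122)]]]]]]]]],[[[[[[[[[Int.negSucc (nat_lit 2082151025132376273773)]]]]]]],[[[[[[[Int.ofNat (nat_lit 226351569804139979418)]]]]]]]],[],[[[[[[[[Int.ofNat (nat_lit 195634335097993275744)]]]]]]]]],[[[[[[[[[Int.negSucc (nat_lit 395147651752560241829)]]]]]]]]]]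

/-- A coefficient. -/
noncomputable def sr0_m1_0_7 : MP 10 :=
  [[[[[[[],[[[[Int.negSucc (nat_lit 173761074044661746271)]]]]]],[[[[[[Int.ofNat (nat_lit 523813359308423486364)]]]]]]],[[[[],[[[[Int.ofNat (nat_lit 8762086555296030398)]]]]]],[[[[[[Int.ofNat (nat_lit 51726508900265119988)]]]]]]]],[[[[[[[[Int.negSucc (nat_lit 1849979072211887521767)]]],[[[Int.ofNat (nat_lit 33255364567748780086)]]]]],[[[[[Int.ofNat (nat_lit 84679191946835188108)]]]]]]],[[[[[[[Int.negSucc (nat_lit 148198195484164564961)]]]]]]]],[[[],[[[[[[Int.negSucc (nat_lit 79531018487152681897)]]]]]]]],[[[[[[[[Int.ofNat (nat_lit 388396440779516069518)]]]]]]]]],[[[[[[],[[[[Int.negSucc (nat_lit 72873159975415237421)]]]]]],[[[[[[Int.ofNat (nat_lit 84801433190559119348)]]]]]]]],[[[[[[[[Int.negSucc (nat_lit 693739551841926800521)]]]]]]],[[[[[[[Int.ofNat (nat_lit 62129032804378939564)]]]]]]]]],[[],[[[[[[[[Int.negSucc (nat_lit 327849382592415463947)]]]]]]]]]]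

/-- A coefficient. -/
noncomputable def sr0_m1_0_8 : MP 10 :=
  [[[[[[[[[[Int.ofNat (nat_lit 1918696729294893822799)]]],[[[Int.negSucc (nat_lit 37114706461194605593)]]]]],[[[[[Int.negSucc (nat_lit 60361332094405302145)]]]]]]],[[[[[[[Int.ofNat (nat_lit 136629838105375960598)]]]]]]],[[[[[[[Int.ofNat (nat_lit 222994006251868852275)]]]]]]]],[[[[[],[[[[Int.negSucc (nat_lit 44480314331651231499)]]]]]],[[[[[[Int.ofNat (nat_lit 106490489639522729252)]]]]]]]],[[[[[[[[Int.negSucc (nat_lit 1547368626494670381523)]]]]]]]]],[[[[[[[[[Int.ofNat (nat_lit 1463947552532031736646)]]]]]]],[[[[[[[Int.negSucc (nat_lit 148082343387823544779)]]]]]]]],[],[[[[[[[[Int.negSucc (nat_lit 148502870841913241595)]]]]]]]]],[[[[[[[[[Int.ofNat (nat_lit 909019706934363247252)]]]]]]]]]]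

/-- A coefficient. -/
noncomputable def sr0_m1_0_9 : MP 10 :=
  [[[[[[[],[[[[Int.ofNat (nat_lit 51315369902803501626)]]]]]],[[[[[[Int.negSucc (nat_lit 231600513723748430819)]]]]]]]],[[[[[[[[Int.ofNat (nat_lit 1581787464673877563768)]]]]]]],[[[[[[[Int.ofNat (nat_lit 88193773173672563284)]]]]]]]]],[[],[[[[[[[[Int.ofNat (nat_lit 58344949937745272016)]]]]]]]]]]

/-- A coefficient. -/
noncomputable def sr0_m1_0_10 : MP 10 :=
  [[[[[[[[[[Int.negSucc (nat_lit 1796917752371071729969)]]]]]]],[[[[[[[Int.negSucc (nat_lit 108801117992306260069)]]]]]]]],[],[[[[[[[[Int.ofNat (nat_lit 586966651239872935345)]]]]]]]]],[[[[[[[[[Int.negSucc (nat_lit 257526369051039464847)]]]]]]]]]]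

/-- A coefficient. -/
noncomputable def sr0_m1_0_11 : MP 10 :=
  [[[],[[[[[[[[Int.negSucc (nat_lit 626670712666494489143)]]]]]]]]]]

/-- A coefficient. -/
noncomputable def sr0_m1_0_12 : MP 10 :=
  [[[[[[[[[[Int.ofNat (nat_lit 696338825562061296541)]]]]]]]]]]

/-- A coefficient. -/
noncomputable def sr0_m1_1_0 : MP 10 :=
  []

/-- A coefficient. -/
noncomputable def sr0_m1_1_1 : MP 10 :=
  [[[],[[],[[[[[[[Int.negSucc (nat_lit 155476144375133974503)],[Int.ofNat (nat_lit 38604507507546298206)]]],[[[Int.ofNat (nat_lit 14051653027287177324)]]]]],[[[[[Int.negSucc (nat_lit 106757026492264462737)]]]]]],[],[[[[[[Int.ofNat (nat_lit 9940199746058988940)]]]]]]],[[[[[[[Int.ofNat (nat_lit 89029432275493423052)]]]]]]],[[[[[[[Int.ofNat (nat_lit 12587937313291198558)]]]]]]]],[[],[[[[],[[[[Int.ofNat (nat_lit 19142295117165171430)]]]]]],[[[[[[Int.negSucc (nat_lit 116611590778095919151)]]]]]]]],[[[[[[[[Int.negSucc (nat_lit 45401973457692666825)],[Int.negSucc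 (nat_lit 19722440822514937593)]]],[[[Int.ofNat (nat_lit 791624801823625158)]]]]],[[[[[Int.negSucc (nat_lit 20454482102343304385)]]]]]],[],[[[[[[Int.ofNat (nat_lit 15864924526989520312)]]]]]]],[[[[[[[Int.ofNat (nat_lit 102110244059317599730)]]]]]]],[[[[[[[Int.negSucc (nat_lit 18843892134807124245)]]]]]]]],[[[[[],[[[[Int.ofNat (nat_lit 6497498257965068482)]]]]]],[[[[[[Int.ofNat (nat_lit 12767927152286270490)]]]]]]]],[[[[[[[[Int.ofNat (nat_lit 11011103507274314880)]]]]]]]]],[[[[[[],[[[[Int.ofNat (nat_lit 13805938159455049870)],[Int.ofNat (nat_lit 18796572988535023586)]]],[[[Int.negSucc (nat_lit 2109665957559706753)]]]]],[[],[[[[Int.ofNat (nat_lit 23859051202242976006)]]]]]],[[[[[[Int.ofNat (nat_lit 24489937294695107096)],[Int.ofNat (nat_lit 25394922135026700812)]]],[[[Int.ofNat (nat_lit 23572968278669233152)]]]]],[[[[[Int.negSucc (nat_lit 50959935516019128567)]]]]]],[[[],[[[[Int.negSucc (nat_lit 24421893582990275071)]]]]]],[[[[[[Int.negSucc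 (nat_lit 10044281035514416431)]]]]]]],[[[[],[[[[Int.negSucc (nat_lit 3314265984834004321)]]]]]],[[[[[[Int.negSucc (nat_lit 74495313308614480567)]]]]]]],[[[[],[[[[Int.ofNat (nat_lit 688215686169537238)]]]]]],[[[[[[Int.ofNat (nat_lit 43331550101825284200)]]]]]]]],[[[[[[[[Int.negSucc (nat_lit 132341756114935937249)],[Int.negSucc (nat_lit 190785331744206057219)]]],[[[Int.negSucc (nat_lit 12751841321633388827)]]]],[],[[[[Int.negSucc (nat_lit 9111495543598723963)]]]]],[[[[[Int.negSucc (nat_lit 6256134005819640999)]]]]]],[[[],[[[[Int.ofNat (nat_lit 34975558336350839260)]]]]]],[[[[[[Int.negSucc (nat_lit 130309741279815312815)]]]]]]],[[[[[[[Int.negSucc (nat_lit 53295672562732818313)]]]]],[[[[[Int.negSucc (nat_lit 87950819827110910587)]]]]]]],[[[[[[[Int.ofNat (nat_lit 93053267255338599388)]]]]]]]],[[[[[],[[[[Int.negSucc (nat_lit 2447794485889775739)]]]]]],[[[[[[Int.ofNat (nat_lit 190098655792023073036)]]]]]]]],[[[[[[[[Int.ofNat (nat_lit 62208850250034703866)]]]]],[[[[[Int.negSucc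 (nat_lit 7191737551747352467)]]]]]]],[[[[[[[Int.ofNat (nat_lit 78108291524207171082)]]]]]]]],[],[[[[[[[[Int.ofNat (nat_lit 12645587885784065948)]]]]]]]]],[[[[[[],[[[[Int.negSucc (nat_lit 34320272679835604617)]]]]],[[],[[[[Int.ofNat (nat_lit 11462343724531373890)]]]]]],[[[[[[Int.ofNat (nat_lit 97279684815279273278)]]]]],[[[[[Int.negSucc (nat_lit 57433677291651629941)]]]]]]],[[[[],[[[[Int.ofNat (nat_lit 61784101734835379398)]]]]]],[[[[[[Int.negSucc (nat_lit 60733042341838873993)]]]]]]]],[[[[[[[[Int.negSucc (nat_lit 213086410810764624565)],[Int.negSucc (nat_lit 64946442347082983503)]]],[[[Int.ofNat (nat_lit 10302402693019978602)]]]]],[[[[[Int.negSucc (nat_lit 42982899392870475211)]]]]]],[],[[[[[[Int.ofNat (nat_lit 53262248550387140812)]]]]]]],[[[[[[[Int.ofNat (nat_lit 118633322270917716976)]]]]]]],[[[[[[[Int.negSucc (nat_lit 42809079295186624137)]]]]]]]],[[[[[],[[[[Int.negSucc (nat_lit 16547654045618151039)]]]]]],[[[[[[Int.negSucc (nat_lit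 111680937556940992183)]]]]]]]],[[[[[[[[Int.ofNat (nat_lit 142184440756754731812)]]]]]]]]],[[[[[[],[[[[Int.negSucc (nat_lit 30788246487611965059)]]]]]],[[[[[[Int.ofNat (nat_lit 34645486603829291228)]]]]]]]],[[[[[[[[Int.negSucc (nat_lit 46428938848787290061)]]]]],[[[[[Int.negSucc (nat_lit 8620754795511018585)]]]]]]],[[[[[[[Int.ofNat (nat_lit 105269244391998402768)]]]]]]]],[],[[[[[[[[Int.ofNat (nat_lit 11528346975513055274)]]]]]]]]],[[[[[[],[[[[Int.ofNat (nat_lit 5135785330876768062)]]]]]],[[[[[[Int.negSucc (nat_lit 23880283012305033101)]]]]]]]],[[[[[[[[Int.ofNat (nat_lit 71594908846492513308)]]]]]]]]],[[],[[[[[[[[Int.ofNat (nat_lit 36590056031996008370)]]]]]]]]]]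

/-- A coefficient. -/
noncomputable def sr0_m1_1_2 : MP 10 :=
  [[[[[[[[[[Int.ofNat (nat_lit 290799045341436818682)],[Int.ofNat (nat_lit 294739410467936370602)]]],[[[Int.ofNat (nat_lit 48957724332803812780)],[Int.negSucc (nat_lit 844905712925601167)]]],[[[Int.ofNat (nat_lit 2084149414033026616)]]]]],[[[[[Int.negSucc (nat_lit 64895458774277243297)],[Int.negSucc (nat_lit 28994125463482504613)]]],[[[Int.negSucc (nat_lit 6829926758803599847)]]]]],[[[[[Int.ofNat (nat_lit 70678938163908777666)]]]]]],[],[[[[[[Int.ofNat (nat_lit 30307522750982636616)]]],[[[Int.negSucc (nat_lit 6729921535497067559)]]]]],[[[[[Int.ofNat (nat_lit 11434242869620102008)]]]]]]],[[[[[[[Int.ofNat (nat_lit 4960655005195609928)],[Int.negSucc (nat_lit 69400325601070868175)]]],[[[Int.negSucc (nat_lit 32603798600129995983)]]]]],[[[[[Int.ofNat (nat_lit 174712412990575457632)]]]]]],[],[[[[[[Int.negSucc (nat_lit 42762022901424226093)]]]]]]],[[[[[[[Int.negSucc (nat_lit 69231173756055238981)]]],[[[Int.negSucc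 (nat_lit 4608623676996177327)]]]]],[[[[[Int.negSucc (nat_lit 69867229385806924133)]]]]]]],[[[[[[[Int.ofNat (nat_lit 27956705524895562146)]]]]]]]],[[[[[],[[[[Int.negSucc (nat_lit 229280884075578405935)]]],[[[Int.ofNat (nat_lit 7626503414603089044)]]]]],[[],[[[[Int.ofNat (nat_lit 20032297395838650028)]]]]]],[[[[[[Int.ofNat (nat_lit 25819161430447287562)],[Int.negSucc (nat_lit 44178363437788900661)]]],[[[Int.ofNat (nat_lit 5060501106585035766)]]]]],[[[[[Int.ofNat (nat_lit 235205013740581448932)]]]]]],[],[[[[[[Int.negSucc (nat_lit 3414386093841783097)]]]]]]],[[[[[[],[[Int.ofNat (nat_lit 764291111997860720)]]]],[[[[Int.negSucc (nat_lit 27915619614752629311)]]]]]],[[[[[[Int.ofNat (nat_lit 135358989332064666542)]]]]]]],[[],[[[[[[Int.ofNat (nat_lit 40524351904910472890)]]]]]]]],[[[[[[[[Int.ofNat (nat_lit 38279724127876907616)],[Int.negSucc (nat_lit 45450566880366211511)]]],[[[Int.negSucc (nat_lit 48719009739648795001)]]]]],[[[[[Int.ofNat (nat_lit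 6317025356523500552)]]]]]],[[[],[[[[Int.negSucc (nat_lit 40732153970482209217)]]]]]],[[[[[[Int.ofNat (nat_lit 2082113729474034330)]]]]]]],[[[[[[[Int.ofNat (nat_lit 476136734672638911080)]]]]]]],[[[[[[[Int.negSucc (nat_lit 507648045653274355499)]]]]]]]],[[[[[[[],[[Int.ofNat (nat_lit 5859958145112902846)]]]],[[[[Int.ofNat (nat_lit 71476382391948643608)]]]]]],[[[[[[Int.negSucc (nat_lit 43326348704963409875)]]]]]]]],[[[[[[[[Int.ofNat (nat_lit 60214479685709724346)]]]]]]],[[[[[[[Int.negSucc (nat_lit 56647179598706761945)]]]]]]]]],[[[[[[[[[Int.ofNat (nat_lit 994073194642778444862)],[Int.ofNat (nat_lit 308835156178804586332)]]],[[[Int.ofNat (nat_lit 2240558893267174628)]]]],[[[],[[Int.negSucc (nat_lit 9076390473583555801)]]]],[[[[Int.negSucc (nat_lit 44691003562276955525)]]]]],[[[[[Int.negSucc (nat_lit 2554679927193491043)]]],[[[Int.negSucc (nat_lit 140541809452657735)]]]]],[[[[[Int.ofNat (nat_lit 25401851733033787430)]]]]]],[[[[[],[[Int.ofNat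 (nat_lit 9787859830738605842)]]]],[[[[Int.ofNat (nat_lit 114498088618037817648)]]]]]],[[[[[[Int.negSucc (nat_lit 382122896148648285213)]]]]]]],[[[[[[[Int.negSucc (nat_lit 165482248087541760789)],[Int.negSucc (nat_lit 50122451995758927117)]]],[[[Int.ofNat (nat_lit 1057934310227389524)]]]]],[[[[[Int.ofNat (nat_lit 107844707878603561690)]]]]]],[],[[[[[[Int.negSucc (nat_lit 44019148773288021539)]]]]]]],[[[[[[[Int.negSucc (nat_lit 57858312626311910673)]]]]]]],[[[[[[[Int.ofNat (nat_lit 39231935146929992950)]]]]]]]],[[[[[[[],[[Int.negSucc (nat_lit 23418655381694425113)]]]],[[[[Int.negSucc (nat_lit 206016721057913946027)]]]]]],[[[[[[Int.ofNat (nat_lit 10198780586759066732)]]]]],[[[[[Int.ofNat (nat_lit 78014415317254264334)]]]]]]],[[[[],[[[[Int.ofNat (nat_lit 52810356810017008004)]]]]]],[[[[[[Int.ofNat (nat_lit 86844917525024415558)]]]]]]]],[[[[[[[[Int.negSucc (nat_lit 984381631120765457665)]]],[[[Int.negSucc (nat_lit 3174200741982601613)]]]]],[[[[[Int.ofNat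 (nat_lit 60186739612698921598)]]]]]]],[[[[[[[Int.ofNat (nat_lit 328896388048248560864)]]]]]]]],[[[],[[[[[[Int.negSucc (nat_lit 50608683088269237875)]]]]]]]],[[[[[[[[Int.ofNat (nat_lit 30074116038935077726)]]]]]]]]],[[[[[[[[[Int.ofNat (nat_lit 1296278674043180855314)],[Int.ofNat (nat_lit 86431496730963389170)]]],[[[Int.negSucc (nat_lit 28892491865780396103)]]]]],[[[[[Int.ofNat (nat_lit 73010154901633638220)]]]]]],[[[],[[[[Int.ofNat (nat_lit 27667715035545419892)]]]]]],[[[[[[Int.negSucc (nat_lit 454401839310457348465)]]]]]]],[[[[[[[Int.negSucc (nat_lit 431373449182306858041)]]]]],[[[[[Int.negSucc (nat_lit 50969307439672359053)]]]]]]],[[[[[[[Int.negSucc (nat_lit 66073967208220255)]]]]]]]],[[[[[[[],[[Int.ofNat (nat_lit 2625693045589300266)]]]],[[[[Int.negSucc (nat_lit 14585795460133345129)]]]]]],[[[[[[Int.ofNat (nat_lit 202675868774956759196)]]]]]]]],[[[[[[[[Int.negSucc (nat_lit 788315734339391846665)]]]]]]],[[[[[[[Int.negSucc (nat_lit 87856068044954777103)]]]]]]]]],[[[[[[[[[Int.ofNat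 (nat_lit 858387838403128205416)]]],[[[Int.negSucc (nat_lit 6413483174961329397)]]]]],[[[[[Int.ofNat (nat_lit 57228304478033018016)]]]]]]],[[[[[[[Int.negSucc (nat_lit 239398224559497904833)]]]]]]]],[[[],[[[[[[Int.negSucc (nat_lit 136660863567129309251)]]]]]]]],[[[[[[[[Int.negSucc (nat_lit 56531742680230826793)]]]]]]]]],[[[[[[[[[Int.ofNat (nat_lit 176664340589773960494)]]]]]]],[[[[[[[Int.negSucc (nat_lit 63174913574844474533)]]]]]]]]],[[[[[[[[[Int.negSucc (nat_lit 705129650716593883)]]]]]]]]]]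

/-- A coefficient. -/
noncomputable def sr0_m1_1_3 : MP 10 :=
  [[[[[[[[[],[[Int.negSucc (nat_lit 4756766040075925569)]]],[[],[[Int.negSucc (nat_lit 3658136597919842491)]]]],[[[[Int.ofNat (nat_lit 193876299411917259762)],[Int.ofNat (nat_lit 54684765068603475184)]]],[[[Int.negSucc (nat_lit 24517639973519780057)]]]]],[[[[],[[Int.negSucc (nat_lit 4495197596447484443)]]]],[[[[Int.negSucc (nat_lit 122059158876406067841)]]]]]],[[[[[[Int.negSucc (nat_lit 293170359472294575023)],[Int.negSucc (nat_lit 46410949314672911003)]]],[[[Int.negSucc (nat_lit 45088159648299631241)]]]]],[[[[[Int.negSucc (nat_lit 55443857448005276891)]]]]]],[[[],[[[[Int.ofNat (nat_lit 9251827905091682756)]]]]]],[[[[[[Int.ofNat (nat_lit 31129334671836368050)]]]]]]],[[[[[[],[[Int.negSucc (nat_lit 5600608414148357297)]]]],[[[[Int.ofNat (nat_lit 43410929863886950066)]]]]]],[[[[[[Int.negSucc (nat_lit 27106049130718794341)]]]]]]],[[[[],[[[[Int.ofNat (nat_lit 762731325772559074)]]]]]],[[[[[[Int.negSucc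 (nat_lit 48179300980700357195)]]]]]]]],[[[[[[[[Int.ofNat (nat_lit 812557828468383593782)],[Int.ofNat (nat_lit 130733746900697193936)]]],[[[Int.ofNat (nat_lit 110747280661608820548)]]]],[],[[[[Int.negSucc (nat_lit 40870842321110722031)]]]]],[[[[[Int.negSucc (nat_lit 248424152504164932655)]]]]]],[[[[[],[[Int.negSucc (nat_lit 20973429961784232149)]]]],[[[[Int.ofNat (nat_lit 31358585485775159924)]]]]]],[[[[[[Int.negSucc (nat_lit 103320900338499696059)]]]]]]],[[[[[[[Int.negSucc (nat_lit 546948676416647243981)]]],[[[Int.negSucc (nat_lit 8358276479253379327)]]]]],[[[[[Int.ofNat (nat_lit 207189757399602356668)]]]]]]],[[[[[[[Int.ofNat (nat_lit 454975775091421478536)]]]]]]]],[[[[[[[],[[Int.ofNat (nat_lit 776806205754196788)]]]],[[[[Int.negSucc (nat_lit 274261023927073859799)]]]]]],[[[[[[Int.ofNat (nat_lit 91322784661168832658)]]]]]]],[[],[[[[[[Int.ofNat (nat_lit 213732449277398622438)]]]]]]]],[[[[[[[[Int.negSucc (nat_lit 79370417944569440157)]]]]],[[[[[Int.ofNat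 (nat_lit 7217418818311774562)]]]]]]],[[[[[[[Int.ofNat (nat_lit 237552070659117805834)]]]]]]]],[],[[[[[[[[Int.negSucc (nat_lit 65246858517810765063)]]]]]]]]],[[[[[[[[],[[Int.ofNat (nat_lit 19604520778504843034)]]]],[[[[Int.ofNat (nat_lit 249855810439984046424)]]]]],[[],[[[[Int.negSucc (nat_lit 38867137076665428015)]]]]]],[[[[[[Int.negSucc (nat_lit 425858529743648534511)]]],[[[Int.negSucc (nat_lit 14308426696170461505)]]]]],[[[[[Int.ofNat (nat_lit 127968452593954870066)]]]]]]],[[[[[[],[[Int.negSucc (nat_lit 2334443097400249343)]]]],[[[[Int.ofNat (nat_lit 7415253073398638102)]]]]]],[[[[[[Int.negSucc (nat_lit 14875802649054473155)]]]]]]]],[[[[[[[[Int.ofNat (nat_lit 2811223894809606511742)],[Int.ofNat (nat_lit 121334714218608550694)]]],[[[Int.negSucc (nat_lit 4122694749179670243)]]]]],[[[[[Int.negSucc (nat_lit 324768878756086267597)]]]]]],[],[[[[[[Int.negSucc (nat_lit 6511335342551544035)]]]]]]],[[[[[[[Int.negSucc (nat_lit 735599326163982561609)]]]]]]],[[[[[[[Int.ofNat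 (nat_lit 55811574572457802388)]]]]]]]],[[[[[],[[[[Int.ofNat (nat_lit 578215951264698750)]]]]]],[[[[[[Int.ofNat (nat_lit 253626414269194929524)]]]]]]]],[[[[[[[[Int.negSucc (nat_lit 477807525960067392553)]]]]]]]]],[[[[[[[[],[[Int.negSucc (nat_lit 4459924641577077963)]]]],[[[[Int.negSucc (nat_lit 19842496387992319081)]]]]]],[[[[[[Int.negSucc (nat_lit 84477405464939906449)]]]]]]],[[],[[[[[[Int.negSucc (nat_lit 36524804614617808763)]]]]]]]],[[[[[[[[Int.ofNat (nat_lit 1692333717521091937364)]]]]],[[[[[Int.ofNat (nat_lit 16375847138204446848)]]]]]]],[[[[[[[Int.ofNat (nat_lit 58289657031195890550)]]]]]]]],[],[[[[[[[[Int.negSucc (nat_lit 124768255574752067921)]]]]]]]]],[[[[[[],[[[[Int.ofNat (nat_lit 20252228156311797160)]]]]]],[[[[[[Int.ofNat (nat_lit 189524473056184277784)]]]]]]]],[[[[[[[[Int.negSucc (nat_lit 108177124752075728219)]]]]]]]]],[[],[[[[[[[[Int.negSucc (nat_lit 154663044104888576243)]]]]]]]]]]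

/-- A coefficient. -/
noncomputable def sr0_m1_1_4 : MP 10 :=
  [[[[[[[[[[Int.negSucc (nat_lit 1669432790593651180329)],[Int.negSucc (nat_lit 52429824703937746677)]]],[[[Int.negSucc (nat_lit 36536883003321444813)]]]],[[[],[[Int.negSucc (nat_lit 458038004380917647)]]]],[[[[Int.ofNat (nat_lit 43260001343724675694)]]]]],[[[[[Int.ofNat (nat_lit 213666391707558735346)]]],[[[Int.negSucc (nat_lit 4281196331658416735)]]]]],[[[[[Int.negSucc (nat_lit 217758759643877080521)]]]]]],[[[[[],[[Int.ofNat (nat_lit 13007612522206453978)]]]],[[[[Int.ofNat (nat_lit 29550337802472033266)]]]]]],[[[[[[Int.ofNat (nat_lit 382430000340678475538)]]]]]]],[[[[[[[Int.ofNat (nat_lit 574830635768993176234)],[Int.negSucc (nat_lit 8023823372368614133)]]],[[[Int.ofNat (nat_lit 40702269555505877458)]]]]],[[[[[Int.negSucc (nat_lit 157476124972483161437)]]]]]],[],[[[[[[Int.negSucc (nat_lit 12197903184725948267)]]]]]]],[[[[[[[Int.negSucc (nat_lit 455678281584751466267)]]]]]]],[[[[[[[Int.negSucc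 (nat_lit 41685596128019464357)]]]]]]]],[[[[[[[],[[Int.ofNat (nat_lit 20599265308828410604)]]]],[[[[Int.ofNat (nat_lit 576763627815989142196)]]]]]],[[[[[[Int.negSucc (nat_lit 552602800563452938255)]]]]],[[[[[Int.negSucc (nat_lit 55451089324052924121)]]]]]]],[[[[],[[[[Int.negSucc (nat_lit 60499204216429312567)]]]]]],[[[[[[Int.negSucc (nat_lit 146963600085675643065)]]]]]]]],[[[[[[[[Int.ofNat (nat_lit 1073225850122853102766)]]],[[[Int.ofNat (nat_lit 4746047559446042460)]]]]],[[[[[Int.negSucc (nat_lit 40064061495317864279)]]]]]]],[[[[[[[Int.negSucc (nat_lit 860710916934121276725)]]]]]]]],[[[],[[[[[[Int.ofNat (nat_lit 115404875060634078524)]]]]]]]],[[[[[[[[Int.negSucc (nat_lit 531567985913096502367)]]]]]]]]],[[[[[[[[[Int.negSucc (nat_lit 4906271579282198083313)],[Int.negSucc (nat_lit 148964401348091517313)]]],[[[Int.ofNat (nat_lit 32956824408971305924)]]]]],[[[[[Int.ofNat (nat_lit 363494045873158409634)]]]]]],[[[],[[[[Int.negSucc (nat_lit 43924688072154932537)]]]]]],[[[[[[Int.ofNat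 (nat_lit 261470688214859059294)]]]]]]],[[[[[[[Int.ofNat (nat_lit 432998518840437845618)]]]]],[[[[[Int.negSucc (nat_lit 78128997034436446365)]]]]]]],[[[[[[[Int.negSucc (nat_lit 70017119853353763189)]]]]]]]],[[[[[[[],[[Int.ofNat (nat_lit 22852000389461629686)]]]],[[[[Int.ofNat (nat_lit 209888519114654482844)]]]]]],[[[[[[Int.negSucc (nat_lit 217223685649583099999)]]]]]]]],[[[[[[[[Int.ofNat (nat_lit 1474553360293064297146)]]]]]]],[[[[[[[Int.ofNat (nat_lit 126306460917644789410)]]]]]]]]],[[[[[[[[[Int.negSucc (nat_lit 4791548015354953383003)]]],[[[Int.ofNat (nat_lit 8615189411401517560)]]]]],[[[[[Int.ofNat (nat_lit 41090600064731019340)]]]]]]],[[[[[[[Int.ofNat (nat_lit 84752847943022873580)]]]]]]]],[[[],[[[[[[Int.ofNat (nat_lit 35088159029405967708)]]]]]]]],[[[[[[[[Int.negSucc (nat_lit 153030621490303044511)]]]]]]]]],[[[[[[[[[Int.negSucc (nat_lit 2261738926730655643407)]]]]]]],[[[[[[[Int.ofNat (nat_lit 117888730294758545440)]]]]]]]]],[[[[[[[[[Int.negSucc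 (nat_lit 471946772080446439955)]]]]]]]]]]

/-- A coefficient. -/
noncomputable def sr0_m1_1_5 : MP 10 :=
  [[[[[[[[[],[[Int.negSucc (nat_lit 32672164038236623053)]]]],[[[[Int.negSucc (nat_lit 560861199129541935689)]]]]],[[],[[[[Int.ofNat (nat_lit 25081393612457832096)]]]]]],[[[[[[Int.ofNat (nat_lit 841586859785214901376)]]],[[[Int.ofNat (nat_lit 3301621673550172228)]]]]],[[[[[Int.negSucc (nat_lit 3189493036562714419)]]]]]]],[[[[[[],[[Int.negSucc (nat_lit 1275059613651638671)]]]],[[[[Int.negSucc (nat_lit 48390506599061545027)]]]]]],[[[[[[Int.ofNat (nat_lit 104583044375727692782)]]]]]]]],[[[[[[[[Int.negSucc (nat_lit 1882604746718855052659)],[Int.ofNat (nat_lit 51978562271496815128)]]],[[[Int.negSucc (nat_lit 88329620758146512141)]]]]],[[[[[Int.ofNat (nat_lit 175976993410419572020)]]]]]],[],[[[[[[Int.negSucc (nat_lit 224203438541203880301)]]]]]]],[[[[[[[Int.negSucc (nat_lit 8450150337556002495)]]]]]]],[[[[[[[Int.negSucc (nat_lit 105740728509969015319)]]]]]]]],[[[[[],[[[[Int.ofNat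 (nat_lit 121571651989122147830)]]]]]],[[[[[[Int.ofNat (nat_lit 237999516108019254560)]]]]]]]],[[[[[[[[Int.ofNat (nat_lit 446787463843262423342)]]]]]]]]],[[[[[[[[],[[Int.negSucc (nat_lit 26286940882410753007)]]]],[[[[Int.negSucc (nat_lit 332321279175358872811)]]]]]],[[[[[[Int.ofNat (nat_lit 487892011724405093108)]]]]]]],[[],[[[[[[Int.ofNat (nat_lit 33403169874997202714)]]]]]]]],[[[[[[[[Int.negSucc (nat_lit 2853562974269430674291)]]]]],[[[[[Int.ofNat (nat_lit 82068454429610133096)]]]]]]],[[[[[[[Int.ofNat (nat_lit 171036430217498396518)]]]]]]]],[],[[[[[[[[Int.ofNat (nat_lit 46810221787994737402)]]]]]]]]],[[[[[[],[[[[Int.ofNat (nat_lit 20858370679350468914)]]]]]],[[[[[[Int.ofNat (nat_lit 348109467894843215788)]]]]]]]],[[[[[[[[Int.negSucc (nat_lit 898824544967135888137)]]]]]]]]],[[],[[[[[[[[Int.ofNat (nat_lit 143682046520184502346)]]]]]]]]]]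

/-- A coefficient. -/
noncomputable def sr0_m1_1_6 : MP 10 :=
  [[[[[[[[[[Int.ofNat (nat_lit 3232897369475002232530)],[Int.negSucc (nat_lit 133081625112806291915)]]],[[[Int.ofNat (nat_lit 14284065489842439574)]]]]],[[[[[Int.negSucc (nat_lit 222572266702865675937)]]]]]],[[[],[[[[Int.negSucc (nat_lit 51297408988749698223)]]]]]],[[[[[[Int.negSucc (nat_lit 467285000895439490781)]]]]]]],[[[[[[[Int.ofNat (nat_lit 790092339213292206668)]]]]],[[[[[Int.negSucc (nat_lit 2970131565593677231)]]]]]]],[[[[[[[Int.ofNat (nat_lit 205887416699745393408)]]]]]]]],[[[[[[[],[[Int.negSucc (nat_lit 25805406233850804947)]]]],[[[[Int.negSucc (nat_lit 272696794661378740823)]]]]]],[[[[[[Int.ofNat (nat_lit 240603739772672554318)]]]]]]]],[[[[[[[[Int.ofNat (nat_lit 2998306167492893012)]]]]]]],[[[[[[[Int.ofNat (nat_lit 97930120637870875764)]]]]]]]]],[[[[[[[[[Int.ofNat (nat_lit 7347632739975633188618)]]],[[[Int.negSucc (nat_lit 24331484338108337337)]]]]],[[[[[Int.negSucc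 (nat_lit 240945710780925247119)]]]]]]],[[[[[[[Int.negSucc (nat_lit 119103171564451745025)]]]]]]]],[[[],[[[[[[Int.ofNat (nat_lit 187097433365218201330)]]]]]]]],[[[[[[[[Int.negSucc (nat_lit 307820933118545596571)]]]]]]]]],[[[[[[[[[Int.ofNat (nat_lit 5881222664783027125368)]]]]]]],[[[[[[[Int.negSucc (nat_lit 180432018826386644227)]]]]]]]]],[[[[[[[[[Int.ofNat (nat_lit 1170343759438654694748)]]]]]]]]]]

/-- A coefficient. -/
noncomputable def sr0_m1_1_7 : MP 10 :=
  [[[[[[[[[],[[Int.ofNat (nat_lit 31605229573730281526)]]]],[[[[Int.ofNat (nat_lit 237295226971701691958)]]]]]],[[[[[[Int.negSucc (nat_lit 1216779162314329481657)]]]]]]],[[],[[[[[[Int.ofNat (nat_lit 80885090559587460150)]]]]]]]],[[[[[[[[Int.negSucc (nat_lit 214223637162423325819)]]]]],[[[[[Int.negSucc (nat_lit 78760108465184155219)]]]]]]],[[[[[[[Int.ofNat (nat_lit 376034745741345861246)]]]]]]]],[],[[[[[[[[Int.negSucc (nat_lit 150265225388113120835)]]]]]]]]],[[[[[[],[[[[Int.ofNat (nat_lit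 18365031010228572782)]]]]]],[[[[[[Int.negSucc (nat_lit 161012687736784534401)]]]]]]]],[[[[[[[[Int.ofNat (nat_lit 144339049605129904798)]]]]]]]]],[[],[[[[[[[[Int.negSucc (nat_lit 103749804454424935323)]]]]]]]]]]

/-- A coefficient. -/
noncomputable def sr0_m1_1_8 : MP 10 :=
  [[[[[[[[[[Int.negSucc (nat_lit 4762669198257935965301)]]],[[[Int.negSucc (nat_lit 1195891038314101743)]]]]],[[[[[Int.ofNat (nat_lit 94885799541641524952)]]]]]]],[[[[[[[Int.negSucc (nat_lit 1266690173208257063089)]]]]]]]],[[[],[[[[[[Int.ofNat (nat_lit 32251055293580491576)]]]]]]]],[[[[[[[[Int.negSucc (nat_lit 654536014659529468909)]]]]]]]]],[[[[[[[[[Int.negSucc (nat_lit 4466495005320105909389)]]]]]]],[[[[[[[Int.negSucc (nat_lit 118853944777011667907)]]]]]]]]],[[[[[[[[[Int.negSucc (nat_lit 2371700777968994425965)]]]]]]]]]]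

/-- A coefficient. -/
noncomputable def sr0_m1_1_9 : MP 10 :=
  [[[[[[[],[[[[Int.ofNat (nat_lit 44942723948798431456)]]]]]],[[[[[[Int.ofNat (nat_lit 531647831122057917934)]]]]]]]],[[[[[[[[Int.ofNat (nat_lit 2400736790125639861694)]]]]]]]]],[[],[[[[[[[[Int.ofNat (nat_lit 241353736461663166320)]]]]]]]]]]

/-- A coefficient. -/
noncomputable def sr0_m1_1_10 : MP 10 :=
  [[[[[[[[[[Int.ofNat (nat_lit 4234977582178594140510)]]]]]]],[[[[[[[Int.ofNat (nat_lit 339727278190395356938)]]]]]]]]],[[[[[[[[[Int.ofNat (nat_lit 810196380692139736756)]]]]]]]]]]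

/-- A coefficient. -/
noncomputable def sr0_m1_1_11 : MP 10 :=
  [[[],[[[[[[[[Int.negSucc (nat_lit 1148457994984317022273)]]]]]]]]]]

/-- A coefficient. -/
noncomputable def sr0_m1_1_12 : MP 10 :=
  [[[[[[[[[[Int.negSucc (nat_lit 1509907493204295196617)]]]]]]]]]]

/-- A coefficient. -/
noncomputable def sr0_m1_2_0 : MP 10 :=
  [[[[[[[[[[Int.ofNat (nat_lit 357130897086855732802)],[Int.ofNat (nat_lit 313944832582944497256)],[Int.ofNat (nat_lit 285314316920036407590)]]],[[[Int.ofNat (nat_lit 5842905906584272914)],[Int.negSucc (nat_lit 210926424313383023)]]],[[[Int.ofNat (nat_lit 12193472235552159136)]]]]],[[[[[Int.ofNat (nat_lit 216476192832495743772)],[Int.ofNat (nat_lit 29666790483175598450)]]],[[[Int.negSucc (nat_lit 21776400503192541121)]]]]],[[[[[Int.ofNat (nat_lit 123492513224408151145)]]]]]],[],[[[[[[Int.negSucc (nat_lit 33179872150282316557)],[Int.negSucc (nat_lit 5066619755202612095)]]],[[[Int.negSucc (nat_lit 2205486550056230027)]]]]],[[[[[Int.negSucc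 (nat_lit 31531178908035708071)]]]]]],[],[[[[[[Int.ofNat (nat_lit 34569048764544216652)]]]]]]],[[[[[[[Int.negSucc (nat_lit 658623793521836877149)],[Int.negSucc (nat_lit 254887701437577453349)]]],[[[Int.negSucc (nat_lit 4471606219406431411)]]]]],[[[[[Int.negSucc (nat_lit 150393011976593688701)]]]]]],[],[[[[[[Int.ofNat (nat_lit 44541779178542298790)]]]]]]],[[[[[[[Int.ofNat (nat_lit 571436642478039329296)],[Int.ofNat (nat_lit 19829907410610922460)]]],[[[Int.ofNat (nat_lit 12087282122523329062)]]]]],[[[[[Int.negSucc (nat_lit 30120591076661710767)]]]]]],[],[[[[[[Int.negSucc (nat_lit 15949174510319485423)]]]]]]],[[[[[[[Int.negSucc (nat_lit 161055503913256459117)]]]]]]]],[[[[[],[[[[Int.negSucc (nat_lit 110414446278381039491)],[Int.negSucc (nat_lit 52740209866113194353)]]],[[[Int.negSucc (nat_lit 25387021157235837579)]]]]],[[],[[[[Int.ofNat (nat_lit 3954639173777162268)]]]]]],[[[[[[Int.negSucc (nat_lit 39106364756831637791)],[Int.negSucc (nat_lit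 15031198586652302665)]]],[[[Int.negSucc (nat_lit 27546592596949275211)]]]]],[[[[[Int.ofNat (nat_lit 70927855044759222378)]]]]]],[[[],[[[[Int.ofNat (nat_lit 4045015659490812900)]]]]]],[[[[[[Int.negSucc (nat_lit 16780203546931855385)]]]]]]],[[[[],[[[[Int.ofNat (nat_lit 5004324702811444804)]]]]]],[[[[[[Int.ofNat (nat_lit 105531817682254321472)]]]]]]]],[[[[[[[[Int.negSucc (nat_lit 198278081100720098597)],[Int.negSucc (nat_lit 24063367333635756269)]]],[[[Int.ofNat (nat_lit 23650586639735711506)]]]]],[[[[[Int.negSucc (nat_lit 169905219940976445295)]]]]]],[],[[[[[[Int.negSucc (nat_lit 9882639550669002801)]]]]]]],[[[[[[[Int.ofNat (nat_lit 231890155619027880612)]]]]]]]]],[[[[[[[[[Int.ofNat (nat_lit 743416481666918720032)],[Int.ofNat (nat_lit 160986534854002202952)]]],[[[Int.ofNat (nat_lit 50565633432512144676)]]]]],[[[[[Int.ofNat (nat_lit 276785017432402456656)],[Int.ofNat (nat_lit 15018161113088815580)]]],[[[Int.negSucc (nat_lit 15897809391044742699)]]]]],[[[[[Int.ofNat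 (nat_lit 136644024029178908842)]]]]]],[],[[[[[[Int.negSucc (nat_lit 5063174862221437501)]]]]],[[[[[Int.negSucc (nat_lit 2331254567941995543)]]]]]]],[[[[[[[Int.negSucc (nat_lit 808138282140138647719)],[Int.ofNat (nat_lit 53575443378610773860)]]],[[[Int.negSucc (nat_lit 7917929592452675211)]]]]],[[[[[Int.negSucc (nat_lit 92225244180822094171)]]]]]],[],[[[[[[Int.negSucc (nat_lit 10382492509502187653)]]]]]]],[[[[[[[Int.ofNat (nat_lit 463463269551935874314)]]]]]]]],[],[[[[[[[[Int.negSucc (nat_lit 103604529276344438909)],[Int.ofNat (nat_lit 7799445216218851296)]]],[[[Int.negSucc (nat_lit 6004829012412989657)]]]]],[[[[[Int.negSucc (nat_lit 40370423621047444015)]]]]]],[],[[[[[[Int.ofNat (nat_lit 8076530659135286680)]]]]]]],[[[[[[[Int.ofNat (nat_lit 96483326665206880512)]]]]]]]]],[[[[[[[[[Int.negSucc (nat_lit 33601435500562862433)],[Int.negSucc (nat_lit 629720293422275931)]]],[[[Int.ofNat (nat_lit 11930185779011962816)]]]]],[[[[[Int.negSucc (nat_lit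 85982727846879514499)]]]]]],[],[[[[[[Int.ofNat (nat_lit 30696097475528400338)]]]]]]],[[[[[[[Int.ofNat (nat_lit 199587612838237036878)]]]]]]]]],[[[[[[[[[Int.negSucc (nat_lit 93559553184606703455)],[Int.negSucc (nat_lit 9767050630367345977)]]],[[[Int.ofNat (nat_lit 914233975778689070)]]]]],[[[[[Int.negSucc (nat_lit 45764769009951652619)]]]]]],[],[[[[[[Int.ofNat (nat_lit 22091378634972530136)]]]]]]],[[[[[[[Int.ofNat (nat_lit 125152673267526730302)]]]]]]]]]]

/-- A coefficient. -/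
noncomputable def sr0_m1_2_1 : MP 10 :=
  [[[[[[[[[],[[Int.negSucc (nat_lit 32264534616949023093)],[Int.negSucc (nat_lit 2839004938998783529)]]],[[],[[Int.negSucc (nat_lit 1111678956265105143)]]]],[[[[Int.negSucc (nat_lit 48746439572160117155)],[Int.negSucc (nat_lit 26225416189084717759)]]],[[[Int.ofNat (nat_lit 7351198954985877926)]]]]],[[[[],[[Int.negSucc (nat_lit 15580603375619488361)]]]],[[[[Int.negSucc (nat_lit 134867023183561893559)]]]]]],[[[[[[Int.negSucc (nat_lit 11380243451703896249)],[Int.ofNat (nat_lit 37418266811867794156)]]],[[[Int.ofNat (nat_lit 10040015335673389524)]]]]],[[[[[Int.negSucc (nat_lit 65154102146244588943)]]]]]],[[[[[],[[Int.ofNat (nat_lit 7809952809477324682)]]]],[[[[Int.ofNat (nat_lit 31806406113987080366)]]]]]],[[[[[[Int.ofNat (nat_lit 21668515720543429120)]]]]]]],[[[[[[],[[Int.ofNat (nat_lit 22920634114380344964)]]]],[[[[Int.ofNat (nat_lit 37055041905659453696)]]]]]],[[[[[[Int.negSucc (nat_lit 48909688116239385283)]]]]]]]],[[[[[[[[Int.ofNat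 (nat_lit 155744744900635840940)],[Int.ofNat (nat_lit 3765525822038339146)]]],[[[Int.negSucc (nat_lit 47675482062319728629)]]]]],[[[[[Int.ofNat (nat_lit 208148142807526060102)]]]]]],[],[[[[[[Int.negSucc (nat_lit 60900491870716449409)]]]]]]],[[[[[[[Int.ofNat (nat_lit 59239104641430481310)],[Int.ofNat (nat_lit 18767593209842192294)]]],[[[Int.ofNat (nat_lit 27297213086758052278)]]]]],[[[[[Int.ofNat (nat_lit 124532111505141283684)]]]]]],[],[[[[[[Int.negSucc (nat_lit 28926185299282361863)]]]]]]],[[[[[[[Int.negSucc (nat_lit 371344513508397355843)]]]]]]]],[[],[[],[[[[[[Int.negSucc (nat_lit 39711821538151394653)]]]]]]]],[[[[[[[[Int.ofNat (nat_lit 75728165625377946500)]]],[[[Int.ofNat (nat_lit 4445491368523113626)]]]]],[[[[[Int.negSucc (nat_lit 11016739051016325221)]]]]]]],[[[[[[[Int.negSucc (nat_lit 32354617381577480033)]]]]]]]],[[[],[[[[[[Int.negSucc (nat_lit 26743183720749255259)]]]]]]]],[[[[[[[[Int.ofNat (nat_lit 6585183150493644508)]]]]]]]]],[[[[[[],[[[[Int.ofNat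 (nat_lit 65339084137517931874)]]],[[[Int.negSucc (nat_lit 3003720985630592143)]]]]],[[],[[[[Int.ofNat (nat_lit 3603039522036224314)]]]]]],[[[[[[Int.negSucc (nat_lit 197992856190638547783)],[Int.negSucc (nat_lit 20572788944028795125)]]],[[[Int.negSucc (nat_lit 35892385791588300189)]]]]],[[[[[Int.ofNat (nat_lit 60648750068826712086)]]]]]],[],[[[[[[Int.negSucc (nat_lit 5998956613085612489)]]]]]]],[[[[],[[[[Int.negSucc (nat_lit 80574202872935783187)]]]]]],[[[[[[Int.negSucc (nat_lit 47383927947978202627)]]]]]]]],[[[[[[[[Int.ofNat (nat_lit 140745691905720212712)],[Int.negSucc (nat_lit 48404179657552885597)]]],[[[Int.ofNat (nat_lit 7250093511868490818)]]]]],[[[[[Int.negSucc (nat_lit 176233703534626701191)]]]]]],[[[],[[[[Int.negSucc (nat_lit 37387369546465014007)]]]]]],[[[[[[Int.ofNat (nat_lit 89306953337569853954)]]]]]]],[[[[[[[Int.ofNat (nat_lit 152929783877577289214)]]]]]]],[[[[[[[Int.negSucc (nat_lit 146406255054359298473)]]]]]]]],[[[[[],[[[[Int.ofNat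 (nat_lit 6971965980602306018)]]]]]],[[[[[[Int.negSucc (nat_lit 180497847995807089197)]]]]]]]],[[[[[[[[Int.negSucc (nat_lit 12837353820363121087)]]]]]]],[[[[[[[Int.negSucc (nat_lit 24181568574347566695)]]]]]]]]],[[[[[[],[[[[Int.ofNat (nat_lit 112494930333030824014)]]]]]],[[[[[[Int.negSucc (nat_lit 295632177968384579109)]]]]]]],[[[[],[[[[Int.negSucc (nat_lit 79230098844432791455)]]]]]],[[[[[[Int.ofNat (nat_lit 78789922787175549410)]]]]]]]],[[[[[[[[Int.ofNat (nat_lit 233084049621571561470)]]],[[[Int.ofNat (nat_lit 8095845434938450944)]]]]],[[[[[Int.negSucc (nat_lit 18678343010912566041)]]]]]]],[[[[[[[Int.negSucc (nat_lit 50209274386696319849)]]]]]]]],[[[],[[[[[[Int.negSucc (nat_lit 14642499830521750139)]]]]]]]],[[[[[[[[Int.ofNat (nat_lit 4541859793700662326)]]]]]]]]],[[[[[[],[[[[Int.negSucc (nat_lit 14590532466115815863)]]]]]],[[[[[[Int.negSucc (nat_lit 97878699614519455865)]]]]]]]],[[[[[[[[Int.ofNat (nat_lit 188650221222561130476)]]]]]]],[[[[[[[Int.negSucc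 (nat_lit 21092182278807916841)]]]]]]]]],[[],[[[[[[[[Int.ofNat (nat_lit 83100172907024866880)]]]]]]]]]]

/-- A coefficient. -/
noncomputable def sr0_m1_2_2 : MP 10 :=
  [[[[[[[[[[Int.negSucc (nat_lit 1346874557226602465865)],[Int.negSucc (nat_lit 178944143205708506971)]]],[[[Int.ofNat (nat_lit 87854426282054359620)]]],[[[Int.negSucc (nat_lit 3162311859397703365)]]]]],[[[[[Int.negSucc (nat_lit 374950488770483737857)],[Int.negSucc (nat_lit 1110357528687233615)]]],[[[Int.ofNat (nat_lit 26628691197984138082)]]]]],[[[[[Int.negSucc (nat_lit 215972200865573072051)]]]]]],[],[[[[[[Int.ofNat (nat_lit 90390739159561052120)]]]]],[[[[[Int.negSucc (nat_lit 1290170267382233933)]]]]]]],[[[[[[[Int.ofNat (nat_lit 974148990832796569572)],[Int.negSucc (nat_lit 27106143877859860481)]]],[[[Int.negSucc (nat_lit 80630880811251934929)]]]]],[[[[[Int.negSucc (nat_lit 80689898814407417567)]]]]]],[],[[[[[[Int.ofNat (nat_lit 37544107045806018392)]]]]]]],[[[[[[[Int.negSucc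 (nat_lit 451283640869871411585)]]]]]]]],[[[],[[[[[[Int.negSucc (nat_lit 4980553490221787533)]]],[[[Int.negSucc (nat_lit 10684561006407171401)]]]]],[[[[[Int.negSucc (nat_lit 62086401737161031423)]]]]]]],[[[[],[[[[Int.ofNat (nat_lit 57831517936551048328)]]]]]],[[[[[[Int.ofNat (nat_lit 257836628858142254312)]]]]]]]],[[[[[[[[Int.ofNat (nat_lit 107864404726810006766)],[Int.ofNat (nat_lit 89753803718146281402)]]],[[[Int.ofNat (nat_lit 32320957043391874526)]]]]],[[[[[Int.negSucc (nat_lit 71090837023691891849)]]]]]],[],[[[[[[Int.ofNat (nat_lit 15724472407228373000)]]]]]]],[[[[[[[Int.negSucc (nat_lit 594158864460805243511)]]]]]]]],[[[[[],[[[[Int.negSucc (nat_lit 4560468728124448747)]]]]]],[[[[[[Int.negSucc (nat_lit 17790301028584631539)]]]]]]]],[[[[[[[[Int.negSucc (nat_lit 15498126864475686873)]]]]]]]]],[[[[[[[[[Int.negSucc (nat_lit 1437449990473076842185)],[Int.negSucc (nat_lit 227174105054377443453)]]],[[[Int.negSucc (nat_lit 3186701223083407527)]]]],[],[[[[Int.ofNat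 (nat_lit 14274871515447412520)]]]]],[[[[[Int.ofNat (nat_lit 242043515797100254084)]]]]]],[[[],[[[[Int.negSucc (nat_lit 37062414294326165635)]]]]]],[[[[[[Int.ofNat (nat_lit 72125029065020779756)]]]]]]],[[[[[[[Int.ofNat (nat_lit 73999979800158484956)]]],[[[Int.negSucc (nat_lit 32091630824093164797)]]]]],[[[[[Int.negSucc (nat_lit 39324208826023605565)]]]]]]],[[[[[[[Int.ofNat (nat_lit 109925596674679157154)]]]]]]]],[[[[[],[[[[Int.ofNat (nat_lit 13073968221168153714)]]]]]],[[[[[[Int.ofNat (nat_lit 297231214877230782480)]]]]]]],[[],[[[[[[Int.ofNat (nat_lit 17626830288004221656)]]]]]]]],[[[[[[[[Int.ofNat (nat_lit 650139047920293918458)]]]]]]],[[[[[[[Int.negSucc (nat_lit 72486106474471471441)]]]]]]]],[],[[[[[[[[Int.negSucc (nat_lit 53656021974242536355)]]]]]]]]],[[[[[[[[[Int.negSucc (nat_lit 505263879334818848063)],[Int.negSucc (nat_lit 50169602660902090485)]]],[[[Int.negSucc (nat_lit 32904420618989160273)]]]]],[[[[[Int.ofNat (nat_lit 159730689188043776976)]]]]]],[],[[[[[[Int.negSucc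 (nat_lit 2456508349631234085)]]]]]]],[[[[[[[Int.negSucc (nat_lit 374346833206697659259)]]]]]]],[[[[[[[Int.ofNat (nat_lit 54343906855845972786)]]]]]]]],[[[[[],[[[[Int.ofNat (nat_lit 24849434771575234888)]]]]]],[[[[[[Int.ofNat (nat_lit 166458499711130160510)]]]]]]]],[[[[[[[[Int.negSucc (nat_lit 32663588637106236173)]]]]]]]]],[[[[[[[[[Int.negSucc (nat_lit 138755665376743076327)]]]]]]],[[[[[[[Int.negSucc (nat_lit 150840949267521045421)]]]]]]]],[],[[[[[[[[Int.negSucc (nat_lit 217055467843613706237)]]]]]]]]],[[[[[[[[[Int.negSucc (nat_lit 76570447510968854543)]]]]]]]]]]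

/-- A coefficient. -/
noncomputable def sr0_m1_2_3 : MP 10 :=
  [[[[[[[],[[[[Int.ofNat (nat_lit 28411093477949506420)]]],[[[Int.ofNat (nat_lit 24101903778938986882)]]]]],[[],[[[[Int.ofNat (nat_lit 9798217784593054956)]]]]]],[[[[[[Int.negSucc (nat_lit 71190498970608058721)],[Int.ofNat (nat_lit 12748557903226203900)]]],[[[Int.ofNat (nat_lit 24896135948107344024)]]]]],[[[[[Int.negSucc (nat_lit 296058453872292883)]]]]]],[],[[[[[[Int.negSucc (nat_lit 97208979475461005783)]]]]]]],[[[[],[[[[Int.negSucc (nat_lit 91139255052400597149)]]]]]],[[[[[[Int.negSucc (nat_lit 40428500729642456291)]]]]]]]],[[[[[[[[Int.negSucc (nat_lit 555731079410785919165)],[Int.negSucc (nat_lit 3997890582508124039)]]],[[[Int.ofNat (nat_lit 43060686737090295912)]]]]],[[[[[Int.ofNat (nat_lit 221254067375793878984)]]]]]],[[[],[[[[Int.ofNat (nat_lit 25827584683197705990)]]]]]],[[[[[[Int.negSucc (nat_lit 13639587796658147953)]]]]]]],[[[[[[[Int.ofNat (nat_lit 333038203787930555264)]]]]]]],[[[[[[[Int.ofNat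 (nat_lit 478268722926596431144)]]]]]]]],[[[[[],[[[[Int.negSucc (nat_lit 85144690454140643623)]]]]]],[[[[[[Int.ofNat (nat_lit 432114853782780279926)]]]]]]]],[[[[[[[[Int.negSucc (nat_lit 280090864076550390959)]]]]]]],[[[[[[[Int.ofNat (nat_lit 104759558866293220048)]]]]]]]]],[[[[[[],[[[[Int.negSucc (nat_lit 3659183502368421769)]]]]]],[[[[[[Int.negSucc (nat_lit 694483480331638271569)]]]]]]],[[[[],[[[[Int.negSucc (nat_lit 67730301062682545909)]]]]]],[[[[[[Int.negSucc (nat_lit 69747102827586270541)]]]]]]]],[[[[[[[[Int.negSucc (nat_lit 1228385031120322065313)]]],[[[Int.ofNat (nat_lit 34781985487383999476)]]]]],[[[[[Int.ofNat (nat_lit 50970700277108405214)]]]]]]],[[[[[[[Int.negSucc (nat_lit 96352171702565618745)]]]]]]]],[[[],[[[[[[Int.ofNat (nat_lit 55047011558523344856)]]]]]]]],[[[[[[[[Int.ofNat (nat_lit 25027174656053215660)]]]]]]]]],[[[[[[],[[[[Int.negSucc (nat_lit 83192278020795651433)]]]]]],[[[[[[Int.negSucc (nat_lit 250166133868903051281)]]]]]]]],[[[[[[[[Int.negSucc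 (nat_lit 208278635753450670305)]]]]]]],[[[[[[[Int.ofNat (nat_lit 595032310383542480178)]]]]]]]]],[[],[[[[[[[[Int.ofNat (nat_lit 26721100218748895440)]]]]]]]]]]

/-- A coefficient. -/
noncomputable def sr0_m1_2_4 : MP 10 :=
  [[[[[[[[[[Int.ofNat (nat_lit 295677972594697889728)],[Int.negSucc (nat_lit 83119636756708906597)]]],[[[Int.negSucc (nat_lit 87909782062882072879)]]]],[],[[[[Int.ofNat (nat_lit 1508979740292964698)]]]]],[[[[[Int.ofNat (nat_lit 178576651949516821502)]]]]]],[[[],[[[[Int.negSucc (nat_lit 42501952786643694307)]]]]]],[[[[[[Int.negSucc (nat_lit 249746477116935355845)]]]]]]],[[[[[[[Int.ofNat (nat_lit 240400725453963321330)]]],[[[Int.negSucc (nat_lit 18649868536961876693)]]]]],[[[[[Int.ofNat (nat_lit 79616971270354776172)]]]]]]],[[[[[[[Int.negSucc (nat_lit 621243174691400811705)]]]]]]]],[[[[[],[[[[Int.negSucc (nat_lit 96775419155867748693)]]]]]],[[[[[[Int.negSucc (nat_lit 516223499851410869013)]]]]]]],[[],[[[[[[Int.negSucc (nat_lit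 256789658963096444903)]]]]]]]],[[[[[[[[Int.negSucc (nat_lit 46921796776292816797)]]]]]]],[[[[[[[Int.ofNat (nat_lit 315326388049581748104)]]]]]]]],[],[[[[[[[[Int.ofNat (nat_lit 60023338009545110344)]]]]]]]]],[[[[[[[[[Int.ofNat (nat_lit 66139415166633006170)],[Int.negSucc (nat_lit 93006051487094907809)]]],[[[Int.negSucc (nat_lit 8147477823507858531)]]]]],[[[[[Int.negSucc (nat_lit 106314700116213423883)]]]]]],[],[[[[[[Int.negSucc (nat_lit 49871358110558160341)]]]]]]],[[[[[[[Int.ofNat (nat_lit 1569424262908006908556)]]]]]]],[[[[[[[Int.negSucc (nat_lit 551870141542186257569)]]]]]]]],[[[[[],[[[[Int.negSucc (nat_lit 65960140285937214079)]]]]]],[[[[[[Int.negSucc (nat_lit 403267081154604015401)]]]]]]]],[[[[[[[[Int.negSucc (nat_lit 404578258237430817645)]]]]]]]]],[[[[[[[[[Int.negSucc (nat_lit 676279599094919818919)]]]]]]],[[[[[[[Int.ofNat (nat_lit 308369324192698317574)]]]]]]]],[],[[[[[[[[Int.ofNat (nat_lit 105727287032217479250)]]]]]]]]],[[[[[[[[[Int.negSucc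 (nat_lit 274658451319421360813)]]]]]]]]]]

/-- A coefficient. -/
noncomputable def sr0_m1_2_5 : MP 10 :=
  [[[[[[[],[[[[Int.ofNat (nat_lit 37571441704929311188)]]]]]],[[[[[[Int.ofNat (nat_lit 594190422304149833988)]]]]]]],[[[[],[[[[Int.ofNat (nat_lit 209433271722526624522)]]]]]],[[[[[[Int.ofNat (nat_lit 34336396823750779014)]]]]]]]],[[[[[[[[Int.negSucc (nat_lit 399319911037195183803)]]],[[[Int.ofNat (nat_lit 68309093656054043844)]]]]],[[[[[Int.negSucc (nat_lit 120899719423958506077)]]]]]]],[[[[[[[Int.negSucc (nat_lit 29733997885489963699)]]]]]]]],[[[],[[[[[[Int.negSucc (nat_lit 203571584941439532857)]]]]]]]],[[[[[[[[Int.ofNat (nat_lit 820313697635303753464)]]]]]]]]],[[[[[[],[[[[Int.negSucc (nat_lit 49606978240651581151)]]]]]],[[[[[[Int.ofNat (nat_lit 787018603110276174052)]]]]]]]],[[[[[[[[Int.ofNat (nat_lit 753924633620022855980)]]]]]]],[[[[[[[Int.negSucc (nat_lit 96394943392099713759)]]]]]]]]],[[],[[[[[[[[Int.ofNat (nat_lit 193664491454084602154)]]]]]]]]]]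

/-- A coefficient. -/
noncomputable def sr0_m1_2_6 : MP 10 :=
  [[[[[[[[[[Int.ofNat (nat_lit 750812095475975656000)],[Int.negSucc (nat_lit 32112826741714781907)]]],[[[Int.negSucc (nat_lit 5173431644163225241)]]]]],[[[[[Int.negSucc (nat_lit 132431762787365876139)]]]]]],[],[[[[[[Int.ofNat (nat_lit 82471553226837820502)]]]]]]],[[[[[[[Int.negSucc (nat_lit 21902737580850781995)]]]]]]],[[[[[[[Int.ofNat (nat_lit 147277130759913659978)]]]]]]]],[[[[[],[[[[Int.ofNat (nat_lit 67314877612797370424)]]]]]],[[[[[[Int.ofNat (nat_lit 551551157060886066516)]]]]]]]],[[[[[[[[Int.negSucc (nat_lit 1528833423377026578243)]]]]]]]]],[[[[[[[[[Int.ofNat (nat_lit 220334763655053770358)]]]]]]],[[[[[[[Int.negSucc (nat_lit 643658599260584440933)]]]]]]]],[],[[[[[[[[Int.negSucc (nat_lit 323481490849780784001)]]]]]]]]],[[[[[[[[[Int.ofNat (nat_lit 466175542453250661878)]]]]]]]]]]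

/-- A coefficient. -/
noncomputable def sr0_m1_2_7 : MP 10 :=
  [[[[[[[],[[[[Int.negSucc (nat_lit 72910273962054482405)]]]]]],[[[[[[Int.negSucc (nat_lit 655396016708317047553)]]]]]]]],[[[[[[[[Int.ofNat (nat_lit 2076717514325782515382)]]]]]]],[[[[[[[Int.negSucc (nat_lit 201772194463271099797)]]]]]]]]],[[],[[[[[[[[Int.ofNat (nat_lit 210911768726309748882)]]]]]]]]]]

/-- A coefficient. -/
noncomputable def sr0_m1_2_8 : MP 10 :=
  [[[[[[[[[[Int.negSucc (nat_lit 1372343864504747272531)]]]]]]],[[[[[[[Int.negSucc (nat_lit 29288136057345330345)]]]]]]]],[],[[[[[[[[Int.ofNat (nat_lit 637758934305587123056)]]]]]]]]],[[[[[[[[[Int.ofNat (nat_lit 50828004277747698416)]]]]]]]]]]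

/-- A coefficient. -/
noncomputable def sr0_m1_2_9 : MP 10 :=
  [[[],[[[[[[[[Int.negSucc (nat_lit 1091175834529893559935)]]]]]]]]]]

/-- A coefficient. -/
noncomputable def sr0_m1_2_10 : MP 10 :=
  [[[[[[[[[[Int.ofNat (nat_lit 752271388511393998808)]]]]]]]]]]

/-- A coefficient. -/
noncomputable def sr0_m1_3_0 : MP 10 :=
  [[[[[[[[[[Int.negSucc (nat_lit 825219345523671388891)],[Int.negSucc (nat_lit 358119807384908507775)]]],[[[Int.negSucc (nat_lit 59872162111319907289)],[Int.ofNat (nat_lit 263081988587694972)]]],[[[Int.negSucc (nat_lit 9807787306707728725)]]]]],[[[[[Int.negSucc (nat_lit 119688404122867887711)],[Int.ofNat (nat_lit 14490376750996092826)]]],[[[Int.negSucc (nat_lit 22238698648054997153)]]]]],[[[[[Int.negSucc (nat_lit 36453190173641572711)]]]]]],[],[[[[[[Int.ofNat (nat_lit 10085593861331823430)]]],[[[Int.ofNat (nat_lit 5953559921077993500)]]]]],[[[[[Int.negSucc (nat_lit 27294646676078738821)]]]]]]],[[[[[[[Int.ofNat (nat_lit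 834981015109998195436)],[Int.negSucc (nat_lit 50153963574985750059)]]],[[[Int.negSucc (nat_lit 7732313333903054503)]]]]],[[[[[Int.negSucc (nat_lit 100338473053533782489)]]]]]],[],[[[[[[Int.ofNat (nat_lit 85522833619932832802)]]]]]]],[[[[[[[Int.negSucc (nat_lit 411264445111078707389)]]]]]]]],[[[],[[[[[[Int.ofNat (nat_lit 112406158118192682656)],[Int.negSucc (nat_lit 16860313980602336669)]]],[[[Int.ofNat (nat_lit 19996288393146865904)]]]]],[[[[[Int.ofNat (nat_lit 2201469373008244030)]]]]]],[],[[[[[[Int.negSucc (nat_lit 14644538741846672473)]]]]]]],[[],[[[[[[Int.negSucc (nat_lit 108611207471804404587)]]]]]]]],[[[[[[[[Int.ofNat (nat_lit 67668028653037633854)],[Int.ofNat (nat_lit 36477110148786662468)]]],[[[Int.negSucc (nat_lit 38254870150049596155)]]]]],[[[[[Int.ofNat (nat_lit 84600196187825690950)]]]]]],[],[[[[[[Int.ofNat (nat_lit 3415993357065784478)]]]]]]],[[[[[[[Int.negSucc (nat_lit 146035605751533317239)]]]]]]]]],[[[[[[[[[Int.negSucc (nat_lit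 394864910027174188333)],[Int.ofNat (nat_lit 10209612014674885424)]]],[[[Int.negSucc (nat_lit 67443557311825456263)]]]]],[[[[[Int.ofNat (nat_lit 24396724002503324652)]]]]]],[],[[[[[[Int.ofNat (nat_lit 52864706322565173340)]]]]]]],[[[[[[[Int.ofNat (nat_lit 243864818659126467060)],[Int.negSucc (nat_lit 46981207636114993647)]]],[[[Int.negSucc (nat_lit 9654293782545232617)]]]]],[[[[[Int.ofNat (nat_lit 35913593329241908518)]]]]]],[],[[[[[[Int.ofNat (nat_lit 47548258725904314058)]]]]]]],[[[[[[[Int.negSucc (nat_lit 238568512495962107233)]]]]]]]]],[[[[[[[[[Int.negSucc (nat_lit 19171597880200698179)],[Int.ofNat (nat_lit 29981641092545542820)]]],[[[Int.negSucc (nat_lit 974813453464724867)]]]]],[[[[[Int.negSucc (nat_lit 61585019121852521071)]]]]]],[],[[[[[[Int.ofNat (nat_lit 81093617819060640906)]]]]]]],[[[[[[[Int.negSucc (nat_lit 11758363882828159921)]]]]]]]]]]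

/-- A coefficient. -/
noncomputable def sr0_m1_3_1 : MP 10 :=
  [[[[[[[],[[[[Int.ofNat (nat_lit 72013282749691982550)],[Int.negSucc (nat_lit 32200773880046267007)]]],[[[Int.ofNat (nat_lit 17550219653952798694)]]]]],[[],[[[[Int.ofNat (nat_lit 58670646962347531128)]]]]]],[[[[[[Int.negSucc (nat_lit 224595386835614751035)],[Int.negSucc (nat_lit 12703885453753941421)]]],[[[Int.negSucc (nat_lit 37420591796402946227)]]]]],[[[[[Int.negSucc (nat_lit 75290950507442138401)]]]]]],[[[],[[[[Int.negSucc (nat_lit 23791734291382961677)]]]]]],[[[[[[Int.ofNat (nat_lit 81913830843844360876)]]]]]]],[[[[],[[[[Int.ofNat (nat_lit 18995642138771147690)]]]]]],[[[[[[Int.ofNat (nat_lit 12441779741022245530)]]]]]]]],[[[[[[[[Int.ofNat (nat_lit 402021327317970324876)],[Int.ofNat (nat_lit 347116685794757559198)]]],[[[Int.ofNat (nat_lit 2224200693275757430)]]]]],[[[[[Int.ofNat (nat_lit 230313950141907795682)]]]]]],[],[[[[[[Int.ofNat (nat_lit 108416360863244327078)]]]]]]],[[[[[[[Int.ofNat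 (nat_lit 161051696005187096566)]]]]],[[[[[Int.ofNat (nat_lit 23591563631113496146)]]]]]]],[[[[[[[Int.negSucc (nat_lit 63101793944243496931)]]]]]]]],[],[[[[[[[[Int.negSucc (nat_lit 23659272448654157425)]]]]],[[[[[Int.ofNat (nat_lit 20415851966932405314)]]]]]]],[[[[[[[Int.negSucc (nat_lit 64556153122778481783)]]]]]]]],[],[[[[[[[[Int.negSucc (nat_lit 13174582045871447173)]]]]]]]]],[[[[[[],[[[[Int.negSucc (nat_lit 75297652764702286485)]]]]],[[],[[[[Int.negSucc (nat_lit 18286644507581013623)]]]]]],[[[[[[Int.ofNat (nat_lit 112870986920450674482)]]]]],[[[[[Int.ofNat (nat_lit 32241549611912102908)]]]]]]],[[[[],[[[[Int.ofNat (nat_lit 35320682007657788854)]]]]]],[[[[[[Int.ofNat (nat_lit 55518737780690516904)]]]]]]]],[[[[[[[[Int.ofNat (nat_lit 216834452901284359582)],[Int.ofNat (nat_lit 217569077873307171484)]]],[[[Int.negSucc (nat_lit 15381050781963304755)]]]]],[[[[[Int.ofNat (nat_lit 235485616253889098268)]]]]]],[],[[[[[[Int.negSucc (nat_lit 57775317439387719057)]]]]]]],[[[[[[[Int.negSucc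 (nat_lit 158702546734764594733)]]]]]]]],[[[[[],[[[[Int.negSucc (nat_lit 6637134029539921431)]]]]]],[[[[[[Int.ofNat (nat_lit 12301795178253384082)]]]]]]]],[[[[[[[[Int.negSucc (nat_lit 77771617050260991223)]]]]]]]]],[[[[[[],[[[[Int.ofNat (nat_lit 37004332018152242190)]]]]]],[[[[[[Int.ofNat (nat_lit 129629766459316552430)]]]]]]]],[[[[[[[[Int.negSucc (nat_lit 137534624912861763131)]]]]],[[[[[Int.ofNat (nat_lit 30772559162918517674)]]]]]]],[[[[[[[Int.negSucc (nat_lit 89869621114223285997)]]]]]]]],[],[[[[[[[[Int.negSucc (nat_lit 26947894078254812343)]]]]]]]]],[[[[[[],[[[[Int.ofNat (nat_lit 40518744053496865324)]]]]]],[[[[[[Int.ofNat (nat_lit 39422018693184254278)]]]]]]]],[[[[[[[[Int.negSucc (nat_lit 258212321461359117963)]]]]]]]]],[[],[[[[[[[[Int.negSucc (nat_lit 127658251546671246553)]]]]]]]]]]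

/-- A coefficient. -/
noncomputable def sr0_m1_3_2 : MP 10 :=
  [[[[[[[[[[Int.ofNat (nat_lit 550799981720194259324)],[Int.ofNat (nat_lit 48654974182184125858)]]],[[[Int.negSucc (nat_lit 69842906730467692881)]]]]],[[[[[Int.ofNat (nat_lit 292889011622629480880)]]],[[[Int.negSucc (nat_lit 5649723384834412659)]]]]],[[[[[Int.ofNat (nat_lit 39808019572307098808)]]]]]],[],[[[[[[Int.negSucc (nat_lit 127886407959938692327)]]]]]]],[[[[[[[Int.negSucc (nat_lit 1099644622211203532753)],[Int.ofNat (nat_lit 81793144141907216056)]]],[[[Int.ofNat (nat_lit 34898701619039477452)]]]]],[[[[[Int.negSucc (nat_lit 216734410132377442081)]]]]]],[],[[[[[[Int.ofNat (nat_lit 98308752240922225620)]]]]]]],[[[[[[[Int.ofNat (nat_lit 1057158622731731535214)]]]]]]]],[[[],[[[[[[Int.negSucc (nat_lit 68734711089916723061)]]]]],[[[[[Int.negSucc (nat_lit 84696814137723963067)]]]]]]],[[],[[[[[[Int.negSucc (nat_lit 150726258686135636373)]]]]]]]],[[[[[[[[Int.negSucc (nat_lit 32321701370664803711)]]],[[[Int.ofNat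 (nat_lit 13604125616872580830)]]]]],[[[[[Int.ofNat (nat_lit 34678947104907127678)]]]]]]],[[[[[[[Int.negSucc (nat_lit 537000928004461651419)]]]]]]]],[[[],[[[[[[Int.ofNat (nat_lit 62839804719229009498)]]]]]]]],[[[[[[[[Int.negSucc (nat_lit 13714127046509561271)]]]]]]]]],[[[[[[[[[Int.negSucc (nat_lit 841184661024079225471)],[Int.negSucc (nat_lit 95755068689696741499)]]],[[[Int.ofNat (nat_lit 130792429660571565444)]]]]],[[[[[Int.negSucc (nat_lit 48241465385220585881)]]]]]],[[[],[[[[Int.ofNat (nat_lit 604243917130918006)]]]]]],[[[[[[Int.ofNat (nat_lit 119954196897502326952)]]]]]]],[[[[[[[Int.ofNat (nat_lit 296420372979303165496)]]]]],[[[[[Int.ofNat (nat_lit 54619016953556693104)]]]]]]],[[[[[[[Int.ofNat (nat_lit 23270855744818449812)]]]]]]]],[[[[[],[[[[Int.negSucc (nat_lit 15090759920665746787)]]]]]],[[[[[[Int.negSucc (nat_lit 1318538159566759265)]]]]]]]],[[[[[[[[Int.ofNat (nat_lit 807455312950766697604)]]]]]]],[[[[[[[Int.negSucc (nat_lit 2620187198186383941)]]]]]]]]],[[[[[[[[[Int.negSucc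 (nat_lit 1242397467471513186573)]]],[[[Int.ofNat (nat_lit 36170203432475184746)]]]]],[[[[[Int.negSucc (nat_lit 116175338304996499375)]]]]]]],[[[[[[[Int.ofNat (nat_lit 663664017105188112686)]]]]]]]],[[[],[[[[[[Int.ofNat (nat_lit 196231822861005308976)]]]]]]]],[[[[[[[[Int.negSucc (nat_lit 126803587088824072905)]]]]]]]]],[[[[[[[[[Int.negSucc (nat_lit 313434750330450044729)]]]]]]],[[[[[[[Int.ofNat (nat_lit 147752638082922437482)]]]]]]]]],[[[[[[[[[Int.ofNat (nat_lit 70661086525414261906)]]]]]]]]]]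

/-- A coefficient. -/
noncomputable def sr0_m1_3_3 : MP 10 :=
  [[[[[[[],[[[[Int.negSucc (nat_lit 137160816974155122629)]]]]],[[],[[[[Int.ofNat (nat_lit 22273241890220242724)]]]]]],[[[[[[Int.ofNat (nat_lit 312226494379790313606)]]],[[[Int.ofNat (nat_lit 28328834466345276272)]]]]],[[[[[Int.ofNat (nat_lit 77269474549249221380)]]]]]]],[[[[],[[[[Int.ofNat (nat_lit 39010564917847984040)]]]]]],[[[[[[Int.ofNat (nat_lit 107967893198043015740)]]]]]]]],[[[[[[[[Int.negSucc (nat_lit 912586286498222449547)],[Int.negSucc (nat_lit 224868001492462220989)]]],[[[Int.negSucc (nat_lit 108771331013813517567)]]]]],[[[[[Int.ofNat (nat_lit 210203133543807502500)]]]]]],[],[[[[[[Int.ofNat (nat_lit 57787293981899534228)]]]]]]],[[[[[[[Int.ofNat (nat_lit 1091405205797527108910)]]]]]]]],[[[[[],[[[[Int.ofNat (nat_lit 63553473347860946)]]]]]],[[[[[[Int.negSucc (nat_lit 301668760992487612379)]]]]]]]],[[[[[[[[Int.ofNat (nat_lit 291733433022704659824)]]]]]]]]],[[[[[[],[[[[Int.negSucc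 (nat_lit 122916646271406919313)]]]]]],[[[[[[Int.ofNat (nat_lit 313987949854782474668)]]]]]]],[[],[[[[[[Int.ofNat (nat_lit 23448291382501699632)]]]]]]]],[[[[[[[[Int.negSucc (nat_lit 2474256177382242447803)]]]]],[[[[[Int.negSucc (nat_lit 58747568760450970053)]]]]]]],[[[[[[[Int.ofNat (nat_lit 477436342974562090792)]]]]]]]],[],[[[[[[[[Int.ofNat (nat_lit 91465077544790225878)]]]]]]]]],[[[[[[],[[[[Int.negSucc (nat_lit 10477783133129380387)]]]]]],[[[[[[Int.negSucc (nat_lit 275593235744482599503)]]]]]]]],[[[[[[[[Int.ofNat (nat_lit 197718723260424458200)]]]]]]]]],[[],[[[[[[[[Int.ofNat (nat_lit 260738111888032310134)]]]]]]]]]]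

/-- A coefficient. -/
noncomputable def sr0_m1_3_4 : MP 10 :=
  [[[[[[[[[[Int.ofNat (nat_lit 2350013008759846616410)],[Int.ofNat (nat_lit 5957740000446405860)]]],[[[Int.ofNat (nat_lit 71571412446453892464)]]]]],[[[[[Int.negSucc (nat_lit 747759963782831793711)]]]]]],[[[],[[[[Int.negSucc (nat_lit 30767831022231999257)]]]]]],[[[[[[Int.ofNat (nat_lit 6736007282218346050)]]]]]]],[[[[[[[Int.negSucc (nat_lit 557233611843085426617)]]]]],[[[[[Int.ofNat (nat_lit 19277088661952350610)]]]]]]],[[[[[[[Int.negSucc (nat_lit 162382223315896129343)]]]]]]]],[[[[[],[[[[Int.negSucc (nat_lit 13153691692207155123)]]]]]],[[[[[[Int.ofNat (nat_lit 430832505058560191036)]]]]]]]],[[[[[[[[Int.negSucc (nat_lit 760416238044898749865)]]]]]]],[[[[[[[Int.ofNat (nat_lit 62960762896787712628)]]]]]]]]],[[[[[[[[[Int.ofNat (nat_lit 5909043592059001326714)]]],[[[Int.negSucc (nat_lit 82578315148694436709)]]]]],[[[[[Int.negSucc (nat_lit 44600259667522347941)]]]]]]],[[[[[[[Int.negSucc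 (nat_lit 431804686740005243335)]]]]]]]],[[[],[[[[[[Int.negSucc (nat_lit 354511190702396676777)]]]]]]]],[[[[[[[[Int.negSucc (nat_lit 105942565188101393495)]]]]]]]]],[[[[[[[[[Int.ofNat (nat_lit 3538202481892058515304)]]]]]]],[[[[[[[Int.negSucc (nat_lit 37750141332886576545)]]]]]]]]],[[[[[[[[[Int.ofNat (nat_lit 833168992732747475680)]]]]]]]]]]

/-- A coefficient. -/
noncomputable def sr0_m1_3_5 : MP 10 :=
  [[[[[[[],[[[[Int.ofNat (nat_lit 413406559605236293400)]]]]]],[[[[[[Int.negSucc (nat_lit 769817459427810068643)]]]]]]],[[],[[[[[[Int.negSucc (nat_lit 28667881079710321299)]]]]]]]],[[[[[[[[Int.ofNat (nat_lit 2459806807041142624010)]]]]],[[[[[Int.ofNat (nat_lit 8483728552079798706)]]]]]]],[[[[[[[Int.negSucc (nat_lit 71464795940544323809)]]]]]]]],[],[[[[[[[[Int.ofNat (nat_lit 1966878231373364710)]]]]]]]]],[[[[[[],[[[[Int.ofNat (nat_lit 206785918169084695102)]]]]]],[[[[[[Int.negSucc (nat_lit 268196496866060169067)]]]]]]]],[[[[[[[[Int.ofNat (nat_lit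 1823059296278749612480)]]]]]]]]],[[],[[[[[[[[Int.negSucc (nat_lit 236146549989424994123)]]]]]]]]]]

/-- A coefficient. -/
noncomputable def sr0_m1_3_6 : MP 10 :=
  [[[[[[[[[[Int.negSucc (nat_lit 5085016305125978662741)]]],[[[Int.ofNat (nat_lit 19489135639738560936)]]]]],[[[[[Int.ofNat (nat_lit 539617335204842224978)]]]]]]],[[[[[[[Int.negSucc (nat_lit 547884134628187679283)]]]]]]]],[[[],[[[[[[Int.negSucc (nat_lit 479099027532685955189)]]]]]]]],[[[[[[[[Int.negSucc (nat_lit 25531328601551267527)]]]]]]]]],[[[[[[[[[Int.negSucc (nat_lit 6507568879192314348375)]]]]]]],[[[[[[[Int.ofNat (nat_lit 86406168748102975200)]]]]]]]]],[[[[[[[[[Int.negSucc (nat_lit 1917075968536946404527)]]]]]]]]]]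

/-- A coefficient. -/
noncomputable def sr0_m1_3_7 : MP 10 :=
  [[[[[[[],[[[[Int.negSucc (nat_lit 137852346077610442105)]]]]]],[[[[[[Int.ofNat (nat_lit 632706882471828521916)]]]]]]]],[[[[[[[[Int.negSucc (nat_lit 1654396061948279392519)]]]]]]]]],[[],[[[[[[[[Int.negSucc (nat_lit 115047564229522107855)]]]]]]]]]]

/-- A coefficient. -/
noncomputable def sr0_m1_3_8 : MP 10 :=
  [[[[[[[[[[Int.ofNat (nat_lit 5255803537098914197812)]]]]]]],[[[[[[[Int.ofNat (nat_lit 729168530035053131330)]]]]]]]]],[[[[[[[[[Int.ofNat (nat_lit 2098324878454525633828)]]]]]]]]]]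

/-- A coefficient. -/
noncomputable def sr0_m1_3_9 : MP 10 :=
  [[[],[[[[[[[[Int.ofNat (nat_lit 382662017977059505612)]]]]]]]]]]

/-- A coefficient. -/
noncomputable def sr0_m1_3_10 : MP 10 :=
  [[[[[[[[[[Int.negSucc (nat_lit 2147529455554117717743)]]]]]]]]]]

/-- A coefficient. -/
noncomputable def sr0_m1_4_0 : MP 10 :=
  [[[[[[[[[[Int.negSucc (nat_lit 342800093588043526079)],[Int.negSucc (nat_lit 26332095855559111279)]]],[[[Int.ofNat (nat_lit 5590542328830861288)]]]]],[[[[[Int.negSucc (nat_lit 183955182436916864885)],[Int.ofNat (nat_lit 2654463038859323700)]]],[[[Int.ofNat (nat_lit 26432597055201051024)]]]]],[[[[[Int.negSucc (nat_lit 102559642071296689421)]]]]]],[],[[[[[[Int.negSucc (nat_lit 2671399780474384523)]]]]],[[[[[Int.ofNat (nat_lit 44015300680191594738)]]]]]]],[[[[[[[Int.ofNat (nat_lit 801545906496192458470)],[Int.negSucc (nat_lit 9247152945260873655)]]],[[[Int.ofNat (nat_lit 28124002125349563968)]]]]],[[[[[Int.ofNat (nat_lit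 178700223219955355866)]]]]]],[],[[[[[[Int.negSucc (nat_lit 74422615267230491241)]]]]]]],[[[[[[[Int.negSucc (nat_lit 496672820367897394963)]]]]]]]],[],[[[[[[[[Int.ofNat (nat_lit 81614088091880095540)],[Int.negSucc (nat_lit 24180735248123715485)]]],[[[Int.ofNat (nat_lit 8666377047059520756)]]]]],[[[[[Int.ofNat (nat_lit 45097898548901988990)]]]]]],[],[[[[[[Int.ofNat (nat_lit 7749767245194561086)]]]]]]],[[[[[[[Int.negSucc (nat_lit 89831089179213104855)]]]]]]]]],[[[[[[[[[Int.negSucc (nat_lit 312534703258716592637)],[Int.negSucc (nat_lit 18961543640006717683)]]],[[[Int.negSucc (nat_lit 47574794308899420337)]]]]],[[[[[Int.ofNat (nat_lit 142477600858907940210)]]]]]],[],[[[[[[Int.negSucc (nat_lit 181637487999950952675)]]]]]]],[[[[[[[Int.ofNat (nat_lit 196600887371774017868)]]]]]]]]],[[[[[[[[[Int.ofNat (nat_lit 140751654855775275878)],[Int.ofNat (nat_lit 1850103334297932486)]]],[[[Int.negSucc (nat_lit 4871907584843615733)]]]]],[[[[[Int.ofNat (nat_lit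 145425656413610389942)]]]]]],[],[[[[[[Int.negSucc (nat_lit 111754766905943571209)]]]]]]],[[[[[[[Int.negSucc (nat_lit 246530116520160707745)]]]]]]]]]]

/-- A coefficient. -/
noncomputable def sr0_m1_4_1 : MP 10 :=
  [[[[[],[[[[[[Int.ofNat (nat_lit 101653327892873649892)],[Int.negSucc (nat_lit 7354553567275071897)]]],[[[Int.ofNat (nat_lit 2819340476785384474)]]]]],[[[[[Int.ofNat (nat_lit 110236142897943808156)]]]]]],[],[[[[[[Int.ofNat (nat_lit 1712512283394199036)]]]]]]],[[],[[[[[[Int.ofNat (nat_lit 151869889642555024818)]]]]]]]],[[[[[[[[Int.negSucc (nat_lit 188665302906326439639)],[Int.ofNat (nat_lit 33426238928613762044)]]],[[[Int.ofNat (nat_lit 12473780472473915116)]]]]],[[[[[Int.negSucc (nat_lit 209611209353122673905)]]]]]],[],[[[[[[Int.ofNat (nat_lit 93267162914129746476)]]]]]]],[[[[[[[Int.ofNat (nat_lit 153159622340595899034)]]]]]]],[[[[[[[Int.ofNat (nat_lit 170473104072157589662)]]]]]]]],[],[[[[[[[[Int.negSucc (nat_lit 87149652909382046645)]]]]]]],[[[[[[[Int.ofNat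 (nat_lit 22964095144241369968)]]]]]]]]],[[[[[[],[[[[Int.negSucc (nat_lit 136937860343430873191)]]]]]],[[[[[[Int.ofNat (nat_lit 327287385040287544868)]]]]]]],[[[[],[[[[Int.ofNat (nat_lit 28774476864758896272)]]]]]],[[[[[[Int.negSucc (nat_lit 21884879311612708193)]]]]]]]],[[[[[[[[Int.negSucc (nat_lit 64762322031077092675)]]]]]]],[[[[[[[Int.negSucc (nat_lit 374431580428789183389)]]]]]]]],[],[[[[[[[[Int.negSucc (nat_lit 59237357196298456693)]]]]]]]]],[[[[[[],[[[[Int.negSucc (nat_lit 103694224325862335873)]]]]]],[[[[[[Int.ofNat (nat_lit 268986986368528352848)]]]]]]]],[[[[[[[[Int.negSucc (nat_lit 72023653790229677601)]]]]]]],[[[[[[[Int.ofNat (nat_lit 28386661315117071178)]]]]]]]]],[[],[[[[[[[[Int.negSucc (nat_lit 23355593885977435109)]]]]]]]]]]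

/-- A coefficient. -/
noncomputable def sr0_m1_4_2 : MP 10 :=
  [[[[[[[[[[Int.ofNat (nat_lit 595604449020379669344)],[Int.negSucc (nat_lit 199274748368120555775)]]],[[[Int.negSucc (nat_lit 356382926697032081)]]]]],[[[[[Int.negSucc (nat_lit 650548403435189249321)]]]]]],[],[[[[[[Int.ofNat (nat_lit 117301214753252193950)]]]]]]],[[[[[[[Int.negSucc (nat_lit 144916372834806812463)]]],[[[Int.ofNat (nat_lit 18683187777267016432)]]]]],[[[[[Int.ofNat (nat_lit 26059754599021825152)]]]]]]],[[[[[[[Int.negSucc (nat_lit 138015827730045621823)]]]]]]]],[[[],[[[[[[Int.ofNat (nat_lit 85819434516553936254)]]]]]]],[[],[[[[[[Int.negSucc (nat_lit 80057497992241827911)]]]]]]]],[[[[[[[[Int.negSucc (nat_lit 401357278299680874893)]]]]]]],[[[[[[[Int.ofNat (nat_lit 506168255652389169588)]]]]]]]],[],[[[[[[[[Int.ofNat (nat_lit 43792957052834964598)]]]]]]]]],[[[[[[[[[Int.ofNat (nat_lit 999586597760702422686)],[Int.ofNat (nat_lit 94444338943963272470)]]],[[[Int.negSucc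 (nat_lit 56639560392194040089)]]]]],[[[[[Int.negSucc (nat_lit 413250160419660980605)]]]]]],[],[[[[[[Int.ofNat (nat_lit 97512913007016850390)]]]]]]],[[[[[[[Int.ofNat (nat_lit 320385341675462284124)]]]]]]],[[[[[[[Int.negSucc (nat_lit 34107607286836154045)]]]]]]]],[[[[[],[[[[Int.ofNat (nat_lit 36618599712264811300)]]]]]],[[[[[[Int.ofNat (nat_lit 83707876734462721650)]]]]]]]],[[[[[[[[Int.negSucc (nat_lit 687470293226777532383)]]]]]]]]],[[[[[[[[[Int.ofNat (nat_lit 559499787502480468526)]]]]]]],[[[[[[[Int.ofNat (nat_lit 35852167995160740138)]]]]]]]],[],[[[[[[[[Int.ofNat (nat_lit 206815678175394133894)]]]]]]]]],[[[[[[[[[Int.ofNat (nat_lit 35670759634046629766)]]]]]]]]]]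

/-- A coefficient. -/
noncomputable def sr0_m1_4_3 : MP 10 :=
  [[[[[[[],[[[[Int.ofNat (nat_lit 83958386023833052234)]]]]]],[[[[[[Int.negSucc (nat_lit 327506008494762193235)]]]]]]],[[[[],[[[[Int.negSucc (nat_lit 2111999756093200831)]]]]]],[[[[[[Int.ofNat (nat_lit 37945928514442999628)]]]]]]]],[[[[[[[[Int.ofNat (nat_lit 1678057485469582745780)]]],[[[Int.negSucc (nat_lit 2233345689214720665)]]]]],[[[[[Int.negSucc (nat_lit 315345193511765243615)]]]]]]],[[[[[[[Int.negSucc (nat_lit 538719580521151945897)]]]]]]]],[[[],[[[[[[Int.negSucc (nat_lit 68424039142950957947)]]]]]]]],[[[[[[[[Int.negSucc (nat_lit 75436496460413431841)]]]]]]]]],[[[[[[],[[[[Int.negSucc (nat_lit 48805443622299148229)]]]]]],[[[[[[Int.ofNat (nat_lit 187782328669227748970)]]]]]]]],[[[[[[[[Int.ofNat (nat_lit 1400888863257938042810)]]]]]]],[[[[[[[Int.negSucc (nat_lit 314393689320099041757)]]]]]]]]],[[],[[[[[[[[Int.ofNat (nat_lit 482283020943835275518)]]]]]]]]]]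

/-- A coefficient. -/
noncomputable def sr0_m1_4_4 : MP 10 :=
  [[[[[[[[[[Int.negSucc (nat_lit 1405779441641936920367)],[Int.ofNat (nat_lit 207581763952280243268)]]],[[[Int.negSucc (nat_lit 11330202813327133763)]]]]],[[[[[Int.ofNat (nat_lit 517249219710688136922)]]]]]],[],[[[[[[Int.negSucc (nat_lit 98630013075951649393)]]]]]]],[[[[[[[Int.ofNat (nat_lit 588577981748631725200)]]]]]]],[[[[[[[Int.ofNat (nat_lit 118021656768358077592)]]]]]]]],[[[[[],[[[[Int.ofNat (nat_lit 167605188732415632068)]]]]]],[[[[[[Int.ofNat (nat_lit 154717493495003992212)]]]]]]]],[[[[[[[[Int.ofNat (nat_lit 882938578328400158236)]]]]]]]]],[[[[[[[[[Int.negSucc (nat_lit 1543457525713262427363)]]]]]]],[[[[[[[Int.negSucc (nat_lit 199830767143798223433)]]]]]]]],[],[[[[[[[[Int.ofNat (nat_lit 157021748386711815008)]]]]]]]]],[[[[[[[[[Int.negSucc (nat_lit 594381194501587788763)]]]]]]]]]]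

/-- A coefficient. -/
noncomputable def sr0_m1_4_5 : MP 10 :=
  [[[[[[[],[[[[Int.negSucc (nat_lit 64626332642694813073)]]]]]],[[[[[[Int.negSucc (nat_lit 59951534713905982599)]]]]]]]],[[[[[[[[Int.negSucc (nat_lit 1724081974763128803445)]]]]]]],[[[[[[[Int.ofNat (nat_lit 124004637232996093496)]]]]]]]]],[[],[[[[[[[[Int.negSucc (nat_lit 765987536317538002535)]]]]]]]]]]

/-- A coefficient. -/
noncomputable def sr0_m1_4_6 : MP 10 :=
  [[[[[[[[[[Int.ofNat (nat_lit 1438467088829543559170)]]]]]]],[[[[[[[Int.negSucc (nat_lit 48296435660361703351)]]]]]]]],[],[[[[[[[[Int.negSucc (nat_lit 482347813142794443565)]]]]]]]]],[[[[[[[[[Int.ofNat (nat_lit 691086919599731927588)]]]]]]]]]]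

/-- A coefficient. -/
noncomputable def sr0_m1_4_7 : MP 10 :=
  [[[],[[[[[[[[Int.ofNat (nat_lit 705931181006001592246)]]]]]]]]]]

/-- A coefficient. -/
noncomputable def sr0_m1_4_8 : MP 10 :=
  [[[[[[[[[[Int.negSucc (nat_lit 587606169109093151071)]]]]]]]]]]

/-- A coefficient. -/
noncomputable def sr0_m1_5_0 : MP 10 :=
  [[[[[[[[[[Int.ofNat (nat_lit 990132277121172508288)],[Int.ofNat (nat_lit 131730227305197944978)]]],[[[Int.ofNat (nat_lit 125061423292219751354)]]]]],[[[[[Int.negSucc (nat_lit 93872965358915608085)]]]]]],[],[[[[[[Int.ofNat (nat_lit 9632422151489710228)]]]]]]],[[[[[[[Int.negSucc (nat_lit 752584545430863450757)],[Int.ofNat (nat_lit 39786592976335336922)]]],[[[Int.negSucc (nat_lit 6965879428631065847)]]]]],[[[[[Int.negSucc (nat_lit 28069095138708620689)]]]]]],[],[[[[[[Int.negSucc (nat_lit 19789855510430832169)]]]]]]],[[[[[[[Int.ofNat (nat_lit 348581120834615470020)]]]]]]]]],[[[[[[[[[Int.ofNat (nat_lit 442028668170016895476)],[Int.negSucc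 (nat_lit 13813423462050342141)]]],[[[Int.ofNat (nat_lit 86795489457753258722)]]]]],[[[[[Int.negSucc (nat_lit 25277165242672243407)]]]]]],[],[[[[[[Int.negSucc (nat_lit 11128124424225637265)]]]]]]],[[[[[[[Int.ofNat (nat_lit 4050553206271339830)]]]]]]]]]]

/-- A coefficient. -/
noncomputable def sr0_m1_5_1 : MP 10 :=
  [[[],[[[[[[[[Int.negSucc (nat_lit 150285068171574322103)],[Int.negSucc (nat_lit 193539144189138831471)]]],[[[Int.ofNat (nat_lit 59502922406852563158)]]]]],[[[[[Int.negSucc (nat_lit 185880055563418895667)]]]]]],[],[[[[[[Int.negSucc (nat_lit 110445742799005699763)]]]]]]],[[[[[[[Int.ofNat (nat_lit 62651839548443353258)]]]]]]]],[],[[[[[[[[Int.ofNat (nat_lit 106894750025786646194)]]]]]]]]],[[[[[[],[[[[Int.ofNat (nat_lit 110592481850120475772)]]]]]],[[[[[[Int.negSucc (nat_lit 367923881464482520377)]]]]]]]],[[[[[[[[Int.ofNat (nat_lit 133683501626462269312)]]]]]]],[[[[[[[Int.ofNat (nat_lit 129917127371200271804)]]]]]]]],[],[[[[[[[[Int.ofNat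 (nat_lit 73953065129687298920)]]]]]]]]],[[[[[[],[[[[Int.negSucc (nat_lit 5584662675939505879)]]]]]],[[[[[[Int.negSucc (nat_lit 153019535735229653135)]]]]]]]],[[[[[[[[Int.ofNat (nat_lit 167086968647078688984)]]]]]]]]],[[],[[[[[[[[Int.ofNat (nat_lit 142856242666611754488)]]]]]]]]]]

/-- A coefficient. -/
noncomputable def sr0_m1_5_2 : MP 10 :=
  [[[[[[[[[[Int.negSucc (nat_lit 553388380375867577229)],[Int.ofNat (nat_lit 68609447116517855748)]]],[[[Int.ofNat (nat_lit 13550528588197701334)]]]]],[[[[[Int.ofNat (nat_lit 104995891313130326016)]]]]]],[],[[[[[[Int.ofNat (nat_lit 60690225059079609208)]]]]]]],[[[[[[[Int.ofNat (nat_lit 87069969833209521958)]]]]]]]],[[[],[[[[[[Int.negSucc (nat_lit 78809274890190086119)]]]]]]]],[[[[[[[[Int.ofNat (nat_lit 270832425322771968538)]]]]]]]]],[[[[[[[[[Int.ofNat (nat_lit 202244178245071236910)]]],[[[Int.negSucc (nat_lit 43000365057335455847)]]]]],[[[[[Int.ofNat (nat_lit 15538113995350261384)]]]]]]],[[[[[[[Int.negSucc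 (nat_lit 416713874019472171213)]]]]]]]],[[[],[[[[[[Int.negSucc (nat_lit 103038080154714876693)]]]]]]]],[[[[[[[[Int.ofNat (nat_lit 12353535897772801066)]]]]]]]]],[[[[[[[[[Int.ofNat (nat_lit 230612918396462046450)]]]]]]],[[[[[[[Int.negSucc (nat_lit 190567634440776581449)]]]]]]]]],[[[[[[[[[Int.negSucc (nat_lit 55936484366886230761)]]]]]]]]]]

/-- A coefficient. -/
noncomputable def sr0_m1_5_3 : MP 10 :=
  [[[[[[[],[[[[Int.ofNat (nat_lit 141156431324633618782)]]]]]],[[[[[[Int.ofNat (nat_lit 139731637414901379402)]]]]]]]],[[[[[[[[Int.negSucc (nat_lit 278460163193428009025)]]]]]]],[[[[[[[Int.negSucc (nat_lit 365424263761163013567)]]]]]]]],[],[[[[[[[[Int.negSucc (nat_lit 119305338588442235069)]]]]]]]]],[[[[[[],[[[[Int.ofNat (nat_lit 72104499656114246242)]]]]]],[[[[[[Int.negSucc (nat_lit 56303046338853757779)]]]]]]]],[[[[[[[[Int.ofNat (nat_lit 240153756811197107604)]]]]]]]]],[[],[[[[[[[[Int.negSucc (nat_lit 401428261786083890825)]]]]]]]]]]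

/-- A coefficient. -/
noncomputable def sr0_m1_5_4 : MP 10 :=
  [[[[[[[[[[Int.negSucc (nat_lit 845035571472788899289)]]],[[[Int.ofNat (nat_lit 14264067789980179798)]]]]],[[[[[Int.ofNat (nat_lit 343568282611192395782)]]]]]]],[[[[[[[Int.negSucc (nat_lit 147730858276977364791)]]]]]]]],[[[],[[[[[[Int.ofNat (nat_lit 137646574837584624188)]]]]]]]],[[[[[[[[Int.ofNat (nat_lit 2255768020774618712)]]]]]]]]],[[[[[[[[[Int.negSucc (nat_lit 1653857015639997147561)]]]]]]],[[[[[[[Int.ofNat (nat_lit 81564088044302777952)]]]]]]]]],[[[[[[[[[Int.negSucc (nat_lit 477538355757202210805)]]]]]]]]]]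

/-- A coefficient. -/
noncomputable def sr0_m1_5_5 : MP 10 :=
  [[[[[[[],[[[[Int.negSucc (nat_lit 286096681968501954257)]]]]]],[[[[[[Int.ofNat (nat_lit 234592442514591743118)]]]]]]]],[[[[[[[[Int.negSucc (nat_lit 949644200458378978869)]]]]]]]]],[[],[[[[[[[[Int.negSucc (nat_lit 196492920340607762447)]]]]]]]]]]

/-- A coefficient. -/
noncomputable def sr0_m1_5_6 : MP 10 :=
  [[[[[[[[[[Int.ofNat (nat_lit 1969803549799421978540)]]]]]]],[[[[[[[Int.ofNat (nat_lit 279380875800385126548)]]]]]]]]],[[[[[[[[[Int.ofNat (nat_lit 1253473299623991654696)]]]]]]]]]]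

/-- A coefficient. -/
noncomputable def sr0_m1_5_7 : MP 10 :=
  [[[],[[[[[[[[Int.ofNat (nat_lit 656073806108560613900)]]]]]]]]]]

/-- A coefficient. -/
noncomputable def sr0_m1_5_8 : MP 10 :=
  [[[[[[[[[[Int.negSucc (nat_lit 906204711179488113109)]]]]]]]]]]

/-- A coefficient. -/
noncomputable def sr0_m1_6_0 : MP 10 :=
  [[[[[[[[[[Int.negSucc (nat_lit 419410907701327019123)],[Int.negSucc (nat_lit 173766193286961326417)]]],[[[Int.negSucc (nat_lit 74042723110417834287)]]]]],[[[[[Int.negSucc (nat_lit 74777147849258374353)]]]]]],[],[[[[[[Int.ofNat (nat_lit 95969025533248691174)]]]]]]],[[[[[[[Int.negSucc (nat_lit 73812795085266165337)]]]]]]]]],[[[[[[[[[Int.negSucc (nat_lit 175875956824199941393)],[Int.negSucc (nat_lit 8079463960674078327)]]],[[[Int.negSucc (nat_lit 27489256073421199743)]]]]],[[[[[Int.negSucc (nat_lit 128765710279941615725)]]]]]],[],[[[[[[Int.ofNat (nat_lit 135924738913520238466)]]]]]]],[[[[[[[Int.ofNat (nat_lit 13037867885848631906)]]]]]]]]]]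

/-- A coefficient. -/
noncomputable def sr0_m1_6_1 : MP 10 :=
  [[[],[[],[[[[[[[Int.ofNat (nat_lit 87260038740619929874)]]]]]]]],[],[[[[[[[[Int.ofNat (nat_lit 3353426245884145788)]]]]]]]]],[[[[[[],[[[[Int.ofNat (nat_lit 83821227061538104982)]]]]]],[[[[[[Int.negSucc (nat_lit 147352340056664152933)]]]]]]]],[[[[[[[[Int.negSucc (nat_lit 9913271800334588461)]]]]]]]]],[[],[[[[[[[[Int.negSucc (nat_lit 73294994701425697537)]]]]]]]]]]

/-- A coefficient. -/
noncomputable def sr0_m1_6_2 : MP 10 :=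
  [[[[[[[[[[Int.ofNat (nat_lit 126489160227456593810)],[Int.ofNat (nat_lit 30157958482489400780)]]],[[[Int.negSucc (nat_lit 51660581615044715085)]]]]],[[[[[Int.ofNat (nat_lit 620181831263190107240)]]]]]],[],[[[[[[Int.negSucc (nat_lit 104745290630653898075)]]]]]]],[[[[[[[Int.ofNat (nat_lit 55651503735684578266)]]]]]]]],[[[],[[[[[[Int.ofNat (nat_lit 67657301898951591626)]]]]]]]],[[[[[[[[Int.ofNat (nat_lit 189658042708523797554)]]]]]]]]],[[[[[[[[[Int.negSucc (nat_lit 288915451736141744575)]]]]]]],[[[[[[[Int.ofNat (nat_lit 6472020890169170902)]]]]]]]]],[[[[[[[[[Int.ofNat (nat_lit 53961176510298516026)]]]]]]]]]]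

/-- A coefficient. -/
noncomputable def sr0_m1_6_3 : MP 10 :=
  [[[[[[[],[[[[Int.negSucc (nat_lit 66434898246558318429)]]]]]],[[[[[[Int.ofNat (nat_lit 63522271628949997510)]]]]]]]],[[[[[[[[Int.negSucc (nat_lit 489584338102464313101)]]]]]]]]],[[],[[[[[[[[Int.ofNat (nat_lit 41150266714107680946)]]]]]]]]]]

/-- A coefficient. -/
noncomputable def sr0_m1_6_4 : MP 10 :=
  [[[[[[[[[[Int.ofNat (nat_lit 581713563743705254036)]]]]]]],[[[[[[[Int.ofNat (nat_lit 63278926483545791172)]]]]]]]]],[[[[[[[[[Int.ofNat (nat_lit 211102759612162512744)]]]]]]]]]]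

/-- A coefficient. -/
noncomputable def sr0_m1_6_5 : MP 10 :=
  [[[],[[[[[[[[Int.ofNat (nat_lit 379867418144944192738)]]]]]]]]]]

/-- A coefficient. -/
noncomputable def sr0_m1_6_6 : MP 10 :=
  [[[[[[[[[[Int.negSucc (nat_lit 351937583387447788979)]]]]]]]]]]

/-- A coefficient. -/
noncomputable def sr0_m1_7_0 : MP 10 :=
  [[[[[[[[[[Int.negSucc (nat_lit 159721222194940497775)],[Int.ofNat (nat_lit 72312145602177427140)]]],[[[Int.negSucc (nat_lit 44816648182302374791)]]]]],[[[[[Int.ofNat (nat_lit 183733330584894952862)]]]]]],[],[[[[[[Int.negSucc (nat_lit 53319324700269846113)]]]]]]],[[[[[[[Int.negSucc (nat_lit 23450737933403526775)]]]]]]]]]]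

/-- A coefficient. -/
noncomputable def sr0_m1_7_1 : MP 10 :=
  [[[],[[],[[[[[[[Int.negSucc (nat_lit 61378573767972702923)]]]]]]]],[],[[[[[[[[Int.negSucc (nat_lit 32836558617688150687)]]]]]]]]],[[[[[[],[[[[Int.negSucc (nat_lit 53614602535538196743)]]]]]],[[[[[[Int.ofNat (nat_lit 179666984522463131012)]]]]]]]],[[[[[[[[Int.negSucc (nat_lit 53568905128141774521)]]]]]]]]],[[],[[[[[[[[Int.negSucc (nat_lit 6900445080799290053)]]]]]]]]]]

/-- A coefficient. -/
noncomputable def sr0_m1_7_2 : MP 10 :=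
  [[[[[[[[[[Int.ofNat (nat_lit 96921835963621332988)]]],[[[Int.ofNat (nat_lit 6919972196048589014)]]]]],[[[[[Int.negSucc (nat_lit 43278407633499305879)]]]]]]],[[[[[[[Int.ofNat (nat_lit 4420747970207390622)]]]]]]]],[[[],[[[[[[Int.negSucc (nat_lit 10787649304609373381)]]]]]]]],[[[[[[[[Int.negSucc (nat_lit 141715624254251983083)]]]]]]]]],[[[[[[[[[Int.ofNat (nat_lit 90535656058557532976)]]]]]]],[[[[[[[Int.ofNat (nat_lit 78953702182787754116)]]]]]]]]],[[[[[[[[[Int.negSucc (nat_lit 79739831728051026707)]]]]]]]]]]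

/-- A coefficient. -/
noncomputable def sr0_m1_7_3 : MP 10 :=
  [[[[[[[],[[[[Int.negSucc (nat_lit 29067498561158641415)]]]]]],[[[[[[Int.negSucc (nat_lit 53066831620478092041)]]]]]]]],[[[[[[[[Int.ofNat (nat_lit 210734980970285529040)]]]]]]]]],[[],[[[[[[[[Int.ofNat (nat_lit 42237374135229450842)]]]]]]]]]]

/-- A coefficient. -/
noncomputable def sr0_m1_7_4 : MP 10 :=
  [[[[[[[[[[Int.negSucc (nat_lit 141403937629820623821)]]]]]]],[[[[[[[Int.ofNat (nat_lit 90614954272419661458)]]]]]]]]],[[[[[[[[[Int.negSucc (nat_lit 128448149043185686105)]]]]]]]]]]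

/-- A coefficient. -/
noncomputable def sr0_m1_7_5 : MP 10 :=
  [[[],[[[[[[[[Int.negSucc (nat_lit 123913957358829023591)]]]]]]]]]]

/-- A coefficient. -/
noncomputable def sr0_m1_7_6 : MP 10 :=
  [[[[[[[[[[Int.ofNat (nat_lit 50053123892191269632)]]]]]]]]]]

/-- A coefficient. -/
noncomputable def sr0_m1_8_0 : MP 10 :=
  [[[[[[[[[[Int.ofNat (nat_lit 107078782335809645246)],[Int.ofNat (nat_lit 6445273943534054976)]]],[[[Int.ofNat (nat_lit 36734017078681973622)]]]]],[[[[[Int.negSucc (nat_lit 40903652400060787175)]]]]]],[],[[[[[[Int.negSucc (nat_lit 33160951024436051455)]]]]]]],[[[[[[[Int.ofNat (nat_lit 107823064184773253336)]]]]]]]]]]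

/-- An expanded part. -/
noncomputable def sr0_m1 : R12 :=
  [[sr0_m1_0_0, sr0_m1_0_1, sr0_m1_0_2, sr0_m1_0_3, sr0_m1_0_4, sr0_m1_0_5, sr0_m1_0_6, sr0_m1_0_7, sr0_m1_0_8, sr0_m1_0_9, sr0_m1_0_10, sr0_m1_0_11, sr0_m1_0_12],
   [sr0_m1_1_0, sr0_m1_1_1, sr0_m1_1_2, sr0_m1_1_3, sr0_m1_1_4, sr0_m1_1_5, sr0_m1_1_6, sr0_m1_1_7, sr0_m1_1_8, sr0_m1_1_9, sr0_m1_1_10, sr0_m1_1_11, sr0_m1_1_12],
   [sr0_m1_2_0, sr0_m1_2_1, sr0_m1_2_2, sr0_m1_2_3, sr0_m1_2_4, sr0_m1_2_5, sr0_m1_2_6, sr0_m1_2_7, sr0_m1_2_8, sr0_m1_2_9, sr0_m1_2_10],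
   [sr0_m1_3_0, sr0_m1_3_1, sr0_m1_3_2, sr0_m1_3_3, sr0_m1_3_4, sr0_m1_3_5, sr0_m1_3_6, sr0_m1_3_7, sr0_m1_3_8, sr0_m1_3_9, sr0_m1_3_10],
   [sr0_m1_4_0, sr0_m1_4_1, sr0_m1_4_2, sr0_m1_4_3, sr0_m1_4_4, sr0_m1_4_5, sr0_m1_4_6, sr0_m1_4_7, sr0_m1_4_8],
   [sr0_m1_5_0, sr0_m1_5_1, sr0_m1_5_2, sr0_m1_5_3, sr0_m1_5_4, sr0_m1_5_5, sr0_m1_5_6, sr0_m1_5_7, sr0_m1_5_8],
   [sr0_m1_6_0, sr0_m1_6_1, sr0_m1_6_2, sr0_m1_6_3, sr0_m1_6_4, sr0_m1_6_5, sr0_m1_6_6],
   [sr0_m1_7_0, sr0_m1_7_1, sr0_m1_7_2, sr0_m1_7_3, sr0_m1_7_4, sr0_m1_7_5, sr0_m1_7_6],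
   [sr0_m1_8_0]]

set_option maxRecDepth 100000 in
theorem sr0_check1 : partOk 0 sr0_rows 1 sr0_m1 = true :=
  Fast.partOk_of_fast (by decide +kernel)

end Vale.Agent.P142K.CertB
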