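import Vale.Agent.P142K.CertB.Sr0Rows
import Vale.Agent.P142K.Fast

/-!
# An expanded part of the certificate

Generated from a semidefinite program; only the checker is trusted.
-/

namespace Vale.Agent.P142K.CertB

open Vale.Agent.P142J (MP)

/-- A coefficient. -/
noncomputable def sr0_m2_2_0 : MP 10 :=
  [[[[],[],[],[],[[[[[[[Int.ofNat (nat_lit 53232924074659753318)]]]]]]]],[[],[],[[[[],[[[[Int.negSucc (nat_lit 16718775565630531681)]]]]]],[[[[[[Int.negSucc (nat_lit 71336936752882327639)]]]]]]]],[[[[[],[],[[[[Int.ofNat (nat_lit 73206201705152425659)]]]]]],[[[],[[[[Int.ofNat (nat_lit 73781898576583452876)]]]]]],[[[[[[Int.ofNat (nat_lit 264511351993900990371)]]]]]]],[],[[[[[[[Int.ofNat (nat_lit 11792017136841820690)]]]]]]]],[[[[[],[[[[Int.negSucc (nat_lit 54260951568140536027)]]]]]],[[[[[[Int.negSucc (nat_lit 212678460616717604643)]]]]]]]],[[[[[[[[Int.ofNat (nat_lit 295798192926462549675)]]]]]]]]],[[[],[],[[[[[[[Int.ofNat (nat_lit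 58656413338646858778)]]]]],[[[[[Int.negSucc (nat_lit 29314135682761661977)]]]]]]],[[[[[[[Int.negSucc (nat_lit 65323974828377625869)]]]]]]]],[[[[[],[[[[Int.negSucc (nat_lit 211729076030224109717)]]]]],[[],[[[[Int.negSucc (nat_lit 12063124836719260001)]]]]]],[[[[[[Int.negSucc (nat_lit 167443251192911178177)]]]]],[[[[[Int.ofNat (nat_lit 39206843841438796206)]]]]]]],[[[[],[[[[Int.negSucc (nat_lit 580183761724267861)]]]]]],[[[[[[Int.ofNat (nat_lit 169898777683565473954)]]]]]]]],[[[[[[[[Int.negSucc (nat_lit 52810941302207535389)]]]]],[[[[[Int.negSucc (nat_lit 89560932117923981567)]]]]]]],[[[[[[[Int.negSucc (nat_lit 31400299323224044339)]]]]]]],[[[[[[[Int.negSucc (nat_lit 20750904984249491973)]]]]]]]],[[[[[],[[[[Int.ofNat (nat_lit 21836139093761764292)]]]]]],[[[[[[Int.ofNat (nat_lit 59618521385164619098)]]]]]]]],[[[[[[[[Int.ofNat (nat_lit 116956035937376905190)]]]]]]]]],[[[[[[[[[Int.ofNat (nat_lit 623771900651776238649)]]]]],[[[[[Int.ofNat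 (nat_lit 130419081167820413910)]]]]],[[[[[Int.ofNat (nat_lit 59722275810470947973)]]]]]]],[[[[[[[Int.negSucc (nat_lit 431932948859570303409)]]]]],[[[[[Int.negSucc (nat_lit 13329332332681517025)]]]]]]],[[[[[[[Int.ofNat (nat_lit 311189958039589006188)]]]]]]]],[[[[[],[[[[Int.negSucc (nat_lit 64673516964976550441)]]]]]],[[[[[[Int.negSucc (nat_lit 112290107187866743631)]]]]]]]],[[[[[[[[Int.ofNat (nat_lit 80710212965977227278)]]]]],[[[[[Int.negSucc (nat_lit 16733136852608244335)]]]]]]],[[[[[[[Int.ofNat (nat_lit 107332751155579787360)]]]]]]]],[],[[[[[[[[Int.ofNat (nat_lit 63586843832231155014)]]]]]]]]],[[[[[[[[[Int.ofNat (nat_lit 351547502404186698544)]]]]],[[[[[Int.negSucc (nat_lit 1415890383135765325)]]]]]]],[[[[[[[Int.ofNat (nat_lit 17380092818750726226)]]]]]]],[[[[[[[Int.negSucc (nat_lit 7836586098616356087)]]]]]]]],[[[[[],[[[[Int.negSucc (nat_lit 7591817839425100585)]]]]]],[[[[[[Int.ofNat (nat_lit 3852873086965643850)]]]]]]]],[[[[[[[[Int.ofNat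 (nat_lit 96778402282807814308)]]]]]]]]],[[[[[[[[[Int.ofNat (nat_lit 228357045500558847646)]]]]],[[[[[Int.negSucc (nat_lit 12203344489998008579)]]]]]]],[[[[[[[Int.ofNat (nat_lit 126789905556170076286)]]]]]]]],[],[[[[[[[[Int.ofNat (nat_lit 57448155586101695100)]]]]]]]]],[[[[[[[[[Int.ofNat (nat_lit 143170173072592108264)]]]]]]]]],[[[[[[[[[Int.ofNat (nat_lit 44943177746904282040)]]]]]]]]]]

/-- A coefficient. -/
noncomputable def sr0_m2_2_1 : MP 10 :=
  [[[[],[],[[[[[[],[[Int.ofNat (nat_lit 2811527846423825310)]]]],[[[[Int.ofNat (nat_lit 100999772139962201872)]]]]]],[[[[[[Int.ofNat (nat_lit 31760875805939394384)]]]]]]]],[[[[[],[[[],[[Int.ofNat (nat_lit 16826478514539723446)]]]],[[[[Int.negSucc (nat_lit 49242020661510725251)]]]]]],[[[[[],[[Int.ofNat (nat_lit 7594168594170785526)]]]],[[[[Int.negSucc (nat_lit 123539909343844043043)]]]]]],[[[[[[Int.negSucc (nat_lit 286027684929715323259)]]]]]]],[],[[[[[[[Int.ofNat (nat_lit 78420874788598846102)]]]]]]],[[[[[[[Int.ofNat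 (nat_lit 25507322715441516770)]]]]]]]],[[[[[[[],[[Int.ofNat (nat_lit 14075416179329439226)]]]],[[[[Int.ofNat (nat_lit 278414367939878981834)]]]]]],[[[[[[Int.ofNat (nat_lit 519821713695639771948)]]]]]]],[[[[],[[[[Int.negSucc (nat_lit 97478868293947466017)]]]]]],[[[[[[Int.ofNat (nat_lit 83200041268770069276)]]]]]]]],[[[[[[[[Int.negSucc (nat_lit 971651050465918448607)]]]]]]],[[[[[[[Int.negSucc (nat_lit 166392992173305788155)]]]]]]]]],[[[[[[[[],[[Int.negSucc (nat_lit 33437187137996153141)]]]],[[[[Int.ofNat (nat_lit 81744067910562606222)]]]]],[[[[],[[Int.negSucc (nat_lit 11246454744404373507)]]]],[[[[Int.negSucc (nat_lit 58820971393981697193)]]]]]],[[[[[[Int.ofNat (nat_lit 24647307287440541598)]]]]],[[[[[Int.negSucc (nat_lit 13760131965618851061)]]]]]]],[[[[[[],[[Int.ofNat (nat_lit 3678116705715410822)]]]],[[[[Int.negSucc (nat_lit 105465647744733523755)]]]]]],[[[[[[Int.negSucc (nat_lit 91293194349057929477)]]]]]]],[[],[[[[[[Int.negSucc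 (nat_lit 6555953981694606683)]]]]]]]],[[[[[[[[Int.negSucc (nat_lit 103962935803492987813)]]]]],[[[[[Int.ofNat (nat_lit 158188882676764696446)]]]]]],[[[],[[[[Int.ofNat (nat_lit 119662812332812937448)]]]]]],[[[[[[Int.ofNat (nat_lit 173273532618715996028)]]]]]]],[[[[[[[Int.ofNat (nat_lit 711680526091784307422)]]]]],[[[[[Int.ofNat (nat_lit 61201330099047797686)]]]]]]],[[[[[[[Int.negSucc (nat_lit 176859159224741702549)]]]]]]]],[[[[[[[],[[Int.ofNat (nat_lit 4021795919000723154)]]]],[[[[Int.negSucc (nat_lit 34517531655409072339)]]]]]],[[[[[[Int.negSucc (nat_lit 87742700354471781245)]]]]]]]],[[[[[[[[Int.negSucc (nat_lit 62291674476200645293)]]]]]]],[[[[[[[Int.negSucc (nat_lit 133574494487027954647)]]]]]]]]],[[[[[[[[],[[Int.ofNat (nat_lit 19796845300950313766)]]]],[[[[Int.ofNat (nat_lit 176267726014368659712)]]]]]],[[[[[[Int.ofNat (nat_lit 78581243562151738558)]]]]],[[[[[Int.ofNat (nat_lit 64176717972914128884)]]]]]]],[[],[[[[[[Int.negSucc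 (nat_lit 67535682874161042395)]]]]]]]],[[[[[[[[Int.negSucc (nat_lit 189356348866997953995)]]]]],[[[[[Int.negSucc (nat_lit 13653175493644869281)]]]]]]],[[[[[[[Int.ofNat (nat_lit 32135889628195681636)]]]]]]]],[[[],[[[[[[Int.ofNat (nat_lit 54760404873247278028)]]]]]]]],[[[[[[[[Int.ofNat (nat_lit 30367239815042170540)]]]]]]]]],[[[[[[[[],[[Int.ofNat (nat_lit 11487157173689419506)]]]],[[[[Int.ofNat (nat_lit 33234168612696473068)]]]]]],[[[[[[Int.ofNat (nat_lit 138448789805674138766)]]]]]]]],[[[[[[[[Int.ofNat (nat_lit 97994005484719307286)]]]]]]],[[[[[[[Int.negSucc (nat_lit 127739063701174719685)]]]]]]]]],[[[[],[[[[[[Int.ofNat (nat_lit 22432420197487902064)]]]]]]]],[[[[[[[[Int.ofNat (nat_lit 78259897503200092718)]]]]]]]]]]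

/-- A coefficient. -/
noncomputable def sr0_m2_2_2 : MP 10 :=
  [[[[[[[[[],[],[[Int.ofNat (nat_lit 13100909568981309640)]]]],[[[],[[Int.ofNat (nat_lit 29262764908855256664)]]]],[[[[Int.ofNat (nat_lit 275880011099458708255)]]]]]],[[[[[],[[Int.ofNat (nat_lit 26581223771101470836)]]]],[[[[Int.ofNat (nat_lit 32136352521662792784)]]]]]],[[[[[[Int.ofNat (nat_lit 791665525057864683900)]]]]]]],[],[[[[[[[Int.negSucc (nat_lit 184894941277580627675)]]]]],[[[[[Int.ofNat (nat_lit 91387410145061725046)]]]]]]],[[[[[[[Int.negSucc (nat_lit 51739568429619497293)]]]]]]]],[[[[[[[],[[Int.negSucc (nat_lit 8303830344709259235)]]]],[[[[Int.ofNat (nat_lit 2958759291004426110)]]]]],[[],[[[[Int.ofNat (nat_lit 48376167943081326892)]]]]]],[[[[[[Int.negSucc (nat_lit 586311814381710206713)]]]]],[[[[[Int.negSucc (nat_lit 127963607648641187223)]]]]]]],[[[[[[],[[Int.negSucc (nat_lit 16259259525717561351)]]]],[[[[Int.ofNat (nat_lit 128242041449387786958)]]]]]],[[[[[[Int.negSucc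 (nat_lit 391790040365711982079)]]]]]]]],[[[[[[[[Int.ofNat (nat_lit 3676962939310664192394)]]]]],[[[[[Int.ofNat (nat_lit 99780804168101830906)]]]]]]],[[[[[[[Int.negSucc (nat_lit 593240291899191699623)]]]]]]],[[[[[[[Int.ofNat (nat_lit 480826459812662626140)]]]]]]]],[[[[[],[[[[Int.negSucc (nat_lit 48054107292657815601)]]]]]],[[[[[[Int.negSucc (nat_lit 27295349561626689929)]]]]]]]],[[[[[[[[Int.negSucc (nat_lit 296434283031518187687)]]]]]]]]],[[[[[[[[[Int.negSucc (nat_lit 1057636712202090147359)]]]]],[[[[[Int.negSucc (nat_lit 298435736449270741921)]]]]],[[[[[Int.negSucc (nat_lit 62535279776625850223)]]]]]],[[[[[],[[Int.ofNat (nat_lit 35008357951236344618)]]]],[[[[Int.ofNat (nat_lit 35183365294872025306)]]]]]],[[[[[[Int.ofNat (nat_lit 540979767921444132782)]]]]]]],[[[[[[[Int.ofNat (nat_lit 331805569916267099604)]]]]],[[[[[Int.ofNat (nat_lit 48445166430834906116)]]]]]]],[[[[[[[Int.negSucc (nat_lit 173696166016461343401)]]]]]]]],[[[[[[[],[[Int.ofNat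 (nat_lit 9294417676941149140)]]]],[[[[Int.ofNat (nat_lit 398327341974664288126)]]]]]],[[[[[[Int.ofNat (nat_lit 547027945175273480550)]]]]]]],[[],[[[[[[Int.negSucc (nat_lit 155133978051768533745)]]]]]]]],[[[[[[[[Int.ofNat (nat_lit 2344732526304577153528)]]]]],[[[[[Int.negSucc (nat_lit 74109530916297574551)]]]]]]],[[[[[[[Int.negSucc (nat_lit 333189654092839721487)]]]]]]]],[],[[[[[[[[Int.negSucc (nat_lit 80472621199116699365)]]]]]]]]],[[[[[[[[[Int.negSucc (nat_lit 1654188437115567645375)]]]]],[[[[[Int.ofNat (nat_lit 42722038335139223466)]]]]]],[],[[[[[[Int.ofNat (nat_lit 412937157814263122138)]]]]]]],[[[[[[[Int.ofNat (nat_lit 49166566608160606994)]]]]]]],[[[[[[[Int.negSucc (nat_lit 3216478390285971191)]]]]]]]],[[[[[],[[[[Int.ofNat (nat_lit 39696372190345430378)]]]]]],[[[[[[Int.ofNat (nat_lit 101545308283774757998)]]]]]]]],[[[[[[[[Int.ofNat (nat_lit 1152888447699288345579)]]]]]]]]],[[[[[[[[[Int.negSucc (nat_lit 955534320771530658859)]]]]],[[[[[Int.ofNat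 (nat_lit 82959344897407728812)]]]]]]],[[[[[[[Int.ofNat (nat_lit 85798129725973213622)]]]]]]]],[],[[[[[[[[Int.negSucc (nat_lit 6753423918240927227)]]]]]]]]],[[[[[[[[[Int.negSucc (nat_lit 390078915110875124995)]]]]]]]]],[[[[[[[[[Int.negSucc (nat_lit 34311989820237698597)]]]]]]]]]]

/-- A coefficient. -/
noncomputable def sr0_m2_2_3 : MP 10 :=
  [[[[[[[[[],[[Int.ofNat (nat_lit 24292755444927667440)]]]],[[[[Int.negSucc (nat_lit 270648623605914666601)]]]]],[[[[],[[Int.ofNat (nat_lit 26816462899200025782)]]]],[[[[Int.ofNat (nat_lit 137057886073444836740)]]]]]],[[[[[[Int.ofNat (nat_lit 517336608230743222708)]]]]],[[[[[Int.ofNat (nat_lit 79033073821108731014)]]]]]]],[[[[[[],[[Int.ofNat (nat_lit 2808980978807604576)]]]],[[[[Int.negSucc (nat_lit 216290780395801960769)]]]]]],[[[[[[Int.negSucc (nat_lit 5119351268829875555)]]]]]]],[[],[[[[[[Int.negSucc (nat_lit 1639727744508296687)]]]]]]]],[[[[[[[[Int.negSucc (nat_lit 3853017882740994709299)]]]]],[[[[[Int.ofNat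 (nat_lit 300621185048388838162)]]]]]],[[[],[[[[Int.ofNat (nat_lit 585841639356076950)]]]]]],[[[[[[Int.ofNat (nat_lit 70329582662248982006)]]]]]]],[[[[[[[Int.ofNat (nat_lit 312914295498093728358)]]]]],[[[[[Int.negSucc (nat_lit 190636436337160109835)]]]]]]],[[[[[[[Int.negSucc (nat_lit 187155318963853017973)]]]]]]]],[[[[[[[],[[Int.negSucc (nat_lit 12648837307241394865)]]]],[[[[Int.negSucc (nat_lit 160351390068257161077)]]]]]],[[[[[[Int.negSucc (nat_lit 444485327020901364327)]]]]]]]],[[[[[[[[Int.ofNat (nat_lit 941370868441817945352)]]]]]]],[[[[[[[Int.ofNat (nat_lit 94551414868572389910)]]]]]]]]],[[[[[[[[],[[Int.ofNat (nat_lit 22631266686337099802)]]]],[[[[Int.negSucc (nat_lit 234334638006283197831)]]]]]],[[[[[[Int.negSucc (nat_lit 238599644034887333749)]]]]],[[[[[Int.ofNat (nat_lit 7778746365477917926)]]]]]]],[[],[[[[[[Int.ofNat (nat_lit 29624280470857718470)]]]]]]]],[[[[[[[[Int.negSucc (nat_lit 2532561926450206185869)]]]]],[[[[[Int.ofNat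 (nat_lit 208026300539467633104)]]]]]]],[[[[[[[Int.ofNat (nat_lit 196698561324894486050)]]]]]]]],[[[],[[[[[[Int.negSucc (nat_lit 230234810148770883851)]]]]]]]],[[[[[[[[Int.ofNat (nat_lit 5576591873765968784)]]]]]]]]],[[[[[[[[],[[Int.negSucc (nat_lit 11108446125600484353)]]]],[[[[Int.negSucc (nat_lit 80022797363167257661)]]]]]],[[[[[[Int.ofNat (nat_lit 67534864728369215944)]]]]]]]],[[[[[[[[Int.negSucc (nat_lit 1486931594245844958747)]]]]]]],[[[[[[[Int.ofNat (nat_lit 66781325922360099664)]]]]]]]]],[[[[],[[[[[[Int.negSucc (nat_lit 75099770588179343601)]]]]]]]],[[[[[[[[Int.ofNat (nat_lit 109676291848679033626)]]]]]]]]]]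

/-- A coefficient. -/
noncomputable def sr0_m2_2_4 : MP 10 :=
  [[[[[[[[[[Int.ofNat (nat_lit 3651619596739355394625)]]]]],[[[[[Int.ofNat (nat_lit 41468170918645257810)]]]]],[[[[[Int.ofNat (nat_lit 220545931346055862364)]]]]]],[[[[[],[[Int.ofNat (nat_lit 4163482805480681834)]]]],[[[[Int.ofNat (nat_lit 27425143360214935026)]]]]]],[[[[[[Int.negSucc (nat_lit 769116358701588135927)]]]]]]],[[[[[[[Int.negSucc (nat_lit 909664006258171472593)]]]]],[[[[[Int.ofNat (nat_lit 8575470120261011878)]]]]]]],[[[[[[[Int.ofNat (nat_lit 1387624907388806981750)]]]]]]]],[[[[[[[],[[Int.ofNat (nat_lit 30764257680768729762)]]]],[[[[Int.ofNat (nat_lit 158521642748000552042)]]]]]],[[[[[[Int.ofNat (nat_lit 911874436514943743750)]]]]]]],[[],[[[[[[Int.ofNat (nat_lit 69739499920479773724)]]]]]]]],[[[[[[[[Int.negSucc (nat_lit 5332487192283984668331)]]]]],[[[[[Int.negSucc (nat_lit 62463372900546500577)]]]]]]],[[[[[[[Int.ofNat (nat_lit 828902076854510736798)]]]]]]]],[],[[[[[[[[Int.ofNat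 (nat_lit 686811274789432180638)]]]]]]]]],[[[[[[[[[Int.ofNat (nat_lit 5240864461071322666606)]]]]],[[[[[Int.ofNat (nat_lit 114271103968566894412)]]]]]],[],[[[[[[Int.negSucc (nat_lit 107905374071418684937)]]]]]]],[[[[[[[Int.negSucc (nat_lit 572120443103221827791)]]]]]]],[[[[[[[Int.ofNat (nat_lit 49535776571439166602)]]]]]]]],[[[[[],[[[[Int.negSucc (nat_lit 221781433675909416165)]]]]]],[[[[[[Int.negSucc (nat_lit 309492748038131913231)]]]]]]]],[[[[[[[[Int.negSucc (nat_lit 794523707327928027973)]]]]]]]]],[[[[[[[[[Int.ofNat (nat_lit 4474780263395766660544)]]]]],[[[[[Int.negSucc (nat_lit 78442561285494457157)]]]]]]],[[[[[[[Int.ofNat (nat_lit 420359981238947599452)]]]]]]]],[],[[[[[[[[Int.ofNat (nat_lit 260639014207902437562)]]]]]]]]],[[[[[[[[[Int.ofNat (nat_lit 1882508274180964429586)]]]]]]]]],[[[[[[[[[Int.ofNat (nat_lit 651329937397437532157)]]]]]]]]]]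

/-- A coefficient. -/
noncomputable def sr0_m2_2_5 : MP 10 :=
  [[[[[[[[[],[[Int.ofNat (nat_lit 16278277787708826694)]]]],[[[[Int.ofNat (nat_lit 492808778549064782140)]]]]]],[[[[[[Int.negSucc (nat_lit 627934652231749998311)]]]]],[[[[[Int.ofNat (nat_lit 27848538715951044322)]]]]]]],[[],[[[[[[Int.negSucc (nat_lit 218188194511196768221)]]]]]]]],[[[[[[[[Int.ofNat (nat_lit 6046906524693105178650)]]]]],[[[[[Int.negSucc (nat_lit 38536788940077718597)]]]]]]],[[[[[[[Int.ofNat (nat_lit 137810402211429676302)]]]]]]]],[[[],[[[[[[Int.negSucc (nat_lit 227085803845324069381)]]]]]]]],[[[[[[[[Int.negSucc (nat_lit 323298668223162918241)]]]]]]]]],[[[[[[[[],[[Int.ofNat (nat_lit 3846903220310052358)]]]],[[[[Int.ofNat (nat_lit 295735919624667433020)]]]]]],[[[[[[Int.ofNat (nat_lit 155798637922562321576)]]]]]]]],[[[[[[[[Int.ofNat (nat_lit 1723367739731714303136)]]]]]]],[[[[[[[Int.ofNat (nat_lit 32372860442839368372)]]]]]]]]],[[[[],[[[[[[Int.negSucc (nat_lit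 519390678358023257045)]]]]]]]],[[[[[[[[Int.ofNat (nat_lit 1008366215249184701296)]]]]]]]]]]

/-- A coefficient. -/
noncomputable def sr0_m2_2_6 : MP 10 :=
  [[[[[[[[[[Int.negSucc (nat_lit 7901703040677948002621)]]]]],[[[[[Int.negSucc (nat_lit 42650900331551413599)]]]]]],[],[[[[[[Int.ofNat (nat_lit 807189421388624162309)]]]]]]],[[[[[[[Int.negSucc (nat_lit 729010327136963922191)]]]]]]],[[[[[[[Int.negSucc (nat_lit 167245083721280629169)]]]]]]]],[[[[[],[[[[Int.negSucc (nat_lit 25578185597747523641)]]]]]],[[[[[[Int.negSucc (nat_lit 645332460914828053077)]]]]]]]],[[[[[[[[Int.ofNat (nat_lit 1726816625550868157759)]]]]]]]]],[[[[[[[[[Int.negSucc (nat_lit 7741081095314218381867)]]]]],[[[[[Int.negSucc (nat_lit 14277265654510521601)]]]]]]],[[[[[[[Int.ofNat (nat_lit 11804082908686377280)]]]]]]]],[],[[[[[[[[Int.negSucc (nat_lit 256240481230415368593)]]]]]]]]],[[[[[[[[[Int.negSucc (nat_lit 5293723478934252476973)]]]]]]]]],[[[[[[[[[Int.negSucc (nat_lit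 777984197990204623579)]]]]]]]]]]

/-- A coefficient. -/
noncomputable def sr0_m2_2_7 : MP 10 :=
  [[[[[[[[[],[[Int.negSucc (nat_lit 21084637367713067705)]]]],[[[[Int.negSucc (nat_lit 209936583608470474471)]]]]]],[[[[[[Int.ofNat (nat_lit 1129200689876387037728)]]]]]]]],[[[[[[[[Int.negSucc (nat_lit 3585733293028859013281)]]]]]]],[[[[[[[Int.negSucc (nat_lit 190745101085939551501)]]]]]]]]],[[[[],[[[[[[Int.negSucc (nat_lit 116194628172840801173)]]]]]]]],[[[[[[[[Int.ofNat (nat_lit 152198494166225708006)]]]]]]]]]]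

/-- A coefficient. -/
noncomputable def sr0_m2_2_8 : MP 10 :=
  [[[[[[[[[[Int.ofNat (nat_lit 11336181063728531692826)]]]]],[[[[[Int.ofNat (nat_lit 7415333759867199504)]]]]]]],[[[[[[[Int.ofNat (nat_lit 687398303207412049946)]]]]]]]],[],[[[[[[[[Int.ofNat (nat_lit 810018706802800181838)]]]]]]]]],[[[[[[[[[Int.ofNat (nat_lit 5269119957036431702746)]]]]]]]]],[[[[[[[[[Int.ofNat (nat_lit 2508704896953987746987)]]]]]]]]]]

/-- A coefficient. -/
noncomputable def sr0_m2_2_9 : MP 10 :=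
  [[[[[],[[[[[[Int.negSucc (nat_lit 588139760898887982975)]]]]]]]],[[[[[[[[Int.ofNat (nat_lit 247609023510336214836)]]]]]]]]]]

/-- A coefficient. -/
noncomputable def sr0_m2_2_10 : MP 10 :=
  [[[[[[[[[[Int.negSucc (nat_lit 10116619842740377548577)]]]]]]]]],[[[[[[[[[Int.negSucc (nat_lit 1014618289091732850433)]]]]]]]]]]

/-- A coefficient. -/
noncomputable def sr0_m2_2_11 : MP 10 :=
  []

/-- A coefficient. -/
noncomputable def sr0_m2_2_12 : MP 10 :=
  [[[[[[[[[[Int.ofNat (nat_lit 4036429612783541276603)]]]]]]]]]]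

/-- A coefficient. -/
noncomputable def sr0_m2_3_0 : MP 10 :=
  [[[[],[],[[[[[[[Int.negSucc (nat_lit 128753005247671550995)]]],[[[Int.negSucc (nat_lit 4068058672002955489)]]]]],[[[[[Int.ofNat (nat_lit 15477103349928832074)]]]]]]],[[[[[[[Int.ofNat (nat_lit 66361186936841886632)]]]]]]]],[[[[[],[[[[Int.ofNat (nat_lit 230724610215040404244)]]],[[[Int.ofNat (nat_lit 12111334974656951038)]]]]],[[],[[[[Int.ofNat (nat_lit 19660568397293502096)]]]]]],[[[[[[Int.ofNat (nat_lit 241143839955544852480)]]],[[[Int.ofNat (nat_lit 10705207449828244118)]]]]],[[[[[Int.negSucc (nat_lit 3665843822335341595)]]]]]]],[[[[],[[[[Int.negSucc (nat_lit 5987262562399537995)]]]]]],[[[[[[Int.negSucc (nat_lit 166301429314965031891)]]]]]]],[[],[[[[[[Int.ofNat (nat_lit 46923405601758397964)]]]]]]]],[[[[[[[[Int.negSucc (nat_lit 12958121931231452607)]]],[[[Int.negSucc (nat_lit 24282071712371690731)]]]]],[[[[[Int.negSucc (nat_lit 21428046714396349317)]]]]]],[[[],[[[[Int.negSucc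 (nat_lit 86744899230824868885)]]]]]],[[[[[[Int.negSucc (nat_lit 386169520269967045691)]]]]]]],[[[[[[[Int.ofNat (nat_lit 69768033465083941188)]]]]]]],[[[[[[[Int.ofNat (nat_lit 85793192291649890294)]]]]]]]],[[[[[],[[[[Int.ofNat (nat_lit 100410484347336680942)]]]]]],[[[[[[Int.ofNat (nat_lit 210177222307481893030)]]]]]]]],[[[[[[[[Int.negSucc (nat_lit 361091772457800336133)]]]]]]]]],[[[[[[[[[Int.negSucc (nat_lit 1092026249569481347793)]]],[[[Int.negSucc (nat_lit 22140026624237704199)]]]]],[[[[[Int.negSucc (nat_lit 57982550146250546417)]]],[[[Int.ofNat (nat_lit 3098040551557163296)]]]]],[[[[[Int.ofNat (nat_lit 33038306262207835424)]]]]]]],[[[[[[[Int.ofNat (nat_lit 917733410413049092342)]]],[[[Int.ofNat (nat_lit 15906104931354481554)]]]]],[[[[[Int.negSucc (nat_lit 27582492842724967977)]]]]]]],[[[[[[[Int.negSucc (nat_lit 753572678234749891763)]]]]]]],[[[[[[[Int.negSucc (nat_lit 11234044931628518475)]]]]]]]],[[[[[],[[[[Int.ofNat (nat_lit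 198645322351159286614)]]]]]],[[[[[[Int.ofNat (nat_lit 714624199916082059050)]]]]],[[[[[Int.ofNat (nat_lit 14050566719374411668)]]]]]]],[[[[],[[[[Int.ofNat (nat_lit 18877212449805728812)]]]]]],[[[[[[Int.negSucc (nat_lit 299207440909055770449)]]]]]]]],[[[[[[[[Int.negSucc (nat_lit 179565943705816025699)]]],[[[Int.ofNat (nat_lit 570656486990426244)]]]]],[[[[[Int.ofNat (nat_lit 23109460523270822488)]]]]]]],[[[[[[[Int.negSucc (nat_lit 82265081000230958045)]]]]]]]],[[[],[[[[[[Int.negSucc (nat_lit 74039253970181216719)]]]]]]]],[[[[[[[[Int.negSucc (nat_lit 40083297717793541875)]]]]]]]]],[[[[[[[[[Int.negSucc (nat_lit 1148251092406293391641)]]],[[[Int.ofNat (nat_lit 1263329469675613848)]]]]],[[[[[Int.ofNat (nat_lit 90569379271931895582)]]]]]]],[[[[[[[Int.ofNat (nat_lit 964638498199688457306)]]]]],[[[[[Int.ofNat (nat_lit 18456583588721340578)]]]]]]],[[[[[[[Int.negSucc (nat_lit 538658186816301265333)]]]]]]]],[[[[[],[[[[Int.negSucc (nat_lit 21424159159364026695)]]]]]],[[[[[[Int.ofNat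 (nat_lit 199841559864467679360)]]]]]]]],[[[[[[[[Int.ofNat (nat_lit 158185375453318283108)]]]]]]],[[[[[[[Int.negSucc (nat_lit 118428271176720540045)]]]]]]]]],[[[[[[[[[Int.negSucc (nat_lit 354341660989543815147)]]],[[[Int.ofNat (nat_lit 7989420741466756592)]]]]],[[[[[Int.negSucc (nat_lit 11683932713855082335)]]]]]]],[[[[[[[Int.negSucc (nat_lit 170705315232974310585)]]]]]]]],[[[],[[[[[[Int.negSucc (nat_lit 26098687397647697261)]]]]]]]],[[[[[[[[Int.ofNat (nat_lit 17705812060767007436)]]]]]]]]],[[[[[[[[[Int.ofNat (nat_lit 94491881231342982324)]]]]]]],[[[[[[[Int.negSucc (nat_lit 132794480638246900741)]]]]]]]]],[[[[[[[[[Int.ofNat (nat_lit 41602161052949873820)]]]]]]]]]]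

/-- A coefficient. -/
noncomputable def sr0_m2_3_1 : MP 10 :=
  [[[[[[[[[],[[Int.ofNat (nat_lit 27283251748190427722)]]],[[],[[Int.ofNat (nat_lit 4545066166184557036)]]]],[[[[Int.negSucc (nat_lit 223329554002144811749)]]],[[[Int.negSucc (nat_lit 2581193940008378675)]]]]],[[[[],[[Int.negSucc (nat_lit 3942920656853670199)]]]],[[[[Int.ofNat (nat_lit 33121347974502643896)]]]]]],[[[[[[Int.ofNat (nat_lit 2100045743884436638)]]],[[[Int.negSucc (nat_lit 495489218112260521)]]]]],[[[[[Int.negSucc (nat_lit 39763806582041242603)]]]]]]],[[[[[[],[[Int.ofNat (nat_lit 17230934708907175770)]]]],[[[[Int.ofNat (nat_lit 263563444621037497920)]]]]]],[[[[[[Int.ofNat (nat_lit 251756996434505097296)]]]]]]],[[[[],[[[[Int.negSucc (nat_lit 70360903843032611179)]]]]]],[[[[[[Int.ofNat (nat_lit 15633865346819655416)]]]]]]]],[[[[[[[[Int.ofNat (nat_lit 944102289724050336150)]]],[[[Int.ofNat (nat_lit 114607349009122809456)]]]],[],[[[[Int.negSucc (nat_lit 93381089903146598487)]]]]],[[[[[Int.ofNat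 (nat_lit 498774101537773900628)]]]]]],[[[[[],[[Int.negSucc (nat_lit 7073175734806604419)]]]],[[[[Int.ofNat (nat_lit 259395353203203420294)]]]]]],[[[[[[Int.ofNat (nat_lit 58323953403960225166)]]]]]]],[[[[[[[Int.negSucc (nat_lit 1199894237650249327999)]]],[[[Int.negSucc (nat_lit 11552488666751563599)]]]]],[[[[[Int.negSucc (nat_lit 45855065537867756643)]]]]]]],[[[[[[[Int.negSucc (nat_lit 48870456214715599575)]]]]]]]],[[[[[[[],[[Int.ofNat (nat_lit 10033814925519371050)]]]],[[[[Int.negSucc (nat_lit 109916756817551836089)]]]]]],[[[[[[Int.negSucc (nat_lit 115984106711923008579)]]]]]]],[[],[[[[[[Int.ofNat (nat_lit 52285321466009297276)]]]]]]]],[[[[[[[[Int.ofNat (nat_lit 726099693231480249538)]]]]]]],[[[[[[[Int.negSucc (nat_lit 62999843220705974289)]]]]]]]]],[[[[[[[[],[[Int.ofNat (nat_lit 23619407754368480906)]]]],[[[[Int.negSucc (nat_lit 266011913727439435827)]]]]],[[],[[[[Int.ofNat (nat_lit 29266533831175315508)]]]]]],[[[[[[Int.negSucc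 (nat_lit 160644786107495151441)]]],[[[Int.ofNat (nat_lit 19722213603614757098)]]]]],[[[[[Int.negSucc (nat_lit 12328680857491524557)]]]]]]],[[[[[[],[[Int.ofNat (nat_lit 1143946708631876132)]]]],[[[[Int.ofNat (nat_lit 87396814239234812658)]]]]]],[[[[[[Int.ofNat (nat_lit 161463521138246861156)]]]]]]]],[[[[[[[[Int.ofNat (nat_lit 2228824890214651798030)]]],[[[Int.ofNat (nat_lit 34843604313661416258)]]]]],[[[[[Int.ofNat (nat_lit 322498976050261430058)]]]]]],[],[[[[[[Int.negSucc (nat_lit 147736486925165024259)]]]]]]],[[[[[[[Int.negSucc (nat_lit 1374281925006944807723)]]]]]]],[[[[[[[Int.ofNat (nat_lit 322022617609704904744)]]]]]]]],[[[[[],[[[[Int.ofNat (nat_lit 27230337974705733080)]]]]]],[[[[[[Int.ofNat (nat_lit 225787422341461373588)]]]]]]]],[[[[[[[[Int.negSucc (nat_lit 512240319365480198189)]]]]]]]]],[[[[[[[[],[[Int.ofNat (nat_lit 19262157088978620094)]]]],[[[[Int.ofNat (nat_lit 6704332260463950980)]]]]]],[[[[[[Int.ofNat (nat_lit 249302380199241196686)]]]]]]],[[],[[[[[[Int.negSucc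 (nat_lit 2075031793439027107)]]]]]]]],[[[[[[[[Int.ofNat (nat_lit 566162534116993387576)]]]]],[[[[[Int.negSucc (nat_lit 2571068927937508677)]]]]]]],[[[[[[[Int.negSucc (nat_lit 634052461955442215877)]]]]]]]],[],[[[[[[[[Int.negSucc (nat_lit 237935559769020653325)]]]]]]]]],[[[[[[],[[[[Int.negSucc (nat_lit 33994995387422338535)]]]]]],[[[[[[Int.ofNat (nat_lit 106683096186483084786)]]]]]]]],[[[[[[[[Int.negSucc (nat_lit 184359808367344979685)]]]]]]]]],[[],[[[[[[[[Int.negSucc (nat_lit 154380685573333202611)]]]]]]]]]]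

/-- A coefficient. -/
noncomputable def sr0_m2_3_2 : MP 10 :=
  [[[[[[[[[[Int.ofNat (nat_lit 746930065897679443550)]]],[[[Int.negSucc (nat_lit 66604325853200324485)]]]],[[[],[[Int.negSucc (nat_lit 55310517562098572285)]]]],[[[[Int.negSucc (nat_lit 388909895845011345687)]]]]],[[[[[Int.negSucc (nat_lit 223892486699807832027)]]],[[[Int.ofNat (nat_lit 9926774822854871794)]]]]],[[[[[Int.ofNat (nat_lit 88875955203900323086)]]]]]],[[[[[],[[Int.ofNat (nat_lit 14820538509786634720)]]]],[[[[Int.negSucc (nat_lit 144404409952653565639)]]]]]],[[[[[[Int.negSucc (nat_lit 651219549536105707991)]]]]]]],[[[[[[[Int.negSucc (nat_lit 37391900984571174231)]]],[[[Int.ofNat (nat_lit 32015243242526869414)]]]]],[[[[[Int.ofNat (nat_lit 111247160777349711082)]]]]]]],[[[[[[[Int.ofNat (nat_lit 206530981732122090200)]]]]]]],[[[[[[[Int.negSucc (nat_lit 106911653988956560523)]]]]]]]],[[[[[[[],[[Int.negSucc (nat_lit 52575501995943382379)]]]],[[[[Int.negSucc (nat_lit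 206085606246705068895)]]]]]],[[[[[[Int.negSucc (nat_lit 518269251308842869287)]]]]],[[[[[Int.ofNat (nat_lit 40233027688100058192)]]]]]]],[[[[],[[[[Int.negSucc (nat_lit 164225087938161933607)]]]]]],[[[[[[Int.negSucc (nat_lit 434737225491979716439)]]]]]]]],[[[[[[[[Int.negSucc (nat_lit 4862449860011924276077)]]],[[[Int.ofNat (nat_lit 13794259636187617582)]]]]],[[[[[Int.ofNat (nat_lit 94894013637954803678)]]]]]]],[[[[[[[Int.ofNat (nat_lit 1023470375849341601864)]]]]]]]],[[[],[[[[[[Int.ofNat (nat_lit 17818075216981946220)]]]]]]]],[[[[[[[[Int.negSucc (nat_lit 42022037947755022901)]]]]]]]]],[[[[[[[[[Int.ofNat (nat_lit 2038396688765923434928)]]],[[[Int.ofNat (nat_lit 5235161256655144700)]]]]],[[[[[Int.ofNat (nat_lit 84673746304074750040)]]]]]],[[[],[[[[Int.negSucc (nat_lit 202969280452653123839)]]]]]],[[[[[[Int.ofNat (nat_lit 34967693574766918946)]]]]]]],[[[[[[[Int.negSucc (nat_lit 381332913977450882891)]]]]],[[[[[Int.negSucc (nat_lit 111762232620656223379)]]]]]]],[[[[[[[Int.ofNat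 (nat_lit 504217233696696706382)]]]]]]]],[[[[[[[],[[Int.negSucc (nat_lit 20410513633675226889)]]]],[[[[Int.negSucc (nat_lit 178300026351457102527)]]]]]],[[[[[[Int.negSucc (nat_lit 1241891353402068550559)]]]]]]]],[[[[[[[[Int.negSucc (nat_lit 3931485985882779793061)]]]]]]],[[[[[[[Int.ofNat (nat_lit 391446188575371650490)]]]]]]]]],[[[[[[[[[Int.ofNat (nat_lit 1717322184311271630536)]]],[[[Int.ofNat (nat_lit 8629488962569567094)]]]]],[[[[[Int.ofNat (nat_lit 53838294996907030390)]]]]]]],[[[[[[[Int.negSucc (nat_lit 61208869085647544457)]]]]]]]],[[[],[[[[[[Int.negSucc (nat_lit 199062766351279165557)]]]]]]]],[[[[[[[[Int.negSucc (nat_lit 2126632236102273425827)]]]]]]]]],[[[[[[[[[Int.negSucc (nat_lit 113772441384473348651)]]]]]]],[[[[[[[Int.ofNat (nat_lit 242506708170396880668)]]]]]]]]],[[[[[[[[[Int.negSucc (nat_lit 311513169207251477701)]]]]]]]]]]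

/-- A coefficient. -/
noncomputable def sr0_m2_3_3 : MP 10 :=
  [[[[[[[[[],[[Int.negSucc (nat_lit 10568303642839835535)]]]],[[[[Int.negSucc (nat_lit 99138131383352549387)]]]]],[[],[[[[Int.negSucc (nat_lit 142160335362418363659)]]]]]],[[[[[[Int.ofNat (nat_lit 703945574899926881508)]]],[[[Int.negSucc (nat_lit 8018102960314764033)]]]]],[[[[[Int.ofNat (nat_lit 207298078999155415486)]]]]]]],[[[[[[],[[Int.ofNat (nat_lit 16484518443070469044)]]]],[[[[Int.ofNat (nat_lit 224791984131561939056)]]]]]],[[[[[[Int.ofNat (nat_lit 252047923714598813682)]]]]]]]],[[[[[[[[Int.negSucc (nat_lit 130036881770199688773)]]],[[[Int.negSucc (nat_lit 81136206922966197617)]]]]],[[[[[Int.negSucc (nat_lit 1039417334012588749521)]]]]]],[],[[[[[[Int.ofNat (nat_lit 68044401555307731106)]]]]]]],[[[[[[[Int.ofNat (nat_lit 517454723031607713496)]]]]]]],[[[[[[[Int.negSucc (nat_lit 655753574279162974801)]]]]]]]],[[[[[],[[[[Int.ofNat (nat_lit 344132219477301045850)]]]]]],[[[[[[Int.ofNat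 (nat_lit 243398566395567539232)]]]]]]]],[[[[[[[[Int.ofNat (nat_lit 166674459719104753718)]]]]]]]]],[[[[[[[[],[[Int.negSucc (nat_lit 45040899094120162589)]]]],[[[[Int.negSucc (nat_lit 104519581923162015901)]]]]]],[[[[[[Int.ofNat (nat_lit 1386731225198394441648)]]]]]]],[[],[[[[[[Int.negSucc (nat_lit 92463652816687104801)]]]]]]]],[[[[[[[[Int.negSucc (nat_lit 987981443816234662041)]]]]],[[[[[Int.ofNat (nat_lit 12858438703281718454)]]]]]]],[[[[[[[Int.ofNat (nat_lit 591449525829267031780)]]]]]]]],[],[[[[[[[[Int.ofNat (nat_lit 509301635255926940510)]]]]]]]]],[[[[[[],[[[[Int.ofNat (nat_lit 16623862326849560528)]]]]]],[[[[[[Int.ofNat (nat_lit 160901985283426953420)]]]]]]]],[[[[[[[[Int.ofNat (nat_lit 787516364262082130308)]]]]]]]]],[[],[[[[[[[[Int.ofNat (nat_lit 122335796275821012790)]]]]]]]]]]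

/-- A coefficient. -/
noncomputable def sr0_m2_3_4 : MP 10 :=
  [[[[[[[[[[Int.negSucc (nat_lit 3275217561020941259701)]]],[[[Int.ofNat (nat_lit 18800574135297673584)]]]]],[[[[[Int.ofNat (nat_lit 100578864380394077290)]]]]]],[[[],[[[[Int.negSucc (nat_lit 18090537571109062103)]]]]]],[[[[[[Int.ofNat (nat_lit 286797341639854004408)]]]]]]],[[[[[[[Int.ofNat (nat_lit 2212123769138487342454)]]]]],[[[[[Int.negSucc (nat_lit 43314768693947529359)]]]]]]],[[[[[[[Int.negSucc (nat_lit 1468697952035670685991)]]]]]]]],[[[[[[[],[[Int.negSucc (nat_lit 50695350736389267865)]]]],[[[[Int.negSucc (nat_lit 376030319471342220937)]]]]]],[[[[[[Int.ofNat (nat_lit 430795597380556240852)]]]]]]]],[[[[[[[[Int.ofNat (nat_lit 7948337110746056825522)]]]]]]],[[[[[[[Int.negSucc (nat_lit 1439335623599794948967)]]]]]]]]],[[[[[[[[[Int.negSucc (nat_lit 1499846418229834713609)]]],[[[Int.negSucc (nat_lit 7017046259361680059)]]]]],[[[[[Int.negSucc (nat_lit 379990253664245030727)]]]]]]],[[[[[[[Int.negSucc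 (nat_lit 176008083530443124897)]]]]]]]],[[[],[[[[[[Int.ofNat (nat_lit 1048282627315052163130)]]]]]]]],[[[[[[[[Int.ofNat (nat_lit 2132651460081687907568)]]]]]]]]],[[[[[[[[[Int.negSucc (nat_lit 157849343235264736897)]]]]]]],[[[[[[[Int.negSucc (nat_lit 597500955926204711269)]]]]]]]]],[[[[[[[[[Int.ofNat (nat_lit 284336081446845258552)]]]]]]]]]]

/-- A coefficient. -/
noncomputable def sr0_m2_3_5 : MP 10 :=
  [[[[[[[[[],[[Int.ofNat (nat_lit 42277551168285709906)]]]],[[[[Int.negSucc (nat_lit 110495440921111335735)]]]]]],[[[[[[Int.negSucc (nat_lit 1222787854462439461363)]]]]]]],[[],[[[[[[Int.ofNat (nat_lit 27617724189962699008)]]]]]]]],[[[[[[[[Int.negSucc (nat_lit 3507026316211691341957)]]]]],[[[[[Int.ofNat (nat_lit 340322404084905179190)]]]]]]],[[[[[[[Int.negSucc (nat_lit 38217563623598352307)]]]]]]]],[],[[[[[[[[Int.negSucc (nat_lit 1732127738299393627699)]]]]]]]]],[[[[[[],[[[[Int.negSucc (nat_lit 30875837704188586739)]]]]]],[[[[[[Int.negSucc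 (nat_lit 1478992562558032194685)]]]]]]]],[[[[[[[[Int.negSucc (nat_lit 912831777607108153621)]]]]]]]]],[[],[[[[[[[[Int.negSucc (nat_lit 791642837427189846587)]]]]]]]]]]

/-- A coefficient. -/
noncomputable def sr0_m2_3_6 : MP 10 :=
  [[[[[[[[[[Int.ofNat (nat_lit 5881797333748523078422)]]],[[[Int.ofNat (nat_lit 36274854776489634276)]]]]],[[[[[Int.ofNat (nat_lit 178629553607442310000)]]]]]]],[[[[[[[Int.negSucc (nat_lit 715609206071892986619)]]]]]]]],[[[],[[[[[[Int.negSucc (nat_lit 126488420859030074517)]]]]]]]],[[[[[[[[Int.negSucc (nat_lit 4312004350072617317583)]]]]]]]]],[[[[[[[[[Int.ofNat (nat_lit 379753606710263992280)]]]]]]],[[[[[[[Int.ofNat (nat_lit 583363402312506472798)]]]]]]]]],[[[[[[[[[Int.negSucc (nat_lit 661887633016188696521)]]]]]]]]]]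

/-- A coefficient. -/
noncomputable def sr0_m2_3_7 : MP 10 :=
  [[[[[[[],[[[[Int.ofNat (nat_lit 283453302350101562140)]]]]]],[[[[[[Int.ofNat (nat_lit 632933603539714196374)]]]]]]]],[[[[[[[[Int.ofNat (nat_lit 5536413186345426778606)]]]]]]]]],[[],[[[[[[[[Int.ofNat (nat_lit 742116417558565086712)]]]]]]]]]]

/-- A coefficient. -/
noncomputable def sr0_m2_3_8 : MP 10 :=
  [[[[[[[[[[Int.negSucc (nat_lit 4718530131367115281975)]]]]]]],[[[[[[[Int.ofNat (nat_lit 119882980599218044132)]]]]]]]]],[[[[[[[[[Int.negSucc (nat_lit 536478194111688549519)]]]]]]]]]]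

/-- A coefficient. -/
noncomputable def sr0_m2_3_9 : MP 10 :=
  [[[],[[[[[[[[Int.negSucc (nat_lit 1519838319453999568043)]]]]]]]]]]

/-- A coefficient. -/
noncomputable def sr0_m2_3_10 : MP 10 :=
  [[[[[[[[[[Int.ofNat (nat_lit 845511792857011379870)]]]]]]]]]]

/-- A coefficient. -/
noncomputable def sr0_m2_4_0 : MP 10 :=
  [[[[[[[[[[Int.ofNat (nat_lit 1036713661609789825022)]]],[[[Int.ofNat (nat_lit 59730727287395105010)]]],[[[Int.ofNat (nat_lit 7636408084974331160)]]]]],[[[[[Int.ofNat (nat_lit 158025683597667052554)]]],[[[Int.ofNat (nat_lit 11520316735267922062)]]]]]]],[[[[[[[Int.negSucc (nat_lit 837393542743030993065)]]],[[[Int.negSucc (nat_lit 19324207979559800093)]]]]]]],[[[[[[[Int.negSucc (nat_lit 73462626153098866743)]]]]],[[[[[Int.negSucc (nat_lit 7095780002052452543)]]]]]]],[[[[[[[Int.ofNat (nat_lit 162646055925408827324)]]]]]]]],[[[[[],[[[[Int.ofNat (nat_lit 62091906936072673342)]]]]],[[],[[[[Int.ofNat (nat_lit 3573691957654042934)]]]]]],[[[[[[Int.negSucc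 (nat_lit 402821595596723006357)]]],[[[Int.negSucc (nat_lit 20129380485947175025)]]]]],[[[[[Int.negSucc (nat_lit 16756423246832369793)]]]]]]],[[[[],[[[[Int.negSucc (nat_lit 78121171749454301855)]]]]]],[[[[[[Int.negSucc (nat_lit 95494521000002182681)]]]]]]]],[[[[[[[[Int.negSucc (nat_lit 159317694137036020805)]]],[[[Int.ofNat (nat_lit 11872968580813321796)]]]]],[[[[[Int.ofNat (nat_lit 92427735797000673088)]]]]]]],[[[[[[[Int.ofNat (nat_lit 89986833761930989546)]]]]]]],[[[[[[[Int.negSucc (nat_lit 57748844923214218251)]]]]]]]],[[[[[],[[[[Int.negSucc (nat_lit 21188911475628879165)]]]]]],[[[[[[Int.ofNat (nat_lit 84234303452679959612)]]]]]]]],[[[[[[[[Int.negSucc (nat_lit 99669015729831485077)]]]]]]]]],[[[[[[[[[Int.ofNat (nat_lit 1705372319476908310638)]]],[[[Int.ofNat (nat_lit 94247708644725459830)]]]]],[[[[[Int.negSucc (nat_lit 209666001432030626367)]]]]],[[[[[Int.negSucc (nat_lit 108797998789033486823)]]]]]]],[[[[[[[Int.negSucc (nat_lit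 235214341652765578619)]]],[[[Int.negSucc (nat_lit 7635616371283714153)]]]]],[[[[[Int.ofNat (nat_lit 39631023216834242080)]]]]]]],[[[[[[[Int.negSucc (nat_lit 190893314586868461899)]]]]]]]],[[[[[],[[[[Int.ofNat (nat_lit 231431318309441729222)]]]]]],[[[[[[Int.ofNat (nat_lit 51607842183062460186)]]]]]]]],[[[[[[[[Int.negSucc (nat_lit 303348359092349864135)]]]]],[[[[[Int.ofNat (nat_lit 64441467213182235252)]]]]]]],[[[[[[[Int.negSucc (nat_lit 78184561498848647639)]]]]]]]],[],[[[[[[[[Int.negSucc (nat_lit 74537684165915662703)]]]]]]]]],[[[[[[[[[Int.negSucc (nat_lit 850614144777116506389)]]],[[[Int.ofNat (nat_lit 10246576594082694590)]]]]],[[[[[Int.negSucc (nat_lit 67475855000412757753)]]]]]]],[[[[[[[Int.ofNat (nat_lit 227480706201948923584)]]]]]]],[[[[[[[Int.ofNat (nat_lit 28659238571581727436)]]]]]]]],[[[[[],[[[[Int.ofNat (nat_lit 48331303388949569414)]]]]]],[[[[[[Int.negSucc (nat_lit 6586027355227437617)]]]]]]]],[[[[[[[[Int.negSucc (nat_lit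 352266797142282459893)]]]]]]]]],[[[[[[[[[Int.negSucc (nat_lit 787326954306285564091)]]]]],[[[[[Int.ofNat (nat_lit 53771489659098854080)]]]]]]],[[[[[[[Int.negSucc (nat_lit 62429937404072406169)]]]]]]]],[],[[[[[[[[Int.negSucc (nat_lit 115897128585225867869)]]]]]]]]],[[[[[[[[[Int.negSucc (nat_lit 552759796010446544185)]]]]]]]]],[[[[[[[[[Int.negSucc (nat_lit 160181344798307683925)]]]]]]]]]]

/-- A coefficient. -/
noncomputable def sr0_m2_4_1 : MP 10 :=
  [[[[[[[[[],[[Int.ofNat (nat_lit 6819423267005651354)]]]],[[[[Int.ofNat (nat_lit 11208303830500604112)]]],[[[Int.negSucc (nat_lit 18029759323821535513)]]]]],[[[[],[[Int.ofNat (nat_lit 11246265984822042664)]]]],[[[[Int.ofNat (nat_lit 26816714885407153930)]]]]]],[[[[[[Int.ofNat (nat_lit 89981206571471330800)]]],[[[Int.ofNat (nat_lit 42926163281284526592)]]]]],[[[[[Int.ofNat (nat_lit 18664435524651487154)]]]]]]],[[[[[[],[[Int.negSucc (nat_lit 15158367418592249513)]]]],[[[[Int.ofNat (nat_lit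 47630796213170180904)]]]]]],[[[[[[Int.ofNat (nat_lit 202181692242906880172)]]]]]]],[[],[[[[[[Int.negSucc (nat_lit 79614740272078490789)]]]]]]]],[[[[[[[[Int.negSucc (nat_lit 1810672809162992652567)]]],[[[Int.negSucc (nat_lit 61775032065643282435)]]]]],[[[[[Int.negSucc (nat_lit 582840481249660150363)]]]]]],[[[],[[[[Int.negSucc (nat_lit 123674736123380927569)]]]]]],[[[[[[Int.ofNat (nat_lit 290798560498093502340)]]]]]]],[[[[[[[Int.ofNat (nat_lit 255344125331366466188)]]]]],[[[[[Int.negSucc (nat_lit 6095308864055052133)]]]]]]],[[[[[[[Int.negSucc (nat_lit 95150618308519688749)]]]]]]]],[[[[[[[],[[Int.negSucc (nat_lit 14817106864421219879)]]]],[[[[Int.negSucc (nat_lit 250307522951349380145)]]]]]],[[[[[[Int.negSucc (nat_lit 592792825498608103575)]]]]]]]],[[[[[[[[Int.ofNat (nat_lit 910852008838033894492)]]]]]]],[[[[[[[Int.ofNat (nat_lit 174587451139865616104)]]]]]]]]],[[[[[[[[],[[Int.negSucc (nat_lit 36826094486245522703)]]]],[[[[Int.negSucc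 (nat_lit 330177145987007100415)]]]]]],[[[[[[Int.negSucc (nat_lit 591085146144947354381)]]]]],[[[[[Int.negSucc (nat_lit 4464967538461492793)]]]]]]],[[],[[[[[[Int.ofNat (nat_lit 66615718685590900454)]]]]]]]],[[[[[[[[Int.negSucc (nat_lit 875771768723440385071)]]],[[[Int.negSucc (nat_lit 32036483133942528269)]]]]],[[[[[Int.negSucc (nat_lit 322710802613728543607)]]]]]]],[[[[[[[Int.ofNat (nat_lit 242247769676280124620)]]]]]]]],[[[],[[[[[[Int.negSucc (nat_lit 153627727050370929077)]]]]]]]],[[[[[[[[Int.ofNat (nat_lit 257017519216342560596)]]]]]]]]],[[[[[[[[],[[Int.negSucc (nat_lit 40215329343180153377)]]]],[[[[Int.negSucc (nat_lit 208861731015675567029)]]]]]],[[[[[[Int.negSucc (nat_lit 371279107701296123949)]]]]]]]],[[[[[[[[Int.negSucc (nat_lit 74461158490637148829)]]]]]]],[[[[[[[Int.ofNat (nat_lit 163861034785236902828)]]]]]]]]],[[[[],[[[[[[Int.negSucc (nat_lit 100612979572438590043)]]]]]]]],[[[[[[[[Int.negSucc (nat_lit 27189236652611985379)]]]]]]]]]]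

/-- A coefficient. -/
noncomputable def sr0_m2_4_2 : MP 10 :=
  [[[[[[[[[[Int.negSucc (nat_lit 1623448305385735428903)]]],[[[Int.negSucc (nat_lit 60738312824465581977)]]]]],[[[[[Int.ofNat (nat_lit 443457564407019783386)]]]]],[[[[[Int.negSucc (nat_lit 23465355651688775493)]]]]]],[[[[[],[[Int.negSucc (nat_lit 39907702615371589299)]]]],[[[[Int.ofNat (nat_lit 15356431974246309112)]]]]]],[[[[[[Int.negSucc (nat_lit 523896104398889702491)]]]]]]],[[[[[[[Int.negSucc (nat_lit 159421582833762896489)]]],[[[Int.ofNat (nat_lit 27814753101893279398)]]]]],[[[[[Int.negSucc (nat_lit 3698275459802578529)]]]]]]],[[[[[[[Int.ofNat (nat_lit 739022143263213023338)]]]]]]]],[[[[[[[],[[Int.ofNat (nat_lit 20775118787550305528)]]]],[[[[Int.negSucc (nat_lit 205962791073235734649)]]]]]],[[[[[[Int.ofNat (nat_lit 481280835558891463386)]]]]]]],[[],[[[[[[Int.ofNat (nat_lit 449619248033641612282)]]]]]]]],[[[[[[[[Int.negSucc (nat_lit 5344692672077003583945)]]]]],[[[[[Int.negSucc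 (nat_lit 98097250503916951899)]]]]]]],[[[[[[[Int.ofNat (nat_lit 462733883979390872528)]]]]]]]],[],[[[[[[[[Int.ofNat (nat_lit 154479435305266391110)]]]]]]]]],[[[[[[[[[Int.negSucc (nat_lit 311161396410498950851)]]],[[[Int.negSucc (nat_lit 82490241062263818785)]]]]],[[[[[Int.negSucc (nat_lit 108934017266892289773)]]]]]],[],[[[[[[Int.negSucc (nat_lit 533264249101544258995)]]]]]]],[[[[[[[Int.negSucc (nat_lit 188327309922491841115)]]]]]]],[[[[[[[Int.ofNat (nat_lit 92205281805876347530)]]]]]]]],[[[[[],[[[[Int.negSucc (nat_lit 9123225126207114407)]]]]]],[[[[[[Int.negSucc (nat_lit 223193512648416887057)]]]]]]]],[[[[[[[[Int.negSucc (nat_lit 745051101968894735997)]]]]]]]]],[[[[[[[[[Int.ofNat (nat_lit 2298925682276071773684)]]]]],[[[[[Int.negSucc (nat_lit 237867660856408431053)]]]]]]],[[[[[[[Int.ofNat (nat_lit 259754120667760672622)]]]]]]]],[],[[[[[[[[Int.ofNat (nat_lit 513192437093449605638)]]]]]]]]],[[[[[[[[[Int.ofNat (nat_lit 1851159402534144190962)]]]]]]]]],[[[[[[[[[Int.ofNat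 (nat_lit 467717674022625527330)]]]]]]]]]]

/-- A coefficient. -/
noncomputable def sr0_m2_4_3 : MP 10 :=
  [[[[[[[[[],[[Int.ofNat (nat_lit 102080388455729369294)]]]],[[[[Int.ofNat (nat_lit 1402373107417977059028)]]]]]],[[[[[[Int.ofNat (nat_lit 119332766734563714160)]]]]],[[[[[Int.negSucc (nat_lit 268842885067277329087)]]]]]]],[[],[[[[[[Int.negSucc (nat_lit 99753920949259579317)]]]]]]]],[[[[[[[[Int.ofNat (nat_lit 13115153958148440607160)]]],[[[Int.ofNat (nat_lit 34865094800417765956)]]]]],[[[[[Int.ofNat (nat_lit 33773095017533427162)]]]]]]],[[[[[[[Int.negSucc (nat_lit 1002568906834716057987)]]]]]]]],[[[],[[[[[[Int.ofNat (nat_lit 141074117428184072218)]]]]]]]],[[[[[[[[Int.negSucc (nat_lit 402916584138838068925)]]]]]]]]],[[[[[[[[],[[Int.ofNat (nat_lit 70435286654684329000)]]]],[[[[Int.ofNat (nat_lit 419229100621952896076)]]]]]],[[[[[[Int.ofNat (nat_lit 134230930515051478454)]]]]]]]],[[[[[[[[Int.ofNat (nat_lit 4548034103756711140854)]]]]]]],[[[[[[[Int.negSucc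 (nat_lit 585825927298839689785)]]]]]]]]],[[[[],[[[[[[Int.ofNat (nat_lit 284689461098210146878)]]]]]]]],[[[[[[[[Int.ofNat (nat_lit 1337486092589009432542)]]]]]]]]]]

/-- A coefficient. -/
noncomputable def sr0_m2_4_4 : MP 10 :=
  [[[[[[[[[[Int.negSucc (nat_lit 7926631857834007536407)]]],[[[Int.negSucc (nat_lit 1620194409713543275)]]]]],[[[[[Int.ofNat (nat_lit 542059044686763388590)]]]]]],[],[[[[[[Int.negSucc (nat_lit 55169745495754635075)]]]]]]],[[[[[[[Int.negSucc (nat_lit 284350396318530852117)]]]]]]],[[[[[[[Int.negSucc (nat_lit 755639367507870797981)]]]]]]]],[[[[[],[[[[Int.ofNat (nat_lit 359467662083513531562)]]]]]],[[[[[[Int.ofNat (nat_lit 112463643275130657892)]]]]]]]],[[[[[[[[Int.ofNat (nat_lit 2212941041396435142242)]]]]]]]]],[[[[[[[[[Int.negSucc (nat_lit 10002211944035709235855)]]]]],[[[[[Int.ofNat (nat_lit 487853828438191409030)]]]]]]],[[[[[[[Int.ofNat (nat_lit 324766205841512199392)]]]]]]]],[],[[[[[[[[Int.negSucc (nat_lit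 758932782592900750903)]]]]]]]]],[[[[[[[[[Int.negSucc (nat_lit 7295163746114541382573)]]]]]]]]],[[[[[[[[[Int.negSucc (nat_lit 2264968865374596640093)]]]]]]]]]]

/-- A coefficient. -/
noncomputable def sr0_m2_4_5 : MP 10 :=
  [[[[[[[[[],[[Int.negSucc (nat_lit 91825410977371098569)]]]],[[[[Int.negSucc (nat_lit 1330489086559988456313)]]]]]],[[[[[[Int.ofNat (nat_lit 6680427864251356500)]]]]]]]],[[[[[[[[Int.negSucc (nat_lit 11604152236593442393149)]]]]]]],[[[[[[[Int.negSucc (nat_lit 135025449049359335297)]]]]]]]]],[[[[],[[[[[[Int.ofNat (nat_lit 1058906280473188828480)]]]]]]]],[[[[[[[[Int.negSucc (nat_lit 2148116464688473980349)]]]]]]]]]]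

/-- A coefficient. -/
noncomputable def sr0_m2_4_6 : MP 10 :=
  [[[[[[[[[[Int.ofNat (nat_lit 14221500990390846982654)]]]]],[[[[[Int.negSucc (nat_lit 638636866445703593915)]]]]]]],[[[[[[[Int.ofNat (nat_lit 1047279923767786695706)]]]]]]]],[],[[[[[[[[Int.ofNat (nat_lit 1228924525071405186478)]]]]]]]]],[[[[[[[[[Int.ofNat (nat_lit 12134334396684477585620)]]]]]]]]],[[[[[[[[[Int.ofNat (nat_lit 3333552017557991753940)]]]]]]]]]]

/-- A coefficient. -/
noncomputable def sr0_m2_4_7 : MP 10 :=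
  [[[[[],[[[[[[Int.ofNat (nat_lit 259314419090271920454)]]]]]]]],[[[[[[[[Int.ofNat (nat_lit 3012961095737676764266)]]]]]]]]]]

/-- A coefficient. -/
noncomputable def sr0_m2_4_8 : MP 10 :=
  [[[[[[[[[[Int.negSucc (nat_lit 14540373351372977358829)]]]]]]]]],[[[[[[[[[Int.negSucc (nat_lit 5426171967050219640131)]]]]]]]]]]

/-- A coefficient. -/
noncomputable def sr0_m2_4_9 : MP 10 :=
  []

/-- A coefficient. -/
noncomputable def sr0_m2_4_10 : MP 10 :=
  [[[[[[[[[[Int.ofNat (nat_lit 6496840513759297726212)]]]]]]]]]]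

/-- A coefficient. -/
noncomputable def sr0_m2_5_0 : MP 10 :=
  [[[[[[[[[[Int.negSucc (nat_lit 847611946979858925873)]]],[[[Int.negSucc (nat_lit 47319768502137219799)]]]]],[[[[[Int.negSucc (nat_lit 97814712071621047541)]]],[[[Int.negSucc (nat_lit 16380742121822897631)]]]]]]],[[[[[[[Int.negSucc (nat_lit 85806586464412659109)]]],[[[Int.negSucc (nat_lit 2239171479170748943)]]]]]]],[[[[[[[Int.ofNat (nat_lit 233937050635869712666)]]]]]]],[[[[[[[Int.negSucc (nat_lit 50119141005887528283)]]]]]]]],[[[[[],[[[[Int.negSucc (nat_lit 494091826213468642525)]]]]]],[[[[[[Int.negSucc (nat_lit 520689151301384350725)]]]]]]],[[[[],[[[[Int.ofNat (nat_lit 46093942555842393846)]]]]]],[[[[[[Int.ofNat (nat_lit 92077808764296992020)]]]]]]]],[[[[[[[[Int.ofNat (nat_lit 786298163618966702120)]]],[[[Int.ofNat (nat_lit 11904653582259081814)]]]]]]],[[[[[[[Int.negSucc (nat_lit 82723401668076201833)]]]]]]]]],[[[[[[[[[Int.ofNat (nat_lit 1741798719081635189546)]]],[[[Int.negSucc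 (nat_lit 24311890502580302615)]]]]],[[[[[Int.negSucc (nat_lit 80500540312173423593)]]]]]]],[[[[[[[Int.negSucc (nat_lit 1175340974077909439109)]]]]],[[[[[Int.negSucc (nat_lit 26912662878580015031)]]]]]]],[[[[[[[Int.ofNat (nat_lit 469789773561419411038)]]]]]]]],[[[[[],[[[[Int.negSucc (nat_lit 280290486574958161853)]]]]]],[[[[[[Int.negSucc (nat_lit 341975857628003830187)]]]]]]]],[[[[[[[[Int.ofNat (nat_lit 159303281583770210138)]]]]]]],[[[[[[[Int.ofNat (nat_lit 39039413782866366988)]]]]]]]]],[[[[[[[[[Int.ofNat (nat_lit 1694280014663182635328)]]],[[[Int.negSucc (nat_lit 11180049067078640497)]]]]],[[[[[Int.negSucc (nat_lit 44619761538500886829)]]]]]]],[[[[[[[Int.negSucc (nat_lit 570607672447304810047)]]]]]]]],[],[[[[[[[[Int.negSucc (nat_lit 194458785747614334065)]]]]]]]]],[[[[[[[[[Int.ofNat (nat_lit 372367441266684674506)]]]]]]],[[[[[[[Int.ofNat (nat_lit 54202997385983204924)]]]]]]]]],[[[[[[[[[Int.negSucc (nat_lit 123741479864354657291)]]]]]]]]]]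

/-- A coefficient. -/
noncomputable def sr0_m2_5_1 : MP 10 :=
  [[[[[[[[[],[[Int.negSucc (nat_lit 23590234913356818999)]]]],[[[[Int.ofNat (nat_lit 571716284443117825140)]]]]]],[[[[[[Int.ofNat (nat_lit 142755054762140763020)]]],[[[Int.negSucc (nat_lit 35632588352955940803)]]]]]]],[[[[[[],[[Int.ofNat (nat_lit 5175918245208819808)]]]],[[[[Int.negSucc (nat_lit 98864636143887102601)]]]]]],[[[[[[Int.negSucc (nat_lit 150859069351868933405)]]]]]]]],[[[[[[[[Int.negSucc (nat_lit 3230058590809241694351)]]],[[[Int.negSucc (nat_lit 105885751932899607191)]]]]]]],[[[[[[[Int.ofNat (nat_lit 1074216244534734689100)]]]]]]],[[[[[[[Int.ofNat (nat_lit 53071918169060202778)]]]]]]]],[[[[[],[[[[Int.negSucc (nat_lit 57572247667692233449)]]]]]],[[[[[[Int.negSucc (nat_lit 367862414358054006529)]]]]]]]],[[[[[[[[Int.ofNat (nat_lit 126889238363796314686)]]]]]]]]],[[[[[[[[],[[Int.negSucc (nat_lit 28723469254127704845)]]]],[[[[Int.ofNat (nat_lit 320320507429565881294)]]]]]],[[[[[[Int.negSucc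 (nat_lit 593508163192222581693)]]]]]]],[[],[[[[[[Int.negSucc (nat_lit 19944409830314584363)]]]]]]]],[[[[[[[[Int.negSucc (nat_lit 2065992077297072405765)]]]]],[[[[[Int.negSucc (nat_lit 99674705216913682549)]]]]]]],[[[[[[[Int.ofNat (nat_lit 870768771656302542740)]]]]]]]],[],[[[[[[[[Int.ofNat (nat_lit 80848688648783076864)]]]]]]]]],[[[[],[[[[[[Int.negSucc (nat_lit 336730686424911554555)]]]]]]]],[[[[[[[[Int.negSucc (nat_lit 493419983668763541945)]]]]]]]]],[[],[[[[[[[[Int.ofNat (nat_lit 148232089499231516628)]]]]]]]]]]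

/-- A coefficient. -/
noncomputable def sr0_m2_5_2 : MP 10 :=
  [[[[[[[[[[Int.ofNat (nat_lit 1826906199803059381262)]]],[[[Int.ofNat (nat_lit 139258094687449511364)]]]]],[[[[[Int.negSucc (nat_lit 53702816886287733869)]]]]]]],[[[[[[[Int.negSucc (nat_lit 171493125228793691509)]]]]],[[[[[Int.ofNat (nat_lit 17677566486296370010)]]]]]]],[[[[[[[Int.negSucc (nat_lit 157039633289460368735)]]]]]]]],[[[[[[[],[[Int.ofNat (nat_lit 31914479560014422942)]]]],[[[[Int.ofNat (nat_lit 314191363322106328666)]]]]]],[[[[[[Int.ofNat (nat_lit 964347389619796090262)]]]]]]]],[[[[[[[[Int.ofNat (nat_lit 3140507992813939563006)]]]]]]],[[[[[[[Int.negSucc (nat_lit 517780274579182138701)]]]]]]]]],[[[[[[[[[Int.negSucc (nat_lit 1614894461497172312935)]]],[[[Int.ofNat (nat_lit 38200118451029834678)]]]]],[[[[[Int.negSucc (nat_lit 108478240035174603435)]]]]]]],[[[[[[[Int.ofNat (nat_lit 148002285660789417756)]]]]]]]],[[[],[[[[[[Int.ofNat (nat_lit 260603222737030756250)]]]]]]]],[[[[[[[[Int.ofNat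 (nat_lit 2397768571698173058306)]]]]]]]]],[[[[[[[[[Int.negSucc (nat_lit 1600910287748423806705)]]]]]]],[[[[[[[Int.ofNat (nat_lit 18677905099032358352)]]]]]]]]],[[[[[[[[[Int.negSucc (nat_lit 259299562427055114503)]]]]]]]]]]

/-- A coefficient. -/
noncomputable def sr0_m2_5_3 : MP 10 :=
  [[[[[[[[[],[[Int.negSucc (nat_lit 46603423925322137861)]]]],[[[[Int.negSucc (nat_lit 211175125955284234223)]]]]]],[[[[[[Int.negSucc (nat_lit 1295705039931938841961)]]]]]]],[[],[[[[[[Int.ofNat (nat_lit 83753251542042300618)]]]]]]]],[[[[[[[[Int.ofNat (nat_lit 1510112954660634182148)]]]]],[[[[[Int.ofNat (nat_lit 582538338734986636156)]]]]]]],[[[[[[[Int.ofNat (nat_lit 134854418095908696440)]]]]]]]],[],[[[[[[[[Int.negSucc (nat_lit 215485027573827753111)]]]]]]]]],[[[[],[[[[[[Int.negSucc (nat_lit 661632816984270189555)]]]]]]]],[[[[[[[[Int.negSucc (nat_lit 1385257820228726455949)]]]]]]]]],[[],[[[[[[[[Int.negSucc (nat_lit 512271342162507174331)]]]]]]]]]]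

/-- A coefficient. -/
noncomputable def sr0_m2_5_4 : MP 10 :=
  [[[[[[[[[[Int.ofNat (nat_lit 1584238873518675512890)]]],[[[Int.negSucc (nat_lit 5128418709948844467)]]]]],[[[[[Int.negSucc (nat_lit 156028040867066602633)]]]]]]],[[[[[[[Int.negSucc (nat_lit 769948488128729271347)]]]]]]]],[[[],[[[[[[Int.negSucc (nat_lit 23605510747038642529)]]]]]]]],[[[[[[[[Int.negSucc (nat_lit 1874887577229956569197)]]]]]]]]],[[[[[[[[[Int.ofNat (nat_lit 2427394888284946279580)]]]]]]],[[[[[[[Int.negSucc (nat_lit 98292380147371109571)]]]]]]]]],[[[[[[[[[Int.ofNat (nat_lit 703750118844548281560)]]]]]]]]]]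

/-- A coefficient. -/
noncomputable def sr0_m2_5_5 : MP 10 :=
  [[[[[],[[[[[[Int.ofNat (nat_lit 147799152562167299346)]]]]]]]],[[[[[[[[Int.ofNat (nat_lit 603262395686022061132)]]]]]]]]],[[],[[[[[[[[Int.ofNat (nat_lit 994256941326846023100)]]]]]]]]]]

/-- A coefficient. -/
noncomputable def sr0_m2_5_6 : MP 10 :=
  [[[[[[[[[[Int.negSucc (nat_lit 2473592148321244223563)]]]]]]],[[[[[[[Int.ofNat (nat_lit 268711602851977531184)]]]]]]]]],[[[[[[[[[Int.negSucc (nat_lit 850609586589737331149)]]]]]]]]]]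

/-- A coefficient. -/
noncomputable def sr0_m2_5_7 : MP 10 :=
  [[[],[[[[[[[[Int.ofNat (nat_lit 13715289398167529658)]]]]]]]]]]

/-- A coefficient. -/
noncomputable def sr0_m2_5_8 : MP 10 :=
  [[[[[[[[[[Int.ofNat (nat_lit 814857278452122798488)]]]]]]]]]]

/-- A coefficient. -/
noncomputable def sr0_m2_6_0 : MP 10 :=
  [[[[[[[[[[Int.negSucc (nat_lit 2763053112077400736107)]]],[[[Int.negSucc (nat_lit 107472619742893622997)]]]]]]],[[[[[[[Int.ofNat (nat_lit 458369000137392147226)]]],[[[Int.ofNat (nat_lit 12238756301134458370)]]]]]]],[[[[[[[Int.negSucc (nat_lit 3213808158254027155)]]]]]]]],[[[[[],[[[[Int.ofNat (nat_lit 226600728368017864846)]]]]]],[[[[[[Int.ofNat (nat_lit 243633153967634396954)]]]]]]]],[[[[[[[[Int.negSucc (nat_lit 100020633385032168281)]]]]]]]]],[[[[[[[[[Int.negSucc (nat_lit 2650436340136339283635)]]],[[[Int.negSucc (nat_lit 92285320888792928451)]]]]],[[[[[Int.ofNat (nat_lit 83795088461439152490)]]]]]]],[[[[[[[Int.ofNat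 (nat_lit 413555852527494048302)]]]]]]],[[[[[[[Int.negSucc (nat_lit 41828573242638225281)]]]]]]]],[[[[[],[[[[Int.ofNat (nat_lit 56325433617590882780)]]]]]],[[[[[[Int.ofNat (nat_lit 92048142758134908464)]]]]]]]],[[[[[[[[Int.ofNat (nat_lit 319062965166944782638)]]]]]]]]],[[[[[[[[[Int.negSucc (nat_lit 190691501134439336127)]]]]],[[[[[Int.ofNat (nat_lit 8934043186785635194)]]]]]]],[[[[[[[Int.ofNat (nat_lit 116468050773211097472)]]]]]]]],[],[[[[[[[[Int.ofNat (nat_lit 141061651106122464222)]]]]]]]]],[[[[[[[[[Int.ofNat (nat_lit 463227443561553195232)]]]]]]]]],[[[[[[[[[Int.ofNat (nat_lit 204466311039905555448)]]]]]]]]]]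

/-- A coefficient. -/
noncomputable def sr0_m2_6_1 : MP 10 :=
  [[[[[[[[[],[[Int.ofNat (nat_lit 51362854942698521106)]]]],[[[[Int.negSucc (nat_lit 59614059968006998519)]]]]]],[[[[[[Int.ofNat (nat_lit 695738847846429523330)]]]]]]]],[[[[[[[[Int.ofNat (nat_lit 2250812789278485390172)]]],[[[Int.ofNat (nat_lit 69583004910877633422)]]]]]]],[[[[[[[Int.negSucc (nat_lit 710938664466466967169)]]]]]]]]],[[[[[[[[],[[Int.ofNat (nat_lit 50662410196068802356)]]]],[[[[Int.ofNat (nat_lit 86466521588835624896)]]]]]],[[[[[[Int.ofNat (nat_lit 878135205916437374236)]]]]]]]],[[[[[[[[Int.ofNat (nat_lit 1457546666722524065278)]]]]]]],[[[[[[[Int.negSucc (nat_lit 370131695729015348565)]]]]]]]]],[[[[],[[[[[[Int.ofNat (nat_lit 194460970330204073240)]]]]]]]],[[[[[[[[Int.ofNat (nat_lit 581655871865273336764)]]]]]]]]]]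

/-- A coefficient. -/
noncomputable def sr0_m2_6_2 : MP 10 :=
  [[[[[[[[[[Int.ofNat (nat_lit 1419322127043753066506)]]],[[[Int.ofNat (nat_lit 42173350800075560810)]]]]],[[[[[Int.ofNat (nat_lit 293966260174593619354)]]]]]]],[[[[[[[Int.ofNat (nat_lit 370330935964154261688)]]]]]]],[[[[[[[Int.negSucc (nat_lit 478791757593170509411)]]]]]]]],[[[[[],[[[[Int.ofNat (nat_lit 155999778493811915728)]]]]]],[[[[[[Int.ofNat (nat_lit 337006182574165267652)]]]]]]]],[[[[[[[[Int.negSucc (nat_lit 701087222953978824833)]]]]]]]]],[[[[[[[[[Int.ofNat (nat_lit 192010717029302093768)]]]]],[[[[[Int.ofNat (nat_lit 452963618747368454768)]]]]]]],[[[[[[[Int.negSucc (nat_lit 75382912551024701227)]]]]]]]],[],[[[[[[[[Int.negSucc (nat_lit 430666136539049959809)]]]]]]]]],[[[[[[[[[Int.negSucc (nat_lit 864371130607823425819)]]]]]]]]],[[[[[[[[[Int.negSucc (nat_lit 453487411593189838465)]]]]]]]]]]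

/-- A coefficient. -/
noncomputable def sr0_m2_6_3 : MP 10 :=
  [[[[[[[[[],[[Int.negSucc (nat_lit 74045803129680821401)]]]],[[[[Int.negSucc (nat_lit 997400890934781005669)]]]]]],[[[[[[Int.negSucc (nat_lit 728125400526879543243)]]]]]]]],[[[[[[[[Int.negSucc (nat_lit 4889959673239290073275)]]]]]]],[[[[[[[Int.ofNat (nat_lit 290913875315736236020)]]]]]]]]],[[[[],[[[[[[Int.ofNat (nat_lit 212485295936467379904)]]]]]]]],[[[[[[[[Int.negSucc (nat_lit 1518165054682984857371)]]]]]]]]]]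

/-- A coefficient. -/
noncomputable def sr0_m2_6_4 : MP 10 :=
  [[[[[[[[[[Int.ofNat (nat_lit 3324451173154987574488)]]]]],[[[[[Int.negSucc (nat_lit 704631216992742544159)]]]]]]],[[[[[[[Int.ofNat (nat_lit 921334839067602388456)]]]]]]]],[],[[[[[[[[Int.ofNat (nat_lit 485243819855117044370)]]]]]]]]],[[[[[[[[[Int.ofNat (nat_lit 3749382181696392895694)]]]]]]]]],[[[[[[[[[Int.ofNat (nat_lit 1653169286356163256020)]]]]]]]]]]

/-- A coefficient. -/
noncomputable def sr0_m2_6_5 : MP 10 :=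
  [[[[[],[[[[[[Int.negSucc (nat_lit 116398307155154577931)]]]]]]]],[[[[[[[[Int.ofNat (nat_lit 2686270784347271562210)]]]]]]]]]]

/-- A coefficient. -/
noncomputable def sr0_m2_6_6 : MP 10 :=
  [[[[[[[[[[Int.negSucc (nat_lit 4207754270271143370433)]]]]]]]]],[[[[[[[[[Int.negSucc (nat_lit 2566299395066574509693)]]]]]]]]]]

/-- A coefficient. -/
noncomputable def sr0_m2_6_7 : MP 10 :=
  []

/-- A coefficient. -/
noncomputable def sr0_m2_6_8 : MP 10 :=
  [[[[[[[[[[Int.ofNat (nat_lit 1286955633376929908192)]]]]]]]]]]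

/-- A coefficient. -/
noncomputable def sr0_m2_7_0 : MP 10 :=
  [[[[[[[[[[Int.ofNat (nat_lit 2394437327539675348124)]]],[[[Int.ofNat (nat_lit 106501420989788524598)]]]]]]],[],[[[[[[[Int.negSucc (nat_lit 82421769474302892999)]]]]]]]],[[[[[],[[[[Int.ofNat (nat_lit 178446057836501243790)]]]]]],[[[[[[Int.ofNat (nat_lit 224400818880911376856)]]]]]]]],[[[[[[[[Int.negSucc (nat_lit 431904947179641466751)]]]]]]]]],[[[[[[[[[Int.ofNat (nat_lit 384157770537914542886)]]],[[[Int.ofNat (nat_lit 58585294068606296152)]]]]],[[[[[Int.ofNat (nat_lit 102523133625116953112)]]]]]]],[[[[[[[Int.ofNat (nat_lit 201145208838135799174)]]]]]]]],[],[[[[[[[[Int.ofNat (nat_lit 1204025295441341812)]]]]]]]]],[[[[[[[[[Int.negSucc (nat_lit 401196254636866361281)]]]]]]]]],[[[[[[[[[Int.negSucc (nat_lit 86607956128827805251)]]]]]]]]]]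

/-- A coefficient. -/
noncomputable def sr0_m2_7_1 : MP 10 :=
  [[[[[[[[[],[[Int.negSucc (nat_lit 16394777797431971023)]]]],[[[[Int.negSucc (nat_lit 324651176474257213613)]]]]]],[[[[[[Int.negSucc (nat_lit 231371710043477079747)]]]]]]]],[[[[[[[[Int.ofNat (nat_lit 1088803456311576603352)]]]]]]],[[[[[[[Int.negSucc (nat_lit 10085296656717424781)]]]]]]]]],[[[[],[[[[[[Int.ofNat (nat_lit 178738543579437993236)]]]]]]]],[[[[[[[[Int.negSucc (nat_lit 22858195963917246615)]]]]]]]]]]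

/-- A coefficient. -/
noncomputable def sr0_m2_7_2 : MP 10 :=
  [[[[[[[[[[Int.negSucc (nat_lit 1776155663792621325931)]]],[[[Int.negSucc (nat_lit 51890829276871136943)]]]]],[[[[[Int.negSucc (nat_lit 82169912427545205231)]]]]]]],[[[[[[[Int.ofNat (nat_lit 34948060929573543052)]]]]]]]],[],[[[[[[[[Int.ofNat (nat_lit 74712953042233611534)]]]]]]]]],[[[[[[[[[Int.ofNat (nat_lit 697260419967933286584)]]]]]]]]],[[[[[[[[[Int.ofNat (nat_lit 250828287184556873028)]]]]]]]]]]

/-- A coefficient. -/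
noncomputable def sr0_m2_7_3 : MP 10 :=
  [[[[[],[[[[[[Int.negSucc (nat_lit 13985595092084089263)]]]]]]]],[[[[[[[[Int.negSucc (nat_lit 983820388437673112279)]]]]]]]]]]

/-- A coefficient. -/
noncomputable def sr0_m2_7_4 : MP 10 :=
  [[[[[[[[[[Int.ofNat (nat_lit 571188738248135584060)]]]]]]]]],[[[[[[[[[Int.negSucc (nat_lit 346783566443612977917)]]]]]]]]]]

/-- A coefficient. -/
noncomputable def sr0_m2_7_5 : MP 10 :=
  []

/-- A coefficient. -/
noncomputable def sr0_m2_7_6 : MP 10 :=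
  [[[[[[[[[[Int.negSucc (nat_lit 136278013993170154057)]]]]]]]]]]

/-- A coefficient. -/
noncomputable def sr0_m2_8_0 : MP 10 :=
  [[[[[[[[[[Int.ofNat (nat_lit 713974403897580690432)]]],[[[Int.ofNat (nat_lit 30050891046412639164)]]]]]]],[],[[[[[[[Int.ofNat (nat_lit 23850003686573434442)]]]]]]]],[[[[[],[[[[Int.negSucc (nat_lit 122533483594689907719)]]]]]],[[[[[[Int.negSucc (nat_lit 127065328084252263983)]]]]]]]],[[[[[[[[Int.ofNat (nat_lit 149688303570479729294)]]]]]]]]],[[[[[[[[[Int.ofNat (nat_lit 272923294840776517344)]]]]],[[[[[Int.negSucc (nat_lit 76824769553741518825)]]]]]]],[[[[[[[Int.negSucc (nat_lit 76911911380298978585)]]]]]]]],[],[[[[[[[[Int.negSucc (nat_lit 80770069120333818811)]]]]]]]]],[[[[[[[[[Int.ofNat (nat_lit 74437650898366000644)]]]]]]]]],[[[[[[[[[Int.negSucc (nat_lit 52538983004003563933)]]]]]]]]]]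

/-- A coefficient. -/
noncomputable def sr0_m2_8_1 : MP 10 :=
  [[[[[[[[[],[[Int.negSucc (nat_lit 12686962865154220211)]]]],[[[[Int.ofNat (nat_lit 83192681995001389102)]]]]]],[[[[[[Int.negSucc (nat_lit 216916432932371294047)]]]]]]]],[[[[[[[[Int.negSucc (nat_lit 669711322847716561675)]]]]]]],[[[[[[[Int.ofNat (nat_lit 175620622825422710784)]]]]]]]]],[[[[],[[[[[[Int.negSucc (nat_lit 228398670312380035755)]]]]]]]],[[[[[[[[Int.negSucc (nat_lit 340540066148897154433)]]]]]]]]]]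

/-- A coefficient. -/
noncomputable def sr0_m2_8_2 : MP 10 :=
  [[[[[[[[[[Int.ofNat (nat_lit 151067740214736293956)]]]]],[[[[[Int.negSucc (nat_lit 55327376446016202233)]]]]]]],[[[[[[[Int.negSucc (nat_lit 115399433948574811329)]]]]]]]],[],[[[[[[[[Int.ofNat (nat_lit 262129049167133521748)]]]]]]]]],[[[[[[[[[Int.negSucc (nat_lit 35829829270576300117)]]]]]]]]],[[[[[[[[[Int.ofNat (nat_lit 38364608496562352576)]]]]]]]]]]

/-- A coefficient. -/
noncomputable def sr0_m2_8_3 : MP 10 :=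
  [[[[[],[[[[[[Int.ofNat (nat_lit 168545211559822215152)]]]]]]]],[[[[[[[[Int.ofNat (nat_lit 440183875074920609170)]]]]]]]]]]

/-- A coefficient. -/
noncomputable def sr0_m2_8_4 : MP 10 :=
  [[[[[[[[[[Int.negSucc (nat_lit 669115969543639818957)]]]]]]]]],[[[[[[[[[Int.negSucc (nat_lit 3281287407345432743)]]]]]]]]]]

/-- A coefficient. -/
noncomputable def sr0_m2_8_5 : MP 10 :=
  []

/-- A coefficient. -/
noncomputable def sr0_m2_8_6 : MP 10 :=
  [[[[[[[[[[Int.ofNat (nat_lit 397837989924797931196)]]]]]]]]]]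

/-- A coefficient. -/
noncomputable def sr0_m2_9_0 : MP 10 :=
  [[[[[[[[[[Int.negSucc (nat_lit 815527175093850583893)]]],[[[Int.negSucc (nat_lit 38294570438306188011)]]]]]]]]]]

/-- An expanded part. -/
noncomputable def sr0_m2 : R12 :=
  [[],
   [],
   [sr0_m2_2_0, sr0_m2_2_1, sr0_m2_2_2, sr0_m2_2_3, sr0_m2_2_4, sr0_m2_2_5, sr0_m2_2_6, sr0_m2_2_7, sr0_m2_2_8, sr0_m2_2_9, sr0_m2_2_10, sr0_m2_2_11, sr0_m2_2_12],
   [sr0_m2_3_0, sr0_m2_3_1, sr0_m2_3_2, sr0_m2_3_3, sr0_m2_3_4, sr0_m2_3_5, sr0_m2_3_6, sr0_m2_3_7, sr0_m2_3_8, sr0_m2_3_9, sr0_m2_3_10],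
   [sr0_m2_4_0, sr0_m2_4_1, sr0_m2_4_2, sr0_m2_4_3, sr0_m2_4_4, sr0_m2_4_5, sr0_m2_4_6, sr0_m2_4_7, sr0_m2_4_8, sr0_m2_4_9, sr0_m2_4_10],
   [sr0_m2_5_0, sr0_m2_5_1, sr0_m2_5_2, sr0_m2_5_3, sr0_m2_5_4, sr0_m2_5_5, sr0_m2_5_6, sr0_m2_5_7, sr0_m2_5_8],
   [sr0_m2_6_0, sr0_m2_6_1, sr0_m2_6_2, sr0_m2_6_3, sr0_m2_6_4, sr0_m2_6_5, sr0_m2_6_6, sr0_m2_6_7, sr0_m2_6_8],
   [sr0_m2_7_0, sr0_m2_7_1, sr0_m2_7_2, sr0_m2_7_3, sr0_m2_7_4, sr0_m2_7_5, sr0_m2_7_6],
   [sr0_m2_8_0, sr0_m2_8_1, sr0_m2_8_2, sr0_m2_8_3, sr0_m2_8_4, sr0_m2_8_5, sr0_m2_8_6],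
   [sr0_m2_9_0]]

set_option maxRecDepth 100000 in
theorem sr0_check2 : partOk 0 sr0_rows 2 sr0_m2 = true :=
  Fast.partOk_of_fast (by decide +kernel)

end Vale.Agent.P142K.CertB
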