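import Vale.Agent.P142K.CertB.Sr0Rows
import Vale.Agent.P142K.Fast

/-!
# An expanded part of the certificate

Generated from a semidefinite program; only the checker is trusted.
-/

namespace Vale.Agent.P142K.CertB

open Vale.Agent.P142J (MP)

/-- A coefficient. -/
noncomputable def sr0_m3_4_0 : MP 10 :=
  [[[[[[],[],[[[[[Int.ofNat (nat_lit 134274990293592289376)]]]]]]],[[[],[[[[[Int.negSucc (nat_lit 91355498983142668661)]]]]]]],[[[[[[[Int.ofNat (nat_lit 540430430704285212913)]]]]]]]],[[[],[[],[[[[[Int.negSucc (nat_lit 3302520334434914577)]]]]]]],[[],[[[[[[Int.ofNat (nat_lit 182114193545447705862)]]]]]]]],[[[[],[[[[[Int.ofNat (nat_lit 74872926161989239174)]]]]]],[],[[[[[[Int.ofNat (nat_lit 210255677701367527311)]]]]]]],[[[[[[[Int.ofNat (nat_lit 143302006166622465904)]]]]]]]],[[[],[[[[[[Int.negSucc (nat_lit 128880424990367220293)]]]]]]]],[[[[[[[[Int.ofNat (nat_lit 476667152254525230213)]]]]]]]]],[[[[[],[[[[[Int.ofNat (nat_lit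 11934843780188881152)]]]]]]],[[[[[[[Int.negSucc (nat_lit 691263508140426734689)]]]]],[[[[[Int.negSucc (nat_lit 11814968958067532103)]]]]]]],[[[[[[[Int.ofNat (nat_lit 547194656679725238886)]]]]]]]],[[[],[[[[[[Int.negSucc (nat_lit 527445704278110951899)]]]]]]],[[],[[[[[[Int.ofNat (nat_lit 150044119104532298740)]]]]]]]],[[[[[[[[Int.negSucc (nat_lit 78815818167923366621)]]]]]]],[[[[[[[Int.negSucc (nat_lit 38207348592935088307)]]]]]]]]],[[[[[[[[[Int.ofNat (nat_lit 1866601907127384114453)]]]]],[[[[[Int.negSucc (nat_lit 94011455088854402315)]]]]]]],[[[[[[[Int.negSucc (nat_lit 449100960266639021183)]]]]]]],[[[[[[[Int.ofNat (nat_lit 292501035453830272134)]]]]]]]],[[[],[[[[[[Int.negSucc (nat_lit 92240125038705014707)]]]]]]]],[[[[[[[[Int.ofNat (nat_lit 35432052529775786228)]]]]]]]]],[[[[[[[[[Int.ofNat (nat_lit 982211097624019756410)]]]]]]],[[[[[[[Int.negSucc (nat_lit 19824775153159677645)]]]]]]]]],[[[[[[[[[Int.ofNat (nat_lit 388983274814945945361)]]]]]]]]]]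

/-- A coefficient. -/
noncomputable def sr0_m3_4_1 : MP 10 :=
  [[[[[[],[[],[[[[Int.negSucc (nat_lit 47935204063269562199)]]]]]],[[],[[[[[Int.ofNat (nat_lit 22489009073890382724)]]]]]]],[[[[],[[[[Int.negSucc (nat_lit 118834533308034060153)]]]]]],[[[[[[Int.negSucc (nat_lit 155724938464508572799)]]]]]]]],[[[[],[[[[[Int.negSucc (nat_lit 401761925713982085477)]]]]]],[[[],[[[[Int.ofNat (nat_lit 47093753279653627754)]]]]]],[[[[[[Int.negSucc (nat_lit 155676914116464566103)]]]]]]],[[[[[[[Int.ofNat (nat_lit 261368462013677221706)]]]]]]]],[[[[[],[[[[Int.negSucc (nat_lit 201942783867437657905)]]]]]],[[[[[[Int.ofNat (nat_lit 278385770208692947396)]]]]]]]],[[[[[[[[Int.negSucc (nat_lit 1067314643902356213257)]]]]]]]]],[[[[[[],[[[[Int.negSucc (nat_lit 5417319754473166027)]]]]]],[[[[[[Int.ofNat (nat_lit 471424175981698787050)]]]]]]],[[[[],[[[[Int.negSucc (nat_lit 5068322570558494177)]]]]]],[[[[[[Int.negSucc (nat_lit 63826845958067982421)]]]]]]]],[[[[[[[[Int.negSucc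 (nat_lit 1083178989269914746525)]]]]],[[[[[Int.negSucc (nat_lit 20603144318910585079)]]]]]]],[[[[[[[Int.ofNat (nat_lit 888461226304824060894)]]]]]]]],[[[],[[[[[[Int.ofNat (nat_lit 128910722136624246782)]]]]]]]],[[[[[[[[Int.ofNat (nat_lit 248836375072563283012)]]]]]]]]],[[[[[[],[[[[Int.negSucc (nat_lit 31895959467887766457)]]]]]],[[[[[[Int.negSucc (nat_lit 121667332398839599035)]]]]]]]],[[[[[[[[Int.negSucc (nat_lit 1164472203297108023493)]]]]]]],[[[[[[[Int.ofNat (nat_lit 391940158311404123910)]]]]]]]]],[[],[[[[[[[[Int.negSucc (nat_lit 451250325966442520881)]]]]]]]]]]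

/-- A coefficient. -/
noncomputable def sr0_m3_4_2 : MP 10 :=
  [[[[[[[],[],[[[[Int.ofNat (nat_lit 251184467876067573080)]]]]],[[[[[Int.ofNat (nat_lit 97012471782694190120)]]]]]],[[[],[[[[Int.negSucc (nat_lit 121859121353109195727)]]]]]],[[[[[[Int.ofNat (nat_lit 1004151287425346306233)]]]]]]],[[[[[[[Int.ofNat (nat_lit 1083347799372150924866)]]]]],[[[[[Int.negSucc (nat_lit 133241661894509681627)]]]]]]],[[[[[[[Int.negSucc (nat_lit 658473587142267707051)]]]]]]]],[[[[[],[[[[Int.ofNat (nat_lit 390369181437158832672)]]]]]],[[[[[[Int.negSucc (nat_lit 473731844613279378899)]]]]]]],[[],[[[[[[Int.negSucc (nat_lit 58427102466122543445)]]]]]]]],[[[[[[[[Int.ofNat (nat_lit 4345661258570219857528)]]]]]]],[[[[[[[Int.negSucc (nat_lit 69482399913946106305)]]]]]]]]],[[[[[[[[[Int.negSucc (nat_lit 1718260930513567166367)]]]]],[[[[[Int.negSucc (nat_lit 56161610770363295119)]]]]]]],[[[[[[[Int.ofNat (nat_lit 1373464316360034958864)]]]]]]],[[[[[[[Int.negSucc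 (nat_lit 331797699695589026885)]]]]]]]],[[[[[],[[[[Int.ofNat (nat_lit 10333803702799954940)]]]]]],[[[[[[Int.ofNat (nat_lit 286667370345764118434)]]]]]]]],[[[[[[[[Int.ofNat (nat_lit 1986997976435864302852)]]]]]]]]],[[[[[[[[[Int.negSucc (nat_lit 2529098653310520578095)]]]]]]],[[[[[[[Int.ofNat (nat_lit 714335483146157383582)]]]]]]]],[],[[[[[[[[Int.ofNat (nat_lit 1224874839707501686626)]]]]]]]]],[[[[[[[[[Int.negSucc (nat_lit 340871687393669752327)]]]]]]]]]]

/-- A coefficient. -/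
noncomputable def sr0_m3_4_3 : MP 10 :=
  [[[[[[[],[[[[Int.ofNat (nat_lit 213099972425744755124)]]]]]],[[[[[[Int.ofNat (nat_lit 135795389595188858632)]]]]]]],[[[[],[[[[Int.ofNat (nat_lit 2045292750118069660)]]]]]],[[[[[[Int.ofNat (nat_lit 252672594976070518884)]]]]]]]],[[[[[[[[Int.negSucc (nat_lit 938209089091649233201)]]]]],[[[[[Int.ofNat (nat_lit 388348008135601413510)]]]]]]],[[[[[[[Int.negSucc (nat_lit 883622044830715842665)]]]]]]]],[[[],[[[[[[Int.negSucc (nat_lit 442319756210014975751)]]]]]]]],[[[[[[[[Int.ofNat (nat_lit 843823245853195383664)]]]]]]]]],[[[[[[],[[[[Int.ofNat (nat_lit 208812130819733971570)]]]]]],[[[[[[Int.negSucc (nat_lit 511663179210904425587)]]]]]]]],[[[[[[[[Int.ofNat (nat_lit 2981773222562442534358)]]]]]]],[[[[[[[Int.negSucc (nat_lit 822229592824849358075)]]]]]]]]],[[],[[[[[[[[Int.ofNat (nat_lit 319270396815090239270)]]]]]]]]]]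

/-- A coefficient. -/
noncomputable def sr0_m3_4_4 : MP 10 :=
  [[[[[[[[[[Int.ofNat (nat_lit 8861263035165412002167)]]]]],[[[[[Int.negSucc (nat_lit 206967475184566300321)]]]]]]],[[[[[[[Int.negSucc (nat_lit 3085855687364152692885)]]]]]]],[[[[[[[Int.ofNat (nat_lit 1943240651468431490630)]]]]]]]],[[[[[],[[[[Int.negSucc (nat_lit 164904092336461984947)]]]]]],[[[[[[Int.ofNat (nat_lit 680842826232173232784)]]]]]]]],[[[[[[[[Int.negSucc (nat_lit 7235892568468899542507)]]]]]]]]],[[[[[[[[[Int.ofNat (nat_lit 5290310149328421595248)]]]]]]],[[[[[[[Int.negSucc (nat_lit 1197563194294642073481)]]]]]]]],[],[[[[[[[[Int.negSucc (nat_lit 1004014671216833517937)]]]]]]]]],[[[[[[[[[Int.ofNat (nat_lit 3239019062035975079071)]]]]]]]]]]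

/-- A coefficient. -/
noncomputable def sr0_m3_4_5 : MP 10 :=
  [[[[[[[],[[[[Int.negSucc (nat_lit 151060232836280052563)]]]]]],[[[[[[Int.negSucc (nat_lit 257512462521000366789)]]]]]]]],[[[[[[[[Int.ofNat (nat_lit 1849621747628644383172)]]]]]]],[[[[[[[Int.ofNat (nat_lit 1091913858495982867480)]]]]]]]]],[[],[[[[[[[[Int.negSucc (nat_lit 1685221790544623873801)]]]]]]]]]]

/-- A coefficient. -/
noncomputable def sr0_m3_4_6 : MP 10 :=
  [[[[[[[[[[Int.negSucc (nat_lit 12590233267703232536569)]]]]]]],[[[[[[[Int.ofNat (nat_lit 587880414075288776780)]]]]]]]],[],[[[[[[[[Int.ofNat (nat_lit 5669228519883075506708)]]]]]]]]],[[[[[[[[[Int.negSucc (nat_lit 1163835009970155121513)]]]]]]]]]]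

/-- A coefficient. -/
noncomputable def sr0_m3_4_7 : MP 10 :=
  [[[],[[[[[[[[Int.negSucc (nat_lit 3384148010387710269591)]]]]]]]]]]

/-- A coefficient. -/
noncomputable def sr0_m3_4_8 : MP 10 :=
  [[[[[[[[[[Int.ofNat (nat_lit 7403531591675248634128)]]]]]]]]]]

/-- A coefficient. -/
noncomputable def sr0_m3_5_0 : MP 10 :=
  [[[[[[],[[[[[Int.negSucc (nat_lit 11027279856703544793)]]]]],[[[[[Int.negSucc (nat_lit 206883242385372634175)]]]]]]],[[[[[[[Int.ofNat (nat_lit 310671780095665003146)]]]]],[[[[[Int.ofNat (nat_lit 97709050158631220908)]]]]]]],[[[[[[[Int.negSucc (nat_lit 123231515046302578065)]]]]]]]],[[[],[[[[[[Int.ofNat (nat_lit 76549202898388555486)]]]]],[[[[[Int.negSucc (nat_lit 12998017849371987783)]]]]]]],[[],[[[[[[Int.ofNat (nat_lit 109358516478568066464)]]]]]]]],[[[[[[[[Int.ofNat (nat_lit 286065844880502221784)]]]]],[[[[[Int.negSucc (nat_lit 93232256000243485049)]]]]]]],[[[[[[[Int.negSucc (nat_lit 266727921720423893253)]]]]]]]],[[[],[[[[[[Int.negSucc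 (nat_lit 19814609273444430909)]]]]]]]],[[[[[[[[Int.negSucc (nat_lit 491535394383999768019)]]]]]]]]],[[[[[[[[[Int.negSucc (nat_lit 1785890572150914757121)]]]]],[[[[[Int.ofNat (nat_lit 175011053037061026652)]]]]]]],[[[[[[[Int.negSucc (nat_lit 76370539097176050601)]]]]],[[[[[Int.ofNat (nat_lit 15612553379650560540)]]]]]]],[[[[[[[Int.negSucc (nat_lit 110289903010605936249)]]]]]]]],[[[],[[[[[[Int.negSucc (nat_lit 64843075785930290239)]]]]]]]],[[[[[[[[Int.ofNat (nat_lit 556707774562347308878)]]]]]]],[[[[[[[Int.ofNat (nat_lit 115426043325375951030)]]]]]]]]],[[[[[[[[[Int.negSucc (nat_lit 1912384852404420498309)]]]]],[[[[[Int.ofNat (nat_lit 171723045269898683632)]]]]]]],[[[[[[[Int.negSucc (nat_lit 204352108294703643557)]]]]]]]],[[[],[[[[[[Int.ofNat (nat_lit 30146516160378666462)]]]]]]]],[[[[[[[[Int.negSucc (nat_lit 42051203933535190535)]]]]]]]]],[[[[[[[[[Int.negSucc (nat_lit 1726278756892581592397)]]]]]]],[[[[[[[Int.ofNat (nat_lit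 63615728554889169396)]]]]]]]]],[[[[[[[[[Int.negSucc (nat_lit 562056248651897243711)]]]]]]]]]]

/-- A coefficient. -/
noncomputable def sr0_m3_5_1 : MP 10 :=
  [[[[[[[],[[[[Int.negSucc (nat_lit 6542180297500925077)]]]]],[[],[[[[Int.ofNat (nat_lit 6895717968210663524)]]]]]],[[[[[[Int.ofNat (nat_lit 19541324413052019880)]]]]],[[[[[Int.ofNat (nat_lit 81997491782651681194)]]]]]]],[[[[],[[[[Int.negSucc (nat_lit 5795014434929361545)]]]]]],[[[[[[Int.negSucc (nat_lit 313853825095210873535)]]]]]]]],[[[[[[[[Int.ofNat (nat_lit 1138715099689643509508)]]]]],[[[[[Int.negSucc (nat_lit 126903401491736210765)]]]]]],[],[[[[[[Int.negSucc (nat_lit 166138560760868753645)]]]]]]],[[[[[[[Int.ofNat (nat_lit 77219149745408891716)]]]]]]]],[[[[[],[[[[Int.ofNat (nat_lit 134466418573031130438)]]]]]],[[[[[[Int.ofNat (nat_lit 563369636903486315116)]]]]]]]],[[[[[[[[Int.negSucc (nat_lit 200147414652060446581)]]]]]]]]],[[[[[[],[[[[Int.ofNat (nat_lit 62129352604653368166)]]]]]],[[[[[[Int.ofNat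 (nat_lit 222190531203433668230)]]]]]]],[[],[[[[[[Int.ofNat (nat_lit 46944086123446364454)]]]]]]]],[[[[[[[[Int.ofNat (nat_lit 385718693540242225570)]]]]],[[[[[Int.ofNat (nat_lit 16219493485196386416)]]]]]]],[[[[[[[Int.ofNat (nat_lit 181525005293213072986)]]]]]]]],[],[[[[[[[[Int.negSucc (nat_lit 9114602181058685771)]]]]]]]]],[[[[[[],[[[[Int.ofNat (nat_lit 106204839598175560978)]]]]]],[[[[[[Int.ofNat (nat_lit 102365793710311561800)]]]]]]]],[[[[[[[[Int.ofNat (nat_lit 1545057959288335034006)]]]]]]]]],[[],[[[[[[[[Int.ofNat (nat_lit 391041519438799696574)]]]]]]]]]]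

/-- A coefficient. -/
noncomputable def sr0_m3_5_2 : MP 10 :=
  [[[[[[[[[[Int.ofNat (nat_lit 1216060789205648864046)]]]]],[[[[[Int.ofNat (nat_lit 103927061739313156362)]]]]]],[[[],[[[[Int.ofNat (nat_lit 113385576038199249162)]]]]]],[[[[[[Int.negSucc (nat_lit 1106772444895792975519)]]]]]]],[[[[[[[Int.negSucc (nat_lit 612541967473287029559)]]]]],[[[[[Int.ofNat (nat_lit 126549415836952542324)]]]]]]],[[[[[[[Int.negSucc (nat_lit 209493109844256278905)]]]]]]]],[[[[[],[[[[Int.ofNat (nat_lit 170044532264790779622)]]]]]],[[[[[[Int.negSucc (nat_lit 84812947277039251187)]]]]]]]],[[[[[[[[Int.ofNat (nat_lit 4446877147498872940718)]]]]]]],[[[[[[[Int.negSucc (nat_lit 174693483227594113373)]]]]]]]]],[[[[[[[[[Int.ofNat (nat_lit 4442235310904307436054)]]]]],[[[[[Int.negSucc (nat_lit 24472927624269961609)]]]]]]],[[[[[[[Int.negSucc (nat_lit 1728925100159712583673)]]]]]]]],[[[],[[[[[[Int.negSucc (nat_lit 89255195603176223141)]]]]]]]],[[[[[[[[Int.ofNat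 (nat_lit 756204751017387659296)]]]]]]]]],[[[[[[[[[Int.ofNat (nat_lit 3758110879699530766910)]]]]]]],[[[[[[[Int.negSucc (nat_lit 996192719264574188797)]]]]]]]]],[[[[[[[[[Int.ofNat (nat_lit 1208999334739034194808)]]]]]]]]]]

/-- A coefficient. -/
noncomputable def sr0_m3_5_3 : MP 10 :=
  [[[[[[[],[[[[Int.negSucc (nat_lit 1195459614156426562167)]]]]]],[[[[[[Int.negSucc (nat_lit 264754631382761319247)]]]]]]],[[],[[[[[[Int.negSucc (nat_lit 253461256434683227487)]]]]]]]],[[[[[[[[Int.negSucc (nat_lit 7664196184577640943713)]]]]],[[[[[Int.negSucc (nat_lit 399451520093784827385)]]]]]]],[[[[[[[Int.ofNat (nat_lit 263188487395200923976)]]]]]]]],[],[[[[[[[[Int.negSucc (nat_lit 495818657543029915123)]]]]]]]]],[[[[[[],[[[[Int.negSucc (nat_lit 283432968992496038923)]]]]]],[[[[[[Int.ofNat (nat_lit 417629230796067443548)]]]]]]]],[[[[[[[[Int.negSucc (nat_lit 4062543057022538942093)]]]]]]]]],[[],[[[[[[[[Int.negSucc (nat_lit 1831260674029489469559)]]]]]]]]]]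

/-- A coefficient. -/
noncomputable def sr0_m3_5_4 : MP 10 :=
  [[[[[[[[[[Int.negSucc (nat_lit 14820591246036986871235)]]]]],[[[[[Int.ofNat (nat_lit 198807032237188130780)]]]]]]],[[[[[[[Int.ofNat (nat_lit 2604661830068053870298)]]]]]]]],[[[],[[[[[[Int.negSucc (nat_lit 405534616982611102073)]]]]]]]],[[[[[[[[Int.negSucc (nat_lit 3284083362196814790819)]]]]]]]]],[[[[[[[[[Int.negSucc (nat_lit 11515955179199682262095)]]]]]]],[[[[[[[Int.ofNat (nat_lit 826343474733400747298)]]]]]]]]],[[[[[[[[[Int.negSucc (nat_lit 5143664415414514631003)]]]]]]]]]]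

/-- A coefficient. -/
noncomputable def sr0_m3_5_5 : MP 10 :=
  [[[[[[[],[[[[Int.ofNat (nat_lit 1022645560944103778650)]]]]]],[[[[[[Int.ofNat (nat_lit 572061035410620945262)]]]]]]]],[[[[[[[[Int.ofNat (nat_lit 11853088734319691509698)]]]]]]]]],[[],[[[[[[[[Int.ofNat (nat_lit 2052072490244496038842)]]]]]]]]]]

/-- A coefficient. -/
noncomputable def sr0_m3_5_6 : MP 10 :=
  [[[[[[[[[[Int.ofNat (nat_lit 20176370252464829446460)]]]]]]],[[[[[[[Int.negSucc (nat_lit 2020778338467859380181)]]]]]]]]],[[[[[[[[[Int.ofNat (nat_lit 3397257195251705800980)]]]]]]]]]]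

/-- A coefficient. -/
noncomputable def sr0_m3_5_7 : MP 10 :=
  [[[],[[[[[[[[Int.negSucc (nat_lit 7195426843565283397423)]]]]]]]]]]

/-- A coefficient. -/
noncomputable def sr0_m3_5_8 : MP 10 :=
  [[[[[[[[[[Int.negSucc (nat_lit 10693917832479287158731)]]]]]]]]]]

/-- A coefficient. -/
noncomputable def sr0_m3_6_0 : MP 10 :=
  [[[[[[[[[[Int.ofNat (nat_lit 1415692893602125516623)]]]]],[[[[[Int.negSucc (nat_lit 163014127913124674517)]]]]],[[[[[Int.ofNat (nat_lit 126752228070348289472)]]]]]]],[[[[[[[Int.ofNat (nat_lit 62362858426562387774)]]]]],[[[[[Int.negSucc (nat_lit 3111025162370503841)]]]]]]],[[[[[[[Int.ofNat (nat_lit 65060990414519598236)]]]]]]]],[[[],[[[[[[Int.ofNat (nat_lit 704753818353326546686)]]]]]]],[[],[[[[[[Int.negSucc (nat_lit 141387598547208495401)]]]]]]]],[[[[[[[[Int.negSucc (nat_lit 762513445397647119919)]]]]],[[[[[Int.negSucc (nat_lit 23394827929433537465)]]]]]]],[[[[[[[Int.ofNat (nat_lit 197008166141466140202)]]]]]]]],[],[[[[[[[[Int.ofNat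 (nat_lit 243505659261052523113)]]]]]]]]],[[[[[[[[[Int.negSucc (nat_lit 849727038434557423487)]]]]],[[[[[Int.negSucc (nat_lit 263972418918618748913)]]]]]]],[[[[[[[Int.ofNat (nat_lit 1017989546833004102140)]]]]]]],[[[[[[[Int.negSucc (nat_lit 294378084692596403771)]]]]]]]],[[[],[[[[[[Int.ofNat (nat_lit 474318234869019795556)]]]]]]]],[[[[[[[[Int.negSucc (nat_lit 277651579520897744023)]]]]]]]]],[[[[[[[[[Int.negSucc (nat_lit 905826971561335408893)]]]]],[[[[[Int.negSucc (nat_lit 115763038671064623669)]]]]]]],[[[[[[[Int.ofNat (nat_lit 742884853247791025518)]]]]]]]],[],[[[[[[[[Int.ofNat (nat_lit 135247183063868734134)]]]]]]]]],[[[[[[[[[Int.ofNat (nat_lit 653734850768113472676)]]]]]]]]],[[[[[[[[[Int.ofNat (nat_lit 364615642135617508274)]]]]]]]]]]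

/-- A coefficient. -/
noncomputable def sr0_m3_6_1 : MP 10 :=
  [[[[[[[],[[[[Int.ofNat (nat_lit 125461228633218983496)]]]]]],[[[[[[Int.negSucc (nat_lit 646571908728997503685)]]]]],[[[[[Int.negSucc (nat_lit 40523230304651159343)]]]]]]],[[[[],[[[[Int.ofNat (nat_lit 6861545826766440390)]]]]]],[[[[[[Int.ofNat (nat_lit 43858644363521843574)]]]]]]]],[[[[[[[[Int.ofNat (nat_lit 1839724464984087331816)]]]]],[[[[[Int.ofNat (nat_lit 866242311663246611122)]]]]]]],[[[[[[[Int.negSucc (nat_lit 608264057571427776809)]]]]]]]],[[[],[[[[[[Int.negSucc (nat_lit 12612903115254630159)]]]]]]]],[[[[[[[[Int.ofNat (nat_lit 896474414970302460950)]]]]]]]]],[[[[[[],[[[[Int.ofNat (nat_lit 116313822466988155636)]]]]]],[[[[[[Int.negSucc (nat_lit 336684605687282219399)]]]]]]]],[[[[[[[[Int.ofNat (nat_lit 1871297303472482737602)]]]]]]],[[[[[[[Int.negSucc (nat_lit 736454802410830270565)]]]]]]]]],[[[[],[[[[[[Int.ofNat (nat_lit 34757459324491446740)]]]]]]]],[[[[[[[[Int.ofNat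 (nat_lit 440470873136556820224)]]]]]]]]]]

/-- A coefficient. -/
noncomputable def sr0_m3_6_2 : MP 10 :=
  [[[[[[[[[[Int.negSucc (nat_lit 2028438474400428557577)]]]]],[[[[[Int.negSucc (nat_lit 254266292820478918905)]]]]]],[],[[[[[[Int.ofNat (nat_lit 894989599525418368594)]]]]]]],[[[[[[[Int.negSucc (nat_lit 710153224315872880327)]]]]]]],[[[[[[[Int.ofNat (nat_lit 333134279146361022182)]]]]]]]],[[[[[],[[[[Int.negSucc (nat_lit 254892840391603932509)]]]]]],[[[[[[Int.negSucc (nat_lit 377867634552889945515)]]]]]]]],[[[[[[[[Int.negSucc (nat_lit 3229334933413303628019)]]]]]]]]],[[[[[[[[[Int.negSucc (nat_lit 1925994426775011547893)]]]]],[[[[[Int.ofNat (nat_lit 138413220535600187654)]]]]]]],[[[[[[[Int.negSucc (nat_lit 157244473572079051459)]]]]]]]],[],[[[[[[[[Int.negSucc (nat_lit 2303289189955236022051)]]]]]]]]],[[[[[[[[[Int.negSucc (nat_lit 2627436316903549889379)]]]]]]]]],[[[[[[[[[Int.negSucc (nat_lit 920954476769487009399)]]]]]]]]]]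

/-- A coefficient. -/
noncomputable def sr0_m3_6_3 : MP 10 :=
  [[[[[[[],[[[[Int.ofNat (nat_lit 11761472669139215954)]]]]]],[[[[[[Int.ofNat (nat_lit 501934932608558777396)]]]]]]]],[[[[[[[[Int.negSucc (nat_lit 10139430333334699496149)]]]]]]],[[[[[[[Int.ofNat (nat_lit 860151979693057159992)]]]]]]]]],[[[[],[[[[[[Int.negSucc (nat_lit 514747824108471535367)]]]]]]]],[[[[[[[[Int.negSucc (nat_lit 2029909219751327345041)]]]]]]]]]]

/-- A coefficient. -/
noncomputable def sr0_m3_6_4 : MP 10 :=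
  [[[[[[[[[[Int.ofNat (nat_lit 10814583414054887883935)]]]]],[[[[[Int.ofNat (nat_lit 10011000331138256880)]]]]]]],[[[[[[[Int.ofNat (nat_lit 192277939139118112020)]]]]]]]],[],[[[[[[[[Int.ofNat (nat_lit 4490591356648608150420)]]]]]]]]],[[[[[[[[[Int.ofNat (nat_lit 13504174020102811041456)]]]]]]]]],[[[[[[[[[Int.ofNat (nat_lit 5643004489904179986356)]]]]]]]]]]

/-- A coefficient. -/
noncomputable def sr0_m3_6_5 : MP 10 :=
  [[[[[],[[[[[[Int.negSucc (nat_lit 441977663261161751689)]]]]]]]],[[[[[[[[Int.ofNat (nat_lit 4045776957061308375346)]]]]]]]]]]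

/-- A coefficient. -/
noncomputable def sr0_m3_6_6 : MP 10 :=
  [[[[[[[[[[Int.negSucc (nat_lit 18922794258397173098019)]]]]]]]]],[[[[[[[[[Int.negSucc (nat_lit 4091219974278933001701)]]]]]]]]]]

/-- A coefficient. -/
noncomputable def sr0_m3_6_7 : MP 10 :=
  []

/-- A coefficient. -/
noncomputable def sr0_m3_6_8 : MP 10 :=
  [[[[[[[[[[Int.ofNat (nat_lit 15730841978917399931433)]]]]]]]]]]

/-- A coefficient. -/
noncomputable def sr0_m3_7_0 : MP 10 :=
  [[[[[[[[[[Int.negSucc (nat_lit 404102690429768917691)]]]]],[[[[[Int.ofNat (nat_lit 373795308083725294870)]]]]]]],[[[[[[[Int.ofNat (nat_lit 803962158945647556056)]]]]],[[[[[Int.negSucc (nat_lit 32305098939873091105)]]]]]]],[[[[[[[Int.negSucc (nat_lit 406935609353706012341)]]]]]]]],[[[],[[[[[[Int.negSucc (nat_lit 447999943364490700677)]]]]]]]],[[[[[[[[Int.ofNat (nat_lit 195000590135477773514)]]]]]]],[[[[[[[Int.negSucc (nat_lit 63660047795601683655)]]]]]]]]],[[[[[[[[[Int.ofNat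 (nat_lit 3383196206294235196140)]]]]],[[[[[Int.ofNat (nat_lit 99313523045841917832)]]]]]]],[[[[[[[Int.negSucc (nat_lit 37010742481841402947)]]]]]]]],[[[],[[[[[[Int.negSucc (nat_lit 172322716817506450335)]]]]]]]],[[[[[[[[Int.negSucc (nat_lit 40941715465848074069)]]]]]]]]],[[[[[[[[[Int.ofNat (nat_lit 3304035650237623340924)]]]]]]],[[[[[[[Int.negSucc (nat_lit 239758868745492627919)]]]]]]]]],[[[[[[[[[Int.ofNat (nat_lit 1170694232451797404960)]]]]]]]]]]

/-- A coefficient. -/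
noncomputable def sr0_m3_7_1 : MP 10 :=
  [[[[[[[],[[[[Int.negSucc (nat_lit 271728710714892617393)]]]]]],[[[[[[Int.ofNat (nat_lit 403802358216231727124)]]]]]]],[[],[[[[[[Int.ofNat (nat_lit 47694958729696865336)]]]]]]]],[[[[[[[[Int.negSucc (nat_lit 1323617666253169897509)]]]]],[[[[[Int.negSucc (nat_lit 315276194417030183093)]]]]]]],[[[[[[[Int.negSucc (nat_lit 110250428909451699157)]]]]]]]],[],[[[[[[[[Int.negSucc (nat_lit 683697470224535427067)]]]]]]]]],[[[[[[],[[[[Int.negSucc (nat_lit 154985843769605219543)]]]]]],[[[[[[Int.ofNat (nat_lit 436665430226781490958)]]]]]]]],[[[[[[[[Int.negSucc (nat_lit 1519260913613848630541)]]]]]]]]],[[],[[[[[[[[Int.negSucc (nat_lit 1019482326129639525543)]]]]]]]]]]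

/-- A coefficient. -/
noncomputable def sr0_m3_7_2 : MP 10 :=
  [[[[[[[[[[Int.negSucc (nat_lit 2231069760984792689773)]]]]],[[[[[Int.negSucc (nat_lit 19937484685928293427)]]]]]]],[[[[[[[Int.ofNat (nat_lit 574357943657865703652)]]]]]]]],[[[],[[[[[[Int.negSucc (nat_lit 342437245692431794747)]]]]]]]],[[[[[[[[Int.negSucc (nat_lit 5408684268404543762949)]]]]]]]]],[[[[[[[[[Int.negSucc (nat_lit 4259375974971058937067)]]]]]]],[[[[[[[Int.ofNat (nat_lit 1139695806080150246376)]]]]]]]]],[[[[[[[[[Int.negSucc (nat_lit 2031573082730094968951)]]]]]]]]]]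

/-- A coefficient. -/
noncomputable def sr0_m3_7_3 : MP 10 :=
  [[[[[[[],[[[[Int.ofNat (nat_lit 808484205082506169942)]]]]]],[[[[[[Int.ofNat (nat_lit 960142472340893162206)]]]]]]]],[[[[[[[[Int.ofNat (nat_lit 15442074752654492687574)]]]]]]]]],[[],[[[[[[[[Int.ofNat (nat_lit 4243090572182659095948)]]]]]]]]]]

/-- A coefficient. -/
noncomputable def sr0_m3_7_4 : MP 10 :=
  [[[[[[[[[[Int.ofNat (nat_lit 15380765183186539376092)]]]]]]],[[[[[[[Int.negSucc (nat_lit 1208647950735669635127)]]]]]]]]],[[[[[[[[[Int.ofNat (nat_lit 1745771729396416240274)]]]]]]]]]]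

/-- A coefficient. -/
noncomputable def sr0_m3_7_5 : MP 10 :=
  [[[],[[[[[[[[Int.negSucc (nat_lit 8915647315701112844221)]]]]]]]]]]

/-- A coefficient. -/
noncomputable def sr0_m3_7_6 : MP 10 :=
  [[[[[[[[[[Int.negSucc (nat_lit 13280157630499749246641)]]]]]]]]]]

/-- A coefficient. -/
noncomputable def sr0_m3_8_0 : MP 10 :=
  [[[[[[[[[[Int.ofNat (nat_lit 671578698678049418604)]]]]],[[[[[Int.negSucc (nat_lit 39862622901191563013)]]]]]]],[[[[[[[Int.negSucc (nat_lit 1007963007032977640521)]]]]]]],[[[[[[[Int.ofNat (nat_lit 237936827118975921686)]]]]]]]],[[[],[[[[[[Int.negSucc (nat_lit 252934831875491702279)]]]]]]]],[[[[[[[[Int.ofNat (nat_lit 203928013111626454392)]]]]]]]]],[[[[[[[[[Int.ofNat (nat_lit 617340535081047610470)]]]]],[[[[[Int.ofNat (nat_lit 40736681057606943176)]]]]]]],[[[[[[[Int.negSucc (nat_lit 503508562488971631631)]]]]]]]],[],[[[[[[[[Int.negSucc (nat_lit 30381823108723150259)]]]]]]]]],[[[[[[[[[Int.negSucc (nat_lit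 1528147953530119788245)]]]]]]]]],[[[[[[[[[Int.negSucc (nat_lit 899049307106747308591)]]]]]]]]]]

/-- A coefficient. -/
noncomputable def sr0_m3_8_1 : MP 10 :=
  [[[[[[[],[[[[Int.ofNat (nat_lit 5277671624454169002)]]]]]],[[[[[[Int.negSucc (nat_lit 207631665046330927437)]]]]]]]],[[[[[[[[Int.negSucc (nat_lit 2141941179860091722525)]]]]]]],[[[[[[[Int.ofNat (nat_lit 335886858150647793492)]]]]]]]]],[[[[],[[[[[[Int.negSucc (nat_lit 291127091439226282413)]]]]]]]],[[[[[[[[Int.negSucc (nat_lit 1062389925635373877381)]]]]]]]]]]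

/-- A coefficient. -/
noncomputable def sr0_m3_8_2 : MP 10 :=
  [[[[[[[[[[Int.ofNat (nat_lit 2806745838898758479050)]]]]],[[[[[Int.negSucc (nat_lit 105715001311189636373)]]]]]]],[[[[[[[Int.ofNat (nat_lit 4901059003644431326)]]]]]]]],[],[[[[[[[[Int.ofNat (nat_lit 757643927419718544002)]]]]]]]]],[[[[[[[[[Int.ofNat (nat_lit 5427019837219820106392)]]]]]]]]],[[[[[[[[[Int.ofNat (nat_lit 2309643174434024203532)]]]]]]]]]]

/-- A coefficient. -/
noncomputable def sr0_m3_8_3 : MP 10 :=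
  [[[[[],[[[[[[Int.negSucc (nat_lit 147950662330300421105)]]]]]]]],[[[[[[[[Int.ofNat (nat_lit 5577360298394447773624)]]]]]]]]]]

/-- A coefficient. -/
noncomputable def sr0_m3_8_4 : MP 10 :=
  [[[[[[[[[[Int.negSucc (nat_lit 28160452440488302691045)]]]]]]]]],[[[[[[[[[Int.negSucc (nat_lit 8508332572820170155121)]]]]]]]]]]

/-- A coefficient. -/
noncomputable def sr0_m3_8_5 : MP 10 :=
  []

/-- A coefficient. -/
noncomputable def sr0_m3_8_6 : MP 10 :=
  [[[[[[[[[[Int.ofNat (nat_lit 16600300525487618411126)]]]]]]]]]]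

/-- A coefficient. -/
noncomputable def sr0_m3_9_0 : MP 10 :=
  [[[[[[[[[[Int.negSucc (nat_lit 2586631270772602331981)]]]]],[[[[[Int.negSucc (nat_lit 199298856406383217837)]]]]]]],[[[[[[[Int.negSucc (nat_lit 184955873068045813371)]]]]]]]],[[[],[[[[[[Int.ofNat (nat_lit 188958142842678656488)]]]]]]]],[[[[[[[[Int.negSucc (nat_lit 110515760882545478097)]]]]]]]]],[[[[[[[[[Int.negSucc (nat_lit 4905316814006570728491)]]]]]]],[[[[[[[Int.ofNat (nat_lit 147997854216434384110)]]]]]]]]],[[[[[[[[[Int.negSucc (nat_lit 1724909486959427009787)]]]]]]]]]]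

/-- A coefficient. -/
noncomputable def sr0_m3_9_1 : MP 10 :=
  [[[[[[[],[[[[Int.ofNat (nat_lit 105122872146312999308)]]]]]],[[[[[[Int.negSucc (nat_lit 20029553885794875383)]]]]]]]],[[[[[[[[Int.negSucc (nat_lit 219737295363357852673)]]]]]]]]],[[],[[[[[[[[Int.ofNat (nat_lit 447966830386590270692)]]]]]]]]]]

/-- A coefficient. -/
noncomputable def sr0_m3_9_2 : MP 10 :=
  [[[[[[[[[[Int.ofNat (nat_lit 1715154280903368266236)]]]]]]],[[[[[[[Int.negSucc (nat_lit 404401998115264191273)]]]]]]]]],[[[[[[[[[Int.ofNat (nat_lit 1362068769733823082050)]]]]]]]]]]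

/-- A coefficient. -/
noncomputable def sr0_m3_9_3 : MP 10 :=
  [[[],[[[[[[[[Int.negSucc (nat_lit 882329911844179145027)]]]]]]]]]]

/-- A coefficient. -/
noncomputable def sr0_m3_9_4 : MP 10 :=
  [[[[[[[[[[Int.ofNat (nat_lit 862625575726839843770)]]]]]]]]]]

/-- A coefficient. -/
noncomputable def sr0_m3_10_0 : MP 10 :=
  [[[[[[[[[[Int.negSucc (nat_lit 2525290607499344657661)]]]]],[[[[[Int.ofNat (nat_lit 78653871778341976128)]]]]]]],[[[[[[[Int.ofNat (nat_lit 390390325806801646670)]]]]]]]],[],[[[[[[[[Int.ofNat (nat_lit 26638152799677741314)]]]]]]]]],[[[[[[[[[Int.negSucc (nat_lit 425521639387818310957)]]]]]]]]],[[[[[[[[[Int.ofNat (nat_lit 229922812772037478692)]]]]]]]]]]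

/-- A coefficient. -/
noncomputable def sr0_m3_10_1 : MP 10 :=
  [[[[[],[[[[[[Int.ofNat (nat_lit 114578945244271297792)]]]]]]]],[[[[[[[[Int.ofNat (nat_lit 509356147435315942326)]]]]]]]]]]

/-- A coefficient. -/
noncomputable def sr0_m3_10_2 : MP 10 :=
  [[[[[[[[[[Int.negSucc (nat_lit 1285076911596470504597)]]]]]]]]],[[[[[[[[[Int.negSucc (nat_lit 832691227411263028467)]]]]]]]]]]

/-- A coefficient. -/
noncomputable def sr0_m3_10_3 : MP 10 :=
  []

/-- A coefficient. -/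
noncomputable def sr0_m3_10_4 : MP 10 :=
  [[[[[[[[[[Int.ofNat (nat_lit 606220563581437419130)]]]]]]]]]]

/-- A coefficient. -/
noncomputable def sr0_m3_11_0 : MP 10 :=
  [[[[[[[[[[Int.ofNat (nat_lit 2001707555104015803940)]]]]]]],[[[[[[[Int.negSucc (nat_lit 75129125796553107443)]]]]]]]]],[[[[[[[[[Int.ofNat (nat_lit 1419807988722944366078)]]]]]]]]]]

/-- An expanded part. -/
noncomputable def sr0_m3 : R12 :=
  [[],
   [],
   [],
   [],
   [sr0_m3_4_0, sr0_m3_4_1, sr0_m3_4_2, sr0_m3_4_3, sr0_m3_4_4, sr0_m3_4_5, sr0_m3_4_6, sr0_m3_4_7, sr0_m3_4_8],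
   [sr0_m3_5_0, sr0_m3_5_1, sr0_m3_5_2, sr0_m3_5_3, sr0_m3_5_4, sr0_m3_5_5, sr0_m3_5_6, sr0_m3_5_7, sr0_m3_5_8],
   [sr0_m3_6_0, sr0_m3_6_1, sr0_m3_6_2, sr0_m3_6_3, sr0_m3_6_4, sr0_m3_6_5, sr0_m3_6_6, sr0_m3_6_7, sr0_m3_6_8],
   [sr0_m3_7_0, sr0_m3_7_1, sr0_m3_7_2, sr0_m3_7_3, sr0_m3_7_4, sr0_m3_7_5, sr0_m3_7_6],
   [sr0_m3_8_0, sr0_m3_8_1, sr0_m3_8_2, sr0_m3_8_3, sr0_m3_8_4, sr0_m3_8_5, sr0_m3_8_6],
   [sr0_m3_9_0, sr0_m3_9_1, sr0_m3_9_2, sr0_m3_9_3, sr0_m3_9_4],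
   [sr0_m3_10_0, sr0_m3_10_1, sr0_m3_10_2, sr0_m3_10_3, sr0_m3_10_4],
   [sr0_m3_11_0]]

set_option maxRecDepth 100000 in
theorem sr0_check3 : partOk 0 sr0_rows 3 sr0_m3 = true :=
  Fast.partOk_of_fast (by decide +kernel)

end Vale.Agent.P142K.CertB
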