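import Vale.Agent.P142K.CertB.Sr0Rows
import Vale.Agent.P142K.Fast

/-!
# An expanded part of the certificate

Generated from a semidefinite program; only the checker is trusted.
-/

namespace Vale.Agent.P142K.CertB

open Vale.Agent.P142J (MP)

/-- A coefficient. -/
noncomputable def sr0_m4_8_0 : MP 10 :=
  []

/-- A coefficient. -/
noncomputable def sr0_m4_8_1 : MP 10 :=
  []

/-- A coefficient. -/
noncomputable def sr0_m4_8_2 : MP 10 :=
  [[[],[],[[[[[[[[Int.ofNat (nat_lit 3386180987372690652511)]]]]]]]]]]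

/-- A coefficient. -/
noncomputable def sr0_m4_8_3 : MP 10 :=
  [[[],[[[[[[[[Int.negSucc (nat_lit 635444145521049508715)]]]]]]]]]]

/-- A coefficient. -/
noncomputable def sr0_m4_8_4 : MP 10 :=
  [[[[[[[[[[Int.ofNat (nat_lit 8213801623542819991302)]]]]]]]]]]

/-- A coefficient. -/
noncomputable def sr0_m4_9_0 : MP 10 :=
  []

/-- A coefficient. -/
noncomputable def sr0_m4_9_1 : MP 10 :=
  [[[],[[[[[[[[Int.ofNat (nat_lit 1917923581065339521350)]]]]]]]]],[[],[[[[[[[[Int.ofNat (nat_lit 681587246686716018522)]]]]]]]]]]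

/-- A coefficient. -/
noncomputable def sr0_m4_9_2 : MP 10 :=
  [[[[[[[[[[Int.ofNat (nat_lit 890839185771123620236)]]]]]]]]],[[[[[[[[[Int.negSucc (nat_lit 382018035440119848461)]]]]]]]]]]

/-- A coefficient. -/
noncomputable def sr0_m4_9_3 : MP 10 :=
  [[[],[[[[[[[[Int.negSucc (nat_lit 6482929331049115911853)]]]]]]]]]]

/-- A coefficient. -/
noncomputable def sr0_m4_9_4 : MP 10 :=
  [[[[[[[[[[Int.negSucc (nat_lit 9082098718824186469583)]]]]]]]]]]

/-- A coefficient. -/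
noncomputable def sr0_m4_10_0 : MP 10 :=
  [[[[[[[[[[Int.ofNat (nat_lit 2903564771681791017714)]]]]]]]]],[[[[[[[[[Int.ofNat (nat_lit 2948024082086197672642)]]]]]]]]],[[[[[[[[[Int.ofNat (nat_lit 1023781834479178814071)]]]]]]]]]]

/-- A coefficient. -/
noncomputable def sr0_m4_10_1 : MP 10 :=
  [[[],[[[[[[[[Int.negSucc (nat_lit 111141286612381600941)]]]]]]]]]]

/-- A coefficient. -/
noncomputable def sr0_m4_10_2 : MP 10 :=
  [[[[[[[[[[Int.negSucc (nat_lit 1824642643278059480921)]]]]]]]]],[[[[[[[[[Int.negSucc (nat_lit 1273043693887638557957)]]]]]]]]]]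

/-- A coefficient. -/
noncomputable def sr0_m4_10_3 : MP 10 :=
  []

/-- A coefficient. -/
noncomputable def sr0_m4_10_4 : MP 10 :=
  [[[[[[[[[[Int.ofNat (nat_lit 10891541296228433507183)]]]]]]]]]]

/-- A coefficient. -/
noncomputable def sr0_m4_11_0 : MP 10 :=
  [[[[[[[[[[Int.ofNat (nat_lit 606721904472867115882)]]]]]]]]],[[[[[[[[[Int.negSucc (nat_lit 40318723768825388011)]]]]]]]]]]

/-- A coefficient. -/
noncomputable def sr0_m4_11_1 : MP 10 :=
  [[[],[[[[[[[[Int.negSucc (nat_lit 432089037143672276365)]]]]]]]]]]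

/-- A coefficient. -/
noncomputable def sr0_m4_11_2 : MP 10 :=
  [[[[[[[[[[Int.negSucc (nat_lit 1212031715787281461439)]]]]]]]]]]

/-- A coefficient. -/
noncomputable def sr0_m4_12_0 : MP 10 :=
  [[[[[[[[[[Int.negSucc (nat_lit 1108978956551332668364)]]]]]]]]],[[[[[[[[[Int.negSucc (nat_lit 1082086466788016091007)]]]]]]]]]]

/-- A coefficient. -/
noncomputable def sr0_m4_12_1 : MP 10 :=
  []

/-- A coefficient. -/
noncomputable def sr0_m4_12_2 : MP 10 :=
  [[[[[[[[[[Int.ofNat (nat_lit 1352688045211445059222)]]]]]]]]]]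

/-- A coefficient. -/
noncomputable def sr0_m4_13_0 : MP 10 :=
  [[[[[[[[[[Int.negSucc (nat_lit 961925732316000053179)]]]]]]]]]]

/-- A coefficient. -/
noncomputable def sr0_m4_14_0 : MP 10 :=
  [[[[[[[[[[Int.ofNat (nat_lit 590913384978315289373)]]]]]]]]]]

/-- An expanded part. -/
noncomputable def sr0_m4 : R12 :=
  [[],
   [],
   [],
   [],
   [],
   [],
   [],
   [],
   [sr0_m4_8_0, sr0_m4_8_1, sr0_m4_8_2, sr0_m4_8_3, sr0_m4_8_4],
   [sr0_m4_9_0, sr0_m4_9_1, sr0_m4_9_2, sr0_m4_9_3, sr0_m4_9_4],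
   [sr0_m4_10_0, sr0_m4_10_1, sr0_m4_10_2, sr0_m4_10_3, sr0_m4_10_4],
   [sr0_m4_11_0, sr0_m4_11_1, sr0_m4_11_2],
   [sr0_m4_12_0, sr0_m4_12_1, sr0_m4_12_2],
   [sr0_m4_13_0],
   [sr0_m4_14_0]]

set_option maxRecDepth 100000 in
theorem sr0_check4 : partOk 0 sr0_rows 4 sr0_m4 = true :=
  Fast.partOk_of_fast (by decide +kernel)

end Vale.Agent.P142K.CertB
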