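import Vale.Agent.P142K.CertB.Sr0Part0
import Vale.Agent.P142K.CertB.Sr0Part1
import Vale.Agent.P142K.CertB.Sr0Part2
import Vale.Agent.P142K.CertB.Sr0Part3
import Vale.Agent.P142K.CertB.Sr0Part4

/-!
# A weighted square of the certificate

Generated from a semidefinite program; only the checker is trusted.
-/

namespace Vale.Agent.P142K.CertB

open Vale.Agent.P142J (MP)

/-- An expanded block. -/
noncomputable def sr0 : Block :=
  { g := 0, rows := sr0_rows, mons := [sr0_m0, sr0_m1, sr0_m2, sr0_m3, sr0_m4] }

theorem sr0_parts : sr0.parts.length = 5 := rfl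

theorem sr0_ok : sr0.Ok := by
  refine ⟨sr0_parts.symm, fun j hj => ?_⟩
  rw [sr0_parts] at hj
  match j, hj with
  | 0, _ => exact sr0_check0
  | 1, _ => exact sr0_check1
  | 2, _ => exact sr0_check2
  | 3, _ => exact sr0_check3
  | 4, _ => exact sr0_check4
  | _ + 5, h => exact absurd h (by omega)

end Vale.Agent.P142K.CertB
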