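import Vale.Agent.P142K.CertB.Sr1Part0

/-!
# A weighted square of the certificate

Generated from a semidefinite program; only the checker is trusted.
-/

namespace Vale.Agent.P142K.CertB

open Vale.Agent.P142J (MP)

/-- An expanded block. -/
noncomputable def sr1 : Block :=
  { g := 1, rows := sr1_rows, mons := [sr1_m0] }

theorem sr1_parts : sr1.parts.length = 1 := rfl

theorem sr1_ok : sr1.Ok := by
  refine ⟨sr1_parts.symm, fun j hj => ?_⟩
  rw [sr1_parts] at hj
  match j, hj with
  | 0, _ => exact sr1_check0
  | _ + 1, h => exact absurd h (by omega)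

end Vale.Agent.P142K.CertB
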