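import Vale.Agent.P142K.CertB.Sr2Rows
import Vale.Agent.P142K.Fast

/-!
# An expanded part of the certificate

Generated from a semidefinite program; only the checker is trusted.
-/

namespace Vale.Agent.P142K.CertB

open Vale.Agent.P142J (MP)

/-- A coefficient. -/
noncomputable def sr2_m1_0_0 : MP 10 :=
  []

/-- A coefficient. -/
noncomputable def sr2_m1_0_1 : MP 10 :=
  []

/-- A coefficient. -/
noncomputable def sr2_m1_0_2 : MP 10 :=
  []

/-- A coefficient. -/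
noncomputable def sr2_m1_0_3 : MP 10 :=
  []

/-- A coefficient. -/
noncomputable def sr2_m1_0_4 : MP 10 :=
  []

/-- A coefficient. -/
noncomputable def sr2_m1_0_5 : MP 10 :=
  []

/-- A coefficient. -/
noncomputable def sr2_m1_0_6 : MP 10 :=
  [[[],[],[[[[[[[[Int.ofNat (nat_lit 702305793539854947309)]]]]]]]]]]

/-- A coefficient. -/
noncomputable def sr2_m1_0_7 : MP 10 :=
  [[[],[[[[[[[[Int.negSucc (nat_lit 1115427939434202252731)]]]]]]]]],[[],[[[[[[[[Int.ofNat (nat_lit 140253869452301202870)]]]]]]]]]]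

/-- A coefficient. -/
noncomputable def sr2_m1_0_8 : MP 10 :=
  [[[[[[[[[[Int.ofNat (nat_lit 1208489280633601962624)]]]]]]]],[],[[[[[[[[Int.negSucc (nat_lit 702305793539854947308)]]]]]]]]],[[[[[[[[[Int.ofNat (nat_lit 666349164141848796000)]]]]]]]]],[[[[[[[[[Int.ofNat (nat_lit 657329853991275596946)]]]]]]]]]]

/-- A coefficient. -/
noncomputable def sr2_m1_0_9 : MP 10 :=
  [[[],[[[[[[[[Int.ofNat (nat_lit 1717015376953958215640)]]]]]]]]],[[],[[[[[[[[Int.negSucc (nat_lit 140253869452301202869)]]]]]]]]]]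

/-- A coefficient. -/
noncomputable def sr2_m1_0_10 : MP 10 :=
  [[[[[[[[[[Int.negSucc (nat_lit 2606331485135458534719)]]]]]]]]],[[[[[[[[[Int.negSucc (nat_lit 574348920543322144163)]]]]]]]]],[[[[[[[[[Int.negSucc (nat_lit 657329853991275596945)]]]]]]]]]]

/-- A coefficient. -/
noncomputable def sr2_m1_0_11 : MP 10 :=
  [[[],[[[[[[[[Int.negSucc (nat_lit 601587437519755962907)]]]]]]]]]]

/-- A coefficient. -/
noncomputable def sr2_m1_0_12 : MP 10 :=
  [[[[[[[[[[Int.ofNat (nat_lit 2198805702890848752506)]]]]]]]]],[[[[[[[[[Int.negSucc (nat_lit 92000243598526651835)]]]]]]]]]]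

/-- A coefficient. -/
noncomputable def sr2_m1_0_13 : MP 10 :=
  []

/-- A coefficient. -/
noncomputable def sr2_m1_0_14 : MP 10 :=
  [[[[[[[[[[Int.negSucc (nat_lit 800963498388992180409)]]]]]]]]]]

/-- A coefficient. -/
noncomputable def sr2_m1_1_0 : MP 10 :=
  []

/-- A coefficient. -/
noncomputable def sr2_m1_1_1 : MP 10 :=
  []

/-- A coefficient. -/
noncomputable def sr2_m1_1_2 : MP 10 :=
  []

/-- A coefficient. -/
noncomputable def sr2_m1_1_3 : MP 10 :=
  [[[],[[[[[[[[Int.negSucc (nat_lit 49988551059336320867)]]],[[[Int.ofNat (nat_lit 222467744981303554)]]]]],[[[[[Int.negSucc (nat_lit 54328018907970377923)]]]]]]],[[[[[[[Int.ofNat (nat_lit 95236950516359303848)]]]]]]]],[[[],[[[[[[Int.ofNat (nat_lit 57017086179901056060)]]]]]]]],[[[[[[[[Int.negSucc (nat_lit 25689802632603632403)]]]]]]]]],[[],[[[[[[[[Int.ofNat (nat_lit 7020434317627959338)]]]]]]],[[[[[[[Int.ofNat (nat_lit 58654008154866801800)]]]]]]]]],[[],[[[[[[[[Int.ofNat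 (nat_lit 60855897805240321428)]]]]]]]]]]

/-- A coefficient. -/
noncomputable def sr2_m1_1_4 : MP 10 :=
  [[[[[[[[[[Int.ofNat (nat_lit 40552428768142640630)]]],[[[Int.negSucc (nat_lit 8036441508684361777)]]]]],[[[[[Int.ofNat (nat_lit 47068214430795051264)]]]]]]],[[[[[[[Int.negSucc (nat_lit 77606763967963086899)]]]]]]]],[[[[[],[[[[Int.negSucc (nat_lit 44259644493882043373)]]]]]],[[[[[[Int.negSucc (nat_lit 275874545626839109127)]]]]]]]],[[[[[[[[Int.ofNat (nat_lit 581385443961602973840)]]]]]]]]],[[[[[[[[[Int.negSucc (nat_lit 95717446300056310399)]]],[[[Int.ofNat (nat_lit 6601209478369873642)]]]]],[[[[[Int.negSucc (nat_lit 53706736877886682271)]]]]]]],[[[[[[[Int.ofNat (nat_lit 63379368502097680996)]]]]]]]],[[[],[[[[[[Int.ofNat (nat_lit 41843372631070148136)]]]]]]]],[[[[[[[[Int.negSucc (nat_lit 33148391402357091193)]]]]]]]]],[[[[[[[[[Int.negSucc (nat_lit 72029741119143562853)]]]]]]],[[[[[[[Int.ofNat (nat_lit 58813400518358544992)]]]]]]]]],[[[[[[[[[Int.ofNat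 (nat_lit 42396685050200290874)]]]]]]]]]]

/-- A coefficient. -/
noncomputable def sr2_m1_1_5 : MP 10 :=
  [[[[[[[],[[[[Int.ofNat (nat_lit 34365772076852012342)]]]]]],[[[[[[Int.ofNat (nat_lit 245205194400764110374)]]]]]]]],[[[[[[[[Int.negSucc (nat_lit 339143346113194963823)]]],[[[Int.negSucc (nat_lit 222467744981303553)]]]]],[[[[[Int.ofNat (nat_lit 54328018907970377924)]]]]]]],[[[[[[[Int.negSucc (nat_lit 400793003168921720159)]]]]]]]],[[[],[[[[[[Int.negSucc (nat_lit 57017086179901056059)]]]]]]]],[[[[[[[[Int.ofNat (nat_lit 25689802632603632404)]]]]]]]]],[[[[[[],[[[[Int.negSucc (nat_lit 17786828501876950013)]]]]]],[[[[[[Int.negSucc (nat_lit 100670545717011307237)]]]]]]]],[[[[[[[[Int.ofNat (nat_lit 584520064951549818580)]]]]]]],[[[[[[[Int.negSucc (nat_lit 58654008154866801799)]]]]]]]]],[[],[[[[[[[[Int.negSucc (nat_lit 97346722625958685899)]]]]]]]]]]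

/-- A coefficient. -/
noncomputable def sr2_m1_1_6 : MP 10 :=
  [[[[[[[[[[Int.ofNat (nat_lit 524745911834780339248)]]],[[[Int.ofNat (nat_lit 9471475408626994032)]]]]],[[[[[Int.negSucc (nat_lit 86884784667833614605)]]]]]]],[[[[[[[Int.ofNat (nat_lit 297661694922064095994)]]]]]]]],[[[[[],[[[[Int.ofNat (nat_lit 44259644493882043374)]]]]]],[[[[[[Int.ofNat (nat_lit 293196855747741875514)]]]]]]]],[[[[[[[[Int.negSucc (nat_lit 1902187061218648473561)]]]]]]]]],[[[[[[[[[Int.ofNat (nat_lit 449250036634096143064)]]],[[[Int.negSucc (nat_lit 6601209478369873641)]]]]],[[[[[Int.ofNat (nat_lit 53706736877886682272)]]]]]]],[[[[[[[Int.negSucc (nat_lit 77573225694936834767)]]]]]]]],[[[],[[[[[[Int.negSucc (nat_lit 41843372631070148135)]]]]]]]],[[[[[[[[Int.ofNat (nat_lit 33148391402357091194)]]]]]]]]],[[[[[[[[[Int.ofNat (nat_lit 449446555920513579464)]]]]]]],[[[[[[[Int.negSucc (nat_lit 58813400518358544991)]]]]]]]]],[[[[[[[[[Int.negSucc (nat_lit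 42396685050200290873)]]]]]]]]]]

/-- A coefficient. -/
noncomputable def sr2_m1_1_7 : MP 10 :=
  [[[[[[[],[[[[Int.negSucc (nat_lit 102214574483074898813)]]]]]],[[[[[[Int.negSucc (nat_lit 472020128052589616729)]]]]]]]],[[[[[[[[Int.ofNat (nat_lit 1415767823634304581198)]]]]]]],[[[[[[[Int.ofNat (nat_lit 305556052652562416312)]]]]]]]]],[[[[[[],[[[[Int.ofNat (nat_lit 17786828501876950014)]]]]]],[[[[[[Int.ofNat (nat_lit 100670545717011307238)]]]]]]]],[[[[[[[[Int.negSucc (nat_lit 1096315482146687054407)]]]]]]]]],[[],[[[[[[[[Int.ofNat (nat_lit 36490824820718364472)]]]]]]]]]]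

/-- A coefficient. -/
noncomputable def sr2_m1_1_8 : MP 10 :=
  [[[[[[[[[[Int.negSucc (nat_lit 1641930705670477523743)]]],[[[Int.negSucc (nat_lit 1435033899942632253)]]]]],[[[[[Int.ofNat (nat_lit 39816570237038563342)]]]]]]],[[[[[[[Int.negSucc (nat_lit 316637662929723744603)]]]]]]]],[[[],[[[[[[Int.negSucc (nat_lit 17322310120902766385)]]]]]]]],[[[[[[[[Int.ofNat (nat_lit 1320801617257045499722)]]]]]]]]],[[[[[[[[[Int.negSucc (nat_lit 128457562458435812139)]]]]]]],[[[[[[[Int.ofNat (nat_lit 14193857192839153772)]]]]]]]]],[[[[[[[[[Int.negSucc (nat_lit 377416814801370016609)]]]]]]]]]]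

/-- A coefficient. -/
noncomputable def sr2_m1_1_9 : MP 10 :=
  [[[[[[[],[[[[Int.ofNat (nat_lit 67848802406222886472)]]]]]],[[[[[[Int.ofNat (nat_lit 226814933651825506356)]]]]]]]],[[[[[[[[Int.negSucc (nat_lit 1155759728277213916377)]]]]]]]]],[[],[[[[[[[[Int.ofNat (nat_lit 504774982877509276490)]]]]]]]]]]

/-- A coefficient. -/
noncomputable def sr2_m1_1_10 : MP 10 :=
  [[[[[[[[[[Int.ofNat (nat_lit 1191125981996219051012)]]]]]]],[[[[[[[Int.ofNat (nat_lit 96582731975622735510)]]]]]]]]],[[[[[[[[[Int.negSucc (nat_lit 225075027875604020523)]]]]]]]]]]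

/-- A coefficient. -/
noncomputable def sr2_m1_1_11 : MP 10 :=
  [[[],[[[[[[[[Int.ofNat (nat_lit 129123801815440619872)]]]]]]]]]]

/-- A coefficient. -/
noncomputable def sr2_m1_1_12 : MP 10 :=
  [[[[[[[[[[Int.negSucc (nat_lit 114493616928664507145)]]]]]]]]]]

/-- A coefficient. -/
noncomputable def sr2_m1_2_0 : MP 10 :=
  [[[[[[[[[[Int.ofNat (nat_lit 110171127077875216459)]]],[[[Int.negSucc (nat_lit 6883521813328204863)]]],[[[Int.ofNat (nat_lit 3529044069999857771)]]]]],[[[[[Int.ofNat (nat_lit 60094605602876812442)]]],[[[Int.negSucc (nat_lit 11017176469389916849)]]]]],[[[[[Int.ofNat (nat_lit 36988076964267837329)]]]]]]],[[[[[[[Int.negSucc (nat_lit 175888962736531580325)]]],[[[Int.ofNat (nat_lit 6281999283894932150)]]]]],[[[[[Int.negSucc (nat_lit 48875260635796746823)]]]]]]],[[[[[[[Int.ofNat (nat_lit 129126002346221492488)]]]]]]]],[[[],[[[[[[Int.ofNat (nat_lit 2106276107422617444)]]],[[[Int.ofNat (nat_lit 987810593414374888)]]]]],[[[[[Int.negSucc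 (nat_lit 3826090491159789461)]]]]]]],[[],[[[[[[Int.ofNat (nat_lit 10653948478917558912)]]]]]]]],[[[[[[[[Int.negSucc (nat_lit 52388284224416719801)]]],[[[Int.negSucc (nat_lit 6480725250428834779)]]]]],[[[[[Int.negSucc (nat_lit 7472073301247856609)]]]]]],[],[[[[[[Int.ofNat (nat_lit 24868582840818933890)]]]]]]],[[[[[[[Int.ofNat (nat_lit 71706385676886874702)]]]]]]]],[[[],[[[[[[Int.negSucc (nat_lit 6360430166988589423)]]]]]]]],[[[[[[[[Int.ofNat (nat_lit 90716832008625528095)]]]]]]]]],[[[[[[[[[Int.ofNat (nat_lit 210073204663322863390)]]],[[[Int.ofNat (nat_lit 14407319125008329180)]]]]],[[[[[Int.negSucc (nat_lit 1335327068469410517)]]]]]]],[[[[[[[Int.negSucc (nat_lit 79682365505027758773)]]],[[[Int.negSucc (nat_lit 1853976126055264383)]]]]],[[[[[Int.negSucc (nat_lit 10687198858139397809)]]]]]]],[[[[[[[Int.ofNat (nat_lit 40055450749701604444)]]]]]]]],[[[],[[[[[[Int.ofNat (nat_lit 1623325122994808844)]]]]]]],[[],[[[[[[Int.ofNat (nat_lit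 19285565830492189340)]]]]]]]],[[[[[[[[Int.negSucc (nat_lit 18091465552939232373)]]]]]]],[[[[[[[Int.ofNat (nat_lit 10784485722318395710)]]]]]]]]],[[[[[[[[[Int.ofNat (nat_lit 240944220171163831440)]]],[[[Int.ofNat (nat_lit 5607803352886234080)]]]]],[[[[[Int.negSucc (nat_lit 27902965744867291137)]]]]]]],[[[[[[[Int.ofNat (nat_lit 64914190442434091754)]]]]]]],[[[[[[[Int.ofNat (nat_lit 21592166152010484486)]]]]]]]],[[[],[[[[[[Int.negSucc (nat_lit 6591099148996060143)]]]]]]]],[[[[[[[[Int.ofNat (nat_lit 53733981439971519566)]]]]]]]]],[[[[[[[[[Int.ofNat (nat_lit 215849564755587607074)]]]]]]],[[[[[[[Int.negSucc (nat_lit 487263185158509559)]]]]]]]]],[[[[[[[[[Int.ofNat (nat_lit 102460292662069104127)]]]]]]]]]]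

/-- A coefficient. -/
noncomputable def sr2_m1_2_1 : MP 10 :=
  [[[[[[[],[[[[Int.negSucc (nat_lit 17924746236058026913)]]],[[[Int.negSucc (nat_lit 7478477298301979903)]]]]],[[],[[[[Int.negSucc (nat_lit 4564930920389610791)]]]]]],[[[[[[Int.ofNat (nat_lit 88174066657316237026)]]],[[[Int.ofNat (nat_lit 135521735899368452)]]]]],[[[[[Int.ofNat (nat_lit 72199918990022196252)]]]]]]],[[[[],[[[[Int.ofNat (nat_lit 2257434335712698478)]]]]]],[[[[[[Int.negSucc (nat_lit 163854326825426070445)]]]]]]]],[[[[[[[[Int.negSucc (nat_lit 24835487801077605387)]]],[[[Int.ofNat (nat_lit 29857400367788873848)]]]]],[[[[[Int.negSucc (nat_lit 41701698589283775145)]]]]]],[[[],[[[[Int.ofNat (nat_lit 4006073501321855350)]]]]]],[[[[[[Int.negSucc (nat_lit 34592712873728850259)]]]]]]],[[[[[[[Int.ofNat (nat_lit 46882765901919765036)]]]]]]]],[[[[[],[[[[Int.ofNat (nat_lit 6002214945656235578)]]]]]],[[[[[[Int.ofNat (nat_lit 3381078081924867694)]]]]]]]],[[[[[[[[Int.negSucc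 (nat_lit 193900740184512553295)]]]]]]]]],[[[[[[],[[[[Int.negSucc (nat_lit 35272104793990545451)]]]]]],[[[[[[Int.negSucc (nat_lit 8650608571395220799)]]]]]]],[[[[],[[[[Int.negSucc (nat_lit 2260790287422777817)]]]]]],[[[[[[Int.negSucc (nat_lit 66931207020318924073)]]]]]]]],[[[[[[[[Int.ofNat (nat_lit 3278688998770019520)]]],[[[Int.ofNat (nat_lit 8588381283409701224)]]]]],[[[[[Int.negSucc (nat_lit 14337416274139487321)]]]]]]],[[[[[[[Int.ofNat (nat_lit 71743081324126582114)]]]]]]]],[[[],[[[[[[Int.negSucc (nat_lit 3319841990322722809)]]]]]]]],[[[[[[[[Int.ofNat (nat_lit 36156284360146601732)]]]]]]]]],[[[[[[],[[[[Int.negSucc (nat_lit 562603561323013519)]]]]]],[[[[[[Int.negSucc (nat_lit 83892400507259539913)]]]]]]]],[[[[[[[[Int.ofNat (nat_lit 34870032755978276060)]]]]]]],[[[[[[[Int.ofNat (nat_lit 14345058301436025950)]]]]]]]]],[[],[[[[[[[[Int.ofNat (nat_lit 54945806580357371826)]]]]]]]]]]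

/-- A coefficient. -/
noncomputable def sr2_m1_2_2 : MP 10 :=
  [[[[[[[[[[Int.negSucc (nat_lit 410968076140216044504)]]],[[[Int.negSucc (nat_lit 11363619780434781215)]]],[[[Int.negSucc (nat_lit 3529044069999857770)]]]],[],[[[[Int.ofNat (nat_lit 48135787132492003529)]]]]],[[[[[Int.negSucc (nat_lit 108893595327119733173)]]],[[[Int.ofNat (nat_lit 11017176469389916850)]]]]],[[[[[Int.negSucc (nat_lit 36988076964267837328)]]]]]],[[[],[[[[Int.ofNat (nat_lit 24685610082438391020)]]]]]],[[[[[[Int.ofNat (nat_lit 350675413225402005001)]]]]]]],[[[[[[[Int.ofNat (nat_lit 305824763711905931868)]]],[[[Int.ofNat (nat_lit 27582398001024072116)]]]]],[[[[[Int.negSucc (nat_lit 1315988825040326023)]]]]]]],[[[[[[[Int.negSucc (nat_lit 194496505419808670079)]]]]]]]],[[[[[],[[[[Int.negSucc (nat_lit 74588040010558657397)]]]]]],[[[[[[Int.negSucc (nat_lit 151292998671881233249)]]],[[[Int.negSucc (nat_lit 987810593414374887)]]]]],[[[[[Int.ofNat (nat_lit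 3826090491159789462)]]]]]]],[[],[[[[[[Int.ofNat (nat_lit 12857304821802790270)]]]]]]]],[[[[[[[[Int.ofNat (nat_lit 1068600068710713573526)]]],[[[Int.ofNat (nat_lit 6480725250428834780)]]]]],[[[[[Int.ofNat (nat_lit 7472073301247856610)]]]]]],[],[[[[[[Int.negSucc (nat_lit 24868582840818933889)]]]]]]],[[[[[[[Int.negSucc (nat_lit 163639617887587165115)]]]]]]]],[[[],[[[[[[Int.ofNat (nat_lit 6360430166988589424)]]]]]]]],[[[[[[[[Int.negSucc (nat_lit 90716832008625528094)]]]]]]]]],[[[[[[[[[Int.negSucc (nat_lit 941046158759640692017)]]],[[[Int.ofNat (nat_lit 91390149106525120)]]]]],[[[[[Int.negSucc (nat_lit 129914665822513005185)]]]]]]],[[[[[[[Int.ofNat (nat_lit 291139453600230572004)]]],[[[Int.ofNat (nat_lit 1853976126055264384)]]]]],[[[[[Int.ofNat (nat_lit 10687198858139397810)]]]]]]],[[[[[[[Int.negSucc (nat_lit 56032372727240430523)]]]]]]]],[[[[[],[[[[Int.ofNat (nat_lit 13741591189237268796)]]]]]],[[[[[[Int.negSucc (nat_lit 47182967565732109949)]]]]]]],[[],[[[[[[Int.negSucc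 (nat_lit 19285565830492189339)]]]]]]]],[[[[[[[[Int.ofNat (nat_lit 470392998230732816020)]]]]]]],[[[[[[[Int.negSucc (nat_lit 10784485722318395709)]]]]]]]]],[[[[[[[[[Int.negSucc (nat_lit 743657451317797359641)]]],[[[Int.negSucc (nat_lit 5607803352886234079)]]]]],[[[[[Int.ofNat (nat_lit 27902965744867291138)]]]]]]],[[[[[[[Int.negSucc (nat_lit 93303533688830906501)]]]]]]],[[[[[[[Int.negSucc (nat_lit 21592166152010484485)]]]]]]]],[[[],[[[[[[Int.ofNat (nat_lit 6591099148996060144)]]]]]]]],[[[[[[[[Int.ofNat (nat_lit 203837401916571512301)]]]]]]]]],[[[[[[[[[Int.negSucc (nat_lit 329424859039247285413)]]]]]]],[[[[[[[Int.ofNat (nat_lit 487263185158509560)]]]]]]]]],[[[[[[[[[Int.negSucc (nat_lit 102460292662069104126)]]]]]]]]]]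

/-- A coefficient. -/
noncomputable def sr2_m1_2_3 : MP 10 :=
  [[[[[[[],[[[[Int.ofNat (nat_lit 72553614419195458456)]]],[[[Int.ofNat (nat_lit 7478477298301979904)]]]]],[[],[[[[Int.ofNat (nat_lit 4564930920389610792)]]]]]],[[[[[[Int.negSucc (nat_lit 195528441839859945305)]]],[[[Int.negSucc (nat_lit 135521735899368451)]]]]],[[[[[Int.negSucc (nat_lit 72199918990022196251)]]]]]]],[[[[],[[[[Int.negSucc (nat_lit 15426640290400281655)]]]]]],[[[[[[Int.ofNat (nat_lit 192001542215979721164)]]]]]]]],[[[[[[[[Int.negSucc (nat_lit 737962883329815878009)]]],[[[Int.negSucc (nat_lit 66253004240469203629)]]]]],[[[[[Int.ofNat (nat_lit 134570265242608919294)]]]]]],[[[],[[[[Int.negSucc (nat_lit 4006073501321855349)]]]]]],[[[[[[Int.ofNat (nat_lit 34592712873728850260)]]]]]]],[[[[[[[Int.negSucc (nat_lit 220649785068028396361)]]]]]]]],[[[[[],[[[[Int.negSucc (nat_lit 6002214945656235577)]]]]]],[[[[[[Int.negSucc (nat_lit 46701832846464759071)]]]]]]]],[[[[[[[[Int.ofNat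 (nat_lit 65493856666068396334)]]]]]]]]],[[[[[[],[[[[Int.negSucc (nat_lit 68302387343539719969)]]]]]],[[[[[[Int.negSucc (nat_lit 310232478837416213781)]]]]]]],[[[[],[[[[Int.ofNat (nat_lit 2260790287422777818)]]]]]],[[[[[[Int.ofNat (nat_lit 66931207020318924074)]]]]]]]],[[[[[[[[Int.negSucc (nat_lit 245986627050133539561)]]],[[[Int.negSucc (nat_lit 8588381283409701223)]]]]],[[[[[Int.ofNat (nat_lit 14337416274139487322)]]]]]]],[[[[[[[Int.negSucc (nat_lit 126344578434217648871)]]]]]]]],[[[],[[[[[[Int.ofNat (nat_lit 3319841990322722810)]]]]]]]],[[[[[[[[Int.negSucc (nat_lit 36156284360146601731)]]]]]]]]],[[[[[[],[[[[Int.ofNat (nat_lit 562603561323013520)]]]]]],[[[[[[Int.ofNat (nat_lit 83892400507259539914)]]]]]]]],[[[[[[[[Int.negSucc (nat_lit 528198705239977417173)]]]]]]],[[[[[[[Int.negSucc (nat_lit 14345058301436025949)]]]]]]]]],[[],[[[[[[[[Int.negSucc (nat_lit 54945806580357371825)]]]]]]]]]]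

/-- A coefficient. -/
noncomputable def sr2_m1_2_4 : MP 10 :=
  [[[[[[[[[[Int.ofNat (nat_lit 2531815081663336298471)]]],[[[Int.ofNat (nat_lit 52602816617266112500)]]]],[],[[[[Int.negSucc (nat_lit 48135787132492003528)]]]]],[[[[[Int.ofNat (nat_lit 26692440110494024490)]]]]]],[[[],[[[[Int.negSucc (nat_lit 24685610082438391019)]]]]]],[[[[[[Int.negSucc (nat_lit 350675413225402005000)]]]]]]],[[[[[[[Int.negSucc (nat_lit 749380100247458644625)]]],[[[Int.negSucc (nat_lit 33864397284919004265)]]]]],[[[[[Int.ofNat (nat_lit 50191249460837072848)]]]]]]],[[[[[[[Int.ofNat (nat_lit 655508858551993581615)]]]]]]]],[[[[[],[[[[Int.ofNat (nat_lit 190825076562469828036)]]]]]],[[[[[[Int.ofNat (nat_lit 231778429044734582900)]]]]]]],[[],[[[[[[Int.negSucc (nat_lit 23511253300720349181)]]]]]]]],[[[[[[[[Int.negSucc (nat_lit 2889712212019921774957)]]]]]]],[[[[[[[Int.ofNat (nat_lit 91933232210700290414)]]]]]]]]],[[[[[[[[[Int.ofNat (nat_lit 3990686298445184760462)]]],[[[Int.negSucc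 (nat_lit 14498709274114854299)]]]]],[[[[[Int.ofNat (nat_lit 175408337014224250382)]]]]]]],[[[[[[[Int.negSucc (nat_lit 626609447351131195875)]]]]]]],[[[[[[[Int.ofNat (nat_lit 15976921977538826080)]]]]]]]],[[[[[],[[[[Int.negSucc (nat_lit 13741591189237268795)]]]]]],[[[[[[Int.ofNat (nat_lit 45559642442737301106)]]]]]]]],[[[[[[[[Int.negSucc (nat_lit 822117371994902444045)]]]]]]]]],[[[[[[[[[Int.ofNat (nat_lit 2882024110802502318830)]]]]]]],[[[[[[[Int.ofNat (nat_lit 28389343246396814748)]]]]]]]],[],[[[[[[[[Int.negSucc (nat_lit 257571383356543031866)]]]]]]]]],[[[[[[[[[Int.ofNat (nat_lit 64071850580891530434)]]]]]]]]]]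

/-- A coefficient. -/
noncomputable def sr2_m1_2_5 : MP 10 :=
  [[[[[[[],[[[[Int.negSucc (nat_lit 182440899608403924013)]]]]]],[[[[[[Int.ofNat (nat_lit 286057156232382711950)]]]]]]],[[[[],[[[[Int.ofNat (nat_lit 13169205954687583178)]]]]]],[[[[[[Int.negSucc (nat_lit 28147215390553650717)]]]]]]]],[[[[[[[[Int.ofNat (nat_lit 1041663380580100046604)]]],[[[Int.ofNat (nat_lit 36395603872680329782)]]]]],[[[[[Int.negSucc (nat_lit 92868566653325144147)]]]]]]],[[[[[[[Int.ofNat (nat_lit 820807964631075492550)]]]]]]]],[[[],[[[[[[Int.ofNat (nat_lit 43320754764539891378)]]]]]]]],[[[[[[[[Int.ofNat (nat_lit 128406883518444156962)]]]]]]]]],[[[[[[],[[[[Int.ofNat (nat_lit 103574492137530265422)]]]]]],[[[[[[Int.ofNat (nat_lit 343459043194675649324)]]]]]]]],[[[[[[[[Int.negSucc (nat_lit 320448843371681953213)]]]]]]],[[[[[[[Int.ofNat (nat_lit 54601497110091066758)]]]]]]]]],[[],[[[[[[[[Int.ofNat (nat_lit 493328672483999141114)]]]]]]]]]]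

/-- A coefficient. -/
noncomputable def sr2_m1_2_6 : MP 10 :=
  [[[[[[[[[[Int.negSucc (nat_lit 5047260249468265927040)]]],[[[Int.negSucc (nat_lit 34355675023503126419)]]]]],[[[[[Int.ofNat (nat_lit 59333332206210156316)]]]]]]],[[[[[[[Int.ofNat (nat_lit 400913031208748257742)]]]]]]],[[[[[[[Int.negSucc (nat_lit 590138355478406404022)]]]]]]]],[[[[[],[[[[Int.negSucc (nat_lit 116237036551911170637)]]]]]],[[[[[[Int.negSucc (nat_lit 82591706480275967093)]]]]]]]],[[[[[[[[Int.ofNat (nat_lit 3987436127617781083252)]]]]]]]]],[[[[[[[[[Int.negSucc (nat_lit 2869953138892594604867)]]]]],[[[[[Int.negSucc (nat_lit 44158344123241834677)]]]]]]],[[[[[[[Int.ofNat (nat_lit 415152359255928382646)]]]]]]]],[],[[[[[[[[Int.ofNat (nat_lit 369815839317108860400)]]]]]]]]],[[[[[[[[[Int.negSucc (nat_lit 2188405089011077384419)]]]]]]]]],[[[[[[[[[Int.ofNat (nat_lit 49503443702768147906)]]]]]]]]]]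

/-- A coefficient. -/
noncomputable def sr2_m1_2_7 : MP 10 :=
  [[[[[[[],[[[[Int.ofNat (nat_lit 127812031425266492472)]]]]]],[[[[[[Int.ofNat (nat_lit 14088680973928703640)]]]]]]]],[[[[[[[[Int.ofNat (nat_lit 429163170286182702660)]]]]]]],[[[[[[[Int.negSucc (nat_lit 647040945464966861223)]]]]]]]]],[[[[],[[[[[[Int.negSucc (nat_lit 24575955785864214741)]]]]]]]],[[[[[[[[Int.ofNat (nat_lit 422902911970744270386)]]]]]]]]]]

/-- A coefficient. -/
noncomputable def sr2_m1_2_8 : MP 10 :=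
  [[[[[[[[[[Int.ofNat (nat_lit 4422799459328521286693)]]]]],[[[[[Int.negSucc (nat_lit 37226782592461260073)]]]]]]],[[[[[[[Int.ofNat (nat_lit 218531268063336035342)]]]]]]]],[],[[[[[[[[Int.negSucc (nat_lit 2816241493624011109326)]]]]]]]]],[[[[[[[[[Int.negSucc (nat_lit 2165713639891933526287)]]]]]]]]],[[[[[[[[[Int.negSucc (nat_lit 848235644636067003153)]]]]]]]]]]

/-- A coefficient. -/
noncomputable def sr2_m1_2_9 : MP 10 :=
  [[[[[],[[[[[[Int.negSucc (nat_lit 192791462023767707309)]]]]]]]],[[[[[[[[Int.negSucc (nat_lit 194187677820942976041)]]]]]]]]]]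

/-- A coefficient. -/
noncomputable def sr2_m1_2_10 : MP 10 :=
  [[[[[[[[[[Int.negSucc (nat_lit 886994651330381673980)]]]]]]]]],[[[[[[[[[Int.ofNat (nat_lit 1017604026695285751486)]]]]]]]]]]

/-- A coefficient. -/
noncomputable def sr2_m1_2_11 : MP 10 :=
  []

/-- A coefficient. -/
noncomputable def sr2_m1_2_12 : MP 10 :=
  [[[[[[[[[[Int.negSucc (nat_lit 1331173265651606727033)]]]]]]]]]]

/-- A coefficient. -/
noncomputable def sr2_m1_3_0 : MP 10 :=
  [[[[[[[[[[Int.negSucc (nat_lit 284297739028017677901)]]],[[[Int.ofNat (nat_lit 7794929775458339070)]]]]],[[[[[Int.negSucc (nat_lit 80625588460496389417)]]],[[[Int.ofNat (nat_lit 2515344517501547804)]]]]],[[[[[Int.negSucc (nat_lit 57115740973990090569)]]]]]]],[[[[[[[Int.ofNat (nat_lit 406701541954021038726)]]],[[[Int.negSucc (nat_lit 18122444687629855289)]]]]],[[[[[Int.ofNat (nat_lit 68654046863269948968)]]]]]]],[[[[[[[Int.negSucc (nat_lit 345066642967505618673)]]]]]]]],[[[],[[[[[[Int.negSucc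 (nat_lit 23649507283953215527)]]]]],[[[[[Int.ofNat (nat_lit 496419375016602922)]]]]]]],[[],[[[[[[Int.ofNat (nat_lit 11231831058930526508)]]]]]]]],[[[[[[[[Int.ofNat (nat_lit 96251057688133694440)]]],[[[Int.ofNat (nat_lit 4830209553868834564)]]]]],[[[[[Int.ofNat (nat_lit 22873863416671900930)]]]]]]],[[[[[[[Int.negSucc (nat_lit 147599438469120501525)]]]]]]]],[[[],[[[[[[Int.negSucc (nat_lit 21256255391534918057)]]]]]]]],[[[[[[[[Int.negSucc (nat_lit 174144320013720403763)]]]]]]]]],[[[[[[[[[Int.negSucc (nat_lit 322735527185310340429)]]],[[[Int.negSucc (nat_lit 18944817985586349041)]]]]],[[[[[Int.ofNat (nat_lit 87479965115305664828)]]]]]]],[[[[[[[Int.negSucc (nat_lit 196337390490645114039)]]]]],[[[[[Int.ofNat (nat_lit 10120443706577100614)]]]]]]],[[[[[[[Int.ofNat (nat_lit 9514639620749184672)]]]]]]]],[[[],[[[[[[Int.negSucc (nat_lit 5610426130426105183)]]]]]]]],[[[[[[[[Int.negSucc (nat_lit 92396587558919791949)]]]]]]],[[[[[[[Int.negSucc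 (nat_lit 18060568539774736287)]]]]]]]]],[[[[[[[[[Int.negSucc (nat_lit 417130106389766701045)]]],[[[Int.negSucc (nat_lit 4451801710861392053)]]]]],[[[[[Int.ofNat (nat_lit 50743623485249168180)]]]]]]],[[[[[[[Int.negSucc (nat_lit 295832965346649104491)]]]]]]]],[[[],[[[[[[Int.negSucc (nat_lit 3302146719697540427)]]]]]]]],[[[[[[[[Int.negSucc (nat_lit 123539961002840283411)]]]]]]]]],[[[[[[[[[Int.negSucc (nat_lit 461339909422911818351)]]]]]]],[[[[[[[Int.negSucc (nat_lit 23308491018216137307)]]]]]]]]],[[[[[[[[[Int.negSucc (nat_lit 157589601428706009877)]]]]]]]]]]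

/-- A coefficient. -/
noncomputable def sr2_m1_3_1 : MP 10 :=
  [[[[[[[],[[[[Int.ofNat (nat_lit 15195824650300109684)]]]]],[[],[[[[Int.ofNat (nat_lit 8292598265386781278)]]]]]],[[[[[[Int.negSucc (nat_lit 79615203912526051827)]]],[[[Int.negSucc (nat_lit 15541277868431688407)]]]]],[[[[[Int.negSucc (nat_lit 102606543098719087771)]]]]]]],[[[[],[[[[Int.ofNat (nat_lit 53622571688334208034)]]]]]],[[[[[[Int.ofNat (nat_lit 272890357057234728486)]]]]]]]],[[[[[[[[Int.ofNat (nat_lit 100900479547545900678)]]],[[[Int.ofNat (nat_lit 1121655510401485672)]]]]],[[[[[Int.negSucc (nat_lit 81117845901808735115)]]]]]],[],[[[[[[Int.negSucc (nat_lit 57859835550024306191)]]]]]]],[[[[[[[Int.ofNat (nat_lit 339978204897972244)]]]]]]]],[[[[[],[[[[Int.ofNat (nat_lit 19931528433616253860)]]]]]],[[[[[[Int.ofNat (nat_lit 110926850000760138420)]]]]]]]],[[[[[[[[Int.ofNat (nat_lit 126878446847681793076)]]]]]]]]],[[[[[[],[[[[Int.ofNat (nat_lit 61007962435035925566)]]]]]],[[[[[[Int.ofNat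 (nat_lit 243010079338530164832)]]]]]]],[[],[[[[[[Int.ofNat (nat_lit 36614931442854471658)]]]]]]]],[[[[[[[[Int.ofNat (nat_lit 472593665565170229602)]]]]],[[[[[Int.negSucc (nat_lit 5555795472733661331)]]]]]]],[[[[[[[Int.negSucc (nat_lit 42774063001301653983)]]]]]]]],[],[[[[[[[[Int.ofNat (nat_lit 22774491137004487988)]]]]]]]]],[[[[[[],[[[[Int.ofNat (nat_lit 61368084462592767190)]]]]]],[[[[[[Int.ofNat (nat_lit 189703950973820268148)]]]]]]]],[[[[[[[[Int.ofNat (nat_lit 325279398375399499558)]]]]]]]]],[[],[[[[[[[[Int.ofNat (nat_lit 29802850105756157034)]]]]]]]]]]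

/-- A coefficient. -/
noncomputable def sr2_m1_3_2 : MP 10 :=
  [[[[[[[[[[Int.ofNat (nat_lit 1056178884548762519978)]]],[[[Int.negSucc (nat_lit 63722860092087924477)]]]]],[[[[[Int.ofNat (nat_lit 395066097395068175256)]]],[[[Int.negSucc (nat_lit 2515344517501547803)]]]]],[[[[[Int.ofNat (nat_lit 57115740973990090570)]]]]]],[[[],[[[[Int.negSucc (nat_lit 99253198970696986057)]]]]]],[[[[[[Int.negSucc (nat_lit 612848362988225422239)]]]]]]],[[[[[[[Int.negSucc (nat_lit 475101012390223328641)]]],[[[Int.ofNat (nat_lit 18122444687629855290)]]]]],[[[[[Int.negSucc (nat_lit 70092495387061283073)]]]]]]],[[[[[[[Int.ofNat (nat_lit 290691254689693752606)]]]]]]]],[[[[[],[[[[Int.ofNat (nat_lit 142994090167541143970)]]]]]],[[[[[[Int.negSucc (nat_lit 225622523510905642303)]]]]],[[[[[Int.negSucc (nat_lit 496419375016602921)]]]]]]],[[],[[[[[[Int.negSucc (nat_lit 11231831058930526507)]]]]]]]],[[[[[[[[Int.negSucc (nat_lit 1834432873410838686923)]]],[[[Int.negSucc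 (nat_lit 4830209553868834563)]]]]],[[[[[Int.negSucc (nat_lit 22873863416671900929)]]]]]]],[[[[[[[Int.ofNat (nat_lit 207372420665579475672)]]]]]]]],[[[],[[[[[[Int.ofNat (nat_lit 21256255391534918058)]]]]]]]],[[[[[[[[Int.ofNat (nat_lit 174144320013720403764)]]]]]]]]],[[[[[[[[[Int.ofNat (nat_lit 1053183814469228426910)]]],[[[Int.ofNat (nat_lit 1717642982884820286)]]]]],[[[[[Int.ofNat (nat_lit 93021390871389433960)]]]]]]],[[[[[[[Int.ofNat (nat_lit 320202853586609361850)]]]]],[[[[[Int.negSucc (nat_lit 10120443706577100613)]]]]]]],[[[[[[[Int.negSucc (nat_lit 9514639620749184671)]]]]]]]],[[[],[[[[[[Int.ofNat (nat_lit 34596849686655300902)]]]]]]]],[[[[[[[[Int.ofNat (nat_lit 181155220299988211250)]]]]]]],[[[[[[[Int.ofNat (nat_lit 18060568539774736288)]]]]]]]]],[[[[[[[[[Int.ofNat (nat_lit 360109296653950427574)]]],[[[Int.ofNat (nat_lit 4451801710861392054)]]]]],[[[[[Int.negSucc (nat_lit 50743623485249168179)]]]]]]],[[[[[[[Int.ofNat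 (nat_lit 392215797342537385756)]]]]]]]],[[[],[[[[[[Int.ofNat (nat_lit 3302146719697540428)]]]]]]]],[[[[[[[[Int.ofNat (nat_lit 123539961002840283412)]]]]]]]]],[[[[[[[[[Int.ofNat (nat_lit 409592295204236592866)]]]]]]],[[[[[[[Int.ofNat (nat_lit 23308491018216137308)]]]]]]]]],[[[[[[[[[Int.ofNat (nat_lit 157589601428706009878)]]]]]]]]]]

/-- A coefficient. -/
noncomputable def sr2_m1_3_3 : MP 10 :=
  [[[[[[[],[[[[Int.negSucc (nat_lit 169240358968813970615)]]]]],[[],[[[[Int.negSucc (nat_lit 8292598265386781277)]]]]]],[[[[[[Int.ofNat (nat_lit 792051357984462930616)]]],[[[Int.ofNat (nat_lit 15541277868431688408)]]]]],[[[[[Int.ofNat (nat_lit 102606543098719087772)]]]]]]],[[[[],[[[[Int.negSucc (nat_lit 53622571688334208033)]]]]]],[[[[[[Int.negSucc (nat_lit 400748201128604390505)]]]]]]]],[[[[[[[[Int.ofNat (nat_lit 768382122349555871870)]]],[[[Int.negSucc (nat_lit 1344123255382789225)]]]]],[[[[[Int.ofNat (nat_lit 151532381830365706926)]]]]]],[],[[[[[[Int.ofNat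 (nat_lit 57859835550024306192)]]]]]]],[[[[[[[Int.ofNat (nat_lit 163630925965142273246)]]]]]]]],[[[[[],[[[[Int.negSucc (nat_lit 19931528433616253859)]]]]]],[[[[[[Int.negSucc (nat_lit 167943936180661194479)]]]]]]]],[[[[[[[[Int.negSucc (nat_lit 2335441964724842063)]]]]]]]]],[[[[[[],[[[[Int.negSucc (nat_lit 12050401408886445439)]]]]]],[[[[[[Int.ofNat (nat_lit 520601313038425992032)]]]]]]],[[],[[[[[[Int.negSucc (nat_lit 36614931442854471657)]]]]]]]],[[[[[[[[Int.negSucc (nat_lit 2479436665557024955141)]]]]],[[[[[Int.ofNat (nat_lit 5555795472733661332)]]]]]]],[[[[[[[Int.negSucc (nat_lit 15879945153565147815)]]]]]]]],[],[[[[[[[[Int.negSucc (nat_lit 22774491137004487987)]]]]]]]]],[[[[[[],[[[[Int.negSucc (nat_lit 61368084462592767189)]]]]]],[[[[[[Int.negSucc (nat_lit 189703950973820268147)]]]]]]]],[[[[[[[[Int.negSucc (nat_lit 809553431745995299057)]]]]]]]]],[[],[[[[[[[[Int.negSucc (nat_lit 29802850105756157033)]]]]]]]]]]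

/-- A coefficient. -/
noncomputable def sr2_m1_3_4 : MP 10 :=
  [[[[[[[[[[Int.negSucc (nat_lit 6168308631541158853771)]]],[[[Int.ofNat (nat_lit 93293880682697947496)]]]]],[[[[[Int.negSucc (nat_lit 486236356923445511415)]]]]]],[[[],[[[[Int.ofNat (nat_lit 99253198970696986058)]]]]]],[[[[[[Int.ofNat (nat_lit 612848362988225422240)]]]]]]],[[[[[[[Int.negSucc (nat_lit 296588690023728910251)]]]]],[[[[[Int.ofNat (nat_lit 1438448523791334106)]]]]]]],[[[[[[[Int.ofNat (nat_lit 54375388277811866068)]]]]]]]],[[[[[],[[[[Int.negSucc (nat_lit 98734445673659100595)]]]]]],[[[[[[Int.ofNat (nat_lit 709540843302014183776)]]]]]]]],[[[[[[[[Int.ofNat (nat_lit 2744526831198520445062)]]]]]]],[[[[[[[Int.negSucc (nat_lit 59772982196458974145)]]]]]]]]],[[[[[[[[[Int.negSucc (nat_lit 5833041260271216543755)]]],[[[Int.ofNat (nat_lit 10625965524331655114)]]]]],[[[[[Int.negSucc (nat_lit 126794619108808416515)]]]]]]],[[[[[[[Int.negSucc (nat_lit 662257845541365598497)]]]]]]]],[[[],[[[[[[Int.negSucc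 (nat_lit 70829796187299343853)]]]]]]]],[[[[[[[[Int.negSucc (nat_lit 55610241338711328105)]]]]]]]]],[[[[[[[[[Int.negSucc (nat_lit 2891565600067023938541)]]]]]]],[[[[[[[Int.negSucc (nat_lit 155196232514246826255)]]]]]]]]],[[[[[[[[[Int.ofNat (nat_lit 9350929168474934612)]]]]]]]]]]

/-- A coefficient. -/
noncomputable def sr2_m1_3_5 : MP 10 :=
  [[[[[[[],[[[[Int.ofNat (nat_lit 247158625464332989178)]]]]]],[[[[[[Int.negSucc (nat_lit 1202522839942387408641)]]]]]]],[[],[[[[[[Int.ofNat (nat_lit 127857844071369662020)]]]]]]]],[[[[[[[[Int.ofNat (nat_lit 636625622965792447936)]]]]],[[[[[Int.negSucc (nat_lit 16086517020586593885)]]]]]]],[[[[[[[Int.ofNat (nat_lit 46348197966162866974)]]]]]]]],[],[[[[[[[[Int.negSucc (nat_lit 98853202250353318607)]]]]]]]]],[[[[[[],[[[[Int.negSucc (nat_lit 31170732524272530111)]]]]]],[[[[[[Int.negSucc (nat_lit 662940846659944849625)]]]]]]]],[[[[[[[[Int.ofNat (nat_lit 1707056749095490318286)]]]]]]]]],[[],[[[[[[[[Int.ofNat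 (nat_lit 459908960386073842544)]]]]]]]]]]

/-- A coefficient. -/
noncomputable def sr2_m1_3_6 : MP 10 :=
  [[[[[[[[[[Int.ofNat (nat_lit 13565729340034590085696)]]],[[[Int.negSucc (nat_lit 30764542757326632563)]]]]],[[[[[Int.ofNat (nat_lit 164544203795117237656)]]]]]]],[[[[[[[Int.ofNat (nat_lit 148499568835489900890)]]]]]]]],[[[],[[[[[[Int.negSucc (nat_lit 201716577001218983201)]]]]]]]],[[[[[[[[Int.negSucc (nat_lit 266928842180372926695)]]]]]]]]],[[[[[[[[[Int.ofNat (nat_lit 4478516680981514342930)]]]]]]],[[[[[[[Int.ofNat (nat_lit 489206871136142823464)]]]]]]]]],[[[[[[[[[Int.ofNat (nat_lit 2643199336120613758258)]]]]]]]]]]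

/-- A coefficient. -/
noncomputable def sr2_m1_3_7 : MP 10 :=
  [[[[[[[],[[[[Int.negSucc (nat_lit 59631060816448254115)]]]]]],[[[[[[Int.ofNat (nat_lit 471696425121511925836)]]]]]]]],[[[[[[[[Int.negSucc (nat_lit 7653330866789297409295)]]]]]]]]],[[],[[[[[[[[Int.ofNat (nat_lit 206000300187067946488)]]]]]]]]]]

/-- A coefficient. -/
noncomputable def sr2_m1_3_8 : MP 10 :=
  [[[[[[[[[[Int.negSucc (nat_lit 17084319959315127985759)]]]]]]],[[[[[[[Int.ofNat (nat_lit 170623156613926112594)]]]]]]]]],[[[[[[[[[Int.ofNat (nat_lit 141186120096196571558)]]]]]]]]]]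

/-- A coefficient. -/
noncomputable def sr2_m1_3_9 : MP 10 :=
  [[[],[[[[[[[[Int.ofNat (nat_lit 5689030965511938117738)]]]]]]]]]]

/-- A coefficient. -/
noncomputable def sr2_m1_3_10 : MP 10 :=
  [[[[[[[[[[Int.ofNat (nat_lit 9271306084068776327972)]]]]]]]]]]

/-- A coefficient. -/
noncomputable def sr2_m1_4_0 : MP 10 :=
  [[[[[[[[[[Int.ofNat (nat_lit 159745243560214557276)]]],[[[Int.ofNat (nat_lit 14570710778123856214)]]],[[[Int.negSucc (nat_lit 3529044069999857770)]]]]],[[[[[Int.negSucc (nat_lit 135571296141369829369)]]],[[[Int.ofNat (nat_lit 11017176469389916850)]]]]],[[[[[Int.negSucc (nat_lit 9057733586945837405)]]]]]]],[[[[[[[Int.negSucc (nat_lit 241758294045938867671)]]],[[[Int.ofNat (nat_lit 9789255578133346010)]]]]],[[[[[Int.ofNat (nat_lit 46494534825901115756)]]]]]]],[[[[[[[Int.ofNat (nat_lit 421619011924601388440)]]]]]]]],[[[],[[[[[[Int.negSucc (nat_lit 19814611182871817127)]]],[[[Int.negSucc (nat_lit 987810593414374887)]]]]],[[[[[Int.ofNat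 (nat_lit 3826090491159789462)]]]]]]],[[],[[[[[[Int.negSucc (nat_lit 32529764411508504823)]]]]]]]],[[[[[[[[Int.negSucc (nat_lit 208466862606892353)]]],[[[Int.ofNat (nat_lit 6480725250428834780)]]]]],[[[[[Int.negSucc (nat_lit 9856995740688597751)]]]]]],[],[[[[[[Int.negSucc (nat_lit 24868582840818933889)]]]]]]],[[[[[[[Int.ofNat (nat_lit 66726807544278208300)]]]]]]]],[[[],[[[[[[Int.ofNat (nat_lit 6360430166988589424)]]]]]]]],[[[[[[[[Int.ofNat (nat_lit 22870468999895900218)]]]]]]]]],[[[[[[[[[Int.negSucc (nat_lit 109810873295408224597)]]],[[[Int.ofNat (nat_lit 706839284131935022)]]]]],[[[[[Int.negSucc (nat_lit 201439187070035176745)]]]]]]],[[[[[[[Int.ofNat (nat_lit 549175013442976498818)]]],[[[Int.ofNat (nat_lit 1853976126055264384)]]]]],[[[[[Int.ofNat (nat_lit 10687198858139397810)]]]]]]],[[[[[[[Int.negSucc (nat_lit 89845743007780439319)]]]]]]]],[[[],[[[[[[Int.negSucc (nat_lit 43562113803456988971)]]]]]]],[[],[[[[[[Int.negSucc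 (nat_lit 19285565830492189339)]]]]]]]],[[[[[[[[Int.ofNat (nat_lit 228653130618988402496)]]]]]]],[[[[[[[Int.negSucc (nat_lit 10784485722318395709)]]]]]]]]],[[[[[[[[[Int.ofNat (nat_lit 67503191269502376350)]]],[[[Int.negSucc (nat_lit 5607803352886234079)]]]]],[[[[[Int.negSucc (nat_lit 8807202194769057693)]]]]]]],[[[[[[[Int.ofNat (nat_lit 239380584986826708758)]]]]]]],[[[[[[[Int.negSucc (nat_lit 21592166152010484485)]]]]]]]],[[[],[[[[[[Int.ofNat (nat_lit 6591099148996060144)]]]]]]]],[[[[[[[[Int.ofNat (nat_lit 81656601371860893834)]]]]]]]]],[[[[[[[[[Int.ofNat (nat_lit 100051042221526275600)]]]]]]],[[[[[[[Int.ofNat (nat_lit 487263185158509560)]]]]]]]]],[[[[[[[[[Int.ofNat (nat_lit 47768165129264303436)]]]]]]]]]]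

/-- A coefficient. -/
noncomputable def sr2_m1_4_1 : MP 10 :=
  [[[[[[[],[[[[Int.ofNat (nat_lit 70213049517018031460)]]],[[[Int.ofNat (nat_lit 7478477298301979904)]]]]],[[],[[[[Int.ofNat (nat_lit 4564930920389610792)]]]]]],[[[[[[Int.negSucc (nat_lit 138610238977254933577)]]],[[[Int.negSucc (nat_lit 135521735899368451)]]]]],[[[[[Int.negSucc (nat_lit 7679157242772254979)]]]]]]],[[[[],[[[[Int.negSucc (nat_lit 46616754228971034883)]]]]]],[[[[[[Int.negSucc (nat_lit 42839977711898650811)]]]]]]]],[[[[[[[[Int.negSucc (nat_lit 390544691484210963699)]]],[[[Int.negSucc (nat_lit 51755016807680685103)]]]]],[[[[[Int.ofNat (nat_lit 224445929664187142830)]]]]]],[[[],[[[[Int.negSucc (nat_lit 4006073501321855349)]]]]]],[[[[[[Int.ofNat (nat_lit 34592712873728850260)]]]]]]],[[[[[[[Int.negSucc (nat_lit 10133073177759539001)]]]]]]]],[[[[[],[[[[Int.negSucc (nat_lit 6002214945656235577)]]]]]],[[[[[[Int.ofNat (nat_lit 32485328051092358078)]]]]]]]],[[[[[[[[Int.ofNat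 (nat_lit 680532877112226361478)]]]]]]]]],[[[[[[],[[[[Int.ofNat (nat_lit 34447883144642070448)]]]]]],[[[[[[Int.negSucc (nat_lit 419659189444350613063)]]]]]]],[[[[],[[[[Int.ofNat (nat_lit 2260790287422777818)]]]]]],[[[[[[Int.ofNat (nat_lit 66931207020318924074)]]]]]]]],[[[[[[[[Int.negSucc (nat_lit 1190070220709347064543)]]],[[[Int.negSucc (nat_lit 8588381283409701223)]]]]],[[[[[Int.ofNat (nat_lit 14337416274139487322)]]]]]]],[[[[[[[Int.negSucc (nat_lit 26414927582479096883)]]]]]]]],[[[],[[[[[[Int.ofNat (nat_lit 3319841990322722810)]]]]]]]],[[[[[[[[Int.negSucc (nat_lit 36156284360146601731)]]]]]]]]],[[[[[[],[[[[Int.ofNat (nat_lit 562603561323013520)]]]]]],[[[[[[Int.negSucc (nat_lit 128252749571651595893)]]]]]]]],[[[[[[[[Int.negSucc (nat_lit 336235543841830460543)]]]]]]],[[[[[[[Int.negSucc (nat_lit 14345058301436025949)]]]]]]]]],[[],[[[[[[[[Int.negSucc (nat_lit 54945806580357371825)]]]]]]]]]]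

/-- A coefficient. -/
noncomputable def sr2_m1_4_2 : MP 10 :=
  [[[[[[[[[[Int.negSucc (nat_lit 578222105837241144122)]]],[[[Int.ofNat (nat_lit 89748896038019419118)]]]],[],[[[[Int.negSucc (nat_lit 48135787132492003528)]]]]],[[[[[Int.negSucc (nat_lit 192830357238599035025)]]]]],[[[[[Int.negSucc (nat_lit 27930343377321999922)]]]]]],[[[],[[[[Int.negSucc (nat_lit 24685610082438391019)]]]]]],[[[[[[Int.ofNat (nat_lit 97531235366686334513)]]]]]]],[[[[[[[Int.ofNat (nat_lit 215440071258917355746)]]],[[[Int.negSucc (nat_lit 49935652146947282425)]]]]],[[[[[Int.ofNat (nat_lit 52571975270732703916)]]]]]]],[[[[[[[Int.negSucc (nat_lit 398367663106501090119)]]]]]]]],[[[[[],[[[[Int.ofNat (nat_lit 78909601497272074)]]]]]],[[[[[[Int.ofNat (nat_lit 551879899767364980224)]]]]]]],[[],[[[[[[Int.negSucc (nat_lit 1635437368129403269)]]]]]]]],[[[[[[[[Int.ofNat (nat_lit 1747894957576067578819)]]]]],[[[[[Int.ofNat (nat_lit 17329069041936454362)]]]]]]],[[[[[[[Int.negSucc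 (nat_lit 46499961010464792587)]]]]]]]],[],[[[[[[[[Int.negSucc (nat_lit 113587301008521428312)]]]]]]]]],[[[[[[[[[Int.ofNat (nat_lit 1232372948727050975776)]]],[[[Int.negSucc (nat_lit 29612867683255118501)]]]]],[[[[[Int.ofNat (nat_lit 323646850867770392444)]]]]]]],[[[[[[[Int.negSucc (nat_lit 848302539998359514737)]]]]]]],[[[[[[[Int.ofNat (nat_lit 65767214235617660956)]]]]]]]],[[[[[],[[[[Int.negSucc (nat_lit 13741591189237268795)]]]]]],[[[[[[Int.ofNat (nat_lit 87498431123199481234)]]]]]]]],[[[[[[[[Int.negSucc (nat_lit 1445204825947699284427)]]]]]]]]],[[[[[[[[[Int.ofNat (nat_lit 429983947905287310132)]]]]],[[[[[Int.ofNat (nat_lit 36710167939636348832)]]]]]]],[[[[[[[Int.negSucc (nat_lit 275905432182863985763)]]]]]]]],[],[[[[[[[[Int.negSucc (nat_lit 392961966168375445266)]]]]]]]]],[[[[[[[[[Int.negSucc (nat_lit 366469547153379330635)]]]]]]]]],[[[[[[[[[Int.negSucc (nat_lit 150228457791333407562)]]]]]]]]]]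

/-- A coefficient. -/
noncomputable def sr2_m1_4_3 : MP 10 :=
  [[[[[[[],[[[[Int.negSucc (nat_lit 334513524242225606825)]]]]]],[[[[[[Int.negSucc (nat_lit 165681925334582927671)]]]]],[[[[[Int.negSucc (nat_lit 64520761747249941271)]]]]]]],[[[[],[[[[Int.ofNat (nat_lit 57528525847945919584)]]]]]],[[[[[[Int.ofNat (nat_lit 178547089146771070540)]]]]]]]],[[[[[[[[Int.negSucc (nat_lit 463379669138848646901)]]],[[[Int.ofNat (nat_lit 58293220312572141038)]]]]],[[[[[Int.negSucc (nat_lit 275612797728228511831)]]]]]]],[[[[[[[Int.negSucc (nat_lit 176909229065631541987)]]]]]]]],[[[],[[[[[[Int.ofNat (nat_lit 7454348631522665606)]]]]]]]],[[[[[[[[Int.negSucc (nat_lit 358225253409269651219)]]]]]]]]],[[[[[[],[[[[Int.ofNat (nat_lit 104398713786878740426)]]]]]],[[[[[[Int.ofNat (nat_lit 343781500600864737504)]]]]]]]],[[[[[[[[Int.ofNat (nat_lit 3192040585301211003708)]]]]]]],[[[[[[[Int.ofNat (nat_lit 9273343368443581528)]]]]]]]]],[[[[],[[[[[[Int.ofNat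 (nat_lit 212145150078911135808)]]]]]]]],[[[[[[[[Int.ofNat (nat_lit 794694183569851325598)]]]]]]]]]]

/-- A coefficient. -/
noncomputable def sr2_m1_4_4 : MP 10 :=
  [[[[[[[[[[Int.negSucc (nat_lit 2888800989892915188822)]]],[[[Int.negSucc (nat_lit 113544618432555210807)]]]]],[[[[[Int.ofNat (nat_lit 351451790702678442758)]]]]]],[],[[[[[[Int.negSucc (nat_lit 448206648592088339513)]]]]]]],[[[[[[[Int.ofNat (nat_lit 1454611836779568575872)]]]]]]],[[[[[[[Int.negSucc (nat_lit 677145203569141017238)]]]]]]]],[[[[[],[[[[Int.negSucc (nat_lit 41727906142849785313)]]]]]],[[[[[[Int.negSucc (nat_lit 467576548607733131827)]]]]]]]],[[[[[[[[Int.negSucc (nat_lit 1424521861754732155424)]]]]]]]]],[[[[[[[[[Int.negSucc (nat_lit 4735896953637798191427)]]]]],[[[[[Int.negSucc (nat_lit 33780687961525224153)]]]]]]],[[[[[[[Int.ofNat (nat_lit 582505163221136344110)]]]]]]]],[],[[[[[[[[Int.ofNat (nat_lit 1152157467520965391060)]]]]]]]]],[[[[[[[[[Int.negSucc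 (nat_lit 2816508594430982087101)]]]]]]]]],[[[[[[[[[Int.ofNat (nat_lit 213647678162693274208)]]]]]]]]]]

/-- A coefficient. -/
noncomputable def sr2_m1_4_5 : MP 10 :=
  [[[[[[[],[[[[Int.ofNat (nat_lit 355408384203394663210)]]]]]],[[[[[[Int.negSucc (nat_lit 154035826157102814793)]]]]]]]],[[[[[[[[Int.ofNat (nat_lit 211449208440691732402)]]]]]]],[[[[[[[Int.negSucc (nat_lit 333114389957386913943)]]]]]]]]],[[[[],[[[[[[Int.ofNat (nat_lit 378835429037828316200)]]]]]]]],[[[[[[[[Int.negSucc (nat_lit 1199384334116224965385)]]]]]]]]]]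

/-- A coefficient. -/
noncomputable def sr2_m1_4_6 : MP 10 :=
  [[[[[[[[[[Int.ofNat (nat_lit 3398066290289034021076)]]]]],[[[[[Int.negSucc (nat_lit 49465986180055833903)]]]]]]],[[[[[[[Int.negSucc (nat_lit 544364884895969506735)]]]]]]]],[],[[[[[[[[Int.negSucc (nat_lit 2229729195310994853054)]]]]]]]]],[[[[[[[[[Int.ofNat (nat_lit 535343527063071741582)]]]]]]]]],[[[[[[[[[Int.ofNat (nat_lit 10573795931001900546)]]]]]]]]]]

/-- A coefficient. -/
noncomputable def sr2_m1_4_7 : MP 10 :=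
  [[[[[],[[[[[[Int.ofNat (nat_lit 106014055920561436318)]]]]]]]],[[[[[[[[Int.ofNat (nat_lit 1558643761363945390646)]]]]]]]]]]

/-- A coefficient. -/
noncomputable def sr2_m1_4_8 : MP 10 :=
  [[[[[[[[[[Int.negSucc (nat_lit 2419148562076559749240)]]]]]]]]],[[[[[[[[[Int.ofNat (nat_lit 1059021821064751808428)]]]]]]]]]]

/-- A coefficient. -/
noncomputable def sr2_m1_4_9 : MP 10 :=
  []

/-- A coefficient. -/
noncomputable def sr2_m1_4_10 : MP 10 :=
  [[[[[[[[[[Int.negSucc (nat_lit 241046460149259237711)]]]]]]]]]]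

/-- A coefficient. -/
noncomputable def sr2_m1_5_0 : MP 10 :=
  [[[[[[[[[[Int.ofNat (nat_lit 22640285660045301414)]]],[[[Int.negSucc (nat_lit 45703413926418938797)]]]]],[[[[[Int.ofNat (nat_lit 297427126912666028290)]]],[[[Int.negSucc (nat_lit 2515344517501547803)]]]]],[[[[[Int.ofNat (nat_lit 57115740973990090570)]]]]]]],[[[[[[[Int.negSucc (nat_lit 259769869724546284903)]]],[[[Int.ofNat (nat_lit 18122444687629855290)]]]]],[[[[[Int.negSucc (nat_lit 95654596527720481479)]]]]]]],[[[[[[[Int.negSucc (nat_lit 185538507222177027231)]]]]]]]],[[[],[[[[[[Int.ofNat (nat_lit 103776460989644052024)]]]]],[[[[[Int.negSucc (nat_lit 496419375016602921)]]]]]]],[[],[[[[[[Int.negSucc (nat_lit 11231831058930526507)]]]]]]]],[[[[[[[[Int.negSucc (nat_lit 3683178352709132645)]]],[[[Int.negSucc (nat_lit 4830209553868834563)]]]]],[[[[[Int.negSucc (nat_lit 22873863416671900929)]]]]]]],[[[[[[[Int.ofNat (nat_lit 102315563180266511618)]]]]]]]],[[[],[[[[[[Int.ofNat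 (nat_lit 21256255391534918058)]]]]]]]],[[[[[[[[Int.ofNat (nat_lit 174144320013720403764)]]]]]]]]],[[[[[[[[[Int.negSucc (nat_lit 153542282587554477155)]]],[[[Int.ofNat (nat_lit 7091745528392579208)]]]]],[[[[[Int.ofNat (nat_lit 32760623403519350354)]]]]]]],[[[[[[[Int.negSucc (nat_lit 106921813173989835977)]]]]],[[[[[Int.negSucc (nat_lit 10120443706577100613)]]]]]]],[[[[[[[Int.negSucc (nat_lit 9514639620749184671)]]]]]]]],[[[],[[[[[[Int.ofNat (nat_lit 59074148362460152120)]]]]]]]],[[[[[[[[Int.ofNat (nat_lit 75099796528304830912)]]]]]]],[[[[[[[Int.ofNat (nat_lit 18060568539774736288)]]]]]]]]],[[[[[[[[[Int.ofNat (nat_lit 142443252860449379272)]]],[[[Int.ofNat (nat_lit 4451801710861392054)]]]]],[[[[[Int.negSucc (nat_lit 50743623485249168179)]]]]]]],[[[[[[[Int.ofNat (nat_lit 271345049549282674422)]]]]]]]],[[[],[[[[[[Int.ofNat (nat_lit 3302146719697540428)]]]]]]]],[[[[[[[[Int.ofNat (nat_lit 123539961002840283412)]]]]]]]]],[[[[[[[[[Int.ofNat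 (nat_lit 683923811720898335004)]]]]]]],[[[[[[[Int.ofNat (nat_lit 23308491018216137308)]]]]]]]]],[[[[[[[[[Int.ofNat (nat_lit 157589601428706009878)]]]]]]]]]]

/-- A coefficient. -/
noncomputable def sr2_m1_5_1 : MP 10 :=
  [[[[[[[],[[[[Int.negSucc (nat_lit 101437107101691005833)]]]]],[[],[[[[Int.negSucc (nat_lit 8292598265386781277)]]]]]],[[[[[[Int.ofNat (nat_lit 96549645120287343396)]]],[[[Int.ofNat (nat_lit 15541277868431688408)]]]]],[[[[[Int.ofNat (nat_lit 102606543098719087772)]]]]]]],[[[[],[[[[Int.negSucc (nat_lit 53622571688334208033)]]]]]],[[[[[[Int.negSucc (nat_lit 216204307648935348483)]]]]]]]],[[[[[[[[Int.ofNat (nat_lit 743788199412913523804)]]],[[[Int.negSucc (nat_lit 1121655510401485671)]]]]],[[[[[Int.ofNat (nat_lit 8628741872083634304)]]]]]],[],[[[[[[Int.ofNat (nat_lit 57859835550024306192)]]]]]]],[[[[[[[Int.negSucc (nat_lit 144467837346915078277)]]]]]]]],[[[[[],[[[[Int.negSucc (nat_lit 19931528433616253859)]]]]]],[[[[[[Int.negSucc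 (nat_lit 110926850000760138419)]]]]]]]],[[[[[[[[Int.negSucc (nat_lit 722943939569342719291)]]]]]]]]],[[[[[[],[[[[Int.negSucc (nat_lit 144533849228822096931)]]]]]],[[[[[[Int.negSucc (nat_lit 168461974773125337389)]]]]]]],[[],[[[[[[Int.negSucc (nat_lit 36614931442854471657)]]]]]]]],[[[[[[[[Int.ofNat (nat_lit 441471555060705524962)]]]]],[[[[[Int.ofNat (nat_lit 5555795472733661332)]]]]]]],[[[[[[[Int.ofNat (nat_lit 42774063001301653984)]]]]]]]],[],[[[[[[[[Int.negSucc (nat_lit 22774491137004487987)]]]]]]]]],[[[[[[],[[[[Int.negSucc (nat_lit 61368084462592767189)]]]]]],[[[[[[Int.negSucc (nat_lit 189703950973820268147)]]]]]]]],[[[[[[[[Int.negSucc (nat_lit 530811219770131086723)]]]]]]]]],[[],[[[[[[[[Int.negSucc (nat_lit 29802850105756157033)]]]]]]]]]]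

/-- A coefficient. -/
noncomputable def sr2_m1_5_2 : MP 10 :=
  [[[[[[[[[[Int.negSucc (nat_lit 162757649051789917115)]]],[[[Int.ofNat (nat_lit 89009434268277240956)]]]]],[[[[[Int.negSucc (nat_lit 455350800910647664455)]]]]]],[[[],[[[[Int.ofNat (nat_lit 99253198970696986058)]]]]]],[[[[[[Int.ofNat (nat_lit 612848362988225422240)]]]]]]],[[[[[[[Int.negSucc (nat_lit 437685927929193551979)]]]]],[[[[[Int.ofNat (nat_lit 28438998188241866618)]]]]]]],[[[[[[[Int.ofNat (nat_lit 584980538467494511974)]]]]]]]],[[[[[],[[[[Int.negSucc (nat_lit 142994090167541143969)]]]]]],[[[[[[Int.negSucc (nat_lit 277153848897691715047)]]]]]]]],[[[[[[[[Int.negSucc (nat_lit 3225728936953439156191)]]]]]]],[[[[[[[Int.negSucc (nat_lit 14489106907604984237)]]]]]]]]],[[[[[[[[[Int.negSucc (nat_lit 1327857448103941766691)]]],[[[Int.ofNat (nat_lit 29080247459895298590)]]]]],[[[[[Int.negSucc (nat_lit 300741944505520113969)]]]]]]],[[[[[[[Int.ofNat (nat_lit 97858981896987897746)]]]]]]]],[[[],[[[[[[Int.negSucc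 (nat_lit 82450145788263242653)]]]]]]]],[[[[[[[[Int.negSucc (nat_lit 71461841710453458261)]]]]]]]]],[[[[[[[[[Int.ofNat (nat_lit 106644150012639226370)]]]]]]],[[[[[[[Int.negSucc (nat_lit 71894916198521851193)]]]]]]]]],[[[[[[[[[Int.negSucc (nat_lit 170836288079311291165)]]]]]]]]]]

/-- A coefficient. -/
noncomputable def sr2_m1_5_3 : MP 10 :=
  [[[[[[[],[[[[Int.ofNat (nat_lit 520349437622121351512)]]]]]],[[[[[[Int.negSucc (nat_lit 954333056121737657895)]]]]]]],[[],[[[[[[Int.ofNat (nat_lit 71171794663070282018)]]]]]]]],[[[[[[[[Int.negSucc (nat_lit 3820477737821716422073)]]]]],[[[[[Int.ofNat (nat_lit 56402587009138506926)]]]]]]],[[[[[[[Int.negSucc (nat_lit 115079995544382443303)]]]]]]]],[],[[[[[[[[Int.ofNat (nat_lit 497212290471307607608)]]]]]]]]],[[[[[[],[[[[Int.ofNat (nat_lit 34568325767636691240)]]]]]],[[[[[[Int.negSucc (nat_lit 838159496942360984305)]]]]]]]],[[[[[[[[Int.ofNat (nat_lit 1977070486659183441440)]]]]]]]]],[[],[[[[[[[[Int.ofNat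 (nat_lit 628949956960087065238)]]]]]]]]]]

/-- A coefficient. -/
noncomputable def sr2_m1_5_4 : MP 10 :=
  [[[[[[[[[[Int.ofNat (nat_lit 7761151006419496200504)]]],[[[Int.negSucc (nat_lit 24502528658071056129)]]]]],[[[[[Int.ofNat (nat_lit 48836387081984914060)]]]]]]],[[[[[[[Int.ofNat (nat_lit 1302321266754922710534)]]]]]]]],[[[],[[[[[[Int.ofNat (nat_lit 261904659106543519568)]]]]]]]],[[[[[[[[Int.ofNat (nat_lit 3283612413903301160464)]]]]]]]]],[[[[[[[[[Int.ofNat (nat_lit 8034956271390845725690)]]]]]]],[[[[[[[Int.ofNat (nat_lit 556547772614986474154)]]]]]]]]],[[[[[[[[[Int.ofNat (nat_lit 3245679664174478143744)]]]]]]]]]]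

/-- A coefficient. -/
noncomputable def sr2_m1_5_5 : MP 10 :=
  [[[[[[[],[[[[Int.negSucc (nat_lit 407543484074887735017)]]]]]],[[[[[[Int.ofNat (nat_lit 469843952311725907020)]]]]]]]],[[[[[[[[Int.ofNat (nat_lit 1837663036013914827254)]]]]]]]]],[[],[[[[[[[[Int.negSucc (nat_lit 1190087824301273759803)]]]]]]]]]]

/-- A coefficient. -/
noncomputable def sr2_m1_5_6 : MP 10 :=
  [[[[[[[[[[Int.negSucc (nat_lit 12715075134971147754227)]]]]]]],[[[[[[[Int.negSucc (nat_lit 426532191552803958307)]]]]]]]]],[[[[[[[[[Int.negSucc (nat_lit 1396697733538801868133)]]]]]]]]]]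

/-- A coefficient. -/
noncomputable def sr2_m1_5_7 : MP 10 :=
  [[[],[[[[[[[[Int.ofNat (nat_lit 4811951359075047601600)]]]]]]]]]]

/-- A coefficient. -/
noncomputable def sr2_m1_5_8 : MP 10 :=
  [[[[[[[[[[Int.ofNat (nat_lit 10572980220315139516928)]]]]]]]]]]

/-- A coefficient. -/
noncomputable def sr2_m1_6_0 : MP 10 :=
  [[[[[[[[[[Int.negSucc (nat_lit 717318123773135225068)]]],[[[Int.ofNat (nat_lit 14662550888890625666)]]]]],[[[[[Int.negSucc (nat_lit 58092363710654890607)]]]]],[[[[[Int.negSucc (nat_lit 27930343377321999922)]]]]]]],[[[[[[[Int.ofNat (nat_lit 923837768818663340882)]]],[[[Int.negSucc (nat_lit 16071254862028278159)]]]]],[[[[[Int.ofNat (nat_lit 2380725809895631068)]]]]]]],[[[[[[[Int.negSucc (nat_lit 550745014270822880927)]]]]]]]],[[[],[[[[[[Int.negSucc (nat_lit 3533161669032690289)]]]]]]],[[],[[[[[[Int.ofNat (nat_lit 21875815932590945912)]]]]]]]],[[[[[[[[Int.negSucc (nat_lit 76857379887368668827)]]]]],[[[[[Int.ofNat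 (nat_lit 17329069041936454362)]]]]]]],[[[[[[[Int.negSucc (nat_lit 138433193221165083001)]]]]]]]],[],[[[[[[[[Int.negSucc (nat_lit 113587301008521428312)]]]]]]]]],[[[[[[[[[Int.negSucc (nat_lit 109267803878713744923)]]],[[[Int.negSucc (nat_lit 15114158409140264201)]]]]],[[[[[Int.ofNat (nat_lit 212021161452327434086)]]]]]]],[[[[[[[Int.negSucc (nat_lit 319931924611141719231)]]]]]]],[[[[[[[Int.ofNat (nat_lit 49790292258078834876)]]]]]]]],[[[],[[[[[[Int.ofNat (nat_lit 41938788680462180128)]]]]]]]],[[[[[[[[Int.negSucc (nat_lit 354094522438655306885)]]]]]]]]],[[[[[[[[[Int.negSucc (nat_lit 753957434849994146671)]]]]],[[[[[Int.ofNat (nat_lit 36710167939636348832)]]]]]]],[[[[[[[Int.negSucc (nat_lit 304294775429260800511)]]]]]]]],[],[[[[[[[[Int.negSucc (nat_lit 135390582811832413399)]]]]]]]]],[[[[[[[[[Int.negSucc (nat_lit 744160485553319405837)]]]]]]]]],[[[[[[[[[Int.negSucc (nat_lit 150228457791333407562)]]]]]]]]]]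

/-- A coefficient. -/
noncomputable def sr2_m1_6_1 : MP 10 :=
  [[[[[[[],[[[[Int.negSucc (nat_lit 47950601190239052867)]]]]]],[[[[[[Int.ofNat (nat_lit 125791326138723929160)]]]]],[[[[[Int.negSucc (nat_lit 64520761747249941271)]]]]]]],[[[[],[[[[Int.ofNat (nat_lit 44359319893258336406)]]]]]],[[[[[[Int.ofNat (nat_lit 206694304537324721258)]]]]]]]],[[[[[[[[Int.negSucc (nat_lit 382199657954354471867)]]],[[[Int.ofNat (nat_lit 21897616439891811256)]]]]],[[[[[Int.negSucc (nat_lit 182744231074903367683)]]]]]]],[[[[[[[Int.negSucc (nat_lit 36749692724160226033)]]]]]]]],[[[],[[[[[[Int.negSucc (nat_lit 35866406133017225771)]]]]]]]],[[[[[[[[Int.negSucc (nat_lit 486632136927713808181)]]]]]]]]],[[[[[[],[[[[Int.ofNat (nat_lit 824221649348475004)]]]]]],[[[[[[Int.ofNat (nat_lit 641045185229009385130)]]]]]]]],[[[[[[[[Int.ofNat (nat_lit 979154676409359449636)]]]]]]],[[[[[[[Int.negSucc (nat_lit 45328153741647485229)]]]]]]]]],[[[[],[[[[[[Int.ofNat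 (nat_lit 212145150078911135808)]]]]]]]],[[[[[[[[Int.ofNat (nat_lit 301365511085852184484)]]]]]]]]]]

/-- A coefficient. -/
noncomputable def sr2_m1_6_2 : MP 10 :=
  [[[[[[[[[[Int.ofNat (nat_lit 883851817944882700830)]]],[[[Int.negSucc (nat_lit 101538683262738361403)]]]]],[[[[[Int.ofNat (nat_lit 415364051712966553594)]]]]]],[],[[[[[[Int.negSucc (nat_lit 448206648592088339513)]]]]]]],[[[[[[[Int.negSucc (nat_lit 46712961060312430173)]]]]]]],[[[[[[[Int.negSucc (nat_lit 87006848090734613215)]]]]]]]],[[[[[],[[[[Int.ofNat (nat_lit 74509130409061385324)]]]]]],[[[[[[Int.negSucc (nat_lit 363743345382975274759)]]]]]]]],[[[[[[[[Int.negSucc (nat_lit 1665002280293575779156)]]]]]]]]],[[[[[[[[[Int.ofNat (nat_lit 349475001800190240894)]]]]],[[[[[Int.ofNat (nat_lit 1131008847893763702)]]]]]]],[[[[[[[Int.ofNat (nat_lit 17792080638400940652)]]]]]]]],[],[[[[[[[[Int.ofNat (nat_lit 925874485576462667424)]]]]]]]]],[[[[[[[[[Int.ofNat (nat_lit 744974224824522286438)]]]]]]]]],[[[[[[[[[Int.ofNat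 (nat_lit 592404113036130649466)]]]]]]]]]]

/-- A coefficient. -/
noncomputable def sr2_m1_6_3 : MP 10 :=
  [[[[[[[],[[[[Int.ofNat (nat_lit 223258650687407219060)]]]]]],[[[[[[Int.ofNat (nat_lit 557530711209827603732)]]]]]]]],[[[[[[[[Int.ofNat (nat_lit 6738447714150124473982)]]]]]]],[[[[[[[Int.ofNat (nat_lit 313926555507579947280)]]]]]]]]],[[[[],[[[[[[Int.ofNat (nat_lit 190675997610428979676)]]]]]]]],[[[[[[[[Int.negSucc (nat_lit 1554904260238052843253)]]]]]]]]]]

/-- A coefficient. -/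
noncomputable def sr2_m1_6_4 : MP 10 :=
  [[[[[[[[[[Int.ofNat (nat_lit 1868656639652252031718)]]]]],[[[[[Int.ofNat (nat_lit 23071836449921752798)]]]]]]],[[[[[[[Int.negSucc (nat_lit 1150102319387007264077)]]]]]]]],[],[[[[[[[[Int.negSucc (nat_lit 330541281394356503973)]]]]]]]]],[[[[[[[[[Int.negSucc (nat_lit 197634586505677316033)]]]]]]]]],[[[[[[[[[Int.negSucc (nat_lit 333702743038721030521)]]]]]]]]]]

/-- A coefficient. -/
noncomputable def sr2_m1_6_5 : MP 10 :=
  [[[[[],[[[[[[Int.negSucc (nat_lit 10607874247218360207)]]]]]]]],[[[[[[[[Int.negSucc (nat_lit 3148065655690318329857)]]]]]]]]]]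

/-- A coefficient. -/
noncomputable def sr2_m1_6_6 : MP 10 :=
  [[[[[[[[[[Int.ofNat (nat_lit 145780912582046656102)]]]]]]]]],[[[[[[[[[Int.ofNat (nat_lit 79441565278861274092)]]]]]]]]]]

/-- A coefficient. -/
noncomputable def sr2_m1_6_7 : MP 10 :=
  []

/-- A coefficient. -/
noncomputable def sr2_m1_6_8 : MP 10 :=
  [[[[[[[[[[Int.ofNat (nat_lit 399325284015771839234)]]]]]]]]]]

/-- A coefficient. -/
noncomputable def sr2_m1_7_0 : MP 10 :=
  [[[[[[[[[[Int.ofNat (nat_lit 831473864029994808612)]]],[[[Int.ofNat (nat_lit 47238727856983791502)]]]]],[[[[[Int.negSucc (nat_lit 176710347072050372829)]]]]]]],[[[[[[[Int.negSucc (nat_lit 295384240713403689499)]]]]],[[[[[Int.ofNat (nat_lit 27000549664450532512)]]]]]]],[[[[[[[Int.ofNat (nat_lit 530605150189682645906)]]]]]]]],[[[],[[[[[[Int.negSucc (nat_lit 112296068123216062841)]]]]]]]],[[[[[[[[Int.negSucc (nat_lit 152637227705723340527)]]]]]]],[[[[[[[Int.ofNat (nat_lit 45283875288853989908)]]]]]]]]],[[[[[[[[[Int.ofNat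 (nat_lit 618297050372096302356)]]],[[[Int.ofNat (nat_lit 11853072457193769834)]]]]],[[[[[Int.negSucc (nat_lit 120240588518825015181)]]]]]]],[[[[[[[Int.ofNat (nat_lit 233159641576863934788)]]]]]]]],[[[],[[[[[[Int.negSucc (nat_lit 53463722232034046935)]]]]]]]],[[[[[[[[Int.ofNat (nat_lit 17296791030614961038)]]]]]]]]],[[[[[[[[[Int.ofNat (nat_lit 196262566677293845728)]]]]]]],[[[[[[[Int.ofNat (nat_lit 24487915797366430070)]]]]]]]]],[[[[[[[[[Int.negSucc (nat_lit 222583902297986516651)]]]]]]]]]]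

/-- A coefficient. -/
noncomputable def sr2_m1_7_1 : MP 10 :=
  [[[[[[[],[[[[Int.ofNat (nat_lit 129512131691519101766)]]]]]],[[[[[[Int.ofNat (nat_lit 120758422340962268910)]]]]]]],[[],[[[[[[Int.negSucc (nat_lit 56686049408299380001)]]]]]]]],[[[[[[[[Int.negSucc (nat_lit 547281012136672920031)]]]]],[[[[[Int.ofNat (nat_lit 72489104029725100812)]]]]]]],[[[[[[[Int.ofNat (nat_lit 144127859142017106034)]]]]]]]],[],[[[[[[[[Int.ofNat (nat_lit 596065492721660926216)]]]]]]]]],[[[[[[],[[[[Int.ofNat (nat_lit 83525886793786171366)]]]]]],[[[[[[Int.negSucc (nat_lit 74548104565404827441)]]]]]]]],[[[[[[[[Int.negSucc (nat_lit 878950767630549147065)]]]]]]]]],[[],[[[[[[[[Int.ofNat (nat_lit 205531821394731587166)]]]]]]]]]]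

/-- A coefficient. -/
noncomputable def sr2_m1_7_2 : MP 10 :=
  [[[[[[[[[[Int.negSucc (nat_lit 830795514260237020461)]]],[[[Int.negSucc (nat_lit 4503263506710247593)]]]]],[[[[[Int.negSucc (nat_lit 115982437856213026295)]]]]]]],[[[[[[[Int.ofNat (nat_lit 477102119974509018784)]]]]]]]],[[[],[[[[[[Int.ofNat (nat_lit 478468040404384962730)]]]]]]]],[[[[[[[[Int.ofNat (nat_lit 4931412221711018365616)]]]]]]]]],[[[[[[[[[Int.ofNat (nat_lit 821236853495681321472)]]]]]]],[[[[[[[Int.ofNat (nat_lit 151634320759453819692)]]]]]]]]],[[[[[[[[[Int.ofNat (nat_lit 303487800104517844922)]]]]]]]]]]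

/-- A coefficient. -/
noncomputable def sr2_m1_7_3 : MP 10 :=
  [[[[[[[],[[[[Int.negSucc (nat_lit 323334470092344800045)]]]]]],[[[[[[Int.ofNat (nat_lit 87269597293315927062)]]]]]]]],[[[[[[[[Int.ofNat (nat_lit 1726704027148204392380)]]]]]]]]],[[],[[[[[[[[Int.negSucc (nat_lit 926427594606159037299)]]]]]]]]]]

/-- A coefficient. -/
noncomputable def sr2_m1_7_4 : MP 10 :=
  [[[[[[[[[[Int.negSucc (nat_lit 2856950521284606324141)]]]]]]],[[[[[[[Int.negSucc (nat_lit 470068441545766330423)]]]]]]]]],[[[[[[[[[Int.negSucc (nat_lit 1652528005012626768659)]]]]]]]]]]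

/-- A coefficient. -/
noncomputable def sr2_m1_7_5 : MP 10 :=
  [[[],[[[[[[[[Int.negSucc (nat_lit 615572490569949247183)]]]]]]]]]]

/-- A coefficient. -/
noncomputable def sr2_m1_7_6 : MP 10 :=
  [[[[[[[[[[Int.ofNat (nat_lit 1204902108831329667908)]]]]]]]]]]

/-- A coefficient. -/
noncomputable def sr2_m1_8_0 : MP 10 :=
  [[[[[[[[[[Int.ofNat (nat_lit 301286732846142487140)]]],[[[Int.negSucc (nat_lit 22349739853686277015)]]]]],[[[[[Int.ofNat (nat_lit 100391100261977120042)]]]]]]],[[[[[[[Int.negSucc (nat_lit 655688034798478250811)]]]]]]]],[[[],[[[[[[Int.ofNat (nat_lit 21241496744481889974)]]]]]]]],[[[[[[[[Int.ofNat (nat_lit 252928327249107168248)]]]]]]]]],[[[[[[[[[Int.ofNat (nat_lit 64161776979584415012)]]]]],[[[[[Int.negSucc (nat_lit 9246647313822846821)]]]]]]],[[[[[[[Int.negSucc (nat_lit 149560723326807020811)]]]]]]]],[],[[[[[[[[Int.ofNat (nat_lit 143532857372606136764)]]]]]]]]],[[[[[[[[[Int.ofNat (nat_lit 695171325263160299568)]]]]]]]]],[[[[[[[[[Int.ofNat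 (nat_lit 428259878576205523164)]]]]]]]]]]

/-- A coefficient. -/
noncomputable def sr2_m1_8_1 : MP 10 :=
  [[[[[[[],[[[[Int.negSucc (nat_lit 4337702090720951677)]]]]]],[[[[[[Int.negSucc (nat_lit 273083948544010041655)]]]]]]]],[[[[[[[[Int.ofNat (nat_lit 928843779374464854864)]]]]]]]]],[[[[],[[[[[[Int.negSucc (nat_lit 212735387213263551265)]]]]]]]],[[[[[[[[Int.ofNat (nat_lit 207636855301217595388)]]]]]]]]]]

/-- A coefficient. -/
noncomputable def sr2_m1_8_2 : MP 10 :=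
  [[[[[[[[[[Int.ofNat (nat_lit 318767639740557913132)]]]]],[[[[[Int.ofNat (nat_lit 68488994024687114122)]]]]]]],[[[[[[[Int.negSucc (nat_lit 237708643665416364071)]]]]]]]],[],[[[[[[[[Int.negSucc (nat_lit 1040527775982087647509)]]]]]]]]],[[[[[[[[[Int.negSucc (nat_lit 997288159756824229581)]]]]]]]]],[[[[[[[[[Int.negSucc (nat_lit 784843631468346697961)]]]]]]]]]]

/-- A coefficient. -/
noncomputable def sr2_m1_8_3 : MP 10 :=
  [[[[[],[[[[[[Int.negSucc (nat_lit 111684597466322694787)]]]]]]]],[[[[[[[[Int.negSucc (nat_lit 4430573599490272547545)]]]]]]]]]]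

/-- A coefficient. -/
noncomputable def sr2_m1_8_4 : MP 10 :=
  [[[[[[[[[[Int.negSucc (nat_lit 429118478647185165947)]]]]]]]]],[[[[[[[[[Int.ofNat (nat_lit 130024014507921868986)]]]]]]]]]]

/-- A coefficient. -/
noncomputable def sr2_m1_8_5 : MP 10 :=
  []

/-- A coefficient. -/
noncomputable def sr2_m1_8_6 : MP 10 :=
  [[[[[[[[[[Int.ofNat (nat_lit 110161976902416530322)]]]]]]]]]]

/-- A coefficient. -/
noncomputable def sr2_m1_9_0 : MP 10 :=
  [[[[[[[[[[Int.negSucc (nat_lit 569816410662022432123)]]],[[[Int.negSucc (nat_lit 9330243706023191773)]]]]],[[[[[Int.negSucc (nat_lit 40091191380119266041)]]]]]]],[[[[[[[Int.ofNat (nat_lit 148452568483928935678)]]]]]]]],[[[],[[[[[[Int.ofNat (nat_lit 32169114417525226346)]]]]]]]],[[[[[[[[Int.ofNat (nat_lit 60069348370298778734)]]]]]]]]],[[[[[[[[[Int.negSucc (nat_lit 142019240599231484769)]]]]]]],[[[[[[[Int.ofNat (nat_lit 70099562087771015230)]]]]]]]]],[[[[[[[[[Int.ofNat (nat_lit 78424286852023476046)]]]]]]]]]]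

/-- A coefficient. -/
noncomputable def sr2_m1_9_1 : MP 10 :=
  [[[[[[[],[[[[Int.negSucc (nat_lit 43270849240128205615)]]]]]],[[[[[[Int.negSucc (nat_lit 137692863548723560477)]]]]]]]],[[[[[[[[Int.negSucc (nat_lit 297407666823786504449)]]]]]]]]],[[],[[[[[[[[Int.negSucc (nat_lit 35114452995326607497)]]]]]]]]]]

/-- A coefficient. -/
noncomputable def sr2_m1_9_2 : MP 10 :=
  [[[[[[[[[[Int.negSucc (nat_lit 86486939502767960133)]]]]]]],[[[[[[[Int.ofNat (nat_lit 30504174645341004968)]]]]]]]]],[[[[[[[[[Int.ofNat (nat_lit 110430876497975691556)]]]]]]]]]]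

/-- A coefficient. -/
noncomputable def sr2_m1_9_3 : MP 10 :=
  [[[],[[[[[[[[Int.ofNat (nat_lit 132383314051500649082)]]]]]]]]]]

/-- A coefficient. -/
noncomputable def sr2_m1_9_4 : MP 10 :=
  [[[[[[[[[[Int.ofNat (nat_lit 17721589513630986098)]]]]]]]]]]

/-- A coefficient. -/
noncomputable def sr2_m1_10_0 : MP 10 :=
  [[[[[[[[[[Int.ofNat (nat_lit 146115020288902964194)]]]]],[[[[[Int.ofNat (nat_lit 33177953987170787494)]]]]]]],[[[[[[[Int.ofNat (nat_lit 149497522762285357928)]]]]]]]],[],[[[[[[[[Int.negSucc (nat_lit 123474196274714887263)]]]]]]]]],[[[[[[[[[Int.negSucc (nat_lit 55156304468785308879)]]]]]]]]],[[[[[[[[[Int.negSucc (nat_lit 249661301853832360685)]]]]]]]]]]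

/-- A coefficient. -/
noncomputable def sr2_m1_10_1 : MP 10 :=
  [[[[[],[[[[[[Int.ofNat (nat_lit 197728794725224809048)]]]]]]]],[[[[[[[[Int.negSucc (nat_lit 131263942134821813907)]]]]]]]]]]

/-- An expanded part. -/
noncomputable def sr2_m1 : R12 :=
  [[sr2_m1_0_0, sr2_m1_0_1, sr2_m1_0_2, sr2_m1_0_3, sr2_m1_0_4, sr2_m1_0_5, sr2_m1_0_6, sr2_m1_0_7, sr2_m1_0_8, sr2_m1_0_9, sr2_m1_0_10, sr2_m1_0_11, sr2_m1_0_12, sr2_m1_0_13, sr2_m1_0_14],
   [sr2_m1_1_0, sr2_m1_1_1, sr2_m1_1_2, sr2_m1_1_3, sr2_m1_1_4, sr2_m1_1_5, sr2_m1_1_6, sr2_m1_1_7, sr2_m1_1_8, sr2_m1_1_9, sr2_m1_1_10, sr2_m1_1_11, sr2_m1_1_12],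
   [sr2_m1_2_0, sr2_m1_2_1, sr2_m1_2_2, sr2_m1_2_3, sr2_m1_2_4, sr2_m1_2_5, sr2_m1_2_6, sr2_m1_2_7, sr2_m1_2_8, sr2_m1_2_9, sr2_m1_2_10, sr2_m1_2_11, sr2_m1_2_12],
   [sr2_m1_3_0, sr2_m1_3_1, sr2_m1_3_2, sr2_m1_3_3, sr2_m1_3_4, sr2_m1_3_5, sr2_m1_3_6, sr2_m1_3_7, sr2_m1_3_8, sr2_m1_3_9, sr2_m1_3_10],
   [sr2_m1_4_0, sr2_m1_4_1, sr2_m1_4_2, sr2_m1_4_3, sr2_m1_4_4, sr2_m1_4_5, sr2_m1_4_6, sr2_m1_4_7, sr2_m1_4_8, sr2_m1_4_9, sr2_m1_4_10],
   [sr2_m1_5_0, sr2_m1_5_1, sr2_m1_5_2, sr2_m1_5_3, sr2_m1_5_4, sr2_m1_5_5, sr2_m1_5_6, sr2_m1_5_7, sr2_m1_5_8],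
   [sr2_m1_6_0, sr2_m1_6_1, sr2_m1_6_2, sr2_m1_6_3, sr2_m1_6_4, sr2_m1_6_5, sr2_m1_6_6, sr2_m1_6_7, sr2_m1_6_8],
   [sr2_m1_7_0, sr2_m1_7_1, sr2_m1_7_2, sr2_m1_7_3, sr2_m1_7_4, sr2_m1_7_5, sr2_m1_7_6],
   [sr2_m1_8_0, sr2_m1_8_1, sr2_m1_8_2, sr2_m1_8_3, sr2_m1_8_4, sr2_m1_8_5, sr2_m1_8_6],
   [sr2_m1_9_0, sr2_m1_9_1, sr2_m1_9_2, sr2_m1_9_3, sr2_m1_9_4],
   [sr2_m1_10_0, sr2_m1_10_1]]

set_option maxRecDepth 100000 in
theorem sr2_check1 : partOk 2 sr2_rows 1 sr2_m1 = true :=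
  Fast.partOk_of_fast (by decide +kernel)

end Vale.Agent.P142K.CertB
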