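import Vale.Agent.P142K.CertB.Sr2Rows
import Vale.Agent.P142K.Fast

/-!
# An expanded part of the certificate

Generated from a semidefinite program; only the checker is trusted.
-/

namespace Vale.Agent.P142K.CertB

open Vale.Agent.P142J (MP)

/-- A coefficient. -/
noncomputable def sr2_m2_4_0 : MP 10 :=
  []

/-- A coefficient. -/
noncomputable def sr2_m2_4_1 : MP 10 :=
  []

/-- A coefficient. -/
noncomputable def sr2_m2_4_2 : MP 10 :=
  []

/-- A coefficient. -/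
noncomputable def sr2_m2_4_3 : MP 10 :=
  []

/-- A coefficient. -/
noncomputable def sr2_m2_4_4 : MP 10 :=
  [[[[[[[[[[Int.ofNat (nat_lit 7296886983464663251195)]]]]]]]]],[[[[[[[[[Int.ofNat (nat_lit 5301046555078498015308)]]]]]]]]],[[[[[[[[[Int.ofNat (nat_lit 2988523487173207176695)]]]]]]]]]]

/-- A coefficient. -/
noncomputable def sr2_m2_4_5 : MP 10 :=
  []

/-- A coefficient. -/
noncomputable def sr2_m2_4_6 : MP 10 :=
  [[[[[[[[[[Int.negSucc (nat_lit 18168069728303554455348)]]]]]]]]],[[[[[[[[[Int.negSucc (nat_lit 5887712780792777226679)]]]]]]]]],[[[[[[[[[Int.negSucc (nat_lit 2988523487173207176694)]]]]]]]]]]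

/-- A coefficient. -/
noncomputable def sr2_m2_4_7 : MP 10 :=
  []

/-- A coefficient. -/
noncomputable def sr2_m2_4_8 : MP 10 :=
  [[[[[[[[[[Int.ofNat (nat_lit 24955032821965312196141)]]]]]]]]],[[[[[[[[[Int.ofNat (nat_lit 586666225714279211372)]]]]]]]]]]

/-- A coefficient. -/
noncomputable def sr2_m2_4_9 : MP 10 :=
  []

/-- A coefficient. -/
noncomputable def sr2_m2_4_10 : MP 10 :=
  [[[[[[[[[[Int.negSucc (nat_lit 14083850077126420991986)]]]]]]]]]]

/-- A coefficient. -/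
noncomputable def sr2_m2_5_0 : MP 10 :=
  []

/-- A coefficient. -/
noncomputable def sr2_m2_5_1 : MP 10 :=
  []

/-- A coefficient. -/
noncomputable def sr2_m2_5_2 : MP 10 :=
  [[[[[[[[[[Int.negSucc (nat_lit 202281043920574902445)]]]]]]],[[[[[[[Int.negSucc (nat_lit 198041256231144314693)]]]]]]]]],[[[[[[[[[Int.negSucc (nat_lit 857565759674450601261)]]]]]]],[[[[[[[Int.negSucc (nat_lit 98428886874344659813)]]]]]]]]],[[[[[[[[[Int.negSucc (nat_lit 181241702741987143171)]]]]]]]]]]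

/-- A coefficient. -/
noncomputable def sr2_m2_5_3 : MP 10 :=
  [[[],[[[[[[[[Int.ofNat (nat_lit 3584817211436919401482)]]]]]]]]],[[],[[[[[[[[Int.ofNat (nat_lit 629659285019024882182)]]]]]]]]]]

/-- A coefficient. -/
noncomputable def sr2_m2_5_4 : MP 10 :=
  [[[[[[[[[[Int.negSucc (nat_lit 5275970954181851954819)]]]]]]],[[[[[[[Int.ofNat (nat_lit 612454207781526929816)]]]]]]]]],[[[[[[[[[Int.ofNat (nat_lit 612558930642978038890)]]]]]]],[[[[[[[Int.ofNat (nat_lit 98428886874344659814)]]]]]]]]],[[[[[[[[[Int.ofNat (nat_lit 181241702741987143172)]]]]]]]]]]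

/-- A coefficient. -/
noncomputable def sr2_m2_5_5 : MP 10 :=
  [[[],[[[[[[[[Int.negSucc (nat_lit 3291775198533257413787)]]]]]]]]],[[],[[[[[[[[Int.negSucc (nat_lit 629659285019024882181)]]]]]]]]]]

/-- A coefficient. -/
noncomputable def sr2_m2_5_6 : MP 10 :=
  [[[[[[[[[[Int.ofNat (nat_lit 9019638888870977231072)]]]]]]],[[[[[[[Int.negSucc (nat_lit 414412951550382615121)]]]]]]]]],[[[[[[[[[Int.ofNat (nat_lit 245006829031472562372)]]]]]]]]]]

/-- A coefficient. -/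
noncomputable def sr2_m2_5_7 : MP 10 :=
  [[[],[[[[[[[[Int.negSucc (nat_lit 293042012903661987693)]]]]]]]]]]

/-- A coefficient. -/
noncomputable def sr2_m2_5_8 : MP 10 :=
  [[[[[[[[[[Int.negSucc (nat_lit 3541386890768550373805)]]]]]]]]]]

/-- A coefficient. -/
noncomputable def sr2_m2_6_0 : MP 10 :=
  [[[[[[[[[[Int.ofNat (nat_lit 1133622516845175906456)]]]]]]],[[[[[[[Int.negSucc (nat_lit 150823997411588142503)]]]]]]],[[[[[[[Int.ofNat (nat_lit 218537992935330365239)]]]]]]]]],[[[[[[[[[Int.ofNat (nat_lit 1915471699591166330168)]]]]]]],[[[[[[[Int.ofNat (nat_lit 104601940609523412186)]]]]]]]]],[[[[[[[[[Int.ofNat (nat_lit 1140788801964800541329)]]]]]]]]]]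

/-- A coefficient. -/
noncomputable def sr2_m2_6_1 : MP 10 :=
  [[[],[[[[[[[[Int.negSucc (nat_lit 611661373295565896347)]]]]]]],[[[[[[[Int.ofNat (nat_lit 77360381221576241714)]]]]]]]]],[[],[[[[[[[[Int.negSucc (nat_lit 468585830526716734183)]]]]]]]]]]

/-- A coefficient. -/
noncomputable def sr2_m2_6_2 : MP 10 :=
  [[[[[[[[[[Int.negSucc (nat_lit 1102256418430468568449)]]]]]]],[[[[[[[Int.ofNat (nat_lit 345644128260288765332)]]]]]]],[[[[[[[Int.negSucc (nat_lit 218537992935330365238)]]]]]]]],[],[[[[[[[[Int.ofNat (nat_lit 2757602200489123881338)]]]]]]]]],[[[[[[[[[Int.ofNat (nat_lit 153467317759248075260)]]]]]]],[[[[[[[Int.negSucc (nat_lit 104601940609523412185)]]]]]]]]],[[[[[[[[[Int.negSucc (nat_lit 665008208345245955542)]]]]]]]]]]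

/-- A coefficient. -/
noncomputable def sr2_m2_6_3 : MP 10 :=
  [[[],[[[[[[[[Int.ofNat (nat_lit 1453618372466191556396)]]]]]]],[[[[[[[Int.negSucc (nat_lit 77360381221576241713)]]]]]]]]],[[],[[[[[[[[Int.ofNat (nat_lit 468585830526716734184)]]]]]]]]]]

/-- A coefficient. -/
noncomputable def sr2_m2_6_4 : MP 10 :=
  [[[[[[[[[[Int.negSucc (nat_lit 4682371742429542582735)]]]]]]],[[[[[[[Int.negSucc (nat_lit 194820130848700622827)]]]]]]]],[],[[[[[[[[Int.negSucc (nat_lit 2757602200489123881337)]]]]]]]]],[[[[[[[[[Int.negSucc (nat_lit 13093178574527174121789)]]]]]]]]],[[[[[[[[[Int.negSucc (nat_lit 3464304080792761762480)]]]]]]]]]]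

/-- A coefficient. -/
noncomputable def sr2_m2_6_5 : MP 10 :=
  [[[],[[[[[[[[Int.negSucc (nat_lit 841956999170625660047)]]]]]]]]]]

/-- A coefficient. -/
noncomputable def sr2_m2_6_6 : MP 10 :=
  [[[[[[[[[[Int.ofNat (nat_lit 9804116502593830043057)]]]]]]]]],[[[[[[[[[Int.ofNat (nat_lit 6309859227812540912426)]]]]]]]]]]

/-- A coefficient. -/
noncomputable def sr2_m2_6_7 : MP 10 :=
  []

/-- A coefficient. -/
noncomputable def sr2_m2_6_8 : MP 10 :=
  [[[[[[[[[[Int.negSucc (nat_lit 15662665174331187837354)]]]]]]]]]]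

/-- A coefficient. -/
noncomputable def sr2_m2_7_0 : MP 10 :=
  [[[[[[[[[[Int.negSucc (nat_lit 1562744146011635878671)]]]]]]],[[[[[[[Int.negSucc (nat_lit 313532239717490458709)]]]]]]]]],[[[[[[[[[Int.negSucc (nat_lit 2955966380235234027327)]]]]]]],[[[[[[[Int.negSucc (nat_lit 164274555370878252969)]]]]]]]]],[[[[[[[[[Int.negSucc (nat_lit 1310011121229926598621)]]]]]]]]]]

/-- A coefficient. -/
noncomputable def sr2_m2_7_1 : MP 10 :=
  [[[],[[[[[[[[Int.ofNat (nat_lit 1168449026874874587690)]]]]]]]]],[[],[[[[[[[[Int.ofNat (nat_lit 531396845171072379122)]]]]]]]]]]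

/-- A coefficient. -/
noncomputable def sr2_m2_7_2 : MP 10 :=
  [[[[[[[[[[Int.ofNat (nat_lit 2556457906857170194174)]]]]]]],[[[[[[[Int.ofNat (nat_lit 533764143500006363724)]]]]]]]]],[[[[[[[[[Int.ofNat (nat_lit 2977392746805460128216)]]]]]]],[[[[[[[Int.ofNat (nat_lit 262703442245222912784)]]]]]]]]],[[[[[[[[[Int.ofNat (nat_lit 1491252823971913741794)]]]]]]]]]]

/-- A coefficient. -/
noncomputable def sr2_m2_7_3 : MP 10 :=
  [[[],[[[[[[[[Int.negSucc (nat_lit 11383510067062170852091)]]]]]]]]],[[],[[[[[[[[Int.negSucc (nat_lit 1161056130190097261303)]]]]]]]]]]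

/-- A coefficient. -/
noncomputable def sr2_m2_7_4 : MP 10 :=
  [[[[[[[[[[Int.negSucc (nat_lit 7760083852765796754679)]]]]]]],[[[[[[[Int.negSucc (nat_lit 436603599101754205441)]]]]]]]]],[[[[[[[[[Int.ofNat (nat_lit 1081146222135697062746)]]]]]]]]]]

/-- A coefficient. -/
noncomputable def sr2_m2_7_5 : MP 10 :=
  [[[],[[[[[[[[Int.ofNat (nat_lit 6337201815846714875226)]]]]]]]]]]

/-- A coefficient. -/
noncomputable def sr2_m2_7_6 : MP 10 :=
  [[[[[[[[[[Int.ofNat (nat_lit 8905516243174713825084)]]]]]]]]]]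

/-- A coefficient. -/
noncomputable def sr2_m2_8_0 : MP 10 :=
  [[[[[[[[[[Int.negSucc (nat_lit 676597155899912778453)]]]]]]],[[[[[[[Int.ofNat (nat_lit 272641235588760641604)]]]]]]],[[[[[[[Int.negSucc (nat_lit 218537992935330365238)]]]]]]]]],[[[[[[[[[Int.negSucc (nat_lit 623724797240659310423)]]]]]]],[[[[[[[Int.negSucc (nat_lit 104601940609523412185)]]]]]]]]],[[[[[[[[[Int.negSucc (nat_lit 395863381596685813456)]]]]]]]]]]

/-- A coefficient. -/
noncomputable def sr2_m2_8_1 : MP 10 :=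
  [[[],[[[[[[[[Int.ofNat (nat_lit 143728065456227925688)]]]]]]],[[[[[[[Int.negSucc (nat_lit 77360381221576241713)]]]]]]]]],[[],[[[[[[[[Int.ofNat (nat_lit 468585830526716734184)]]]]]]]]]]

/-- A coefficient. -/
noncomputable def sr2_m2_8_2 : MP 10 :=
  [[[[[[[[[[Int.negSucc (nat_lit 1305517141112310713733)]]]]]]],[[[[[[[Int.negSucc (nat_lit 316637369025873121927)]]]]]]]],[],[[[[[[[[Int.negSucc (nat_lit 2757602200489123881337)]]]]]]]]],[[[[[[[[[Int.negSucc (nat_lit 4363751514095319365515)]]]]]]]]],[[[[[[[[[Int.negSucc (nat_lit 1220706013987669313657)]]]]]]]]]]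

/-- A coefficient. -/
noncomputable def sr2_m2_8_3 : MP 10 :=
  [[[],[[[[[[[[Int.negSucc (nat_lit 374023691331287689387)]]]]]]]]]]

/-- A coefficient. -/
noncomputable def sr2_m2_8_4 : MP 10 :=
  [[[[[[[[[[Int.ofNat (nat_lit 9662980820638411350604)]]]]]]]]],[[[[[[[[[Int.ofNat (nat_lit 6726258596492659641398)]]]]]]]]]]

/-- A coefficient. -/
noncomputable def sr2_m2_8_5 : MP 10 :=
  []

/-- A coefficient. -/
noncomputable def sr2_m2_8_6 : MP 10 :=
  [[[[[[[[[[Int.negSucc (nat_lit 13070551575540665954710)]]]]]]]]]]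

/-- A coefficient. -/
noncomputable def sr2_m2_9_0 : MP 10 :=
  [[[[[[[[[[Int.ofNat (nat_lit 2096335785271726892570)]]]]]]],[[[[[[[Int.ofNat (nat_lit 505488487234816732134)]]]]]]]]],[[[[[[[[[Int.ofNat (nat_lit 3951191049032460030124)]]]]]]],[[[[[[[Int.ofNat (nat_lit 164274555370878252970)]]]]]]]]],[[[[[[[[[Int.ofNat (nat_lit 1310011121229926598622)]]]]]]]]]]

/-- A coefficient. -/
noncomputable def sr2_m2_9_1 : MP 10 :=
  [[[],[[[[[[[[Int.negSucc (nat_lit 1422334324658076017987)]]]]]]]]],[[],[[[[[[[[Int.negSucc (nat_lit 531396845171072379121)]]]]]]]]]]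

/-- A coefficient. -/
noncomputable def sr2_m2_9_2 : MP 10 :=
  [[[[[[[[[[Int.negSucc (nat_lit 2435483619874278415593)]]]]]]],[[[[[[[Int.negSucc (nat_lit 214146895068697863743)]]]]]]]]],[[[[[[[[[Int.negSucc (nat_lit 159085275693001502421)]]]]]]]]]]

/-- A coefficient. -/
noncomputable def sr2_m2_9_3 : MP 10 :=
  [[[],[[[[[[[[Int.ofNat (nat_lit 6884129126533578293218)]]]]]]]]]]

/-- A coefficient. -/
noncomputable def sr2_m2_9_4 : MP 10 :=
  [[[[[[[[[[Int.ofNat (nat_lit 13557362397632492187530)]]]]]]]]]]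

/-- A coefficient. -/
noncomputable def sr2_m2_10_0 : MP 10 :=
  [[[[[[[[[[Int.negSucc (nat_lit 433476899114350629099)]]]]]]],[[[[[[[Int.negSucc (nat_lit 121817238177172499099)]]]]]]]]],[[[[[[[[[Int.negSucc (nat_lit 2284709297028115975355)]]]]]]]]],[[[[[[[[[Int.negSucc (nat_lit 744925420368114727871)]]]]]]]]]]

/-- A coefficient. -/
noncomputable def sr2_m2_10_1 : MP 10 :=
  [[[],[[[[[[[[Int.ofNat (nat_lit 467933307839337970660)]]]]]]]]]]

/-- A coefficient. -/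
noncomputable def sr2_m2_10_2 : MP 10 :=
  [[[[[[[[[[Int.ofNat (nat_lit 2014663082777063669376)]]]]]]]]],[[[[[[[[[Int.ofNat (nat_lit 1996027989072006895956)]]]]]]]]]]

/-- A coefficient. -/
noncomputable def sr2_m2_10_3 : MP 10 :=
  []

/-- A coefficient. -/
noncomputable def sr2_m2_10_4 : MP 10 :=
  [[[[[[[[[[Int.negSucc (nat_lit 12712822341191535029894)]]]]]]]]]]

/-- A coefficient. -/
noncomputable def sr2_m2_11_0 : MP 10 :=
  [[[[[[[[[[Int.negSucc (nat_lit 1495517370874832680403)]]]]]]],[[[[[[[Int.negSucc (nat_lit 191956247517326273423)]]]]]]]]],[[[[[[[[[Int.negSucc (nat_lit 995224668797226002795)]]]]]]]]]]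

/-- A coefficient. -/
noncomputable def sr2_m2_11_1 : MP 10 :=
  [[[],[[[[[[[[Int.ofNat (nat_lit 253885297783201430298)]]]]]]]]]]

/-- A coefficient. -/
noncomputable def sr2_m2_11_2 : MP 10 :=
  [[[[[[[[[[Int.ofNat (nat_lit 2072384995303969655146)]]]]]]]]]]

/-- A coefficient. -/
noncomputable def sr2_m2_12_0 : MP 10 :=
  [[[[[[[[[[Int.ofNat (nat_lit 567364923301479447360)]]]]]]]]],[[[[[[[[[Int.ofNat (nat_lit 992962394677608955612)]]]]]]]]]]

/-- A coefficient. -/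
noncomputable def sr2_m2_12_1 : MP 10 :=
  []

/-- A coefficient. -/
noncomputable def sr2_m2_12_2 : MP 10 :=
  [[[[[[[[[[Int.negSucc (nat_lit 1811999247988027866813)]]]]]]]]]]

/-- A coefficient. -/
noncomputable def sr2_m2_13_0 : MP 10 :=
  [[[[[[[[[[Int.ofNat (nat_lit 961925731614741666506)]]]]]]]]]]

/-- A coefficient. -/
noncomputable def sr2_m2_14_0 : MP 10 :=
  [[[[[[[[[[Int.negSucc (nat_lit 590913385132391946261)]]]]]]]]]]

/-- An expanded part. -/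
noncomputable def sr2_m2 : R12 :=
  [[],
   [],
   [],
   [],
   [sr2_m2_4_0, sr2_m2_4_1, sr2_m2_4_2, sr2_m2_4_3, sr2_m2_4_4, sr2_m2_4_5, sr2_m2_4_6, sr2_m2_4_7, sr2_m2_4_8, sr2_m2_4_9, sr2_m2_4_10],
   [sr2_m2_5_0, sr2_m2_5_1, sr2_m2_5_2, sr2_m2_5_3, sr2_m2_5_4, sr2_m2_5_5, sr2_m2_5_6, sr2_m2_5_7, sr2_m2_5_8],
   [sr2_m2_6_0, sr2_m2_6_1, sr2_m2_6_2, sr2_m2_6_3, sr2_m2_6_4, sr2_m2_6_5, sr2_m2_6_6, sr2_m2_6_7, sr2_m2_6_8],
   [sr2_m2_7_0, sr2_m2_7_1, sr2_m2_7_2, sr2_m2_7_3, sr2_m2_7_4, sr2_m2_7_5, sr2_m2_7_6],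
   [sr2_m2_8_0, sr2_m2_8_1, sr2_m2_8_2, sr2_m2_8_3, sr2_m2_8_4, sr2_m2_8_5, sr2_m2_8_6],
   [sr2_m2_9_0, sr2_m2_9_1, sr2_m2_9_2, sr2_m2_9_3, sr2_m2_9_4],
   [sr2_m2_10_0, sr2_m2_10_1, sr2_m2_10_2, sr2_m2_10_3, sr2_m2_10_4],
   [sr2_m2_11_0, sr2_m2_11_1, sr2_m2_11_2],
   [sr2_m2_12_0, sr2_m2_12_1, sr2_m2_12_2],
   [sr2_m2_13_0],
   [sr2_m2_14_0]]

set_option maxRecDepth 100000 in
theorem sr2_check2 : partOk 2 sr2_rows 2 sr2_m2 = true :=
  Fast.partOk_of_fast (by decide +kernel)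

end Vale.Agent.P142K.CertB
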