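import Vale.Agent.P142K.CertB.Sr3Rows
import Vale.Agent.P142K.Fast

/-!
# An expanded part of the certificate

Generated from a semidefinite program; only the checker is trusted.
-/

namespace Vale.Agent.P142K.CertB

open Vale.Agent.P142J (MP)

/-- A coefficient. -/
noncomputable def sr3_m1_0_0 : MP 10 :=
  []

/-- A coefficient. -/
noncomputable def sr3_m1_0_1 : MP 10 :=
  []

/-- A coefficient. -/
noncomputable def sr3_m1_0_2 : MP 10 :=
  [[],[],[[[[[[[[[Int.ofNat (nat_lit 467464128584433070938)]]]]],[[[[[Int.ofNat (nat_lit 31668928145304439886)]]]]],[[[[[Int.ofNat (nat_lit 25313577248787050825)]]]]]]],[[[[[[[Int.negSucc (nat_lit 244227804324607686089)]]]]],[[[[[Int.negSucc (nat_lit 50944797912792053377)]]]]]]],[[[[[[[Int.ofNat (nat_lit 185197423578264588744)]]]]]]]],[],[[[[[[[[Int.negSucc (nat_lit 21418473971715949203)]]]]],[[[[[Int.ofNat (nat_lit 15588791146648609098)]]]]]]],[[[[[[[Int.ofNat (nat_lit 25392870421232288536)]]]]]]]],[],[[[[[[[[Int.ofNat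 (nat_lit 44344081885739208527)]]]]]]]]],[[[[[[[[[Int.ofNat (nat_lit 376393907524455184580)]]]]],[[[[[Int.ofNat (nat_lit 11521362975216068798)]]]]]]],[[[[[[[Int.negSucc (nat_lit 68807109008762934475)]]]]]]]],[],[[[[[[[[Int.negSucc (nat_lit 5617939514963733253)]]]]]]]]],[[[[[[[[[Int.ofNat (nat_lit 94442641855413443868)]]]]],[[[[[Int.negSucc (nat_lit 11122120877913689887)]]]]]]],[[[[[[[Int.ofNat (nat_lit 52630919575695227006)]]]]]]]],[],[[[[[[[[Int.ofNat (nat_lit 7956409707025504056)]]]]]]]]],[[[[[[[[[Int.ofNat (nat_lit 56622897268536491386)]]]]]]]]],[[[[[[[[[Int.ofNat (nat_lit 39505446942962459981)]]]]]]]]]]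

/-- A coefficient. -/
noncomputable def sr3_m1_0_3 : MP 10 :=
  [[],[[[[[[[[],[[Int.negSucc (nat_lit 11198015280137435111)]]]],[[[[Int.ofNat (nat_lit 57861625339187554628)]]]]],[[[[],[[Int.negSucc (nat_lit 684755846211446895)]]]],[[[[Int.negSucc (nat_lit 16272051897656826059)]]]]]],[[[[[[Int.negSucc (nat_lit 169319647407678896233)]]]]],[[[[[Int.ofNat (nat_lit 27355764770746670570)]]]]]]],[[[[[[],[[Int.negSucc (nat_lit 2244900778187841483)]]]],[[[[Int.negSucc (nat_lit 4771228022857477227)]]]]]],[[[[[[Int.negSucc (nat_lit 83989831249247636329)]]]]]]]],[[[[[[[[Int.ofNat (nat_lit 341858864575742640332)]]]]],[[[[[Int.negSucc (nat_lit 90236607810965589739)]]]]]]],[[[[[[[Int.negSucc (nat_lit 18127226478549900603)]]]]],[[[[[Int.ofNat (nat_lit 6303930982682868340)]]]]]]],[[[[[[[Int.negSucc (nat_lit 47948915440195873037)]]]]]]]],[[[[[[[],[[Int.ofNat (nat_lit 3427774822756820812)]]]],[[[[Int.negSucc (nat_lit 25944331406012036871)]]]]]],[[[[[[Int.negSucc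 (nat_lit 30327820080668486909)]]]]]]]],[[[[[[[[Int.negSucc (nat_lit 10688932959738846549)]]]]]]],[[[[[[[Int.negSucc (nat_lit 28454565435827975777)]]]]]]]]],[[[[[[[[],[[Int.negSucc (nat_lit 7507547729081680001)]]]],[[[[Int.negSucc (nat_lit 2025951450572929783)]]]]]],[[[[[[Int.negSucc (nat_lit 302005680275009865971)]]]]],[[[[[Int.ofNat (nat_lit 8558091262146480808)]]]]]]],[[],[[[[[[Int.negSucc (nat_lit 42759551613538087111)]]]]]]]],[[[[[[[[Int.ofNat (nat_lit 548495180599942714276)]]]]],[[[[[Int.negSucc (nat_lit 78814500459833673825)]]]]]]],[[[[[[[Int.ofNat (nat_lit 24099033729749534408)]]]]]]]],[[[],[[[[[[Int.negSucc (nat_lit 74235120780064909475)]]]]]]]],[[[[[[[[Int.negSucc (nat_lit 87849878478297238247)]]]]]]]]],[[[[[[[[],[[Int.ofNat (nat_lit 1438008891928412628)]]]],[[[[Int.negSucc (nat_lit 17290558608434308385)]]]]]],[[[[[[Int.negSucc (nat_lit 57068856788810082549)]]]]]]]],[[[[[[[[Int.ofNat (nat_lit 215494685768153898476)]]]]]]],[[[[[[[Int.ofNat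 (nat_lit 14314874724482646970)]]]]]]]]],[[[[],[[[[[[Int.ofNat (nat_lit 14757730837192758568)]]]]]]]],[[[[[[[[Int.ofNat (nat_lit 25075363720975631462)]]]]]]]]]]

/-- A coefficient. -/
noncomputable def sr3_m1_0_4 : MP 10 :=
  [[[[[[[[[],[],[[Int.ofNat (nat_lit 8027989169024811492)]]]],[[[],[[Int.negSucc (nat_lit 10147830664588995953)]]]],[[[[Int.ofNat (nat_lit 84207666366346556103)]]]]]],[[[[[],[[Int.ofNat (nat_lit 5401871355155128488)]]]],[[[[Int.negSucc (nat_lit 65225693105811795923)]]]]]],[[[[[[Int.ofNat (nat_lit 401613205909358455624)]]]]]]]],[[[[[[[],[[Int.ofNat (nat_lit 1581691008983999954)]]]],[[[[Int.negSucc (nat_lit 4395555984710753545)]]]]]],[[[[[[Int.negSucc (nat_lit 597804007122578711753)]]]]]]],[[[[[[],[[Int.ofNat (nat_lit 8028483481747890994)]]]],[[[[Int.negSucc (nat_lit 21116766122468697031)]]]]]],[[[[[[Int.ofNat (nat_lit 50239077381234488908)]]]]]]]],[[[[[[[[Int.ofNat (nat_lit 920642702536461196914)]]]]]]],[[[[[[[Int.negSucc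 (nat_lit 226522626644172750095)]]]]]]],[[[[[[[Int.ofNat (nat_lit 142759238185225986769)]]]]]]]]],[[[[[[[[[Int.negSucc (nat_lit 701030879755147111079)]]]]],[[[[[Int.ofNat (nat_lit 6829273536267052518)]]]]],[[[[[Int.ofNat (nat_lit 9070974508246449738)]]]]]],[[[[[],[[Int.negSucc (nat_lit 4049455585866556647)]]]],[[[[Int.negSucc (nat_lit 5151734749629979555)]]]]]],[[[[[[Int.ofNat (nat_lit 231034177290265259202)]]]]]]],[[[[[[[Int.ofNat (nat_lit 223917534633722202736)]]]]],[[[[[Int.negSucc (nat_lit 26162133456993211503)]]]]]]],[[[[[[[Int.negSucc (nat_lit 65218962956135942335)]]]]]]]],[[[[[[[],[[Int.negSucc (nat_lit 6553458343555694475)]]]],[[[[Int.ofNat (nat_lit 15341752400340977312)]]]]]],[[[[[[Int.negSucc (nat_lit 387549879428240702663)]]]]]]],[[],[[[[[[Int.ofNat (nat_lit 59742825213526581626)]]]]]]]],[[[[[[[[Int.ofNat (nat_lit 762188614520389687972)]]]]],[[[[[Int.negSucc (nat_lit 49911753330417719507)]]]]]]],[[[[[[[Int.negSucc (nat_lit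 106301909569088016571)]]]]]]]],[],[[[[[[[[Int.ofNat (nat_lit 7692828910227887702)]]]]]]]]],[[[[[[[[[Int.negSucc (nat_lit 1537822682632164884683)]]]]],[[[[[Int.ofNat (nat_lit 18683928391535671998)]]]]]],[],[[[[[[Int.ofNat (nat_lit 174689415827565025174)]]]]]]],[[[[[[[Int.ofNat (nat_lit 124329658851283727884)]]]]]]]],[[[],[[[[[[Int.negSucc (nat_lit 140141586565125705391)]]]]]]]],[[[[[[[[Int.ofNat (nat_lit 461816371483516085253)]]]]]]]]],[[[[[[[[[Int.negSucc (nat_lit 856755029530203681751)]]]]],[[[[[Int.negSucc (nat_lit 36076113517203709079)]]]]]]],[[[[[[[Int.ofNat (nat_lit 107708773153587832016)]]]]]]]],[],[[[[[[[[Int.ofNat (nat_lit 31535276671042406102)]]]]]]]]],[[[[[[[[[Int.negSucc (nat_lit 142869548262258066173)]]]]]]]]],[[[[[[[[[Int.ofNat (nat_lit 34009697338990734368)]]]]]]]]]]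

/-- A coefficient. -/
noncomputable def sr3_m1_0_5 : MP 10 :=
  [[[[[[[[[],[[Int.ofNat (nat_lit 27324513988912033708)]]]],[[[[Int.negSucc (nat_lit 115417953764426617123)]]]]],[[[[],[[Int.ofNat (nat_lit 8338339555559781114)]]]],[[[[Int.negSucc (nat_lit 28036137887019911821)]]]]]],[[[[[[Int.ofNat (nat_lit 740563674775003980724)]]]]],[[[[[Int.ofNat (nat_lit 61743803838179379388)]]]]]]],[[[[[[],[[Int.negSucc (nat_lit 1945226999913124211)]]]],[[[[Int.negSucc (nat_lit 28945462381559010891)]]]]]],[[[[[[Int.ofNat (nat_lit 69018021722603203694)]]]]]]]],[[[[[[[[Int.negSucc (nat_lit 1562009862463431038781)]]]]],[[[[[Int.negSucc (nat_lit 47036559181280567627)]]]]]]],[[[[[[[Int.ofNat (nat_lit 433751610531376581816)]]]]],[[[[[Int.ofNat (nat_lit 12572941795299103676)]]]]]]],[[[[[[[Int.negSucc (nat_lit 128976062408685278229)]]]]]]]],[[[[[[[],[[Int.negSucc (nat_lit 2363232221655098235)]]]],[[[[Int.negSucc (nat_lit 26064225160977539111)]]]]]],[[[[[[Int.negSucc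 (nat_lit 109254230895222043971)]]]]]]]],[[[[[[[[Int.ofNat (nat_lit 167594431604608367948)]]]]]]],[[[[[[[Int.ofNat (nat_lit 68956146992804937762)]]]]]]]]],[[[[[[[[],[[Int.ofNat (nat_lit 17773588130359543284)]]]],[[[[Int.negSucc (nat_lit 57647724058119016629)]]]]]],[[[[[[Int.ofNat (nat_lit 788649273424043298642)]]]]],[[[[[Int.ofNat (nat_lit 30078125355814728336)]]]]]]],[[],[[[[[[Int.negSucc (nat_lit 48843370473318786529)]]]]]]]],[[[[[[[[Int.negSucc (nat_lit 1930078845555586155839)]]]]],[[[[[Int.ofNat (nat_lit 30523661473204879910)]]]]]]],[[[[[[[Int.ofNat (nat_lit 367677791689228739898)]]]]]]]],[[[],[[[[[[Int.negSucc (nat_lit 21914633170997095967)]]]]]]]],[[[[[[[[Int.negSucc (nat_lit 62995186649925176735)]]]]]]]]],[[[[[[[[],[[Int.negSucc (nat_lit 8821809689595026273)]]]],[[[[Int.ofNat (nat_lit 295990987722288590)]]]]]],[[[[[[Int.ofNat (nat_lit 557422438057836069152)]]]]]]]],[[[[[[[[Int.negSucc (nat_lit 1188287815861587059565)]]]]]]],[[[[[[[Int.ofNat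 (nat_lit 27135870920816825196)]]]]]]]]],[[[[],[[[[[[Int.ofNat (nat_lit 61376256524761157722)]]]]]]]],[[[[[[[[Int.negSucc (nat_lit 62915133856924499653)]]]]]]]]]]

/-- A coefficient. -/
noncomputable def sr3_m1_0_6 : MP 10 :=
  [[[[[[[[[[Int.ofNat (nat_lit 1282162258146757420189)]]]]],[[[[[Int.ofNat (nat_lit 129776412022052093834)]]]]],[[[[[Int.ofNat (nat_lit 38849693105703265455)]]]]]],[[[[[],[[Int.ofNat (nat_lit 5626173271029126828)]]]],[[[[Int.ofNat (nat_lit 52332013270875801290)]]]]]],[[[[[[Int.negSucc (nat_lit 376928057029794269045)]]]]]]],[[[[[[[Int.negSucc (nat_lit 434888580474861197185)]]]]],[[[[[Int.negSucc (nat_lit 22126980880239779533)]]]]]]],[[[[[[[Int.ofNat (nat_lit 274421993846324098802)]]]]]]]],[[[[[[[],[[Int.negSucc (nat_lit 9696452687294968807)]]]],[[[[Int.ofNat (nat_lit 40158748848453321184)]]]]]],[[[[[[Int.ofNat (nat_lit 683939643597261353362)]]]]]]],[[],[[[[[[Int.negSucc (nat_lit 38250703732773810709)]]]]]]]],[[[[[[[[Int.negSucc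 (nat_lit 1449387609205807575813)]]]]],[[[[[Int.negSucc (nat_lit 36914417787685769945)]]]]]]],[[[[[[[Int.ofNat (nat_lit 97259218318240551324)]]]]]]]],[],[[[[[[[[Int.ofNat (nat_lit 203195001446248943032)]]]]]]]]],[[[[[[[[[Int.ofNat (nat_lit 1964348632535435156196)]]]]],[[[[[Int.ofNat (nat_lit 68341375913983034152)]]]]]],[],[[[[[[Int.negSucc (nat_lit 4296690235260609399)]]]]]]],[[[[[[[Int.negSucc (nat_lit 395067637080339847795)]]]]]]]],[[[],[[[[[[Int.ofNat (nat_lit 146528206888169653444)]]]]]]]],[[[[[[[[Int.negSucc (nat_lit 281636398854435136037)]]]]]]]]],[[[[[[[[[Int.ofNat (nat_lit 1987318963835011284182)]]]]],[[[[[Int.negSucc (nat_lit 34780653585008068149)]]]]]]],[[[[[[[Int.ofNat (nat_lit 47923628787131632890)]]]]]]]],[],[[[[[[[[Int.ofNat (nat_lit 191173227970176152062)]]]]]]]]],[[[[[[[[[Int.ofNat (nat_lit 640206391566805073316)]]]]]]]]],[[[[[[[[[Int.ofNat (nat_lit 196476512762577307104)]]]]]]]]]]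

/-- A coefficient. -/
noncomputable def sr3_m1_0_7 : MP 10 :=
  [[[[[[[[[],[[Int.negSucc (nat_lit 5328051754827197495)]]]],[[[[Int.ofNat (nat_lit 95492540889318493150)]]]]]],[[[[[[Int.negSucc (nat_lit 1110810784282147126809)]]]]],[[[[[Int.negSucc (nat_lit 8034100306099783715)]]]]]]],[[],[[[[[[Int.negSucc (nat_lit 60031731276055728581)]]]]]]]],[[[[[[[[Int.ofNat (nat_lit 2614737274831581129528)]]]]],[[[[[Int.ofNat (nat_lit 8827545539945435566)]]]]]]],[[[[[[[Int.negSucc (nat_lit 139542873938680956855)]]]]]]]],[[[],[[[[[[Int.negSucc (nat_lit 77511760208707692521)]]]]]]]],[[[[[[[[Int.negSucc (nat_lit 284450065042214445359)]]]]]]]]],[[[[[[[[],[[Int.negSucc (nat_lit 12478234144273445055)]]]],[[[[Int.ofNat (nat_lit 48686238445411343562)]]]]]],[[[[[[Int.negSucc (nat_lit 481042839099169066911)]]]]]]]],[[[[[[[[Int.ofNat (nat_lit 1227430815950894109630)]]]]]]],[[[[[[[Int.negSucc (nat_lit 73250821574776595375)]]]]]]]]],[[[[],[[[[[[Int.negSucc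 (nat_lit 351269390592067717959)]]]]]]]],[[[[[[[[Int.ofNat (nat_lit 407559341086680638288)]]]]]]]]]]

/-- A coefficient. -/
noncomputable def sr3_m1_0_8 : MP 10 :=
  [[[[[[[[[[Int.negSucc (nat_lit 2614602223245932961343)]]]]],[[[[[Int.negSucc (nat_lit 54454791564949732999)]]]]]],[],[[[[[[Int.ofNat (nat_lit 230328115417766917697)]]]]]]],[[[[[[[Int.negSucc (nat_lit 58378261510718799171)]]]]]]]],[[[],[[[[[[Int.negSucc (nat_lit 227053380649506273481)]]]]]]]],[[[[[[[[Int.ofNat (nat_lit 702140634965486542140)]]]]]]]]],[[[[[[[[[Int.negSucc (nat_lit 1798025971857252541625)]]]]],[[[[[Int.negSucc (nat_lit 54137018279870159003)]]]]]]],[[[[[[[Int.ofNat (nat_lit 105440884443966887958)]]]]]]]],[],[[[[[[[[Int.ofNat (nat_lit 24247791940766916776)]]]]]]]]],[[[[[[[[[Int.negSucc (nat_lit 1421390544857041039919)]]]]]]]]],[[[[[[[[[Int.negSucc (nat_lit 157469836552171575313)]]]]]]]]]]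

/-- A coefficient. -/
noncomputable def sr3_m1_0_9 : MP 10 :=
  [[[[[[[[[],[[Int.negSucc (nat_lit 5945011259419184437)]]]],[[[[Int.negSucc (nat_lit 8748025127923652983)]]]]]],[[[[[[Int.ofNat (nat_lit 895050506774742410532)]]]]]]]],[[[[[[[[Int.negSucc (nat_lit 1943326469855733666723)]]]]]]],[[[[[[[Int.negSucc (nat_lit 58780145657370758075)]]]]]]]]],[[[[],[[[[[[Int.ofNat (nat_lit 26765810402236454122)]]]]]]]],[[[[[[[[Int.negSucc (nat_lit 159811944803587685705)]]]]]]]]]]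

/-- A coefficient. -/
noncomputable def sr3_m1_0_10 : MP 10 :=
  [[[[[[[[[[Int.ofNat (nat_lit 3357422741227295069188)]]]]],[[[[[Int.ofNat (nat_lit 6744059639517490604)]]]]]]],[[[[[[[Int.ofNat (nat_lit 178516595671337485202)]]]]]]]],[],[[[[[[[[Int.ofNat (nat_lit 28008251223010539932)]]]]]]]]],[[[[[[[[[Int.ofNat (nat_lit 732713401437474681402)]]]]]]]]],[[[[[[[[[Int.ofNat (nat_lit 468357523755202296753)]]]]]]]]]]

/-- A coefficient. -/
noncomputable def sr3_m1_0_11 : MP 10 :=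
  [[[[[],[[[[[[Int.negSucc (nat_lit 270885511032326197033)]]]]]]]],[[[[[[[[Int.ofNat (nat_lit 526653457511341236880)]]]]]]]]]]

/-- A coefficient. -/
noncomputable def sr3_m1_0_12 : MP 10 :=
  [[[[[[[[[[Int.negSucc (nat_lit 2521004014822765748917)]]]]]]]]],[[[[[[[[[Int.negSucc (nat_lit 67785927540847791619)]]]]]]]]]]

/-- A coefficient. -/
noncomputable def sr3_m1_0_13 : MP 10 :=
  []

/-- A coefficient. -/
noncomputable def sr3_m1_0_14 : MP 10 :=
  [[[[[[[[[[Int.ofNat (nat_lit 800963498352567826828)]]]]]]]]]]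

/-- A coefficient. -/
noncomputable def sr3_m1_1_0 : MP 10 :=
  []

/-- A coefficient. -/
noncomputable def sr3_m1_1_1 : MP 10 :=
  [[],[[[[[[[[[Int.ofNat (nat_lit 0),Int.ofNat (nat_lit 206074443535933786418)]],[[Int.ofNat (nat_lit 31123339508284007108)]]]],[[[[Int.ofNat (nat_lit 45608248458434538944)]]]]],[[[[[Int.ofNat (nat_lit 0),Int.negSucc (nat_lit 46913704356122848881)]],[[Int.negSucc (nat_lit 142029181029722087)]]]],[[[[Int.negSucc (nat_lit 27948077791577371153)]]]]]],[[[[[[Int.negSucc (nat_lit 159001492720602335575)]]]]],[[[[[Int.ofNat (nat_lit 76232116289628008890)]]]]]]],[[[[[[[Int.ofNat (nat_lit 0),Int.ofNat (nat_lit 60537058809649273568)]],[[Int.negSucc (nat_lit 5870968009601731463)]]]],[[[[Int.ofNat (nat_lit 42926122937752221848)]]]]]],[[[[[[Int.negSucc (nat_lit 70732720887703784047)]]]]],[[[[[Int.negSucc (nat_lit 27857883259814768409)]]]]]]],[[],[[[[[[Int.ofNat (nat_lit 26586924000643640412)]]]]]]]],[[[[[[[[Int.ofNat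 (nat_lit 143350571838965805346)]]]]],[[[[[Int.ofNat (nat_lit 173504854366290610700)]]]]],[[[[[Int.negSucc (nat_lit 6930608832663493845)]]]]]]],[[[[[[[Int.ofNat (nat_lit 246810230296586478394)]]]]],[[[[[Int.ofNat (nat_lit 9590314188943669538)]]]]]]],[[[[[[[Int.negSucc (nat_lit 67572863746429341923)]]]]]]]],[[[[[[[[Int.ofNat (nat_lit 0),Int.ofNat (nat_lit 3871423442381961110)]],[[Int.negSucc (nat_lit 2315393981500629357)]]]],[[[[Int.ofNat (nat_lit 7154361911245841604)]]]]]],[[[[[[Int.ofNat (nat_lit 28445793468936147538)]]]]]]],[[],[[[[[[Int.negSucc (nat_lit 19376407860263642989)]]]]]]]],[[[[[[[[Int.ofNat (nat_lit 32130280992748645072)]]]]],[[[[[Int.ofNat (nat_lit 4216377770247555914)]]]]]]],[[[[[[[Int.ofNat (nat_lit 23888740639363011660)]]]]]]]],[],[[[[[[[[Int.negSucc (nat_lit 11250359046578923909)]]]]]]]]],[[[[[[[[[Int.ofNat (nat_lit 0),Int.ofNat (nat_lit 102222787718760385478)]],[[Int.ofNat (nat_lit 23711656264952401926)]]]],[[[[Int.ofNat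 (nat_lit 4607582132668456836)]]]]],[[],[[[[Int.negSucc (nat_lit 24972701432893048013)]]]]]],[[[[[[Int.negSucc (nat_lit 149985491529889645527)]]]]],[[[[[Int.ofNat (nat_lit 7166790439962677830)]]]]]]],[[[[],[[[[Int.ofNat (nat_lit 49119622656932927370)]]]]]],[[[[[[Int.ofNat (nat_lit 65611676902412513956)]]]]]]]],[[[[[[[[Int.ofNat (nat_lit 124051138517036591776)]]]]],[[[[[Int.ofNat (nat_lit 93533984303513751112)]]]]]]],[[[[[[[Int.ofNat (nat_lit 155802405775569308476)]]]]]]]],[[[[[],[[[[Int.ofNat (nat_lit 11309118542864997940)]]]]]],[[[[[[Int.ofNat (nat_lit 22826749835479144860)]]]]]]]],[[[[[[[[Int.ofNat (nat_lit 86480656943476848356)]]]]]]]]],[[[[[[[[[Int.ofNat (nat_lit 0),Int.ofNat (nat_lit 48762768133481660142)]],[[Int.negSucc (nat_lit 1008533795080119195)]]]],[[[[Int.negSucc (nat_lit 64192592572843463617)]]]]]],[[[[[[Int.negSucc (nat_lit 114463491855163385597)]]]]]]],[[],[[[[[[Int.ofNat (nat_lit 43843068664546079988)]]]]]]]],[[[[[[[[Int.ofNat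 (nat_lit 152526276899100620818)]]]]],[[[[[Int.negSucc (nat_lit 8332810208539106459)]]]]]]],[[[[[[[Int.negSucc (nat_lit 1198617890273593037)]]]]]]]],[],[[[[[[[[Int.ofNat (nat_lit 4266691838473225844)]]]]]]]]],[[[[[[],[[[[Int.negSucc (nat_lit 25391997914041472513)]]]]]],[[[[[[Int.negSucc (nat_lit 28697475742818997741)]]]]]]]],[[[[[[[[Int.ofNat (nat_lit 16582976752537669440)]]]]]]]]],[[],[[[[[[[[Int.negSucc (nat_lit 30973609415058759803)]]]]]]]]]]

/-- A coefficient. -/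
noncomputable def sr3_m1_1_2 : MP 10 :=
  [[[[[[[[[],[[Int.ofNat (nat_lit 0),Int.ofNat (nat_lit 3432776328469962440)]],[[Int.ofNat (nat_lit 5273899961324197788)]]]],[[[[Int.ofNat (nat_lit 0),Int.negSucc (nat_lit 17174234873381733081)]],[[Int.ofNat (nat_lit 10588535045454587846)]]]],[[[[Int.ofNat (nat_lit 31148622342217587738)]]]]]],[[[[[[Int.ofNat (nat_lit 0),Int.negSucc (nat_lit 137283754253195288937)]],[[Int.negSucc (nat_lit 12969248726870547525)]]]],[[[[Int.negSucc (nat_lit 32804101273013569339)]]]]]],[[[[[[Int.ofNat (nat_lit 72080055898861868900)]]]]]]],[[],[[[[[],[[Int.ofNat (nat_lit 4643364248445377616)]]]],[[[[Int.negSucc (nat_lit 82438596488221066213)]]]]]],[[[[[[Int.ofNat (nat_lit 24622819536185206586)]]]]]]]],[[[[[[[[Int.ofNat (nat_lit 0),Int.ofNat (nat_lit 262031623019055579282)]],[[Int.ofNat (nat_lit 29195815438406379254)]]]],[[[[Int.ofNat (nat_lit 157141401679794530812)]]]]],[[[[],[[Int.negSucc (nat_lit 4831305283624741753)]]]],[[[[Int.ofNat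 (nat_lit 24652244169868138500)]]]]]],[[[[[[Int.negSucc (nat_lit 322005564213391056093)]]]]],[[[[[Int.negSucc (nat_lit 68632817758197638101)]]]]]]],[[[[[[[Int.ofNat (nat_lit 0),Int.ofNat (nat_lit 20788383097117671806)]],[[Int.negSucc (nat_lit 8623297324518979443)]]]],[[[[Int.negSucc (nat_lit 82603514227728964257)]]]]]],[[[[[[Int.ofNat (nat_lit 19242167332377484642)]]]]]]],[[],[[[[[[Int.ofNat (nat_lit 11704735151025259658)]]]]]]]],[[[[[[[[Int.ofNat (nat_lit 490298769885422327220)]]]]],[[[[[Int.ofNat (nat_lit 133640464133206728916)]]]]]]],[[[[[[[Int.negSucc (nat_lit 98139475217759967199)]]]]],[[[[[Int.negSucc (nat_lit 65160168162146470229)]]]]]]],[[[[[[[Int.negSucc (nat_lit 17879232933325066621)]]]]]]]],[[[[[[[],[[Int.negSucc (nat_lit 6638300773316097603)]]]],[[[[Int.ofNat (nat_lit 3550574651924247334)]]]]]],[[[[[[Int.negSucc (nat_lit 31592937903088696063)]]]]]]]],[[[[[[[[Int.negSucc (nat_lit 7750832633914994167)]]]]]]],[[[[[[[Int.negSucc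 (nat_lit 664856149780444787)]]]]]]]]],[[[[[[[[[Int.negSucc (nat_lit 1548976787595883781275)]]],[[[Int.ofNat (nat_lit 10034709428571298664)]]]],[[[],[[Int.negSucc (nat_lit 907303412775699821)]]]],[[[[Int.ofNat (nat_lit 32432415620202928124)]]]]],[[[[[Int.negSucc (nat_lit 117216009097413868887)]]],[[[Int.negSucc (nat_lit 8175664672624254525)]]]]],[[[[[Int.negSucc (nat_lit 36153335952056285421)]]]]]],[[[[[[Int.ofNat (nat_lit 0),Int.negSucc (nat_lit 44792662623358804081)]],[[Int.negSucc (nat_lit 12998429820939854703)]]]],[[[[Int.negSucc (nat_lit 159051680146787091593)]]]]]],[[[[[[Int.ofNat (nat_lit 66082502518054043920)]]]]]]],[[[[[[[Int.ofNat (nat_lit 657160666010552180632)]]],[[[Int.ofNat (nat_lit 18343231689533669222)]]]]],[[[[[Int.ofNat (nat_lit 167581345244940343762)]]]]]],[],[[[[[[Int.ofNat (nat_lit 16450285249034224474)]]]]]]],[[[[[[[Int.negSucc (nat_lit 528139972531097002563)]]]]]]]],[[[[[[[[Int.ofNat (nat_lit 0),Int.ofNat (nat_lit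 149754446093959755322)]],[[Int.ofNat (nat_lit 5062093183762592676)]]]],[[[[Int.ofNat (nat_lit 99526415180574231964)]]]]]],[[[[[[Int.negSucc (nat_lit 409744194964765632285)]]]]],[[[[[Int.negSucc (nat_lit 77613538969755796809)]]]]]]],[[[[],[[[[Int.negSucc (nat_lit 68085785691694438707)]]]]]],[[[[[[Int.negSucc (nat_lit 129877626533488979417)]]]]]]]],[[[[[[[[Int.ofNat (nat_lit 997823352639196602042)]]],[[[Int.ofNat (nat_lit 5541051830717385492)]]]]],[[[[[Int.ofNat (nat_lit 266128078996861958130)]]]]]]],[[[[[[[Int.negSucc (nat_lit 232841519288957178425)]]]]]]]],[[[],[[[[[[Int.negSucc (nat_lit 2176649338538086631)]]]]]]]],[[[[[[[[Int.ofNat (nat_lit 6922442471922728336)]]]]]]]]],[[[[[[[[[Int.negSucc (nat_lit 2354242639205384406107)]]],[[[Int.negSucc (nat_lit 27247744636865025225)]]]]],[[[[[Int.negSucc (nat_lit 113369650037027492909)]]]]]],[[[],[[[[Int.negSucc (nat_lit 69549137073484141991)]]]]]],[[[[[[Int.ofNat (nat_lit 16358318349050820628)]]]]]]],[[[[[[[Int.ofNat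 (nat_lit 741885612161839629786)]]]]],[[[[[Int.ofNat (nat_lit 67484340617304874692)]]]]]]],[[[[[[[Int.negSucc (nat_lit 473029848501992252749)]]]]]]]],[[[[[[[],[[Int.negSucc (nat_lit 8967315812818658625)]]]],[[[[Int.ofNat (nat_lit 26214419698046313456)]]]]]],[[[[[[Int.negSucc (nat_lit 259083975013597493615)]]]]]]]],[[[[[[[[Int.ofNat (nat_lit 412105593347399602008)]]]]]]],[[[[[[[Int.negSucc (nat_lit 55560833494905434217)]]]]]]]]],[[[[[[[[[Int.negSucc (nat_lit 1162200029076586863051)]]],[[[Int.negSucc (nat_lit 15999567744158086557)]]]]],[[[[[Int.ofNat (nat_lit 88323171331604742224)]]]]]]],[[[[[[[Int.negSucc (nat_lit 141749141032684049499)]]]]]]]],[[[],[[[[[[Int.negSucc (nat_lit 9674500373279593683)]]]]]]]],[[[[[[[[Int.ofNat (nat_lit 75563084859266644150)]]]]]]]]],[[[[[[[[[Int.negSucc (nat_lit 232302058092821516111)]]]]]]],[[[[[[[Int.negSucc (nat_lit 84526821783836606723)]]]]]]]]],[[[[[[[[[Int.negSucc (nat_lit 69528775206859175341)]]]]]]]]]]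

/-- A coefficient. -/
noncomputable def sr3_m1_1_3 : MP 10 :=
  [[[[[[[[[[Int.ofNat (nat_lit 0),Int.negSucc (nat_lit 222829704881837181403)]],[[Int.negSucc (nat_lit 8946134600233883833)]]],[[],[[Int.ofNat (nat_lit 4140537845010003750)]]]],[[[[Int.negSucc (nat_lit 219718496485487669585)]]],[[[Int.ofNat (nat_lit 5142416981069888016)]]]]],[[[[[Int.ofNat (nat_lit 0),Int.negSucc (nat_lit 47661049743764745865)]],[[Int.ofNat (nat_lit 16671116250067035506)]]]],[[[[Int.negSucc (nat_lit 1059797805292923761)]]]]]],[[[[[[Int.ofNat (nat_lit 525669610239454221982)]]],[[[Int.negSucc (nat_lit 13765487442562834493)]]]]],[[[[[Int.negSucc (nat_lit 102742217704370106231)]]]]]]],[[[[[[[Int.ofNat (nat_lit 0),Int.ofNat (nat_lit 70049856166024582394)]],[[Int.ofNat (nat_lit 20356221970980845626)]]]],[[[[Int.ofNat (nat_lit 45068930922021580454)]]]]]],[[[[[[Int.ofNat (nat_lit 173171994845145434882)]]]]],[[[[[Int.ofNat (nat_lit 15941562871414702378)]]]]]]],[[],[[[[[[Int.ofNat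 (nat_lit 105599577608224192282)]]]]]]]],[[[[[[[[Int.negSucc (nat_lit 1008916357148371508671)]]],[[[Int.ofNat (nat_lit 57356932753109238828)]]]]],[[[[[Int.negSucc (nat_lit 112430029187400754155)]]]]],[[[[[Int.negSucc (nat_lit 32344822950101116419)]]]]]],[[[[[],[[Int.ofNat (nat_lit 7752938890740965672)]]]],[[[[Int.ofNat (nat_lit 44513614210188297414)]]]]]],[[[[[[Int.ofNat (nat_lit 299953033980452346340)]]]]]]],[[[[[[[Int.negSucc (nat_lit 20730908540179964505)]]],[[[Int.negSucc (nat_lit 22037190741678268519)]]]]],[[[[[Int.ofNat (nat_lit 22400113509599512366)]]]]]]],[[[[[[[Int.ofNat (nat_lit 58061584001152217092)]]]]]]]],[[[[[[[[Int.ofNat (nat_lit 0),Int.ofNat (nat_lit 110729532801828233906)]],[[Int.negSucc (nat_lit 17371178408435835707)]]]],[[[[Int.ofNat (nat_lit 58384600117495984350)]]]]]],[[[[[[Int.negSucc (nat_lit 388651951491216123895)]]]]]]],[[],[[[[[[Int.ofNat (nat_lit 6064457068705231962)]]]]]]]],[[[[[[[[Int.ofNat (nat_lit 361857633467675225012)]]]]],[[[[[Int.negSucc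 (nat_lit 31481585534791331787)]]]]]]],[[[[[[[Int.negSucc (nat_lit 157441975144311781737)]]]]]]]],[],[[[[[[[[Int.negSucc (nat_lit 10503114325176508139)]]]]]]]]],[[[[[[[[[Int.ofNat (nat_lit 0),Int.negSucc (nat_lit 259301043419290981547)]],[[Int.ofNat (nat_lit 88066895706278880)]]]],[[[[Int.negSucc (nat_lit 409970380204596366363)]]]]],[[],[[[[Int.negSucc (nat_lit 37002318482968345613)]]]]]],[[[[[[Int.ofNat (nat_lit 941271038325735857184)]]],[[[Int.negSucc (nat_lit 18733666998124057287)]]]]],[[[[[Int.negSucc (nat_lit 98710420638698575497)]]]]]]],[[[[[[],[[Int.ofNat (nat_lit 12306633782124420118)]]]],[[[[Int.ofNat (nat_lit 50693918727654652684)]]]]]],[[[[[[Int.ofNat (nat_lit 251773967847188110536)]]]]]]]],[[[[[[[[Int.negSucc (nat_lit 2681982053847766672289)]]],[[[Int.ofNat (nat_lit 939089140024099682)]]]]],[[[[[Int.negSucc (nat_lit 369796347120533608769)]]]]]],[],[[[[[[Int.negSucc (nat_lit 31363413223481000937)]]]]]]],[[[[[[[Int.negSucc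 (nat_lit 398356428625468545809)]]]]]]],[[[[[[[Int.ofNat (nat_lit 106414044277932449358)]]]]]]]],[[[[[],[[[[Int.ofNat (nat_lit 8376944524230242674)]]]]]],[[[[[[Int.ofNat (nat_lit 35837914022661203828)]]]]]]]],[[[[[[[[Int.ofNat (nat_lit 22130139873763858512)]]]]]]]]],[[[[[[[[[Int.ofNat (nat_lit 0),Int.ofNat (nat_lit 4568304569530424710)]],[[Int.negSucc (nat_lit 23083741378416435471)]]]],[[[[Int.negSucc (nat_lit 30983639488211357919)]]]]]],[[[[[[Int.ofNat (nat_lit 317912462470717216440)]]]]]]],[[],[[[[[[Int.ofNat (nat_lit 31484835132862115170)]]]]]]]],[[[[[[[[Int.negSucc (nat_lit 1971158143073937347129)]]]]],[[[[[Int.negSucc (nat_lit 16320971659434217389)]]]]]]],[[[[[[[Int.negSucc (nat_lit 194106603478515899619)]]]]]]]],[],[[[[[[[[Int.negSucc (nat_lit 145693873157933770515)]]]]]]]]],[[[[[[],[[[[Int.ofNat (nat_lit 79600406150069101860)]]]]]],[[[[[[Int.ofNat (nat_lit 18863390982650391682)]]]]]]]],[[[[[[[[Int.negSucc (nat_lit 539402481468116966169)]]]]]]]]],[[],[[[[[[[[Int.negSucc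 (nat_lit 59494188743672703283)]]]]]]]]]]

/-- A coefficient. -/
noncomputable def sr3_m1_1_4 : MP 10 :=
  [[[[[[[[[[Int.ofNat (nat_lit 1316475551316374321750)]]],[[[Int.negSucc (nat_lit 31588305985879807457)]]]],[[[],[[Int.negSucc (nat_lit 5279275354558753471)]]]],[[[[Int.negSucc (nat_lit 183458765741165303099)]]]]],[[[[[Int.ofNat (nat_lit 132021064028521859012)]]],[[[Int.negSucc (nat_lit 5185070814687030289)]]]]],[[[[[Int.ofNat (nat_lit 12464333274172750872)]]]]]],[[[[[[Int.ofNat (nat_lit 0),Int.ofNat (nat_lit 12241158736686651658)]],[[Int.ofNat (nat_lit 9185231775831185552)]]]],[[[[Int.ofNat (nat_lit 76835509768540337612)]]]]]],[[[[[[Int.negSucc (nat_lit 390169676211157438663)]]]]]]],[[[[[[[Int.negSucc (nat_lit 427438923503116843157)]]],[[[Int.ofNat (nat_lit 18224835716901847716)]]]]],[[[[[Int.ofNat (nat_lit 23205021250519550358)]]]]]],[],[[[[[[Int.negSucc (nat_lit 56037641984713587177)]]]]]]],[[[[[[[Int.ofNat (nat_lit 443954269334048590548)]]]]]]]],[[[[[[[[Int.ofNat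 (nat_lit 0),Int.negSucc (nat_lit 184864098686596575729)]],[[Int.negSucc (nat_lit 25937438177242941411)]]]],[[[[Int.ofNat (nat_lit 46938359110775986504)]]]]]],[[[[[[Int.ofNat (nat_lit 607383048517091211356)]]]]],[[[[[Int.ofNat (nat_lit 16476068771753021790)]]]]]]],[[[[],[[[[Int.ofNat (nat_lit 55862364749343708362)]]]]]],[[[[[[Int.negSucc (nat_lit 90233312607235893975)]]]]]]]],[[[[[[[[Int.negSucc (nat_lit 2495165498488313561315)]]],[[[Int.ofNat (nat_lit 17004649884426685090)]]]]],[[[[[Int.ofNat (nat_lit 77859313697858041970)]]]]]]],[[[[[[[Int.ofNat (nat_lit 385718724900936554642)]]]]]]]],[[[],[[[[[[Int.negSucc (nat_lit 160570815790474574827)]]]]]]]],[[[[[[[[Int.negSucc (nat_lit 90082348249266877609)]]]]]]]]],[[[[[[[[[Int.ofNat (nat_lit 5586310820648991610330)]]],[[[Int.negSucc (nat_lit 18348147543592704447)]]]]],[[[[[Int.ofNat (nat_lit 230221350401242987918)]]]]]],[[[],[[[[Int.ofNat (nat_lit 50200935599428823044)]]]]]],[[[[[[Int.negSucc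 (nat_lit 38134008781045394415)]]]]]]],[[[[[[[Int.negSucc (nat_lit 846677218054408615633)]]]]],[[[[[Int.negSucc (nat_lit 50489083918050983195)]]]]]]],[[[[[[[Int.ofNat (nat_lit 238489341763878988690)]]]]]]]],[[[[[[[],[[Int.negSucc (nat_lit 3820922814481011595)]]]],[[[[Int.ofNat (nat_lit 66270889918945817390)]]]]]],[[[[[[Int.ofNat (nat_lit 240294930284360123894)]]]]]]]],[[[[[[[[Int.negSucc (nat_lit 2593017966807969208839)]]]]]]],[[[[[[[Int.ofNat (nat_lit 46481852189026623830)]]]]]]]]],[[[[[[[[[Int.ofNat (nat_lit 5793416871778503087050)]]],[[[Int.ofNat (nat_lit 13384533283310586968)]]]]],[[[[[Int.ofNat (nat_lit 128331067190941610224)]]]]]]],[[[[[[[Int.negSucc (nat_lit 851132653007930857025)]]]]]]]],[[[],[[[[[[Int.negSucc (nat_lit 24129881267604846649)]]]]]]]],[[[[[[[[Int.negSucc (nat_lit 1051063314604964319973)]]]]]]]]],[[[[[[[[[Int.ofNat (nat_lit 1769476419408860304122)]]]]]]],[[[[[[[Int.negSucc (nat_lit 79276008118729455423)]]]]]]]]],[[[[[[[[[Int.negSucc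 (nat_lit 176505108165480812119)]]]]]]]]]]

/-- A coefficient. -/
noncomputable def sr3_m1_1_5 : MP 10 :=
  [[[[[[[[[[Int.ofNat (nat_lit 0),Int.negSucc (nat_lit 104391343349664390263)]],[[Int.negSucc (nat_lit 39698855087726756033)]]]],[[[[Int.ofNat (nat_lit 180597010360149209586)]]]]],[[],[[[[Int.ofNat (nat_lit 36562684337534446834)]]]]]],[[[[[[Int.negSucc (nat_lit 31517896919118634137)]]],[[[Int.negSucc (nat_lit 13391532345333568293)]]]]],[[[[[Int.negSucc (nat_lit 667116750263948531)]]]]]]],[[[[[[],[[Int.negSucc (nat_lit 10846615722740296227)]]]],[[[[Int.ofNat (nat_lit 128567758772455307416)]]]]]],[[[[[[Int.negSucc (nat_lit 476181334418069812707)]]]]]]]],[[[[[[[[Int.ofNat (nat_lit 2342627487354563497640)]]],[[[Int.negSucc (nat_lit 40441366270856917293)]]]]],[[[[[Int.negSucc (nat_lit 134844328812633700895)]]]]]],[],[[[[[[Int.ofNat (nat_lit 6585952878049397816)]]]]]]],[[[[[[[Int.negSucc (nat_lit 505620446230988781125)]]]]]]],[[[[[[[Int.negSucc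 (nat_lit 213651164841601628895)]]]]]]]],[[[[[],[[[[Int.ofNat (nat_lit 31160392227304361976)]]]]]],[[[[[[Int.ofNat (nat_lit 431671753237793146218)]]]]]]]],[[[[[[[[Int.ofNat (nat_lit 342312683074155634832)]]]]]]]]],[[[[[[[[[Int.ofNat (nat_lit 0),Int.negSucc (nat_lit 26384841945811960357)]],[[Int.negSucc (nat_lit 38163033424013582511)]]]],[[[[Int.ofNat (nat_lit 250502404044139445422)]]]]]],[[[[[[Int.negSucc (nat_lit 607819148706256019805)]]]]]]],[[],[[[[[[Int.negSucc (nat_lit 118681759952420849115)]]]]]]]],[[[[[[[[Int.ofNat (nat_lit 4763200417543047934436)]]]]],[[[[[Int.ofNat (nat_lit 147771355998041414920)]]]]]]],[[[[[[[Int.negSucc (nat_lit 127140414463405281417)]]]]]]]],[],[[[[[[[[Int.ofNat (nat_lit 26179687078610712432)]]]]]]]]],[[[[[[],[[[[Int.ofNat (nat_lit 46421699173163532824)]]]]]],[[[[[[Int.negSucc (nat_lit 1247752951364438021)]]]]]]]],[[[[[[[[Int.ofNat (nat_lit 2125899703683989479908)]]]]]]]]],[[],[[[[[[[[Int.negSucc (nat_lit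 50308943063775619657)]]]]]]]]]]

/-- A coefficient. -/
noncomputable def sr3_m1_1_6 : MP 10 :=
  [[[[[[[[[[Int.negSucc (nat_lit 2506114347178708197411)]]],[[[Int.ofNat (nat_lit 6644768241542725750)]]]]],[[[[[Int.negSucc (nat_lit 113840268905961581769)]]]]]],[[[],[[[[Int.negSucc (nat_lit 18884319978451924835)]]]]]],[[[[[[Int.ofNat (nat_lit 150550167445434868854)]]]]]]],[[[[[[[Int.ofNat (nat_lit 730875976178303839452)]]]]],[[[[[Int.negSucc (nat_lit 93532853086043584219)]]]]]]],[[[[[[[Int.negSucc (nat_lit 721382833529047781589)]]]]]]]],[[[[[[[],[[Int.ofNat (nat_lit 10296635949153352418)]]]],[[[[Int.negSucc (nat_lit 149825158035091529709)]]]]]],[[[[[[Int.negSucc (nat_lit 401506541650403847021)]]]]]]]],[[[[[[[[Int.ofNat (nat_lit 2141380210456256460068)]]]]]]],[[[[[[[Int.negSucc (nat_lit 321977761702704101793)]]]]]]]]],[[[[[[[[[Int.negSucc (nat_lit 5955121399626479124333)]]],[[[Int.ofNat (nat_lit 16287127329262485274)]]]]],[[[[[Int.negSucc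 (nat_lit 180230180576519462893)]]]]]]],[[[[[[[Int.ofNat (nat_lit 473201877579607779360)]]]]]]]],[[[],[[[[[[Int.negSucc (nat_lit 250136871779116515361)]]]]]]]],[[[[[[[[Int.ofNat (nat_lit 1045178562098231600438)]]]]]]]]],[[[[[[[[[Int.negSucc (nat_lit 3953259231861407850305)]]]]]]],[[[[[[[Int.ofNat (nat_lit 123588418662706267132)]]]]]]]]],[[[[[[[[[Int.negSucc (nat_lit 654366231754044881813)]]]]]]]]]]

/-- A coefficient. -/
noncomputable def sr3_m1_1_7 : MP 10 :=
  [[[[[[[[[[Int.ofNat (nat_lit 0),Int.ofNat (nat_lit 63037250099916194914)]],[[Int.ofNat (nat_lit 40951957581279066820)]]]],[[[[Int.negSucc (nat_lit 15246035480637497687)]]]]]],[[[[[[Int.negSucc (nat_lit 249133725869593531737)]]]]]]],[[],[[[[[[Int.ofNat (nat_lit 146859931514587613494)]]]]]]]],[[[[[[[[Int.negSucc (nat_lit 1773211907564443093307)]]]]],[[[[[Int.ofNat (nat_lit 102633331283744238116)]]]]]]],[[[[[[[Int.ofNat (nat_lit 370272839085116530886)]]]]]]]],[],[[[[[[[[Int.negSucc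 (nat_lit 681495282940790754407)]]]]]]]]],[[[[[[],[[[[Int.negSucc (nat_lit 32507600098671065715)]]]]]],[[[[[[Int.ofNat (nat_lit 179631524496543443378)]]]]]]]],[[[[[[[[Int.negSucc (nat_lit 2002454289262891408827)]]]]]]]]],[[],[[[[[[[[Int.negSucc (nat_lit 436528523410138854415)]]]]]]]]]]

/-- A coefficient. -/
noncomputable def sr3_m1_1_8 : MP 10 :=
  [[[[[[[[[[Int.ofNat (nat_lit 1267994734526633945670)]]],[[[Int.ofNat (nat_lit 4272402161541542244)]]]]],[[[[[Int.ofNat (nat_lit 22810364991111384832)]]]]]]],[[[[[[[Int.ofNat (nat_lit 423127492930029782516)]]]]]]]],[[[],[[[[[[Int.ofNat (nat_lit 141078797999932283958)]]]]]]]],[[[[[[[[Int.negSucc (nat_lit 329654501998795518667)]]]]]]]]],[[[[[[[[[Int.ofNat (nat_lit 1744198171856571926810)]]]]]]],[[[[[[[Int.ofNat (nat_lit 39477427150560037492)]]]]]]]]],[[[[[[[[[Int.ofNat (nat_lit 858640231604863130058)]]]]]]]]]]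

/-- A coefficient. -/
noncomputable def sr3_m1_1_9 : MP 10 :=
  [[[[[[[],[[[[Int.negSucc (nat_lit 12913772565511111295)]]]]]],[[[[[[Int.negSucc (nat_lit 68383181699428678999)]]]]]]]],[[[[[[[[Int.ofNat (nat_lit 1032037245765277892762)]]]]]]]]],[[],[[[[[[[[Int.ofNat (nat_lit 209856282110255389674)]]]]]]]]]]

/-- A coefficient. -/
noncomputable def sr3_m1_1_10 : MP 10 :=
  [[[[[[[[[[Int.negSucc (nat_lit 114955244862622306323)]]]]]]],[[[[[[[Int.negSucc (nat_lit 384933214132422937817)]]]]]]]]],[[[[[[[[[Int.ofNat (nat_lit 21368403873734240678)]]]]]]]]]]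

/-- A coefficient. -/
noncomputable def sr3_m1_1_11 : MP 10 :=
  [[[],[[[[[[[[Int.negSucc (nat_lit 312924090452675400871)]]]]]]]]]]

/-- A coefficient. -/
noncomputable def sr3_m1_1_12 : MP 10 :=
  [[[[[[[[[[Int.negSucc (nat_lit 120070754752261575165)]]]]]]]]]]

/-- A coefficient. -/
noncomputable def sr3_m1_2_0 : MP 10 :=
  [[[[[[[[[[Int.ofNat (nat_lit 0),Int.ofNat (nat_lit 0),Int.ofNat (nat_lit 285319244957154974330)]],[[Int.ofNat (nat_lit 0),Int.negSucc (nat_lit 23854561388614931)]],[[Int.ofNat (nat_lit 9057846625912928117)]]]],[[[[Int.ofNat (nat_lit 0),Int.ofNat (nat_lit 25901195319851661574)]],[[Int.ofNat (nat_lit 9855864460006392316)]]]],[[[[Int.ofNat (nat_lit 73190866027416406806)]]]]]],[[[[[[Int.ofNat (nat_lit 0),Int.negSucc (nat_lit 311691650106217604949)]],[[Int.ofNat (nat_lit 5826003058419807318)]]]],[[[[Int.negSucc (nat_lit 112076924029309240121)]]]]]],[[[[[[Int.ofNat (nat_lit 361499323294370486188)]]]]]]],[[],[[[[[[Int.ofNat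 (nat_lit 0),Int.ofNat (nat_lit 25366475695017971938)]],[[Int.ofNat (nat_lit 6003108188278843330)]]]],[[[[Int.ofNat (nat_lit 31156546547702904900)]]]]]],[[[[[[Int.negSucc (nat_lit 160972786295741656767)]]]]]]],[[],[],[[[[[[Int.ofNat (nat_lit 104195729423146116280)]]]]]]]],[[[[[[[[Int.ofNat (nat_lit 0),Int.ofNat (nat_lit 106638484178445911292)]],[[Int.ofNat (nat_lit 3983373954963778100)]]]],[[[[Int.ofNat (nat_lit 104393765499475437154)]]]]],[[[[[Int.ofNat (nat_lit 0),Int.ofNat (nat_lit 57306681184331238770)]],[[Int.ofNat (nat_lit 9282828903028460530)]]]],[[[[Int.ofNat (nat_lit 38548272366449467972)]]]]]],[[[[[[Int.negSucc (nat_lit 274158261881705457023)]]]]],[[[[[Int.negSucc (nat_lit 85009194953739049753)]]]]]]],[[[[[[[Int.ofNat (nat_lit 0),Int.ofNat (nat_lit 15579917712383923396)]],[[Int.ofNat (nat_lit 15432270572749195902)]]]],[[[[Int.ofNat (nat_lit 40626995588756096216)]]]]]],[[[[[[Int.negSucc (nat_lit 32716381227826369985)]]]]],[[[[[Int.negSucc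 (nat_lit 7736903800364628885)]]]]]]],[[],[[[[[[Int.negSucc (nat_lit 30507849136653383749)]]]]]]]],[[[[[[[[Int.ofNat (nat_lit 352233543464528194602)]]]]],[[[[[Int.ofNat (nat_lit 74796638722458833622)]]]]]]],[[[[[[[Int.negSucc (nat_lit 264935776058688427259)]]]]]]]],[[[[[[[[Int.ofNat (nat_lit 0),Int.negSucc (nat_lit 1308682047755871739)]],[[Int.negSucc (nat_lit 128250965694283983)]]]],[[[[Int.ofNat (nat_lit 2651143377325218260)]]]]]],[[[[[[Int.ofNat (nat_lit 49183314909849162470)]]]]]]],[[],[[[[[[Int.negSucc (nat_lit 10215662938116233641)]]]]]]]],[[[[[[[[Int.negSucc (nat_lit 69379253096830556873)]]]]]]]]],[[[[[[],[[[[Int.ofNat (nat_lit 0),Int.ofNat (nat_lit 13991202299688232682)]],[[Int.ofNat (nat_lit 2650807649222807212)]]]],[[[[Int.ofNat (nat_lit 97079305799683039442)]]]]]],[[[[[[Int.ofNat (nat_lit 0),Int.ofNat (nat_lit 39761726519854113658)]],[[Int.negSucc (nat_lit 4668293783874306765)]]]],[[[[Int.negSucc (nat_lit 69700698779913044837)]]]]]],[[[[[[Int.ofNat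 (nat_lit 286555770638559197652)]]]]]]],[[],[[[],[[[[Int.negSucc (nat_lit 19219142406388270631)]]]]]],[[[[[[Int.ofNat (nat_lit 25260283986154159056)]]]]]]]],[[[[[[[[Int.ofNat (nat_lit 0),Int.ofNat (nat_lit 14250466832654491824)]],[[Int.negSucc (nat_lit 1355966551466391555)]]]],[[[[Int.ofNat (nat_lit 156480162728029785380)]]]]]],[[[[[[Int.ofNat (nat_lit 1625740533657172984)]]]]]]],[[],[[[[[[Int.negSucc (nat_lit 17450244684866151413)]]]]]]]],[[[[[[[[Int.ofNat (nat_lit 339447329564031935194)]]]]]]]]],[[],[[[[[[[[Int.ofNat (nat_lit 0),Int.negSucc (nat_lit 20585081967508031819)]],[[Int.ofNat (nat_lit 2650153436632016012)]]]],[[[[Int.ofNat (nat_lit 17219227160622183750)]]]]]],[[[[[[Int.ofNat (nat_lit 85820660047201001274)]]]]]]],[[],[[[[[[Int.negSucc (nat_lit 23324041251566579039)]]]]]]]],[[[[[[[[Int.ofNat (nat_lit 2147132833322616968)]]]]]]]]]]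

/-- A coefficient. -/
noncomputable def sr3_m1_2_1 : MP 10 :=
  [[[[[[[[[[Int.ofNat (nat_lit 0),Int.negSucc (nat_lit 563110441058096085227)]],[[Int.negSucc (nat_lit 35634225278842536507)]]],[[[Int.ofNat (nat_lit 0),Int.ofNat (nat_lit 2157376118866691190)]],[[Int.ofNat (nat_lit 4573212854153492826)]]]],[[[[Int.negSucc (nat_lit 103941199494819383387)]]],[[[Int.ofNat (nat_lit 32437532391882006416)]]]]],[[[[[Int.ofNat (nat_lit 0),Int.ofNat (nat_lit 24985532097326437462)]],[[Int.ofNat (nat_lit 5036341989916766230)]]]],[[[[Int.ofNat (nat_lit 59363321469596748882)]]]]]],[[[[[[Int.ofNat (nat_lit 673719122174311092184)]]],[[[Int.negSucc (nat_lit 3839569640495143137)]]]]],[[[[[Int.ofNat (nat_lit 19005666781816209228)]]]]]]],[[[[[[[Int.ofNat (nat_lit 0),Int.negSucc (nat_lit 112145648554084939867)]],[[Int.ofNat (nat_lit 5886036931674642090)]]]],[[[[Int.negSucc (nat_lit 98361895016543249453)]]]]]],[[[[[[Int.ofNat (nat_lit 91603092669901324684)]]],[[[Int.negSucc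 (nat_lit 1129160662661931727)]]]]],[[[[[Int.negSucc (nat_lit 36831278481695499393)]]]]]]],[[],[[[[[[Int.negSucc (nat_lit 4146445891599865789)]]]]]]]],[[[[[[[[Int.negSucc (nat_lit 509013656041899376055)]]],[[[Int.ofNat (nat_lit 38636781725752465232)]]]]],[[[[[Int.ofNat (nat_lit 75847079783178581538)]]]]]],[[[[[[Int.ofNat (nat_lit 0),Int.negSucc (nat_lit 26796327034320783867)]],[[Int.ofNat (nat_lit 8386223510460922330)]]]],[[[[Int.negSucc (nat_lit 15488922073123345103)]]]]]],[[[[[[Int.negSucc (nat_lit 85607188610601473263)]]]]]]],[[[[[[[Int.ofNat (nat_lit 65324034548040105700)]]]]]],[],[[[[[[Int.negSucc (nat_lit 21961629977386317277)]]]]]]]],[[[[[[[[Int.ofNat (nat_lit 0),Int.negSucc (nat_lit 49641285935158864975)]],[[Int.ofNat (nat_lit 3289216784503407100)]]]],[[[[Int.ofNat (nat_lit 4309398127369347420)]]]]]],[[[[[[Int.ofNat (nat_lit 261992223279876693686)]]]]]]],[[],[[[[[[Int.negSucc (nat_lit 100799430857954738289)]]]]]]]],[[[[[[[[Int.negSucc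 (nat_lit 8211362866187739703)]]]]]]]]],[[[[[[[[[Int.ofNat (nat_lit 0),Int.negSucc (nat_lit 98940253156763345777)]],[[Int.negSucc (nat_lit 83908075848358409099)]]]],[[[[Int.negSucc (nat_lit 35150737098044643811)]]]]],[[[[],[[Int.ofNat (nat_lit 3383535097418569434)]]]],[[[[Int.negSucc (nat_lit 28260197063634294517)]]]]]],[[[[[[Int.ofNat (nat_lit 206119340108446725180)]]]]],[[[[[Int.ofNat (nat_lit 5667761279523706696)]]]]]]],[[[[[[[Int.ofNat (nat_lit 0),Int.negSucc (nat_lit 58704887526086144271)]],[[Int.ofNat (nat_lit 1387034543618985010)]]]],[[[[Int.ofNat (nat_lit 6437673004479809418)]]]]]],[[[[[[Int.negSucc (nat_lit 54800130129413761727)]]]]]]],[[],[[[[[[Int.negSucc (nat_lit 104510214147187121171)]]]]]]]],[[[[[[[[Int.ofNat (nat_lit 383463608957934929130)]]]]],[[[[[Int.ofNat (nat_lit 24283056756704941992)]]]]]]],[[[[[[[Int.negSucc (nat_lit 353558576998467600741)]]]]],[[[[[Int.negSucc (nat_lit 2899670942867202117)]]]]]]],[[[[[[[Int.ofNat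 (nat_lit 21720783600874884686)]]]]]]]],[[[[[[[],[[Int.ofNat (nat_lit 5479122517073342334)]]]],[[[[Int.negSucc (nat_lit 5623873208305268667)]]]]]],[[[[[[Int.negSucc (nat_lit 19267485104304845583)]]]]]]]],[[[[[[[[Int.negSucc (nat_lit 38207846313005351363)]]]]]]],[[[[[[[Int.negSucc (nat_lit 8192642805875105579)]]]]]]]]],[[[[[[[[[Int.ofNat (nat_lit 0),Int.negSucc (nat_lit 40360130767010129221)]],[[Int.negSucc (nat_lit 37681135428575647083)]]]],[[[[Int.negSucc (nat_lit 108285472351740239983)]]]]]],[[[[[[Int.ofNat (nat_lit 243134345927556108836)]]]]],[[[[[Int.ofNat (nat_lit 903443077139256308)]]]]]]],[[],[[[[[[Int.negSucc (nat_lit 140640230096931779941)]]]]]]]],[[[[[[[[Int.ofNat (nat_lit 239368845628018156766)]]]]],[[[[[Int.negSucc (nat_lit 24477192885407644583)]]]]]]],[[[[[[[Int.negSucc (nat_lit 55334793687037138079)]]]]]]]],[[[],[[[[[[Int.negSucc (nat_lit 12135695576398872079)]]]]]]]],[[[[[[[[Int.negSucc (nat_lit 30771075418596337435)]]]]]]]]],[[[[[[[[],[[Int.ofNat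 (nat_lit 63718776740494530)]]]],[[[[Int.negSucc (nat_lit 19909032533147594993)]]]]]],[[[[[[Int.negSucc (nat_lit 13151110526026590927)]]]]]]]],[[[[[[[[Int.negSucc (nat_lit 135133124210521276061)]]]]]]],[[[[[[[Int.ofNat (nat_lit 28654408572138694806)]]]]]]]]],[[[[],[[[[[[Int.negSucc (nat_lit 7121245369390368273)]]]]]]]],[[[[[[[[Int.negSucc (nat_lit 61469355544556914359)]]]]]]]]]]

/-- A coefficient. -/
noncomputable def sr3_m1_2_2 : MP 10 :=
  [[[[[[[[[],[],[[Int.negSucc (nat_lit 2722377850553450285)]]]],[[[[Int.ofNat (nat_lit 0),Int.ofNat (nat_lit 1604003063237853754)]],[[Int.negSucc (nat_lit 22438778863962496631)]]]],[[[[Int.negSucc (nat_lit 125877153222127210239)]]]]]],[[[[[[Int.ofNat (nat_lit 0),Int.negSucc (nat_lit 44447423702335556759)]],[[Int.negSucc (nat_lit 55387007053561544123)]]]],[[[[Int.ofNat (nat_lit 87518351135459269380)]]]]]],[[[[[[Int.negSucc (nat_lit 428257361018558745413)]]]]]]],[[],[[[],[[[[Int.ofNat (nat_lit 136051578280336850986)]]]]]],[[[[[[Int.negSucc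 (nat_lit 37220865517213860515)]]]]]]]],[[[[[[[[Int.ofNat (nat_lit 0),Int.ofNat (nat_lit 182265260238033756132)]],[[Int.negSucc (nat_lit 51586071397283635791)]]]],[[[[Int.ofNat (nat_lit 187189919989007355230)]]]]]],[[[[[[Int.ofNat (nat_lit 425588831535428376836)]]]]]]],[[[[[[],[[Int.negSucc (nat_lit 1719155640884247783)]]]],[[[[Int.negSucc (nat_lit 17866072813081118435)]]]]]],[[[[[[Int.ofNat (nat_lit 30341638374079092850)]]]]]]]],[[[[[[[[Int.negSucc (nat_lit 1439516004495743533437)]]]]]]],[[[[[[[Int.negSucc (nat_lit 123223715299930244169)]]]]]]],[[[[[[[Int.ofNat (nat_lit 48716396852448046168)]]]]]]]]],[[[[[[[[[Int.ofNat (nat_lit 162821384987282770296)]]]]],[[[[[Int.negSucc (nat_lit 49846026507614029717)]]]]],[[[[[Int.negSucc (nat_lit 21787770842803914675)]]]]]],[[[[[],[[Int.negSucc (nat_lit 6206313897531711993)]]]],[[[[Int.ofNat (nat_lit 56874206317724190320)]]]]]],[[[[[[Int.ofNat (nat_lit 18442025190342863278)]]]]]]],[[[[[[[Int.ofNat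 (nat_lit 402317814349747051340)]]]]],[[[[[Int.negSucc (nat_lit 41943045473059584639)]]]]]]],[[[[[[[Int.ofNat (nat_lit 20416964605519435812)]]]]]]]],[[[[[[[[Int.ofNat (nat_lit 0),Int.negSucc (nat_lit 206375053410370828511)]],[[Int.negSucc (nat_lit 8232209247629660745)]]]],[[[[Int.ofNat (nat_lit 300234505504731384076)]]]]]],[[[[[[Int.ofNat (nat_lit 255129864317778032224)]]]]]]],[[],[[[[[[Int.ofNat (nat_lit 77805582385839142932)]]]]]]]],[[[[[[[[Int.negSucc (nat_lit 933950352469868590549)]]]]],[[[[[Int.negSucc (nat_lit 163620234879838705449)]]]]]]],[[[[[[[Int.negSucc (nat_lit 93893843734709010371)]]]]]]]],[],[[[[[[[[Int.negSucc (nat_lit 57195257816091492731)]]]]]]]]],[[[[[[[[[Int.ofNat (nat_lit 191304682937928552354)]]]]],[[[[[Int.negSucc (nat_lit 79551861555913863335)]]]]]],[],[[[[[[Int.ofNat (nat_lit 6050176218809512530)]]]]]]],[[[[[[[Int.ofNat (nat_lit 464737831615541411878)]]]]]]]],[[[],[[[[[[Int.ofNat (nat_lit 19931951567450406982)]]]]]]]],[[[[[[[[Int.negSucc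 (nat_lit 182819084069051471173)]]]]]]]]],[[[[[[[[[Int.ofNat (nat_lit 218836633388034503496)]]]]],[[[[[Int.negSucc (nat_lit 30020175324045885839)]]]]]]],[[[[[[[Int.ofNat (nat_lit 24157630942301768926)]]]]]]]],[],[[[[[[[[Int.negSucc (nat_lit 30167588017576795439)]]]]]]]]],[[[[[[[[[Int.negSucc (nat_lit 41612733074615965701)]]]]]]]]],[[[[[[[[[Int.negSucc (nat_lit 92570249317917642459)]]]]]]]]]]

/-- A coefficient. -/
noncomputable def sr3_m1_2_3 : MP 10 :=
  [[[[[[[[[[Int.ofNat (nat_lit 0),Int.ofNat (nat_lit 90599537446832991014)]],[[Int.ofNat (nat_lit 3658367317960713804)]]]],[[[[Int.ofNat (nat_lit 33219600591064253342)]]]]],[[[[],[[Int.negSucc (nat_lit 14685485928406637641)]]]],[[[[Int.negSucc (nat_lit 15707912379048502837)]]]]]],[[[[[[Int.negSucc (nat_lit 1412854210122270195851)]]]]],[[[[[Int.ofNat (nat_lit 186825765194128587344)]]]]]]],[[[[[[[Int.ofNat (nat_lit 0),Int.negSucc (nat_lit 16123022862979648061)]],[[Int.negSucc (nat_lit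 22353296331223078655)]]]],[[[[Int.ofNat (nat_lit 214054200167611740770)]]]]]],[[[[[[Int.ofNat (nat_lit 233040785181909173280)]]]]]]],[[],[[[[[[Int.negSucc (nat_lit 208459919429183407013)]]]]]]]],[[[[[[[[Int.ofNat (nat_lit 922060001658976445434)]]]]],[[[[[Int.negSucc (nat_lit 285727719361461571357)]]]]]]],[[[[[[[Int.ofNat (nat_lit 289571963344439869794)]]]]],[[[[[Int.ofNat (nat_lit 125960726513634811664)]]]]]]],[[[[[[[Int.negSucc (nat_lit 213973253145842832021)]]]]]]]],[[[[[[[],[[Int.ofNat (nat_lit 19304735138375321128)]]]],[[[[Int.ofNat (nat_lit 56719957567216226532)]]]]]],[[[[[[Int.ofNat (nat_lit 8181692894369517330)]]]]]]]],[[[[[[[[Int.negSucc (nat_lit 261364802637137577787)]]]]]]],[[[[[[[Int.ofNat (nat_lit 85503961691837937448)]]]]]]]]],[[[[[[[[[Int.ofNat (nat_lit 0),Int.ofNat (nat_lit 178147423196850694000)]],[[Int.ofNat (nat_lit 39355131710684166934)]]]],[[[[Int.negSucc (nat_lit 98659188012622125023)]]]]]],[[[[[[Int.negSucc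 (nat_lit 168956235166471302489)]]]]],[[[[[Int.ofNat (nat_lit 186502591798843506862)]]]]]]],[[],[[[[[[Int.negSucc (nat_lit 18197746108744625073)]]]]]]]],[[[[[[[[Int.negSucc (nat_lit 369024727380252738589)]]]]],[[[[[Int.negSucc (nat_lit 63535541160143735135)]]]]]]],[[[[[[[Int.ofNat (nat_lit 742422456923212498750)]]]]]]]],[[[],[[[[[[Int.ofNat (nat_lit 213532567473863424186)]]]]]]]],[[[[[[[[Int.negSucc (nat_lit 137556625274780126555)]]]]]]]]],[[[[[[[[],[[Int.negSucc (nat_lit 6052834561074595719)]]]],[[[[Int.ofNat (nat_lit 87635631442816453374)]]]]]],[[[[[[Int.ofNat (nat_lit 189887512994493972158)]]]]]]]],[[[[[[[[Int.negSucc (nat_lit 133065501398506614085)]]]]]]],[[[[[[[Int.negSucc (nat_lit 139942624023725836665)]]]]]]]]],[[[[],[[[[[[Int.negSucc (nat_lit 93671069770786176971)]]]]]]]],[[[[[[[[Int.ofNat (nat_lit 79125915054150302882)]]]]]]]]]]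

/-- A coefficient. -/
noncomputable def sr3_m1_2_4 : MP 10 :=
  [[[[[[[[[[Int.negSucc (nat_lit 289355743215682136511)]]]]],[[[[[Int.ofNat (nat_lit 85115980067116140190)]]]]],[[[[[Int.ofNat (nat_lit 7726574391592947166)]]]]]],[[[[[],[[Int.ofNat (nat_lit 31507839978042553846)]]]],[[[[Int.ofNat (nat_lit 64955250467415824926)]]]]]],[[[[[[Int.negSucc (nat_lit 392870610046171123203)]]]]]]],[[[[[[[Int.negSucc (nat_lit 505660467383646445373)]]]]],[[[[[Int.negSucc (nat_lit 41465063892416958403)]]]]]]],[[[[[[[Int.ofNat (nat_lit 54590872083630414494)]]]]]]]],[[[[[[[[Int.ofNat (nat_lit 0),Int.negSucc (nat_lit 292690575166252702519)]],[[Int.ofNat (nat_lit 55611780487252087274)]]]],[[[[Int.negSucc (nat_lit 118990549201011313633)]]]]]],[[[[[[Int.ofNat (nat_lit 1156843370440407085388)]]]]]]],[[],[[[[[[Int.ofNat (nat_lit 72693690099931965832)]]]]]]]],[[[[[[[[Int.negSucc (nat_lit 54914701785701865423)]]]]],[[[[[Int.negSucc (nat_lit 51534457830299357741)]]]]]]],[[[[[[[Int.ofNat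 (nat_lit 33606173080747561994)]]]]]]]],[],[[[[[[[[Int.ofNat (nat_lit 164533233220544035274)]]]]]]]]],[[[[[[[[[Int.negSucc (nat_lit 1165610353216490304333)]]]]],[[[[[Int.ofNat (nat_lit 114166307384196920478)]]]]]],[],[[[[[[Int.negSucc (nat_lit 461749723047198799435)]]]]]]],[[[[[[[Int.negSucc (nat_lit 799066078351775108781)]]]]]]]],[[[],[[[[[[Int.ofNat (nat_lit 341812742112624542062)]]]]]]]],[[[[[[[[Int.ofNat (nat_lit 615868384294498353840)]]]]]]]]],[[[[[[[[[Int.negSucc (nat_lit 995441625243726987501)]]]]],[[[[[Int.ofNat (nat_lit 79469300862388551798)]]]]]]],[[[[[[[Int.negSucc (nat_lit 43277198444881925545)]]]]]]]],[],[[[[[[[[Int.ofNat (nat_lit 303460156881817611546)]]]]]]]]],[[[[[[[[[Int.negSucc (nat_lit 108062256705597188415)]]]]]]]]],[[[[[[[[[Int.ofNat (nat_lit 111254505511319037328)]]]]]]]]]]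

/-- A coefficient. -/
noncomputable def sr3_m1_2_5 : MP 10 :=
  [[[[[[[[[[Int.ofNat (nat_lit 0),Int.ofNat (nat_lit 376142195401224247596)]],[[Int.ofNat (nat_lit 93117471078694012786)]]]],[[[[Int.ofNat (nat_lit 57501953779885315512)]]]]]],[[[[[[Int.negSucc (nat_lit 570599015531954537427)]]]]],[[[[[Int.negSucc (nat_lit 106230376369730137867)]]]]]]],[[],[[[[[[Int.negSucc (nat_lit 125860364548911180983)]]]]]]]],[[[[[[[[Int.ofNat (nat_lit 3454232920271947958004)]]]]],[[[[[Int.ofNat (nat_lit 199450462916642498222)]]]]]]],[[[[[[[Int.negSucc (nat_lit 514679979191854376927)]]]]]]]],[[[],[[[[[[Int.negSucc (nat_lit 56901948572220440255)]]]]]]]],[[[[[[[[Int.negSucc (nat_lit 105158638045997710765)]]]]]]]]],[[[[[[[[],[[Int.ofNat (nat_lit 26556793392784553064)]]]],[[[[Int.negSucc (nat_lit 36628885562928820203)]]]]]],[[[[[[Int.negSucc (nat_lit 852206641461616785717)]]]]]]]],[[[[[[[[Int.ofNat (nat_lit 1223995501276614541614)]]]]]]],[[[[[[[Int.ofNat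 (nat_lit 112706110315865849076)]]]]]]]]],[[[[],[[[[[[Int.negSucc (nat_lit 254290878924434247523)]]]]]]]],[[[[[[[[Int.ofNat (nat_lit 45764819829933052120)]]]]]]]]]]

/-- A coefficient. -/
noncomputable def sr3_m1_2_6 : MP 10 :=
  [[[[[[[[[[Int.negSucc (nat_lit 2133930210763016249881)]]]]],[[[[[Int.ofNat (nat_lit 92024972376227664826)]]]]]],[],[[[[[[Int.negSucc (nat_lit 39516743117575200725)]]]]]]],[[[[[[[Int.ofNat (nat_lit 458564241158244122016)]]]]]]]],[[[],[[[[[[Int.negSucc (nat_lit 350451861827079800389)]]]]]]]],[[[[[[[[Int.ofNat (nat_lit 543075223459338279088)]]]]]]]]],[[[[[[[[[Int.negSucc (nat_lit 896803045087884085271)]]]]],[[[[[Int.ofNat (nat_lit 153102714940943081476)]]]]]]],[[[[[[[Int.ofNat (nat_lit 296949571002854754766)]]]]]]]],[],[[[[[[[[Int.negSucc (nat_lit 264653598783631785525)]]]]]]]]],[[[[[[[[[Int.negSucc (nat_lit 830793255278002627075)]]]]]]]]],[[[[[[[[[Int.negSucc (nat_lit 305732614653315970275)]]]]]]]]]]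

/-- A coefficient. -/
noncomputable def sr3_m1_2_7 : MP 10 :=
  [[[[[[[[[],[[Int.negSucc (nat_lit 72912727431927288969)]]]],[[[[Int.negSucc (nat_lit 27101129934206759623)]]]]]],[[[[[[Int.ofNat (nat_lit 1325595951431844460190)]]]]]]]],[[[[[[[[Int.negSucc (nat_lit 6053732296892100704395)]]]]]]],[[[[[[[Int.ofNat (nat_lit 266587353426307734738)]]]]]]]]],[[[[],[[[[[[Int.ofNat (nat_lit 784043013505331181530)]]]]]]]],[[[[[[[[Int.negSucc (nat_lit 1084221456596191947393)]]]]]]]]]]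

/-- A coefficient. -/
noncomputable def sr3_m1_2_8 : MP 10 :=
  [[[[[[[[[[Int.ofNat (nat_lit 6535829736558188829880)]]]]],[[[[[Int.negSucc (nat_lit 67016045804718028279)]]]]]]],[[[[[[[Int.negSucc (nat_lit 93762673183166899887)]]]]]]]],[],[[[[[[[[Int.negSucc (nat_lit 192638875108062718409)]]]]]]]]],[[[[[[[[[Int.ofNat (nat_lit 3133845945341186263138)]]]]]]]]],[[[[[[[[[Int.ofNat (nat_lit 859938874360153725850)]]]]]]]]]]

/-- A coefficient. -/
noncomputable def sr3_m1_2_9 : MP 10 :=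
  [[[[[],[[[[[[Int.negSucc (nat_lit 388506655792095565975)]]]]]]]],[[[[[[[[Int.ofNat (nat_lit 2827659526541418024444)]]]]]]]]]]

/-- A coefficient. -/
noncomputable def sr3_m1_2_10 : MP 10 :=
  [[[[[[[[[[Int.negSucc (nat_lit 6093504996003046645881)]]]]]]]]],[[[[[[[[[Int.negSucc (nat_lit 1403621507174325964797)]]]]]]]]]]

/-- A coefficient. -/
noncomputable def sr3_m1_2_11 : MP 10 :=
  []

/-- A coefficient. -/
noncomputable def sr3_m1_2_12 : MP 10 :=
  [[[[[[[[[[Int.ofNat (nat_lit 1898378322921698754828)]]]]]]]]]]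

/-- A coefficient. -/
noncomputable def sr3_m1_3_0 : MP 10 :=
  [[[[[[[[[],[[Int.ofNat (nat_lit 0),Int.ofNat (nat_lit 125404196996320740)]],[[Int.negSucc (nat_lit 10896382528060544159)]]]],[[[[Int.ofNat (nat_lit 0),Int.ofNat (nat_lit 20710139840230620214)]],[[Int.negSucc (nat_lit 23174757091909422067)]]]],[[[[Int.negSucc (nat_lit 31336631648562775097)]]]]]],[[[[[[Int.ofNat (nat_lit 0),Int.negSucc (nat_lit 45943892554551491649)]],[[Int.negSucc (nat_lit 7379863303396567181)]]]],[[[[Int.negSucc (nat_lit 17976642802864855959)]]]]]],[[[[[[Int.negSucc (nat_lit 330604721542413751423)]]]]]]],[[],[[[[[],[[Int.negSucc (nat_lit 12415177025652024683)]]]],[[[[Int.ofNat (nat_lit 29652028847483334020)]]]]]],[[[[[[Int.negSucc (nat_lit 43814078526336451251)]]]]]]]],[[[[[[[[Int.ofNat (nat_lit 0),Int.ofNat (nat_lit 29334958916740805786)]],[[Int.ofNat (nat_lit 8479862957855963322)]]]],[[[[Int.ofNat (nat_lit 28949074227511798270)]]]]]],[[[[[[Int.ofNat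 (nat_lit 204683088774034018888)]]]]]]],[[[[[[[Int.ofNat (nat_lit 0),Int.ofNat (nat_lit 1157849276222806840)]],[[Int.negSucc (nat_lit 8840759254804170997)]]]],[[[[Int.negSucc (nat_lit 83736046264003421285)]]]]]],[[[[[[Int.negSucc (nat_lit 245330104291328827293)]]]]]]],[[],[[[[[[Int.ofNat (nat_lit 12030553588135671578)]]]]]]]],[[[[[[[[Int.negSucc (nat_lit 470801797867955682805)]]]]]]],[[[[[[[Int.ofNat (nat_lit 92448980928811264420)]]]]]]]]],[[[[],[[[[[[Int.ofNat (nat_lit 0),Int.negSucc (nat_lit 13664761647231061457)]],[[Int.negSucc (nat_lit 3005945311891357643)]]]],[[[[Int.ofNat (nat_lit 12976268717299889176)]]]]]],[[[[[[Int.negSucc (nat_lit 155232038425924529719)]]]]]]],[[],[],[[[[[[Int.negSucc (nat_lit 87640995116835325789)]]]]]]]],[[[[[[[[Int.ofNat (nat_lit 0),Int.ofNat (nat_lit 26063781727642546258)]],[[Int.ofNat (nat_lit 11450266971564484414)]]]],[[[[Int.negSucc (nat_lit 25320057766973701179)]]]]]],[[[[[[Int.ofNat (nat_lit 119361314612755198822)]]]]]]],[[],[[[[[[Int.negSucc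 (nat_lit 252879067005036431277)]]]]]]]],[[[[[[[[Int.negSucc (nat_lit 40745535905076404963)]]]]]]]]]]

/-- A coefficient. -/
noncomputable def sr3_m1_3_1 : MP 10 :=
  [[[[[[[[[[Int.ofNat (nat_lit 0),Int.negSucc (nat_lit 19254451679909870583)]],[[Int.negSucc (nat_lit 22715307008939282005)]]]],[[[[Int.negSucc (nat_lit 91078106217830282429)]]]]],[[[[[Int.ofNat (nat_lit 0),Int.ofNat (nat_lit 70218243187671270684)]],[[Int.negSucc (nat_lit 8160035379167306931)]]]],[[[[Int.negSucc (nat_lit 67837990723660428987)]]]]]],[[[[[[Int.ofNat (nat_lit 22943262532306548954)]]]]],[[[[[Int.negSucc (nat_lit 59293717212019527535)]]]]]]],[[[[[[[Int.ofNat (nat_lit 0),Int.negSucc (nat_lit 29117056998444705701)]],[[Int.ofNat (nat_lit 38887401698341748700)]]]],[[[[Int.ofNat (nat_lit 81452438014779019014)]]]]]],[[[[[[Int.negSucc (nat_lit 23846739872564837937)]]]]],[[[[[Int.ofNat (nat_lit 71392202727033878516)]]]]]]],[[],[[[[[[Int.ofNat (nat_lit 107913583964107401324)]]]]]]]],[[[[[[[[Int.negSucc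 (nat_lit 151587080739090920289)]]]]],[[[[[Int.negSucc (nat_lit 93548508766362737137)]]]]]]],[[[[[[[Int.ofNat (nat_lit 253496867041284008362)]]]]]]]],[[[[[[[[Int.ofNat (nat_lit 0),Int.ofNat (nat_lit 118840513699925458800)]],[[Int.negSucc (nat_lit 2613217907622204969)]]]],[[[[Int.ofNat (nat_lit 50988749583734832788)]]]]]],[[[[[[Int.negSucc (nat_lit 280915977716658588043)]]]]]]],[[],[[[[[[Int.ofNat (nat_lit 115496380847076997440)]]]]]]]],[[[[[[[[Int.ofNat (nat_lit 258535990148278418056)]]]]]]]]],[[[[[[[[[Int.ofNat (nat_lit 0),Int.negSucc (nat_lit 48756012546069940449)]],[[Int.ofNat (nat_lit 11893989495310092628)]]]],[[[[Int.ofNat (nat_lit 28716005864047428740)]]]]],[[],[[[[Int.ofNat (nat_lit 40416128432703319608)]]]]]],[[[[[[Int.negSucc (nat_lit 223172048455933474247)]]]]],[[[[[Int.negSucc (nat_lit 51504548681540431205)]]]]]]],[[[[],[[[[Int.negSucc (nat_lit 69631004752691773881)]]]]]],[[[[[[Int.ofNat (nat_lit 247077390679632835876)]]]]]]]],[[[[[[[[Int.negSucc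 (nat_lit 675487292328770839053)]]]]],[[[[[Int.ofNat (nat_lit 7338316810218009436)]]]]]]],[[[[[[[Int.negSucc (nat_lit 49258182908559716913)]]]]]]]],[[[[[],[[[[Int.ofNat (nat_lit 2816309514056420442)]]]]]],[[[[[[Int.negSucc (nat_lit 24860380144973324533)]]]]]]]],[[[[[[[[Int.negSucc (nat_lit 7904235319088764725)]]]]]]]]],[[[[[[[[[Int.ofNat (nat_lit 0),Int.negSucc (nat_lit 71243989734855240415)]],[[Int.ofNat (nat_lit 21140339150012810320)]]]],[[[[Int.ofNat (nat_lit 130947555673744576794)]]]]]],[[[[[[Int.negSucc (nat_lit 80064559696327914193)]]]]]]],[[],[[[[[[Int.ofNat (nat_lit 55224844152188153268)]]]]]]]],[[[[[[[[Int.negSucc (nat_lit 38831450438427082287)]]]]],[[[[[Int.negSucc (nat_lit 5186804940709040673)]]]]]]],[[[[[[[Int.negSucc (nat_lit 29081438219683124541)]]]]]]]],[],[[[[[[[[Int.negSucc (nat_lit 14715865775666953715)]]]]]]]]],[[[[[[],[[[[Int.ofNat (nat_lit 30223418778445922316)]]]]]],[[[[[[Int.ofNat (nat_lit 44161430934776375090)]]]]]]]],[[[[[[[[Int.ofNat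 (nat_lit 115817486901653238308)]]]]]]]]],[[],[[[[[[[[Int.ofNat (nat_lit 86794228067078666232)]]]]]]]]]]

/-- A coefficient. -/
noncomputable def sr3_m1_3_2 : MP 10 :=
  [[[[[[[],[[[],[[Int.ofNat (nat_lit 2949743925060300500)]]]],[[[[Int.ofNat (nat_lit 13117689063546889920)]]]]]],[[[[[[Int.ofNat (nat_lit 0),Int.ofNat (nat_lit 117484212658213079972)]],[[Int.ofNat (nat_lit 57513606743877739702)]]]],[[[[Int.ofNat (nat_lit 39448815833424881802)]]]]]],[[[[[[Int.ofNat (nat_lit 699971852608988712890)]]]]]]],[[],[],[[[[[[Int.negSucc (nat_lit 160150653416074894145)]]]]]]]],[[[[[[[[Int.ofNat (nat_lit 0),Int.negSucc (nat_lit 196863022646856265375)]],[[Int.negSucc (nat_lit 21163561307006047729)]]]],[[[[Int.negSucc (nat_lit 540075657916984037907)]]]]]],[[[[[[Int.negSucc (nat_lit 270200784312331839515)]]]]]]],[[[[],[[[[Int.ofNat (nat_lit 60673508503269560850)]]]]]],[[[[[[Int.ofNat (nat_lit 97523204641531625260)]]]]]]]],[[[[[[[[Int.ofNat (nat_lit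 312379274008719987020)]]]]]]],[[[[[[[Int.ofNat (nat_lit 181704270794558580346)]]]]]]]]],[[[[[[[[[Int.ofNat (nat_lit 2496418395420550610972)]]]]],[[[[[Int.ofNat (nat_lit 112826809721246398012)]]]]]],[[[],[[[[Int.ofNat (nat_lit 62101379866752561788)]]]]]],[[[[[[Int.negSucc (nat_lit 43335587821809747261)]]]]]]],[[[[[[[Int.negSucc (nat_lit 1081048228519811089363)]]]]],[[[[[Int.negSucc (nat_lit 373433905068362109)]]]]]]],[[[[[[[Int.ofNat (nat_lit 315641184539297761338)]]]]]]]],[[[[[[[],[[Int.ofNat (nat_lit 15691023618975676532)]]]],[[[[Int.negSucc (nat_lit 279618631570707281027)]]]]]],[[[[[[Int.ofNat (nat_lit 322975464987374596960)]]]]]]]],[[[[[[[[Int.negSucc (nat_lit 296178991779124044561)]]]]]]],[[[[[[[Int.ofNat (nat_lit 170856590573785494062)]]]]]]]]],[[[[[[[[[Int.ofNat (nat_lit 2722959309316396107854)]]]]],[[[[[Int.ofNat (nat_lit 105855104595390872250)]]]]]]],[[[[[[[Int.negSucc (nat_lit 592108492181651558933)]]]]]]]],[[[],[[[[[[Int.ofNat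 (nat_lit 57918487348717223380)]]]]]]]],[[[[[[[[Int.negSucc (nat_lit 118471495135109469135)]]]]]]]]],[[[[[[[[[Int.ofNat (nat_lit 802434740833767900572)]]]]]]],[[[[[[[Int.ofNat (nat_lit 96445994687282196792)]]]]]]]]],[[[[[[[[[Int.negSucc (nat_lit 71654313830217632283)]]]]]]]]]]

/-- A coefficient. -/
noncomputable def sr3_m1_3_3 : MP 10 :=
  [[[[[[[[[[Int.ofNat (nat_lit 0),Int.negSucc (nat_lit 439606443086045709679)]],[[Int.ofNat (nat_lit 62998222999662159140)]]]],[[[[Int.ofNat (nat_lit 386861910657220156956)]]]]],[[],[[[[Int.ofNat (nat_lit 20754767633227706372)]]]]]],[[[[[[Int.ofNat (nat_lit 1452530890302089372708)]]]]],[[[[[Int.negSucc (nat_lit 10027362000248473113)]]]]]]],[[[[[[],[[Int.negSucc (nat_lit 11971037403005594455)]]]],[[[[Int.negSucc (nat_lit 181905604732124111247)]]]]]],[[[[[[Int.negSucc (nat_lit 425509872676677654691)]]]]]]]],[[[[[[[[Int.ofNat (nat_lit 773072156845476730748)]]]]],[[[[[Int.ofNat (nat_lit 113559067252985760016)]]]]]]],[[[[[[[Int.ofNat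 (nat_lit 31961464439671883856)]]]]]]],[[[[[[[Int.ofNat (nat_lit 36467160707433059934)]]]]]]]],[[[[[],[[[[Int.negSucc (nat_lit 47436321020712884617)]]]]]],[[[[[[Int.ofNat (nat_lit 74684949632739290022)]]]]]]]],[[[[[[[[Int.ofNat (nat_lit 255951258831432447936)]]]]]]]]],[[[[[[[[[Int.ofNat (nat_lit 0),Int.ofNat (nat_lit 75205955169713741222)]],[[Int.negSucc (nat_lit 37711001305130776139)]]]],[[[[Int.ofNat (nat_lit 188413079192555844804)]]]]]],[[[[[[Int.negSucc (nat_lit 459806544892943794867)]]]]]]],[[],[[[[[[Int.negSucc (nat_lit 143749442718149554011)]]]]]]]],[[[[[[[[Int.ofNat (nat_lit 2807099620669463976212)]]]]],[[[[[Int.ofNat (nat_lit 112944528745070931964)]]]]]]],[[[[[[[Int.negSucc (nat_lit 329001501195941451151)]]]]]]]],[],[[[[[[[[Int.ofNat (nat_lit 278662506268318595702)]]]]]]]]],[[[[[[],[[[[Int.negSucc (nat_lit 19423729049339624775)]]]]]],[[[[[[Int.negSucc (nat_lit 104019869014745693881)]]]]]]]],[[[[[[[[Int.ofNat (nat_lit 1282117902992952525886)]]]]]]]]],[[],[[[[[[[[Int.ofNat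 (nat_lit 69882913091456991284)]]]]]]]]]]

/-- A coefficient. -/
noncomputable def sr3_m1_3_4 : MP 10 :=
  [[[[[[[[[[Int.negSucc (nat_lit 1618203952457914644581)]]]]],[[[[[Int.negSucc (nat_lit 113322612603986453429)]]]]]],[[[],[[[[Int.ofNat (nat_lit 51249073729739874964)]]]]]],[[[[[[Int.negSucc (nat_lit 218775279003991531727)]]]]]]],[[[[[[[Int.ofNat (nat_lit 776153330542906752960)]]]]],[[[[[Int.ofNat (nat_lit 1943919834573315072)]]]]]]],[[[[[[[Int.negSucc (nat_lit 176491373816610602721)]]]]]]]],[[[[[[[],[[Int.negSucc (nat_lit 28734508686161124285)]]]],[[[[Int.ofNat (nat_lit 46507801501745114452)]]]]]],[[[[[[Int.negSucc (nat_lit 28796640775666451019)]]]]]]]],[[[[[[[[Int.ofNat (nat_lit 74604964810902481802)]]]]]]],[[[[[[[Int.negSucc (nat_lit 2976865833146355113)]]]]]]]]],[[[[[[[[[Int.negSucc (nat_lit 5552545556656024561421)]]]]],[[[[[Int.negSucc (nat_lit 213462490125156487091)]]]]]]],[[[[[[[Int.ofNat (nat_lit 1029917091331425946236)]]]]]]]],[[[],[[[[[[Int.negSucc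 (nat_lit 287062124751337615737)]]]]]]]],[[[[[[[[Int.ofNat (nat_lit 152199629336605629534)]]]]]]]]],[[[[[[[[[Int.negSucc (nat_lit 3564596609831180362183)]]]]]]],[[[[[[[Int.ofNat (nat_lit 405374325543059482284)]]]]]]]]],[[[[[[[[[Int.negSucc (nat_lit 795759640292164764929)]]]]]]]]]]

/-- A coefficient. -/
noncomputable def sr3_m1_3_5 : MP 10 :=
  [[[[[[[[[[Int.ofNat (nat_lit 0),Int.ofNat (nat_lit 287478481006515934416)]],[[Int.negSucc (nat_lit 1480111040404659759)]]]],[[[[Int.negSucc (nat_lit 39790928548613411913)]]]]]],[[[[[[Int.negSucc (nat_lit 2185172850939086520315)]]]]]]],[[],[[[[[[Int.ofNat (nat_lit 90581287005230196574)]]]]]]]],[[[[[[[[Int.negSucc (nat_lit 396306346673676271237)]]]]],[[[[[Int.negSucc (nat_lit 20084566322981886967)]]]]]]],[[[[[[[Int.ofNat (nat_lit 121936932090784232120)]]]]]]]],[],[[[[[[[[Int.negSucc (nat_lit 349927103437909701731)]]]]]]]]],[[[[[[],[[[[Int.negSucc (nat_lit 100467413902487420137)]]]]]],[[[[[[Int.ofNat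 (nat_lit 533022733168501296318)]]]]]]]],[[[[[[[[Int.negSucc (nat_lit 1891208746514958120645)]]]]]]]]],[[],[[[[[[[[Int.negSucc (nat_lit 349552631303269498519)]]]]]]]]]]

/-- A coefficient. -/
noncomputable def sr3_m1_3_6 : MP 10 :=
  [[[[[[[[[[Int.ofNat (nat_lit 1408720706277927582468)]]]]],[[[[[Int.negSucc (nat_lit 25892626242322249479)]]]]]]],[[[[[[[Int.negSucc (nat_lit 570661476474084694361)]]]]]]]],[[[],[[[[[[Int.ofNat (nat_lit 27177862974053818528)]]]]]]]],[[[[[[[[Int.ofNat (nat_lit 468751714212677848150)]]]]]]]]],[[[[[[[[[Int.ofNat (nat_lit 3104620044637014410160)]]]]]]],[[[[[[[Int.negSucc (nat_lit 80235528892025020613)]]]]]]]]],[[[[[[[[[Int.ofNat (nat_lit 913238977353896181754)]]]]]]]]]]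

/-- A coefficient. -/
noncomputable def sr3_m1_3_7 : MP 10 :=
  [[[[[[[],[[[[Int.negSucc (nat_lit 78058727312359686393)]]]]]],[[[[[[Int.ofNat (nat_lit 530428194181987816846)]]]]]]]],[[[[[[[[Int.negSucc (nat_lit 292078385259945235571)]]]]]]]]],[[],[[[[[[[[Int.ofNat (nat_lit 53661712185662127554)]]]]]]]]]]

/-- A coefficient. -/
noncomputable def sr3_m1_3_8 : MP 10 :=
  [[[[[[[[[[Int.ofNat (nat_lit 94340123302422761984)]]]]]]],[[[[[[[Int.negSucc (nat_lit 85007336144684740359)]]]]]]]]],[[[[[[[[[Int.negSucc (nat_lit 399412219323451555379)]]]]]]]]]]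

/-- A coefficient. -/
noncomputable def sr3_m1_3_9 : MP 10 :=
  [[[],[[[[[[[[Int.negSucc (nat_lit 190939000485305997671)]]]]]]]]]]

/-- A coefficient. -/
noncomputable def sr3_m1_3_10 : MP 10 :=
  [[[[[[[[[[Int.negSucc (nat_lit 283056713385333988019)]]]]]]]]]]

/-- A coefficient. -/
noncomputable def sr3_m1_4_0 : MP 10 :=
  [[[[[[[],[[[[Int.ofNat (nat_lit 0),Int.negSucc (nat_lit 3318195222516298127)]],[[Int.ofNat (nat_lit 7149369796238635684)]]]],[[[[Int.negSucc (nat_lit 63676974429758981017)]]]]]],[[[[[[Int.ofNat (nat_lit 0),Int.ofNat (nat_lit 11520150425488961504)]],[[Int.ofNat (nat_lit 19001696085783568092)]]]],[[[[Int.ofNat (nat_lit 189431200517341200776)]]]]]],[[[[[[Int.negSucc (nat_lit 439686531224795097647)]]]]]]],[[],[[[],[[[[Int.negSucc (nat_lit 50620088988346047395)]]]]]],[[[[[[Int.ofNat (nat_lit 196028733281939138508)]]]]]]]],[[[[[[[[Int.ofNat (nat_lit 0),Int.negSucc (nat_lit 55132858341468182385)]],[[Int.negSucc (nat_lit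 15468918424854224259)]]]],[[[[Int.negSucc (nat_lit 188641021859288839005)]]]]]],[[[[[[Int.ofNat (nat_lit 238018427918764440180)]]]]]]],[[],[[[[[[Int.ofNat (nat_lit 335305654346065716250)]]]]]]]],[[[[[[[[Int.negSucc (nat_lit 467150878190253552271)]]]]]]]]],[[],[[[[[[[[Int.ofNat (nat_lit 0),Int.ofNat (nat_lit 2544033783852067742)]],[[Int.negSucc (nat_lit 9317991067741287523)]]]],[[[[Int.ofNat (nat_lit 13850485988645782596)]]]]]],[[[[[[Int.negSucc (nat_lit 134772153403577366625)]]]]]]],[[],[[[[[[Int.ofNat (nat_lit 204944761422175416816)]]]]]]]],[[[[[[[[Int.negSucc (nat_lit 125494023545749307879)]]]]]]]]]]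

/-- A coefficient. -/
noncomputable def sr3_m1_4_1 : MP 10 :=
  [[[[[[[[[[Int.ofNat (nat_lit 0),Int.ofNat (nat_lit 118732981808778589750)]],[[Int.ofNat (nat_lit 151159999600145978544)]]]],[[[[Int.ofNat (nat_lit 83861255567413664600)]]]]]],[[[[[[Int.negSucc (nat_lit 729926101806992686409)]]]]]]],[[[[[[[Int.ofNat (nat_lit 0),Int.ofNat (nat_lit 44640537629160875090)]],[[Int.negSucc (nat_lit 32004753593899296789)]]]],[[[[Int.ofNat (nat_lit 49605446955503422500)]]]]]],[[[[[[Int.negSucc (nat_lit 2080790304298711833)]]]]]]],[[],[[[[[[Int.ofNat (nat_lit 44934908164890103730)]]]]]]]],[[[[[[[[Int.ofNat (nat_lit 547208380535270446432)]]]]]]],[[[[[[[Int.negSucc (nat_lit 117104874421584022837)]]]]]]]]],[[[[[[[[[Int.ofNat (nat_lit 0),Int.ofNat (nat_lit 17761410335093648654)]],[[Int.ofNat (nat_lit 76231238463290438948)]]]],[[[[Int.negSucc (nat_lit 126728405263785740523)]]]]]],[[[[[[Int.negSucc (nat_lit 53413358433575362397)]]]]],[[[[[Int.ofNat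 (nat_lit 20193365224075316124)]]]]]]],[[],[[[[[[Int.negSucc (nat_lit 69434664352405909023)]]]]]]]],[[[[[[[[Int.negSucc (nat_lit 322517277746095094423)]]]]],[[[[[Int.negSucc (nat_lit 43029036127860925249)]]]]]]],[[[[[[[Int.ofNat (nat_lit 66535266344415513154)]]]]]]]],[[[],[[[[[[Int.ofNat (nat_lit 20999077143533164386)]]]]]]]],[[[[[[[[Int.ofNat (nat_lit 21324850823257293332)]]]]]]]]],[[[[],[[[[[[Int.ofNat (nat_lit 41824231850017754108)]]]]]]]],[[[[[[[[Int.negSucc (nat_lit 24669283843222318903)]]]]]]]]],[[[[],[[[[[[Int.negSucc (nat_lit 26299016600518315621)]]]]]]]],[[[[[[[[Int.ofNat (nat_lit 43652549709699126012)]]]]]]]]]]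

/-- A coefficient. -/
noncomputable def sr3_m1_4_2 : MP 10 :=
  [[[[[],[[[[[],[[Int.negSucc (nat_lit 3763112475285942867)]]]],[[[[Int.negSucc (nat_lit 18906961760516008355)]]]]]],[[[[[[Int.negSucc (nat_lit 93916449751127530151)]]]]]]]],[[[[[[[[Int.ofNat (nat_lit 0),Int.negSucc (nat_lit 71369276839771563865)]],[[Int.ofNat (nat_lit 52560070897003896954)]]]],[[[[Int.negSucc (nat_lit 85096789939135359343)]]]]]],[[[[[[Int.ofNat (nat_lit 137455014479999392760)]]]]]]],[[],[[[[[[Int.negSucc (nat_lit 140884900399551214485)]]]]]]]],[[[[[[[[Int.ofNat (nat_lit 492600920301266328380)]]]]]]],[[[[[[[Int.negSucc (nat_lit 46245442447914088103)]]]]]]]]],[[[[[[[[[Int.negSucc (nat_lit 1526587997157705406677)]]]]],[[[[[Int.negSucc (nat_lit 38210808827290640161)]]]]]],[],[[[[[[Int.negSucc (nat_lit 2164721857826081341)]]]]]]],[[[[[[[Int.ofNat (nat_lit 205862027182321003872)]]]]]]]],[[[],[[[[[[Int.negSucc (nat_lit 68342942247988844353)]]]]]]]],[[[[[[[[Int.ofNat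 (nat_lit 262992877477287389184)]]]]]]]]],[[[[[[[[[Int.negSucc (nat_lit 1706253518883384862715)]]]]],[[[[[Int.negSucc (nat_lit 34297578837731983207)]]]]]]],[[[[[[[Int.ofNat (nat_lit 49789911738129035916)]]]]]]]],[],[[[[[[[[Int.ofNat (nat_lit 84108778684856093684)]]]]]]]]],[[[[[[[[[Int.negSucc (nat_lit 455700571068238326169)]]]]]]]]],[[[[[[[[[Int.ofNat (nat_lit 63938802291992599034)]]]]]]]]]]

/-- A coefficient. -/
noncomputable def sr3_m1_4_3 : MP 10 :=
  [[[[[[[[[[Int.ofNat (nat_lit 0),Int.ofNat (nat_lit 384206331107871494278)]],[[Int.negSucc (nat_lit 65815811483765944671)]]]],[[[[Int.ofNat (nat_lit 37805009278915694636)]]]]]],[[[[[[Int.ofNat (nat_lit 1179235695193139402504)]]]]],[[[[[Int.ofNat (nat_lit 19367373664616202672)]]]]]]],[[],[[[[[[Int.negSucc (nat_lit 241617509885240464949)]]]]]]]],[[[[[[[[Int.negSucc (nat_lit 877587514466280000213)]]]]],[[[[[Int.ofNat (nat_lit 52570755706988182422)]]]]]]],[[[[[[[Int.ofNat (nat_lit 242390554845769344866)]]]]]]]],[[[],[[[[[[Int.negSucc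 (nat_lit 1381390857414098221)]]]]]]]],[[[[[[[[Int.ofNat (nat_lit 231471048060237391652)]]]]]]]]],[[[[[[[[],[[Int.ofNat (nat_lit 8869323497068599504)]]]],[[[[Int.negSucc (nat_lit 33395521945995196917)]]]]]],[[[[[[Int.ofNat (nat_lit 627719362973301402366)]]]]]]]],[[[[[[[[Int.negSucc (nat_lit 950369410049230127437)]]]]]]],[[[[[[[Int.ofNat (nat_lit 37989514966384151386)]]]]]]]]],[[[[],[[[[[[Int.ofNat (nat_lit 41716218818012606288)]]]]]]]],[[[[[[[[Int.negSucc (nat_lit 484982596976795247753)]]]]]]]]]]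

/-- A coefficient. -/
noncomputable def sr3_m1_4_4 : MP 10 :=
  [[[[[[[[[[Int.ofNat (nat_lit 1463722133592938397378)]]]]],[[[[[Int.ofNat (nat_lit 163428966227247662374)]]]]]],[],[[[[[[Int.ofNat (nat_lit 87529926837583192052)]]]]]]],[[[[[[[Int.negSucc (nat_lit 324329601292641812997)]]]]]]]],[[[],[[[[[[Int.negSucc (nat_lit 106428187953170978297)]]]]]]]],[[[[[[[[Int.negSucc (nat_lit 188239065661656653361)]]]]]]]]],[[[[[[[[[Int.ofNat (nat_lit 3344332354673324905842)]]]]],[[[[[Int.negSucc (nat_lit 15095639721923838119)]]]]]]],[[[[[[[Int.negSucc (nat_lit 14053526336364592489)]]]]]]]],[],[[[[[[[[Int.ofNat (nat_lit 78874399425664189132)]]]]]]]]],[[[[[[[[[Int.ofNat (nat_lit 1676140801990607974386)]]]]]]]]],[[[[[[[[[Int.ofNat (nat_lit 294490282036392274318)]]]]]]]]]]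

/-- A coefficient. -/
noncomputable def sr3_m1_4_5 : MP 10 :=
  [[[[[[[[[],[[Int.negSucc (nat_lit 82278008128627357695)]]]],[[[[Int.negSucc (nat_lit 104249368986084283921)]]]]]],[[[[[[Int.negSucc (nat_lit 25792023162395781051)]]]]]]]],[[[[[[[[Int.negSucc (nat_lit 1417734314644479742387)]]]]]]],[[[[[[[Int.ofNat (nat_lit 30104864984897896276)]]]]]]]]],[[[[],[[[[[[Int.negSucc (nat_lit 304479402066665049897)]]]]]]]],[[[[[[[[Int.ofNat (nat_lit 89207010124124263384)]]]]]]]]]]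

/-- A coefficient. -/
noncomputable def sr3_m1_4_6 : MP 10 :=
  [[[[[[[[[[Int.negSucc (nat_lit 230137135607387826311)]]]]],[[[[[Int.negSucc (nat_lit 214856638349614044317)]]]]]]],[[[[[[[Int.ofNat (nat_lit 10011818634909447758)]]]]]]]],[],[[[[[[[[Int.ofNat (nat_lit 26905148183284956558)]]]]]]]]],[[[[[[[[[Int.negSucc (nat_lit 396081445783072979277)]]]]]]]]],[[[[[[[[[Int.ofNat (nat_lit 499863219224489552418)]]]]]]]]]]

/-- A coefficient. -/
noncomputable def sr3_m1_4_7 : MP 10 :=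
  [[[[[],[[[[[[Int.negSucc (nat_lit 406866660674828078871)]]]]]]]],[[[[[[[[Int.ofNat (nat_lit 1488093113310113176666)]]]]]]]]]]

/-- A coefficient. -/
noncomputable def sr3_m1_4_8 : MP 10 :=
  [[[[[[[[[[Int.negSucc (nat_lit 1331319624754303990057)]]]]]]]]],[[[[[[[[[Int.negSucc (nat_lit 547551645021521227135)]]]]]]]]]]

/-- A coefficient. -/
noncomputable def sr3_m1_4_9 : MP 10 :=
  []

/-- A coefficient. -/
noncomputable def sr3_m1_4_10 : MP 10 :=
  [[[[[[[[[[Int.ofNat (nat_lit 377860049099368503950)]]]]]]]]]]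

/-- A coefficient. -/
noncomputable def sr3_m1_5_0 : MP 10 :=
  [[[[[],[[[[[[Int.ofNat (nat_lit 0),Int.ofNat (nat_lit 19530808502336823414)]],[[Int.negSucc (nat_lit 3505992866028088259)]]]],[[[[Int.negSucc (nat_lit 68222973405331348175)]]]]]],[[[[[[Int.ofNat (nat_lit 371426603259120587010)]]]]]]],[[],[],[[[[[[Int.negSucc (nat_lit 18138870115373313561)]]]]]]]],[[[[[[[[Int.ofNat (nat_lit 0),Int.negSucc (nat_lit 40065044738356977403)]],[[Int.ofNat (nat_lit 9147166534713335136)]]]],[[[[Int.ofNat (nat_lit 68668316928648382262)]]]]]],[[[[[[Int.negSucc (nat_lit 232830907087205218849)]]]]]]],[[],[[[[[[Int.ofNat (nat_lit 240585935725126829694)]]]]]]]],[[[[[[[[Int.ofNat (nat_lit 576929419572067284900)]]]]]]]]]]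

/-- A coefficient. -/
noncomputable def sr3_m1_5_1 : MP 10 :=
  [[[[[[[[[[Int.ofNat (nat_lit 0),Int.negSucc (nat_lit 247445469963865644755)]],[[Int.negSucc (nat_lit 87607131218571499987)]]]],[[[[Int.negSucc (nat_lit 47646630478192915201)]]]]]],[[[[[[Int.ofNat (nat_lit 491922624475070952832)]]]]]]],[[],[[[[[[Int.negSucc (nat_lit 230714590099225564941)]]]]]]]],[[[[[[[[Int.negSucc (nat_lit 107930669278072797069)]]]]]]]]],[[[[[[[[[Int.ofNat (nat_lit 0),Int.ofNat (nat_lit 8467424650778596318)]],[[Int.negSucc (nat_lit 54870128560966271151)]]]],[[[[Int.ofNat (nat_lit 9686208027459319420)]]]]]],[[[[[[Int.ofNat (nat_lit 189749158658925367756)]]]]]]],[[],[[[[[[Int.negSucc (nat_lit 76762026524577922733)]]]]]]]],[[[[[[[[Int.ofNat (nat_lit 386820694192028201758)]]]]],[[[[[Int.ofNat (nat_lit 36263586859892281612)]]]]]]],[[[[[[[Int.ofNat (nat_lit 6705078310122481340)]]]]]]]],[],[[[[[[[[Int.ofNat (nat_lit 1302919946599573472)]]]]]]]]],[[],[[[[[[[[Int.negSucc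 (nat_lit 38521122693852275435)]]]]]]]]],[[],[[[[[[[[Int.negSucc (nat_lit 76617620009786663585)]]]]]]]]]]

/-- A coefficient. -/
noncomputable def sr3_m1_5_2 : MP 10 :=
  [[[],[[[[[[[],[[Int.negSucc (nat_lit 20688583076393235149)]]]],[[[[Int.ofNat (nat_lit 167693671892681101144)]]]]]],[[[[[[Int.ofNat (nat_lit 37133149357143580036)]]]]]]]],[[[[[[[[Int.negSucc (nat_lit 265377960357580598135)]]]]]]],[[[[[[[Int.negSucc (nat_lit 26656478627083239155)]]]]]]]]],[[[[[[[[[Int.negSucc (nat_lit 785994645301034167811)]]]]],[[[[[Int.negSucc (nat_lit 90761754489313645827)]]]]]]],[[[[[[[Int.ofNat (nat_lit 228630294632410299774)]]]]]]]],[[[],[[[[[[Int.negSucc (nat_lit 34797547448403097235)]]]]]]]],[[[[[[[[Int.negSucc (nat_lit 71539100809203342977)]]]]]]]]],[[[[[[[[[Int.negSucc (nat_lit 378641753218782616501)]]]]]]]]],[[[[[[[[[Int.ofNat (nat_lit 10432744201994031742)]]]]]]]]]]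

/-- A coefficient. -/
noncomputable def sr3_m1_5_3 : MP 10 :=
  [[[[[[[[[[Int.ofNat (nat_lit 0),Int.ofNat (nat_lit 75306804007312815888)]],[[Int.ofNat (nat_lit 22426808198835745776)]]]],[[[[Int.ofNat (nat_lit 165668498346942332938)]]]]]],[[[[[[Int.negSucc (nat_lit 1503617024382885945875)]]]]]]],[[],[[[[[[Int.ofNat (nat_lit 317668427069433591584)]]]]]]]],[[[[[[[[Int.ofNat (nat_lit 310139828575586206478)]]]]],[[[[[Int.negSucc (nat_lit 56396160117109553917)]]]]]]],[[[[[[[Int.negSucc (nat_lit 247797339441461584373)]]]]]]]],[],[[[[[[[[Int.negSucc (nat_lit 239664995301144505355)]]]]]]]]],[[[[],[[[[[[Int.ofNat (nat_lit 112357581530326975764)]]]]]]]],[[[[[[[[Int.negSucc (nat_lit 458414910771747328059)]]]]]]]]],[[],[[[[[[[[Int.negSucc (nat_lit 112766827837570209965)]]]]]]]]]]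

/-- A coefficient. -/
noncomputable def sr3_m1_5_4 : MP 10 :=
  [[[[[[[[[[Int.ofNat (nat_lit 171452583676566981752)]]]]],[[[[[Int.negSucc (nat_lit 2447391298677431237)]]]]]]],[[[[[[[Int.negSucc (nat_lit 155170679625332205409)]]]]]]]],[[[],[[[[[[Int.ofNat (nat_lit 35657517557534252264)]]]]]]]],[[[[[[[[Int.ofNat (nat_lit 772806068953205332572)]]]]]]]]],[[[[[[[[[Int.ofNat (nat_lit 928445913463235477984)]]]]]]]]],[[[[[[[[[Int.ofNat (nat_lit 343020846121835862492)]]]]]]]]]]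

/-- A coefficient. -/
noncomputable def sr3_m1_5_5 : MP 10 :=
  [[[[[],[[[[[[Int.ofNat (nat_lit 268197333066861392446)]]]]]]]],[[[[[[[[Int.negSucc (nat_lit 657220239158204091883)]]]]]]]]],[[],[[[[[[[[Int.ofNat (nat_lit 99418860906345827112)]]]]]]]]]]

/-- A coefficient. -/
noncomputable def sr3_m1_5_6 : MP 10 :=
  [[[[[[[[[[Int.ofNat (nat_lit 196131444608724257028)]]]]]]]]],[[[[[[[[[Int.negSucc (nat_lit 149164432720685232089)]]]]]]]]]]

/-- A coefficient. -/
noncomputable def sr3_m1_5_7 : MP 10 :=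
  [[[],[[[[[[[[Int.ofNat (nat_lit 105303056951578319522)]]]]]]]]]]

/-- A coefficient. -/
noncomputable def sr3_m1_5_8 : MP 10 :=
  [[[[[[[[[[Int.negSucc (nat_lit 5561840657861359659)]]]]]]]]]]

/-- A coefficient. -/
noncomputable def sr3_m1_6_0 : MP 10 :=
  [[[],[[[[[[[[Int.ofNat (nat_lit 0),Int.ofNat (nat_lit 30396942474705980750)]],[[Int.negSucc (nat_lit 1383993915704860777)]]]],[[[[Int.negSucc (nat_lit 24467992681837347455)]]]]]],[[[[[[Int.ofNat (nat_lit 62259994929015544184)]]]]]]],[[],[[[[[[Int.negSucc (nat_lit 279453672001002988055)]]]]]]]],[[[[[[[[Int.negSucc (nat_lit 111079691263709897901)]]]]]]]]]]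

/-- A coefficient. -/
noncomputable def sr3_m1_6_1 : MP 10 :=
  [[[[[[[[[[Int.ofNat (nat_lit 0),Int.ofNat (nat_lit 136099732100586446828)]],[[Int.negSucc (nat_lit 66114403927041671111)]]]],[[[[Int.ofNat (nat_lit 33697348400200111058)]]]]]],[[[[[[Int.ofNat (nat_lit 182330216187654474066)]]]]]]],[[],[[[[[[Int.negSucc (nat_lit 41270658632556005931)]]]]]]]],[[[[[[[[Int.negSucc (nat_lit 48229264297615615277)]]]]]]]]]]

/-- A coefficient. -/
noncomputable def sr3_m1_6_2 : MP 10 :=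
  [[],[[[[[[[[[Int.ofNat (nat_lit 678785394565748484016)]]]]],[[[[[Int.ofNat (nat_lit 66590705902005228262)]]]]]]],[[[[[[[Int.negSucc (nat_lit 75214437427495923623)]]]]]]]],[],[[[[[[[[Int.negSucc (nat_lit 11774939077980745515)]]]]]]]]],[[[[[[[[[Int.ofNat (nat_lit 414717285060772304542)]]]]]]]]],[[[[[[[[[Int.ofNat (nat_lit 19030122451470754696)]]]]]]]]]]

/-- A coefficient. -/
noncomputable def sr3_m1_6_3 : MP 10 :=
  [[[[[[[[[],[[Int.negSucc (nat_lit 13290635417370526089)]]]],[[[[Int.negSucc (nat_lit 109416545739787029315)]]]]]],[[[[[[Int.negSucc (nat_lit 151136774202463075333)]]]]]]]],[[[[[[[[Int.ofNat (nat_lit 17116421763412634596)]]]]]]],[[[[[[[Int.ofNat (nat_lit 73856823984376536064)]]]]]]]]],[[[[],[[[[[[Int.negSucc (nat_lit 146360272534924506245)]]]]]]]],[[[[[[[[Int.ofNat (nat_lit 385157275970628248562)]]]]]]]]]]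

/-- A coefficient. -/
noncomputable def sr3_m1_6_4 : MP 10 :=
  [[[[[[[[[[Int.negSucc (nat_lit 586864802491852332985)]]]]],[[[[[Int.negSucc (nat_lit 53497810399318261169)]]]]]]],[[[[[[[Int.ofNat (nat_lit 89672739657222985440)]]]]]]]],[],[[[[[[[[Int.negSucc (nat_lit 150936276648995705291)]]]]]]]]],[[[[[[[[[Int.negSucc (nat_lit 852870512388349304889)]]]]]]]]],[[[[[[[[[Int.negSucc (nat_lit 65590287806076672359)]]]]]]]]]]

/-- A coefficient. -/
noncomputable def sr3_m1_6_5 : MP 10 :=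
  [[[[[],[[[[[[Int.negSucc (nat_lit 43964351116753675615)]]]]]]]],[[[[[[[[Int.ofNat (nat_lit 101562929878072599100)]]]]]]]]]]

/-- A coefficient. -/
noncomputable def sr3_m1_6_6 : MP 10 :=
  [[[[[[[[[[Int.ofNat (nat_lit 276040470419853261794)]]]]]]]]],[[[[[[[[[Int.ofNat (nat_lit 58431197563641679498)]]]]]]]]]]

/-- A coefficient. -/
noncomputable def sr3_m1_6_7 : MP 10 :=
  []

/-- A coefficient. -/
noncomputable def sr3_m1_6_8 : MP 10 :=
  [[[[[[[[[[Int.negSucc (nat_lit 218492739088730876303)]]]]]]]]]]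

/-- A coefficient. -/
noncomputable def sr3_m1_7_0 : MP 10 :=
  []

/-- A coefficient. -/
noncomputable def sr3_m1_7_1 : MP 10 :=
  [[[[[[[[[[Int.ofNat (nat_lit 0),Int.ofNat (nat_lit 32244855167736703050)]],[[Int.ofNat (nat_lit 57687786971366122510)]]]],[[[[Int.ofNat (nat_lit 30008706774044577598)]]]]]],[[[[[[Int.negSucc (nat_lit 240592265725260580519)]]]]]]],[[],[[[[[[Int.ofNat (nat_lit 171553842617426118746)]]]]]]]],[[[[[[[[Int.negSucc (nat_lit 67231244903473050617)]]]]]]]]]]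

/-- An expanded part. -/
noncomputable def sr3_m1 : R12 :=
  [[sr3_m1_0_0, sr3_m1_0_1, sr3_m1_0_2, sr3_m1_0_3, sr3_m1_0_4, sr3_m1_0_5, sr3_m1_0_6, sr3_m1_0_7, sr3_m1_0_8, sr3_m1_0_9, sr3_m1_0_10, sr3_m1_0_11, sr3_m1_0_12, sr3_m1_0_13, sr3_m1_0_14],
   [sr3_m1_1_0, sr3_m1_1_1, sr3_m1_1_2, sr3_m1_1_3, sr3_m1_1_4, sr3_m1_1_5, sr3_m1_1_6, sr3_m1_1_7, sr3_m1_1_8, sr3_m1_1_9, sr3_m1_1_10, sr3_m1_1_11, sr3_m1_1_12],
   [sr3_m1_2_0, sr3_m1_2_1, sr3_m1_2_2, sr3_m1_2_3, sr3_m1_2_4, sr3_m1_2_5, sr3_m1_2_6, sr3_m1_2_7, sr3_m1_2_8, sr3_m1_2_9, sr3_m1_2_10, sr3_m1_2_11, sr3_m1_2_12],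
   [sr3_m1_3_0, sr3_m1_3_1, sr3_m1_3_2, sr3_m1_3_3, sr3_m1_3_4, sr3_m1_3_5, sr3_m1_3_6, sr3_m1_3_7, sr3_m1_3_8, sr3_m1_3_9, sr3_m1_3_10],
   [sr3_m1_4_0, sr3_m1_4_1, sr3_m1_4_2, sr3_m1_4_3, sr3_m1_4_4, sr3_m1_4_5, sr3_m1_4_6, sr3_m1_4_7, sr3_m1_4_8, sr3_m1_4_9, sr3_m1_4_10],
   [sr3_m1_5_0, sr3_m1_5_1, sr3_m1_5_2, sr3_m1_5_3, sr3_m1_5_4, sr3_m1_5_5, sr3_m1_5_6, sr3_m1_5_7, sr3_m1_5_8],
   [sr3_m1_6_0, sr3_m1_6_1, sr3_m1_6_2, sr3_m1_6_3, sr3_m1_6_4, sr3_m1_6_5, sr3_m1_6_6, sr3_m1_6_7, sr3_m1_6_8],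
   [sr3_m1_7_0, sr3_m1_7_1]]

set_option maxRecDepth 100000 in
theorem sr3_check1 : partOk 0 sr3_rows 1 sr3_m1 = true :=
  Fast.partOk_of_fast (by decide +kernel)

end Vale.Agent.P142K.CertB
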