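import Vale.Agent.P142K.CertB.Sr3Rows
import Vale.Agent.P142K.Fast

/-!
# An expanded part of the certificate

Generated from a semidefinite program; only the checker is trusted.
-/

namespace Vale.Agent.P142K.CertB

open Vale.Agent.P142J (MP)

/-- A coefficient. -/
noncomputable def sr3_m2_2_0 : MP 10 :=
  [[[],[],[[[[],[],[[[[[Int.ofNat (nat_lit 57299338543039823828)]]]]]]],[[[],[[[[[Int.ofNat (nat_lit 100754372029256672484)]]]]]]],[[[[[[[Int.ofNat (nat_lit 303162191045278209734)]]]]]]]],[],[[[[],[[[[[Int.negSucc (nat_lit 4605513982405452395)]]]]]]],[[[[[[[Int.ofNat (nat_lit 51558192045775747886)]]]]]]]],[],[[[[[[[[Int.ofNat (nat_lit 24905343214662502732)]]]]]]]]],[[],[[[[],[[],[[[[Int.ofNat (nat_lit 38906556832193024190)]]]]]],[[],[[[[[Int.negSucc (nat_lit 53325376171298892811)]]]]]]],[[[[],[[[[Int.ofNat (nat_lit 33095237495782775072)]]]]]],[[[[[[Int.negSucc (nat_lit 90008756672496423175)]]]]]]]],[[[[],[[[[[Int.ofNat (nat_lit 27399229496209663428)]]]]]]],[[[[[[[Int.negSucc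 (nat_lit 18699180162579590529)]]]]]]]],[[[[[],[[[[Int.ofNat (nat_lit 7076569523740761018)]]]]]],[[[[[[Int.ofNat (nat_lit 30943411374251596492)]]]]]]]],[[[[[[[[Int.ofNat (nat_lit 25766923104205583030)]]]]]]]]],[[[[[[],[],[[[[Int.ofNat (nat_lit 53173426905947690557)]]]]]],[[[],[[[[Int.negSucc (nat_lit 696704039289481537)]]]]]],[[[[[[Int.ofNat (nat_lit 190264392304239302977)]]]]]]]],[[[[[],[[[[Int.ofNat (nat_lit 45829162374735938740)]]]]]],[[[[[[Int.ofNat (nat_lit 65492182004826656602)]]]]]]]],[[[[[[[[Int.ofNat (nat_lit 343566850100479672053)]]]]],[[[[[Int.ofNat (nat_lit 29717128230397845922)]]]]]]],[[[[[[[Int.ofNat (nat_lit 79132494216324105220)]]]]]]]],[],[[[[[[[[Int.ofNat (nat_lit 36217432872765146396)]]]]]]]]],[[],[[[[[],[[[[Int.ofNat (nat_lit 22255675549414186626)]]]]]],[[[[[[Int.ofNat (nat_lit 39525296990469719530)]]]]]]]],[[[[[[[[Int.ofNat (nat_lit 203240919951694917432)]]]]]]]]],[[],[],[[[[[[[[Int.ofNat (nat_lit 64029931667049402337)]]]]]]]]]]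

/-- A coefficient. -/
noncomputable def sr3_m2_2_1 : MP 10 :=
  [[[],[[[[],[[[[[Int.negSucc (nat_lit 369574281085678040185)]]],[[[Int.ofNat (nat_lit 14341088866957819844)]]]]],[[[[[Int.negSucc (nat_lit 10605169246190409181)]]]]]]],[[[[[[[Int.negSucc (nat_lit 117853200692523797487)]]],[[[Int.ofNat (nat_lit 15382848736222751706)]]]]],[[[[[Int.negSucc (nat_lit 90862836738186025397)]]]]]]],[[[[[[[Int.negSucc (nat_lit 341424511246590547279)]]]]]]]],[[[],[[],[[[[[Int.ofNat (nat_lit 26265540665308628076)]]]]]]],[[],[[[[[[Int.negSucc (nat_lit 141636256232228726615)]]]]]]]],[[[[[[[[Int.ofNat (nat_lit 36961946961719579798)]]],[[[Int.ofNat (nat_lit 3736987689641424468)]]]]],[[[[[Int.ofNat (nat_lit 54589263741616719478)]]]]]]],[[[[[[[Int.ofNat (nat_lit 89338716685301493412)]]]]]]]],[[[],[[[[[[Int.negSucc (nat_lit 100189223813099587927)]]]]]]]],[[[[[[[[Int.negSucc (nat_lit 19880636224706454821)]]]]]]]]],[[[[[[],[[[[Int.negSucc (nat_lit 41886701842814576575)]]],[[[Int.ofNat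 (nat_lit 32693840009179600916)]]]]],[[],[[[[Int.ofNat (nat_lit 67532896858814722744)]]]]]],[[[[[[Int.ofNat (nat_lit 289708364389343918240)]]],[[[Int.ofNat (nat_lit 17315293027325710056)]]]]],[[[[[Int.ofNat (nat_lit 59969690367878758598)]]]]]]],[[[[],[[[[Int.negSucc (nat_lit 93744597916347027053)]]]]]],[[[[[[Int.ofNat (nat_lit 78673411776833428408)]]]]]]]],[[[[[[[[Int.negSucc (nat_lit 187043412247126026295)]]],[[[Int.ofNat (nat_lit 29665401897772054540)]]]]],[[[[[Int.negSucc (nat_lit 301365850044421579153)]]]]]],[[[],[[[[Int.negSucc (nat_lit 15565524465052454811)]]]]]],[[[[[[Int.negSucc (nat_lit 115151365435986035059)]]]]]]],[[[[[[[Int.negSucc (nat_lit 394857053918016382515)]]]]],[[[[[Int.ofNat (nat_lit 15413076325256290246)]]]]]]],[[[[[[[Int.ofNat (nat_lit 203347914697150099532)]]]]]]]],[[[[[],[[[[Int.ofNat (nat_lit 15237188276121899140)]]]]]],[[[[[[Int.negSucc (nat_lit 115153142914575947461)]]]]]]]],[[[[[[[[Int.ofNat (nat_lit 28904056756596963720)]]]]]]],[[[[[[[Int.negSucc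 (nat_lit 7407024277588668797)]]]]]]]]],[[[[[[],[[[[Int.ofNat (nat_lit 73446014117284673730)]]]]]],[[[[[[Int.ofNat (nat_lit 315085223134366738772)]]]]]]],[[[[],[[[[Int.negSucc (nat_lit 36410974617339502489)]]]]]],[[[[[[Int.negSucc (nat_lit 32779113454422212765)]]]]]]]],[[[[[[[[Int.negSucc (nat_lit 208623443850367453129)]]],[[[Int.ofNat (nat_lit 14637701565732674840)]]]]],[[[[[Int.negSucc (nat_lit 84611262797919002205)]]]]]]],[[[[[[[Int.negSucc (nat_lit 349324167026181443981)]]]]]]]],[[[],[[[[[[Int.negSucc (nat_lit 95632652998063753041)]]]]]]]],[[[[[[[[Int.ofNat (nat_lit 41321422691333757870)]]]]]]]]],[[[[[[],[[[[Int.negSucc (nat_lit 15606940462316991397)]]]]]],[[[[[[Int.ofNat (nat_lit 101682945144148390004)]]]]]]]],[[[[[[[[Int.ofNat (nat_lit 14503874963883653420)]]]]]]],[[[[[[[Int.negSucc (nat_lit 58789406706739667289)]]]]]]]]],[[],[[[[[[[[Int.ofNat (nat_lit 13298924416406364530)]]]]]]]]]]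

/-- A coefficient. -/
noncomputable def sr3_m2_2_2 : MP 10 :=
  [[[[[[[[[[Int.ofNat (nat_lit 1853619196345572635777)]]],[[[Int.ofNat (nat_lit 3999634159968570504)]]],[[[Int.ofNat (nat_lit 15224915873753958983)]]]]],[[[[[Int.ofNat (nat_lit 375006247730618312990)]]],[[[Int.ofNat (nat_lit 33501423513642755518)]]]]],[[[[[Int.ofNat (nat_lit 178262875404953836626)]]]]]]],[[[[[[[Int.negSucc (nat_lit 907133293941861159349)]]],[[[Int.negSucc (nat_lit 26537793127460596769)]]]]],[[[[[Int.negSucc (nat_lit 236527466617266949869)]]]]]]],[[[[[[[Int.ofNat (nat_lit 966610787531487960290)]]]]]]]],[[[[],[[],[[[[Int.negSucc (nat_lit 66805287825961631989)]]]]]],[[[[[[Int.negSucc (nat_lit 391652296218575240165)]]],[[[Int.negSucc (nat_lit 37314391340875575981)]]]]],[[[[[Int.negSucc (nat_lit 110703772100370189649)]]]]]]],[[[[],[[[[Int.negSucc (nat_lit 95487372706094488475)]]]]]],[[[[[[Int.ofNat (nat_lit 580619954678234673190)]]]]]]]],[[[[[[[[Int.negSucc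 (nat_lit 495595188739951685407)]]],[[[Int.ofNat (nat_lit 1327625468328488800)]]]]],[[[[[Int.negSucc (nat_lit 410715082769698262351)]]]]]],[],[[[[[[Int.ofNat (nat_lit 377150692948981560518)]]]]]]],[[[[[[[Int.ofNat (nat_lit 196956039320460017930)]]]]]]]],[[[[[],[[[[Int.negSucc (nat_lit 7314089487301701861)]]]]]],[[[[[[Int.ofNat (nat_lit 164077552250725486248)]]]]]]]],[[[[[[[[Int.ofNat (nat_lit 657158456716647679334)]]]]]]]]],[[[[[[[[[Int.ofNat (nat_lit 3441123448415269682478)]]],[[[Int.ofNat (nat_lit 59882460249438492402)]]]],[],[[[[Int.negSucc (nat_lit 80606275484380874473)]]]]],[[[[[Int.ofNat (nat_lit 337982288186449867872)]]]]]],[[[],[[[[Int.ofNat (nat_lit 148452551592707233192)]]]]]],[[[[[[Int.negSucc (nat_lit 109562062449617508897)]]]]]]],[[[[[[[Int.negSucc (nat_lit 816956739571278191057)]]],[[[Int.negSucc (nat_lit 13834873806931004909)]]]]],[[[[[Int.negSucc (nat_lit 32544358953717447245)]]]]]]],[[[[[[[Int.ofNat (nat_lit 604581979967498076002)]]]]]]]],[[[[[],[[[[Int.negSucc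 (nat_lit 140002064723797839833)]]]]]],[[[[[[Int.negSucc (nat_lit 26532422975112904557)]]]]]]],[[],[[[[[[Int.ofNat (nat_lit 76835997728284951962)]]]]]]]],[[[[[[[[Int.negSucc (nat_lit 916781970347718357035)]]]]],[[[[[Int.negSucc (nat_lit 47404163747678753271)]]]]]]],[[[[[[[Int.ofNat (nat_lit 288858166966343359300)]]]]]]]],[],[[[[[[[[Int.ofNat (nat_lit 52144684549546422442)]]]]]]]]],[[[[[[[[[Int.ofNat (nat_lit 3176835603121009986988)]]],[[[Int.ofNat (nat_lit 3403060729047152984)]]]]],[[[[[Int.negSucc (nat_lit 5351289281692363073)]]]]]]],[[[[[[[Int.ofNat (nat_lit 8541295359775228912)]]]]]]],[[[[[[[Int.ofNat (nat_lit 417868529288985287700)]]]]]]]],[[[[[],[[[[Int.ofNat (nat_lit 12408422940972683658)]]]]]],[[[[[[Int.ofNat (nat_lit 79165192997244470058)]]]]]]]],[[[[[[[[Int.negSucc (nat_lit 197524304045562098227)]]]]]]]]],[[[[[[[[[Int.ofNat (nat_lit 1500142540447095804046)]]]]]]],[[[[[[[Int.ofNat (nat_lit 93669691643048070934)]]]]]]]],[],[[[[[[[[Int.negSucc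 (nat_lit 47785312614604232331)]]]]]]]]],[[[[[[[[[Int.ofNat (nat_lit 668418704215621741638)]]]]]]]]]]

/-- A coefficient. -/
noncomputable def sr3_m2_2_3 : MP 10 :=
  [[[[[[[],[[[[Int.ofNat (nat_lit 77118020644815235068)]]],[[[Int.negSucc (nat_lit 36790060421913195007)]]]]],[[],[[[[Int.negSucc (nat_lit 87365811421862424611)]]]]]],[[[[[[Int.ofNat (nat_lit 175348295532473001402)]]],[[[Int.ofNat (nat_lit 54542089742595379522)]]]]],[[[[[Int.ofNat (nat_lit 199925406280959899630)]]]]]]],[[[[],[[[[Int.ofNat (nat_lit 95750108661355914980)]]]]]],[[[[[[Int.negSucc (nat_lit 450724464100495940393)]]]]]]]],[[[[[[[[Int.ofNat (nat_lit 1371820602284875297662)]]],[[[Int.negSucc (nat_lit 82732515270849904273)]]]]],[[[[[Int.ofNat (nat_lit 663883759984066109528)]]]]]],[[[],[[[[Int.negSucc (nat_lit 20883256200422295375)]]]]]],[[[[[[Int.negSucc (nat_lit 264835565909857607885)]]]]]]],[[[[[[[Int.ofNat (nat_lit 300139682394831660588)]]]]],[[[[[Int.ofNat (nat_lit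 25724309065199202592)]]]]]]],[[[[[[[Int.ofNat (nat_lit 200886744749773636432)]]]]]]]],[[[[[],[[[[Int.negSucc (nat_lit 84135902566028237879)]]]]]],[[[[[[Int.negSucc (nat_lit 325481425641692842635)]]]]]]]],[[[[[[[[Int.negSucc (nat_lit 1538493087360378919991)]]]]]]],[[[[[[[Int.ofNat (nat_lit 22808899623677379550)]]]]]]]]],[[[[[[],[[[[Int.ofNat (nat_lit 112728586059178780910)]]]]]],[[[[[[Int.negSucc (nat_lit 368412796442288942349)]]]]]]],[[[[],[[[[Int.ofNat (nat_lit 24198526655496426296)]]]]]],[[[[[[Int.negSucc (nat_lit 33497565026485764569)]]]]]]]],[[[[[[[[Int.ofNat (nat_lit 1428569159178954722008)]]],[[[Int.ofNat (nat_lit 1759922938215107670)]]]]],[[[[[Int.ofNat (nat_lit 304938875546519848004)]]]]]]],[[[[[[[Int.ofNat (nat_lit 444133131979949419580)]]]]]]]],[[[],[[[[[[Int.negSucc (nat_lit 17257713183888472687)]]]]]]]],[[[[[[[[Int.negSucc (nat_lit 30903531891097338271)]]]]]]]]],[[[[[[],[[[[Int.negSucc (nat_lit 68310767498065956695)]]]]]],[[[[[[Int.negSucc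 (nat_lit 465566159778310721943)]]]]]]]],[[[[[[[[Int.ofNat (nat_lit 319676365318817277054)]]]]]]],[[[[[[[Int.ofNat (nat_lit 212110590766342798410)]]]]]]]]],[[],[[[[[[[[Int.negSucc (nat_lit 138341073786689642767)]]]]]]]]]]

/-- A coefficient. -/
noncomputable def sr3_m2_2_4 : MP 10 :=
  [[[[[[[[[[Int.negSucc (nat_lit 5597624928490613387665)]]],[[[Int.negSucc (nat_lit 23075040895985957975)]]]],[],[[[[Int.ofNat (nat_lit 209148547808193976281)]]]]],[[[[[Int.negSucc (nat_lit 649237338966626396733)]]]]]],[[[],[[[[Int.negSucc (nat_lit 103489915834722608483)]]]]]],[[[[[[Int.ofNat (nat_lit 953789523333001833822)]]]]]]],[[[[[[[Int.ofNat (nat_lit 1595344153716048362392)]]],[[[Int.ofNat (nat_lit 25898190082331389736)]]]]],[[[[[Int.ofNat (nat_lit 204739884235677208034)]]]]]]],[[[[[[[Int.negSucc (nat_lit 1308657339957926726405)]]]]]]]],[[[[[],[[[[Int.ofNat (nat_lit 34599098522562926454)]]]]]],[[[[[[Int.ofNat (nat_lit 441856077966670480006)]]]]]]],[[],[[[[[[Int.negSucc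 (nat_lit 262741430602327672871)]]]]]]]],[[[[[[[[Int.ofNat (nat_lit 4162228327592662751827)]]]]],[[[[[Int.ofNat (nat_lit 232312654868589360800)]]]]]]],[[[[[[[Int.ofNat (nat_lit 398031246292307071516)]]]]]]]],[],[[[[[[[[Int.ofNat (nat_lit 10664814393870152484)]]]]]]]]],[[[[[[[[[Int.negSucc (nat_lit 8818443826669705474871)]]],[[[Int.negSucc (nat_lit 35102522901025592991)]]]]],[[[[[Int.negSucc (nat_lit 280051211987909970083)]]]]]]],[[[[[[[Int.ofNat (nat_lit 1165645927453508157082)]]]]]]],[[[[[[[Int.negSucc (nat_lit 116042875933460878007)]]]]]]]],[[[[[],[[[[Int.negSucc (nat_lit 10461713096733163837)]]]]]],[[[[[[Int.ofNat (nat_lit 190230632212701801512)]]]]]]]],[[[[[[[[Int.ofNat (nat_lit 2001721669602185743292)]]]]]]]]],[[[[[[[[[Int.negSucc (nat_lit 6028411444204121254755)]]]]]]],[[[[[[[Int.ofNat (nat_lit 250618502777435816112)]]]]]]]],[],[[[[[[[[Int.ofNat (nat_lit 1029385884278934652608)]]]]]]]]],[[[[[[[[[Int.negSucc (nat_lit 900464786419082178589)]]]]]]]]]]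

/-- A coefficient. -/
noncomputable def sr3_m2_2_5 : MP 10 :=
  [[[[[[[],[[[[Int.ofNat (nat_lit 8662279664003908642)]]]]]],[[[[[[Int.ofNat (nat_lit 475974451528325027836)]]]]]]],[[[[],[[[[Int.negSucc (nat_lit 237579974807455231607)]]]]]],[[[[[[Int.ofNat (nat_lit 498523668172696065590)]]]]]]]],[[[[[[[[Int.negSucc (nat_lit 4743497036979690521023)]]],[[[Int.ofNat (nat_lit 70869458687932291132)]]]]],[[[[[Int.negSucc (nat_lit 329273187606200537015)]]]]]]],[[[[[[[Int.negSucc (nat_lit 173973416023227641469)]]]]]]]],[[[],[[[[[[Int.negSucc (nat_lit 40872394884448427873)]]]]]]]],[[[[[[[[Int.ofNat (nat_lit 933718539926654683812)]]]]]]]]],[[[[[[],[[[[Int.negSucc (nat_lit 60332654444018326333)]]]]]],[[[[[[Int.negSucc (nat_lit 25196565144007754657)]]]]]]]],[[[[[[[[Int.negSucc (nat_lit 1677420381237125418707)]]]]]]],[[[[[[[Int.negSucc (nat_lit 11767662350030384787)]]]]]]]]],[[],[[[[[[[[Int.negSucc (nat_lit 365143572463236696717)]]]]]]]]]]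

/-- A coefficient. -/
noncomputable def sr3_m2_2_6 : MP 10 :=
  [[[[[[[[[[Int.ofNat (nat_lit 10723806188571122978236)]]],[[[Int.ofNat (nat_lit 25017590448150812094)]]]]],[[[[[Int.ofNat (nat_lit 351946927317211355752)]]]]]]],[[[[[[[Int.negSucc (nat_lit 1893107126156073902457)]]]]]]],[[[[[[[Int.ofNat (nat_lit 1130903279979608082212)]]]]]]]],[[[[[],[[[[Int.negSucc (nat_lit 46638336647579020793)]]]]]],[[[[[[Int.negSucc (nat_lit 666467525787636003651)]]]]]]]],[[[[[[[[Int.negSucc (nat_lit 5667526470935895736127)]]]]]]]]],[[[[[[[[[Int.ofNat (nat_lit 8098907086383389815566)]]]]]]],[[[[[[[Int.negSucc (nat_lit 570269696945523011877)]]]]]]]],[],[[[[[[[[Int.negSucc (nat_lit 552192063885808396975)]]]]]]]]],[[[[[[[[[Int.ofNat (nat_lit 3264279984494124770122)]]]]]]]]]]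

/-- A coefficient. -/
noncomputable def sr3_m2_2_7 : MP 10 :=
  [[[[[[[],[[[[Int.negSucc (nat_lit 11363008628634094293)]]]]]],[[[[[[Int.negSucc (nat_lit 65636236691257832343)]]]]]]]],[[[[[[[[Int.ofNat (nat_lit 5084162745020724211764)]]]]]]],[[[[[[[Int.ofNat (nat_lit 70350612192034893246)]]]]]]]]],[[],[[[[[[[[Int.ofNat (nat_lit 214912785033255461540)]]]]]]]]]]

/-- A coefficient. -/
noncomputable def sr3_m2_2_8 : MP 10 :=
  [[[[[[[[[[Int.negSucc (nat_lit 10669765196150109623223)]]]]]]],[[[[[[[Int.ofNat (nat_lit 628671272842542436392)]]]]]]]],[],[[[[[[[[Int.ofNat (nat_lit 2890348976574164566547)]]]]]]]]],[[[[[[[[[Int.negSucc (nat_lit 2143061825845491225679)]]]]]]]]]]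

/-- A coefficient. -/
noncomputable def sr3_m2_2_9 : MP 10 :=
  [[[],[[[[[[[[Int.negSucc (nat_lit 2443219620140175019967)]]]]]]]]]]

/-- A coefficient. -/
noncomputable def sr3_m2_2_10 : MP 10 :=
  [[[[[[[[[[Int.ofNat (nat_lit 4431292894380613812576)]]]]]]]]]]

/-- A coefficient. -/
noncomputable def sr3_m2_3_0 : MP 10 :=
  [[[],[[[[],[[[[],[[Int.negSucc (nat_lit 5408165212809538471)]]]],[[[[Int.negSucc (nat_lit 1615257397385012675)]]]]]],[[],[[[[[Int.ofNat (nat_lit 9866680408990245078)]]]]]]],[[[[[[],[[Int.negSucc (nat_lit 6294396648714239587)]]]],[[[[Int.negSucc (nat_lit 65159797832702054731)]]]]]],[[[[[[Int.ofNat (nat_lit 58146150533497554206)]]]]]]]],[[[[],[[[[[Int.ofNat (nat_lit 177429620795253828364)]]]]]]],[[[[[[[Int.ofNat (nat_lit 237267750134499393600)]]]]],[[[[[Int.negSucc (nat_lit 109454499050903651781)]]]]]]],[[[[[[[Int.negSucc (nat_lit 469845045285307347445)]]]]]]]],[[[[[[[],[[Int.negSucc (nat_lit 432379703920379031)]]]],[[[[Int.ofNat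 (nat_lit 2492718439963991186)]]]]]],[[[[[[Int.negSucc (nat_lit 28967927429794397629)]]]]]]]],[[[[[[[[Int.ofNat (nat_lit 40316374831070209150)]]]]]]],[[[[[[[Int.negSucc (nat_lit 36015004917664204621)]]]]]]]]],[[[[[[],[[[],[[Int.negSucc (nat_lit 3438459450760254357)]]]],[[[[Int.ofNat (nat_lit 30885479880355741654)]]]]]],[[[[[],[[Int.ofNat (nat_lit 5476844677102830062)]]]],[[[[Int.ofNat (nat_lit 38952750048558722522)]]]]]],[[[[[[Int.negSucc (nat_lit 313830593318064894201)]]]]]]]],[[[[[[[],[[Int.ofNat (nat_lit 25047020203312522828)]]]],[[[[Int.ofNat (nat_lit 108354286202118611836)]]]]]],[[[[[[Int.negSucc (nat_lit 259910198557069621695)]]]]],[[[[[Int.ofNat (nat_lit 24003487336226996664)]]]]]]],[[[[],[[[[Int.negSucc (nat_lit 79536279550059088659)]]]]]],[[[[[[Int.ofNat (nat_lit 103176310982539816052)]]]]]]]],[[[[[[[[Int.negSucc (nat_lit 400867926027817546931)]]]]],[[[[[Int.ofNat (nat_lit 129814700834937894214)]]]]]]],[[[[[[[Int.negSucc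 (nat_lit 134418521123583927711)]]]]]]]],[[[],[[[[[[Int.negSucc (nat_lit 14242045612703425281)]]]]]]]],[[[[[[[[Int.negSucc (nat_lit 45999101572384662073)]]]]]]]]],[[[[],[[[],[[[[Int.ofNat (nat_lit 24215893349346983740)]]]]]],[[[[[[Int.negSucc (nat_lit 247946865705657432755)]]]]]]]],[[[[[[[],[[Int.ofNat (nat_lit 7604713397763222610)]]]],[[[[Int.ofNat (nat_lit 78328150431126626060)]]]]]],[[[[[[Int.negSucc (nat_lit 205023351689940826975)]]]]]]]],[[[[[[[[Int.negSucc (nat_lit 357713678728809660223)]]]]]]],[[[[[[[Int.negSucc (nat_lit 74468520290634284305)]]]]]]]]],[[],[[[],[[[[[[Int.negSucc (nat_lit 5855654543862418197)]]]]]]]],[[[[[[[[Int.negSucc (nat_lit 18817458204728927575)]]]]]]]]]]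

/-- A coefficient. -/
noncomputable def sr3_m2_3_1 : MP 10 :=
  [[[[[[[[[],[[Int.ofNat (nat_lit 18228637225700947768)]]],[[],[[Int.negSucc (nat_lit 3687211614899920143)]]]],[[[[Int.ofNat (nat_lit 40455487820043400888)]]],[[[Int.ofNat (nat_lit 13698873695558145190)]]]]],[[[[],[[Int.ofNat (nat_lit 3501961453940100512)]]]],[[[[Int.ofNat (nat_lit 31791452394842136732)]]]]]],[[[[[[Int.negSucc (nat_lit 149412127546428597419)]]],[[[Int.negSucc (nat_lit 20402587713934581875)]]]]],[[[[[Int.negSucc (nat_lit 37354931170022394757)]]]]]]],[[[[[[],[[Int.ofNat (nat_lit 7934120218059022598)]]]],[[[[Int.ofNat (nat_lit 1469092369586419962)]]]]]],[[[[[[Int.negSucc (nat_lit 137719121234486680611)]]]]]]]],[[[[[[[[Int.negSucc (nat_lit 232856991566610088145)]]],[[[Int.ofNat (nat_lit 9031416252122196090)]]]]],[[[[[Int.negSucc (nat_lit 127321793194115077983)]]]]],[[[[[Int.negSucc (nat_lit 83641888894786988465)]]]]]],[[[[[],[[Int.ofNat (nat_lit 13768560236859505648)]]]],[[[[Int.negSucc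 (nat_lit 52601518815978661061)]]]]]],[[[[[[Int.ofNat (nat_lit 91863986728173759888)]]]]]]],[[[[[[[Int.ofNat (nat_lit 115989955632070989496)]]],[[[Int.negSucc (nat_lit 32198481750516525869)]]]]],[[[[[Int.ofNat (nat_lit 40655322843281042340)]]]]]]],[[[[[[[Int.ofNat (nat_lit 225597271359384006870)]]]]]]]],[[[[[[[],[[Int.ofNat (nat_lit 30234317199999675598)]]]],[[[[Int.negSucc (nat_lit 12496771324150784097)]]]]]],[[[[[[Int.ofNat (nat_lit 65902372134361980280)]]]]]]],[[],[[[[[[Int.ofNat (nat_lit 118263696438318663002)]]]]]]]],[[[[[[[[Int.ofNat (nat_lit 242390417639982592894)]]]]],[[[[[Int.negSucc (nat_lit 17394928234901578695)]]]]]]],[[[[[[[Int.negSucc (nat_lit 319588468869954125295)]]]]]]]],[],[[[[[[[[Int.negSucc (nat_lit 80272922738284326687)]]]]]]]]],[[[[[[[[],[[Int.ofNat (nat_lit 36491092757499420176)]]]],[[[[Int.negSucc (nat_lit 54984387034118466725)]]]]],[[],[[[[Int.negSucc (nat_lit 74047114208605249151)]]]]]],[[[[[[Int.negSucc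 (nat_lit 205784649882566203311)]]],[[[Int.ofNat (nat_lit 7765447762713266424)]]]]],[[[[[Int.ofNat (nat_lit 442491310702475594)]]]]]]],[[[[[[],[[Int.negSucc (nat_lit 5275058128706660377)]]]],[[[[Int.negSucc (nat_lit 21242597767110987151)]]]]]],[[[[[[Int.negSucc (nat_lit 107392999803293931403)]]]]]]]],[[[[[[[[Int.negSucc (nat_lit 541453840427823793853)]]],[[[Int.ofNat (nat_lit 6993048423037284284)]]]]],[[[[[Int.negSucc (nat_lit 120396543824275551915)]]]]]],[],[[[[[[Int.ofNat (nat_lit 30154682996287663338)]]]]]]],[[[[[[[Int.ofNat (nat_lit 859020978602497046146)]]]]]]],[[[[[[[Int.negSucc (nat_lit 88341468918610239775)]]]]]]]],[[[[[],[[[[Int.ofNat (nat_lit 27422195385653671816)]]]]]],[[[[[[Int.ofNat (nat_lit 221028121979276993032)]]]]]]]],[[[[[[[[Int.ofNat (nat_lit 143811387628418531654)]]]]]]]]],[[[[[[[[],[[Int.ofNat (nat_lit 40414742351594397514)]]]],[[[[Int.negSucc (nat_lit 8265012239733971105)]]]]]],[[[[[[Int.negSucc (nat_lit 194907296481385712425)]]]]]]],[[],[[[[[[Int.negSucc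 (nat_lit 48858313603484435445)]]]]]]]],[[[[[[[[Int.negSucc (nat_lit 191220037497852833551)]]]]],[[[[[Int.ofNat (nat_lit 7296662067836233736)]]]]]]],[[[[[[[Int.ofNat (nat_lit 220710844997520874528)]]]]]]]],[],[[[[[[[[Int.negSucc (nat_lit 82099123947397312959)]]]]]]]]],[[[[[[],[[[[Int.ofNat (nat_lit 94304796524066459222)]]]]]],[[[[[[Int.ofNat (nat_lit 59646902750286539576)]]]]]]]],[[[[[[[[Int.negSucc (nat_lit 246320662384495251935)]]]]]]]]],[[],[[[[[[[[Int.negSucc (nat_lit 46353337089066259077)]]]]]]]]]]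

/-- A coefficient. -/
noncomputable def sr3_m2_3_2 : MP 10 :=
  [[[[[[[[[[Int.negSucc (nat_lit 1581761193548260867583)]]],[[[Int.negSucc (nat_lit 87526208418248745829)]]]],[[[],[[Int.ofNat (nat_lit 7527489500811852118)]]]],[[[[Int.ofNat (nat_lit 73693477106241251132)]]]]],[[[[[Int.negSucc (nat_lit 366171241113160942029)]]],[[[Int.negSucc (nat_lit 56700156837967076087)]]]]],[[[[[Int.negSucc (nat_lit 304999246851318405089)]]]]]],[[[[[],[[Int.negSucc (nat_lit 7606890265273142063)]]]],[[[[Int.ofNat (nat_lit 21659189442880190332)]]]]]],[[[[[[Int.ofNat (nat_lit 464943215215651416024)]]]]]]],[[[[[[[Int.negSucc (nat_lit 213388922513585605187)]]],[[[Int.ofNat (nat_lit 35662079757042210144)]]]]],[[[[[Int.ofNat (nat_lit 111850534495900890500)]]]]]]],[[[[[[[Int.negSucc (nat_lit 571793613852810905413)]]]]]]]],[[[[[[[],[[Int.negSucc (nat_lit 4012951773458692221)]]]],[[[[Int.negSucc (nat_lit 471914432506820561205)]]]]]],[[[[[[Int.negSucc (nat_lit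 292168670741522673307)]]]]],[[[[[Int.ofNat (nat_lit 238153516370412924952)]]]]]]],[[[[],[[[[Int.ofNat (nat_lit 121579140863004196540)]]]]]],[[[[[[Int.ofNat (nat_lit 131409934372022595624)]]]]]]]],[[[[[[[[Int.ofNat (nat_lit 1389794526255416045520)]]],[[[Int.ofNat (nat_lit 24690665728043575906)]]]]],[[[[[Int.negSucc (nat_lit 100241392407859261747)]]]]]]],[[[[[[[Int.negSucc (nat_lit 757740606617762137565)]]]]]]]],[[[],[[[[[[Int.ofNat (nat_lit 43794069160474835564)]]]]]]]],[[[[[[[[Int.negSucc (nat_lit 1109934727672863841915)]]]]]]]]],[[[[[[[[[Int.negSucc (nat_lit 2943920952637270263177)]]],[[[Int.negSucc (nat_lit 41570027223667961143)]]]]],[[[[[Int.negSucc (nat_lit 40723674823872520937)]]]]]],[[[],[[[[Int.negSucc (nat_lit 21204584175079171479)]]]]]],[[[[[[Int.ofNat (nat_lit 288916969721321365382)]]]]]]],[[[[[[[Int.negSucc (nat_lit 2045835596570276981671)]]]]],[[[[[Int.negSucc (nat_lit 85211987404507169535)]]]]]]],[[[[[[[Int.negSucc (nat_lit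 259460388432026627043)]]]]]]]],[[[[[[[],[[Int.negSucc (nat_lit 24982832678176081135)]]]],[[[[Int.negSucc (nat_lit 346960492444660888719)]]]]]],[[[[[[Int.negSucc (nat_lit 104851569568211832061)]]]]]]]],[[[[[[[[Int.ofNat (nat_lit 270462646579771295918)]]]]]]],[[[[[[[Int.negSucc (nat_lit 243779528318596757441)]]]]]]]]],[[[[[[[[[Int.negSucc (nat_lit 3290127869759132833551)]]],[[[Int.ofNat (nat_lit 33567073271935913522)]]]]],[[[[[Int.negSucc (nat_lit 16854194151834749951)]]]]]]],[[[[[[[Int.negSucc (nat_lit 960573816055679275663)]]]]]]]],[[[],[[[[[[Int.ofNat (nat_lit 176856773639227007660)]]]]]]]],[[[[[[[[Int.negSucc (nat_lit 762634091655475535211)]]]]]]]]],[[[[[[[[[Int.negSucc (nat_lit 2472130283840374905625)]]]]]]],[[[[[[[Int.negSucc (nat_lit 73543715390054927187)]]]]]]]]],[[[[[[[[[Int.negSucc (nat_lit 879228149782223515523)]]]]]]]]]]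

/-- A coefficient. -/
noncomputable def sr3_m2_3_3 : MP 10 :=
  [[[[[[[[[],[[Int.negSucc (nat_lit 100649128659476918377)]]]],[[[[Int.ofNat (nat_lit 267013642398585562370)]]]]],[[],[[[[Int.ofNat (nat_lit 176351925179625153404)]]]]]],[[[[[[Int.ofNat (nat_lit 360015227228675467368)]]],[[[Int.ofNat (nat_lit 25142875232461731052)]]]]],[[[[[Int.negSucc (nat_lit 139576104989129242889)]]]]]]],[[[[[[],[[Int.ofNat (nat_lit 9722223431248327136)]]]],[[[[Int.negSucc (nat_lit 68431097658644109189)]]]]]],[[[[[[Int.negSucc (nat_lit 293011517139681861707)]]]]]]]],[[[[[[[[Int.ofNat (nat_lit 926444808566472983096)]]],[[[Int.negSucc (nat_lit 51852621712002623921)]]]]],[[[[[Int.ofNat (nat_lit 80324522236247845420)]]]]]],[],[[[[[[Int.negSucc (nat_lit 630832728902086713155)]]]]]]],[[[[[[[Int.negSucc (nat_lit 953299991032511315293)]]]]]]],[[[[[[[Int.negSucc (nat_lit 237100992283875071823)]]]]]]]],[[[[[],[[[[Int.ofNat (nat_lit 73628024018468295830)]]]]]],[[[[[[Int.ofNat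 (nat_lit 973108759338101346848)]]]]]]]],[[[[[[[[Int.ofNat (nat_lit 626779463123726717706)]]]]]]]]],[[[[[[[[],[[Int.negSucc (nat_lit 33090444503963377605)]]]],[[[[Int.ofNat (nat_lit 243070009028610089462)]]]]]],[[[[[[Int.ofNat (nat_lit 809073212420583220014)]]]]]]],[[],[[[[[[Int.ofNat (nat_lit 134540827635230374920)]]]]]]]],[[[[[[[[Int.ofNat (nat_lit 3693674216348499457444)]]]]],[[[[[Int.negSucc (nat_lit 173313831840345471627)]]]]]]],[[[[[[[Int.negSucc (nat_lit 593345614441161128941)]]]]]]]],[],[[[[[[[[Int.negSucc (nat_lit 47835081736733592591)]]]]]]]]],[[[[[[],[[[[Int.negSucc (nat_lit 101607672211104248585)]]]]]],[[[[[[Int.ofNat (nat_lit 906144569616144600362)]]]]]]]],[[[[[[[[Int.ofNat (nat_lit 1514130396715552829360)]]]]]]]]],[[],[[[[[[[[Int.ofNat (nat_lit 384198451564017555780)]]]]]]]]]]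

/-- A coefficient. -/
noncomputable def sr3_m2_3_4 : MP 10 :=
  [[[[[[[[[[Int.ofNat (nat_lit 6851829930627335823032)]]],[[[Int.ofNat (nat_lit 167190673320784356554)]]]]],[[[[[Int.ofNat (nat_lit 806727983205461172434)]]]]]],[[[],[[[[Int.negSucc (nat_lit 342293772210746618269)]]]]]],[[[[[[Int.negSucc (nat_lit 1444642189069703622387)]]]]]]],[[[[[[[Int.ofNat (nat_lit 1857085617815564224520)]]]]],[[[[[Int.negSucc (nat_lit 233470994722587978991)]]]]]]],[[[[[[[Int.ofNat (nat_lit 126450867615133105086)]]]]]]]],[[[[[[[],[[Int.negSucc (nat_lit 12382458249707857467)]]]],[[[[Int.ofNat (nat_lit 301189046236300239808)]]]]]],[[[[[[Int.negSucc (nat_lit 499884930510767894839)]]]]]]]],[[[[[[[[Int.ofNat (nat_lit 515895693598535479688)]]]]]]],[[[[[[[Int.negSucc (nat_lit 398149117622192166983)]]]]]]]]],[[[[[[[[[Int.ofNat (nat_lit 9585377714226261012976)]]],[[[Int.ofNat (nat_lit 23057778088436993388)]]]]],[[[[[Int.ofNat (nat_lit 71425164566713435886)]]]]]]],[[[[[[[Int.ofNat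 (nat_lit 2168219234179615924682)]]]]]]]],[[[],[[[[[[Int.ofNat (nat_lit 64642439889940428974)]]]]]]]],[[[[[[[[Int.ofNat (nat_lit 47304821087868366848)]]]]]]]]],[[[[[[[[[Int.ofNat (nat_lit 8217632932227119950564)]]]]]]],[[[[[[[Int.negSucc (nat_lit 290045048768831102217)]]]]]]]]],[[[[[[[[[Int.ofNat (nat_lit 1978226962422868832976)]]]]]]]]]]

/-- A coefficient. -/
noncomputable def sr3_m2_3_5 : MP 10 :=
  [[[[[[[[[],[[Int.ofNat (nat_lit 65413354747414335386)]]]],[[[[Int.negSucc (nat_lit 603433384324598072297)]]]]]],[[[[[[Int.negSucc (nat_lit 2207851485975380793041)]]]]]]],[[],[[[[[[Int.ofNat (nat_lit 165645220852143976160)]]]]]]]],[[[[[[[[Int.negSucc (nat_lit 3924870459091432262661)]]]]],[[[[[Int.negSucc (nat_lit 187004877628641718305)]]]]]]],[[[[[[[Int.ofNat (nat_lit 973434556175751125818)]]]]]]]],[],[[[[[[[[Int.negSucc (nat_lit 670277120925270375427)]]]]]]]]],[[[[[[],[[[[Int.negSucc (nat_lit 38274164054455497169)]]]]]],[[[[[[Int.negSucc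 (nat_lit 553292698031670526085)]]]]]]]],[[[[[[[[Int.negSucc (nat_lit 4780483070099380423949)]]]]]]]]],[[],[[[[[[[[Int.negSucc (nat_lit 1269632087886898286615)]]]]]]]]]]

/-- A coefficient. -/
noncomputable def sr3_m2_3_6 : MP 10 :=
  [[[[[[[[[[Int.negSucc (nat_lit 17669796748138536243821)]]],[[[Int.negSucc (nat_lit 138491938500607177603)]]]]],[[[[[Int.negSucc (nat_lit 525085973459670201495)]]]]]]],[[[[[[[Int.negSucc (nat_lit 565886867350614102715)]]]]]]]],[[[],[[[[[[Int.ofNat (nat_lit 1175917123191650061714)]]]]]]]],[[[[[[[[Int.negSucc (nat_lit 761212979859164578425)]]]]]]]]],[[[[[[[[[Int.negSucc (nat_lit 11378271308442941089029)]]]]]]],[[[[[[[Int.negSucc (nat_lit 669398179609788670731)]]]]]]]]],[[[[[[[[[Int.negSucc (nat_lit 5151768637858780864077)]]]]]]]]]]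

/-- A coefficient. -/
noncomputable def sr3_m2_3_7 : MP 10 :=
  [[[[[[[],[[[[Int.ofNat (nat_lit 293699283879212181392)]]]]]],[[[[[[Int.ofNat (nat_lit 1088314373642256231254)]]]]]]]],[[[[[[[[Int.ofNat (nat_lit 7259659773916635783552)]]]]]]]]],[[],[[[[[[[[Int.ofNat (nat_lit 1470400418373778901974)]]]]]]]]]]

/-- A coefficient. -/
noncomputable def sr3_m2_3_8 : MP 10 :=
  [[[[[[[[[[Int.ofNat (nat_lit 19209046011261439689038)]]]]]]],[[[[[[[Int.negSucc (nat_lit 768022335991719127743)]]]]]]]]],[[[[[[[[[Int.ofNat (nat_lit 3510804663232043727490)]]]]]]]]]]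

/-- A coefficient. -/
noncomputable def sr3_m2_3_9 : MP 10 :=
  [[[],[[[[[[[[Int.negSucc (nat_lit 4446352867784636224691)]]]]]]]]]]

/-- A coefficient. -/
noncomputable def sr3_m2_3_10 : MP 10 :=
  [[[[[[[[[[Int.negSucc (nat_lit 7689720726702070310667)]]]]]]]]]]

/-- A coefficient. -/
noncomputable def sr3_m2_4_0 : MP 10 :=
  [[[[[[[[[],[],[[Int.ofNat (nat_lit 7426254612969745952)]]]],[[[],[[Int.ofNat (nat_lit 6031264153910423092)]]]],[[[[Int.ofNat (nat_lit 88509437207245127503)]]]]]],[[[[[],[[Int.ofNat (nat_lit 11205533005115444254)]]]],[[[[Int.negSucc (nat_lit 88576734449509331569)]]]]]],[[[[[[Int.ofNat (nat_lit 309150649115229456402)]]]]]]]],[[[[[[[],[[Int.negSucc (nat_lit 17788859119814543457)]]]],[[[[Int.negSucc (nat_lit 37083062627686851267)]]]]],[[],[[[[Int.negSucc (nat_lit 40326650699105566833)]]]]]],[[[[[[Int.negSucc (nat_lit 46424682053218887995)]]]]],[[[[[Int.ofNat (nat_lit 62717961131162883152)]]]]]]],[[[[[[],[[Int.ofNat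 (nat_lit 10838790330493007724)]]]],[[[[Int.ofNat (nat_lit 44278273393959153656)]]]]]],[[[[[[Int.ofNat (nat_lit 9714690656771024914)]]]]]]]],[[[[[[[[Int.ofNat (nat_lit 1364040979143087784079)]]]]],[[[[[Int.negSucc (nat_lit 210573431736511084571)]]]]]]],[[[[[[[Int.negSucc (nat_lit 70826474198191301845)]]]]]]],[[[[[[[Int.ofNat (nat_lit 239004500650326294207)]]]]]]]],[[[[[],[[[[Int.negSucc (nat_lit 9901634119504423099)]]]]]],[[[[[[Int.negSucc (nat_lit 26787064836568479157)]]]]]]]],[[[[[[[[Int.ofNat (nat_lit 25227387891908134282)]]]]]]]]],[[[[[[],[],[[[[Int.negSucc (nat_lit 87710101698330069431)]]]]]],[[[[[],[[Int.ofNat (nat_lit 3354745640606532238)]]]],[[[[Int.ofNat (nat_lit 22029826427920010400)]]]]]],[[[[[[Int.ofNat (nat_lit 63824268716192371492)]]]]]]]],[[[[[[[],[[Int.negSucc (nat_lit 17944414911695159109)]]]],[[[[Int.negSucc (nat_lit 238555075837426359569)]]]]]],[[[[[[Int.ofNat (nat_lit 387598966708114059628)]]]]]]],[[],[[[[[[Int.negSucc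 (nat_lit 63368647642355731689)]]]]]]]],[[[[[[[[Int.ofNat (nat_lit 1480417241097764665176)]]]]],[[[[[Int.negSucc (nat_lit 79914711050498922381)]]]]]]],[[[[[[[Int.ofNat (nat_lit 135448114010303613028)]]]]]]]],[],[[[[[[[[Int.negSucc (nat_lit 446713615664320125)]]]]]]]]],[[],[[[[[],[[[[Int.negSucc (nat_lit 82586663893126796143)]]]]]],[[[[[[Int.ofNat (nat_lit 9839784455601739242)]]]]]]]],[[[[[[[[Int.negSucc (nat_lit 271024069464191394209)]]]]]]]]],[[],[],[[[[[[[[Int.negSucc (nat_lit 161538050680010554423)]]]]]]]]]]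

/-- A coefficient. -/
noncomputable def sr3_m2_4_1 : MP 10 :=
  [[[[[[[[[],[[Int.ofNat (nat_lit 31770336458571732894)]]]],[[[[Int.ofNat (nat_lit 23838113923639696478)]]],[[[Int.negSucc (nat_lit 31739204879406421927)]]]]],[[[[],[[Int.negSucc (nat_lit 6552713575761931805)]]]],[[[[Int.negSucc (nat_lit 40060242252301782231)]]]]]],[[[[[[Int.negSucc (nat_lit 56795805838980761089)]]],[[[Int.ofNat (nat_lit 6703271500768352334)]]]]],[[[[[Int.negSucc (nat_lit 83997965256827331103)]]]]]]],[[[[[[],[[Int.negSucc (nat_lit 30975225304248319285)]]]],[[[[Int.ofNat (nat_lit 95919556995192436222)]]]]]],[[[[[[Int.negSucc (nat_lit 73340755385531450729)]]]]]]]],[[[[[[[[Int.negSucc (nat_lit 360945354198447683413)]]],[[[Int.negSucc (nat_lit 60801999871099256621)]]]]],[[[[[Int.ofNat (nat_lit 590039388103677431376)]]]]]],[[[],[[[[Int.ofNat (nat_lit 67975459334109268286)]]]]]],[[[[[[Int.ofNat (nat_lit 35695658876623425408)]]]]]]],[[[[[[[Int.ofNat (nat_lit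 225387961633955498234)]]]]],[[[[[Int.ofNat (nat_lit 117928701821321771904)]]]]]]],[[[[[[[Int.ofNat (nat_lit 520198235947143039956)]]]]]]]],[[[[[[[],[[Int.negSucc (nat_lit 22493624148102027731)]]]],[[[[Int.ofNat (nat_lit 56555106493792062798)]]]]]],[[[[[[Int.negSucc (nat_lit 259490702160472511733)]]]]]]]],[[[[[[[[Int.negSucc (nat_lit 527951222183106190523)]]]]]]],[[[[[[[Int.ofNat (nat_lit 148403929621567667206)]]]]]]]]],[[[[[[[[],[[Int.negSucc (nat_lit 35617222313926070859)]]]],[[[[Int.ofNat (nat_lit 6660380081141616046)]]]]]],[[[[[[Int.negSucc (nat_lit 752014193689337394567)]]]]]]],[[[[],[[[[Int.ofNat (nat_lit 111939981819421327370)]]]]]],[[[[[[Int.negSucc (nat_lit 93826747440104905123)]]]]]]]],[[[[[[[[Int.negSucc (nat_lit 208059525508318779085)]]],[[[Int.negSucc (nat_lit 23818951480623112049)]]]]],[[[[[Int.ofNat (nat_lit 290444472140235359858)]]]]]]],[[[[[[[Int.negSucc (nat_lit 70032704090214378191)]]]]]]]],[[[],[[[[[[Int.negSucc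 (nat_lit 74470355892736945433)]]]]]]]],[[[[[[[[Int.negSucc (nat_lit 124341161041931528833)]]]]]]]]],[[[[[[[[],[[Int.negSucc (nat_lit 28637161330071464623)]]]],[[[[Int.negSucc (nat_lit 43008755519717907039)]]]]]],[[[[[[Int.negSucc (nat_lit 715905229925311194391)]]]]]]]],[[[[[[[[Int.ofNat (nat_lit 79897061111009965848)]]]]]]],[[[[[[[Int.ofNat (nat_lit 85646052881197272998)]]]]]]]]],[[],[[[[[[[[Int.negSucc (nat_lit 32454903912774380645)]]]]]]]]]]

/-- A coefficient. -/
noncomputable def sr3_m2_4_2 : MP 10 :=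
  [[[[[[[[[[Int.negSucc (nat_lit 4943870626892535218517)]]],[[[Int.negSucc (nat_lit 48951014940821117975)]]]],[],[[[[Int.negSucc (nat_lit 19365050922419940923)]]]]],[[[[[Int.negSucc (nat_lit 903257112963232062513)]]]]]],[[[[[],[[Int.negSucc (nat_lit 1003076111502785691)]]]],[[[[Int.negSucc (nat_lit 41044349156935140573)]]]]]],[[[[[[Int.negSucc (nat_lit 641130098025343120277)]]]]]]],[[[[[[[Int.ofNat (nat_lit 2047397611141981215512)]]],[[[Int.ofNat (nat_lit 9418477250843995280)]]]]],[[[[[Int.ofNat (nat_lit 235611933398889789454)]]]]]]],[[[[[[[Int.negSucc (nat_lit 854947917381695491347)]]]]]]]],[[[[[[[],[[Int.negSucc (nat_lit 10771126158829944265)]]]],[[[[Int.ofNat (nat_lit 702251679545099052684)]]]]]],[[[[[[Int.ofNat (nat_lit 1209859660680522419168)]]]]]]],[[],[[[[[[Int.negSucc (nat_lit 436892815934177075343)]]]]]]]],[[[[[[[[Int.negSucc (nat_lit 1297179816299789316155)]]]]],[[[[[Int.ofNat (nat_lit 194230950875092281706)]]]]]]],[[[[[[[Int.ofNat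 (nat_lit 932713566875989714072)]]]]]]]],[],[[[[[[[[Int.ofNat (nat_lit 93246118590508858326)]]]]]]]]],[[[[[[[[[Int.negSucc (nat_lit 8990072041170067294423)]]],[[[Int.negSucc (nat_lit 100048900449021918981)]]]]],[[[[[Int.negSucc (nat_lit 427439253055825467351)]]]]]]],[[[[[[[Int.ofNat (nat_lit 2527934761111285317048)]]]]]]],[[[[[[[Int.negSucc (nat_lit 384478223996406773525)]]]]]]]],[[[[[],[[[[Int.ofNat (nat_lit 269343735310531712280)]]]]]],[[[[[[Int.ofNat (nat_lit 279184516116981306666)]]]]]]]],[[[[[[[[Int.ofNat (nat_lit 905575744611601552440)]]]]]]]]],[[[[[[[[[Int.negSucc (nat_lit 6135954743597706753933)]]]]]]],[[[[[[[Int.ofNat (nat_lit 730379615052085638182)]]]]]]]],[],[[[[[[[[Int.ofNat (nat_lit 291176552289558436170)]]]]]]]]],[[[[[[[[[Int.negSucc (nat_lit 1031250755915781166115)]]]]]]]]]]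

/-- A coefficient. -/
noncomputable def sr3_m2_4_3 : MP 10 :=
  [[[[[[[[[],[[Int.ofNat (nat_lit 143104522246749816074)]]]],[[[[Int.negSucc (nat_lit 444076997995766407773)]]]]]],[[[[[[Int.negSucc (nat_lit 265219455246978585509)]]]]]]],[[[[],[[[[Int.negSucc (nat_lit 31807928024862720363)]]]]]],[[[[[[Int.ofNat (nat_lit 303307128091706750612)]]]]]]]],[[[[[[[[Int.negSucc (nat_lit 4608326063681986289857)]]],[[[Int.ofNat (nat_lit 48252479732860560214)]]]]],[[[[[Int.negSucc (nat_lit 498796256943999336739)]]]]]]],[[[[[[[Int.ofNat (nat_lit 114498437396089709078)]]]]]]]],[[[],[[[[[[Int.ofNat (nat_lit 160416481867036138922)]]]]]]]],[[[[[[[[Int.ofNat (nat_lit 1524293038619738345540)]]]]]]]]],[[[[[[[[],[[Int.ofNat (nat_lit 81692051524202540968)]]]],[[[[Int.negSucc (nat_lit 67821173588532931929)]]]]]],[[[[[[Int.ofNat (nat_lit 56117433550533296938)]]]]]]]],[[[[[[[[Int.negSucc (nat_lit 2666121165343399308007)]]]]]]],[[[[[[[Int.ofNat (nat_lit 371956217291103487692)]]]]]]]]],[[],[[[[[[[[Int.negSucc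 (nat_lit 105583101582757872451)]]]]]]]]]]

/-- A coefficient. -/
noncomputable def sr3_m2_4_4 : MP 10 :=
  [[[[[[[[[[Int.ofNat (nat_lit 11960910269212697818064)]]],[[[Int.ofNat (nat_lit 80383808245216906990)]]]]],[[[[[Int.ofNat (nat_lit 830311540142478109602)]]]]]]],[[[[[[[Int.negSucc (nat_lit 4205605879824549220889)]]]]]]],[[[[[[[Int.ofNat (nat_lit 577885651962784901136)]]]]]]]],[[[[[],[[[[Int.negSucc (nat_lit 293659908711612538975)]]]]]],[[[[[[Int.negSucc (nat_lit 1138506248229962318025)]]]]]]]],[[[[[[[[Int.negSucc (nat_lit 4347740575875109554857)]]]]]]]]],[[[[[[[[[Int.ofNat (nat_lit 12592026810753832387690)]]]]]]],[[[[[[[Int.negSucc (nat_lit 2191783403038689423399)]]]]]]]],[],[[[[[[[[Int.negSucc (nat_lit 1440221706572350600949)]]]]]]]]],[[[[[[[[[Int.ofNat (nat_lit 4201924585281381283436)]]]]]]]]]]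

/-- A coefficient. -/
noncomputable def sr3_m2_4_5 : MP 10 :=
  [[[[[[[[[],[[Int.negSucc (nat_lit 116239812912403231057)]]]],[[[[Int.ofNat (nat_lit 19573089078831450636)]]]]]],[[[[[[Int.negSucc (nat_lit 179372163006963732337)]]]]]]]],[[[[[[[[Int.ofNat (nat_lit 9036251362647270246916)]]]]]]],[[[[[[[Int.negSucc (nat_lit 429932405320393051197)]]]]]]]]],[[],[[[[[[[[Int.ofNat (nat_lit 2044402729756305460448)]]]]]]]]]]

/-- A coefficient. -/
noncomputable def sr3_m2_4_6 : MP 10 :=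
  [[[[[[[[[[Int.negSucc (nat_lit 15837299615188229217231)]]]]]]],[[[[[[[Int.ofNat (nat_lit 2670857014875280238232)]]]]]]]],[],[[[[[[[[Int.ofNat (nat_lit 2486409948044988254688)]]]]]]]]],[[[[[[[[[Int.negSucc (nat_lit 4891770785003365151313)]]]]]]]]]]

/-- A coefficient. -/
noncomputable def sr3_m2_4_7 : MP 10 :=
  [[[],[[[[[[[[Int.negSucc (nat_lit 3494176217934413135735)]]]]]]]]]]

/-- A coefficient. -/
noncomputable def sr3_m2_4_8 : MP 10 :=
  [[[[[[[[[[Int.ofNat (nat_lit 7426625625040998442362)]]]]]]]]]]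

/-- A coefficient. -/
noncomputable def sr3_m2_5_0 : MP 10 :=
  [[[[[[[],[[[],[[Int.negSucc (nat_lit 432774815093343177)]]]],[[[[Int.negSucc (nat_lit 135747901288364604267)]]]]]],[[[[[],[[Int.negSucc (nat_lit 40629814913756046563)]]]],[[[[Int.ofNat (nat_lit 96745332959129711602)]]]]]],[[[[[[Int.negSucc (nat_lit 74961815493431362201)]]]]]]]],[[[[[[[],[[Int.ofNat (nat_lit 6386217203881795546)]]]],[[[[Int.negSucc (nat_lit 13009456439054807875)]]]]]],[[[[[[Int.negSucc (nat_lit 49572215501740887135)]]]]],[[[[[Int.negSucc (nat_lit 47435788044748313291)]]]]]]],[[[[],[[[[Int.ofNat (nat_lit 33351558559393767836)]]]]]],[[[[[[Int.negSucc (nat_lit 268679959378747605923)]]]]]]]],[[[[[[[[Int.negSucc (nat_lit 1911567923894680756631)]]]]],[[[[[Int.negSucc (nat_lit 87943936304899100647)]]]]]]],[[[[[[[Int.negSucc (nat_lit 235305050136899700733)]]]]]]]],[[[],[[[[[[Int.ofNat (nat_lit 26165298128535078566)]]]]]]]],[[[[[[[[Int.negSucc (nat_lit 49011401937400346107)]]]]]]]]],[[[[],[[[],[[[[Int.negSucc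 (nat_lit 61947934464327593967)]]]]]],[[[[[[Int.ofNat (nat_lit 297260325062835578384)]]]]]]]],[[[[[[[],[[Int.negSucc (nat_lit 7106244564246498313)]]]],[[[[Int.negSucc (nat_lit 51839052345880056815)]]]]]],[[[[[[Int.ofNat (nat_lit 226638565646818717712)]]]]]]]],[[[[[[[[Int.negSucc (nat_lit 672252621654850693565)]]]]]]],[[[[[[[Int.negSucc (nat_lit 64322303140344136811)]]]]]]]]],[[],[[[],[[[[[[Int.ofNat (nat_lit 42868080874859549426)]]]]]]]],[[[[[[[[Int.negSucc (nat_lit 29622269921329711123)]]]]]]]]]]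

/-- A coefficient. -/
noncomputable def sr3_m2_5_1 : MP 10 :=
  [[[[[[[[[],[[Int.negSucc (nat_lit 148061848383830150993)]]]],[[[[Int.negSucc (nat_lit 293025591172952048497)]]]]]],[[[[[[Int.ofNat (nat_lit 534979525374674017114)]]],[[[Int.negSucc (nat_lit 2195386063483657921)]]]]],[[[[[Int.ofNat (nat_lit 31060464595993478412)]]]]]]],[[[[[[],[[Int.ofNat (nat_lit 28663037636618931654)]]]],[[[[Int.negSucc (nat_lit 33444444817442624165)]]]]]],[[[[[[Int.ofNat (nat_lit 318603089880122147406)]]]]]]]],[[[[[[[[Int.ofNat (nat_lit 528190477872709489672)]]],[[[Int.ofNat (nat_lit 15588678341789926124)]]]]],[[[[[Int.negSucc (nat_lit 268354443314114787371)]]]]]],[],[[[[[[Int.negSucc (nat_lit 75026342606507558921)]]]]]]],[[[[[[[Int.negSucc (nat_lit 499997357322346965895)]]]]]]],[[[[[[[Int.negSucc (nat_lit 559367473970841109097)]]]]]]]],[[[],[[[[[[Int.ofNat (nat_lit 117621534936247954212)]]]]]]]],[[[[[[[[Int.negSucc (nat_lit 124852672947211711259)]]]]]]]]],[[[[[[[[],[[Int.negSucc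 (nat_lit 34449278066367911869)]]]],[[[[Int.negSucc (nat_lit 3056075322760096675)]]]]]],[[[[[[Int.ofNat (nat_lit 680039818907087838034)]]]]]]],[[],[[[[[[Int.ofNat (nat_lit 15801614197231374248)]]]]]]]],[[[[[[[[Int.ofNat (nat_lit 675505966049377263886)]]]]],[[[[[Int.negSucc (nat_lit 230264323287848474367)]]]]]]],[[[[[[[Int.negSucc (nat_lit 358966992428529282055)]]]]]]]],[],[[[[[[[[Int.negSucc (nat_lit 7331918413808267625)]]]]]]]]],[[[[[[],[[[[Int.ofNat (nat_lit 96955292543897471160)]]]]]],[[[[[[Int.ofNat (nat_lit 424327031431157154028)]]]]]]]],[[[[[[[[Int.ofNat (nat_lit 35837199517050495382)]]]]]]]]],[[],[[[[[[[[Int.ofNat (nat_lit 47988791357736370300)]]]]]]]]]]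

/-- A coefficient. -/
noncomputable def sr3_m2_5_2 : MP 10 :=
  [[[[[[[[[[Int.ofNat (nat_lit 4549452118138384437782)]]],[[[Int.ofNat (nat_lit 124031060193726206050)]]]]],[[[[[Int.ofNat (nat_lit 624441121055292175600)]]]]]],[[[],[[[[Int.ofNat (nat_lit 35786741637119249664)]]]]]],[[[[[[Int.negSucc (nat_lit 203105261709967892059)]]]]]]],[[[[[[[Int.ofNat (nat_lit 33122015350990768412)]]]]]]]],[[[[[[[],[[Int.ofNat (nat_lit 15269679937585450720)]]]],[[[[Int.ofNat (nat_lit 134367220009045012324)]]]]]],[[[[[[Int.ofNat (nat_lit 80901801298468224334)]]]]]]]],[[[[[[[[Int.ofNat (nat_lit 599361403188762900324)]]]]]]],[[[[[[[Int.negSucc (nat_lit 445268313469608294617)]]]]]]]]],[[[[[[[[[Int.ofNat (nat_lit 8383537970484460059952)]]],[[[Int.ofNat (nat_lit 72382713467044581460)]]]]],[[[[[Int.ofNat (nat_lit 242871897989446278724)]]]]]]],[[[[[[[Int.ofNat (nat_lit 162016869960942447588)]]]]]]]],[[[],[[[[[[Int.negSucc (nat_lit 105872464064608929601)]]]]]]]],[[[[[[[[Int.negSucc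 (nat_lit 140306868174496349725)]]]]]]]]],[[[[[[[[[Int.ofNat (nat_lit 5856153812747553287628)]]]]]]],[[[[[[[Int.ofNat (nat_lit 19595631144099214282)]]]]]]]]],[[[[[[[[[Int.ofNat (nat_lit 1403720707988725295736)]]]]]]]]]]

/-- A coefficient. -/
noncomputable def sr3_m2_5_3 : MP 10 :=
  [[[[[[[[[],[[Int.ofNat (nat_lit 136406784259593017236)]]]],[[[[Int.ofNat (nat_lit 79737855366390753834)]]]]]],[[[[[[Int.negSucc (nat_lit 1138391103484906613737)]]]]]]],[[],[[[[[[Int.negSucc (nat_lit 24752983803186415071)]]]]]]]],[[[[[[[[Int.ofNat (nat_lit 197913056614697322142)]]]]],[[[[[Int.ofNat (nat_lit 352606780627710688480)]]]]]]],[[[[[[[Int.ofNat (nat_lit 689770110930876658498)]]]]]]]],[],[[[[[[[[Int.negSucc (nat_lit 77132147436639269329)]]]]]]]]],[[[[[[],[[[[Int.ofNat (nat_lit 19290358780450457740)]]]]]],[[[[[[Int.negSucc (nat_lit 817375478381007281105)]]]]]]]],[[[[[[[[Int.negSucc (nat_lit 626595367423765164791)]]]]]]]]],[[],[[[[[[[[Int.negSucc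 (nat_lit 115157890171312472087)]]]]]]]]]]

/-- A coefficient. -/
noncomputable def sr3_m2_5_4 : MP 10 :=
  [[[[[[[[[[Int.negSucc (nat_lit 10298641919401369568277)]]],[[[Int.negSucc (nat_lit 99077040462296135743)]]]]],[[[[[Int.negSucc (nat_lit 463752058334456425071)]]]]]]],[[[[[[[Int.negSucc (nat_lit 694900811855250935073)]]]]]]]],[[[],[[[[[[Int.ofNat (nat_lit 125466399337562034716)]]]]]]]],[[[[[[[[Int.negSucc (nat_lit 969147105892512313323)]]]]]]]]],[[[[[[[[[Int.negSucc (nat_lit 12122794395875872712791)]]]]]]],[[[[[[[Int.ofNat (nat_lit 432698812093198352786)]]]]]]]]],[[[[[[[[[Int.negSucc (nat_lit 4780074907547664159587)]]]]]]]]]]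

/-- A coefficient. -/
noncomputable def sr3_m2_5_5 : MP 10 :=
  [[[[[[[],[[[[Int.ofNat (nat_lit 162435912361813402604)]]]]]],[[[[[[Int.ofNat (nat_lit 1157890012174987069770)]]]]]]]],[[[[[[[[Int.ofNat (nat_lit 1933305847928542877386)]]]]]]]]],[[],[[[[[[[[Int.ofNat (nat_lit 1196962014351922235816)]]]]]]]]]]

/-- A coefficient. -/
noncomputable def sr3_m2_5_6 : MP 10 :=
  [[[[[[[[[[Int.ofNat (nat_lit 13615928818991573028480)]]]]]]],[[[[[[[Int.ofNat (nat_lit 427554585608036037488)]]]]]]]]],[[[[[[[[[Int.ofNat (nat_lit 5148563074848842467936)]]]]]]]]]]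

/-- A coefficient. -/
noncomputable def sr3_m2_5_7 : MP 10 :=
  [[[],[[[[[[[[Int.negSucc (nat_lit 1590013014992448012561)]]]]]]]]]]

/-- A coefficient. -/
noncomputable def sr3_m2_5_8 : MP 10 :=
  [[[[[[[[[[Int.negSucc (nat_lit 6637464528913083069485)]]]]]]]]]]

/-- A coefficient. -/
noncomputable def sr3_m2_6_0 : MP 10 :=
  [[[[[],[[[[[],[[Int.ofNat (nat_lit 18885616980259577104)]]]],[[[[Int.ofNat (nat_lit 46598373858248293626)]]]]]],[[[[[[Int.negSucc (nat_lit 256184639582816304535)]]]]]]]],[[[[[[[],[[Int.ofNat (nat_lit 12013519452996483506)]]]],[[[[Int.ofNat (nat_lit 33436873709211034682)]]]]]],[[[[[[Int.negSucc (nat_lit 130417570149713612241)]]]]]]],[[],[[[[[[Int.ofNat (nat_lit 172378423355531776656)]]]]]]]],[[[[[[[[Int.negSucc (nat_lit 1889351458370642640593)]]]]],[[[[[Int.ofNat (nat_lit 83574368216096054042)]]]]]]],[[[[[[[Int.ofNat (nat_lit 274732472079367615004)]]]]]]]],[],[[[[[[[[Int.ofNat (nat_lit 26509204675815950620)]]]]]]]]],[[],[[[[[],[[[[Int.ofNat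 (nat_lit 70067033947355221288)]]]]]],[[[[[[Int.negSucc (nat_lit 159315531937874999903)]]]]]]]],[[[[[[[[Int.ofNat (nat_lit 19038844656167565668)]]]]]]]]],[[],[],[[[[[[[[Int.ofNat (nat_lit 107951829542576639618)]]]]]]]]]]

/-- A coefficient. -/
noncomputable def sr3_m2_6_1 : MP 10 :=
  [[[[[[[[[],[[Int.ofNat (nat_lit 72374974187889706462)]]]],[[[[Int.ofNat (nat_lit 302055330095473580226)]]]]]],[[[[[[Int.negSucc (nat_lit 516590161626588778107)]]]]]]]],[[[[[[[[Int.ofNat (nat_lit 1452996766798563070946)]]],[[[Int.ofNat (nat_lit 13683057027648459624)]]]]],[[[[[Int.negSucc (nat_lit 227633007188676352447)]]]]]]],[[[[[[[Int.ofNat (nat_lit 31991556374919928736)]]]]]]]],[[[],[[[[[[Int.ofNat (nat_lit 26002068240459385298)]]]]]]]],[[[[[[[[Int.ofNat (nat_lit 74282740786078107238)]]]]]]]]],[[[[[[[[],[[Int.ofNat (nat_lit 34111994509089785514)]]]],[[[[Int.ofNat (nat_lit 187880697984976565802)]]]]]],[[[[[[Int.ofNat (nat_lit 108297935107613363502)]]]]]]]],[[[[[[[[Int.negSucc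 (nat_lit 38015386392885581113)]]]]]]],[[[[[[[Int.ofNat (nat_lit 196627561605484750522)]]]]]]]]],[[],[[[[[[[[Int.ofNat (nat_lit 199508245489960278272)]]]]]]]]]]

/-- A coefficient. -/
noncomputable def sr3_m2_6_2 : MP 10 :=
  [[[[[[[[[[Int.ofNat (nat_lit 1365576627937148237690)]]],[[[Int.ofNat (nat_lit 38016727202748674314)]]]]],[[[[[Int.ofNat (nat_lit 437114206028984969754)]]]]]]],[[[[[[[Int.negSucc (nat_lit 456315098012309105821)]]]]]]]],[[[[[],[[[[Int.negSucc (nat_lit 216470374702483607527)]]]]]],[[[[[[Int.negSucc (nat_lit 129644193242736453053)]]]]]]]],[[[[[[[[Int.ofNat (nat_lit 487287592303701209914)]]]]]]]]],[[[[[[[[[Int.ofNat (nat_lit 2000003564388250876808)]]]]]]],[[[[[[[Int.negSucc (nat_lit 473012747915025011151)]]]]]]]],[],[[[[[[[[Int.negSucc (nat_lit 20747528746365662621)]]]]]]]]],[[[[[[[[[Int.ofNat (nat_lit 474512398821517833512)]]]]]]]]]]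

/-- A coefficient. -/
noncomputable def sr3_m2_6_3 : MP 10 :=
  [[[[[[[[[],[[Int.negSucc (nat_lit 178717009786976170485)]]]],[[[[Int.negSucc (nat_lit 199200765019241787611)]]]]]],[[[[[[Int.ofNat (nat_lit 904610914423224509442)]]]]]]]],[[[[[[[[Int.ofNat (nat_lit 1002304042258693876574)]]]]]]],[[[[[[[Int.negSucc (nat_lit 476933555909665886113)]]]]]]]]],[[],[[[[[[[[Int.ofNat (nat_lit 300103798402072693358)]]]]]]]]]]

/-- A coefficient. -/
noncomputable def sr3_m2_6_4 : MP 10 :=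
  [[[[[[[[[[Int.negSucc (nat_lit 2674210895645304147563)]]]]]]],[[[[[[[Int.ofNat (nat_lit 747470949043454960514)]]]]]]]],[],[[[[[[[[Int.ofNat (nat_lit 72341592340415990716)]]]]]]]]],[[[[[[[[[Int.negSucc (nat_lit 1512536835328273410153)]]]]]]]]]]

/-- A coefficient. -/
noncomputable def sr3_m2_6_5 : MP 10 :=
  [[[],[[[[[[[[Int.negSucc (nat_lit 1355064232594233211457)]]]]]]]]]]

/-- A coefficient. -/
noncomputable def sr3_m2_6_6 : MP 10 :=
  [[[[[[[[[[Int.ofNat (nat_lit 1403505407543460370968)]]]]]]]]]]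

/-- A coefficient. -/
noncomputable def sr3_m2_7_0 : MP 10 :=
  [[[],[[[[[[[],[[Int.negSucc (nat_lit 2310968243359290057)]]]],[[[[Int.negSucc (nat_lit 13554623466216655809)]]]]]],[[[[[[Int.ofNat (nat_lit 31410672079461549932)]]]]]]]],[[[[[[[[Int.ofNat (nat_lit 1679475487304057937516)]]]]]]],[[[[[[[Int.negSucc (nat_lit 87406586436521603859)]]]]]]]]]]

/-- A coefficient. -/
noncomputable def sr3_m2_7_1 : MP 10 :=
  [[[[[[[[[],[[Int.ofNat (nat_lit 100103309849673682140)]]]],[[[[Int.ofNat (nat_lit 167140061942381197246)]]]]]],[[[[[[Int.negSucc (nat_lit 148574517259273501345)]]]]]]]],[[[[[[[[Int.negSucc (nat_lit 178918997275065848037)]]]]],[[[[[Int.ofNat (nat_lit 211866952666110935846)]]]]]]],[[[[[[[Int.ofNat (nat_lit 461894908111100077878)]]]]]]]],[],[[[[[[[[Int.ofNat (nat_lit 29928397138123174136)]]]]]]]]],[[[[[[],[[[[Int.negSucc (nat_lit 105338502127549356135)]]]]]],[[[[[[Int.negSucc (nat_lit 252597933253748142029)]]]]]]]],[[[[[[[[Int.negSucc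 (nat_lit 60057018567995501873)]]]]]]]]],[[],[[[[[[[[Int.ofNat (nat_lit 5860671141412175800)]]]]]]]]]]

/-- A coefficient. -/
noncomputable def sr3_m2_7_2 : MP 10 :=
  [[[[[[[[[[Int.negSucc (nat_lit 1851614864432901476677)]]],[[[Int.negSucc (nat_lit 60125680681105237193)]]]]],[[[[[Int.negSucc (nat_lit 352589059658596202763)]]]]]]],[[[[[[[Int.negSucc (nat_lit 321992388588689579655)]]]]]]]],[[[],[[[[[[Int.negSucc (nat_lit 59541008786863164873)]]]]]]]],[[[[[[[[Int.negSucc (nat_lit 104821162146742357039)]]]]]]]]],[[[[[[[[[Int.negSucc (nat_lit 2962617078339885952599)]]]]]]],[[[[[[[Int.ofNat (nat_lit 218953171725823982640)]]]]]]]]],[[[[[[[[[Int.negSucc (nat_lit 1031426693024256837317)]]]]]]]]]]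

/-- A coefficient. -/
noncomputable def sr3_m2_7_3 : MP 10 :=
  [[[[[[[],[[[[Int.ofNat (nat_lit 81200565975498465232)]]]]]],[[[[[[Int.ofNat (nat_lit 86187121944416919860)]]]]]]]],[[[[[[[[Int.negSucc (nat_lit 852539315100587570879)]]]]]]]]],[[],[[[[[[[[Int.ofNat (nat_lit 26963469465105755278)]]]]]]]]]]

/-- A coefficient. -/
noncomputable def sr3_m2_7_4 : MP 10 :=
  [[[[[[[[[[Int.ofNat (nat_lit 2957930636536878238154)]]]]]]],[[[[[[[Int.negSucc (nat_lit 155958951929972424761)]]]]]]]]],[[[[[[[[[Int.ofNat (nat_lit 2072891090964951015294)]]]]]]]]]]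

/-- A coefficient. -/
noncomputable def sr3_m2_7_5 : MP 10 :=
  [[[],[[[[[[[[Int.ofNat (nat_lit 444239881084417674838)]]]]]]]]]]

/-- A coefficient. -/
noncomputable def sr3_m2_7_6 : MP 10 :=
  [[[[[[[[[[Int.negSucc (nat_lit 844823070070862370885)]]]]]]]]]]

/-- A coefficient. -/
noncomputable def sr3_m2_8_0 : MP 10 :=
  []

/-- A coefficient. -/
noncomputable def sr3_m2_8_1 : MP 10 :=
  [[[[[[[[[],[[Int.negSucc (nat_lit 67378643054872571893)]]]],[[[[Int.negSucc (nat_lit 210196400077802557429)]]]]]],[[[[[[Int.ofNat (nat_lit 269461558100328743182)]]]]]]]],[[[[[[[[Int.negSucc (nat_lit 946254631767987803055)]]]]]]],[[[[[[[Int.negSucc (nat_lit 279669209523628395383)]]]]]]]]]]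

/-- An expanded part. -/
noncomputable def sr3_m2 : R12 :=
  [[],
   [],
   [sr3_m2_2_0, sr3_m2_2_1, sr3_m2_2_2, sr3_m2_2_3, sr3_m2_2_4, sr3_m2_2_5, sr3_m2_2_6, sr3_m2_2_7, sr3_m2_2_8, sr3_m2_2_9, sr3_m2_2_10],
   [sr3_m2_3_0, sr3_m2_3_1, sr3_m2_3_2, sr3_m2_3_3, sr3_m2_3_4, sr3_m2_3_5, sr3_m2_3_6, sr3_m2_3_7, sr3_m2_3_8, sr3_m2_3_9, sr3_m2_3_10],
   [sr3_m2_4_0, sr3_m2_4_1, sr3_m2_4_2, sr3_m2_4_3, sr3_m2_4_4, sr3_m2_4_5, sr3_m2_4_6, sr3_m2_4_7, sr3_m2_4_8],
   [sr3_m2_5_0, sr3_m2_5_1, sr3_m2_5_2, sr3_m2_5_3, sr3_m2_5_4, sr3_m2_5_5, sr3_m2_5_6, sr3_m2_5_7, sr3_m2_5_8],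
   [sr3_m2_6_0, sr3_m2_6_1, sr3_m2_6_2, sr3_m2_6_3, sr3_m2_6_4, sr3_m2_6_5, sr3_m2_6_6],
   [sr3_m2_7_0, sr3_m2_7_1, sr3_m2_7_2, sr3_m2_7_3, sr3_m2_7_4, sr3_m2_7_5, sr3_m2_7_6],
   [sr3_m2_8_0, sr3_m2_8_1]]

set_option maxRecDepth 100000 in
theorem sr3_check2 : partOk 0 sr3_rows 2 sr3_m2 = true :=
  Fast.partOk_of_fast (by decide +kernel)

end Vale.Agent.P142K.CertB
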