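import Vale.Agent.P142K.CertB.Sr3Rows
import Vale.Agent.P142K.Fast

/-!
# An expanded part of the certificate

Generated from a semidefinite program; only the checker is trusted.
-/

namespace Vale.Agent.P142K.CertB

open Vale.Agent.P142J (MP)

/-- A coefficient. -/
noncomputable def sr3_m3_4_0 : MP 10 :=
  [[],[],[[[[],[],[[[[[[Int.ofNat (nat_lit 158295928915031634911)]]]]]]]],[[[],[[[[[[Int.ofNat (nat_lit 138235418919446163888)]]]]]]]],[[[[[[[[Int.ofNat (nat_lit 811412366694798574874)]]]]]]]]]]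

/-- A coefficient. -/
noncomputable def sr3_m3_4_1 : MP 10 :=
  [[],[[[[],[[[[[[Int.ofNat (nat_lit 4974087795734249170)]]]]],[[[[[Int.negSucc (nat_lit 45535793991606108307)]]]]]]],[[],[[[[[[Int.negSucc (nat_lit 30787803413810546019)]]]]]]]],[[[[[[[[Int.negSucc (nat_lit 776837736680023493069)]]]]],[[[[[Int.ofNat (nat_lit 8864788897560976000)]]]]]]],[[[[[[[Int.ofNat (nat_lit 248818554247394304346)]]]]]]]],[[[],[[[[[[Int.ofNat (nat_lit 87085500052871090348)]]]]]]]],[[[[[[[[Int.negSucc (nat_lit 90976248419484830045)]]]]]]]]],[[[[],[[[[[[Int.ofNat (nat_lit 6582126333597560882)]]]]]]]],[[[[[[[[Int.negSucc (nat_lit 729020983872244922839)]]]]]]]]],[[[[],[[[[[[Int.negSucc (nat_lit 35985104016676077303)]]]]]]]],[[[[[[[[Int.ofNat (nat_lit 216826706847001412254)]]]]]]]]]]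

/-- A coefficient. -/
noncomputable def sr3_m3_4_2 : MP 10 :=
  [[[[[[[[[[Int.ofNat (nat_lit 2382653351967430696861)]]]]],[[[[[Int.ofNat (nat_lit 209462050856237312340)]]]]],[[[[[Int.ofNat (nat_lit 249530340988865409585)]]]]]]],[[[[[[[Int.negSucc (nat_lit 1057636077486692746227)]]]]],[[[[[Int.negSucc (nat_lit 1191922925146811487)]]]]]]],[[[[[[[Int.ofNat (nat_lit 1171408377592807987670)]]]]]]]],[],[[[[[[[[Int.negSucc (nat_lit 613257718275124677497)]]]]],[[[[[Int.ofNat (nat_lit 306729918440777616)]]]]]]],[[[[[[[Int.ofNat (nat_lit 412765531491957776342)]]]]]]]],[],[[[[[[[[Int.ofNat (nat_lit 670605419870293593216)]]]]]]]]],[[[[[[[[[Int.ofNat (nat_lit 3221128002998315522136)]]]]],[[[[[Int.ofNat (nat_lit 31203619090013673972)]]]]]],[],[[[[[[Int.negSucc (nat_lit 2399807812571010951)]]]]]]],[[[[[[[Int.ofNat (nat_lit 62892320684462983674)]]]]]]]],[[[],[[[[[[Int.negSucc (nat_lit 81380459668453781733)]]]]]]]],[[[[[[[[Int.negSucc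 (nat_lit 212098682908695470543)]]]]]]]]],[[[[[[[[[Int.ofNat (nat_lit 2849432322454408538996)]]]]],[[[[[Int.ofNat (nat_lit 28402796747482373394)]]]]]]],[[[[[[[Int.ofNat (nat_lit 663052750947529161062)]]]]]]]],[],[[[[[[[[Int.ofNat (nat_lit 355878814257992929736)]]]]]]]]],[[[[[[[[[Int.ofNat (nat_lit 1365189759080851090462)]]]]]]]]],[[[[[[[[[Int.ofNat (nat_lit 640771679689193572740)]]]]]]]]]]

/-- A coefficient. -/
noncomputable def sr3_m3_4_3 : MP 10 :=
  [[[[[],[[[[[[Int.negSucc (nat_lit 434597044904603169905)]]]]],[[[[[Int.negSucc (nat_lit 214988512463012432129)]]]]]]],[[],[[[[[[Int.negSucc (nat_lit 64021428042818814189)]]]]]]]],[[[[[[[[Int.ofNat (nat_lit 579167739015655749078)]]]]],[[[[[Int.ofNat (nat_lit 212618000648907154544)]]]]]]],[[[[[[[Int.ofNat (nat_lit 211385669819020887386)]]]]]]]],[[[],[[[[[[Int.negSucc (nat_lit 582121274671585674129)]]]]]]]],[[[[[[[[Int.ofNat (nat_lit 336500183362969711770)]]]]]]]]],[[[[],[[[[[[Int.negSucc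 (nat_lit 398478066022764654661)]]]]]]]],[[[[[[[[Int.negSucc (nat_lit 646425989160152251839)]]]]]]]]],[[[[],[[[[[[Int.negSucc (nat_lit 493660792672778983151)]]]]]]]],[[[[[[[[Int.ofNat (nat_lit 183761628215250617288)]]]]]]]]]]

/-- A coefficient. -/
noncomputable def sr3_m3_4_4 : MP 10 :=
  [[[[[[[[[[Int.negSucc (nat_lit 6507192346255465943041)]]]]],[[[[[Int.negSucc (nat_lit 713480364559166015969)]]]]]],[],[[[[[[Int.ofNat (nat_lit 1921226401585092187986)]]]]]]],[[[[[[[Int.negSucc (nat_lit 176870922154683179137)]]]]]]]],[[[],[[[[[[Int.negSucc (nat_lit 1412792289017536177921)]]]]]]]],[[[[[[[[Int.ofNat (nat_lit 2061924497775733068196)]]]]]]]]],[[[[[[[[[Int.negSucc (nat_lit 8260554939708184834189)]]]]],[[[[[Int.ofNat (nat_lit 89091853218558357598)]]]]]]],[[[[[[[Int.negSucc (nat_lit 658072845428001646297)]]]]]]]],[],[[[[[[[[Int.negSucc (nat_lit 79233561605693705435)]]]]]]]]],[[[[[[[[[Int.negSucc (nat_lit 5978230731086157762447)]]]]]]]]],[[[[[[[[[Int.negSucc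 (nat_lit 834043832189333565617)]]]]]]]]]]

/-- A coefficient. -/
noncomputable def sr3_m3_4_5 : MP 10 :=
  [[[[[],[[[[[[Int.ofNat (nat_lit 3845928710827533743956)]]]]]]]],[[[[[[[[Int.negSucc (nat_lit 5655104496378700260175)]]]]]]]]],[[[[],[[[[[[Int.ofNat (nat_lit 369311414569608402312)]]]]]]]],[[[[[[[[Int.ofNat (nat_lit 977510179261159226686)]]]]]]]]]]

/-- A coefficient. -/
noncomputable def sr3_m3_4_6 : MP 10 :=
  [[[[[[[[[[Int.ofNat (nat_lit 21108572596536006430634)]]]]],[[[[[Int.ofNat (nat_lit 496923812306087477684)]]]]]]],[[[[[[[Int.negSucc (nat_lit 315331924812921319299)]]]]]]]],[],[[[[[[[[Int.ofNat (nat_lit 299141255406727168004)]]]]]]]]],[[[[[[[[[Int.ofNat (nat_lit 12108101588880753323618)]]]]]]]]],[[[[[[[[[Int.ofNat (nat_lit 5054059640077254680257)]]]]]]]]]]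

/-- A coefficient. -/
noncomputable def sr3_m3_4_7 : MP 10 :=
  [[[[[],[[[[[[Int.negSucc (nat_lit 2524268927518957905411)]]]]]]]],[[[[[[[[Int.ofNat (nat_lit 2702461742021291408522)]]]]]]]]]]

/-- A coefficient. -/
noncomputable def sr3_m3_4_8 : MP 10 :=
  [[[[[[[[[[Int.negSucc (nat_lit 24952341361972837988169)]]]]]]]]],[[[[[[[[[Int.negSucc (nat_lit 3688424427802421342371)]]]]]]]]]]

/-- A coefficient. -/
noncomputable def sr3_m3_4_9 : MP 10 :=
  []

/-- A coefficient. -/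
noncomputable def sr3_m3_4_10 : MP 10 :=
  [[[[[[[[[[Int.ofNat (nat_lit 11385513402736334985191)]]]]]]]]]]

/-- A coefficient. -/
noncomputable def sr3_m3_5_0 : MP 10 :=
  [[],[[[[],[[[],[[[[Int.ofNat (nat_lit 17040696739807014344)]]]]]],[[[[[[Int.ofNat (nat_lit 54988077085849371122)]]]]]]]],[[[[[],[[[[Int.negSucc (nat_lit 7650832434300191433)]]]]]],[[[[[[Int.negSucc (nat_lit 392983351747498949259)]]]]]]]],[[[[[[[[Int.negSucc (nat_lit 1517651275125779461331)]]]]]]]]],[[],[[[],[[[[[[Int.negSucc (nat_lit 129292472841402933549)]]]]]]]],[[[[[[[[Int.negSucc (nat_lit 957327025279303968751)]]]]]]]]]]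

/-- A coefficient. -/
noncomputable def sr3_m3_5_1 : MP 10 :=
  [[[[[[[],[[[[Int.ofNat (nat_lit 121937236003673481540)]]]]],[[],[[[[Int.ofNat (nat_lit 32386412923402250020)]]]]]],[[[[[[Int.negSucc (nat_lit 299390047020193825501)]]]]],[[[[[Int.ofNat (nat_lit 99296000956937334524)]]]]]]],[[[[],[[[[Int.negSucc (nat_lit 117892151341035405453)]]]]]],[[[[[[Int.ofNat (nat_lit 28363649390112621504)]]]]]]]],[[[[[[[[Int.ofNat (nat_lit 1317262716952405375486)]]]]],[[[[[Int.ofNat (nat_lit 120691133770611713804)]]]]]]],[[[[[[[Int.negSucc (nat_lit 382741590023101251771)]]]]]]]],[[[[[],[[[[Int.negSucc (nat_lit 52778977783399864409)]]]]]],[[[[[[Int.ofNat (nat_lit 183664738929942373594)]]]]]]]],[[[[[[[[Int.ofNat (nat_lit 10288911636129038068)]]]]]]]]],[[[[[[],[[[[Int.negSucc (nat_lit 93735827801507642825)]]]]]],[[[[[[Int.ofNat (nat_lit 535092060837586568730)]]]]]]],[[],[[[[[[Int.ofNat (nat_lit 139042449575627221506)]]]]]]]],[[[[[[[[Int.ofNat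 (nat_lit 2482424831330568986884)]]]]],[[[[[Int.ofNat (nat_lit 23577911174840705140)]]]]]]],[[[[[[[Int.negSucc (nat_lit 616527093859549455377)]]]]]]]],[],[[[[[[[[Int.ofNat (nat_lit 72055523230405300196)]]]]]]]]],[[[[[[],[[[[Int.negSucc (nat_lit 142557738998137758575)]]]]]],[[[[[[Int.ofNat (nat_lit 368386172290601712370)]]]]]]]],[[[[[[[[Int.ofNat (nat_lit 811235713646162241964)]]]]]]]]],[[],[[[[[[[[Int.negSucc (nat_lit 74004628775611715765)]]]]]]]]]]

/-- A coefficient. -/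
noncomputable def sr3_m3_5_2 : MP 10 :=
  [[[[[[[[[[Int.negSucc (nat_lit 2028916925267498951387)]]]]],[[[[[Int.ofNat (nat_lit 504883150219634421506)]]]]]],[[[],[[[[Int.negSucc (nat_lit 51985359854024946379)]]]]]],[[[[[[Int.negSucc (nat_lit 110703593588170715669)]]]]]]],[[[[[[[Int.ofNat (nat_lit 3803522805138940357078)]]]]],[[[[[Int.negSucc (nat_lit 285486916074792277853)]]]]]]],[[[[[[[Int.negSucc (nat_lit 1593399837809124027071)]]]]]]]],[[[[[],[[[[Int.ofNat (nat_lit 56646017398201904046)]]]]]],[[[[[[Int.negSucc (nat_lit 306428069546874223811)]]]]]]]],[[[[[[[[Int.ofNat (nat_lit 1344686949873506600632)]]]]]]],[[[[[[[Int.negSucc (nat_lit 269347253795670616815)]]]]]]]]],[[[[[[[[[Int.ofNat (nat_lit 426060041823676947794)]]]]],[[[[[Int.ofNat (nat_lit 209109522034527754164)]]]]]]],[[[[[[[Int.ofNat (nat_lit 1618434563011258993726)]]]]]]]],[[[],[[[[[[Int.negSucc (nat_lit 183390861152358686561)]]]]]]]],[[[[[[[[Int.ofNat (nat_lit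 520184400197537086812)]]]]]]]]],[[[[[[[[[Int.ofNat (nat_lit 1625696206094028964342)]]]]]]],[[[[[[[Int.negSucc (nat_lit 531614735674286028179)]]]]]]]]],[[[[[[[[[Int.ofNat (nat_lit 316371283727683519798)]]]]]]]]]]

/-- A coefficient. -/
noncomputable def sr3_m3_5_3 : MP 10 :=
  [[[[[[[],[[[[Int.ofNat (nat_lit 3717467498478842950)]]]]]],[[[[[[Int.negSucc (nat_lit 657795027870743585761)]]]]]]],[[],[[[[[[Int.ofNat (nat_lit 72891753013156070780)]]]]]]]],[[[[[[[[Int.negSucc (nat_lit 1058114728105428445997)]]]]],[[[[[Int.negSucc (nat_lit 197782414977681065523)]]]]]]],[[[[[[[Int.negSucc (nat_lit 608938370623988861471)]]]]]]]],[],[[[[[[[[Int.negSucc (nat_lit 1663147945047885423331)]]]]]]]]],[[[[[[],[[[[Int.ofNat (nat_lit 99554682082390734034)]]]]]],[[[[[[Int.ofNat (nat_lit 183023316277503418388)]]]]]]]],[[[[[[[[Int.negSucc (nat_lit 2295368665710675970835)]]]]]]]]],[[],[[[[[[[[Int.negSucc (nat_lit 756560879301918030573)]]]]]]]]]]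

/-- A coefficient. -/
noncomputable def sr3_m3_5_4 : MP 10 :=
  [[[[[[[[[[Int.ofNat (nat_lit 55948687812710209622)]]]]],[[[[[Int.negSucc (nat_lit 505316754446146550275)]]]]]]],[[[[[[[Int.negSucc (nat_lit 1470101567371939546819)]]]]]]]],[[[],[[[[[[Int.ofNat (nat_lit 443924149914504931674)]]]]]]]],[[[[[[[[Int.negSucc (nat_lit 3728761033602584155663)]]]]]]]]],[[[[[[[[[Int.negSucc (nat_lit 2682168091917822038431)]]]]]]],[[[[[[[Int.ofNat (nat_lit 301648604264715291724)]]]]]]]]],[[[[[[[[[Int.negSucc (nat_lit 2024288187841886486717)]]]]]]]]]]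

/-- A coefficient. -/
noncomputable def sr3_m3_5_5 : MP 10 :=
  [[[[[[[],[[[[Int.ofNat (nat_lit 44475888248178999626)]]]]]],[[[[[[Int.ofNat (nat_lit 2373192774677009184394)]]]]]]]],[[[[[[[[Int.ofNat (nat_lit 5002902917885518786310)]]]]]]]]],[[],[[[[[[[[Int.ofNat (nat_lit 902599972318566419146)]]]]]]]]]]

/-- A coefficient. -/
noncomputable def sr3_m3_5_6 : MP 10 :=
  [[[[[[[[[[Int.ofNat (nat_lit 5741853526810853865176)]]]]]]],[[[[[[[Int.negSucc (nat_lit 51753939809160542839)]]]]]]]]],[[[[[[[[[Int.ofNat (nat_lit 844726358104096102918)]]]]]]]]]]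

/-- A coefficient. -/
noncomputable def sr3_m3_5_7 : MP 10 :=
  [[[],[[[[[[[[Int.negSucc (nat_lit 2735597677530675233337)]]]]]]]]]]

/-- A coefficient. -/
noncomputable def sr3_m3_5_8 : MP 10 :=
  [[[[[[[[[[Int.negSucc (nat_lit 5367299312892719100703)]]]]]]]]]]

/-- A coefficient. -/
noncomputable def sr3_m3_6_0 : MP 10 :=
  [[[[[[[],[],[[[[Int.ofNat (nat_lit 88573727719099146337)]]]]]],[[[],[[[[Int.negSucc (nat_lit 113516642917035647253)]]]]]],[[[[[[Int.ofNat (nat_lit 466586588013133494251)]]]]]]]],[[[[[],[[[[Int.ofNat (nat_lit 91169065454526051704)]]]]]],[[[[[[Int.negSucc (nat_lit 138975129123358814941)]]]]]]]],[[[[[[[[Int.ofNat (nat_lit 1324431816331065226249)]]]]]]]]],[[[[],[],[[[[[[Int.negSucc (nat_lit 258737623637098008667)]]]]]]]],[[[[[],[[[[Int.ofNat (nat_lit 31617942861140624658)]]]]]],[[[[[[Int.negSucc (nat_lit 7116055366066514877)]]]]]]]],[[[[[[[[Int.ofNat (nat_lit 348628232173307832350)]]]]]]]]],[[],[],[[[[[[[[Int.ofNat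 (nat_lit 468947090156350515384)]]]]]]]]]]

/-- A coefficient. -/
noncomputable def sr3_m3_6_1 : MP 10 :=
  [[[[[[[],[[[[Int.negSucc (nat_lit 42341225214436301391)]]]]]],[[[[[[Int.ofNat (nat_lit 1063958067175719764222)]]]]],[[[[[Int.negSucc (nat_lit 17408756304708072487)]]]]]]],[[[[],[[[[Int.ofNat (nat_lit 31142687986527228906)]]]]]],[[[[[[Int.ofNat (nat_lit 163903312164942217022)]]]]]]]],[[[[[[[[Int.negSucc (nat_lit 816698099099721220539)]]]]],[[[[[Int.negSucc (nat_lit 12252924096223208765)]]]]]]],[[[[[[[Int.ofNat (nat_lit 436850125641168837236)]]]]]]]],[[[],[[[[[[Int.negSucc (nat_lit 160351945648857394311)]]]]]]]],[[[[[[[[Int.ofNat (nat_lit 263624337736531903326)]]]]]]]]],[[[[[[],[[[[Int.ofNat (nat_lit 117126624840915538988)]]]]]],[[[[[[Int.negSucc (nat_lit 416881718602844211465)]]]]]]]],[[[[[[[[Int.ofNat (nat_lit 590771984744968824740)]]]]]]],[[[[[[[Int.ofNat (nat_lit 358734596349292628044)]]]]]]]]],[[[[],[[[[[[Int.negSucc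 (nat_lit 235008917073540602139)]]]]]]]],[[[[[[[[Int.ofNat (nat_lit 210281345358980013214)]]]]]]]]]]

/-- A coefficient. -/
noncomputable def sr3_m3_6_2 : MP 10 :=
  [[[[[[[[[[Int.ofNat (nat_lit 4862110231387474532355)]]]]],[[[[[Int.negSucc (nat_lit 440781966978712515095)]]]]]],[],[[[[[[Int.ofNat (nat_lit 258393645191205483922)]]]]]]],[[[[[[[Int.negSucc (nat_lit 4802128549182862623089)]]]]]]],[[[[[[[Int.ofNat (nat_lit 1289759393965121752548)]]]]]]]],[[[[[],[[[[Int.negSucc (nat_lit 75138590554666381937)]]]]]],[[[[[[Int.negSucc (nat_lit 603279333570066364337)]]]]]]]],[[[[[[[[Int.negSucc (nat_lit 361174913761265780867)]]]]]]]]],[[[[[[[[[Int.ofNat (nat_lit 1364638848425469909402)]]]]],[[[[[Int.negSucc (nat_lit 75313566177733780791)]]]]]]],[[[[[[[Int.negSucc (nat_lit 2534722806076701769565)]]]]]]]],[],[[[[[[[[Int.negSucc (nat_lit 201573706125077632161)]]]]]]]]],[[[[[[[[[Int.negSucc (nat_lit 1256811093719321507014)]]]]]]]]],[[[[[[[[[Int.negSucc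 (nat_lit 1216220128508562438673)]]]]]]]]]]

/-- A coefficient. -/
noncomputable def sr3_m3_6_3 : MP 10 :=
  [[[[[[[],[[[[Int.ofNat (nat_lit 83386527156894686750)]]]]]],[[[[[[Int.negSucc (nat_lit 19073674952039957811)]]]]]]]],[[[[[[[[Int.ofNat (nat_lit 1456948156482475124640)]]]]]]],[[[[[[[Int.ofNat (nat_lit 534758852523236071196)]]]]]]]]],[[[[],[[[[[[Int.ofNat (nat_lit 423677334437845393064)]]]]]]]],[[[[[[[[Int.ofNat (nat_lit 463932113414401680548)]]]]]]]]]]

/-- A coefficient. -/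
noncomputable def sr3_m3_6_4 : MP 10 :=
  [[[[[[[[[[Int.negSucc (nat_lit 3949554087374974910369)]]]]],[[[[[Int.ofNat (nat_lit 399549458173111419774)]]]]]]],[[[[[[[Int.ofNat (nat_lit 3380731048782867652918)]]]]]]]],[],[[[[[[[[Int.ofNat (nat_lit 4783128225279707368615)]]]]]]]]],[[[[[[[[[Int.ofNat (nat_lit 8059501169229159793640)]]]]]]]]],[[[[[[[[[Int.ofNat (nat_lit 3767945421956956479238)]]]]]]]]]]

/-- A coefficient. -/
noncomputable def sr3_m3_6_5 : MP 10 :=
  [[[[[],[[[[[[Int.negSucc (nat_lit 2353258139527834050547)]]]]]]]],[[[[[[[[Int.negSucc (nat_lit 356683144769667416451)]]]]]]]]]]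

/-- A coefficient. -/
noncomputable def sr3_m3_6_6 : MP 10 :=
  [[[[[[[[[[Int.negSucc (nat_lit 14702004538989702482485)]]]]]]]]],[[[[[[[[[Int.negSucc (nat_lit 9973272935735819544351)]]]]]]]]]]

/-- A coefficient. -/
noncomputable def sr3_m3_6_7 : MP 10 :=
  []

/-- A coefficient. -/
noncomputable def sr3_m3_6_8 : MP 10 :=
  [[[[[[[[[[Int.ofNat (nat_lit 14395433256094009321534)]]]]]]]]]]

/-- A coefficient. -/
noncomputable def sr3_m3_7_0 : MP 10 :=
  [[[[[],[[[],[[[[Int.ofNat (nat_lit 13250855747275917290)]]]]]],[[[[[[Int.negSucc (nat_lit 535184474230513609161)]]]]]]]],[[[[[],[[[[Int.negSucc (nat_lit 23144465804824104611)]]]]]],[[[[[[Int.ofNat (nat_lit 308084443723373587918)]]]]]]]],[[[[[[[[Int.ofNat (nat_lit 782663483392049481516)]]]]]]]]],[[],[[[],[[[[[[Int.ofNat (nat_lit 193651127743141679358)]]]]]]]],[[[[[[[[Int.ofNat (nat_lit 1454545924195103205050)]]]]]]]]]]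

/-- A coefficient. -/
noncomputable def sr3_m3_7_1 : MP 10 :=
  [[[[[[[],[[[[Int.negSucc (nat_lit 131925021169152755227)]]]]]],[[[[[[Int.negSucc (nat_lit 821694140967226924875)]]]]]]],[[],[[[[[[Int.negSucc (nat_lit 196743814419353703413)]]]]]]]],[[[[[[[[Int.negSucc (nat_lit 2260455296454181067981)]]]]],[[[[[Int.negSucc (nat_lit 13604545772574451553)]]]]]]],[[[[[[[Int.negSucc (nat_lit 74244349830717892031)]]]]]]]],[],[[[[[[[[Int.negSucc (nat_lit 104308276553393864811)]]]]]]]]],[[[[[[],[[[[Int.negSucc (nat_lit 14667346099030892791)]]]]]],[[[[[[Int.negSucc (nat_lit 288155659690839134653)]]]]]]]],[[[[[[[[Int.negSucc (nat_lit 2828254991730881435263)]]]]]]]]],[[],[[[[[[[[Int.negSucc (nat_lit 512028571871537819575)]]]]]]]]]]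

/-- A coefficient. -/
noncomputable def sr3_m3_7_2 : MP 10 :=
  [[[[[[[[[[Int.negSucc (nat_lit 8110579392330289278969)]]]]],[[[[[Int.negSucc (nat_lit 308543655501491549337)]]]]]]],[[[[[[[Int.negSucc (nat_lit 57124677115688274535)]]]]]]]],[[[],[[[[[[Int.ofNat (nat_lit 400162398901445929468)]]]]]]]],[[[[[[[[Int.negSucc (nat_lit 1401890905962996326377)]]]]]]]]],[[[[[[[[[Int.negSucc (nat_lit 11345838901399718908557)]]]]]]],[[[[[[[Int.ofNat (nat_lit 414708653584244913414)]]]]]]]]],[[[[[[[[[Int.negSucc (nat_lit 4662675513673420264413)]]]]]]]]]]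

/-- A coefficient. -/
noncomputable def sr3_m3_7_3 : MP 10 :=
  [[[[[[[],[[[[Int.negSucc (nat_lit 68542956923364387581)]]]]]],[[[[[[Int.ofNat (nat_lit 1722390957126590647032)]]]]]]]],[[[[[[[[Int.ofNat (nat_lit 1897158146920833548860)]]]]]]]]],[[],[[[[[[[[Int.ofNat (nat_lit 848993517709758461990)]]]]]]]]]]

/-- A coefficient. -/
noncomputable def sr3_m3_7_4 : MP 10 :=
  [[[[[[[[[[Int.ofNat (nat_lit 16091616515541354020600)]]]]]]],[[[[[[[Int.negSucc (nat_lit 898713897023419159883)]]]]]]]]],[[[[[[[[[Int.ofNat (nat_lit 6410837051283008960764)]]]]]]]]]]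

/-- A coefficient. -/
noncomputable def sr3_m3_7_5 : MP 10 :=
  [[[],[[[[[[[[Int.negSucc (nat_lit 4412081621033941804905)]]]]]]]]]]

/-- A coefficient. -/
noncomputable def sr3_m3_7_6 : MP 10 :=
  [[[[[[[[[[Int.negSucc (nat_lit 14319356849905178022231)]]]]]]]]]]

/-- A coefficient. -/
noncomputable def sr3_m3_8_0 : MP 10 :=
  [[[[[],[],[[[[[[Int.ofNat (nat_lit 264648890958942682837)]]]]]]]],[[[[[],[[[[Int.negSucc (nat_lit 1151189905233385063)]]]]]],[[[[[[Int.ofNat (nat_lit 76431091833877466006)]]]]]]]],[[[[[[[[Int.negSucc (nat_lit 552744130345911938234)]]]]]]]]],[[],[],[[[[[[[[Int.negSucc (nat_lit 818837482715237662361)]]]]]]]]]]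

/-- A coefficient. -/
noncomputable def sr3_m3_8_1 : MP 10 :=
  [[[[[[[],[[[[Int.negSucc (nat_lit 33134555782725185913)]]]]]],[[[[[[Int.negSucc (nat_lit 263986329537214779603)]]]]]]]],[[[[[[[[Int.negSucc (nat_lit 659642145690881573863)]]]]]]],[[[[[[[Int.negSucc (nat_lit 110246087994487847499)]]]]]]]]],[[[[],[[[[[[Int.ofNat (nat_lit 228743422909351804330)]]]]]]]],[[[[[[[[Int.ofNat (nat_lit 40835053933873864454)]]]]]]]]]]

/-- A coefficient. -/
noncomputable def sr3_m3_8_2 : MP 10 :=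
  [[[[[[[[[[Int.negSucc (nat_lit 1260792205503527768563)]]]]],[[[[[Int.ofNat (nat_lit 170088855863237666252)]]]]]]],[[[[[[[Int.ofNat (nat_lit 2628769036003287023398)]]]]]]]],[],[[[[[[[[Int.ofNat (nat_lit 484670778530063251510)]]]]]]]]],[[[[[[[[[Int.ofNat (nat_lit 6737004390962146190218)]]]]]]]]],[[[[[[[[[Int.ofNat (nat_lit 3308322712741955155971)]]]]]]]]]]

/-- A coefficient. -/
noncomputable def sr3_m3_8_3 : MP 10 :=
  [[[[[],[[[[[[Int.negSucc (nat_lit 947924269667416709787)]]]]]]]],[[[[[[[[Int.negSucc (nat_lit 217811205625924599155)]]]]]]]]]]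

/-- A coefficient. -/
noncomputable def sr3_m3_8_4 : MP 10 :=
  [[[[[[[[[[Int.negSucc (nat_lit 5664367524580656821063)]]]]]]]]],[[[[[[[[[Int.negSucc (nat_lit 5760989967334499463945)]]]]]]]]]]

/-- A coefficient. -/
noncomputable def sr3_m3_8_5 : MP 10 :=
  []

/-- A coefficient. -/
noncomputable def sr3_m3_8_6 : MP 10 :=
  [[[[[[[[[[Int.ofNat (nat_lit 14819595735647350027604)]]]]]]]]]]

/-- A coefficient. -/
noncomputable def sr3_m3_9_0 : MP 10 :=
  [[[],[[[],[[[[[[Int.negSucc (nat_lit 156426253319593088123)]]]]]]]],[[[[[[[[Int.negSucc (nat_lit 1285175323334634255071)]]]]]]]]]]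

/-- A coefficient. -/
noncomputable def sr3_m3_9_1 : MP 10 :=
  [[[[[[[],[[[[Int.ofNat (nat_lit 67328000476467952460)]]]]]],[[[[[[Int.ofNat (nat_lit 625627107667839971696)]]]]]]]],[[[[[[[[Int.ofNat (nat_lit 2617529137449639361278)]]]]]]]]],[[],[[[[[[[[Int.ofNat (nat_lit 900227683481606239798)]]]]]]]]]]

/-- A coefficient. -/
noncomputable def sr3_m3_9_2 : MP 10 :=
  [[[[[[[[[[Int.ofNat (nat_lit 11350796170289776563266)]]]]]]],[[[[[[[Int.negSucc (nat_lit 566535409714123385515)]]]]]]]]],[[[[[[[[[Int.ofNat (nat_lit 4610159380949128423786)]]]]]]]]]]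

/-- A coefficient. -/
noncomputable def sr3_m3_9_3 : MP 10 :=
  [[[],[[[[[[[[Int.negSucc (nat_lit 512838545636366086633)]]]]]]]]]]

/-- A coefficient. -/
noncomputable def sr3_m3_9_4 : MP 10 :=
  [[[[[[[[[[Int.negSucc (nat_lit 10423327113560439180555)]]]]]]]]]]

/-- A coefficient. -/
noncomputable def sr3_m3_10_0 : MP 10 :=
  [[[],[],[[[[[[[[Int.ofNat (nat_lit 681319916959268136919)]]]]]]]]]]

/-- A coefficient. -/
noncomputable def sr3_m3_10_1 : MP 10 :=
  [[[[[],[[[[[[Int.negSucc (nat_lit 205118059532528994693)]]]]]]]],[[[[[[[[Int.ofNat (nat_lit 674837766406270880006)]]]]]]]]]]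

/-- A coefficient. -/
noncomputable def sr3_m3_10_2 : MP 10 :=
  [[[[[[[[[[Int.negSucc (nat_lit 4275408648141937120722)]]]]]]]]],[[[[[[[[[Int.negSucc (nat_lit 3779819966018674789487)]]]]]]]]]]

/-- A coefficient. -/
noncomputable def sr3_m3_10_3 : MP 10 :=
  []

/-- A coefficient. -/
noncomputable def sr3_m3_10_4 : MP 10 :=
  [[[[[[[[[[Int.ofNat (nat_lit 6256690730575302435600)]]]]]]]]]]

/-- A coefficient. -/
noncomputable def sr3_m3_11_0 : MP 10 :=
  []

/-- A coefficient. -/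
noncomputable def sr3_m3_11_1 : MP 10 :=
  [[[],[[[[[[[[Int.negSucc (nat_lit 1059916277136120506209)]]]]]]]]]]

/-- A coefficient. -/
noncomputable def sr3_m3_11_2 : MP 10 :=
  [[[[[[[[[[Int.negSucc (nat_lit 5012905925342240031119)]]]]]]]]]]

/-- A coefficient. -/
noncomputable def sr3_m3_12_0 : MP 10 :=
  []

/-- A coefficient. -/
noncomputable def sr3_m3_12_1 : MP 10 :=
  []

/-- A coefficient. -/
noncomputable def sr3_m3_12_2 : MP 10 :=
  [[[[[[[[[[Int.ofNat (nat_lit 3243312280169073796121)]]]]]]]]]]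

/-- An expanded part. -/
noncomputable def sr3_m3 : R12 :=
  [[],
   [],
   [],
   [],
   [sr3_m3_4_0, sr3_m3_4_1, sr3_m3_4_2, sr3_m3_4_3, sr3_m3_4_4, sr3_m3_4_5, sr3_m3_4_6, sr3_m3_4_7, sr3_m3_4_8, sr3_m3_4_9, sr3_m3_4_10],
   [sr3_m3_5_0, sr3_m3_5_1, sr3_m3_5_2, sr3_m3_5_3, sr3_m3_5_4, sr3_m3_5_5, sr3_m3_5_6, sr3_m3_5_7, sr3_m3_5_8],
   [sr3_m3_6_0, sr3_m3_6_1, sr3_m3_6_2, sr3_m3_6_3, sr3_m3_6_4, sr3_m3_6_5, sr3_m3_6_6, sr3_m3_6_7, sr3_m3_6_8],
   [sr3_m3_7_0, sr3_m3_7_1, sr3_m3_7_2, sr3_m3_7_3, sr3_m3_7_4, sr3_m3_7_5, sr3_m3_7_6],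
   [sr3_m3_8_0, sr3_m3_8_1, sr3_m3_8_2, sr3_m3_8_3, sr3_m3_8_4, sr3_m3_8_5, sr3_m3_8_6],
   [sr3_m3_9_0, sr3_m3_9_1, sr3_m3_9_2, sr3_m3_9_3, sr3_m3_9_4],
   [sr3_m3_10_0, sr3_m3_10_1, sr3_m3_10_2, sr3_m3_10_3, sr3_m3_10_4],
   [sr3_m3_11_0, sr3_m3_11_1, sr3_m3_11_2],
   [sr3_m3_12_0, sr3_m3_12_1, sr3_m3_12_2]]

set_option maxRecDepth 100000 in
theorem sr3_check3 : partOk 0 sr3_rows 3 sr3_m3 = true :=
  Fast.partOk_of_fast (by decide +kernel)

end Vale.Agent.P142K.CertB
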