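import Vale.Agent.P142K.CertB.Sr3Part0
import Vale.Agent.P142K.CertB.Sr3Part1
import Vale.Agent.P142K.CertB.Sr3Part2
import Vale.Agent.P142K.CertB.Sr3Part3

/-!
# A weighted square of the certificate

Generated from a semidefinite program; only the checker is trusted.
-/

namespace Vale.Agent.P142K.CertB

open Vale.Agent.P142J (MP)

/-- An expanded block. -/
noncomputable def sr3 : Block :=
  { g := 0, rows := sr3_rows, mons := [sr3_m0, sr3_m1, sr3_m2, sr3_m3] }

theorem sr3_parts : sr3.parts.length = 4 := rfl

theorem sr3_ok : sr3.Ok := by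
  refine ⟨sr3_parts.symm, fun j hj => ?_⟩
  rw [sr3_parts] at hj
  match j, hj with
  | 0, _ => exact sr3_check0
  | 1, _ => exact sr3_check1
  | 2, _ => exact sr3_check2
  | 3, _ => exact sr3_check3
  | _ + 4, h => exact absurd h (by omega)

end Vale.Agent.P142K.CertB
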