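import Vale.Agent.P142K.CertB.Sr5Rows
import Vale.Agent.P142K.Fast

/-!
# An expanded part of the certificate

Generated from a semidefinite program; only the checker is trusted.
-/

namespace Vale.Agent.P142K.CertB

open Vale.Agent.P142J (MP)

/-- A coefficient. -/
noncomputable def sr5_m1_0_0 : MP 10 :=
  []

/-- A coefficient. -/
noncomputable def sr5_m1_0_1 : MP 10 :=
  []

/-- A coefficient. -/
noncomputable def sr5_m1_0_2 : MP 10 :=
  []

/-- A coefficient. -/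
noncomputable def sr5_m1_0_3 : MP 10 :=
  []

/-- A coefficient. -/
noncomputable def sr5_m1_0_4 : MP 10 :=
  []

/-- A coefficient. -/
noncomputable def sr5_m1_0_5 : MP 10 :=
  []

/-- A coefficient. -/
noncomputable def sr5_m1_0_6 : MP 10 :=
  []

/-- A coefficient. -/
noncomputable def sr5_m1_0_7 : MP 10 :=
  []

/-- A coefficient. -/
noncomputable def sr5_m1_0_8 : MP 10 :=
  []

/-- A coefficient. -/
noncomputable def sr5_m1_0_9 : MP 10 :=
  []

/-- A coefficient. -/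
noncomputable def sr5_m1_0_10 : MP 10 :=
  [[[[[[[[[[Int.ofNat (nat_lit 894425299509102865623)]]]]]]]]]]

/-- A coefficient. -/
noncomputable def sr5_m1_0_11 : MP 10 :=
  []

/-- A coefficient. -/
noncomputable def sr5_m1_0_12 : MP 10 :=
  [[[[[[[[[[Int.negSucc (nat_lit 894425299509102865622)]]]]]]]]]]

/-- A coefficient. -/
noncomputable def sr5_m1_1_0 : MP 10 :=
  []

/-- A coefficient. -/
noncomputable def sr5_m1_1_1 : MP 10 :=
  []

/-- A coefficient. -/
noncomputable def sr5_m1_1_2 : MP 10 :=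
  []

/-- A coefficient. -/
noncomputable def sr5_m1_1_3 : MP 10 :=
  []

/-- A coefficient. -/
noncomputable def sr5_m1_1_4 : MP 10 :=
  []

/-- A coefficient. -/
noncomputable def sr5_m1_1_5 : MP 10 :=
  [[[[[[[[[],[[Int.ofNat (nat_lit 13275230999615990140)]]]],[[[[Int.negSucc (nat_lit 19763339713444583269)]]]]]],[[[[[[Int.ofNat (nat_lit 13503909527039714406)]]]]]]]],[[[[[[[[Int.ofNat (nat_lit 81945240475119137196)]]]]]]],[[[[[[[Int.negSucc (nat_lit 9388238133151963297)]]]]]]]]],[[[[],[[[[[[Int.ofNat (nat_lit 8545213280115931126)]]]]]]]],[[[[[[[[Int.ofNat (nat_lit 31990776662589514648)]]]]]]]]]]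

/-- A coefficient. -/
noncomputable def sr5_m1_1_6 : MP 10 :=
  [[[[[[[[[[Int.negSucc (nat_lit 60927951641877674641)]]]]],[[[[[Int.ofNat (nat_lit 68538947182300516430)]]]]]]],[[[[[[[Int.negSucc (nat_lit 41894372754187748847)]]]]]]]],[],[[[[[[[[Int.ofNat (nat_lit 44527654279049345984)]]]]]]]]],[[[[[[[[[Int.negSucc (nat_lit 75744569228783203077)]]]]]]]]],[[[[[[[[[Int.negSucc (nat_lit 28394731359279863755)]]]]]]]]]]

/-- A coefficient. -/
noncomputable def sr5_m1_1_7 : MP 10 :=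
  [[[[[[[[[],[[Int.negSucc (nat_lit 13275230999615990139)]]]],[[[[Int.ofNat (nat_lit 19763339713444583270)]]]]]],[[[[[[Int.ofNat (nat_lit 63135228262213311442)]]]]]]]],[[[[[[[[Int.negSucc (nat_lit 690087820642903012499)]]]]]]],[[[[[[[Int.ofNat (nat_lit 9388238133151963298)]]]]]]]]],[[[[],[[[[[[Int.negSucc (nat_lit 8545213280115931125)]]]]]]]],[[[[[[[[Int.negSucc (nat_lit 31990776662589514647)]]]]]]]]]]

/-- A coefficient. -/
noncomputable def sr5_m1_1_8 : MP 10 :=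
  [[[[[[[[[[Int.ofNat (nat_lit 1591503893474205462294)]]]]],[[[[[Int.negSucc (nat_lit 68538947182300516429)]]]]]]],[[[[[[[Int.ofNat (nat_lit 41894372754187748848)]]]]]]]],[],[[[[[[[[Int.negSucc (nat_lit 44527654279049345983)]]]]]]]]],[[[[[[[[[Int.ofNat (nat_lit 167269151830986616622)]]]]]]]]],[[[[[[[[[Int.ofNat (nat_lit 28394731359279863756)]]]]]]]]]]

/-- A coefficient. -/
noncomputable def sr5_m1_1_9 : MP 10 :=
  [[[[[],[[[[[[Int.negSucc (nat_lit 76639137789253025847)]]]]]]]],[[[[[[[[Int.ofNat (nat_lit 608142580167783875304)]]]]]]]]]]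

/-- A coefficient. -/
noncomputable def sr5_m1_1_10 : MP 10 :=
  [[[[[[[[[[Int.negSucc (nat_lit 3275047806869144039495)]]]]]]]]],[[[[[[[[[Int.negSucc (nat_lit 91524582602203413543)]]]]]]]]]]

/-- A coefficient. -/
noncomputable def sr5_m1_1_11 : MP 10 :=
  []

/-- A coefficient. -/
noncomputable def sr5_m1_1_12 : MP 10 :=
  [[[[[[[[[[Int.ofNat (nat_lit 1744471865036816251844)]]]]]]]]]]

/-- A coefficient. -/
noncomputable def sr5_m1_2_0 : MP 10 :=
  [[[[[[[[[],[],[[Int.ofNat (nat_lit 2863343301450306125)]]]],[[[],[[Int.negSucc (nat_lit 1279707835020710257)]]]],[[[[Int.ofNat (nat_lit 26167388820505660747)]]]]]],[[[[[],[[Int.ofNat (nat_lit 4215323863972503610)]]]],[[[[Int.ofNat (nat_lit 491340499083387822)]]]]]],[[[[[[Int.ofNat (nat_lit 72570132641321917697)]]]]]]]],[[[[[[[],[[Int.ofNat (nat_lit 14558770808970050512)]]]],[[[[Int.negSucc (nat_lit 6733318489567264979)]]]]]],[[[[[[Int.negSucc (nat_lit 38920802996414320641)]]]]]]],[[[[[[],[[Int.ofNat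 (nat_lit 210402148184286560)]]]],[[[[Int.negSucc (nat_lit 18889186893054814181)]]]]]],[[[[[[Int.negSucc (nat_lit 25997920039601828749)]]]]]]]],[[[[[[[[Int.ofNat (nat_lit 180759958982040511084)]]]]]]],[[[[[[[Int.negSucc (nat_lit 49326438356088287987)]]]]]]],[[[[[[[Int.ofNat (nat_lit 30182746936120846774)]]]]]]]]],[[[[],[[[[[],[[Int.negSucc (nat_lit 517771187763157891)]]]],[[[[Int.ofNat (nat_lit 3885629920286196536)]]]]]],[[[[[[Int.ofNat (nat_lit 33260487339852878606)]]]]]]]],[[[[[[[],[[Int.ofNat (nat_lit 10707155632385467518)]]]],[[[[Int.negSucc (nat_lit 3491478262351276471)]]]]]],[[[[[[Int.ofNat (nat_lit 7292870409544470184)]]]]]]],[[],[[[[[[Int.negSucc (nat_lit 19436781762364784325)]]]]]]]],[[[[[[[[Int.ofNat (nat_lit 241638524704167498230)]]]]]]],[[[[[[[Int.negSucc (nat_lit 15556100819510147471)]]]]]]]]],[[[[],[],[[[[[[Int.ofNat (nat_lit 15795701989285179646)]]]]]]]],[[[],[[[[[[Int.ofNat (nat_lit 6413235979707325484)]]]]]]]],[[[[[[[[Int.ofNat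 (nat_lit 148838714981564434917)]]]]]]]]]]

/-- A coefficient. -/
noncomputable def sr5_m1_2_1 : MP 10 :=
  [[[[[[[[[],[[Int.negSucc (nat_lit 1021098434408620771)]]]],[[[[Int.negSucc (nat_lit 8284208968005451009)]]]]],[[[[],[[Int.ofNat (nat_lit 10517186462279572038)]]]],[[[[Int.ofNat (nat_lit 5642380568373453390)]]]]]],[[[[[[Int.ofNat (nat_lit 52447714054920400196)]]]]],[[[[[Int.ofNat (nat_lit 16741902931585316156)]]]]]]],[[[[[[],[[Int.negSucc (nat_lit 10084573003759362199)]]]],[[[[Int.negSucc (nat_lit 7812857818637271291)]]]]]],[[[[[[Int.negSucc (nat_lit 28638764242741056003)]]]]]]]],[[[[[[[[Int.negSucc (nat_lit 77313108837520547451)]]]]],[[[[[Int.ofNat (nat_lit 60296907674049105024)]]]]]]],[[[[[[[Int.negSucc (nat_lit 118841405453989426005)]]]]],[[[[[Int.negSucc (nat_lit 15897752774513288845)]]]]]]],[[[[[[[Int.ofNat (nat_lit 28060963614068970040)]]]]]]]],[[[[[[[],[[Int.negSucc (nat_lit 9148123682739133645)]]]],[[[[Int.negSucc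 (nat_lit 13269831829415208043)]]]]]],[[[[[[Int.ofNat (nat_lit 23020203214666635352)]]]]]]]],[[[[[[[[Int.negSucc (nat_lit 31968563916564264053)]]]]]]],[[[[[[[Int.ofNat (nat_lit 415909480711501434)]]]]]]]]],[[[[[[[[],[[Int.negSucc (nat_lit 27404495997259659579)]]]],[[[[Int.ofNat (nat_lit 39812789173387069698)]]]]]],[[[[[[Int.negSucc (nat_lit 63466795406311102851)]]]]],[[[[[Int.ofNat (nat_lit 9164015064645325524)]]]]]]],[[],[[[[[[Int.negSucc (nat_lit 13431308188208352351)]]]]]]]],[[[[[[[[Int.negSucc (nat_lit 22167946126482108139)]]]]],[[[[[Int.ofNat (nat_lit 53314624134395125712)]]]]]]],[[[[[[[Int.negSucc (nat_lit 131759858224447245439)]]]]]]]],[[[],[[[[[[Int.ofNat (nat_lit 14189905180374169586)]]]]]]]],[[[[[[[[Int.ofNat (nat_lit 1108455478683537300)]]]]]]]]],[[[[[[[[],[[Int.negSucc (nat_lit 6955295110462828299)]]]],[[[[Int.ofNat (nat_lit 32325203479772842814)]]]]]],[[[[[[Int.ofNat (nat_lit 9482617490407224512)]]]]]]]],[[[[[[[[Int.negSucc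 (nat_lit 66763879514157029121)]]]]]]],[[[[[[[Int.negSucc (nat_lit 25717603963703109075)]]]]]]]]],[[[[],[[[[[[Int.ofNat (nat_lit 6805939597618109938)]]]]]]]],[[[[[[[[Int.ofNat (nat_lit 39892683096310032182)]]]]]]]]]]

/-- A coefficient. -/
noncomputable def sr5_m1_2_2 : MP 10 :=
  [[[[[[[[[[Int.ofNat (nat_lit 481030568614636173199)]],[],[[Int.negSucc (nat_lit 2863343301450306124)]]]],[[[],[[Int.ofNat (nat_lit 1279707835020710258)]]]],[[[[Int.negSucc (nat_lit 26167388820505660746)]]]]],[[[[[Int.negSucc (nat_lit 1956355409563618807)]]]]],[[[[[Int.ofNat (nat_lit 32515093989534842223)]]]]]],[[[[[],[[Int.ofNat (nat_lit 14877680044470427610)]]]],[[[[Int.ofNat (nat_lit 1884991428325941028)]]]]]],[[[[[[Int.negSucc (nat_lit 41929067296962210820)]]]]]]],[[[[[[[Int.negSucc (nat_lit 385024810658639010121)]]]]],[[[[[Int.negSucc (nat_lit 40924939322680710113)]]]]]]],[[[[[[[Int.ofNat (nat_lit 349181128726085221899)]]]]]]]],[[[[[[[],[[Int.negSucc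 (nat_lit 30275369226205930959)]]]],[[[[Int.ofNat (nat_lit 66032086504082909176)]]]]]],[[[[[[Int.ofNat (nat_lit 133896981862700271492)]]]]]]],[[[[[[],[[Int.negSucc (nat_lit 210402148184286559)]]]],[[[[Int.ofNat (nat_lit 18889186893054814182)]]]]]],[[[[[[Int.negSucc (nat_lit 24912315337853307101)]]]]]]]],[[[[[[[[Int.negSucc (nat_lit 891986686456934003257)]]]]],[[[[[Int.negSucc (nat_lit 25141654359152945041)]]]]]]],[[[[[[[Int.ofNat (nat_lit 271589615468820929920)]]]]]]],[[[[[[[Int.negSucc (nat_lit 30182746936120846773)]]]]]]]],[],[[[[[[[[Int.ofNat (nat_lit 172834328504022063330)]]]]]]]]],[[[[[[[[[Int.ofNat (nat_lit 904849177809912535150)]]]]],[[[[[Int.negSucc (nat_lit 75119214099901344243)]]]]]],[[[[[],[[Int.ofNat (nat_lit 517771187763157892)]]]],[[[[Int.negSucc (nat_lit 3885629920286196535)]]]]]],[[[[[[Int.ofNat (nat_lit 7236963096726617244)]]]]]]],[[[[[[[Int.negSucc (nat_lit 108824184962018073721)]]]]]]]],[[[[[[[],[[Int.negSucc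 (nat_lit 10707155632385467517)]]]],[[[[Int.ofNat (nat_lit 3491478262351276472)]]]]]],[[[[[[Int.ofNat (nat_lit 47688389973939179728)]]]]]]],[[],[[[[[[Int.ofNat (nat_lit 19436781762364784326)]]]]]]]],[[[[[[[[Int.negSucc (nat_lit 571185628144834718081)]]]]]]],[[[[[[[Int.ofNat (nat_lit 15556100819510147472)]]]]]]]]],[[[[[[[[[Int.ofNat (nat_lit 995095831221934694943)]]]]],[[[[[Int.negSucc (nat_lit 10678660131113952401)]]]]]],[],[[[[[[Int.negSucc (nat_lit 15795701989285179645)]]]]]]],[[[[[[[Int.ofNat (nat_lit 63702761399303124992)]]]]]]]],[[[],[[[[[[Int.negSucc (nat_lit 6413235979707325483)]]]]]]]],[[[[[[[[Int.negSucc (nat_lit 119899782076699468150)]]]]]]]]],[[[[[[[[[Int.ofNat (nat_lit 411589415214420810636)]]]]]]]]],[[[[[[[[[Int.ofNat (nat_lit 124112790195713144465)]]]]]]]]]]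

/-- A coefficient. -/
noncomputable def sr5_m1_2_3 : MP 10 :=
  [[[[[[[[[],[[Int.negSucc (nat_lit 25120926927615427411)]]]],[[[[Int.negSucc (nat_lit 32908943480933598251)]]]]],[[[[],[[Int.negSucc (nat_lit 10517186462279572037)]]]],[[[[Int.negSucc (nat_lit 5642380568373453389)]]]]]],[[[[[[Int.ofNat (nat_lit 72496982827493237786)]]]]],[[[[[Int.ofNat (nat_lit 68317587251942775686)]]]]]]],[[[[[[],[[Int.ofNat (nat_lit 10084573003759362200)]]]],[[[[Int.ofNat (nat_lit 7812857818637271292)]]]]]],[[[[[[Int.negSucc (nat_lit 196550583674156419115)]]]]]]]],[[[[[[[[Int.negSucc (nat_lit 135096181625140423833)]]]]],[[[[[Int.negSucc (nat_lit 172441156300160485555)]]]]]]],[[[[[[[Int.ofNat (nat_lit 583949581481894360776)]]]]],[[[[[Int.ofNat (nat_lit 15897752774513288846)]]]]]]],[[[[[[[Int.negSucc (nat_lit 28060963614068970039)]]]]]]]],[[[[[[[],[[Int.ofNat (nat_lit 9148123682739133646)]]]],[[[[Int.ofNat (nat_lit 13269831829415208044)]]]]]],[[[[[[Int.negSucc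 (nat_lit 134926269505990188697)]]]]]]]],[[[[[[[[Int.negSucc (nat_lit 124794859733629284339)]]]]]]],[[[[[[[Int.negSucc (nat_lit 415909480711501433)]]]]]]]]],[[[[[[[[],[[Int.negSucc (nat_lit 14503573299740633795)]]]],[[[[Int.negSucc (nat_lit 28562258720536081243)]]]]]],[[[[[[Int.ofNat (nat_lit 81747533628619613204)]]]]],[[[[[Int.negSucc (nat_lit 9164015064645325523)]]]]]]],[[],[[[[[[Int.ofNat (nat_lit 13431308188208352352)]]]]]]]],[[[[[[[[Int.negSucc (nat_lit 1027140496863401139403)]]]]],[[[[[Int.negSucc (nat_lit 53314624134395125711)]]]]]]],[[[[[[[Int.ofNat (nat_lit 201485614779091693650)]]]]]]]],[[[],[[[[[[Int.negSucc (nat_lit 14189905180374169585)]]]]]]]],[[[[[[[[Int.negSucc (nat_lit 1108455478683537299)]]]]]]]]],[[[[[[[[],[[Int.ofNat (nat_lit 6955295110462828300)]]]],[[[[Int.negSucc (nat_lit 32325203479772842813)]]]]]],[[[[[[Int.negSucc (nat_lit 16937283117280988889)]]]]]]]],[[[[[[[[Int.negSucc (nat_lit 227527855742169631351)]]]]]]],[[[[[[[Int.ofNat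 (nat_lit 25717603963703109076)]]]]]]]]],[[[[],[[[[[[Int.negSucc (nat_lit 6805939597618109937)]]]]]]]],[[[[[[[[Int.negSucc (nat_lit 39892683096310032181)]]]]]]]]]]

/-- A coefficient. -/
noncomputable def sr5_m1_2_4 : MP 10 :=
  [[[[[[[[[[Int.negSucc (nat_lit 1357919867310160129580)]]]]],[[[[[Int.negSucc (nat_lit 27398251825827327837)]]]]],[[[[[Int.negSucc (nat_lit 32515093989534842222)]]]]]],[[[[[],[[Int.negSucc (nat_lit 19093003908442931219)]]]],[[[[Int.negSucc (nat_lit 2376331927409328849)]]]]]],[[[[[[Int.ofNat (nat_lit 518974057884031683951)]]]]]]],[[[[[[[Int.ofNat (nat_lit 306149128834551763216)]]]]],[[[[[Int.ofNat (nat_lit 40924939322680710114)]]]]]]],[[[[[[[Int.negSucc (nat_lit 349181128726085221898)]]]]]]]],[[[[[[[],[[Int.ofNat (nat_lit 15716598417235880448)]]]],[[[[Int.negSucc (nat_lit 59298768014515644195)]]]]]],[[[[[[Int.negSucc (nat_lit 528072312255691930897)]]]]]]],[[],[[[[[[Int.ofNat (nat_lit 50910235377455135852)]]]]]]]],[[[[[[[[Int.ofNat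 (nat_lit 3503319826287252220341)]]]]],[[[[[Int.ofNat (nat_lit 25141654359152945042)]]]]]]],[[[[[[[Int.negSucc (nat_lit 222263177112732641931)]]]]]]]],[],[[[[[[[[Int.negSucc (nat_lit 172834328504022063329)]]]]]]]]],[[[[[[[[[Int.negSucc (nat_lit 1809213621581508925407)]]]]],[[[[[Int.negSucc (nat_lit 20280431131802182655)]]]]]],[],[[[[[[Int.negSucc (nat_lit 40497450436579495849)]]]]]]],[[[[[[[Int.ofNat (nat_lit 309624618081867408546)]]]]]]]],[[[],[[[[[[Int.negSucc (nat_lit 54981260383483649911)]]]]]]]],[[[[[[[[Int.ofNat (nat_lit 600704690816806312676)]]]]]]]]],[[[[[[[[[Int.negSucc (nat_lit 1726898055800648277152)]]]]],[[[[[Int.ofNat (nat_lit 10678660131113952402)]]]]]]],[[[[[[[Int.negSucc (nat_lit 63702761399303124991)]]]]]]]],[],[[[[[[[[Int.negSucc (nat_lit 28938932904864966765)]]]]]]]]],[[[[[[[[[Int.negSucc (nat_lit 534434786632204312919)]]]]]]]]],[[[[[[[[[Int.negSucc (nat_lit 124112790195713144464)]]]]]]]]]]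

/-- A coefficient. -/
noncomputable def sr5_m1_2_5 : MP 10 :=
  [[[[[[[[[],[[Int.ofNat (nat_lit 15834606850244247784)]]]],[[[[Int.ofNat (nat_lit 156165641005261783800)]]]]]],[[[[[[Int.negSucc (nat_lit 191232334137385103897)]]]]],[[[[[Int.negSucc (nat_lit 85059490183528091841)]]]]]]],[[],[[[[[[Int.ofNat (nat_lit 225189347916897475120)]]]]]]]],[[[[[[[[Int.negSucc (nat_lit 1939673832018445911517)]]]]],[[[[[Int.ofNat (nat_lit 112144248626111380532)]]]]]]],[[[[[[[Int.negSucc (nat_lit 516818040862245843013)]]]]]]]],[[[],[[[[[[Int.ofNat (nat_lit 111906066291323553346)]]]]]]]],[[[[[[[[Int.ofNat (nat_lit 156763423650193548394)]]]]]]]]],[[[[[[[[],[[Int.ofNat (nat_lit 41908069297000293376)]]]],[[[[Int.negSucc (nat_lit 11250530452850988453)]]]]]],[[[[[[Int.negSucc (nat_lit 580764584720958731989)]]]]]]]],[[[[[[[[Int.ofNat (nat_lit 1880382016297439381198)]]]]]]],[[[[[[[Int.negSucc (nat_lit 69725756554644448209)]]]]]]]]],[[[[],[[[[[[Int.ofNat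 (nat_lit 7454665626873764378)]]]]]]]],[[[[[[[[Int.ofNat (nat_lit 294291735256326660474)]]]]]]]]]]

/-- A coefficient. -/
noncomputable def sr5_m1_2_6 : MP 10 :=
  [[[[[[[[[[Int.ofNat (nat_lit 5290254438252605148906)]]]]],[[[[[Int.ofNat (nat_lit 55059424294832566064)]]]]]],[],[[[[[[Int.negSucc (nat_lit 549615123228391390826)]]]]]]],[[[[[[[Int.ofNat (nat_lit 112512929848316092510)]]]]]]]],[[[],[[[[[[Int.ofNat (nat_lit 433096133389405980048)]]]]]]]],[[[[[[[[Int.negSucc (nat_lit 3068358749331330100464)]]]]]]]]],[[[[[[[[[Int.ofNat (nat_lit 4074282583523463601530)]]]]],[[[[[Int.ofNat (nat_lit 95399645231703526900)]]]]]]],[[[[[[[Int.negSucc (nat_lit 200800433119849334823)]]]]]]]],[],[[[[[[[[Int.negSucc (nat_lit 271157587376139092823)]]]]]]]]],[[[[[[[[[Int.ofNat (nat_lit 2842064886246151206129)]]]]]]]]],[[[[[[[[[Int.ofNat (nat_lit 122845371417783502284)]]]]]]]]]]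

/-- A coefficient. -/
noncomputable def sr5_m1_2_7 : MP 10 :=
  [[[[[[[[[],[[Int.ofNat (nat_lit 10307418511779800400)]]]],[[[[Int.negSucc (nat_lit 114972488556322734537)]]]]]],[[[[[[Int.negSucc (nat_lit 73366646892198760325)]]]]]]]],[[[[[[[[Int.ofNat (nat_lit 1964364813106857137484)]]]]]]],[[[[[[[Int.ofNat (nat_lit 51709864834340908244)]]]]]]]]],[[[[],[[[[[[Int.ofNat (nat_lit 562483846498650221638)]]]]]]]],[[[[[[[[Int.negSucc (nat_lit 831073573307556133653)]]]]]]]]]]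

/-- A coefficient. -/
noncomputable def sr5_m1_2_8 : MP 10 :=
  [[[[[[[[[[Int.negSucc (nat_lit 9258314530059878258451)]]]]],[[[[[Int.negSucc (nat_lit 25704817059441619417)]]]]]]],[[[[[[[Int.negSucc (nat_lit 33637248024228845603)]]]]]]]],[],[[[[[[[[Int.ofNat (nat_lit 276265650518971372298)]]]]]]]]],[[[[[[[[[Int.negSucc (nat_lit 3459108222259518696757)]]]]]]]]],[[[[[[[[[Int.negSucc (nat_lit 2110262661667437623918)]]]]]]]]]]

/-- A coefficient. -/
noncomputable def sr5_m1_2_9 : MP 10 :=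
  [[[[[],[[[[[[Int.ofNat (nat_lit 139654284147170226242)]]]]]]]],[[[[[[[[Int.ofNat (nat_lit 187718309374249745320)]]]]]]]]]]

/-- A coefficient. -/
noncomputable def sr5_m1_2_10 : MP 10 :=
  [[[[[[[[[[Int.ofNat (nat_lit 8554158761179939406765)]]]]]]]]],[[[[[[[[[Int.ofNat (nat_lit 289190082507651485486)]]]]]]]]]]

/-- A coefficient. -/
noncomputable def sr5_m1_2_11 : MP 10 :=
  []

/-- A coefficient. -/
noncomputable def sr5_m1_2_12 : MP 10 :=
  [[[[[[[[[[Int.negSucc (nat_lit 4603634670186245206459)]]]]]]]]]]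

/-- A coefficient. -/
noncomputable def sr5_m1_3_0 : MP 10 :=
  [[[[[[[],[[[],[[Int.negSucc (nat_lit 2733072392330145437)]]]],[[[[Int.negSucc (nat_lit 51123921107720949021)]]]]]],[[[[[],[[Int.negSucc (nat_lit 8763952536147502559)]]]],[[[[Int.negSucc (nat_lit 32667179226730941681)]]]]]],[[[[[[Int.negSucc (nat_lit 225100529146245532619)]]]]]]]],[[[[[[[],[[Int.negSucc (nat_lit 4628720971419410759)]]]],[[[[Int.ofNat (nat_lit 59404045015371495820)]]]]]],[[[[[[Int.ofNat (nat_lit 115800464153023815408)]]]]]]],[[[[],[[[[Int.ofNat (nat_lit 20370713550606101736)]]]]]],[[[[[[Int.ofNat (nat_lit 42946268529618501288)]]]]]]]],[[[[[[[[Int.negSucc (nat_lit 349042557457866173643)]]]]]]],[[[[[[[Int.negSucc (nat_lit 15580559986440506639)]]]]]]]]],[[[[],[[[],[[[[Int.negSucc (nat_lit 4968439752297049425)]]]]]],[[[[[[Int.negSucc (nat_lit 18046779301284118179)]]]]]]]],[[[[[[[],[[Int.negSucc (nat_lit 4065712897033155049)]]]],[[[[Int.ofNat (nat_lit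 12963117535833044294)]]]]]],[[[[[[Int.ofNat (nat_lit 6621174667979202468)]]]]]]]],[[[[[[[[Int.negSucc (nat_lit 296619391736733586371)]]]]]]],[[[[[[[Int.negSucc (nat_lit 23572892463812031725)]]]]]]]]],[[],[[[],[[[[[[Int.negSucc (nat_lit 2346713703357324427)]]]]]]]],[[[[[[[[Int.negSucc (nat_lit 206378519734866434177)]]]]]]]]]]

/-- A coefficient. -/
noncomputable def sr5_m1_3_1 : MP 10 :=
  [[[[[[[[[],[[Int.ofNat (nat_lit 20663853768258886476)]]]],[[[[Int.negSucc (nat_lit 14221859038179124907)]]]]],[[],[[[[Int.negSucc (nat_lit 18376171703764924191)]]]]]],[[[[[[Int.ofNat (nat_lit 33885641598786882662)]]]]],[[[[[Int.negSucc (nat_lit 28926009068753022851)]]]]]]],[[[[[[],[[Int.ofNat (nat_lit 7295309968595841946)]]]],[[[[Int.ofNat (nat_lit 57426735109950799446)]]]]]],[[[[[[Int.ofNat (nat_lit 96789908825284423990)]]]]]]]],[[[[[[[[Int.ofNat (nat_lit 96805253232145469164)]]]]],[[[[[Int.negSucc (nat_lit 6189569985508351487)]]]]]]],[[[[[[[Int.ofNat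 (nat_lit 276161747984975874218)]]]]]]],[[[[[[[Int.negSucc (nat_lit 110355350601203877963)]]]]]]]],[[[[[],[[[[Int.ofNat (nat_lit 29598099927380626746)]]]]]],[[[[[[Int.negSucc (nat_lit 20428678019873604189)]]]]]]]],[[[[[[[[Int.ofNat (nat_lit 17033632040630307238)]]]]]]]]],[[[[[[[[],[[Int.ofNat (nat_lit 55290032745241042928)]]]],[[[[Int.negSucc (nat_lit 13195044658924090721)]]]]]],[[[[[[Int.ofNat (nat_lit 343031336151762351342)]]]]]]],[[],[[[[[[Int.ofNat (nat_lit 34805560045327536938)]]]]]]]],[[[[[[[[Int.negSucc (nat_lit 290191271871420465885)]]]]],[[[[[Int.negSucc (nat_lit 16132569385161683963)]]]]]]],[[[[[[[Int.ofNat (nat_lit 145825129744178780748)]]]]]]]],[],[[[[[[[[Int.negSucc (nat_lit 13423257681449727839)]]]]]]]]],[[[[[[],[[[[Int.negSucc (nat_lit 28502470975288855865)]]]]]],[[[[[[Int.negSucc (nat_lit 28415467883637661819)]]]]]]]],[[[[[[[[Int.ofNat (nat_lit 6519652907638129522)]]]]]]]]],[[],[[[[[[[[Int.ofNat (nat_lit 14564486946089783472)]]]]]]]]]]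

/-- A coefficient. -/
noncomputable def sr5_m1_3_2 : MP 10 :=
  [[[[[[[[[[Int.negSucc (nat_lit 1483547572360695082955)]]]],[[[],[[Int.ofNat (nat_lit 2733072392330145438)]]]],[[[[Int.ofNat (nat_lit 51123921107720949022)]]]]],[[[[[Int.ofNat (nat_lit 36425519435917603132)]]]]]],[[[[[],[[Int.ofNat (nat_lit 8763952536147502560)]]]],[[[[Int.ofNat (nat_lit 5834092082394977972)]]]]]],[[[[[[Int.ofNat (nat_lit 91739949666499362408)]]]]]]],[[[[[[[Int.ofNat (nat_lit 706511561081094161090)]]]]],[[[[[Int.ofNat (nat_lit 36297908079966837410)]]]]]]],[[[[[[[Int.negSucc (nat_lit 619442509293192575433)]]]]]]]],[[[[[[[],[[Int.ofNat (nat_lit 15810589484595004504)]]]],[[[[Int.negSucc (nat_lit 70550393760684368493)]]]]]],[[[[[[Int.negSucc (nat_lit 186814291736003284899)]]]]]]],[[[[],[[[[Int.negSucc (nat_lit 20370713550606101735)]]]]]],[[[[[[Int.negSucc (nat_lit 42946268529618501287)]]]]]]]],[[[[[[[[Int.ofNat (nat_lit 1533486474470454576936)]]]]]]],[[[[[[[Int.negSucc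 (nat_lit 121452490639127884233)]]]]]]]]],[[[[[[[[[Int.negSucc (nat_lit 2350969553430510732449)]]]]],[[[[[Int.ofNat (nat_lit 102467670923118037988)]]]]]],[[[],[[[[Int.ofNat (nat_lit 4968439752297049426)]]]]]],[[[[[[Int.ofNat (nat_lit 18046779301284118180)]]]]]]],[[[[[[[Int.ofNat (nat_lit 123174192314253363036)]]]]]]]],[[[[[[[],[[Int.ofNat (nat_lit 4065712897033155050)]]]],[[[[Int.negSucc (nat_lit 12963117535833044293)]]]]]],[[[[[[Int.negSucc (nat_lit 56021319948286951047)]]]]]]]],[[[[[[[[Int.ofNat (nat_lit 237502039218164424824)]]]]]]],[[[[[[[Int.ofNat (nat_lit 23572892463812031726)]]]]]]]]],[[[[[[[[[Int.negSucc (nat_lit 1828481748574439596059)]]]]]]],[[[[[[[Int.ofNat (nat_lit 480423920920068126)]]]]]]]],[[[],[[[[[[Int.ofNat (nat_lit 2346713703357324428)]]]]]]]],[[[[[[[[Int.ofNat (nat_lit 206378519734866434178)]]]]]]]]],[[[[[[[[[Int.negSucc (nat_lit 127018755015965353339)]]]]]]]]]]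

/-- A coefficient. -/
noncomputable def sr5_m1_3_3 : MP 10 :=
  [[[[[[[[[],[[Int.ofNat (nat_lit 33697493222731953790)]]]],[[[[Int.negSucc (nat_lit 31656332120720904841)]]]]],[[],[[[[Int.ofNat (nat_lit 18376171703764924192)]]]]]],[[[[[[Int.negSucc (nat_lit 190895555010995052055)]]]]],[[[[[Int.ofNat (nat_lit 28926009068753022852)]]]]]]],[[[[[[],[[Int.negSucc (nat_lit 7295309968595841945)]]]],[[[[Int.negSucc (nat_lit 57426735109950799445)]]]]]],[[[[[[Int.ofNat (nat_lit 155003039499656564046)]]]]]]]],[[[[[[[[Int.ofNat (nat_lit 606354573258621611928)]]]]],[[[[[Int.ofNat (nat_lit 24733356085778602594)]]]]]]],[[[[[[[Int.negSucc (nat_lit 1270396740745802483647)]]]]]]],[[[[[[[Int.ofNat (nat_lit 110355350601203877964)]]]]]]]],[[[[[],[[[[Int.negSucc (nat_lit 29598099927380626745)]]]]]],[[[[[[Int.ofNat (nat_lit 20428678019873604190)]]]]]]]],[[[[[[[[Int.negSucc (nat_lit 713567198679838982109)]]]]]]]]],[[[[[[[[],[[Int.negSucc (nat_lit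 55290032745241042927)]]]],[[[[Int.ofNat (nat_lit 43972148728784995084)]]]]]],[[[[[[Int.negSucc (nat_lit 143874969459859385297)]]]]]]],[[],[[[[[[Int.negSucc (nat_lit 34805560045327536937)]]]]]]]],[[[[[[[[Int.ofNat (nat_lit 2557827715073913655402)]]]]],[[[[[Int.ofNat (nat_lit 16132569385161683964)]]]]]]],[[[[[[[Int.negSucc (nat_lit 145825129744178780747)]]]]]]]],[],[[[[[[[[Int.ofNat (nat_lit 13423257681449727840)]]]]]]]]],[[[[[[],[[[[Int.ofNat (nat_lit 28502470975288855866)]]]]]],[[[[[[Int.ofNat (nat_lit 28415467883637661820)]]]]]]]],[[[[[[[[Int.ofNat (nat_lit 83073704357673271606)]]]]]]]]],[[],[[[[[[[[Int.negSucc (nat_lit 14564486946089783471)]]]]]]]]]]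

/-- A coefficient. -/
noncomputable def sr5_m1_3_4 : MP 10 :=
  [[[[[[[[[[Int.ofNat (nat_lit 3610876756594617094752)]]]]],[[[[[Int.ofNat (nat_lit 96956981992526300210)]]]]]],[[[],[[[[Int.ofNat (nat_lit 26833087144335963710)]]]]]],[[[[[[Int.ofNat (nat_lit 133360579479746170212)]]]]]]],[[[[[[[Int.negSucc (nat_lit 750284840852915840501)]]]]],[[[[[Int.negSucc (nat_lit 36297908079966837409)]]]]]]],[[[[[[[Int.ofNat (nat_lit 619442509293192575434)]]]]]]]],[[[[[[[],[[Int.negSucc (nat_lit 11181868513175593743)]]]],[[[[Int.ofNat (nat_lit 11146348745312872674)]]]]]],[[[[[[Int.negSucc (nat_lit 349909937146226141379)]]]]]]]],[[[[[[[[Int.negSucc (nat_lit 5251286081823409664433)]]]]]]],[[[[[[[Int.ofNat (nat_lit 137033050625568390874)]]]]]]]]],[[[[[[[[[Int.ofNat (nat_lit 1612255159114366809748)]]]]],[[[[[Int.negSucc (nat_lit 102467670923118037987)]]]]]]],[[[[[[[Int.negSucc (nat_lit 359565056353327384447)]]]]]]]],[[[],[[[[[[Int.ofNat (nat_lit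 49400145280307748580)]]]]]]]],[[[[[[[[Int.ofNat (nat_lit 59117352518569161548)]]]]]]]]],[[[[[[[[[Int.ofNat (nat_lit 1301493278926790682180)]]]]]]],[[[[[[[Int.negSucc (nat_lit 480423920920068125)]]]]]]]]],[[[[[[[[[Int.ofNat (nat_lit 127018755015965353340)]]]]]]]]]]

/-- A coefficient. -/
noncomputable def sr5_m1_3_5 : MP 10 :=
  [[[[[[[[[],[[Int.negSucc (nat_lit 67636577990606830405)]]]],[[[[Int.negSucc (nat_lit 83633352564780396677)]]]]]],[[[[[[Int.ofNat (nat_lit 824892014505882467878)]]]]]]],[[],[[[[[[Int.negSucc (nat_lit 251792948324940988035)]]]]]]]],[[[[[[[[Int.ofNat (nat_lit 212733683601942344110)]]]]],[[[[[Int.negSucc (nat_lit 18543786100270251105)]]]]]]],[[[[[[[Int.ofNat (nat_lit 1003623230893978572728)]]]]]]]],[],[[[[[[[[Int.ofNat (nat_lit 696533566639208674872)]]]]]]]]],[[[[[[],[[[[Int.negSucc (nat_lit 30777104069860904361)]]]]]],[[[[[[Int.negSucc (nat_lit 207701579972018897169)]]]]]]]],[[[[[[[[Int.negSucc (nat_lit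 2737888354333072824909)]]]]]]]]],[[],[[[[[[[[Int.negSucc (nat_lit 89593357265311401127)]]]]]]]]]]

/-- A coefficient. -/
noncomputable def sr5_m1_3_6 : MP 10 :=
  [[[[[[[[[[Int.negSucc (nat_lit 7727376977364185985121)]]]]],[[[[[Int.negSucc (nat_lit 201921448610744419771)]]]]]]],[[[[[[[Int.ofNat (nat_lit 235267352947171013322)]]]]]]]],[[[],[[[[[[Int.ofNat (nat_lit 420923764729205610872)]]]]]]]],[[[[[[[[Int.ofNat (nat_lit 4022314510531771915158)]]]]]]]]],[[[[[[[[[Int.ofNat (nat_lit 120585439082906667408)]]]]]]],[[[[[[[Int.ofNat (nat_lit 236390864039074021412)]]]]]]]]],[[[[[[[[[Int.ofNat (nat_lit 555383201006928777636)]]]]]]]]]]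

/-- A coefficient. -/
noncomputable def sr5_m1_3_7 : MP 10 :=
  [[[[[[[],[[[[Int.ofNat (nat_lit 149274883437125009698)]]]]]],[[[[[[Int.negSucc (nat_lit 758025148409967038737)]]]]]]]],[[[[[[[[Int.ofNat (nat_lit 746301542006062149594)]]]]]]]]],[[],[[[[[[[[Int.ofNat (nat_lit 438261134467990120746)]]]]]]]]]]

/-- A coefficient. -/
noncomputable def sr5_m1_3_8 : MP 10 :=
  [[[[[[[[[[Int.ofNat (nat_lit 5871382648956737088298)]]]]]]],[[[[[[[Int.negSucc (nat_lit 149599700421161585061)]]]]]]]]],[[[[[[[[[Int.ofNat (nat_lit 602348941859817044828)]]]]]]]]]]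

/-- A coefficient. -/
noncomputable def sr5_m1_3_9 : MP 10 :=
  [[[],[[[[[[[[Int.negSucc (nat_lit 1135997712406106836687)]]]]]]]]]]

/-- A coefficient. -/
noncomputable def sr5_m1_3_10 : MP 10 :=
  [[[[[[[[[[Int.ofNat (nat_lit 3489019019893023862)]]]]]]]]]]

/-- A coefficient. -/
noncomputable def sr5_m1_4_0 : MP 10 :=
  [[[[[[[[[],[],[[Int.negSucc (nat_lit 2863343301450306124)]]]],[[[],[[Int.ofNat (nat_lit 1279707835020710258)]]]],[[[[Int.ofNat (nat_lit 3173378375521995698)]]]]]],[[[[[],[[Int.ofNat (nat_lit 3946574354798750046)]]]],[[[[Int.ofNat (nat_lit 67407929534334224652)]]]]]],[[[[[[Int.ofNat (nat_lit 284088591435910533195)]]]]]]]],[[[[[[[],[[Int.negSucc (nat_lit 40960638716139859733)]]]],[[[[Int.negSucc (nat_lit 120602077451863329363)]]]]]],[[[[[[Int.negSucc (nat_lit 154007479715425903501)]]]]]]],[[[[[[],[[Int.negSucc (nat_lit 210402148184286559)]]]],[[[[Int.ofNat (nat_lit 18889186893054814182)]]]]]],[[[[[[Int.negSucc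 (nat_lit 1280910184887396015)]]]]]]]],[[[[[[[[Int.ofNat (nat_lit 119559057566107625793)]]]]]]],[[[[[[[Int.ofNat (nat_lit 111334731204106349162)]]]]]]],[[[[[[[Int.negSucc (nat_lit 30182746936120846773)]]]]]]]]],[[[[],[[[[[],[[Int.ofNat (nat_lit 517771187763157892)]]]],[[[[Int.negSucc (nat_lit 3885629920286196535)]]]]]],[[[[[[Int.negSucc (nat_lit 45145218076035478849)]]]]]]]],[[[[[[[],[[Int.negSucc (nat_lit 10707155632385467517)]]]],[[[[Int.negSucc (nat_lit 20727920492751705993)]]]]]],[[[[[[Int.negSucc (nat_lit 53928108347491668633)]]]]]]],[[],[[[[[[Int.ofNat (nat_lit 19436781762364784326)]]]]]]]],[[[[[[[[Int.negSucc (nat_lit 422498528058192104957)]]]]]]],[[[[[[[Int.ofNat (nat_lit 15556100819510147472)]]]]]]]]],[[[[],[],[[[[[[Int.negSucc (nat_lit 15795701989285179645)]]]]]]]],[[[],[[[[[[Int.negSucc (nat_lit 6413235979707325483)]]]]]]]],[[[[[[[[Int.negSucc (nat_lit 34915162409353085023)]]]]]]]]]]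

/-- A coefficient. -/
noncomputable def sr5_m1_4_1 : MP 10 :=
  [[[[[[[[[],[[Int.negSucc (nat_lit 24036621919411283685)]]]],[[[[Int.ofNat (nat_lit 21360683048081032244)]]]]],[[[[],[[Int.negSucc (nat_lit 10517186462279572037)]]]],[[[[Int.negSucc (nat_lit 5642380568373453389)]]]]]],[[[[[[Int.negSucc (nat_lit 473677042767470519419)]]]]],[[[[[Int.ofNat (nat_lit 9044723465500862090)]]]]]]],[[[[[[],[[Int.ofNat (nat_lit 10084573003759362200)]]]],[[[[Int.negSucc (nat_lit 40280127204288881647)]]]]]],[[[[[[Int.negSucc (nat_lit 82108366524847054637)]]]]]]]],[[[[[[[[Int.ofNat (nat_lit 83026003729813602276)]]]]],[[[[[Int.negSucc (nat_lit 180189873037548010393)]]]]]]],[[[[[[[Int.ofNat (nat_lit 126285920833882234314)]]]]],[[[[[Int.ofNat (nat_lit 15897752774513288846)]]]]]]],[[[[[[[Int.negSucc (nat_lit 28060963614068970039)]]]]]]]],[[[[[[[],[[Int.ofNat (nat_lit 9148123682739133646)]]]],[[[[Int.ofNat (nat_lit 13269831829415208044)]]]]]],[[[[[[Int.negSucc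 (nat_lit 46977436422649519523)]]]]]]]],[[[[[[[[Int.ofNat (nat_lit 82132540478232895182)]]]]]]],[[[[[[[Int.negSucc (nat_lit 415909480711501433)]]]]]]]]],[[[[[[[[],[[Int.negSucc (nat_lit 12663149385844857679)]]]],[[[[Int.negSucc (nat_lit 188827623598466741815)]]]]]],[[[[[[Int.negSucc (nat_lit 691409205066673198329)]]]]],[[[[[Int.negSucc (nat_lit 9164015064645325523)]]]]]]],[[],[[[[[[Int.ofNat (nat_lit 13431308188208352352)]]]]]]]],[[[[[[[[Int.ofNat (nat_lit 1313778932060311994512)]]]]],[[[[[Int.negSucc (nat_lit 53314624134395125711)]]]]]]],[[[[[[[Int.ofNat (nat_lit 279032184991832004014)]]]]]]]],[[[],[[[[[[Int.negSucc (nat_lit 14189905180374169585)]]]]]]]],[[[[[[[[Int.negSucc (nat_lit 1108455478683537299)]]]]]]]]],[[[[[[[[],[[Int.ofNat (nat_lit 6955295110462828300)]]]],[[[[Int.negSucc (nat_lit 32325203479772842813)]]]]]],[[[[[[Int.ofNat (nat_lit 4051996130162256238)]]]]]]]],[[[[[[[[Int.ofNat (nat_lit 304513086165334033688)]]]]]]],[[[[[[[Int.ofNat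 (nat_lit 25717603963703109076)]]]]]]]]],[[[[],[[[[[[Int.negSucc (nat_lit 6805939597618109937)]]]]]]]],[[[[[[[[Int.negSucc (nat_lit 39892683096310032181)]]]]]]]]]]

/-- A coefficient. -/
noncomputable def sr5_m1_4_2 : MP 10 :=
  [[[[[[[[[[Int.ofNat (nat_lit 2061758226081000859131)]]]],[],[[[[Int.negSucc (nat_lit 29340767196027656444)]]]]],[[[[[Int.negSucc (nat_lit 6831233393052558719)]]]]],[[[[[Int.negSucc (nat_lit 32515093989534842222)]]]]]],[[[[[],[[Int.negSucc (nat_lit 27254902127214184875)]]]],[[[[Int.negSucc (nat_lit 70275601960826941323)]]]]]],[[[[[[Int.negSucc (nat_lit 288794635311317630303)]]]]]]],[[[[[[[Int.ofNat (nat_lit 176542248713685583158)]]]]],[[[[[Int.ofNat (nat_lit 40924939322680710114)]]]]]]],[[[[[[[Int.ofNat (nat_lit 34927409566629786948)]]]]]]]],[[[[[[[],[[Int.ofNat (nat_lit 42118466324405689670)]]]],[[[[Int.ofNat (nat_lit 40788965753778133182)]]]]]],[[[[[[Int.ofNat (nat_lit 166356711791805934804)]]]]]]],[[],[[[[[[Int.ofNat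 (nat_lit 78189065601944360618)]]]]]]]],[[[[[[[[Int.negSucc (nat_lit 456969590494625061184)]]]]],[[[[[Int.ofNat (nat_lit 25141654359152945042)]]]]]]],[[[[[[[Int.negSucc (nat_lit 284271469960750703105)]]]]]]]],[],[[[[[[[[Int.negSucc (nat_lit 172834328504022063329)]]]]]]]]],[[[[[[[[[Int.ofNat (nat_lit 2882956087864066277824)]]]]],[[[[[Int.negSucc (nat_lit 13828717068141638073)]]]]]],[],[[[[[[Int.negSucc (nat_lit 28612719700396895605)]]]]]]],[[[[[[[Int.ofNat (nat_lit 142102146077434549442)]]]]]]]],[[[[[],[[[[Int.ofNat (nat_lit 24219398755102982466)]]]]]],[[[[[[Int.negSucc (nat_lit 8346022445536451461)]]]]]]]],[[[[[[[[Int.ofNat (nat_lit 715881461599201279600)]]]]]]]]],[[[[[[[[[Int.ofNat (nat_lit 1451319610690695075807)]]]]],[[[[[Int.ofNat (nat_lit 10678660131113952402)]]]]]]],[[[[[[[Int.negSucc (nat_lit 63702761399303124991)]]]]]]]],[],[[[[[[[[Int.negSucc (nat_lit 142862485477076316658)]]]]]]]]],[[[[[[[[[Int.negSucc (nat_lit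 835794803589835282669)]]]]]]]]],[[[[[[[[[Int.negSucc (nat_lit 124112790195713144464)]]]]]]]]]]

/-- A coefficient. -/
noncomputable def sr5_m1_4_3 : MP 10 :=
  [[[[[[[[[],[[Int.ofNat (nat_lit 35752269597689537588)]]]],[[[[Int.ofNat (nat_lit 107263695655147883600)]]]]]],[[[[[[Int.ofNat (nat_lit 338591752276362426580)]]]]],[[[[[Int.negSucc (nat_lit 110846116580614270087)]]]]]]],[[[[],[[[[Int.ofNat (nat_lit 48092985022926152940)]]]]]],[[[[[[Int.ofNat (nat_lit 335936478684485585762)]]]]]]]],[[[[[[[[Int.negSucc (nat_lit 192265523441456796357)]]]]],[[[[[Int.ofNat (nat_lit 232037213989610285902)]]]]]]],[[[[[[[Int.negSucc (nat_lit 198014406222523869653)]]]]]]]],[[[],[[[[[[Int.ofNat (nat_lit 135863299499306437518)]]]]]]]],[[[[[[[[Int.ofNat (nat_lit 106599447088524917266)]]]]]]]]],[[[[[[[[],[[Int.ofNat (nat_lit 81975714680104810636)]]]],[[[[Int.ofNat (nat_lit 137764303972228683664)]]]]]],[[[[[[Int.ofNat (nat_lit 478141320906051216654)]]]]]]]],[[[[[[[[Int.negSucc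 (nat_lit 853768203770335490331)]]]]]]],[[[[[[[Int.negSucc (nat_lit 216998083322029206783)]]]]]]]]],[[[[],[[[[[[Int.negSucc (nat_lit 6079947993695716371)]]]]]]]],[[[[[[[[Int.ofNat (nat_lit 56542528605149655908)]]]]]]]]]]

/-- A coefficient. -/
noncomputable def sr5_m1_4_4 : MP 10 :=
  [[[[[[[[[[Int.negSucc (nat_lit 6523984741276711792813)]]]]],[[[[[Int.ofNat (nat_lit 86067177242029671524)]]]]]],[],[[[[[[Int.negSucc (nat_lit 648120277338665918290)]]]]]]],[[[[[[[Int.ofNat (nat_lit 480777567932081308276)]]]]]]],[[[[[[[Int.negSucc (nat_lit 384108538292715008846)]]]]]]]],[[[[[],[[[[Int.ofNat (nat_lit 27247662173136816966)]]]]]],[[[[[[Int.ofNat (nat_lit 364691525443154318538)]]]]]]]],[[[[[[[[Int.ofNat (nat_lit 2670896357130542813904)]]]]]]]]],[[[[[[[[[Int.negSucc (nat_lit 129553135690092549517)]]]]],[[[[[Int.ofNat (nat_lit 184347576399746509218)]]]]]]],[[[[[[[Int.negSucc (nat_lit 234078394235265810543)]]]]]]]],[],[[[[[[[[Int.negSucc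 (nat_lit 476631942180648545843)]]]]]]]]],[[[[[[[[[Int.negSucc (nat_lit 308448260294409190573)]]]]]]]]],[[[[[[[[[Int.ofNat (nat_lit 547050759793197974318)]]]]]]]]]]

/-- A coefficient. -/
noncomputable def sr5_m1_4_5 : MP 10 :=
  [[[[[[[[[],[[Int.ofNat (nat_lit 25754894629934215454)]]]],[[[[Int.negSucc (nat_lit 194119505842607150109)]]]]]],[[[[[[Int.ofNat (nat_lit 1397507229747050478634)]]]]]]]],[[[[[[[[Int.ofNat (nat_lit 3617526497726531724612)]]]]]]],[[[[[[[Int.negSucc (nat_lit 222828420350932965179)]]]]]]]]],[[[[],[[[[[[Int.ofNat (nat_lit 820937787843274795814)]]]]]]]],[[[[[[[[Int.negSucc (nat_lit 219607912481167282149)]]]]]]]]]]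

/-- A coefficient. -/
noncomputable def sr5_m1_4_6 : MP 10 :=
  [[[[[[[[[[Int.ofNat (nat_lit 9652607935034305894280)]]]]],[[[[[Int.negSucc (nat_lit 73629798263464166767)]]]]]]],[[[[[[[Int.negSucc (nat_lit 227056572187269480009)]]]]]]]],[],[[[[[[[[Int.negSucc (nat_lit 4318846504002559753290)]]]]]]]]],[[[[[[[[[Int.negSucc (nat_lit 10371288399276807915903)]]]]]]]]],[[[[[[[[[Int.negSucc (nat_lit 3516427618706944621884)]]]]]]]]]]

/-- A coefficient. -/
noncomputable def sr5_m1_4_7 : MP 10 :=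
  [[[[[],[[[[[[Int.negSucc (nat_lit 1233872428791134731813)]]]]]]]],[[[[[[[[Int.negSucc (nat_lit 878763146859350383667)]]]]]]]]]]

/-- A coefficient. -/
noncomputable def sr5_m1_4_8 : MP 10 :=
  [[[[[[[[[[Int.negSucc (nat_lit 5031255680632719924023)]]]]]]]]],[[[[[[[[[Int.ofNat (nat_lit 4736672655820302316920)]]]]]]]]]]

/-- A coefficient. -/
noncomputable def sr5_m1_4_9 : MP 10 :=
  []

/-- A coefficient. -/
noncomputable def sr5_m1_4_10 : MP 10 :=
  [[[[[[[[[[Int.negSucc (nat_lit 3935317428365516586445)]]]]]]]]]]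

/-- A coefficient. -/
noncomputable def sr5_m1_5_0 : MP 10 :=
  [[[[[[[],[[[],[[Int.ofNat (nat_lit 2733072392330145438)]]]],[[[[Int.ofNat (nat_lit 51123921107720949022)]]]]]],[[[[[],[[Int.ofNat (nat_lit 8763952536147502560)]]]],[[[[Int.negSucc (nat_lit 12364362918301925727)]]]]]],[[[[[[Int.negSucc (nat_lit 97203838703201184611)]]]]]]]],[[[[[[[],[[Int.ofNat (nat_lit 20777241812401658962)]]]],[[[[Int.ofNat (nat_lit 19241682490538663800)]]]]]],[[[[[[Int.ofNat (nat_lit 30105551604526589454)]]]]]]],[[[[],[[[[Int.negSucc (nat_lit 20370713550606101735)]]]]]],[[[[[[Int.negSucc (nat_lit 42946268529618501287)]]]]]]]],[[[[[[[[Int.negSucc (nat_lit 221809070442513845669)]]]]]]],[[[[[[[Int.ofNat (nat_lit 25026483769454640020)]]]]]]]]],[[[[],[[[],[[[[Int.ofNat (nat_lit 4968439752297049426)]]]]]],[[[[[[Int.ofNat (nat_lit 18046779301284118180)]]]]]]]],[[[[[[[],[[Int.ofNat (nat_lit 4065712897033155050)]]]],[[[[Int.negSucc (nat_lit 12963117535833044293)]]]]]],[[[[[[Int.ofNat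 (nat_lit 52698167443802433270)]]]]]]]],[[[[[[[[Int.ofNat (nat_lit 806890408596577790326)]]]]]]],[[[[[[[Int.ofNat (nat_lit 23572892463812031726)]]]]]]]]],[[],[[[],[[[[[[Int.ofNat (nat_lit 2346713703357324428)]]]]]]]],[[[[[[[[Int.ofNat (nat_lit 206378519734866434178)]]]]]]]]]]

/-- A coefficient. -/
noncomputable def sr5_m1_5_1 : MP 10 :=
  [[[[[[[[[],[[Int.negSucc (nat_lit 11207777485778746999)]]]],[[[[Int.negSucc (nat_lit 10034507791870657257)]]]]],[[],[[[[Int.ofNat (nat_lit 18376171703764924192)]]]]]],[[[[[[Int.ofNat (nat_lit 736757173575631881110)]]]]],[[[[[Int.ofNat (nat_lit 28926009068753022852)]]]]]]],[[[[[[],[[Int.negSucc (nat_lit 7295309968595841945)]]]],[[[[Int.negSucc (nat_lit 57426735109950799445)]]]]]],[[[[[[Int.negSucc (nat_lit 40463087754367948829)]]]]]]]],[[[[[[[[Int.ofNat (nat_lit 2136143029441264982)]]]]],[[[[[Int.ofNat (nat_lit 72431908435419817576)]]]]]]],[[[[[[[Int.negSucc (nat_lit 364013736009826513829)]]]]]]],[[[[[[[Int.ofNat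 (nat_lit 110355350601203877964)]]]]]]]],[[[[[],[[[[Int.negSucc (nat_lit 29598099927380626745)]]]]]],[[[[[[Int.ofNat (nat_lit 20428678019873604190)]]]]]]]],[[[[[[[[Int.negSucc (nat_lit 43833471143931086845)]]]]]]]]],[[[[[[[[],[[Int.negSucc (nat_lit 55290032745241042927)]]]],[[[[Int.ofNat (nat_lit 169414309561238339370)]]]]]],[[[[[[Int.ofNat (nat_lit 507191633240923300424)]]]]]]],[[],[[[[[[Int.negSucc (nat_lit 34805560045327536937)]]]]]]]],[[[[[[[[Int.negSucc (nat_lit 1597062356175710657499)]]]]],[[[[[Int.ofNat (nat_lit 16132569385161683964)]]]]]]],[[[[[[[Int.negSucc (nat_lit 145825129744178780747)]]]]]]]],[],[[[[[[[[Int.ofNat (nat_lit 13423257681449727840)]]]]]]]]],[[[[[[],[[[[Int.ofNat (nat_lit 28502470975288855866)]]]]]],[[[[[[Int.ofNat (nat_lit 28415467883637661820)]]]]]]]],[[[[[[[[Int.negSucc (nat_lit 446157431572406136875)]]]]]]]]],[[],[[[[[[[[Int.negSucc (nat_lit 14564486946089783471)]]]]]]]]]]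

/-- A coefficient. -/
noncomputable def sr5_m1_5_2 : MP 10 :=
  [[[[[[[[[[Int.negSucc (nat_lit 1478607879092066092591)]]]]],[[[[[Int.negSucc (nat_lit 54174981986297240017)]]]]]],[[[],[[[[Int.ofNat (nat_lit 71864629289368831120)]]]]]],[[[[[[Int.ofNat (nat_lit 455664947329192887444)]]]]]]],[[[[[[[Int.negSucc (nat_lit 1233680723037173239727)]]]]],[[[[[Int.negSucc (nat_lit 36297908079966837409)]]]]]]],[[[[[[[Int.ofNat (nat_lit 619442509293192575434)]]]]]]]],[[[[[[[],[[Int.negSucc (nat_lit 27330389354157841945)]]]],[[[[Int.negSucc (nat_lit 67499378760597286945)]]]]]],[[[[[[Int.negSucc (nat_lit 130756589477014469431)]]]]]]]],[[[[[[[[Int.negSucc (nat_lit 284269589637262167597)]]]]]]],[[[[[[[Int.ofNat (nat_lit 127587126842554257494)]]]]]]]]],[[[[[[[[[Int.negSucc (nat_lit 2831914879323993100915)]]]]],[[[[[Int.negSucc (nat_lit 102467670923118037987)]]]]]]],[[[[[[[Int.negSucc (nat_lit 439964427272807010915)]]]]]]]],[[[],[[[[[[Int.negSucc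 (nat_lit 9919196831473887157)]]]]]]]],[[[[[[[[Int.negSucc (nat_lit 451153664341275042405)]]]]]]]]],[[[[[[[[[Int.negSucc (nat_lit 1791067190660262293711)]]]]]]],[[[[[[[Int.negSucc (nat_lit 480423920920068125)]]]]]]]]],[[[[[[[[[Int.ofNat (nat_lit 127018755015965353340)]]]]]]]]]]

/-- A coefficient. -/
noncomputable def sr5_m1_5_3 : MP 10 :=
  [[[[[[[[[],[[Int.negSucc (nat_lit 63817423273470979741)]]]],[[[[Int.ofNat (nat_lit 52726223376499611796)]]]]]],[[[[[[Int.negSucc (nat_lit 839997997991055562545)]]]]]]],[[],[[[[[[Int.negSucc (nat_lit 308119769395857463195)]]]]]]]],[[[[[[[[Int.ofNat (nat_lit 501397961376123235930)]]]]],[[[[[Int.negSucc (nat_lit 84786124550181717193)]]]]]]],[[[[[[[Int.ofNat (nat_lit 1082086980785677249042)]]]]]]]],[],[[[[[[[[Int.ofNat (nat_lit 723333405742509454480)]]]]]]]]],[[[[[[],[[[[Int.negSucc (nat_lit 186996368972175153009)]]]]]],[[[[[[Int.negSucc (nat_lit 1049379336084588617809)]]]]]]]],[[[[[[[[Int.negSucc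 (nat_lit 345084539192588492199)]]]]]]]]],[[],[[[[[[[[Int.ofNat (nat_lit 350044421399456606226)]]]]]]]]]]

/-- A coefficient. -/
noncomputable def sr5_m1_5_4 : MP 10 :=
  [[[[[[[[[[Int.ofNat (nat_lit 9386683809151711393096)]]]]],[[[[[Int.negSucc (nat_lit 115633038878064266455)]]]]]]],[[[[[[[Int.ofNat (nat_lit 838549430457775176804)]]]]]]]],[[[],[[[[[[Int.ofNat (nat_lit 476788166031649144934)]]]]]]]],[[[[[[[[Int.ofNat (nat_lit 3737519465335875044762)]]]]]]]]],[[[[[[[[[Int.ofNat (nat_lit 5145502069231661084404)]]]]]]],[[[[[[[Int.ofNat (nat_lit 553181098997627669292)]]]]]]]]],[[[[[[[[[Int.ofNat (nat_lit 4146537408882350803652)]]]]]]]]]]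

/-- A coefficient. -/
noncomputable def sr5_m1_5_5 : MP 10 :=
  [[[[[[[],[[[[Int.ofNat (nat_lit 166683218049575209818)]]]]]],[[[[[[Int.negSucc (nat_lit 455020914391869044721)]]]]]]]],[[[[[[[[Int.negSucc (nat_lit 8987989605225969867655)]]]]]]]]],[[],[[[[[[[[Int.ofNat (nat_lit 402962858505216546816)]]]]]]]]]]

/-- A coefficient. -/
noncomputable def sr5_m1_5_6 : MP 10 :=
  [[[[[[[[[[Int.negSucc (nat_lit 20395862261081503971569)]]]]]]],[[[[[[[Int.negSucc (nat_lit 417206689151036003815)]]]]]]]]],[[[[[[[[[Int.ofNat (nat_lit 1469970282301007130036)]]]]]]]]]]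

/-- A coefficient. -/
noncomputable def sr5_m1_5_7 : MP 10 :=
  [[[],[[[[[[[[Int.ofNat (nat_lit 5550653958123557417402)]]]]]]]]]]

/-- A coefficient. -/
noncomputable def sr5_m1_5_8 : MP 10 :=
  [[[[[[[[[[Int.ofNat (nat_lit 15763997617903850162212)]]]]]]]]]]

/-- A coefficient. -/
noncomputable def sr5_m1_6_0 : MP 10 :=
  [[[[[[[],[],[[[[Int.negSucc (nat_lit 29340767196027656444)]]]]]],[[[[[],[[Int.negSucc (nat_lit 8161898218771253655)]]]],[[[[Int.negSucc (nat_lit 67899270033417612473)]]]]]],[[[[[[Int.negSucc (nat_lit 225122607562030855576)]]]]]]]],[[[[[[[],[[Int.ofNat (nat_lit 26401867907169809222)]]]],[[[[Int.ofNat (nat_lit 131324790158298539912)]]]]]],[[[[[[Int.ofNat (nat_lit 228824745467822357848)]]]]]]],[[],[[[[[[Int.ofNat (nat_lit 27278830224489224766)]]]]]]]],[[[[[[[[Int.ofNat (nat_lit 850518189958338909909)]]]]]]],[[[[[[[Int.negSucc (nat_lit 62008292848018061173)]]]]]]]]],[[[[],[],[[[[[[Int.ofNat (nat_lit 11884730736182600244)]]]]]]]],[[[[[],[[[[Int.ofNat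 (nat_lit 24219398755102982466)]]]]]],[[[[[[Int.ofNat (nat_lit 46635237937947198450)]]]]]]]],[[[[[[[[Int.negSucc (nat_lit 120465793111127933373)]]]]]]]]],[[],[],[[[[[[[[Int.negSucc (nat_lit 113923552572211349892)]]]]]]]]]]

/-- A coefficient. -/
noncomputable def sr5_m1_6_1 : MP 10 :=
  [[[[[[[[[],[[Int.ofNat (nat_lit 34803417387053691992)]]]],[[[[Int.ofNat (nat_lit 109803495512478088920)]]]]]],[[[[[[Int.negSucc (nat_lit 85004052037768656087)]]]]],[[[[[Int.negSucc (nat_lit 25786626397086178245)]]]]]]],[[[[],[[[[Int.ofNat (nat_lit 48092985022926152940)]]]]]],[[[[[[Int.ofNat (nat_lit 110747130767588110642)]]]]]]]],[[[[[[[[Int.negSucc (nat_lit 340552303181691623861)]]]]],[[[[[Int.ofNat (nat_lit 119892965363498905370)]]]]]]],[[[[[[[Int.negSucc (nat_lit 196932839920240428571)]]]]]]]],[[[],[[[[[[Int.ofNat (nat_lit 23957233207982884172)]]]]]]]],[[[[[[[[Int.negSucc (nat_lit 50163976561668631127)]]]]]]]]],[[[[[[[[],[[Int.ofNat (nat_lit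 40067645383104517260)]]]],[[[[Int.ofNat (nat_lit 149014834425079672118)]]]]]],[[[[[[Int.ofNat (nat_lit 312856697506368594244)]]]]]]]],[[[[[[[[Int.negSucc (nat_lit 703509188424317343771)]]]]]]],[[[[[[[Int.negSucc (nat_lit 147272326767384758573)]]]]]]]]],[[[[],[[[[[[Int.negSucc (nat_lit 13534613620569480749)]]]]]]]],[[[[[[[[Int.negSucc (nat_lit 237749206651177004565)]]]]]]]]]]

/-- A coefficient. -/
noncomputable def sr5_m1_6_2 : MP 10 :=
  [[[[[[[[[[Int.negSucc (nat_lit 4943184412864720457783)]]]]],[[[[[Int.ofNat (nat_lit 47166561995176555058)]]]]]],[],[[[[[[Int.negSucc (nat_lit 230041270625476122778)]]]]]]],[[[[[[[Int.ofNat (nat_lit 395682880523315569122)]]]]]]],[[[[[[[Int.negSucc (nat_lit 384108538292715008846)]]]]]]]],[[[[[],[[[[Int.ofNat (nat_lit 23258267956268871398)]]]]]],[[[[[[Int.negSucc (nat_lit 104301070702233795213)]]]]]]]],[[[[[[[[Int.negSucc (nat_lit 345650949730662715485)]]]]]]]]],[[[[[[[[[Int.negSucc (nat_lit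 4543474789237585365735)]]]]],[[[[[Int.ofNat (nat_lit 88947931168042982318)]]]]]]],[[[[[[[Int.negSucc (nat_lit 33277961115416475719)]]]]]]]],[],[[[[[[[[Int.ofNat (nat_lit 95851441660643087082)]]]]]]]]],[[[[[[[[[Int.negSucc (nat_lit 2023794766145300149465)]]]]]]]]],[[[[[[[[[Int.ofNat (nat_lit 424205388375414472034)]]]]]]]]]]

/-- A coefficient. -/
noncomputable def sr5_m1_6_3 : MP 10 :=
  [[[[[[[[[],[[Int.ofNat (nat_lit 5701779084920627520)]]]],[[[[Int.negSucc (nat_lit 202026986878838085725)]]]]]],[[[[[[Int.ofNat (nat_lit 776140164485727726958)]]]]]]]],[[[[[[[[Int.negSucc (nat_lit 1520191612214022565265)]]]]]]],[[[[[[[Int.negSucc (nat_lit 85049960644926253159)]]]]]]]]],[[[[],[[[[[[Int.ofNat (nat_lit 700473244311240281114)]]]]]]]],[[[[[[[[Int.ofNat (nat_lit 23363863316876308904)]]]]]]]]]]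

/-- A coefficient. -/
noncomputable def sr5_m1_6_4 : MP 10 :=
  [[[[[[[[[[Int.ofNat (nat_lit 7410258255463845225298)]]]]],[[[[[Int.negSucc (nat_lit 86303954396582924879)]]]]]]],[[[[[[[Int.negSucc (nat_lit 380619642741402776563)]]]]]]]],[],[[[[[[[[Int.negSucc (nat_lit 4532421109875985040406)]]]]]]]]],[[[[[[[[[Int.negSucc (nat_lit 2507522673062963714759)]]]]]]]]],[[[[[[[[[Int.negSucc (nat_lit 1828785632806836619249)]]]]]]]]]]

/-- A coefficient. -/
noncomputable def sr5_m1_6_5 : MP 10 :=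
  [[[[[],[[[[[[Int.negSucc (nat_lit 1685740617119939855039)]]]]]]]],[[[[[[[[Int.ofNat (nat_lit 1187511483281645718136)]]]]]]]]]]

/-- A coefficient. -/
noncomputable def sr5_m1_6_6 : MP 10 :=
  [[[[[[[[[[Int.negSucc (nat_lit 8530149954807540715615)]]]]]]]]],[[[[[[[[[Int.ofNat (nat_lit 4956787083726931225758)]]]]]]]]]]

/-- A coefficient. -/
noncomputable def sr5_m1_6_7 : MP 10 :=
  []

/-- A coefficient. -/
noncomputable def sr5_m1_6_8 : MP 10 :=
  [[[[[[[[[[Int.negSucc (nat_lit 161198024704682117285)]]]]]]]]]]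

/-- A coefficient. -/
noncomputable def sr5_m1_7_0 : MP 10 :=
  [[[[[],[[[],[[[[Int.ofNat (nat_lit 45031542145032867410)]]]]]],[[[[[[Int.ofNat (nat_lit 322304367849446717232)]]]]]]]],[[[[[[[],[[Int.negSucc (nat_lit 16148520840982248201)]]]],[[[[Int.negSucc (nat_lit 78645727505910159619)]]]]]],[[[[[[Int.negSucc (nat_lit 239074905772530636977)]]]]]]]],[[[[[[[[Int.negSucc (nat_lit 548553901329259385557)]]]]]]],[[[[[[[Int.negSucc (nat_lit 9445923783014133379)]]]]]]]]],[[],[[[],[[[[[[Int.negSucc (nat_lit 59319342111781635737)]]]]]]]],[[[[[[[[Int.negSucc (nat_lit 510271016859844203953)]]]]]]]]]]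

/-- A coefficient. -/
noncomputable def sr5_m1_7_1 : MP 10 :=
  [[[[[[[[[],[[Int.negSucc (nat_lit 9456076282480139475)]]]],[[[[Int.negSucc (nat_lit 101845458686617876519)]]]]]],[[[[[[Int.negSucc (nat_lit 887195790069740193301)]]]]]]],[[],[[[[[[Int.negSucc (nat_lit 56326821070916475159)]]]]]]]],[[[[[[[[Int.negSucc (nat_lit 1181676269300539731559)]]]]],[[[[[Int.negSucc (nat_lit 66242338449911466087)]]]]]]],[[[[[[[Int.ofNat (nat_lit 87851988024850639612)]]]]]]]],[],[[[[[[[[Int.ofNat (nat_lit 26799839103300779608)]]]]]]]]],[[[[[[],[[[[Int.negSucc (nat_lit 156219264902314248647)]]]]]],[[[[[[Int.negSucc (nat_lit 850222969392685651765)]]]]]]]],[[[[[[[[Int.ofNat (nat_lit 2278558577370985766928)]]]]]]]]],[[],[[[[[[[[Int.ofNat (nat_lit 439637778664768007354)]]]]]]]]]]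

/-- A coefficient. -/
noncomputable def sr5_m1_7_2 : MP 10 :=
  [[[[[[[[[[Int.ofNat (nat_lit 5640678706722542322062)]]]]],[[[[[Int.ofNat (nat_lit 17749462550379636886)]]]]]]],[[[[[[[Int.ofNat (nat_lit 901310243143441003578)]]]]]]]],[[[],[[[[[[Int.ofNat (nat_lit 149033291317423766178)]]]]]]]],[[[[[[[[Int.ofNat (nat_lit 790082829754693188492)]]]]]]]]],[[[[[[[[[Int.ofNat (nat_lit 7255193577769881518452)]]]]]]],[[[[[[[Int.ofNat (nat_lit 316790234958553647880)]]]]]]]]],[[[[[[[[[Int.ofNat (nat_lit 3619548939234701889772)]]]]]]]]]]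

/-- A coefficient. -/
noncomputable def sr5_m1_7_3 : MP 10 :=
  [[[[[[[],[[[[Int.ofNat (nat_lit 143510160129117858806)]]]]]],[[[[[[Int.ofNat (nat_lit 342918071124166397698)]]]]]]]],[[[[[[[[Int.ofNat (nat_lit 400533987318090489820)]]]]]]]]],[[],[[[[[[[[Int.negSucc (nat_lit 426603225286628217471)]]]]]]]]]]

/-- A coefficient. -/
noncomputable def sr5_m1_7_4 : MP 10 :=
  [[[[[[[[[[Int.negSucc (nat_lit 12876344580628992569925)]]]]]]],[[[[[[[Int.negSucc (nat_lit 641748069917236343693)]]]]]]]]],[[[[[[[[[Int.negSucc (nat_lit 1296212387176391013421)]]]]]]]]]]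

/-- A coefficient. -/
noncomputable def sr5_m1_7_5 : MP 10 :=
  [[[],[[[[[[[[Int.ofNat (nat_lit 6065353372122049710516)]]]]]]]]]]

/-- A coefficient. -/
noncomputable def sr5_m1_7_6 : MP 10 :=
  [[[[[[[[[[Int.ofNat (nat_lit 19150944247347112584262)]]]]]]]]]]

/-- A coefficient. -/
noncomputable def sr5_m1_8_0 : MP 10 :=
  [[[[[],[],[[[[[[Int.negSucc (nat_lit 131536116515201595314)]]]]]]]],[[[[[],[[[[Int.negSucc (nat_lit 3989394216867945567)]]]]]],[[[[[[Int.negSucc (nat_lit 35896462755982133703)]]]]]]]],[[[[[[[[Int.negSucc (nat_lit 1150837206506487046785)]]]]]]]]],[[],[],[[[[[[[[Int.ofNat (nat_lit 301325796465152540102)]]]]]]]]]]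

/-- A coefficient. -/
noncomputable def sr5_m1_8_1 : MP 10 :=
  [[[[[[[[[],[[Int.negSucc (nat_lit 9745697033233787533)]]]],[[[[Int.negSucc (nat_lit 122879969592553670153)]]]]]],[[[[[[Int.ofNat (nat_lit 788643989431320977808)]]]]]]]],[[[[[[[[Int.ofNat (nat_lit 1291113417370512786002)]]]]]]],[[[[[[[Int.ofNat (nat_lit 189488324540347620264)]]]]]]]]],[[[[],[[[[[[Int.ofNat (nat_lit 442019302966615706938)]]]]]]]],[[[[[[[[Int.negSucc (nat_lit 588101797509512542599)]]]]]]]]]]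

/-- A coefficient. -/
noncomputable def sr5_m1_8_2 : MP 10 :=
  [[[[[[[[[[Int.ofNat (nat_lit 2400395618169083425454)]]]]],[[[[[Int.negSucc (nat_lit 38378973192560377529)]]]]]]],[[[[[[[Int.negSucc (nat_lit 187200318578362142157)]]]]]]]],[],[[[[[[[[Int.ofNat (nat_lit 62691044645546085182)]]]]]]]]],[[[[[[[[[Int.ofNat (nat_lit 755669523563606552762)]]]]]]]]],[[[[[[[[[Int.negSucc (nat_lit 422620675767329621283)]]]]]]]]]]

/-- A coefficient. -/
noncomputable def sr5_m1_8_3 : MP 10 :=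
  [[[[[],[[[[[[Int.negSucc (nat_lit 594624512862637099479)]]]]]]]],[[[[[[[[Int.ofNat (nat_lit 1297718930434131630160)]]]]]]]]]]

/-- A coefficient. -/
noncomputable def sr5_m1_8_4 : MP 10 :=
  [[[[[[[[[[Int.negSucc (nat_lit 151777392018163082977)]]]]]]]]],[[[[[[[[[Int.ofNat (nat_lit 509304510414280394324)]]]]]]]]]]

/-- A coefficient. -/
noncomputable def sr5_m1_8_5 : MP 10 :=
  []

/-- A coefficient. -/
noncomputable def sr5_m1_8_6 : MP 10 :=
  [[[[[[[[[[Int.negSucc (nat_lit 829515266525410737299)]]]]]]]]]]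

/-- A coefficient. -/
noncomputable def sr5_m1_9_0 : MP 10 :=
  [[[],[[[],[[[[[[Int.ofNat (nat_lit 93168890014980232116)]]]]]]]],[[[[[[[[Int.ofNat (nat_lit 1119405529229639404872)]]]]]]]]]]

/-- A coefficient. -/
noncomputable def sr5_m1_9_1 : MP 10 :=
  [[[[[[[],[[[[Int.ofNat (nat_lit 126101825516667658686)]]]]]],[[[[[[Int.ofNat (nat_lit 116552974895321429530)]]]]]]]],[[[[[[[[Int.ofNat (nat_lit 1082734873038952997414)]]]]]]]]],[[],[[[[[[[[Int.negSucc (nat_lit 391304949323854643541)]]]]]]]]]]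

/-- A coefficient. -/
noncomputable def sr5_m1_9_2 : MP 10 :=
  [[[[[[[[[[Int.negSucc (nat_lit 2678523255269781146513)]]]]]]],[[[[[[[Int.negSucc (nat_lit 374141081187361924939)]]]]]]]]],[[[[[[[[[Int.negSucc (nat_lit 2072309145015377685085)]]]]]]]]]]

/-- A coefficient. -/
noncomputable def sr5_m1_9_3 : MP 10 :=
  [[[],[[[[[[[[Int.negSucc (nat_lit 621298298407614543573)]]]]]]]]]]

/-- A coefficient. -/
noncomputable def sr5_m1_9_4 : MP 10 :=
  [[[[[[[[[[Int.ofNat (nat_lit 1645963783426339194068)]]]]]]]]]]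

/-- A coefficient. -/
noncomputable def sr5_m1_10_0 : MP 10 :=
  []

/-- A coefficient. -/
noncomputable def sr5_m1_10_1 : MP 10 :=
  [[[[[],[[[[[[Int.negSucc (nat_lit 282410608681002202495)]]]]]]]],[[[[[[[[Int.negSucc (nat_lit 956274009081114216963)]]]]]]]]]]

/-- An expanded part. -/
noncomputable def sr5_m1 : R12 :=
  [[sr5_m1_0_0, sr5_m1_0_1, sr5_m1_0_2, sr5_m1_0_3, sr5_m1_0_4, sr5_m1_0_5, sr5_m1_0_6, sr5_m1_0_7, sr5_m1_0_8, sr5_m1_0_9, sr5_m1_0_10, sr5_m1_0_11, sr5_m1_0_12],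
   [sr5_m1_1_0, sr5_m1_1_1, sr5_m1_1_2, sr5_m1_1_3, sr5_m1_1_4, sr5_m1_1_5, sr5_m1_1_6, sr5_m1_1_7, sr5_m1_1_8, sr5_m1_1_9, sr5_m1_1_10, sr5_m1_1_11, sr5_m1_1_12],
   [sr5_m1_2_0, sr5_m1_2_1, sr5_m1_2_2, sr5_m1_2_3, sr5_m1_2_4, sr5_m1_2_5, sr5_m1_2_6, sr5_m1_2_7, sr5_m1_2_8, sr5_m1_2_9, sr5_m1_2_10, sr5_m1_2_11, sr5_m1_2_12],
   [sr5_m1_3_0, sr5_m1_3_1, sr5_m1_3_2, sr5_m1_3_3, sr5_m1_3_4, sr5_m1_3_5, sr5_m1_3_6, sr5_m1_3_7, sr5_m1_3_8, sr5_m1_3_9, sr5_m1_3_10],
   [sr5_m1_4_0, sr5_m1_4_1, sr5_m1_4_2, sr5_m1_4_3, sr5_m1_4_4, sr5_m1_4_5, sr5_m1_4_6, sr5_m1_4_7, sr5_m1_4_8, sr5_m1_4_9, sr5_m1_4_10],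
   [sr5_m1_5_0, sr5_m1_5_1, sr5_m1_5_2, sr5_m1_5_3, sr5_m1_5_4, sr5_m1_5_5, sr5_m1_5_6, sr5_m1_5_7, sr5_m1_5_8],
   [sr5_m1_6_0, sr5_m1_6_1, sr5_m1_6_2, sr5_m1_6_3, sr5_m1_6_4, sr5_m1_6_5, sr5_m1_6_6, sr5_m1_6_7, sr5_m1_6_8],
   [sr5_m1_7_0, sr5_m1_7_1, sr5_m1_7_2, sr5_m1_7_3, sr5_m1_7_4, sr5_m1_7_5, sr5_m1_7_6],
   [sr5_m1_8_0, sr5_m1_8_1, sr5_m1_8_2, sr5_m1_8_3, sr5_m1_8_4, sr5_m1_8_5, sr5_m1_8_6],
   [sr5_m1_9_0, sr5_m1_9_1, sr5_m1_9_2, sr5_m1_9_3, sr5_m1_9_4],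
   [sr5_m1_10_0, sr5_m1_10_1]]

set_option maxRecDepth 100000 in
theorem sr5_check1 : partOk 2 sr5_rows 1 sr5_m1 = true :=
  Fast.partOk_of_fast (by decide +kernel)

end Vale.Agent.P142K.CertB
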