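import Vale.Agent.P142K.CertB.Sr5Rows
import Vale.Agent.P142K.Fast

/-!
# An expanded part of the certificate

Generated from a semidefinite program; only the checker is trusted.
-/

namespace Vale.Agent.P142K.CertB

open Vale.Agent.P142J (MP)

/-- A coefficient. -/
noncomputable def sr5_m2_6_0 : MP 10 :=
  []

/-- A coefficient. -/
noncomputable def sr5_m2_6_1 : MP 10 :=
  []

/-- A coefficient. -/
noncomputable def sr5_m2_6_2 : MP 10 :=
  [[[[[[[[[[Int.ofNat (nat_lit 3767691785229545770352)]]]]]]]]],[[[[[[[[[Int.ofNat (nat_lit 3980221173240868173528)]]]]]]]]],[[[[[[[[[Int.ofNat (nat_lit 2217597312635537155276)]]]]]]]]]]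

/-- A coefficient. -/
noncomputable def sr5_m2_6_3 : MP 10 :=
  []

/-- A coefficient. -/
noncomputable def sr5_m2_6_4 : MP 10 :=
  [[[[[[[[[[Int.negSucc (nat_lit 10134715346732489412687)]]]]]]]]],[[[[[[[[[Int.negSucc (nat_lit 4896163931805324309089)]]]]]]]]],[[[[[[[[[Int.negSucc (nat_lit 2217597312635537155275)]]]]]]]]]]

/-- A coefficient. -/
noncomputable def sr5_m2_6_5 : MP 10 :=
  []

/-- A coefficient. -/
noncomputable def sr5_m2_6_6 : MP 10 :=
  [[[[[[[[[[Int.ofNat (nat_lit 22137223775445729271570)]]]]]]]]],[[[[[[[[[Int.ofNat (nat_lit 915942758564456135562)]]]]]]]]]]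

/-- A coefficient. -/
noncomputable def sr5_m2_6_7 : MP 10 :=
  []

/-- A coefficient. -/
noncomputable def sr5_m2_6_8 : MP 10 :=
  [[[[[[[[[[Int.negSucc (nat_lit 15770200213942785629233)]]]]]]]]]]

/-- A coefficient. -/
noncomputable def sr5_m2_7_0 : MP 10 :=
  []

/-- A coefficient. -/
noncomputable def sr5_m2_7_1 : MP 10 :=
  [[[],[[[[[[[[Int.ofNat (nat_lit 837392906917977730324)]]]]]]]]],[[],[[[[[[[[Int.ofNat (nat_lit 242671621261145405528)]]]]]]]]]]

/-- A coefficient. -/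
noncomputable def sr5_m2_7_2 : MP 10 :=
  [[[[[[[[[[Int.negSucc (nat_lit 1855161318306437426695)]]]]]]]]],[[[[[[[[[Int.negSucc (nat_lit 43568686211430057581)]]]]]]]]]]

/-- A coefficient. -/
noncomputable def sr5_m2_7_3 : MP 10 :=
  [[[],[[[[[[[[Int.negSucc (nat_lit 567271630794428759345)]]]]]]]]],[[],[[[[[[[[Int.negSucc (nat_lit 242671621261145405527)]]]]]]]]]]

/-- A coefficient. -/
noncomputable def sr5_m2_7_4 : MP 10 :=
  [[[[[[[[[[Int.ofNat (nat_lit 2585961477576277664158)]]]]]]]]],[[[[[[[[[Int.ofNat (nat_lit 43568686211430057582)]]]]]]]]]]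

/-- A coefficient. -/
noncomputable def sr5_m2_7_5 : MP 10 :=
  [[[],[[[[[[[[Int.negSucc (nat_lit 270121276123548970977)]]]]]]]]]]

/-- A coefficient. -/
noncomputable def sr5_m2_7_6 : MP 10 :=
  [[[[[[[[[[Int.negSucc (nat_lit 730800159269840237461)]]]]]]]]]]

/-- A coefficient. -/
noncomputable def sr5_m2_8_0 : MP 10 :=
  [[[],[],[[[[[[[[Int.ofNat (nat_lit 443599308138972119058)]]]]]]]]]]

/-- A coefficient. -/
noncomputable def sr5_m2_8_1 : MP 10 :=
  [[[],[[[[[[[[Int.ofNat (nat_lit 414902240375832014048)]]]]]]]]]]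

/-- A coefficient. -/
noncomputable def sr5_m2_8_2 : MP 10 :=
  [[[[[[[[[[Int.negSucc (nat_lit 2807063844591238259839)]]]]]]]],[],[[[[[[[[Int.negSucc (nat_lit 443599308138972119057)]]]]]]]]],[[[[[[[[[Int.negSucc (nat_lit 6981991593945715542339)]]]]]]]]],[[[[[[[[[Int.negSucc (nat_lit 2217597312635537155275)]]]]]]]]]]

/-- A coefficient. -/
noncomputable def sr5_m2_8_3 : MP 10 :=
  [[[],[[[[[[[[Int.negSucc (nat_lit 414902240375832014047)]]]]]]]]]]

/-- A coefficient. -/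
noncomputable def sr5_m2_8_4 : MP 10 :=
  [[[[[[[[[[Int.ofNat (nat_lit 7664024792573354371960)]]]]]]]]],[[[[[[[[[Int.ofNat (nat_lit 3917713179269303504374)]]]]]]]]]]

/-- A coefficient. -/
noncomputable def sr5_m2_8_5 : MP 10 :=
  []

/-- A coefficient. -/
noncomputable def sr5_m2_8_6 : MP 10 :=
  [[[[[[[[[[Int.negSucc (nat_lit 18027829385651503869369)]]]]]]]]]]

/-- A coefficient. -/
noncomputable def sr5_m2_9_0 : MP 10 :=
  []

/-- A coefficient. -/
noncomputable def sr5_m2_9_1 : MP 10 :=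
  [[[],[[[[[[[[Int.negSucc (nat_lit 1913745471590883113267)]]]]]]]]],[[],[[[[[[[[Int.negSucc (nat_lit 242671621261145405527)]]]]]]]]]]

/-- A coefficient. -/
noncomputable def sr5_m2_9_2 : MP 10 :=
  [[[[[[[[[[Int.negSucc (nat_lit 2297391326828945219903)]]]]]]]]],[[[[[[[[[Int.ofNat (nat_lit 43568686211430057582)]]]]]]]]]]

/-- A coefficient. -/
noncomputable def sr5_m2_9_3 : MP 10 :=
  [[[],[[[[[[[[Int.ofNat (nat_lit 806231288549356411966)]]]]]]]]]]

/-- A coefficient. -/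
noncomputable def sr5_m2_9_4 : MP 10 :=
  [[[[[[[[[[Int.ofNat (nat_lit 3421752485865542409138)]]]]]]]]]]

/-- A coefficient. -/
noncomputable def sr5_m2_10_0 : MP 10 :=
  [[[],[],[[[[[[[[Int.negSucc (nat_lit 443599308138972119057)]]]]]]]]]]

/-- A coefficient. -/
noncomputable def sr5_m2_10_1 : MP 10 :=
  [[[],[[[[[[[[Int.negSucc (nat_lit 414902240375832014047)]]]]]]]]]]

/-- A coefficient. -/
noncomputable def sr5_m2_10_2 : MP 10 :=
  [[[[[[[[[[Int.ofNat (nat_lit 1823373136780454670406)]]]]]]]]],[[[[[[[[[Int.ofNat (nat_lit 3001770420704847368812)]]]]]]]]]]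

/-- A coefficient. -/
noncomputable def sr5_m2_10_3 : MP 10 :=
  []

/-- A coefficient. -/
noncomputable def sr5_m2_10_4 : MP 10 :=
  [[[[[[[[[[Int.negSucc (nat_lit 5041630249127480421053)]]]]]]]]]]

/-- A coefficient. -/
noncomputable def sr5_m2_11_0 : MP 10 :=
  []

/-- A coefficient. -/
noncomputable def sr5_m2_11_1 : MP 10 :=
  [[[],[[[[[[[[Int.ofNat (nat_lit 1076352564672905382944)]]]]]]]]]]

/-- A coefficient. -/
noncomputable def sr5_m2_11_2 : MP 10 :=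
  [[[[[[[[[[Int.ofNat (nat_lit 4152552645135382646600)]]]]]]]]]]

/-- A coefficient. -/
noncomputable def sr5_m2_12_0 : MP 10 :=
  []

/-- A coefficient. -/
noncomputable def sr5_m2_12_1 : MP 10 :=
  []

/-- A coefficient. -/
noncomputable def sr5_m2_12_2 : MP 10 :=
  [[[[[[[[[[Int.negSucc (nat_lit 2784001077418762180917)]]]]]]]]]]

/-- An expanded part. -/
noncomputable def sr5_m2 : R12 :=
  [[],
   [],
   [],
   [],
   [],
   [],
   [sr5_m2_6_0, sr5_m2_6_1, sr5_m2_6_2, sr5_m2_6_3, sr5_m2_6_4, sr5_m2_6_5, sr5_m2_6_6, sr5_m2_6_7, sr5_m2_6_8],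
   [sr5_m2_7_0, sr5_m2_7_1, sr5_m2_7_2, sr5_m2_7_3, sr5_m2_7_4, sr5_m2_7_5, sr5_m2_7_6],
   [sr5_m2_8_0, sr5_m2_8_1, sr5_m2_8_2, sr5_m2_8_3, sr5_m2_8_4, sr5_m2_8_5, sr5_m2_8_6],
   [sr5_m2_9_0, sr5_m2_9_1, sr5_m2_9_2, sr5_m2_9_3, sr5_m2_9_4],
   [sr5_m2_10_0, sr5_m2_10_1, sr5_m2_10_2, sr5_m2_10_3, sr5_m2_10_4],
   [sr5_m2_11_0, sr5_m2_11_1, sr5_m2_11_2],
   [sr5_m2_12_0, sr5_m2_12_1, sr5_m2_12_2]]

set_option maxRecDepth 100000 in
theorem sr5_check2 : partOk 2 sr5_rows 2 sr5_m2 = true :=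
  Fast.partOk_of_fast (by decide +kernel)

end Vale.Agent.P142K.CertB
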