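import Vale.Agent.P142K.CertB.Sr6Rows
import Vale.Agent.P142K.Fast

/-!
# An expanded part of the certificate

Generated from a semidefinite program; only the checker is trusted.
-/

namespace Vale.Agent.P142K.CertB

open Vale.Agent.P142J (MP)

/-- A coefficient. -/
noncomputable def sr6_m1_0_0 : MP 10 :=
  [[[[[[[[[[Int.ofNat (nat_lit 4673301216634834002)]],[],[[Int.ofNat (nat_lit 247952679684700752)]]],[[[Int.ofNat (nat_lit 901515391171416432)]]],[[[Int.ofNat (nat_lit 471056059008920964)]]]],[[[],[[Int.negSucc (nat_lit 1297783314360523451)]]],[[],[[Int.negSucc (nat_lit 1118566149925529315)]]]],[[[[Int.negSucc (nat_lit 5364212719973219552)]]],[[[Int.ofNat (nat_lit 142738979508710568)]]]]],[[[[[Int.negSucc (nat_lit 5515238335665682319)]],[],[[Int.ofNat (nat_lit 495905359369401504)]]],[[[Int.negSucc (nat_lit 2436544540748300567)]]],[[[Int.negSucc (nat_lit 942112118017841927)]]]],[[[],[[Int.ofNat (nat_lit 320590111309144812)]]]],[[[[Int.negSucc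 (nat_lit 2474230469570144825)]]]]],[[[[[Int.negSucc (nat_lit 5359095272892129977)]]],[[[Int.ofNat (nat_lit 1267027516810935408)]]]]],[[[[[Int.negSucc (nat_lit 4607265844631682779)]]]]]],[[[[[],[[Int.negSucc (nat_lit 1324117813202790119)]]]],[[[[Int.ofNat (nat_lit 11845833746103034140)]]],[[[Int.ofNat (nat_lit 2110676021255768496)]]]]],[[[[],[[Int.negSucc (nat_lit 2648235626405580239)]]]],[[[[Int.ofNat (nat_lit 3192721797341780472)]]]]]],[[[[[[Int.ofNat (nat_lit 8263887286064262180)]]]]],[[[[[Int.ofNat (nat_lit 16527774572128524360)]]]]]]],[[[[[[[Int.negSucc (nat_lit 12220489668030443117)]]],[[[Int.negSucc (nat_lit 1965146857801186331)]]]],[[[],[[Int.ofNat (nat_lit 3167792297488633884)]]]],[[[[Int.ofNat (nat_lit 3915532320405893616)]]]]],[[[[[Int.ofNat (nat_lit 21518084623176079386)]]],[[[Int.ofNat (nat_lit 3930293715602372664)]]]]],[[[[[Int.ofNat (nat_lit 5845789425769613700)]]]]]],[[[],[[[[Int.negSucc (nat_lit 34849810222848074147)]]]]]]],[[[[[[[Int.ofNat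 (nat_lit 14351105987434780872)]]]]],[[[[[Int.negSucc (nat_lit 28702211974869561743)]]]]]]]],[[[[[[[],[[Int.ofNat (nat_lit 866292899768317752)]]]],[[[[Int.negSucc (nat_lit 12294270556453793333)]]],[[[Int.negSucc (nat_lit 2389589924796821111)]]]]],[[[[],[[Int.ofNat (nat_lit 1732585799536635504)]]]],[[[[Int.negSucc (nat_lit 1859822949089404511)]]]]]],[[[[[[Int.negSucc (nat_lit 5146860776907923711)]]],[[[Int.negSucc (nat_lit 1591843696096425377)]]]],[[[],[[Int.ofNat (nat_lit 1818588908386986720)]]]],[[[[Int.negSucc (nat_lit 827884048836629927)]]]]],[[[[[Int.negSucc (nat_lit 7270064944275327731)]]],[[[Int.ofNat (nat_lit 3183687392192850756)]]]]],[[[[[Int.negSucc (nat_lit 2775025228659280535)]]]]]],[[[],[[[[Int.ofNat (nat_lit 35043273750987732)]]]]]]],[[[[[[],[[Int.ofNat (nat_lit 231430320937677924)]]]],[[[[Int.ofNat (nat_lit 17938671682075687890)]]],[[[Int.ofNat (nat_lit 364461474599742132)]]]]],[[[[],[[Int.ofNat (nat_lit 462860641875355848)]]]],[[[[Int.negSucc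 (nat_lit 1238729667802149263)]]]]]],[[[[[[Int.negSucc (nat_lit 2019933547916739479)]]]]],[[[[[Int.negSucc (nat_lit 6247884566542119287)]]]]]]],[[[[],[[[[Int.negSucc (nat_lit 2660710348406055971)]]]]]]]],[[[[[[[[Int.ofNat (nat_lit 14342946898088423100)]],[],[[Int.negSucc (nat_lit 247952679684700751)]]],[[[Int.ofNat (nat_lit 2200247466302965452)]]],[[[Int.ofNat (nat_lit 471056059008920964)]]]],[[[],[[Int.negSucc (nat_lit 927739757929307351)]]]],[[[[Int.ofNat (nat_lit 2557530291754523865)]]]]],[[[[[Int.ofNat (nat_lit 35993231646397160886)]]],[[[Int.negSucc (nat_lit 3230977908668565743)]]]]],[[[[[Int.ofNat (nat_lit 9238809090323872146)]]]]]],[[[[[],[[Int.ofNat (nat_lit 1324117813202790120)]]]],[[[[Int.negSucc (nat_lit 10314677218527655187)]]]]]],[[[[[[Int.negSucc (nat_lit 6217903856957128082)]]]]],[[[[[Int.negSucc (nat_lit 4091966858214268193)]]]]]]],[[[[[[[Int.negSucc (nat_lit 11351252248685025107)]]],[[[Int.negSucc (nat_lit 1965146857801186331)]]]]],[[[[[Int.negSucc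 (nat_lit 31936608484210062245)]]]]]],[[[],[[[[Int.ofNat (nat_lit 1449751727533372764)]]]]]]],[[[[[[[Int.ofNat (nat_lit 17478548629396464063)]]]]],[[[[[Int.ofNat (nat_lit 6254885283923366382)]]]]]]]],[[[[[[[],[[Int.negSucc (nat_lit 866292899768317751)]]]],[[[[Int.ofNat (nat_lit 12705581525470862406)]]]]]],[[[[[[Int.negSucc (nat_lit 372796356939347873)]]],[[[Int.negSucc (nat_lit 1591843696096425377)]]]]],[[[[[Int.ofNat (nat_lit 10790682886813304016)]]]]]]],[[[[[[],[[Int.negSucc (nat_lit 231430320937677923)]]]],[[[[Int.negSucc (nat_lit 1680962033249177333)]]]]]],[[[[[[Int.ofNat (nat_lit 3123942283271059644)]]]]]]]],[[[[[[[[Int.negSucc (nat_lit 11351997000280653239)]]],[[[Int.ofNat (nat_lit 1298732075131549020)]]]]],[[[[[Int.negSucc (nat_lit 16393049716239899477)]]]]]],[],[[[[[[Int.ofNat (nat_lit 2045983429107134097)]]]]]]],[[[[[[[Int.ofNat (nat_lit 14506856885662627698)]]]]]]],[[[[[[[Int.negSucc (nat_lit 3127442641961683190)]]]]]]]],[[[],[[[[[[Int.negSucc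 (nat_lit 4701585136241831873)]]]]]]]],[[[[[[[[Int.ofNat (nat_lit 6462730816117942050)]]]]]]]]],[[[[[[[[[Int.ofNat (nat_lit 13828452530086779090)]]],[[[Int.ofNat (nat_lit 1987091435307674358)]]]],[[[],[[Int.negSucc (nat_lit 1440148489638526919)]]]],[[[[Int.negSucc (nat_lit 13917993658393126343)]]]]],[[[[[Int.negSucc (nat_lit 22603759817520702689)]]],[[[Int.negSucc (nat_lit 3974182870615348715)]]]]],[[[[[Int.negSucc (nat_lit 10106290485305710979)]]]]]],[[[[[],[[Int.negSucc (nat_lit 460011764714264759)]]]],[[[[Int.ofNat (nat_lit 1290490549166644284)]]],[[[Int.ofNat (nat_lit 52559631098696292)]]]]],[[[[],[[Int.negSucc (nat_lit 920023529428529519)]]]],[[[[Int.ofNat (nat_lit 1889173101997586616)]]]]]],[[[[[[Int.ofNat (nat_lit 6636979728459824400)]]]]],[[[[[Int.ofNat (nat_lit 13273959456919648800)]]]]]]],[[[[[[[Int.negSucc (nat_lit 11457529233361681145)]]],[[[Int.negSucc (nat_lit 1362399679504649231)]]]],[[[],[[Int.ofNat (nat_lit 1814529173313664668)]]]],[[[[Int.ofNat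 (nat_lit 1305344141480078724)]]]]],[[[[[Int.ofNat (nat_lit 23372492158769364756)]]],[[[Int.ofNat (nat_lit 2724799359009298464)]]]]],[[[[[Int.negSucc (nat_lit 914867384092004927)]]]]]],[[[],[[[[Int.negSucc (nat_lit 16433486979163569395)]]]]]]],[[[[[[[Int.ofNat (nat_lit 5825287578120989508)]]]]],[[[[[Int.negSucc (nat_lit 11650575156241979015)]]]]]]]],[[[[[[[],[[Int.negSucc (nat_lit 512511360749342243)]]],[[],[[Int.negSucc (nat_lit 1118566149925529315)]]]],[[[[Int.negSucc (nat_lit 46790493919130590535)]]],[[[Int.negSucc (nat_lit 2152297390172980079)]]]]],[[[[],[[Int.ofNat (nat_lit 1891134018531507228)]]]],[[[[Int.negSucc (nat_lit 5930502861068635727)]]]]]],[[[[[[Int.ofNat (nat_lit 7270895064290140968)]]],[[[Int.ofNat (nat_lit 2110676021255768496)]]]]],[[[[[Int.ofNat (nat_lit 3901228145904156624)]]]]]],[[[],[[[[Int.ofNat (nat_lit 1719766067806899552)]]]]]]],[[[[[[],[[Int.ofNat (nat_lit 3167792297488633884)]]]],[[[[Int.ofNat (nat_lit 34210806753044177760)]]]]]],[[[[[[Int.negSucc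 (nat_lit 35870334428734507685)]]]]],[[[[[Int.negSucc (nat_lit 8897834373732230051)]]]]]]],[[[[],[[[[Int.negSucc (nat_lit 3122767857161386715)]]]]]]]],[[[[[[[[Int.ofNat (nat_lit 22565074415453374086)]]],[[[Int.negSucc (nat_lit 402498489489146753)]]]]],[[[[[Int.ofNat (nat_lit 49831481379441859998)]]]]]],[[[[[],[[Int.ofNat (nat_lit 2278600673101251480)]]]],[[[[Int.negSucc (nat_lit 7432014389034678599)]]]]]],[[[[[[Int.negSucc (nat_lit 6601936454708836667)]]]]]]],[[[[[[[Int.ofNat (nat_lit 712005383246919738)]]],[[[Int.negSucc (nat_lit 997938204904907099)]]]]],[[[[[Int.negSucc (nat_lit 12026742162280820675)]]]]]]],[[[[[[[Int.ofNat (nat_lit 3164577229714933536)]]]]]]]],[[[[[[[],[[Int.negSucc (nat_lit 1713011711540488559)]]]],[[[[Int.ofNat (nat_lit 11761732116223949028)]]]]]],[[[[[[Int.negSucc (nat_lit 10668930392808843263)]]]]]]],[[],[[[[[[Int.ofNat (nat_lit 5898668914399487790)]]]]]]]],[[[[[[[[Int.negSucc (nat_lit 10613498017468342103)]]]]]]],[[[[[[[Int.ofNat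 (nat_lit 3941761060013159604)]]]]]]]]],[[[[[[[[[Int.ofNat (nat_lit 16309935234890843334)]],[],[[Int.ofNat (nat_lit 247952679684700752)]]],[[[Int.ofNat (nat_lit 218847013957106514)]]],[[[Int.negSucc (nat_lit 471056059008920963)]]]],[[[],[[Int.negSucc (nat_lit 594925000508436947)]]]],[[[[Int.negSucc (nat_lit 5494714532008426064)]]]]],[[[[[Int.negSucc (nat_lit 44502100024925929289)]]],[[[Int.negSucc (nat_lit 1607211051851578187)]]]]],[[[[[Int.negSucc (nat_lit 4895106873774663521)]]]]]],[[[[[],[[Int.negSucc (nat_lit 1324117813202790119)]]]],[[[[Int.negSucc (nat_lit 18966829987529267471)]]]]]],[[[[[[Int.ofNat (nat_lit 10564109995416479277)]]]]],[[[[[Int.ofNat (nat_lit 4600445418704434194)]]]]]]],[[[[[[[Int.ofNat (nat_lit 10094412477124866042)]]],[[[Int.ofNat (nat_lit 1965146857801186332)]]]]],[[[[[Int.ofNat (nat_lit 7175049094695961002)]]]]]],[[[],[[[[Int.negSucc (nat_lit 1141344231987408611)]]]]]]],[[[[[[[Int.negSucc (nat_lit 12507709662510995942)]]]]],[[[[[Int.negSucc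 (nat_lit 3686792649847569857)]]]]]]]],[[[[[[[],[[Int.negSucc (nat_lit 573855589870209167)]]]],[[[[Int.negSucc (nat_lit 57366123681330098393)]]]]]],[[[[[[Int.negSucc (nat_lit 5379549439934743823)]]],[[[Int.ofNat (nat_lit 1644403327195121670)]]]]],[[[[[Int.ofNat (nat_lit 5217278208703741740)]]]]]]],[[[[[[],[[Int.ofNat (nat_lit 2045959494251342592)]]]],[[[[Int.ofNat (nat_lit 13561537555127860842)]]]]]],[[[[[[Int.negSucc (nat_lit 19557429262434629039)]]]]]]]],[[[[[[[[Int.ofNat (nat_lit 11232034183244942889)]]],[[[Int.negSucc (nat_lit 2473406039684716721)]]]]],[[[[[Int.ofNat (nat_lit 14250743753157498042)]]]]]],[],[[[[[[Int.negSucc (nat_lit 2626440070652451641)]]]]]]],[[[[[[[Int.ofNat (nat_lit 13662340356070079370)]]]]]]],[[[[[[[Int.ofNat (nat_lit 1848071109724081404)]]]]]]]],[[[],[[[[[[Int.negSucc (nat_lit 4260354064474114493)]]]]]]]],[[[[[[[[Int.negSucc (nat_lit 3730374534109798136)]]]]]]]]],[[[[[[[[[Int.ofNat (nat_lit 5439383746989751278)]]],[[[Int.negSucc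 (nat_lit 1987091435307674357)]]]]],[[[[[Int.negSucc (nat_lit 43588817796805916225)]]]]]],[[[[[],[[Int.negSucc (nat_lit 460011764714264759)]]]],[[[[Int.negSucc (nat_lit 7568957149487781947)]]]]]],[[[[[[Int.ofNat (nat_lit 6636979728459824400)]]]]]]],[[[[[[[Int.ofNat (nat_lit 8667339177189439278)]]],[[[Int.ofNat (nat_lit 1362399679504649232)]]]]],[[[[[Int.ofNat (nat_lit 5122946420298481272)]]]]]]],[[[[[[[Int.negSucc (nat_lit 5825287578120989507)]]]]]]]],[[[[[[[],[[Int.ofNat (nat_lit 190346953102744260)]]]],[[[[Int.negSucc (nat_lit 21092308109424016151)]]]]]],[[[[[[Int.negSucc (nat_lit 18612576813248079395)]]]]]]],[[],[[[[[[Int.negSucc (nat_lit 5590261418853523637)]]]]]]]],[[[[[[[[Int.negSucc (nat_lit 861214202921237171)]]]]]]],[[[[[[[Int.ofNat (nat_lit 3843280264213203312)]]]]]]]]],[[[[[[[[[Int.negSucc (nat_lit 13186989639001685756)]]],[[[Int.negSucc (nat_lit 1120362405128522945)]]]]],[[[[[Int.negSucc (nat_lit 16888230600777394223)]]]]]],[],[[[[[[Int.ofNat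 (nat_lit 2300222709352217097)]]]]]]],[[[[[[[Int.ofNat (nat_lit 2126077190905577076)]]]]]]],[[[[[[[Int.negSucc (nat_lit 1843396324923784928)]]]]]]]],[[[],[[[[[[Int.negSucc (nat_lit 5211148288969884251)]]]]]]]],[[[[[[[[Int.negSucc (nat_lit 1329501222430317257)]]]]]]]]],[[[[[[[[[Int.negSucc (nat_lit 19267836277076530367)]]]]]]],[[[[[[[Int.ofNat (nat_lit 2790190056172241868)]]]]]]]]],[[[[[[[[[Int.negSucc (nat_lit 7796246812523991578)]]]]]]]]]]

/-- A coefficient. -/
noncomputable def sr6_m1_0_1 : MP 10 :=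
  [[[[[[[[[],[[Int.negSucc (nat_lit 1577828580855952685)]]]],[[[[Int.ofNat (nat_lit 12802827762623805456)]]],[[[Int.ofNat (nat_lit 4201487975833943208)]]]],[[[],[[Int.negSucc (nat_lit 589147777062732239)]]]],[[[[Int.ofNat (nat_lit 1255993194815367612)]]]]],[[[[],[[Int.negSucc (nat_lit 2996859743072116283)]]]],[[[[Int.negSucc (nat_lit 1386871559704326767)]]],[[[Int.negSucc (nat_lit 1192002996847380299)]]]]],[[[[],[[Int.ofNat (nat_lit 317594837279578176)]]]],[[[[Int.ofNat (nat_lit 3704408736316951776)]]]]]],[[[[[[Int.ofNat (nat_lit 19094372745660335388)]]],[[[Int.ofNat (nat_lit 3755999366101418598)]]]],[[[],[[Int.negSucc (nat_lit 2700890144013524687)]]]],[[[[Int.negSucc (nat_lit 3558186190121013011)]]]]],[[[[[Int.ofNat (nat_lit 15913725013250813604)]]],[[[Int.negSucc (nat_lit 7511998732202837195)]]]]],[[[[[Int.negSucc (nat_lit 5542071589062101855)]]]]]],[[[],[[[[Int.ofNat (nat_lit 25713946572866028)]]]]]]],[[[[[[],[[Int.negSucc (nat_lit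 185075118516621257)]]]],[[[[Int.negSucc (nat_lit 39310552901392813733)]]],[[[Int.ofNat (nat_lit 1882461074767259400)]]]]],[[[[],[[Int.negSucc (nat_lit 370150237033242515)]]]],[[[[Int.negSucc (nat_lit 3794566516411437767)]]]]]],[[[[[[Int.negSucc (nat_lit 17465292621006330371)]]]]],[[[[[Int.negSucc (nat_lit 24890768437950266975)]]]]]]],[[[[],[[[[Int.ofNat (nat_lit 42873815539555756368)]]]]]]]],[[[[[[[[Int.negSucc (nat_lit 18496044488831067227)]]],[[[Int.negSucc (nat_lit 1387470698661764639)]]]],[[[],[[Int.negSucc (nat_lit 1276845467613614771)]]]],[[[[Int.ofNat (nat_lit 9790316655169796664)]]]]],[[[[[Int.negSucc (nat_lit 38906533124845589117)]]],[[[Int.ofNat (nat_lit 2774941397323529280)]]]]],[[[[[Int.ofNat (nat_lit 11004263195934122796)]]]]]],[[[],[[[[Int.ofNat (nat_lit 7758919668583309254)]]]]],[[],[[[[Int.ofNat (nat_lit 1266982333629248460)]]]]]],[[[[[[Int.negSucc (nat_lit 11279707855285835225)]]]]],[[[[[Int.ofNat (nat_lit 22559415710571670452)]]]]]]],[[[[[[[Int.ofNat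 (nat_lit 2454798304521394530)]]]],[],[[[[Int.negSucc (nat_lit 2236543430023572419)]]]]],[[[[[Int.ofNat (nat_lit 55419346498783228626)]]]]],[[[[[Int.negSucc (nat_lit 2880295651997720867)]]]]]],[[[],[[[[Int.negSucc (nat_lit 14504233006278515603)]]]]]]],[[[[[[[Int.negSucc (nat_lit 4576678967980615745)]]]]],[[[[[Int.negSucc (nat_lit 9153357935961231491)]]]]]]]],[[[[[[[],[[Int.ofNat (nat_lit 2865738543429136068)]]]],[[[[Int.negSucc (nat_lit 28544173150190370029)]]],[[[Int.negSucc (nat_lit 2518508129489350703)]]]]],[[[[],[[Int.ofNat (nat_lit 2417022506506577676)]]]],[[[[Int.negSucc (nat_lit 1999777166273894639)]]]]]],[[[[[[Int.ofNat (nat_lit 5621726468324216670)]]],[[[Int.ofNat (nat_lit 3755999366101418598)]]]]],[[[[[Int.negSucc (nat_lit 50738678074628526251)]]]]]]],[[[[[[],[[Int.ofNat (nat_lit 185075118516621258)]]]],[[[[Int.ofNat (nat_lit 48568102906603063194)]]]]]],[[[[[[Int.ofNat (nat_lit 12445384218975133488)]]]]]]]],[[[[[[[[Int.negSucc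 (nat_lit 8132968804956468929)]]],[[[Int.negSucc (nat_lit 1387470698661764639)]]]]],[[[[[Int.ofNat (nat_lit 30536380324315554654)]]]]]],[[[],[[[[Int.ofNat (nat_lit 1990861507826858370)]]]]]],[[[[[[Int.negSucc (nat_lit 11279707855285835225)]]]]]]],[[[[[[[Int.negSucc (nat_lit 26451617263992559175)]]]]],[[[[[Int.ofNat (nat_lit 5396407622795831142)]]]]]]],[[[[[[[Int.ofNat (nat_lit 4576678967980615746)]]]]]]]],[[[[[[[],[[Int.negSucc (nat_lit 1287909962573183381)]]]],[[[[Int.ofNat (nat_lit 4432464128073580866)]]]]]],[[[[[[Int.ofNat (nat_lit 26754856934579788590)]]]]]]]],[[[[[[[[Int.negSucc (nat_lit 18019255961141308025)]]]]]]],[[[[[[[Int.negSucc (nat_lit 1978129898398485353)]]]]]]]]],[[[[[[[[],[[Int.negSucc (nat_lit 1403762384807885741)]]]],[[[[Int.ofNat (nat_lit 20804250883817169990)]]],[[[Int.ofNat (nat_lit 3336932187309719052)]]]]],[[[[],[[Int.negSucc (nat_lit 2807524769615771483)]]]],[[[[Int.negSucc (nat_lit 10570670425627295015)]]]]]],[[[[[[Int.ofNat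 (nat_lit 22192655005447812018)]]]],[],[[[[Int.ofNat (nat_lit 1066413871120270452)]]]]],[[[[[Int.negSucc (nat_lit 13318581369734332559)]]]]],[[[[[Int.ofNat (nat_lit 1008593223612743016)]]]]]],[[[],[[[[Int.negSucc (nat_lit 8109707667056613755)]]]]]]],[[[[],[[[[Int.negSucc (nat_lit 13718033885387132675)]]]]],[[],[[[[Int.ofNat (nat_lit 2846188955419610988)]]]]]],[[[[[[Int.negSucc (nat_lit 10777822013438725157)]]]]],[[[[[Int.negSucc (nat_lit 13530193416598762739)]]]]]]],[[[[],[[[[Int.ofNat (nat_lit 4098680268618174816)]]]]]]]],[[[[[[[[Int.negSucc (nat_lit 23865594661560782153)]]],[[[Int.ofNat (nat_lit 4218568752632750280)]]]],[[[],[[Int.negSucc (nat_lit 2212916739280923743)]]]],[[[[Int.ofNat (nat_lit 10562072584281131268)]]]]],[[[[[Int.negSucc (nat_lit 4214045873080125185)]]],[[[Int.negSucc (nat_lit 1226164550444994443)]]]]],[[[[[Int.ofNat (nat_lit 7106501762401600140)]]]]]],[[[[[],[[Int.negSucc (nat_lit 2700890144013524687)]]]],[[[[Int.negSucc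 (nat_lit 6390944103147083339)]]]]]],[[[[[[Int.ofNat (nat_lit 25713946572866028)]]]]]]],[[[[[[[Int.negSucc (nat_lit 28000207035326237303)]]],[[[Int.ofNat (nat_lit 1882461074767259400)]]]]],[[[[[Int.ofNat (nat_lit 13726211110705783932)]]]]]]],[[[[[[[Int.ofNat (nat_lit 42873815539555756368)]]]]]]]],[[[[[[[],[[Int.ofNat (nat_lit 126916917194270970)]]]],[[[[Int.ofNat (nat_lit 28743659863007931114)]]]]]],[[[[[[Int.ofNat (nat_lit 9772509294929023536)]]]]],[[[[[Int.negSucc (nat_lit 4153843317297549671)]]]]]]],[[[[],[[[[Int.negSucc (nat_lit 2943908907669799643)]]]]]],[[[[[[Int.negSucc (nat_lit 7739136297979134233)]]]]]]]],[[[[[[[[Int.negSucc (nat_lit 28232935443952561397)]]],[[[Int.negSucc (nat_lit 2501427352690543631)]]]]],[[[[[Int.negSucc (nat_lit 19074167959479391841)]]]]]]],[[[[[[[Int.ofNat (nat_lit 39807714093044452344)]]]]]]]],[[[],[[[[[[Int.ofNat (nat_lit 4449126027387071682)]]]]]]]],[[[[[[[[Int.ofNat (nat_lit 12119136268155167376)]]]]]]]]],[[[[[[[[],[[Int.negSucc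 (nat_lit 1950936461197245509)]]]],[[[[Int.ofNat (nat_lit 12003460340135157030)]]],[[[Int.negSucc (nat_lit 240890811830934203)]]]]],[[[[],[[Int.negSucc (nat_lit 587418342042796559)]]]],[[[[Int.negSucc (nat_lit 4998703169356138463)]]]]]],[[[[[[Int.ofNat (nat_lit 11325576068069313450)]]],[[[Int.negSucc (nat_lit 3755999366101418597)]]]]],[[[[[Int.negSucc (nat_lit 32258409397032992627)]]]]]]],[[[[[[],[[Int.negSucc (nat_lit 185075118516621257)]]]],[[[[Int.ofNat (nat_lit 28894125385619121078)]]]]]],[[[[[[Int.negSucc (nat_lit 12445384218975133487)]]]]]]]],[[[[[[[[Int.negSucc (nat_lit 17224401696926790701)]]],[[[Int.ofNat (nat_lit 4724402885971483692)]]]]],[[[[[Int.ofNat (nat_lit 63472890945512912766)]]]]]],[[[],[[[[Int.ofNat (nat_lit 2714186744895513834)]]]]]],[[[[[[Int.ofNat (nat_lit 3170000188229221470)]]]]]]],[[[[[[[Int.ofNat (nat_lit 12799103063012431764)]]]]],[[[[[Int.negSucc (nat_lit 7809314727436605545)]]]]]]],[[[[[[[Int.negSucc (nat_lit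 477998699362440929)]]]]]]]],[[[[[[[],[[Int.ofNat (nat_lit 37248880696284702)]]]],[[[[Int.ofNat (nat_lit 37056928977084444204)]]]]]],[[[[[[Int.negSucc (nat_lit 14843928046354888067)]]]]]]]],[[[[[[[[Int.ofNat (nat_lit 2701884282392869284)]]]]]]],[[[[[[[Int.ofNat (nat_lit 5878442349180936180)]]]]]]]]],[[[[[[[[],[[Int.negSucc (nat_lit 1403762384807885741)]]]],[[[[Int.ofNat (nat_lit 2360427808034786118)]]]]]],[[[[[[Int.negSucc (nat_lit 8865249952554567827)]]]]],[[[[[Int.negSucc (nat_lit 3403325311762060079)]]]]]]],[[[[],[[[[Int.ofNat (nat_lit 607627617186498780)]]]]]],[[[[[[Int.negSucc (nat_lit 6765096708299381369)]]]]]]]],[[[[[[[[Int.ofNat (nat_lit 11773373753356751832)]]],[[[Int.negSucc (nat_lit 257971588629741275)]]]]],[[[[[Int.ofNat (nat_lit 29059373972850435342)]]]]]]],[[[[[[[Int.ofNat (nat_lit 37654514199177731928)]]]]]]]],[[[],[[[[[[Int.ofNat (nat_lit 1143319315999245864)]]]]]]]],[[[[[[[[Int.ofNat (nat_lit 3885662132954969226)]]]]]]]]],[[[[[[[[],[[Int.negSucc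 (nat_lit 373107880341292823)]]]],[[[[Int.ofNat (nat_lit 5001547567669608150)]]]]]],[[[[[[Int.negSucc (nat_lit 14743686801250970849)]]]]]]]],[[[[[[[[Int.ofNat (nat_lit 36631142694621359310)]]]]]]],[[[[[[[Int.negSucc (nat_lit 4000050311242179269)]]]]]]]]],[[[[],[[[[[[Int.negSucc (nat_lit 1953810961784215793)]]]]]]]],[[[[[[[[Int.ofNat (nat_lit 21180062882251732962)]]]]]]]]]]

/-- A coefficient. -/
noncomputable def sr6_m1_0_2 : MP 10 :=
  [[[[[[[[[[Int.ofNat (nat_lit 32792138139875361036)]]],[[[Int.ofNat (nat_lit 915983335214859582)]]]],[[[],[[Int.ofNat (nat_lit 231589674410906592)]]]],[[[[Int.negSucc (nat_lit 18938649515956287062)]]]]],[[[[[Int.ofNat (nat_lit 29689342187862742470)]]],[[[Int.negSucc (nat_lit 1831966670429719163)]]]],[],[[[[Int.negSucc (nat_lit 490970783418550901)]]]]],[[[[[Int.negSucc (nat_lit 18279150547294252136)]]]]],[[[[[Int.ofNat (nat_lit 2599470648557744694)]]]]]],[[[[[],[[Int.ofNat (nat_lit 721716821401961838)]]]],[[[[Int.ofNat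 (nat_lit 7029820296597155298)]]],[[[Int.negSucc (nat_lit 1480330159478950679)]]]]],[[[[],[[Int.ofNat (nat_lit 1443433642803923676)]]]],[[[[Int.ofNat (nat_lit 5771238071443976628)]]]]]],[[[[[[Int.ofNat (nat_lit 37615777155066619707)]]]]],[[[[[Int.negSucc (nat_lit 41919280906877538149)]]]]]]],[[[[[[[Int.negSucc (nat_lit 25737955547062031321)]]],[[[Int.ofNat (nat_lit 2756946813517945662)]]]],[[[],[[Int.negSucc (nat_lit 3681129910885073075)]]]],[[[[Int.ofNat (nat_lit 2592095145864552816)]]]]],[[[[[Int.negSucc (nat_lit 31272810008543340383)]]],[[[Int.negSucc (nat_lit 5513893627035891323)]]]]],[[[[[Int.ofNat (nat_lit 2061236328714552072)]]]]]],[[[],[[[[Int.ofNat (nat_lit 10278719723783627148)]]]]]]],[[[[[[[Int.ofNat (nat_lit 29559482961369778818)]]]]],[[[[[Int.ofNat (nat_lit 63540080005491091764)]]]]]]]],[[[[[[[],[[Int.negSucc (nat_lit 5539683982059206429)]]]],[[[[Int.ofNat (nat_lit 37833287772244443468)]]],[[[Int.ofNat (nat_lit 14627514393721134708)]]]]],[[[[],[[Int.negSucc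 (nat_lit 11079367964118412859)]]]],[[[[Int.negSucc (nat_lit 10362073514518628531)]]]]]],[[[[[[Int.negSucc (nat_lit 38586560923935732953)]]]]],[[[[[Int.ofNat (nat_lit 106458304512460173108)]]]]]],[[[],[[[[Int.ofNat (nat_lit 5065364090547775776)]]]]]]],[[[[],[[[[Int.negSucc (nat_lit 29499361863503463623)]]]]]],[[[[[[Int.negSucc (nat_lit 8839599597094958075)]]]]],[[[[[Int.ofNat (nat_lit 4337837905958216376)]]]]]]],[[[[],[[[[Int.ofNat (nat_lit 3758871863312456952)]]]]]]]],[[[[[[[[Int.ofNat (nat_lit 48826915164180592233)]]],[[[Int.ofNat (nat_lit 915983335214859582)]]]],[],[[[[Int.negSucc (nat_lit 103438106044055246)]]]]],[[[[[Int.negSucc (nat_lit 84329222001613536341)]]]]],[[[[[Int.negSucc (nat_lit 4341404797877475926)]]]]]],[[[[[],[[Int.negSucc (nat_lit 721716821401961837)]]]],[[[[Int.negSucc (nat_lit 29341591410523857077)]]]]]],[[[[[[Int.ofNat (nat_lit 20959640453438769075)]]]]]]],[[[[[[[Int.ofNat (nat_lit 17460080821862580342)]]],[[[Int.ofNat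 (nat_lit 2756946813517945662)]]]]],[[[[[Int.negSucc (nat_lit 9034072882289579939)]]]]]]],[[[[[[[Int.negSucc (nat_lit 31770040002745545881)]]]]]]]],[[[[[[[],[[Int.ofNat (nat_lit 5539683982059206430)]]]],[[[[Int.ofNat (nat_lit 22563525211752733920)]]]]]],[[[[[[Int.negSucc (nat_lit 53229152256230086553)]]]]]]],[[],[[[[[[Int.negSucc (nat_lit 2168918952979108187)]]]]]]]],[[[[[[[[Int.ofNat (nat_lit 55684583157051309510)]]]]],[[[[[Int.ofNat (nat_lit 20292170850301124016)]]]]]]],[[[[[[[Int.ofNat (nat_lit 4001727358966151952)]]]]]]]],[],[[[[[[[[Int.negSucc (nat_lit 9385668056750911112)]]]]]]]]],[[[[[[[[[Int.ofNat (nat_lit 60015413413454461410)]]],[[[Int.ofNat (nat_lit 141062376031160274)]]]],[[[],[[Int.negSucc (nat_lit 491222845376780015)]]]],[[[[Int.negSucc (nat_lit 9566569373106578735)]]]]],[[[[[Int.negSucc (nat_lit 14339766490481959349)]]],[[[Int.negSucc (nat_lit 282124752062320547)]]]]],[[[[[Int.negSucc (nat_lit 5000560742378021315)]]]]]],[[[],[[[[Int.negSucc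 (nat_lit 37880934217342166591)]]]]]],[[[[[[Int.ofNat (nat_lit 4251001617690113670)]]]]],[[[[[Int.ofNat (nat_lit 8502003235380227340)]]]]]]],[[[[[[[Int.ofNat (nat_lit 7211326227690272688)]]]]],[[[[[Int.negSucc (nat_lit 9062252449599109151)]]]]]],[[[],[[[[Int.negSucc (nat_lit 2240017750873124135)]]]]]]],[[[[[[[Int.negSucc (nat_lit 5023778590846243073)]]]]],[[[[[Int.ofNat (nat_lit 10047557181692486148)]]]]]]]],[[[[[[[],[[Int.ofNat (nat_lit 231589674410906592)]]]],[[[[Int.negSucc (nat_lit 31666776917665875581)]]]]],[[],[[[[Int.ofNat (nat_lit 7138791175297573308)]]]]]],[[[[[[Int.ofNat (nat_lit 20087597550132730452)]]],[[[Int.negSucc (nat_lit 1480330159478950679)]]]]],[[[[[Int.ofNat (nat_lit 14290416873715398048)]]]]]]],[[[[[[],[[Int.negSucc (nat_lit 3681129910885073075)]]]],[[[[Int.negSucc (nat_lit 13504217980837818263)]]]]]],[[[[[[Int.ofNat (nat_lit 10278719723783627148)]]]]]]]],[[[[[[[[Int.ofNat (nat_lit 38288205001020183810)]]],[[[Int.ofNat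 (nat_lit 14768576769752294982)]]]]],[[[[[Int.ofNat (nat_lit 5462145122353053894)]]]]]],[],[[[[[[Int.ofNat (nat_lit 814362472857662106)]]]]]]],[[[[[[[Int.negSucc (nat_lit 24968235638703909047)]]]]]]],[[[[[[[Int.negSucc (nat_lit 1264906727533786121)]]]]]]]],[[[[[],[[[[Int.negSucc (nat_lit 13781170730695537409)]]]]]],[[[[[[Int.negSucc (nat_lit 33601180811659567787)]]]]]]]],[[[[[[[[Int.ofNat (nat_lit 15901556078911398036)]]]]]]]]],[[[[[[[[[Int.ofNat (nat_lit 55904693863104183225)]]],[[[Int.negSucc (nat_lit 915983335214859581)]]]],[],[[[[Int.ofNat (nat_lit 202422460299365175)]]]]],[[[[[Int.negSucc (nat_lit 66337818484828107707)]]]]],[[[[[Int.negSucc (nat_lit 2067736917848651372)]]]]]],[[[[[],[[Int.ofNat (nat_lit 721716821401961838)]]]],[[[[Int.negSucc (nat_lit 30337284290860573505)]]]]]],[[[[[[Int.negSucc (nat_lit 20959640453438769074)]]]]]]],[[[[[[[Int.ofNat (nat_lit 6632460657333288858)]]],[[[Int.negSucc (nat_lit 2756946813517945661)]]]]],[[[[[Int.ofNat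 (nat_lit 36851083697960117772)]]]]]]],[[[[[[[Int.ofNat (nat_lit 31770040002745545882)]]]]]]]],[[[[[[[],[[Int.negSucc (nat_lit 6030906827435986445)]]]],[[[[Int.negSucc (nat_lit 8131382013347570699)]]]]]],[[[[[[Int.ofNat (nat_lit 15348218038887919962)]]]]]]],[[],[[[[[[Int.negSucc (nat_lit 71098797894015947)]]]]]]]],[[[[[[[[Int.negSucc (nat_lit 19230720753044912030)]]]]],[[[[[Int.negSucc (nat_lit 10618842590067462587)]]]]]]],[[[[[[[Int.negSucc (nat_lit 38008273252469943899)]]]]]]]],[],[[[[[[[[Int.ofNat (nat_lit 4913688398623452384)]]]]]]]]],[[[[[[[[[Int.ofNat (nat_lit 15795760352650828746)]]],[[[Int.negSucc (nat_lit 141062376031160273)]]]]],[[[[[Int.negSucc (nat_lit 18112060150878525401)]]]]]],[],[[[[[[Int.ofNat (nat_lit 4251001617690113670)]]]]]]],[[[[[[[Int.negSucc (nat_lit 4531126224799554575)]]]]]]],[[[[[[[Int.ofNat (nat_lit 5023778590846243074)]]]]]]]],[[[[[],[[[[Int.ofNat (nat_lit 4310982971526101322)]]]]]],[[[[[[Int.negSucc (nat_lit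 26077694889724862795)]]]]]]]],[[[[[[[[Int.ofNat (nat_lit 15903046382445101292)]]]]]]]]],[[[[[[[[[Int.negSucc (nat_lit 19965231607620450158)]]]]],[[[[[Int.ofNat (nat_lit 13250440091673121428)]]]]]]],[[[[[[[Int.ofNat (nat_lit 17910232766801420868)]]]]]]]],[],[[[[[[[[Int.negSucc (nat_lit 12564280561665728930)]]]]]]]]],[[[[[[[[[Int.negSucc (nat_lit 7805889889844757371)]]]]]]]]],[[[[[[[[[Int.ofNat (nat_lit 7467088106368441644)]]]]]]]]]]

/-- A coefficient. -/
noncomputable def sr6_m1_0_3 : MP 10 :=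
  [[[[[[[[[],[[Int.ofNat (nat_lit 4265622193671721188)]]]],[[[[Int.negSucc (nat_lit 20170930514436370727)]]],[[[Int.negSucc (nat_lit 11677000461948333287)]]]]],[[[[],[[Int.ofNat (nat_lit 8531244387343442376)]]]],[[[[Int.negSucc (nat_lit 4405316688673511951)]]]]]],[[[[[[Int.ofNat (nat_lit 28741688879700458712)]]]],[],[[[[Int.negSucc (nat_lit 1436016220953737003)]]]]],[[[[[Int.negSucc (nat_lit 31057301002408310891)]]]]],[[[[[Int.ofNat (nat_lit 8083850734893944568)]]]]]],[[[],[[[[Int.negSucc (nat_lit 8468815196818662959)]]]]]]],[[[[],[[[[Int.negSucc (nat_lit 32822636981509960565)]]]]],[[],[[[[Int.negSucc (nat_lit 9016297248843102839)]]]]]],[[[[[[Int.negSucc (nat_lit 11657824463185887953)]]]]],[[[[[Int.negSucc (nat_lit 62254144843988135339)]]]]]]],[[[[],[[[[Int.ofNat (nat_lit 27362293695307168560)]]]]]]]],[[[[[[[[Int.negSucc (nat_lit 77786166756840474611)]]],[[[Int.negSucc (nat_lit 999055490085532379)]]]],[[[],[[Int.ofNat (nat_lit 417770160374504460)]]]],[[[[Int.ofNat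 (nat_lit 7543147332447982992)]]]]],[[[[[Int.ofNat (nat_lit 108395115248655079344)]]],[[[Int.ofNat (nat_lit 1998110980171064760)]]]]],[[[[[Int.ofNat (nat_lit 6876399597028983840)]]]]]],[[[],[[[[Int.ofNat (nat_lit 78906701200880384364)]]]]]]],[[[[[[[Int.ofNat (nat_lit 46511052143180404884)]]]]],[[[[[Int.ofNat (nat_lit 108837019767046439808)]]]]]]]],[[[[[[[],[[Int.negSucc (nat_lit 4265622193671721187)]]]],[[[[Int.negSucc (nat_lit 46047473444884700435)]]]]]],[[[[[[Int.ofNat (nat_lit 2824976551046996202)]]]]],[[[[[Int.negSucc (nat_lit 19855511666184502175)]]]]]]],[[[[],[[[[Int.negSucc (nat_lit 8343518474240502341)]]]]]],[[[[[[Int.ofNat (nat_lit 31127072421994067670)]]]]]]]],[[[[[[[[Int.negSucc (nat_lit 73264657075940130749)]]],[[[Int.negSucc (nat_lit 999055490085532379)]]]]],[[[[[Int.negSucc (nat_lit 70818914743492573691)]]]]]]],[[[[[[[Int.negSucc (nat_lit 54418509883523219903)]]]]]]]],[[[],[[[[[[Int.ofNat (nat_lit 7906793149368764946)]]]]]]]],[[[[[[[[Int.ofNat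 (nat_lit 33690357472489040886)]]]]]]]]],[[[[[[[[],[[Int.ofNat (nat_lit 1517643216196604178)]]]],[[[[Int.ofNat (nat_lit 27678001191549449118)]]],[[[Int.negSucc (nat_lit 3905043887894350163)]]]]],[[[[],[[Int.ofNat (nat_lit 3035286432393208356)]]]],[[[[Int.negSucc (nat_lit 14969788576981298879)]]]]]],[[[[[[Int.negSucc (nat_lit 38538470799793263029)]]]]],[[[[[Int.negSucc (nat_lit 2760404516162788955)]]]]]]],[[[[],[[[[Int.ofNat (nat_lit 70199208644978770668)]]]]]]]],[[[[[[[[Int.negSucc (nat_lit 20785572951533615945)]]],[[[Int.negSucc (nat_lit 11677000461948333287)]]]]],[[[[[Int.negSucc (nat_lit 24817524850702590851)]]]]]],[[[],[[[[Int.ofNat (nat_lit 10027235108360117424)]]]]]],[[[[[[Int.negSucc (nat_lit 8468815196818662959)]]]]]]],[[[[[[[Int.negSucc (nat_lit 34717354657999576265)]]]]],[[[[[Int.ofNat (nat_lit 12746390411233000872)]]]]]]],[[[[[[[Int.ofNat (nat_lit 27362293695307168560)]]]]]]]],[[[[[[[],[[Int.negSucc (nat_lit 1099873055822099717)]]]],[[[[Int.ofNat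 (nat_lit 73791705957628650150)]]]]]],[[[[[[Int.ofNat (nat_lit 80286903458961778842)]]]]]]]],[[[[[[[[Int.negSucc (nat_lit 35841369363870160985)]]]]]]],[[[[[[[Int.negSucc (nat_lit 19224862304278554197)]]]]]]]]],[[[[[[[[],[[Int.ofNat (nat_lit 4265622193671721188)]]]],[[[[Int.ofNat (nat_lit 20061736218334305120)]]]]]],[[[[[[Int.negSucc (nat_lit 28273151009222329517)]]]]],[[[[[Int.negSucc (nat_lit 17405150281142403575)]]]]]]],[[[[],[[[[Int.ofNat (nat_lit 14240572068744197694)]]]]]],[[[[[[Int.negSucc (nat_lit 31127072421994067669)]]]]]]]],[[[[[[[[Int.ofNat (nat_lit 65002583855078018910)]]],[[[Int.negSucc (nat_lit 2905988397808817783)]]]]],[[[[[Int.ofNat (nat_lit 54604475925927526200)]]]]]]],[[[[[[[Int.ofNat (nat_lit 124617718528501990572)]]]]]]]],[[[],[[[[[[Int.ofNat (nat_lit 14279996004239777412)]]]]]]]],[[[[[[[[Int.negSucc (nat_lit 509831199505540307)]]]]]]]]],[[[[[[[[],[[Int.ofNat (nat_lit 1517643216196604178)]]]],[[[[Int.ofNat (nat_lit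 19797062895393023802)]]]]]],[[[[[[Int.negSucc (nat_lit 1380202258081394477)]]]]]]]],[[[[[[[[Int.ofNat (nat_lit 9855632137319765670)]]]]]]],[[[[[[[Int.ofNat (nat_lit 25121915898782249550)]]]]]]]]],[[[[],[[[[[[Int.negSucc (nat_lit 10723537824294687929)]]]]]]]],[[[[[[[[Int.ofNat (nat_lit 52865095247590190382)]]]]]]]]]]

/-- A coefficient. -/
noncomputable def sr6_m1_0_4 : MP 10 :=
  [[[[[[[[[[Int.ofNat (nat_lit 41288582428812432168)]]],[[[Int.negSucc (nat_lit 2057508927730346357)]]]],[[[],[[Int.ofNat (nat_lit 3701366094522946596)]]]],[[[[Int.ofNat (nat_lit 904509673382969856)]]]]],[[[[[Int.negSucc (nat_lit 164036411000834548613)]]],[[[Int.ofNat (nat_lit 4115017855460692716)]]]]],[[[[[Int.negSucc (nat_lit 12792876425574877547)]]]]]],[[[],[[[[Int.negSucc (nat_lit 91072826204826272495)]]]]]],[[[[[[Int.ofNat (nat_lit 19162066701618392487)]]]]],[[[[[Int.ofNat (nat_lit 38324133403236784974)]]]]]]],[[[[[[[Int.negSucc (nat_lit 7215757331585781281)]]]]],[[[[[Int.negSucc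 (nat_lit 142869305097927191579)]]]]]],[[[],[[[[Int.negSucc (nat_lit 40044757781567716655)]]]]]]],[[[[[[[Int.ofNat (nat_lit 15919376355103486134)]]]]],[[[[[Int.negSucc (nat_lit 31838752710206972267)]]]]]]]],[[[[[],[[[[Int.negSucc (nat_lit 73118354234281404197)]]]]],[[],[[[[Int.negSucc (nat_lit 2658190209256779059)]]]]]],[[[[[[Int.ofNat (nat_lit 15436158799427227338)]]]]],[[[[[Int.negSucc (nat_lit 51611391151322761379)]]]]]]],[[[[],[[[[Int.ofNat (nat_lit 68957299051452204216)]]]]]]]],[[[[[[[[Int.ofNat (nat_lit 171354046319967639528)]]],[[[Int.negSucc (nat_lit 2057508927730346357)]]]]],[[[[[Int.ofNat (nat_lit 313925240560895439102)]]]]]],[],[[[[[[Int.negSucc (nat_lit 19162066701618392486)]]]]]]],[[[[[[[Int.ofNat (nat_lit 71434652548963595790)]]]]]]],[[[[[[[Int.ofNat (nat_lit 15919376355103486134)]]]]]]]],[[[[[],[[[[Int.ofNat (nat_lit 10480542245373064626)]]]]]],[[[[[[Int.ofNat (nat_lit 25805695575661380690)]]]]]]]],[[[[[[[[Int.negSucc (nat_lit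 153764401174054000163)]]]]]]]]],[[[[[[[[[Int.ofNat (nat_lit 30553753919657686554)]]]],[],[[[[Int.negSucc (nat_lit 890832022993069031)]]]]],[[[[[Int.negSucc (nat_lit 134773116272148672845)]]]]],[[[[[Int.negSucc (nat_lit 4694850714806469539)]]]]]],[[[],[[[[Int.negSucc (nat_lit 36545272102854102047)]]]]]]],[[[[[[[Int.ofNat (nat_lit 40997051558280663858)]]]]],[[[[[Int.negSucc (nat_lit 16705408967153147507)]]]]]]]],[[[[[[[],[[Int.ofNat (nat_lit 3701366094522946596)]]]],[[[[Int.negSucc (nat_lit 163242890229601605959)]]]]]],[[[[[[Int.negSucc (nat_lit 91072826204826272495)]]]]]]],[[],[[[[[[Int.negSucc (nat_lit 40044757781567716655)]]]]]]]],[[[[[[[[Int.ofNat (nat_lit 3381468301629172806)]]]]],[[[[[Int.ofNat (nat_lit 50520718405593655818)]]]]]]],[[[[[[[Int.ofNat (nat_lit 77310003535028777970)]]]]]]]],[],[[[[[[[[Int.negSucc (nat_lit 14935199383350535427)]]]]]]]]],[[[[[[[[[Int.negSucc (nat_lit 41189361502523756963)]]],[[[Int.ofNat (nat_lit 2057508927730346358)]]]]],[[[[[Int.negSucc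 (nat_lit 145996951771743252341)]]]]]],[],[[[[[[Int.ofNat (nat_lit 19162066701618392487)]]]]]]],[[[[[[[Int.negSucc (nat_lit 71434652548963595789)]]]]]]],[[[[[[[Int.negSucc (nat_lit 15919376355103486133)]]]]]]]],[[[[[],[[[[Int.negSucc (nat_lit 13329869596824284813)]]]]]],[[[[[[Int.negSucc (nat_lit 62350967678515482737)]]]]]]]],[[[[[[[[Int.ofNat (nat_lit 59417258050547331132)]]]]]]]]],[[[[[[[[[Int.negSucc (nat_lit 62779917253701853679)]]]]],[[[[[Int.ofNat (nat_lit 4518431049938495946)]]]]]]],[[[[[[[Int.negSucc (nat_lit 8352704483576573753)]]]]]]]],[],[[[[[[[[Int.ofNat (nat_lit 9543775851221518914)]]]]]]]]],[[[[[[[[[Int.negSucc (nat_lit 69800256779477906783)]]]]]]]]],[[[[[[[[[Int.ofNat (nat_lit 3432928203670865358)]]]]]]]]]]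

/-- A coefficient. -/
noncomputable def sr6_m1_0_5 : MP 10 :=
  [[[[[[[[[],[[Int.negSucc (nat_lit 219509969788160531)]]]],[[[[Int.ofNat (nat_lit 145037325062726123910)]]],[[[Int.ofNat (nat_lit 727171328066703996)]]]]],[[[[],[[Int.negSucc (nat_lit 439019939576321063)]]]],[[[[Int.ofNat (nat_lit 13830148312116078036)]]]]]],[[[[[[Int.negSucc (nat_lit 24238719201528323309)]]]]],[[[[[Int.ofNat (nat_lit 6283194730250974692)]]]]]]],[[[[],[[[[Int.ofNat (nat_lit 50421279682757965920)]]]]]]]],[[[[[[[[Int.negSucc (nat_lit 150578762233433562059)]]]]],[[[[[Int.negSucc (nat_lit 496912560038356939895)]]]]]],[[[],[[[[Int.negSucc (nat_lit 12726360782573917775)]]]]]]],[[[[[[[Int.negSucc (nat_lit 4167308576690866919)]]]]],[[[[[Int.negSucc (nat_lit 33996445881631607687)]]]]]]]],[[[[[[[],[[Int.ofNat (nat_lit 219509969788160532)]]]],[[[[Int.ofNat (nat_lit 37362232125484660086)]]]]]],[[[[[[Int.negSucc (nat_lit 3141597365125487345)]]]]]]]],[[[[[[[[Int.ofNat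 (nat_lit 248456280019178469948)]]]]]]],[[[[[[[Int.ofNat (nat_lit 16998222940815803844)]]]]]]]]],[[[[[[],[[[[Int.ofNat (nat_lit 129832762934168352468)]]]]]],[[[[[[Int.negSucc (nat_lit 18789223960184526437)]]]]],[[[[[Int.negSucc (nat_lit 37578447920369052875)]]]]]]],[[[[],[[[[Int.ofNat (nat_lit 23481604712783304960)]]]]]]]],[[[[[[[[Int.ofNat (nat_lit 135832510930814138538)]]],[[[Int.ofNat (nat_lit 727171328066703996)]]]]],[[[[[Int.negSucc (nat_lit 69794626593686790851)]]]]]]],[[[[[[[Int.ofNat (nat_lit 50421279682757965920)]]]]]]]],[[[],[[[[[[Int.ofNat (nat_lit 6062863177610608662)]]]]]]]],[[[[[[[[Int.ofNat (nat_lit 79174619578386094530)]]]]]]]]],[[[[[[[[],[[Int.negSucc (nat_lit 219509969788160531)]]]],[[[[Int.ofNat (nat_lit 47268272056024414938)]]]]]],[[[[[[Int.ofNat (nat_lit 3141597365125487346)]]]]]]]],[[[[[[[[Int.negSucc (nat_lit 118623517085010117479)]]]]]]],[[[[[[[Int.ofNat (nat_lit 6483381771967501116)]]]]]]]]],[[[[],[[[[[[Int.negSucc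 (nat_lit 18789223960184526437)]]]]]]]],[[[[[[[[Int.ofNat (nat_lit 5455884603122980494)]]]]]]]]]]

/-- A coefficient. -/
noncomputable def sr6_m1_0_6 : MP 10 :=
  [[[[[[[[[[Int.ofNat (nat_lit 71818869541178672388)]]]],[],[[[[Int.ofNat (nat_lit 3596865285227716260)]]]]],[[[[[Int.ofNat (nat_lit 550214695665810367704)]]]]],[[[[[Int.ofNat (nat_lit 10028983292990460000)]]]]]],[[[],[[[[Int.ofNat (nat_lit 37462608657063486372)]]]]]]],[[[[[[[Int.ofNat (nat_lit 24100185608672712918)]]]]],[[[[[Int.ofNat (nat_lit 105423988942004838684)]]]]]]]],[[[[[],[[[[Int.ofNat (nat_lit 51689787859912879920)]]]]]]]],[[[[[[[[Int.negSucc (nat_lit 218483689491774479903)]]]]],[[[[[Int.negSucc (nat_lit 85723170771896252351)]]]]]]],[[[[[[[Int.negSucc (nat_lit 52711994471002419341)]]]]]]]],[],[[[[[[[[Int.ofNat (nat_lit 40354339562700511176)]]]]]]]]],[[[[[[[[[Int.ofNat (nat_lit 33396636426888159240)]]]]],[[[[[Int.ofNat (nat_lit 260865967101791877000)]]]]]]]],[[[[[],[[[[Int.ofNat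 (nat_lit 88093722372869166576)]]]]]],[[[[[[Int.ofNat (nat_lit 37462608657063486372)]]]]]]]],[[[[[[[[Int.negSucc (nat_lit 78743195690983058579)]]]]]]]]],[[[[[[[[[Int.ofNat (nat_lit 328164195449821434366)]]]]],[[[[[Int.ofNat (nat_lit 116142678526822961028)]]]]]]],[[[[[[[Int.ofNat (nat_lit 52711994471002419342)]]]]]]]],[],[[[[[[[[Int.negSucc (nat_lit 11421575915222926373)]]]]]]]]],[[[[[[[[[Int.ofNat (nat_lit 130432983550895938500)]]]]]]]]],[[[[[[[[[Int.ofNat (nat_lit 55564093440163865514)]]]]]]]]]]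

/-- A coefficient. -/
noncomputable def sr6_m1_0_7 : MP 10 :=
  [[[[[[[],[[[[Int.negSucc (nat_lit 240114859520099453267)]]]]]],[[[[[[Int.negSucc (nat_lit 15581963499355151759)]]]]],[[[[[Int.negSucc (nat_lit 31163926998710303519)]]]]]]],[[[[],[[[[Int.ofNat (nat_lit 7361578402798427436)]]]]]]]],[[[[[[[[Int.ofNat (nat_lit 10539028010396182032)]]]]],[[[[[Int.ofNat (nat_lit 311673000484792529208)]]]]]]]],[[[],[[[[[[Int.ofNat (nat_lit 15581963499355151760)]]]]]]]],[[[[[[[[Int.negSucc (nat_lit 155836500242396264603)]]]]]]]]],[[[[[[],[[[[Int.negSucc (nat_lit 98491213592454651395)]]]]]]]],[[[[[[[[Int.negSucc (nat_lit 240114859520099453267)]]]]]]],[[[[[[[Int.ofNat (nat_lit 7361578402798427436)]]]]]]]]],[[[[],[[[[[[Int.negSucc (nat_lit 15581963499355151759)]]]]]]]],[[[[[[[[Int.ofNat (nat_lit 57345286649941613208)]]]]]]]]]]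

/-- A coefficient. -/
noncomputable def sr6_m1_0_8 : MP 10 :=
  [[[[[[[[[[Int.negSucc (nat_lit 66141195602643950195)]]]]],[[[[[Int.negSucc (nat_lit 457638928190346787031)]]]]]]]],[[[[[],[[[[Int.ofNat (nat_lit 34352315659081637112)]]]]]]]],[[[[[[[[Int.ofNat (nat_lit 228819464095173393516)]]]]]]]]],[[[[[[[[[Int.ofNat (nat_lit 16039167092341573578)]]]]],[[[[[Int.ofNat (nat_lit 32078334184683147156)]]]]]]]],[],[[[[[[[[Int.ofNat (nat_lit 18313148566740063534)]]]]]]]]],[[[[[[[[[Int.negSucc (nat_lit 228819464095173393515)]]]]]]]]],[[[[[[[[[Int.ofNat (nat_lit 16039167092341573578)]]]]]]]]]]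

/-- A coefficient. -/
noncomputable def sr6_m1_0_9 : MP 10 :=
  [[[[[[[],[[[[Int.ofNat (nat_lit 81125811387703183284)]]]]]]]]],[[],[[[[[[[[Int.ofNat (nat_lit 81125811387703183284)]]]]]]]]]]

/-- A coefficient. -/
noncomputable def sr6_m1_0_10 : MP 10 :=
  [[[[[[[[[[Int.ofNat (nat_lit 72610398460923171060)]]]]],[[[[[Int.ofNat (nat_lit 145220796921846342120)]]]]]]]],[],[[[[[[[[Int.negSucc (nat_lit 72610398460923171059)]]]]]]]]],[],[[[[[[[[[Int.ofNat (nat_lit 72610398460923171060)]]]]]]]]]]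

/-- A coefficient. -/
noncomputable def sr6_m1_1_0 : MP 10 :=
  [[[[[[[[[[Int.negSucc (nat_lit 34235215156310146799)]]],[[[Int.negSucc (nat_lit 4821174616596699443)]]]],[[[],[[Int.ofNat (nat_lit 5487873237167632200)]]]],[[[[Int.ofNat (nat_lit 28858401409459681878)]]],[[[Int.ofNat (nat_lit 950772897992633472)]]]]],[[[[[Int.ofNat (nat_lit 55923686534679781878)]]],[[[Int.ofNat (nat_lit 8477406780694000356)]]]],[[[],[[Int.ofNat (nat_lit 382870262197365996)]]]],[[[[Int.ofNat (nat_lit 4766504741513472084)]]]]],[[[[[Int.ofNat (nat_lit 21134921913940423500)]]],[[[Int.ofNat (nat_lit 2329884904998797064)]]]]],[[[[[Int.ofNat (nat_lit 7917131283881199888)]]]]]],[[[[[],[[Int.ofNat (nat_lit 2577241548396863586)]]]],[[[[Int.negSucc (nat_lit 58373051834999460389)]]],[[[Int.negSucc (nat_lit 5496225022036125479)]]]]],[[[[],[[Int.ofNat (nat_lit 5154483096793727172)]]]],[[[[Int.negSucc (nat_lit 4518324019787313671)]]]]]],[[[[[[Int.negSucc (nat_lit 30450567734866629899)]]]]],[[[[[Int.negSucc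 (nat_lit 60901135469733259799)]]]]]]],[[[[[[[Int.ofNat (nat_lit 65042772567926862282)]]],[[[Int.ofNat (nat_lit 6878198026915617588)]]]],[[[],[[Int.negSucc (nat_lit 6979855630550568743)]]]],[[[[Int.negSucc (nat_lit 7159414815774723275)]]]]],[[[[[Int.negSucc (nat_lit 129972964692826194323)]]],[[[Int.negSucc (nat_lit 13756396053831235175)]]]]],[[[[[Int.negSucc (nat_lit 225160886055060479)]]]]]],[[[],[[[[Int.ofNat (nat_lit 112986154543331614956)]]]]]]],[[[[[[[Int.negSucc (nat_lit 50869009320198107363)]]]]],[[[[[Int.ofNat (nat_lit 101738018640396214728)]]]]]]]],[[[[[[[],[[Int.negSucc (nat_lit 2593888680471180281)]]]],[[[[Int.ofNat (nat_lit 67319792283446270346)]]],[[[Int.ofNat (nat_lit 5157570657578361996)]]]]],[[[[],[[Int.negSucc (nat_lit 5187777360942360563)]]]],[[[[Int.ofNat (nat_lit 1598904110625921996)]]]]]],[[[[[[Int.ofNat (nat_lit 11107335412964284578)]]]],[],[[[[Int.negSucc (nat_lit 1105200275610212807)]]]]],[[[[[Int.ofNat (nat_lit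 12808612041993880914)]]]]],[[[[[Int.negSucc (nat_lit 6461536926192982043)]]]]]],[[[],[[[[Int.ofNat (nat_lit 9272348819767384152)]]]]]]],[[[[],[[[[Int.negSucc (nat_lit 43304276485927219835)]]]]],[[],[[[[Int.ofNat (nat_lit 3543961616646735216)]]]]]],[[[[[[Int.negSucc (nat_lit 182648235925361231)]]]]],[[[[[Int.ofNat (nat_lit 43478717755533817704)]]]]]]],[[[[],[[[[Int.negSucc (nat_lit 9684119793505920215)]]]]]]]],[[[[[[[[Int.negSucc (nat_lit 80477011838300686817)]]],[[[Int.negSucc (nat_lit 4244178294882239921)]]]],[[[],[[Int.negSucc (nat_lit 253003419645513707)]]]],[[[[Int.negSucc (nat_lit 3065537054154085721)]]]]],[[[[[Int.negSucc (nat_lit 166754307836001755603)]]],[[[Int.negSucc (nat_lit 2318935095928317575)]]]]],[[[[[Int.ofNat (nat_lit 150265265109388308)]]]]]],[[[[[],[[Int.negSucc (nat_lit 2577241548396863585)]]]],[[[[Int.ofNat (nat_lit 2960805076196607690)]]]]]],[[[[[[Int.ofNat (nat_lit 30450567734866629900)]]]]]]],[[[[[[[Int.ofNat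 (nat_lit 70366450162641389796)]]],[[[Int.ofNat (nat_lit 6878198026915617588)]]]]],[[[[[Int.ofNat (nat_lit 24461575523532067116)]]]]]]],[[[[[[[Int.negSucc (nat_lit 50869009320198107363)]]]]]]]],[[[[[[[],[[Int.ofNat (nat_lit 2593888680471180282)]]]],[[[[Int.negSucc (nat_lit 51670576059478669973)]]]]]],[[[[[[Int.negSucc (nat_lit 4101243373494195809)]]]]],[[[[[Int.ofNat (nat_lit 1855411631187492750)]]]]]]],[[[[],[[[[Int.ofNat (nat_lit 1156857635227580556)]]]]]],[[[[[[Int.negSucc (nat_lit 21739358877766908851)]]]]]]]],[[[[[[[[Int.ofNat (nat_lit 65166566463520184118)]]],[[[Int.ofNat (nat_lit 576996321714459522)]]]]],[[[[[Int.ofNat (nat_lit 19765600223970887394)]]]]]]],[[[[[[[Int.negSucc (nat_lit 12174497540252268437)]]]]]]]],[[[],[[[[[[Int.ofNat (nat_lit 687678415954499136)]]]]]]]],[[[[[[[[Int.negSucc (nat_lit 10910007838747940759)]]]]]]]]],[[[[[[[[[Int.negSucc (nat_lit 88940980026457427813)]]],[[[Int.negSucc (nat_lit 5680282197422953859)]]]],[[[],[[Int.ofNat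 (nat_lit 5460101657016990516)]]]],[[[[Int.ofNat (nat_lit 53974107739124858508)]]]]],[[[[[Int.ofNat (nat_lit 160553323086931780518)]]],[[[Int.ofNat (nat_lit 11360564394845907720)]]]]],[[[[[Int.ofNat (nat_lit 34657273931966150220)]]]]]],[[[],[[[[Int.ofNat (nat_lit 18415755580287549042)]]]]],[[],[[[[Int.ofNat (nat_lit 2231890663830925704)]]]]]],[[[[[[Int.negSucc (nat_lit 9328310830401593621)]]]]],[[[[[Int.negSucc (nat_lit 18656621660803187243)]]]]]]],[[[[[[[Int.ofNat (nat_lit 41571612356994481110)]]]],[],[[[[Int.negSucc (nat_lit 3341000728049874791)]]]]],[[[[[Int.negSucc (nat_lit 82454813877354355679)]]]]],[[[[[Int.negSucc (nat_lit 1376821673269213079)]]]]]],[[[],[[[[Int.ofNat (nat_lit 16117880777406524688)]]]]]]],[[[[[[[Int.negSucc (nat_lit 9085458665947664831)]]]]],[[[[[Int.ofNat (nat_lit 18170917331895329664)]]]]]]]],[[[[[[[],[[Int.ofNat (nat_lit 5178615719394175104)]]]],[[[[Int.ofNat (nat_lit 205294408712052786408)]]],[[[Int.ofNat (nat_lit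 3279735552027643356)]]]]],[[[[],[[Int.negSucc (nat_lit 235644773349548195)]]]],[[[[Int.ofNat (nat_lit 12495309359893367244)]]]]]],[[[[[[Int.negSucc (nat_lit 54251344963023115271)]]],[[[Int.negSucc (nat_lit 5496225022036125479)]]]]],[[[[[Int.negSucc (nat_lit 24400198918502563451)]]]]]]],[[[[[[],[[Int.negSucc (nat_lit 6979855630550568743)]]]],[[[[Int.negSucc (nat_lit 53802361099513793867)]]]]]],[[[[[[Int.ofNat (nat_lit 112986154543331614956)]]]]]]]],[[[[[[[[Int.negSucc (nat_lit 87518221597168887029)]]],[[[Int.negSucc (nat_lit 522711539844591863)]]]]],[[[[[Int.negSucc (nat_lit 166913093023125475973)]]]]]],[[[],[[[[Int.ofNat (nat_lit 1857907284139146858)]]]]]],[[[[[[Int.ofNat (nat_lit 18600659650168977774)]]]]]]],[[[[[[[Int.ofNat (nat_lit 983108691575890326)]]]]],[[[[[Int.ofNat (nat_lit 18150117192503621676)]]]]]]],[[[[[[[Int.negSucc (nat_lit 18769578459453585047)]]]]]]]],[[[[[[[],[[Int.ofNat (nat_lit 56254098127943388)]]]],[[[[Int.negSucc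 (nat_lit 28239510170958142655)]]]]]],[[[[[[Int.ofNat (nat_lit 12901742525554232580)]]]]]]]],[[[[[[[[Int.ofNat (nat_lit 23921104024405491456)]]]]]]],[[[[[[[Int.negSucc (nat_lit 5802014734383559403)]]]]]]]]],[[[[[[[[[Int.negSucc (nat_lit 80578516006474201523)]]],[[[Int.ofNat (nat_lit 4826394991561716996)]]]],[[[],[[Int.negSucc (nat_lit 512483650814556983)]]]],[[[[Int.ofNat (nat_lit 17808553105596505242)]]]]],[[[[[Int.ofNat (nat_lit 231147566051634227604)]]],[[[Int.ofNat (nat_lit 1154501702569363428)]]]]],[[[[[Int.ofNat (nat_lit 26011845745690561476)]]]]]],[[[[[],[[Int.ofNat (nat_lit 2577241548396863586)]]]],[[[[Int.ofNat (nat_lit 48470913941619985626)]]]]]],[[[[[[Int.negSucc (nat_lit 30450567734866629899)]]]]]]],[[[[[[[Int.negSucc (nat_lit 56342158285797537377)]]],[[[Int.negSucc (nat_lit 6878198026915617587)]]]]],[[[[[Int.negSucc (nat_lit 17513809007286180047)]]]]]]],[[[[[[[Int.ofNat (nat_lit 50869009320198107364)]]]]]]]],[[[[[[[],[[Int.ofNat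 (nat_lit 2866212976545810234)]]]],[[[[Int.ofNat (nat_lit 204127512640068223290)]]]]]],[[[[[[Int.ofNat (nat_lit 22974482896552479450)]]]]],[[[[[Int.negSucc (nat_lit 2847361056540160361)]]]]]]],[[[[],[[[[Int.negSucc (nat_lit 15221063720457280739)]]]]]],[[[[[[Int.ofNat (nat_lit 37857239655173433540)]]]]]]]],[[[[[[[[Int.negSucc (nat_lit 37351630883665908749)]]],[[[Int.ofNat (nat_lit 1757186707285567914)]]]]],[[[[[Int.negSucc (nat_lit 47697471061663084835)]]]]]]],[[[[[[[Int.negSucc (nat_lit 25767834461357477249)]]]]]]]],[[[],[[[[[[Int.ofNat (nat_lit 3199670772432158052)]]]]]]]],[[[[[[[[Int.ofNat (nat_lit 8963060262790380504)]]]]]]]]],[[[[[[[[[Int.ofNat (nat_lit 12954495199619517864)]]],[[[Int.ofNat (nat_lit 5680282197422953860)]]]]],[[[[[Int.ofNat (nat_lit 169301606619658895010)]]]]]],[[[],[[[[Int.ofNat (nat_lit 5407714260350803662)]]]]]],[[[[[[Int.negSucc (nat_lit 9328310830401593621)]]]]]]],[[[[[[[Int.negSucc (nat_lit 39576924689743231007)]]]]],[[[[[Int.negSucc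 (nat_lit 4677786171137106743)]]]]]]],[[[[[[[Int.ofNat (nat_lit 9085458665947664832)]]]]]]]],[[[[[[[],[[Int.negSucc (nat_lit 821741168588014079)]]]],[[[[Int.ofNat (nat_lit 61899093955882032552)]]]]]],[[[[[[Int.ofNat (nat_lit 38529976492262360736)]]]]]]]],[[[[[[[[Int.negSucc (nat_lit 1424760009778706597)]]]]]]],[[[[[[[Int.negSucc (nat_lit 2926502955545015885)]]]]]]]]],[[[[[[[[[Int.ofNat (nat_lit 96568871426805718590)]]],[[[Int.negSucc (nat_lit 5220374965017551)]]]]],[[[[[Int.ofNat (nat_lit 47516359523832240234)]]]]]]],[[[[[[[Int.negSucc (nat_lit 8700614282129324903)]]]]]]]],[[[],[[[[[[Int.ofNat (nat_lit 4483472631713506140)]]]]]]]],[[[[[[[[Int.ofNat (nat_lit 2618655573460400898)]]]]]]]]],[[[[[[[[[Int.ofNat (nat_lit 75986484826837909950)]]]]]]],[[[[[[[Int.negSucc (nat_lit 1994687667251250101)]]]]]]]]],[[[[[[[[[Int.ofNat (nat_lit 18244859735978629734)]]]]]]]]]]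

/-- A coefficient. -/
noncomputable def sr6_m1_1_1 : MP 10 :=
  [[[[[[[[[],[[Int.negSucc (nat_lit 2103295655393995307)]]]],[[[[Int.negSucc (nat_lit 46622991435622458689)]]],[[[Int.ofNat (nat_lit 4511933819236623648)]]]],[],[[[[Int.negSucc (nat_lit 930865219987008587)]]]]],[[[[],[[Int.negSucc (nat_lit 4206591310787990615)]]]],[[[[Int.ofNat (nat_lit 26719270510940272782)]]]]],[[],[[[[Int.negSucc (nat_lit 4300115191274876471)]]]]]],[[[[[[Int.negSucc (nat_lit 43715461167009648359)]]],[[[Int.negSucc (nat_lit 7027406861491103963)]]]],[[[],[[Int.ofNat (nat_lit 5151706285145396616)]]]],[[[[Int.ofNat (nat_lit 20310907600957831020)]]]]],[[[[[Int.ofNat (nat_lit 14564756629356597180)]]],[[[Int.ofNat (nat_lit 14054813722982207928)]]]]],[[[[[Int.ofNat (nat_lit 41421974814444646728)]]]]]],[[[],[[[[Int.negSucc (nat_lit 43412072586811748399)]]]]]]],[[[[[[],[[Int.ofNat (nat_lit 1305096109187670084)]]]],[[[[Int.ofNat (nat_lit 40563720870829835274)]]],[[[Int.negSucc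 (nat_lit 7912154734536785495)]]]]],[[[[],[[Int.ofNat (nat_lit 2610192218375340168)]]]],[[[[Int.negSucc (nat_lit 5075198253396854651)]]]]]],[[[[[[Int.ofNat (nat_lit 82008108750804227502)]]]]],[[[[[Int.negSucc (nat_lit 65102047017935022827)]]]]]]],[[[[],[[[[Int.negSucc (nat_lit 50923931344768406027)]]]]]]]],[[[[[[[[Int.ofNat (nat_lit 60230251715726382660)]]],[[[Int.negSucc (nat_lit 7200058490694930839)]]]],[[[],[[Int.ofNat (nat_lit 8826910631738887464)]]]],[[[[Int.negSucc (nat_lit 43217259818771917571)]]]]],[[[[[Int.ofNat (nat_lit 100391475102351793890)]]],[[[Int.ofNat (nat_lit 14400116981389861680)]]]]],[[[[[Int.negSucc (nat_lit 96847784551841710499)]]]]]],[[[],[[[[Int.ofNat (nat_lit 88523842610147825136)]]]]]],[[[[[[Int.ofNat (nat_lit 15859679150209319688)]]]]],[[[[[Int.negSucc (nat_lit 31719358300418639375)]]]]]]],[[[[[[[Int.negSucc (nat_lit 58732567232790735317)]]]]],[[[[[Int.ofNat (nat_lit 62726171834140444908)]]]]]],[[[],[[[[Int.ofNat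 (nat_lit 16448407493347950552)]]]]]]],[[[[[[[Int.negSucc (nat_lit 8629761492434247377)]]]]],[[[[[Int.negSucc (nat_lit 17259522984868494755)]]]]]]]],[[[[[[[],[[Int.ofNat (nat_lit 2103295655393995308)]]]],[[[[Int.ofNat (nat_lit 69411166507448335644)]]]]],[[],[[[[Int.negSucc (nat_lit 2555393403893596529)]]]]]],[[[[[[Int.ofNat (nat_lit 4047803872126839630)]]],[[[Int.negSucc (nat_lit 7027406861491103963)]]]]],[[[[[Int.negSucc (nat_lit 20781980499970201151)]]]]]]],[[[[[[],[[Int.negSucc (nat_lit 1305096109187670083)]]]],[[[[Int.negSucc (nat_lit 49291608713694506753)]]]]]],[[[[[[Int.ofNat (nat_lit 32551023508967511414)]]]]]]]],[[[[[[[[Int.negSucc (nat_lit 32883631594255299293)]]],[[[Int.negSucc (nat_lit 7200058490694930839)]]]]],[[[[[Int.ofNat (nat_lit 87155429757692424390)]]]]]],[],[[[[[[Int.ofNat (nat_lit 15859679150209319688)]]]]]]],[[[[[[[Int.negSucc (nat_lit 31363085917070222453)]]]]]]],[[[[[[[Int.ofNat (nat_lit 8629761492434247378)]]]]]]]],[[[[[],[[[[Int.negSucc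 (nat_lit 4602460405632825821)]]]]]],[[[[[[Int.ofNat (nat_lit 35496546373938894)]]]]]]]],[[[[[[[[Int.negSucc (nat_lit 19365768740885784569)]]]]]]]]],[[[[[[[[],[[Int.negSucc (nat_lit 5750429957680850981)]]]],[[[[Int.negSucc (nat_lit 59453569565291789507)]]],[[[Int.ofNat (nat_lit 10113490293699487152)]]]]],[[[[],[[Int.negSucc (nat_lit 11500859915361701963)]]]],[[[[Int.ofNat (nat_lit 50611531446697605804)]]]]]],[[[[[[Int.negSucc (nat_lit 9098100403654338695)]]]]],[[[[[Int.ofNat (nat_lit 214994044199737834944)]]]]]],[[[],[[[[Int.ofNat (nat_lit 7973789453117339016)]]]]]]],[[[[],[[[[Int.negSucc (nat_lit 192349747394107314455)]]]]]],[[[[[[Int.ofNat (nat_lit 21787678917202573398)]]]]],[[[[[Int.ofNat (nat_lit 17189579241340504356)]]]]]]],[[[[],[[[[Int.ofNat (nat_lit 9599144188650942096)]]]]]]]],[[[[[[[[Int.negSucc (nat_lit 12928465260057989963)]]],[[[Int.ofNat (nat_lit 4511933819236623648)]]]],[],[[[[Int.negSucc (nat_lit 10429094390250367787)]]]]],[[[[[Int.negSucc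 (nat_lit 147777956897395102367)]]]]],[[[[[Int.negSucc (nat_lit 8335250954683950131)]]]]]],[[[[[],[[Int.ofNat (nat_lit 5151706285145396616)]]]],[[[[Int.ofNat (nat_lit 104662240194931746576)]]]]]],[[[[[[Int.negSucc (nat_lit 43412072586811748399)]]]]]]],[[[[[[[Int.ofNat (nat_lit 46693686004798086696)]]],[[[Int.negSucc (nat_lit 7912154734536785495)]]]]],[[[[[Int.ofNat (nat_lit 12049228750016976480)]]]]]]],[[[[[[[Int.negSucc (nat_lit 50923931344768406027)]]]]]]]],[[[[[[[],[[Int.ofNat (nat_lit 14577340589419738446)]]]],[[[[Int.negSucc (nat_lit 177418626521769498575)]]]]]],[[[[[[Int.negSucc (nat_lit 18973179489721092335)]]]]]]],[[],[[[[[[Int.ofNat (nat_lit 7853617872677698374)]]]]]]]],[[[[[[[[Int.ofNat (nat_lit 157597303566165562428)]]]]],[[[[[Int.ofNat (nat_lit 27339380385689192832)]]]]]]],[[[[[[[Int.negSucc (nat_lit 57853822215401422319)]]]]]]]],[],[[[[[[[[Int.negSucc (nat_lit 18541063359571952087)]]]]]]]]],[[[[[[[[],[[Int.negSucc (nat_lit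 2103295655393995307)]]]],[[[[Int.negSucc (nat_lit 66716890161995704331)]]]]],[[],[[[[Int.ofNat (nat_lit 3719254773476442750)]]]]]],[[[[[[Int.ofNat (nat_lit 22893090145552746456)]]],[[[Int.ofNat (nat_lit 7027406861491103964)]]]]],[[[[[Int.ofNat (nat_lit 127568679252685481556)]]]]]]],[[[[[[],[[Int.ofNat (nat_lit 1305096109187670084)]]]],[[[[Int.negSucc (nat_lit 106936652113522340177)]]]]]],[[[[[[Int.negSucc (nat_lit 32551023508967511413)]]]]]]]],[[[[[[[[Int.negSucc (nat_lit 48666186211400846735)]]],[[[Int.ofNat (nat_lit 17313548784394417992)]]]]],[[[[[Int.negSucc (nat_lit 187241630880912902237)]]]]]],[],[[[[[[Int.negSucc (nat_lit 7885889697091980671)]]]]]]],[[[[[[[Int.negSucc (nat_lit 160986661477037092001)]]]]]]],[[[[[[[Int.ofNat (nat_lit 969382696216694718)]]]]]]]],[[[[[],[[[[Int.negSucc (nat_lit 50467445730391581095)]]]]]],[[[[[[Int.ofNat (nat_lit 30886990124868397566)]]]]]]]],[[[[[[[[Int.negSucc (nat_lit 20120962936266970037)]]]]]]]]],[[[[[[[[],[[Int.negSucc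 (nat_lit 5750429957680850981)]]]],[[[[Int.negSucc (nat_lit 42312774312547504691)]]]]]],[[[[[[Int.ofNat (nat_lit 107497022099868917472)]]]]]]],[[],[[[[[[Int.ofNat (nat_lit 8594789620670252178)]]]]]]]],[[[[[[[[Int.negSucc (nat_lit 154022565285738219551)]]]]],[[[[[Int.negSucc (nat_lit 35095025621878321331)]]]]]]],[[[[[[[Int.negSucc (nat_lit 98374438611815424611)]]]]]]]],[],[[[[[[[[Int.negSucc (nat_lit 8632257349363982003)]]]]]]]]],[[[[[[],[[[[Int.negSucc (nat_lit 5012587224185357165)]]]]]],[[[[[[Int.ofNat (nat_lit 53428845922731579096)]]]]]]]],[[[[[[[[Int.negSucc (nat_lit 137027409338392331087)]]]]]]]]],[[],[[[[[[[[Int.negSucc (nat_lit 23410943481010470791)]]]]]]]]]]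

/-- A coefficient. -/
noncomputable def sr6_m1_1_2 : MP 10 :=
  [[[[[[[[[[Int.negSucc (nat_lit 160374844681032411599)]]],[[[Int.ofNat (nat_lit 5218824654808857216)]]]],[[[],[[Int.negSucc (nat_lit 1556985256123348655)]]]],[[[[Int.ofNat (nat_lit 72518719279894219152)]]]]],[[[[[Int.negSucc (nat_lit 49034545401393080333)]]],[[[Int.negSucc (nat_lit 10437649309617714431)]]]]],[[[[[Int.ofNat (nat_lit 93926941309801226892)]]]]]],[[[],[[[[Int.negSucc (nat_lit 28440356408552587913)]]]]],[[],[[[[Int.ofNat (nat_lit 2455572048810031440)]]]]]],[[[[[[Int.negSucc (nat_lit 114038842857832587449)]]]]],[[[[[Int.ofNat (nat_lit 127511278453089243540)]]]]]]],[[[[[[[Int.ofNat (nat_lit 27659530568774143026)]]]],[],[[[[Int.ofNat (nat_lit 1657687171444659876)]]]]],[[[[[Int.negSucc (nat_lit 133093151118202436939)]]]]],[[[[[Int.ofNat (nat_lit 9358761917770496544)]]]]]],[[[],[[[[Int.negSucc (nat_lit 21660467368716639047)]]]]]]],[[[[[[[Int.negSucc (nat_lit 66760113911085966353)]]]]],[[[[[Int.negSucc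 (nat_lit 121955185248329321627)]]]]]]]],[[[[[[[],[[Int.ofNat (nat_lit 4152854577350993316)]]]],[[[[Int.negSucc (nat_lit 111851710946145089327)]]],[[[Int.negSucc (nat_lit 13796473001333307575)]]]]],[[[[],[[Int.ofNat (nat_lit 8305709154701986632)]]]],[[[[Int.negSucc (nat_lit 23304861449861718755)]]]]]],[[[[[[Int.negSucc (nat_lit 60003940469604810563)]]]]],[[[[[Int.negSucc (nat_lit 49929378040830367871)]]]]]]],[[[[],[[[[Int.negSucc (nat_lit 114870705164789459795)]]]]]]]],[[[[[[[[Int.negSucc (nat_lit 16915660709769428459)]]],[[[Int.ofNat (nat_lit 5218824654808857216)]]]]],[[[[[Int.ofNat (nat_lit 8160725107546258482)]]]]]],[[[],[[[[Int.ofNat (nat_lit 15940568534102508138)]]]]]],[[[[[[Int.negSucc (nat_lit 63755639226544621769)]]]]]]],[[[[[[[Int.ofNat (nat_lit 54724308581796003804)]]]]],[[[[[Int.negSucc (nat_lit 38084986064153663099)]]]]]]],[[[[[[[Int.ofNat (nat_lit 60977592624164660814)]]]]]]]],[[[[[[[],[[Int.negSucc (nat_lit 4152854577350993315)]]]],[[[[Int.negSucc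 (nat_lit 70866442313339871419)]]]]]],[[[[[[Int.ofNat (nat_lit 24964689020415183936)]]]]]]]],[[[[[[[[Int.negSucc (nat_lit 27562097881223435963)]]]]]]],[[[[[[[Int.ofNat (nat_lit 16702802552634207414)]]]]]]]]],[[[[[[[[[Int.negSucc (nat_lit 217609634843201671655)]]],[[[Int.negSucc (nat_lit 1251115715756803187)]]]],[[[],[[Int.ofNat (nat_lit 3221942115759782700)]]]],[[[[Int.ofNat (nat_lit 19729750228428105264)]]]]],[[[[[Int.ofNat (nat_lit 109199060230283097792)]]],[[[Int.ofNat (nat_lit 2502231431513606376)]]]]],[[[[[Int.negSucc (nat_lit 547313161263465983)]]]]]],[[[],[[[[Int.ofNat (nat_lit 140256647453247463020)]]]]]]],[[[[[[[Int.negSucc (nat_lit 185876965508816733431)]]]]],[[[[[Int.negSucc (nat_lit 52161825485516416031)]]]]]]]],[[[[[[[],[[Int.negSucc (nat_lit 1556985256123348655)]]]],[[[[Int.ofNat (nat_lit 195840112393072081188)]]]]]],[[[[[[Int.negSucc (nat_lit 16342720844877694733)]]]]],[[[[[Int.negSucc (nat_lit 38106946904518183223)]]]]]]],[[[[],[[[[Int.ofNat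 (nat_lit 44902117685841746688)]]]]]],[[[[[[Int.negSucc (nat_lit 21660467368716639047)]]]]]]]],[[[[[[[[Int.negSucc (nat_lit 158625280870589561639)]]],[[[Int.negSucc (nat_lit 15047588717090110763)]]]]],[[[[[Int.negSucc (nat_lit 47966760248369189195)]]]]]]],[[[[[[[Int.negSucc (nat_lit 88789792422031251779)]]]]]]]],[[[],[[[[[[Int.ofNat (nat_lit 36221828010766615470)]]]]]]]],[[[[[[[[Int.negSucc (nat_lit 58398664623770269703)]]]]]]]]],[[[[[[[[[Int.negSucc (nat_lit 183619502355375341609)]]],[[[Int.negSucc (nat_lit 5218824654808857215)]]]]],[[[[[Int.ofNat (nat_lit 97660779425439066498)]]]]]],[[[],[[[[Int.ofNat (nat_lit 62861403932657405046)]]]]]],[[[[[[Int.ofNat (nat_lit 63755639226544621770)]]]]]]],[[[[[[[Int.negSucc (nat_lit 80946249082389176531)]]]]],[[[[[Int.negSucc (nat_lit 11037337020052866803)]]]]]]],[[[[[[[Int.negSucc (nat_lit 60977592624164660813)]]]]]]]],[[[[[[[],[[Int.ofNat (nat_lit 7374796693110776016)]]]],[[[[Int.ofNat (nat_lit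 9295096992824745000)]]]]]],[[[[[[Int.ofNat (nat_lit 115291958432832279084)]]]]]]]],[[[[[[[[Int.ofNat (nat_lit 125534836609132071474)]]]]]]],[[[[[[[Int.ofNat (nat_lit 34399986951231936936)]]]]]]]]],[[[[[[[[[Int.negSucc (nat_lit 36707179430242163201)]]],[[[Int.ofNat (nat_lit 1251115715756803188)]]]]],[[[[[Int.negSucc (nat_lit 11496681352638356819)]]]]]]],[[[[[[[Int.negSucc (nat_lit 26080912742758208015)]]]]]]]],[[[],[[[[[[Int.ofNat (nat_lit 42580144455993297714)]]]]]]]],[[[[[[[[Int.negSucc (nat_lit 17290918539169650065)]]]]]]]]],[[[[[[[[[Int.ofNat (nat_lit 25348654385269226526)]]]]]]],[[[[[[[Int.negSucc (nat_lit 7858358989469057537)]]]]]]]]],[[[[[[[[[Int.negSucc (nat_lit 5611512386003311913)]]]]]]]]]]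

/-- A coefficient. -/
noncomputable def sr6_m1_1_3 : MP 10 :=
  [[[[[[[[[],[[Int.ofNat (nat_lit 336729589199012964)]]]],[[[[Int.ofNat (nat_lit 79457507116989786984)]]],[[[Int.negSucc (nat_lit 82110473604321551)]]]]],[[[[],[[Int.ofNat (nat_lit 673459178398025928)]]]],[[[[Int.ofNat (nat_lit 66063252391449364836)]]]]]],[[[[[[Int.ofNat (nat_lit 98157138709327498260)]]]]],[[[[[Int.ofNat (nat_lit 73051352497397029200)]]]]]],[[[],[[[[Int.ofNat (nat_lit 15220691218819127328)]]]]]]],[[[[],[[[[Int.ofNat (nat_lit 85817377865609777460)]]]]]],[[[[[[Int.ofNat (nat_lit 13695310963144352706)]]]]],[[[[[Int.ofNat (nat_lit 105513507973929225108)]]]]]]],[[[[],[[[[Int.negSucc (nat_lit 54974173315769484563)]]]]]]]],[[[[[[[[Int.ofNat (nat_lit 150680078117252744580)]]]],[],[[[[Int.ofNat (nat_lit 1402338264472563300)]]]]],[[[[[Int.negSucc (nat_lit 203904013792992012323)]]]]],[[[[[Int.negSucc (nat_lit 2289330397075391495)]]]]]],[[[],[[[[Int.negSucc (nat_lit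 95485615183561759583)]]]]]]],[[[[[[[Int.negSucc (nat_lit 76973390819562555533)]]]]],[[[[[Int.negSucc (nat_lit 51483087954587649299)]]]]]]]],[[[[[[[],[[Int.negSucc (nat_lit 336729589199012963)]]]],[[[[Int.negSucc (nat_lit 254303988042897257375)]]]]]],[[[[[[Int.negSucc (nat_lit 36525676248698514599)]]]]]]],[[],[[[[[[Int.negSucc (nat_lit 52756753986964612553)]]]]]]]],[[[[[[[[Int.ofNat (nat_lit 76854174046631229636)]]]]],[[[[[Int.negSucc (nat_lit 14475022210704139547)]]]]]]],[[[[[[[Int.ofNat (nat_lit 25741543977293824650)]]]]]]]],[],[[[[[[[[Int.ofNat (nat_lit 7809843704620917648)]]]]]]]]],[[[[[[],[[[[Int.negSucc (nat_lit 77636169335104450601)]]]]],[[],[[[[Int.ofNat (nat_lit 9242886904266742680)]]]]]],[[[[[[Int.ofNat (nat_lit 62235563447437141572)]]]]],[[[[[Int.ofNat (nat_lit 99323329286137906968)]]]]]]],[[[[],[[[[Int.negSucc (nat_lit 267635029094920369415)]]]]]]]],[[[[[[[[Int.ofNat (nat_lit 131435510186806725018)]]],[[[Int.negSucc (nat_lit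 82110473604321551)]]]]],[[[[[Int.ofNat (nat_lit 220233982905217168056)]]]]]],[],[[[[[[Int.ofNat (nat_lit 15220691218819127328)]]]]]]],[[[[[[[Int.ofNat (nat_lit 85817377865609777460)]]]]]]],[[[[[[[Int.negSucc (nat_lit 54974173315769484563)]]]]]]]],[[[[[],[[[[Int.negSucc (nat_lit 24660493242666122705)]]]]]],[[[[[[Int.negSucc (nat_lit 145147279826630713067)]]]]]]]],[[[[[[[[Int.negSucc (nat_lit 331389353299781158985)]]]]]]]]],[[[[[[[[],[[Int.ofNat (nat_lit 336729589199012964)]]]],[[[[Int.negSucc (nat_lit 107240599079577658715)]]]]]],[[[[[[Int.ofNat (nat_lit 36525676248698514600)]]]]]]],[[],[[[[[[Int.ofNat (nat_lit 52756753986964612554)]]]]]]]],[[[[[[[[Int.negSucc (nat_lit 172246998958041235643)]]]]],[[[[[Int.ofNat (nat_lit 66406003375970079672)]]]]]]],[[[[[[[Int.negSucc (nat_lit 293376573072214194065)]]]]]]]],[],[[[[[[[[Int.negSucc (nat_lit 63026566046880120023)]]]]]]]]],[[[[[[],[[[[Int.negSucc (nat_lit 57165188129171243705)]]]]]],[[[[[[Int.ofNat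 (nat_lit 49661664643068953484)]]]]]]]],[[[[[[[[Int.negSucc (nat_lit 30155233822693757105)]]]]]]]]],[[],[[[[[[[[Int.negSucc (nat_lit 28011297294050727335)]]]]]]]]]]

/-- A coefficient. -/
noncomputable def sr6_m1_1_4 : MP 10 :=
  [[[[[[[[[[Int.negSucc (nat_lit 88039029613089368783)]]],[[[Int.ofNat (nat_lit 1688364596335428000)]]]],[[[],[[Int.negSucc (nat_lit 4148708298267026183)]]]],[[[[Int.negSucc (nat_lit 42819110078504366051)]]]]],[[[[[Int.ofNat (nat_lit 480954297300326199300)]]],[[[Int.negSucc (nat_lit 3376729192670855999)]]]]],[[[[[Int.negSucc (nat_lit 27519337137450737879)]]]]]],[[[],[[[[Int.ofNat (nat_lit 125814744690932573076)]]]]]]],[[[[[[[Int.negSucc (nat_lit 99780274749999647507)]]]]],[[[[[Int.ofNat (nat_lit 194607434991226840488)]]]]]]]],[[[[[],[[[[Int.ofNat (nat_lit 915105013345624807944)]]]]]],[[[[[[Int.ofNat (nat_lit 5558142310893283008)]]]]],[[[[[Int.ofNat (nat_lit 47142952546556147064)]]]]]]],[[[[],[[[[Int.negSucc (nat_lit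 34771251695549008811)]]]]]]]],[[[[[[[[Int.negSucc (nat_lit 467574504867040410485)]]],[[[Int.ofNat (nat_lit 1688364596335428000)]]]]],[[[[[Int.negSucc (nat_lit 264816228712836513359)]]]]]]],[[[[[[[Int.negSucc (nat_lit 97303717495613420243)]]]]]]]],[[[],[[[[[[Int.negSucc (nat_lit 23571476273278073531)]]]]]]]],[[[[[[[[Int.ofNat (nat_lit 139287948640780941150)]]]]]]]]],[[[[[[[[[Int.negSucc (nat_lit 148553886996085858607)]]]]],[[[[[Int.ofNat (nat_lit 252596807957218231440)]]]]]],[[[],[[[[Int.ofNat (nat_lit 94777167413176466280)]]]]]]],[[[[[[[Int.negSucc (nat_lit 67620725078651780309)]]]]],[[[[[Int.ofNat (nat_lit 37538794286868058044)]]]]]]]],[[[[[[[],[[Int.negSucc (nat_lit 4148708298267026183)]]]],[[[[Int.negSucc (nat_lit 55281799881683621999)]]]]]],[[[[[[Int.ofNat (nat_lit 125814744690932573076)]]]]]]]],[[[[[[[[Int.ofNat (nat_lit 788806609367015692224)]]]]]]],[[[[[[[Int.negSucc (nat_lit 53540648838983037833)]]]]]]]]],[[[[[[[[[Int.ofNat (nat_lit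 59601817850739756504)]]],[[[Int.negSucc (nat_lit 1688364596335427999)]]]]],[[[[[Int.ofNat (nat_lit 121096937468427224532)]]]]]]],[[[[[[[Int.ofNat (nat_lit 97303717495613420244)]]]]]]]],[[[],[[[[[[Int.ofNat (nat_lit 118348643686454539812)]]]]]]]],[[[[[[[[Int.negSucc (nat_lit 219178941462536493833)]]]]]]]]],[[[[[[[[[Int.ofNat (nat_lit 126298403978609115720)]]]]]]],[[[[[[[Int.ofNat (nat_lit 18769397143434029022)]]]]]]]]],[[[[[[[[[Int.ofNat (nat_lit 67428303018576296736)]]]]]]]]]]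

/-- A coefficient. -/
noncomputable def sr6_m1_1_5 : MP 10 :=
  [[[[[[[],[[[[Int.negSucc (nat_lit 693947959434530240933)]]]]],[[],[[[[Int.negSucc (nat_lit 41380712793772820771)]]]]]],[[[[[[Int.ofNat (nat_lit 17522739771752473860)]]]]],[[[[[Int.ofNat (nat_lit 64685088039888278136)]]]]]]],[[[[],[[[[Int.negSucc (nat_lit 208962997413702149519)]]]]]]]],[[[[[[[[Int.ofNat (nat_lit 181971179224350569058)]]]]],[[[[[Int.ofNat (nat_lit 367671408941717917068)]]]]]]]],[[[[[],[[[[Int.negSucc (nat_lit 78627461223166205033)]]]]]],[[[[[[Int.negSucc (nat_lit 32342544019944139067)]]]]]]]],[[[[[[[[Int.negSucc (nat_lit 183835704470858958533)]]]]]]]]],[[[[[[],[[[[Int.negSucc (nat_lit 34643734679023919579)]]]]]]]],[[[[[[[[Int.negSucc (nat_lit 736835590028806114079)]]]]],[[[[[Int.negSucc (nat_lit 49364871611542771151)]]]]]]],[[[[[[[Int.negSucc (nat_lit 208962997413702149519)]]]]]]]],[],[[[[[[[[Int.negSucc (nat_lit 74635381814281229843)]]]]]]]]],[[[[[[],[[[[Int.negSucc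 (nat_lit 82518373596383848169)]]]]]],[[[[[[Int.ofNat (nat_lit 32342544019944139068)]]]]]]]],[[[[[[[[Int.ofNat (nat_lit 149191969791835038954)]]]]]]]]],[[],[[[[[[[[Int.negSucc (nat_lit 86510453005268823359)]]]]]]]]]]

/-- A coefficient. -/
noncomputable def sr6_m1_1_6 : MP 10 :=
  [[[[[[[[[[Int.ofNat (nat_lit 160410602391916285440)]]]]],[[[[[Int.negSucc (nat_lit 1011898476196743367415)]]]]]],[[[],[[[[Int.ofNat (nat_lit 32092805276889934356)]]]]]]],[[[[[[[Int.negSucc (nat_lit 32453246431917595115)]]]]],[[[[[Int.negSucc (nat_lit 30384135580122538583)]]]]]]]],[[[[[],[[[[Int.negSucc (nat_lit 573533940813567625655)]]]]]]]],[[[[[[[[Int.ofNat (nat_lit 505949238098371683708)]]]]]]],[[[[[[[Int.ofNat (nat_lit 15192067790061269292)]]]]]]]]],[[[[[[[[[Int.ofNat (nat_lit 35634901129231325022)]]]]],[[[[[Int.negSucc (nat_lit 348814759234820759531)]]]]]]]],[[[],[[[[[[Int.ofNat (nat_lit 32092805276889934356)]]]]]]]],[[[[[[[[Int.negSucc (nat_lit 399126561196157245889)]]]]]]]]],[[[[[[[[[Int.negSucc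 (nat_lit 505949238098371683707)]]]]]]],[[[[[[[Int.negSucc (nat_lit 15192067790061269291)]]]]]]]]],[[[[[[[[[Int.negSucc (nat_lit 174407379617410379765)]]]]]]]]]]

/-- A coefficient. -/
noncomputable def sr6_m1_1_7 : MP 10 :=
  [[[[[[[],[[[[Int.ofNat (nat_lit 811833334357759747272)]]]]]]]],[[[[[[[[Int.negSucc (nat_lit 167841499775904434303)]]]]],[[[[[Int.negSucc (nat_lit 40441535020221820775)]]]]]]]],[],[[[[[[[[Int.ofNat (nat_lit 20220767510110910388)]]]]]]]]],[[[[[[],[[[[Int.negSucc (nat_lit 147719980796426963591)]]]]]]]],[[[[[[[[Int.ofNat (nat_lit 811833334357759747272)]]]]]]]]],[[],[[[[[[[[Int.negSucc (nat_lit 167940748306537873979)]]]]]]]]]]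

/-- A coefficient. -/
noncomputable def sr6_m1_1_8 : MP 10 :=
  [[[[[[[[[[Int.negSucc (nat_lit 90490920637862460245)]]]]],[[[[[Int.ofNat (nat_lit 420777264761246352684)]]]]]]]],[],[[[[[[[[Int.negSucc (nat_lit 210388632380623176341)]]]]]]]]],[],[[[[[[[[[Int.ofNat (nat_lit 210388632380623176342)]]]]]]]]]]

/-- A coefficient. -/
noncomputable def sr6_m1_1_9 : MP 10 :=
  [[[[[[[],[[[[Int.negSucc (nat_lit 320685694679946285323)]]]]]]]]],[[],[[[[[[[[Int.negSucc (nat_lit 320685694679946285323)]]]]]]]]]]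

/-- A coefficient. -/
noncomputable def sr6_m1_2_0 : MP 10 :=
  [[[[[[[[[[Int.ofNat (nat_lit 105714802004366912412)]]],[[[Int.negSucc (nat_lit 368009118689007971)]]]],[[[],[[Int.negSucc (nat_lit 21529458192492491)]]]],[[[[Int.negSucc (nat_lit 53216737474737380447)]]]]],[[[[[Int.negSucc (nat_lit 194783846086058377217)]]],[[[Int.ofNat (nat_lit 736018237378015944)]]]],[],[[[[Int.negSucc (nat_lit 3596036154865420727)]]]]],[[[[[Int.negSucc (nat_lit 27716307330940768499)]]]]],[[[[[Int.negSucc (nat_lit 11150417028820253423)]]]]]],[[[[[],[[Int.negSucc (nat_lit 411491379506590295)]]]],[[[[Int.ofNat (nat_lit 88973777778733532070)]]],[[[Int.ofNat (nat_lit 1323152497093123728)]]]]],[[[[],[[Int.negSucc (nat_lit 822982759013180591)]]]],[[[[Int.ofNat (nat_lit 20742832243576200072)]]]]]],[[[[[[Int.ofNat (nat_lit 56386689591494726214)]]]]],[[[[[Int.ofNat (nat_lit 112773379182989452428)]]]]]]],[[[[[[[Int.negSucc (nat_lit 125095154440189209989)]]],[[[Int.negSucc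 (nat_lit 1441534781314606493)]]]],[[[],[[Int.negSucc (nat_lit 147154790048435759)]]]],[[[[Int.ofNat (nat_lit 6028141766318079036)]]]]],[[[[[Int.ofNat (nat_lit 234843356256305721486)]]],[[[Int.ofNat (nat_lit 2883069562629212988)]]]]],[[[[[Int.ofNat (nat_lit 30693905248145396988)]]]]]],[[[],[[[[Int.negSucc (nat_lit 219159909599330349143)]]]]]]],[[[[[[[Int.ofNat (nat_lit 110280577893481354350)]]]]],[[[[[Int.negSucc (nat_lit 220561155786962708699)]]]]]]]],[[[[[[[],[[Int.negSucc (nat_lit 626294376983888993)]]]],[[[[Int.negSucc (nat_lit 97746031791423745019)]]],[[[Int.ofNat (nat_lit 4033154386315327212)]]]]],[[[[],[[Int.negSucc (nat_lit 1252588753967777987)]]]],[[[[Int.ofNat (nat_lit 7219134845681716752)]]]]]],[[[[[[Int.ofNat (nat_lit 35792377464326454696)]]]]],[[[[[Int.ofNat (nat_lit 37531496510584234872)]]]]]],[[[],[[[[Int.negSucc (nat_lit 3710592499578545495)]]]]]]],[[[[],[[[[Int.negSucc (nat_lit 78779451081280999127)]]]]]],[[[[[[Int.negSucc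 (nat_lit 1808547354899815907)]]]]],[[[[[Int.negSucc (nat_lit 13304098545449502575)]]]]]]],[[[[],[[[[Int.ofNat (nat_lit 7745761583174457900)]]]]]]]],[[[[[[[[Int.ofNat (nat_lit 151465275871306825983)]]],[[[Int.negSucc (nat_lit 368009118689007971)]]]],[],[[[[Int.ofNat (nat_lit 1002760864513919520)]]]]],[[[[[Int.ofNat (nat_lit 253390429237763799048)]]]]],[[[[[Int.ofNat (nat_lit 6685861717407959088)]]]]]],[[[[[],[[Int.ofNat (nat_lit 411491379506590296)]]]],[[[[Int.ofNat (nat_lit 9481482904244503122)]]]]]],[[[[[[Int.negSucc (nat_lit 56386689591494726213)]]]]]]],[[[[[[[Int.negSucc (nat_lit 96555210944413957697)]]],[[[Int.negSucc (nat_lit 1441534781314606493)]]]]],[[[[[Int.negSucc (nat_lit 5100402774754269173)]]]]]]],[[[[[[[Int.ofNat (nat_lit 110280577893481354350)]]]]]]]],[[[[[[[],[[Int.ofNat (nat_lit 626294376983888994)]]]],[[[[Int.ofNat (nat_lit 57147140497585200996)]]]]]],[[[[[[Int.negSucc (nat_lit 18765748255292117435)]]]]]]],[[],[[[[[[Int.ofNat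 (nat_lit 6652049272724751288)]]]]]]]],[[[[[[[[Int.negSucc (nat_lit 108816240903137943425)]]]]],[[[[[Int.negSucc (nat_lit 20222842711810296965)]]]]]]],[[[[[[[Int.negSucc (nat_lit 5123274924659214659)]]]]]]]],[],[[[[[[[[Int.ofNat (nat_lit 9833758055155690389)]]]]]]]]],[[[[[[[[[Int.ofNat (nat_lit 213663175884719514012)]]],[[[Int.negSucc (nat_lit 3344124045082575407)]]]],[[[],[[Int.ofNat (nat_lit 2182494970739449092)]]]],[[[[Int.negSucc (nat_lit 61034101142809355771)]]]]],[[[[[Int.negSucc (nat_lit 409376530236307134299)]]],[[[Int.ofNat (nat_lit 6688248090165150816)]]]]],[[[[[Int.negSucc (nat_lit 35899643066263787447)]]]]]],[[[],[[[[Int.negSucc (nat_lit 83860183311305070803)]]]]]],[[[[[[Int.ofNat (nat_lit 1089349642583837568)]]]]],[[[[[Int.ofNat (nat_lit 2178699285167675136)]]]]]]],[[[[[[[Int.negSucc (nat_lit 5490383572804158143)]]]]],[[[[[Int.ofNat (nat_lit 10980767145608316288)]]]]]],[[[],[[[[Int.negSucc (nat_lit 3223864030154840903)]]]]]]],[[[[[[[Int.negSucc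 (nat_lit 453446371139317691)]]]]],[[[[[Int.ofNat (nat_lit 906892742278635384)]]]]]]]],[[[[[[[],[[Int.negSucc (nat_lit 21529458192492491)]]]],[[[[Int.negSucc (nat_lit 244786063473088011371)]]]]],[[],[[[[Int.negSucc (nat_lit 11215168560820236083)]]]]]],[[[[[[Int.ofNat (nat_lit 116178990735262318194)]]],[[[Int.ofNat (nat_lit 1323152497093123728)]]]]],[[[[[Int.ofNat (nat_lit 39861325146236909088)]]]]]]],[[[[[[],[[Int.negSucc (nat_lit 147154790048435759)]]]],[[[[Int.negSucc (nat_lit 22266834511591391207)]]]]]],[[[[[[Int.negSucc (nat_lit 219159909599330349143)]]]]]]]],[[[[[[[[Int.ofNat (nat_lit 148989136203365618124)]]],[[[Int.ofNat (nat_lit 689030341232751804)]]]]],[[[[[Int.ofNat (nat_lit 163949063346757883028)]]]]]],[],[[[[[[Int.negSucc (nat_lit 4799942142162383063)]]]]]]],[[[[[[[Int.negSucc (nat_lit 84269834654085157271)]]]]]]],[[[[[[[Int.ofNat (nat_lit 7292315212035140208)]]]]]]]],[[[[[],[[[[Int.ofNat (nat_lit 22324477916294505300)]]]]]],[[[[[[Int.negSucc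 (nat_lit 77763547085851385)]]]]]]]],[[[[[[[[Int.negSucc (nat_lit 12242912986386935279)]]]]]]]]],[[[[[[[[[Int.ofNat (nat_lit 92412385184806487532)]]],[[[Int.ofNat (nat_lit 368009118689007972)]]]],[],[[[[Int.negSucc (nat_lit 13809363450371613311)]]]]],[[[[[Int.negSucc (nat_lit 406134077304021021827)]]]]],[[[[[Int.negSucc (nat_lit 19107318508412578043)]]]]]],[[[[[],[[Int.negSucc (nat_lit 411491379506590295)]]]],[[[[Int.negSucc (nat_lit 46959841908518673977)]]]]]],[[[[[[Int.ofNat (nat_lit 56386689591494726214)]]]]]]],[[[[[[[Int.ofNat (nat_lit 150302601198224505642)]]],[[[Int.ofNat (nat_lit 1441534781314606494)]]]]],[[[[[Int.negSucc (nat_lit 35067940891997892809)]]]]]]],[[[[[[[Int.negSucc (nat_lit 110280577893481354349)]]]]]]]],[[[[[[[],[[Int.ofNat (nat_lit 1556200593755560098)]]]],[[[[Int.negSucc (nat_lit 191727093780618365411)]]]]]],[[[[[[Int.negSucc (nat_lit 65094435056012953367)]]]]]]],[[],[[[[[[Int.negSucc (nat_lit 9875913302879592191)]]]]]]]],[[[[[[[[Int.ofNat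 (nat_lit 142549368905394570591)]]]]],[[[[[Int.ofNat (nat_lit 27524369688110188410)]]]]]]],[[[[[[[Int.ofNat (nat_lit 2035745404785040068)]]]]]]]],[],[[[[[[[[Int.negSucc (nat_lit 2423101251157535564)]]]]]]]]],[[[[[[[[[Int.negSucc (nat_lit 136830890535615052625)]]],[[[Int.ofNat (nat_lit 3344124045082575408)]]]]],[[[[[Int.negSucc (nat_lit 171614392231340816495)]]]]]],[],[[[[[[Int.ofNat (nat_lit 1089349642583837568)]]]]]]],[[[[[[[Int.ofNat (nat_lit 5490383572804158144)]]]]]]],[[[[[[[Int.ofNat (nat_lit 453446371139317692)]]]]]]]],[[[[[],[[[[Int.negSucc (nat_lit 48282395677532711663)]]]]]],[[[[[[Int.negSucc (nat_lit 37400595457188319469)]]]]]]]],[[[[[[[[Int.ofNat (nat_lit 15529346195267588022)]]]]]]]]],[[[[[[[[[Int.negSucc (nat_lit 183177240203974465943)]]]]],[[[[[Int.negSucc (nat_lit 36665948967399093665)]]]]]]],[[[[[[[Int.negSucc (nat_lit 25207446758035295651)]]]]]]]],[],[[[[[[[[Int.negSucc (nat_lit 5612024994179733395)]]]]]]]]],[[[[[[[[[Int.negSucc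 (nat_lit 76832285349104461385)]]]]]]]]],[[[[[[[[[Int.negSucc (nat_lit 14949946985198933999)]]]]]]]]]]

/-- A coefficient. -/
noncomputable def sr6_m1_2_1 : MP 10 :=
  [[[[[[[[[],[[Int.ofNat (nat_lit 13382691712522680594)]]]],[[[[Int.ofNat (nat_lit 8324889648293120538)]]],[[[Int.negSucc (nat_lit 25234381482599494067)]]]]],[[[[],[[Int.ofNat (nat_lit 26765383425045361188)]]]],[[[[Int.negSucc (nat_lit 56078803338989171039)]]]]]],[[[[[[Int.negSucc (nat_lit 50315076138633500963)]]]],[],[[[[Int.negSucc (nat_lit 27842867184294341459)]]]]],[[[[[Int.negSucc (nat_lit 175623028382091531575)]]]]],[[[[[Int.negSucc (nat_lit 58253775206211255191)]]]]]],[[[],[[[[Int.ofNat (nat_lit 70015117354727488644)]]]]]]],[[[[],[[[[Int.ofNat (nat_lit 224828798222445128988)]]]]],[[],[[[[Int.ofNat (nat_lit 11240940922180860780)]]]]]],[[[[[[Int.negSucc (nat_lit 124548955007620323293)]]]]],[[[[[Int.ofNat (nat_lit 175469520565483981620)]]]]]]],[[[[],[[[[Int.ofNat (nat_lit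 21758156735660249196)]]]]]]]],[[[[[[[[Int.ofNat (nat_lit 5908325866944790998)]]],[[[Int.ofNat (nat_lit 7920389980953481776)]]]],[[[],[[Int.negSucc (nat_lit 6893727360475528943)]]]],[[[[Int.ofNat (nat_lit 23901895015632708036)]]]]],[[[[[Int.ofNat (nat_lit 46143177423862533492)]]],[[[Int.negSucc (nat_lit 15840779961906963551)]]]]],[[[[[Int.negSucc (nat_lit 10444257957930453839)]]]]]],[[[],[[[[Int.negSucc (nat_lit 47166592572876438239)]]]]]]],[[[[[[[Int.negSucc (nat_lit 63569093859752943365)]]]]],[[[[[Int.negSucc (nat_lit 113971595101554981659)]]]]]]]],[[[[[[[],[[Int.negSucc (nat_lit 13382691712522680593)]]]],[[[[Int.negSucc (nat_lit 70599232428888609017)]]]]]],[[[[[[Int.ofNat (nat_lit 63141342028822198650)]]]]],[[[[[Int.ofNat (nat_lit 94345862055014304480)]]]]]]],[[[[],[[[[Int.ofNat (nat_lit 264288381424680408)]]]]]],[[[[[[Int.negSucc (nat_lit 87734760282741990809)]]]]]]]],[[[[[[[[Int.negSucc (nat_lit 10930996812401044529)]]],[[[Int.ofNat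 (nat_lit 7920389980953481776)]]]]],[[[[[Int.negSucc (nat_lit 70765650397501248119)]]]]]]],[[[[[[[Int.ofNat (nat_lit 56985797550777490830)]]]]]]]],[[[],[[[[[[Int.negSucc (nat_lit 32609487225954338441)]]]]]]]],[[[[[[[[Int.ofNat (nat_lit 37993889688233237520)]]]]]]]]],[[[[[[[[],[[Int.ofNat (nat_lit 7524901938744186972)]]]],[[[[Int.ofNat (nat_lit 59533053469738632378)]]],[[[Int.negSucc (nat_lit 12151405494260578943)]]]]],[[[[],[[Int.ofNat (nat_lit 15049803877488373944)]]]],[[[[Int.negSucc (nat_lit 28458669101046522551)]]]]]],[[[[[[Int.negSucc (nat_lit 104400744244801192151)]]]]],[[[[[Int.negSucc (nat_lit 298182860119866642479)]]]]]]],[[[[],[[[[Int.ofNat (nat_lit 431974501045082115360)]]]]]]]],[[[[[[[[Int.ofNat (nat_lit 201483806442717583674)]]],[[[Int.negSucc (nat_lit 25234381482599494067)]]]]],[[[[[Int.ofNat (nat_lit 307675521409976111496)]]]]]],[[[],[[[[Int.negSucc (nat_lit 116547514088736501719)]]]]]],[[[[[[Int.ofNat (nat_lit 70015117354727488644)]]]]]]],[[[[[[[Int.ofNat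 (nat_lit 214847600941857828078)]]]]],[[[[[Int.ofNat (nat_lit 8072370192141797688)]]]]]]],[[[[[[[Int.ofNat (nat_lit 21758156735660249196)]]]]]]]],[[[[[[[],[[Int.negSucc (nat_lit 14418629299219715915)]]]],[[[[Int.ofNat (nat_lit 153397128778732422990)]]]]]],[[[[[[Int.ofNat (nat_lit 101924837487056883000)]]]]]]]],[[[[[[[[Int.negSucc (nat_lit 252476394803371250285)]]]]]]],[[[[[[[Int.ofNat (nat_lit 1848573746444211954)]]]]]]]]],[[[[[[[[],[[Int.ofNat (nat_lit 13382691712522680594)]]]],[[[[Int.ofNat (nat_lit 189339392705433181950)]]]]]],[[[[[[Int.negSucc (nat_lit 112667517563862059663)]]]]],[[[[[Int.negSucc (nat_lit 99153944307574623539)]]]]]]],[[[[],[[[[Int.ofNat (nat_lit 70161315698826965256)]]]]]],[[[[[[Int.ofNat (nat_lit 87734760282741990810)]]]]]]]],[[[[[[[[Int.ofNat (nat_lit 138497355303391812942)]]],[[[Int.negSucc (nat_lit 20071795475214060719)]]]]],[[[[[Int.ofNat (nat_lit 65796582725252681988)]]]]]]],[[[[[[[Int.ofNat (nat_lit 374988703494304624530)]]]]]]]],[[[],[[[[[[Int.negSucc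 (nat_lit 21081631326253323845)]]]]]]]],[[[[[[[[Int.ofNat (nat_lit 41762653672234261704)]]]]]]]]],[[[[[[[[],[[Int.ofNat (nat_lit 7524901938744186972)]]]],[[[[Int.ofNat (nat_lit 72298138600053862578)]]]]]],[[[[[[Int.negSucc (nat_lit 149091430059933321239)]]]]]]]],[[[[[[[[Int.ofNat (nat_lit 371216555079915823218)]]]]]]],[[[[[[[Int.ofNat (nat_lit 68577030333807433710)]]]]]]]]],[[[[],[[[[[[Int.negSucc (nat_lit 35013528352234497971)]]]]]]]],[[[[[[[[Int.ofNat (nat_lit 122036829002686078308)]]]]]]]]]]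

/-- A coefficient. -/
noncomputable def sr6_m1_2_2 : MP 10 :=
  [[[[[[[[[[Int.ofNat (nat_lit 325948239910708222167)]]],[[[Int.negSucc (nat_lit 3559425410850465923)]]]],[[[],[[Int.ofNat (nat_lit 2621006808290585904)]]]],[[[[Int.negSucc (nat_lit 12730908370266389303)]]]]],[[[[[Int.ofNat (nat_lit 265807634850853505364)]]],[[[Int.ofNat (nat_lit 7118850821700931848)]]]]],[[[[[Int.ofNat (nat_lit 62474884501729335612)]]]]]],[[[],[[[[Int.negSucc (nat_lit 310466209254197373143)]]]]]],[[[[[[Int.ofNat (nat_lit 94723926878805879096)]]]]],[[[[[Int.negSucc (nat_lit 123734358250362951983)]]]]]]],[[[[[[[Int.ofNat (nat_lit 303658546876890536442)]]]]],[[[[[Int.ofNat (nat_lit 26030384695463499636)]]]]]],[[[],[[[[Int.ofNat (nat_lit 36022516423782772020)]]]]]]],[[[[[[[Int.ofNat (nat_lit 71054595599604041043)]]]]],[[[[[Int.ofNat (nat_lit 81696920508988822446)]]]]]]]],[[[[[],[[[[Int.ofNat (nat_lit 364518291874035635016)]]]]],[[],[[[[Int.ofNat (nat_lit 38039035880594434788)]]]]]],[[[[[[Int.ofNat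 (nat_lit 208146191264892213108)]]]]],[[[[[Int.negSucc (nat_lit 247352952518319577271)]]]]]]],[[[[],[[[[Int.ofNat (nat_lit 381209866873338738060)]]]]]]]],[[[[[[[[Int.ofNat (nat_lit 152049803132769720840)]]],[[[Int.negSucc (nat_lit 3559425410850465923)]]]]],[[[[[Int.negSucc (nat_lit 796676104793972837315)]]]]]],[],[[[[[[Int.ofNat (nat_lit 61867179125181475992)]]]]]]],[[[[[[[Int.negSucc (nat_lit 13015192347731749817)]]]]]]],[[[[[[[Int.negSucc (nat_lit 40848460254494411222)]]]]]]]],[[[[[],[[[[Int.ofNat (nat_lit 44790062926720263012)]]]]]],[[[[[[Int.ofNat (nat_lit 123676476259159788636)]]]]]]]],[[[[[[[[Int.ofNat (nat_lit 382719331271554084755)]]]]]]]]],[[[[[[[[[Int.ofNat (nat_lit 465432421706732881002)]]]],[],[[[[Int.negSucc (nat_lit 14107253829757360163)]]]]],[[[[[Int.ofNat (nat_lit 661868188977436304334)]]]]],[[[[[Int.negSucc (nat_lit 9667671777108228011)]]]]]],[[[],[[[[Int.negSucc (nat_lit 283584048681480924875)]]]]]]],[[[[[[[Int.ofNat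 (nat_lit 258019930295283255270)]]]]],[[[[[Int.ofNat (nat_lit 17697158025782671068)]]]]]]]],[[[[[[[],[[Int.ofNat (nat_lit 2621006808290585904)]]]],[[[[Int.ofNat (nat_lit 23207130270880169172)]]]]]],[[[[[[Int.negSucc (nat_lit 310466209254197373143)]]]]]]],[[],[[[[[[Int.ofNat (nat_lit 36022516423782772020)]]]]]]]],[[[[[[[[Int.ofNat (nat_lit 839084942939730036)]]]]],[[[[[Int.ofNat (nat_lit 95080206707695576974)]]]]]]],[[[[[[[Int.ofNat (nat_lit 372361287860447402526)]]]]]]]],[],[[[[[[[[Int.ofNat (nat_lit 18686395457446748922)]]]]]]]]],[[[[[[[[[Int.ofNat (nat_lit 574179694504007164050)]]],[[[Int.ofNat (nat_lit 3559425410850465924)]]]]],[[[[[Int.ofNat (nat_lit 432405921501278171316)]]]]]],[],[[[[[[Int.negSucc (nat_lit 61867179125181475991)]]]]]]],[[[[[[[Int.ofNat (nat_lit 13015192347731749818)]]]]]]],[[[[[[[Int.ofNat (nat_lit 40848460254494411223)]]]]]]]],[[[[[],[[[[Int.negSucc (nat_lit 48696930169138582583)]]]]]],[[[[[[Int.negSucc (nat_lit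 407260524940640713511)]]]]]]]],[[[[[[[[Int.negSucc (nat_lit 547365532255614278033)]]]]]]]]],[[[[[[[[[Int.ofNat (nat_lit 365373051342661941660)]]]]],[[[[[Int.negSucc (nat_lit 34917920954304087857)]]]]]]],[[[[[[[Int.ofNat (nat_lit 8848579012891335534)]]]]]]]],[],[[[[[[[[Int.ofNat (nat_lit 6556033662767278596)]]]]]]]]],[[[[[[[[[Int.ofNat (nat_lit 200584239625206751755)]]]]]]]]],[[[[[[[[[Int.negSucc (nat_lit 15042042532874986925)]]]]]]]]]]

/-- A coefficient. -/
noncomputable def sr6_m1_2_3 : MP 10 :=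
  [[[[[[[[[],[[Int.negSucc (nat_lit 6212510452058038007)]]]],[[[[Int.negSucc (nat_lit 335447727915136693475)]]],[[[Int.ofNat (nat_lit 16697987571314257140)]]]]],[[[[],[[Int.negSucc (nat_lit 12425020904116076015)]]]],[[[[Int.ofNat (nat_lit 26217668233885074780)]]]]]],[[[[[[Int.negSucc (nat_lit 199744456112621802419)]]]]],[[[[[Int.ofNat (nat_lit 74983619119852283088)]]]]]]],[[[[],[[[[Int.negSucc (nat_lit 109704264918504398795)]]]]]]]],[[[[[[[[Int.negSucc (nat_lit 673980154782901954157)]]]]],[[[[[Int.ofNat (nat_lit 1205838324422651525916)]]]]]],[[[],[[[[Int.ofNat (nat_lit 58921509381179593596)]]]]]]],[[[[[[[Int.ofNat (nat_lit 83651201878649810730)]]]]],[[[[[Int.ofNat (nat_lit 12826239346482231876)]]]]]]]],[[[[[[[],[[Int.ofNat (nat_lit 6212510452058038008)]]]],[[[[Int.ofNat (nat_lit 767150293969647721272)]]]]]],[[[[[[Int.negSucc (nat_lit 37491809559926141543)]]]]]]]],[[[[[[[[Int.negSucc (nat_lit 602919162211325762957)]]]]]]],[[[[[[[Int.negSucc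 (nat_lit 6413119673241115937)]]]]]]]]],[[[[[[],[[[[Int.negSucc (nat_lit 93683362750395092543)]]]]]],[[[[[[Int.negSucc (nat_lit 12285618344665057721)]]]]],[[[[[Int.negSucc (nat_lit 29929522787199417611)]]]]]]],[[[[],[[[[Int.ofNat (nat_lit 171010057014752591568)]]]]]]]],[[[[[[[[Int.negSucc (nat_lit 333800846659683958349)]]],[[[Int.ofNat (nat_lit 16697987571314257140)]]]]],[[[[[Int.negSucc (nat_lit 805133516112831162263)]]]]]]],[[[[[[[Int.negSucc (nat_lit 109704264918504398795)]]]]]]]],[[[],[[[[[[Int.ofNat (nat_lit 73886270774779302402)]]]]]]]],[[[[[[[[Int.ofNat (nat_lit 1182825886143005839794)]]]]]]]]],[[[[[[[[],[[Int.negSucc (nat_lit 6212510452058038007)]]]],[[[[Int.ofNat (nat_lit 260894342932359886752)]]]]]],[[[[[[Int.ofNat (nat_lit 37491809559926141544)]]]]]]]],[[[[[[[[Int.ofNat (nat_lit 509235799460930670414)]]]]]]],[[[[[[[Int.ofNat (nat_lit 177423176687993707506)]]]]]]]]],[[[[],[[[[[[Int.negSucc (nat_lit 14964761393599708805)]]]]]]]],[[[[[[[[Int.negSucc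 (nat_lit 154781249240998231769)]]]]]]]]]]

/-- A coefficient. -/
noncomputable def sr6_m1_2_4 : MP 10 :=
  [[[[[[[[[[Int.ofNat (nat_lit 52292414420324403867)]]]],[],[[[[Int.ofNat (nat_lit 27033983042193993036)]]]]],[[[[[Int.negSucc (nat_lit 718083314452998791585)]]]]],[[[[[Int.negSucc (nat_lit 3144296579458383887)]]]]]],[[[],[[[[Int.ofNat (nat_lit 38883978812834365260)]]]]]]],[[[[[[[Int.ofNat (nat_lit 69964808800155933552)]]]]],[[[[[Int.negSucc (nat_lit 40054033574366432279)]]]]]]]],[[[[[],[[[[Int.negSucc (nat_lit 1021971481323670190819)]]]]]]]],[[[[[[[[Int.ofNat (nat_lit 641546367040096693335)]]]]],[[[[[Int.ofNat (nat_lit 253555779916164507528)]]]]]]],[[[[[[[Int.ofNat (nat_lit 20027016787183216140)]]]]]]]],[],[[[[[[[[Int.negSucc (nat_lit 125991815813217657791)]]]]]]]]],[[[[[[[[[Int.ofNat (nat_lit 17081353920879583716)]]]]],[[[[[Int.ofNat (nat_lit 426825034412366588952)]]]]]]]],[[[[[],[[[[Int.ofNat (nat_lit 147721808656052060256)]]]]]],[[[[[[Int.ofNat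 (nat_lit 38883978812834365260)]]]]]]]],[[[[[[[[Int.negSucc (nat_lit 1235383998529853485295)]]]]]]]]],[[[[[[[[[Int.negSucc (nat_lit 206414525633218901288)]]]]],[[[[[Int.negSucc (nat_lit 191503198520949912179)]]]]]]],[[[[[[[Int.negSucc (nat_lit 20027016787183216139)]]]]]]]],[],[[[[[[[[Int.ofNat (nat_lit 341645166542686085130)]]]]]]]]],[[[[[[[[[Int.ofNat (nat_lit 213412517206183294476)]]]]]]]]],[[[[[[[[[Int.negSucc (nat_lit 94965525115610360117)]]]]]]]]]]

/-- A coefficient. -/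
noncomputable def sr6_m1_2_5 : MP 10 :=
  [[[[[[[],[[[[Int.ofNat (nat_lit 282983465045926168332)]]]]]],[[[[[[Int.ofNat (nat_lit 56024394969687255480)]]]]],[[[[[Int.negSucc (nat_lit 16470646395576085247)]]]]]]],[[[[],[[[[Int.ofNat (nat_lit 154824276988690898808)]]]]]]]],[[[[[[[[Int.ofNat (nat_lit 250978022596960200936)]]]]],[[[[[Int.negSucc (nat_lit 324891674055848597567)]]]]]]]],[[[],[[[[[[Int.ofNat (nat_lit 8235323197788042624)]]]]]]]],[[[[[[[[Int.ofNat (nat_lit 162445837027924298784)]]]]]]]]],[[[[[[],[[[[Int.ofNat (nat_lit 164964870721925910900)]]]]]]]],[[[[[[[[Int.ofNat (nat_lit 282983465045926168332)]]]]]]],[[[[[[[Int.ofNat (nat_lit 154824276988690898808)]]]]]]]]],[[[[],[[[[[[Int.negSucc (nat_lit 8235323197788042623)]]]]]]]],[[[[[[[[Int.ofNat (nat_lit 2519033694001612116)]]]]]]]]]]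

/-- A coefficient. -/
noncomputable def sr6_m1_2_6 : MP 10 :=
  [[[[[[[[[[Int.negSucc (nat_lit 379677612274207653158)]]]]],[[[[[Int.ofNat (nat_lit 1008324167596321634418)]]]]]]]],[[[[[],[[[[Int.ofNat (nat_lit 500436101196667815240)]]]]]]]],[[[[[[[[Int.negSucc (nat_lit 504162083798160817208)]]]]]]]]],[[[[[[[[[Int.negSucc (nat_lit 82845198287025311921)]]]]],[[[[[Int.negSucc (nat_lit 218250396387241475027)]]]]]]]],[],[[[[[[[[Int.ofNat (nat_lit 609561299390288552754)]]]]]]]]],[[[[[[[[[Int.ofNat (nat_lit 504162083798160817209)]]]]]]]]],[[[[[[[[[Int.negSucc (nat_lit 109125198193620737513)]]]]]]]]]]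

/-- A coefficient. -/
noncomputable def sr6_m1_2_7 : MP 10 :=
  [[[[[[[],[[[[Int.ofNat (nat_lit 65978044871694587592)]]]]]]]]],[[],[[[[[[[[Int.ofNat (nat_lit 65978044871694587592)]]]]]]]]]]

/-- A coefficient. -/
noncomputable def sr6_m1_2_8 : MP 10 :=
  [[[[[[[[[[Int.ofNat (nat_lit 348228700817802266826)]]]]],[[[[[Int.negSucc (nat_lit 514820237708692606139)]]]]]]]],[],[[[[[[[[Int.ofNat (nat_lit 257410118854346303070)]]]]]]]]],[],[[[[[[[[[Int.negSucc (nat_lit 257410118854346303069)]]]]]]]]]]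

/-- A coefficient. -/
noncomputable def sr6_m1_3_0 : MP 10 :=
  [[[[[[[[[[Int.negSucc (nat_lit 155604952512773997977)]]],[[[Int.ofNat (nat_lit 9421866209150546940)]]]],[[[],[[Int.negSucc (nat_lit 11117409123178810235)]]]],[[[[Int.ofNat (nat_lit 21354166591534930692)]]]]],[[[[[Int.ofNat (nat_lit 321738984048799662846)]]],[[[Int.negSucc (nat_lit 18843732418301093879)]]]]],[[[[[Int.negSucc (nat_lit 21058158046503333779)]]]]]],[[[],[[[[Int.ofNat (nat_lit 19725410454611432976)]]]]],[[],[[[[Int.negSucc (nat_lit 12517016479941257291)]]]]]],[[[[[[Int.negSucc (nat_lit 49006480943434780331)]]]]],[[[[[Int.negSucc (nat_lit 98012961886869560663)]]]]]]],[[[[[[[Int.ofNat (nat_lit 28046644590449872626)]]]],[],[[[[Int.negSucc (nat_lit 591928999757621603)]]]]],[[[[[Int.negSucc (nat_lit 49141185855378048995)]]]]],[[[[[Int.negSucc (nat_lit 13904206651043392511)]]]]]],[[[],[[[[Int.ofNat (nat_lit 189800977189540094940)]]]]]]],[[[[[[[Int.negSucc (nat_lit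 100318116093228509201)]]]]],[[[[[Int.ofNat (nat_lit 200636232186457018404)]]]]]]]],[[[[[[[],[[Int.ofNat (nat_lit 2135349873229801242)]]]],[[[[Int.negSucc (nat_lit 49752057297454691123)]]],[[[Int.negSucc (nat_lit 6190802464121576087)]]]]],[[[[],[[Int.ofNat (nat_lit 4270699746459602484)]]]],[[[[Int.ofNat (nat_lit 9840774954655416000)]]]]]],[[[[[[Int.negSucc (nat_lit 67311266160565873535)]]]]],[[[[[Int.negSucc (nat_lit 64458603119472242975)]]]]]]],[[[[],[[[[Int.ofNat (nat_lit 216325159799376997104)]]]]]]]],[[[[[[[[Int.negSucc (nat_lit 173802722305478330495)]]],[[[Int.ofNat (nat_lit 9421866209150546940)]]]]],[[[[[Int.negSucc (nat_lit 115829958456548803049)]]]]]],[[[],[[[[Int.negSucc (nat_lit 7489275663414067139)]]]]]],[[[[[[Int.ofNat (nat_lit 49006480943434780332)]]]]]]],[[[[[[[Int.ofNat (nat_lit 6019756613620461744)]]]]],[[[[[Int.negSucc (nat_lit 18554140113148373147)]]]]]]],[[[[[[[Int.negSucc (nat_lit 100318116093228509201)]]]]]]]],[[[[[[[],[[Int.negSucc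 (nat_lit 2135349873229801241)]]]],[[[[Int.negSucc (nat_lit 18631877924052286991)]]]]]],[[[[[[Int.ofNat (nat_lit 32229301559736121488)]]]]]]]],[[[[[[[[Int.ofNat (nat_lit 63179518739900234970)]]]]]]],[[[[[[[Int.ofNat (nat_lit 12753121719335034702)]]]]]]]]],[[[[[[[[[Int.negSucc (nat_lit 215034791689952440979)]]],[[[Int.ofNat (nat_lit 4046241659292606570)]]]],[[[],[[Int.negSucc (nat_lit 3817909250224106879)]]]],[[[[Int.negSucc (nat_lit 9057243381838245167)]]]]],[[[[[Int.ofNat (nat_lit 456914529011647849956)]]],[[[Int.negSucc (nat_lit 8092483318585213139)]]]]],[[[[[Int.negSucc (nat_lit 53689891263485935991)]]]]]],[[[],[[[[Int.ofNat (nat_lit 164796600995576704104)]]]]]]],[[[[[[[Int.negSucc (nat_lit 150591155777101880411)]]]]],[[[[[Int.ofNat (nat_lit 301182311554203760824)]]]]]]]],[[[[[[[],[[Int.negSucc (nat_lit 11117409123178810235)]]]],[[[[Int.negSucc (nat_lit 43282488941243034611)]]]]]],[[[[[[Int.negSucc (nat_lit 1427666376266283311)]]]]],[[[[[Int.negSucc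 (nat_lit 24716322355441950947)]]]]]]],[[[[],[[[[Int.ofNat (nat_lit 45607209920654277144)]]]]]],[[[[[[Int.ofNat (nat_lit 189800977189540094940)]]]]]]]],[[[[[[[[Int.negSucc (nat_lit 254801617966940144945)]]],[[[Int.negSucc (nat_lit 2144560804828969517)]]]]],[[[[[Int.ofNat (nat_lit 95210331013124177472)]]]]]]],[[[[[[[Int.ofNat (nat_lit 65734004022275116692)]]]]]]]],[[[],[[[[[[Int.negSucc (nat_lit 1389622725663720311)]]]]]]]],[[[[[[[[Int.negSucc (nat_lit 47894183137415183729)]]]]]]]]],[[[[[[[[[Int.ofNat (nat_lit 30013529936038434840)]]],[[[Int.negSucc (nat_lit 9421866209150546939)]]]]],[[[[[Int.ofNat (nat_lit 240653766130219459386)]]]]]],[[[],[[[[Int.ofNat (nat_lit 19081393305671072112)]]]]]],[[[[[[Int.negSucc (nat_lit 49006480943434780331)]]]]]]],[[[[[[[Int.negSucc (nat_lit 50023774204885758203)]]]]],[[[[[Int.ofNat (nat_lit 37002155903350074900)]]]]]]],[[[[[[[Int.ofNat (nat_lit 100318116093228509202)]]]]]]]],[[[[[[[],[[Int.negSucc (nat_lit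 1682559376994305637)]]]],[[[[Int.negSucc (nat_lit 73053049482685442231)]]]]]],[[[[[[Int.ofNat (nat_lit 132567299435840582616)]]]]]]]],[[[[[[[[Int.negSucc (nat_lit 253407596849413763411)]]]]]]],[[[[[[[Int.ofNat (nat_lit 11468887586640978468)]]]]]]]]],[[[[[[[[[Int.ofNat (nat_lit 211658462871115165140)]]],[[[Int.negSucc (nat_lit 4046241659292606569)]]]]],[[[[[Int.negSucc (nat_lit 20092287994068416315)]]]]]]],[[[[[[[Int.ofNat (nat_lit 150591155777101880412)]]]]]]]],[[[],[[[[[[Int.ofNat (nat_lit 12981740367920725284)]]]]]]]],[[[[[[[[Int.negSucc (nat_lit 38109829706321576165)]]]]]]]]],[[[[[[[[[Int.ofNat (nat_lit 125591422576735563138)]]]]]]],[[[[[[[Int.ofNat (nat_lit 21977129614435885578)]]]]]]]]],[[[[[[[[[Int.ofNat (nat_lit 3376328818837275840)]]]]]]]]]]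

/-- A coefficient. -/
noncomputable def sr6_m1_3_1 : MP 10 :=
  [[[[[[[[[],[[Int.ofNat (nat_lit 226025978722405110)]]]],[[[[Int.ofNat (nat_lit 2924947725933095982)]]],[[[Int.negSucc (nat_lit 6558881587428158711)]]]]],[[[[],[[Int.ofNat (nat_lit 452051957444810220)]]]],[[[[Int.ofNat (nat_lit 4679257545141718140)]]]]]],[[[[[[Int.ofNat (nat_lit 185872626235969464612)]]]]],[[[[[Int.ofNat (nat_lit 84478575356808563712)]]]]]],[[[],[[[[Int.negSucc (nat_lit 20263515912930297599)]]]]]]],[[[[],[[[[Int.negSucc (nat_lit 267179871910075428359)]]]]]],[[[[[[Int.ofNat (nat_lit 43339553939981945940)]]]]],[[[[[Int.negSucc (nat_lit 72026108408613480047)]]]]]]],[[[[],[[[[Int.negSucc (nat_lit 30407613396690960683)]]]]]]]],[[[[[[[[Int.ofNat (nat_lit 91269421418097701868)]]]],[],[[[[Int.ofNat (nat_lit 19921358599311134016)]]]]],[[[[[Int.negSucc (nat_lit 115346002976414957633)]]]]],[[[[[Int.ofNat (nat_lit 89354726069432257236)]]]]]],[[[],[[[[Int.negSucc (nat_lit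 104340536341268654951)]]]]]]],[[[[[[[Int.ofNat (nat_lit 114948108655786879206)]]]]],[[[[[Int.ofNat (nat_lit 38882230185711495276)]]]]]]]],[[[[[[[],[[Int.negSucc (nat_lit 226025978722405109)]]]],[[[[Int.ofNat (nat_lit 375994304342432447910)]]]]]],[[[[[[Int.negSucc (nat_lit 42239287678404281855)]]]]]]],[[],[[[[[[Int.ofNat (nat_lit 36013054204306740024)]]]]]]]],[[[[[[[[Int.ofNat (nat_lit 42219584200472462670)]]]]],[[[[[Int.negSucc (nat_lit 22340602543513233173)]]]]]]],[[[[[[[Int.negSucc (nat_lit 19441115092855747637)]]]]]]]],[],[[[[[[[[Int.negSucc (nat_lit 11168380245601447721)]]]]]]]]],[[[[[[],[[[[Int.negSucc (nat_lit 349074085559690982821)]]]]],[[],[[[[Int.negSucc (nat_lit 1426080278427394763)]]]]]],[[[[[[Int.ofNat (nat_lit 179329826223175733730)]]]]],[[[[[Int.negSucc (nat_lit 108019613238773601491)]]]]]]],[[[[],[[[[Int.negSucc (nat_lit 151643274504691950311)]]]]]]]],[[[[[[[[Int.negSucc (nat_lit 64089741319029451727)]]],[[[Int.negSucc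 (nat_lit 6558881587428158711)]]]]],[[[[[Int.negSucc (nat_lit 90821614488655086695)]]]]]],[],[[[[[[Int.negSucc (nat_lit 20263515912930297599)]]]]]]],[[[[[[[Int.negSucc (nat_lit 267179871910075428359)]]]]]]],[[[[[[[Int.negSucc (nat_lit 30407613396690960683)]]]]]]]],[[[[[],[[[[Int.ofNat (nat_lit 17238880499444372502)]]]]]],[[[[[[Int.negSucc (nat_lit 50330729721881854205)]]]]]]]],[[[[[[[[Int.ofNat (nat_lit 423744740359330850328)]]]]]]]]],[[[[[[[[],[[Int.ofNat (nat_lit 226025978722405110)]]]],[[[[Int.negSucc (nat_lit 349395275098239232949)]]]]]],[[[[[[Int.ofNat (nat_lit 42239287678404281856)]]]]]]],[[],[[[[[[Int.negSucc (nat_lit 36013054204306740023)]]]]]]]],[[[[[[[[Int.negSucc (nat_lit 433684835002558933037)]]]]],[[[[[Int.ofNat (nat_lit 87954978122961326742)]]]]]]],[[[[[[[Int.negSucc (nat_lit 132202159411836202673)]]]]]]]],[],[[[[[[[[Int.negSucc (nat_lit 13865945537601610235)]]]]]]]]],[[[[[[],[[[[Int.negSucc (nat_lit 29409494547038790569)]]]]]],[[[[[[Int.negSucc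 (nat_lit 54009806619386800745)]]]]]]]],[[[[[[[[Int.negSucc (nat_lit 397145711115137635367)]]]]]]]]],[[],[[[[[[[[Int.negSucc (nat_lit 7057646863702494125)]]]]]]]]]]

/-- A coefficient. -/
noncomputable def sr6_m1_3_2 : MP 10 :=
  [[[[[[[[[[Int.negSucc (nat_lit 475912147095271016639)]]],[[[Int.negSucc (nat_lit 3133081745196846395)]]]],[[[],[[Int.negSucc (nat_lit 895007366835543719)]]]],[[[[Int.negSucc (nat_lit 115498997670539017067)]]]]],[[[[[Int.negSucc (nat_lit 1473564349446803730947)]]],[[[Int.ofNat (nat_lit 6266163490393692792)]]]]],[[[[[Int.negSucc (nat_lit 81810523918428247823)]]]]]],[[[],[[[[Int.ofNat (nat_lit 292659740387413109460)]]]]]]],[[[[[[[Int.negSucc (nat_lit 360366248787156053441)]]]]],[[[[[Int.ofNat (nat_lit 111178039231072023756)]]]]]]]],[[[[[],[[[[Int.negSucc (nat_lit 1039504313838323764727)]]]]]],[[[[[[Int.negSucc (nat_lit 151734031104948473009)]]]]],[[[[[Int.ofNat (nat_lit 276348015305544050316)]]]]]]],[[[[],[[[[Int.negSucc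 (nat_lit 316390273593398104895)]]]]]]]],[[[[[[[[Int.ofNat (nat_lit 141583589125058410656)]]],[[[Int.negSucc (nat_lit 3133081745196846395)]]]]],[[[[[Int.ofNat (nat_lit 1511880467199431808480)]]]]]]],[[[[[[[Int.negSucc (nat_lit 55589019615536011877)]]]]]]]],[[[],[[[[[[Int.negSucc (nat_lit 138174007652772025157)]]]]]]]],[[[[[[[[Int.negSucc (nat_lit 735487602620108842283)]]]]]]]]],[[[[[[[[[Int.negSucc (nat_lit 765251537029595625899)]]]]],[[[[[Int.negSucc (nat_lit 2283655328217020076455)]]]]]],[[[],[[[[Int.ofNat (nat_lit 143604291273887670324)]]]]]]],[[[[[[[Int.negSucc (nat_lit 120683079230966646119)]]]]],[[[[[Int.ofNat (nat_lit 10351145184395494512)]]]]]]]],[[[[[[[],[[Int.negSucc (nat_lit 895007366835543719)]]]],[[[[Int.negSucc (nat_lit 226177710086713777583)]]]]]],[[[[[[Int.ofNat (nat_lit 292659740387413109460)]]]]]]]],[[[[[[[[Int.ofNat (nat_lit 102323350270186273500)]]]]]]],[[[[[[[Int.negSucc (nat_lit 321565846185595852151)]]]]]]]]],[[[[[[[[[Int.negSucc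 (nat_lit 1100922025350113697995)]]],[[[Int.ofNat (nat_lit 3133081745196846396)]]]]],[[[[[Int.negSucc (nat_lit 853304402296953764087)]]]]]]],[[[[[[[Int.ofNat (nat_lit 55589019615536011878)]]]]]]]],[[[],[[[[[[Int.ofNat (nat_lit 281778298926659695482)]]]]]]]],[[[[[[[[Int.ofNat (nat_lit 1031008460372803901856)]]]]]]]]],[[[[[[[[[Int.negSucc (nat_lit 1141827664108510038227)]]]]]]],[[[[[[[Int.ofNat (nat_lit 5175572592197747256)]]]]]]]]],[[[[[[[[[Int.negSucc (nat_lit 406199570168869820087)]]]]]]]]]]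

/-- A coefficient. -/
noncomputable def sr6_m1_3_3 : MP 10 :=
  [[[[[[[],[[[[Int.ofNat (nat_lit 546332973598110424332)]]]]],[[],[[[[Int.negSucc (nat_lit 80258379581393611991)]]]]]],[[[[[[Int.ofNat (nat_lit 31536586503437261016)]]]]],[[[[[Int.negSucc (nat_lit 231527430717490653599)]]]]]]],[[[[],[[[[Int.ofNat (nat_lit 102357902374334081832)]]]]]]]],[[[[[[[[Int.ofNat (nat_lit 482632055781296917620)]]]]],[[[[[Int.negSucc (nat_lit 1251671591437730126471)]]]]]]]],[[[[[],[[[[Int.negSucc (nat_lit 541887433704120777191)]]]]]],[[[[[[Int.ofNat (nat_lit 115763715358745326800)]]]]]]]],[[[[[[[[Int.ofNat (nat_lit 625835795718865063236)]]]]]]]]],[[[[[[],[[[[Int.negSucc (nat_lit 36689573557897750811)]]]]]]]],[[[[[[[[Int.ofNat (nat_lit 530459380489813531980)]]]]],[[[[[Int.ofNat (nat_lit 327104439918543783384)]]]]]]],[[[[[[[Int.ofNat (nat_lit 102357902374334081832)]]]]]]]],[],[[[[[[[[Int.negSucc (nat_lit 745568843454089474879)]]]]]]]]],[[[[[[],[[[[Int.negSucc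 (nat_lit 1638297709396228763)]]]]]],[[[[[[Int.negSucc (nat_lit 115763715358745326799)]]]]]]]],[[[[[[[[Int.negSucc (nat_lit 662525369276762814047)]]]]]]]]],[[],[[[[[[[[Int.ofNat (nat_lit 202043112040572468924)]]]]]]]]]]

/-- A coefficient. -/
noncomputable def sr6_m1_3_4 : MP 10 :=
  [[[[[[[[[[Int.ofNat (nat_lit 856843940126286804156)]]]]],[[[[[Int.ofNat (nat_lit 295531062593763837648)]]]]]],[[[],[[[[Int.negSucc (nat_lit 125057646909781486367)]]]]]]],[[[[[[[Int.negSucc (nat_lit 9893228491418793665)]]]]],[[[[[Int.ofNat (nat_lit 9632595122220556956)]]]]]]]],[[[[[],[[[[Int.negSucc (nat_lit 79019036835684649955)]]]]]]]],[[[[[[[[Int.negSucc (nat_lit 147765531296881918823)]]]]]]],[[[[[[[Int.negSucc (nat_lit 4816297561110278477)]]]]]]]]],[[[[[[[[[Int.ofNat (nat_lit 435988083665293309398)]]]]],[[[[[Int.negSucc (nat_lit 149567141481320006051)]]]]]]]],[[[],[[[[[[Int.negSucc (nat_lit 125057646909781486367)]]]]]]]],[[[[[[[[Int.negSucc (nat_lit 4235466095024646929)]]]]]]]]],[[[[[[[[[Int.ofNat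 (nat_lit 147765531296881918824)]]]]]]],[[[[[[[Int.ofNat (nat_lit 4816297561110278478)]]]]]]]]],[[[[[[[[[Int.negSucc (nat_lit 74783570740660003025)]]]]]]]]]]

/-- A coefficient. -/
noncomputable def sr6_m1_3_5 : MP 10 :=
  [[[[[[[],[[[[Int.ofNat (nat_lit 86314458811922375568)]]]]]]]],[[[[[[[[Int.negSucc (nat_lit 469333647558593234225)]]]]],[[[[[Int.negSucc (nat_lit 98006667812369669939)]]]]]]]],[],[[[[[[[[Int.ofNat (nat_lit 49003333906184834970)]]]]]]]]],[[[[[[],[[[[Int.negSucc (nat_lit 79767802993951019399)]]]]]]]],[[[[[[[[Int.ofNat (nat_lit 86314458811922375568)]]]]]]]]],[[],[[[[[[[[Int.negSucc (nat_lit 128771136900135854369)]]]]]]]]]]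

/-- A coefficient. -/
noncomputable def sr6_m1_3_6 : MP 10 :=
  [[[[[[[[[[Int.negSucc (nat_lit 554633028920926482725)]]]]],[[[[[Int.negSucc (nat_lit 47076393382895289827)]]]]]]]],[],[[[[[[[[Int.ofNat (nat_lit 23538196691447644914)]]]]]]]]],[],[[[[[[[[[Int.negSucc (nat_lit 23538196691447644913)]]]]]]]]]]

/-- A coefficient. -/
noncomputable def sr6_m1_3_7 : MP 10 :=
  [[[[[[[],[[[[Int.negSucc (nat_lit 234852964362482776295)]]]]]]]]],[[],[[[[[[[[Int.negSucc (nat_lit 234852964362482776295)]]]]]]]]]]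

/-- A coefficient. -/
noncomputable def sr6_m1_4_0 : MP 10 :=
  [[[[[[[[[[Int.ofNat (nat_lit 116313524900207479719)]]],[[[Int.ofNat (nat_lit 2326192458586680516)]]]],[[[],[[Int.negSucc (nat_lit 1845602245913203367)]]]],[[[[Int.ofNat (nat_lit 30265414613017113264)]]]]],[[[[[Int.negSucc (nat_lit 263768402972736848561)]]],[[[Int.negSucc (nat_lit 4652384917173361031)]]]]],[[[[[Int.ofNat (nat_lit 62282706344643778248)]]]]]],[[[],[[[[Int.negSucc (nat_lit 132999280233899845415)]]]]]],[[[[[[Int.ofNat (nat_lit 17515696580235969870)]]]]],[[[[[Int.ofNat (nat_lit 35031393160471939740)]]]]]]],[[[[[[[Int.ofNat (nat_lit 132030718284912397002)]]]]],[[[[[Int.negSucc (nat_lit 264061436569824794003)]]]]]],[[[],[[[[Int.negSucc (nat_lit 64000247268305910755)]]]]]]],[[[[[[[Int.ofNat (nat_lit 38107881453800758617)]]]]],[[[[[Int.negSucc (nat_lit 76215762907601517233)]]]]]]]],[[[[[],[[[[Int.ofNat (nat_lit 198454340192957474292)]]]]],[[],[[[[Int.negSucc (nat_lit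 14906907027354954815)]]]]]],[[[[[[Int.ofNat (nat_lit 5440816067503153848)]]]]],[[[[[Int.ofNat (nat_lit 55754018742573496632)]]]]]]],[[[[],[[[[Int.negSucc (nat_lit 142176512691092530211)]]]]]]]],[[[[[[[[Int.ofNat (nat_lit 248242516868754477366)]]],[[[Int.ofNat (nat_lit 2326192458586680516)]]]]],[[[[[Int.ofNat (nat_lit 58693177462393346970)]]]]]],[],[[[[[[Int.negSucc (nat_lit 17515696580235969869)]]]]]]],[[[[[[[Int.ofNat (nat_lit 132030718284912397002)]]]]]]],[[[[[[[Int.ofNat (nat_lit 38107881453800758617)]]]]]]]],[[[[[],[[[[Int.negSucc (nat_lit 3918734015589157787)]]]]]],[[[[[[Int.negSucc (nat_lit 27877009371286748315)]]]]]]]],[[[[[[[[Int.negSucc (nat_lit 44917265317357618046)]]]]]]]]],[[[[[[[[[Int.ofNat (nat_lit 156632420131577594520)]]]],[],[[[[Int.ofNat (nat_lit 32225674297125722856)]]]]],[[[[[Int.negSucc (nat_lit 337734889960477962545)]]]]],[[[[[Int.ofNat (nat_lit 48940099394645547012)]]]]]],[[[],[[[[Int.negSucc (nat_lit 107498245584878729111)]]]]]]],[[[[[[[Int.ofNat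 (nat_lit 134762409057336478686)]]]]],[[[[[Int.negSucc (nat_lit 269524818114672957371)]]]]]]]],[[[[[[[],[[Int.negSucc (nat_lit 1845602245913203367)]]]],[[[[Int.ofNat (nat_lit 124648381818528850764)]]]]]],[[[[[[Int.negSucc (nat_lit 132999280233899845415)]]]]]]],[[],[[[[[[Int.negSucc (nat_lit 64000247268305910755)]]]]]]]],[[[[[[[[Int.ofNat (nat_lit 341486987406523393218)]]]]],[[[[[Int.negSucc (nat_lit 121077766052577743813)]]]]]]],[[[[[[[Int.negSucc (nat_lit 7414103633756051525)]]]]]]]],[],[[[[[[[[Int.ofNat (nat_lit 36931670648360849958)]]]]]]]]],[[[[[[[[[Int.negSucc (nat_lit 17597990790853282040)]]],[[[Int.negSucc (nat_lit 2326192458586680515)]]]]],[[[[[Int.negSucc (nat_lit 166289715046386506231)]]]]]],[],[[[[[[Int.ofNat (nat_lit 17515696580235969870)]]]]]]],[[[[[[[Int.negSucc (nat_lit 132030718284912397001)]]]]]]],[[[[[[[Int.negSucc (nat_lit 38107881453800758616)]]]]]]]],[[[[[],[[[[Int.ofNat (nat_lit 134629584110285381268)]]]]]],[[[[[[Int.negSucc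 (nat_lit 79621236213591980795)]]]]]]]],[[[[[[[[Int.ofNat (nat_lit 238015766632223553225)]]]]]]]]],[[[[[[[[[Int.negSucc (nat_lit 188817528909359843807)]]]]],[[[[[Int.ofNat (nat_lit 88840267252887272082)]]]]]]],[[[[[[[Int.negSucc (nat_lit 134762409057336478685)]]]]]]]],[],[[[[[[[[Int.ofNat (nat_lit 29368396371427401378)]]]]]]]]],[[[[[[[[[Int.negSucc (nat_lit 98715534109354197677)]]]]]]]]],[[[[[[[[[Int.ofNat (nat_lit 32185108777782249288)]]]]]]]]]]

/-- A coefficient. -/
noncomputable def sr6_m1_4_1 : MP 10 :=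
  [[[[[[[[[],[[Int.negSucc (nat_lit 9591138327855246329)]]]],[[[[Int.ofNat (nat_lit 389498093146716079710)]]],[[[Int.ofNat (nat_lit 20650105171203565812)]]]]],[[[[],[[Int.negSucc (nat_lit 19182276655710492659)]]]],[[[[Int.ofNat (nat_lit 34094453090611023336)]]]]]],[[[[[[Int.negSucc (nat_lit 43103619666655080461)]]]]],[[[[[Int.ofNat (nat_lit 193668095072783864436)]]]]]]],[[[[],[[[[Int.negSucc (nat_lit 181030318873796194379)]]]]]]]],[[[[[[[[Int.negSucc (nat_lit 585574350126105819335)]]]]],[[[[[Int.negSucc (nat_lit 105834331603733627111)]]]]]],[[[],[[[[Int.ofNat (nat_lit 76880025680391774744)]]]]]]],[[[[[[[Int.negSucc (nat_lit 14518569370034315243)]]]]],[[[[[Int.negSucc (nat_lit 32037270968176652423)]]]]]]]],[[[[[[[],[[Int.ofNat (nat_lit 9591138327855246330)]]]],[[[[Int.negSucc (nat_lit 544527251270155116593)]]]]]],[[[[[[Int.negSucc (nat_lit 96834047536391932217)]]]]]]]],[[[[[[[[Int.ofNat (nat_lit 52917165801866813556)]]]]]]],[[[[[[[Int.ofNat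 (nat_lit 16018635484088326212)]]]]]]]]],[[[[[[],[[[[Int.ofNat (nat_lit 926616115538638555488)]]]]]],[[[[[[Int.negSucc (nat_lit 74151489164332179311)]]]]],[[[[[Int.ofNat (nat_lit 207685314713553129312)]]]]]]],[[[[],[[[[Int.negSucc (nat_lit 80330722049768120423)]]]]]]]],[[[[[[[[Int.ofNat (nat_lit 103824027266420483514)]]],[[[Int.ofNat (nat_lit 20650105171203565812)]]]]],[[[[[Int.negSucc (nat_lit 65840201794550609543)]]]]]]],[[[[[[[Int.negSucc (nat_lit 181030318873796194379)]]]]]]]],[[[],[[[[[[Int.negSucc (nat_lit 26962631676384789911)]]]]]]]],[[[[[[[[Int.negSucc (nat_lit 494559923827574300153)]]]]]]]]],[[[[[[[[],[[Int.negSucc (nat_lit 9591138327855246329)]]]],[[[[Int.ofNat (nat_lit 355414080248585886534)]]]]]],[[[[[[Int.ofNat (nat_lit 96834047536391932218)]]]]]]]],[[[[[[[[Int.ofNat (nat_lit 873698949736771741932)]]]]]]],[[[[[[[Int.negSucc (nat_lit 96349357533856446635)]]]]]]]]],[[[[],[[[[[[Int.ofNat (nat_lit 103842657356776564656)]]]]]]]],[[[[[[[[Int.ofNat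 (nat_lit 305446752806005070094)]]]]]]]]]]

/-- A coefficient. -/
noncomputable def sr6_m1_4_2 : MP 10 :=
  [[[[[[[[[[Int.ofNat (nat_lit 212311272606490874610)]]]],[],[[[[Int.ofNat (nat_lit 58359566402559117168)]]]]],[[[[[Int.ofNat (nat_lit 2209888484261204459490)]]]]],[[[[[Int.negSucc (nat_lit 37961146425856000115)]]]]]],[[[],[[[[Int.ofNat (nat_lit 275549074381446077064)]]]]]]],[[[[[[[Int.ofNat (nat_lit 81411495854494680246)]]]]],[[[[[Int.negSucc (nat_lit 62591984776279297955)]]]]]]]],[[[[[],[[[[Int.ofNat (nat_lit 948814612368710548680)]]]]]]]],[[[[[[[[Int.negSucc (nat_lit 723119869418580142385)]]]]],[[[[[Int.negSucc (nat_lit 835407402026009525261)]]]]]]],[[[[[[[Int.ofNat (nat_lit 31295992388139648978)]]]]]]]],[],[[[[[[[[Int.ofNat (nat_lit 427193987619468762660)]]]]]]]]],[[[[[[[[[Int.ofNat (nat_lit 330363873697141760484)]]]]],[[[[[Int.ofNat (nat_lit 1771889480964576684960)]]]]]]]],[[[[[],[[[[Int.ofNat (nat_lit 131605296173140288548)]]]]]],[[[[[[Int.ofNat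 (nat_lit 275549074381446077064)]]]]]]]],[[[[[[[[Int.ofNat (nat_lit 62869871886422206200)]]]]]]]]],[[[[[[[[[Int.ofNat (nat_lit 1225709134612520088495)]]]]],[[[[[Int.ofNat (nat_lit 464831230118063519880)]]]]]]],[[[[[[[Int.negSucc (nat_lit 31295992388139648977)]]]]]]]],[],[[[[[[[[Int.negSucc (nat_lit 595854159514383351248)]]]]]]]]],[[[[[[[[[Int.ofNat (nat_lit 885944740482288342480)]]]]]]]]],[[[[[[[[[Int.ofNat (nat_lit 241905901665495759969)]]]]]]]]]]

/-- A coefficient. -/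
noncomputable def sr6_m1_4_3 : MP 10 :=
  [[[[[[[],[[[[Int.negSucc (nat_lit 205718607987612382619)]]]]]],[[[[[[Int.ofNat (nat_lit 79070025716447273688)]]]]],[[[[[Int.ofNat (nat_lit 5259267086401366800)]]]]]]],[[[[],[[[[Int.ofNat (nat_lit 9535004263287743268)]]]]]]]],[[[[[[[[Int.ofNat (nat_lit 377677395007803961476)]]]]],[[[[[Int.ofNat (nat_lit 237405046205880177864)]]]]]]]],[[[],[[[[[[Int.negSucc (nat_lit 2629633543200683399)]]]]]]]],[[[[[[[[Int.negSucc (nat_lit 118702523102940088931)]]]]]]]]],[[[[[[],[[[[Int.negSucc (nat_lit 36240512064527270231)]]]]]]]],[[[[[[[[Int.negSucc (nat_lit 205718607987612382619)]]]]]]],[[[[[[[Int.ofNat (nat_lit 9535004263287743268)]]]]]]]]],[[[[],[[[[[[Int.ofNat (nat_lit 2629633543200683400)]]]]]]]],[[[[[[[[Int.ofNat (nat_lit 82462011038412818700)]]]]]]]]]]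

/-- A coefficient. -/
noncomputable def sr6_m1_4_4 : MP 10 :=
  [[[[[[[[[[Int.negSucc (nat_lit 643708620623025168365)]]]]],[[[[[Int.negSucc (nat_lit 1227412542727507292819)]]]]]]]],[[[[[],[[[[Int.ofNat (nat_lit 514511439365974134768)]]]]]]]],[[[[[[[[Int.ofNat (nat_lit 613706271363753646410)]]]]]]]]],[[[[[[[[[Int.negSucc (nat_lit 402185613137724040571)]]]]],[[[[[Int.ofNat (nat_lit 39629804342577262080)]]]]]]]],[],[[[[[[[[Int.ofNat (nat_lit 494696537194685503728)]]]]]]]]],[[[[[[[[[Int.negSucc (nat_lit 613706271363753646409)]]]]]]]]],[[[[[[[[[Int.ofNat (nat_lit 19814902171288631040)]]]]]]]]]]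

/-- A coefficient. -/
noncomputable def sr6_m1_4_5 : MP 10 :=
  [[[[[[[],[[[[Int.ofNat (nat_lit 304679277625211527764)]]]]]]]]],[[],[[[[[[[[Int.ofNat (nat_lit 304679277625211527764)]]]]]]]]]]

/-- A coefficient. -/
noncomputable def sr6_m1_4_6 : MP 10 :=
  [[[[[[[[[[Int.ofNat (nat_lit 786419738157805642086)]]]]],[[[[[Int.ofNat (nat_lit 422246998867763649348)]]]]]]]],[],[[[[[[[[Int.negSucc (nat_lit 211123499433881824673)]]]]]]]]],[],[[[[[[[[[Int.ofNat (nat_lit 211123499433881824674)]]]]]]]]]]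

/-- A coefficient. -/
noncomputable def sr6_m1_5_0 : MP 10 :=
  [[[[[[[[[[Int.negSucc (nat_lit 65954786881615212557)]]],[[[Int.negSucc (nat_lit 5383110231123695051)]]]],[[[],[[Int.ofNat (nat_lit 6582085829480652828)]]]],[[[[Int.negSucc (nat_lit 6055067278276302335)]]]]],[[[[[Int.ofNat (nat_lit 118094168243200478010)]]],[[[Int.ofNat (nat_lit 10766220462247390104)]]]]],[[[[[Int.ofNat (nat_lit 27630811040059894212)]]]]]],[[[],[[[[Int.ofNat (nat_lit 14575121128239616068)]]]]]]],[[[[[[[Int.negSucc (nat_lit 54367874118252181655)]]]]],[[[[[Int.ofNat (nat_lit 108735748236504363312)]]]]]]]],[[[[[],[[[[Int.negSucc (nat_lit 73864234495816392683)]]]]]],[[[[[[Int.ofNat (nat_lit 15873006196757122722)]]]]],[[[[[Int.negSucc (nat_lit 18217740416973200891)]]]]]]],[[[[],[[[[Int.ofNat (nat_lit 26272328152834289400)]]]]]]]],[[[[[[[[Int.negSucc (nat_lit 266415579829956080081)]]],[[[Int.negSucc (nat_lit 5383110231123695051)]]]]],[[[[[Int.negSucc (nat_lit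 246789878848087166753)]]]]]]],[[[[[[[Int.negSucc (nat_lit 54367874118252181655)]]]]]]]],[[[],[[[[[[Int.ofNat (nat_lit 9108870208486600446)]]]]]]]],[[[[[[[[Int.ofNat (nat_lit 116487236664028609824)]]]]]]]]],[[[[[[[[[Int.negSucc (nat_lit 218067152334958273373)]]]]],[[[[[Int.ofNat (nat_lit 436134304669916546748)]]]]]],[[[],[[[[Int.ofNat (nat_lit 10520579806402207380)]]]]]]],[[[[[[[Int.negSucc (nat_lit 27007291854681656567)]]]]],[[[[[Int.ofNat (nat_lit 54014583709363313136)]]]]]]]],[[[[[[[],[[Int.ofNat (nat_lit 6582085829480652828)]]]],[[[[Int.ofNat (nat_lit 177951918194675245896)]]]]]],[[[[[[Int.ofNat (nat_lit 14575121128239616068)]]]]]]]],[[[[[[[[Int.negSucc (nat_lit 291931386830774666057)]]]]]]],[[[[[[[Int.negSucc (nat_lit 734963701847367167)]]]]]]]]],[[[[[[[[[Int.negSucc (nat_lit 89110394451365872607)]]],[[[Int.ofNat (nat_lit 5383110231123695052)]]]]],[[[[[Int.ofNat (nat_lit 323945768185992117438)]]]]]]],[[[[[[[Int.ofNat (nat_lit 54367874118252181656)]]]]]]]],[[[],[[[[[[Int.ofNat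 (nat_lit 1411709597915606934)]]]]]]]],[[[[[[[[Int.negSucc (nat_lit 87545432524058146757)]]]]]]]]],[[[[[[[[[Int.ofNat (nat_lit 218067152334958273374)]]]]]]],[[[[[[[Int.ofNat (nat_lit 27007291854681656568)]]]]]]]]],[[[[[[[[[Int.ofNat (nat_lit 155065181332981085166)]]]]]]]]]]

/-- A coefficient. -/
noncomputable def sr6_m1_5_1 : MP 10 :=
  [[[[[[[],[[[[Int.negSucc (nat_lit 514798523160426768257)]]]]],[[],[[[[Int.negSucc (nat_lit 7681827477691185611)]]]]]],[[[[[[Int.negSucc (nat_lit 156131169721520496935)]]]]],[[[[[Int.negSucc (nat_lit 35930283964453831175)]]]]]]],[[[[],[[[[Int.ofNat (nat_lit 261847635343248193128)]]]]]]]],[[[[[[[[Int.ofNat (nat_lit 402766577446406638476)]]]]],[[[[[Int.ofNat (nat_lit 55944921519930519528)]]]]]]]],[[[[[],[[[[Int.ofNat (nat_lit 202477486037567972658)]]]]]],[[[[[[Int.ofNat (nat_lit 17965141982226915588)]]]]]]]],[[[[[[[[Int.negSucc (nat_lit 27972460759965259763)]]]]]]]]],[[[[[[],[[[[Int.negSucc (nat_lit 528046681886092993583)]]]]]]]],[[[[[[[[Int.negSucc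 (nat_lit 302474838629698706741)]]]]],[[[[[Int.negSucc (nat_lit 30040253229731723819)]]]]]]],[[[[[[[Int.ofNat (nat_lit 261847635343248193128)]]]]]]]],[],[[[[[[[[Int.ofNat (nat_lit 213656698913588241762)]]]]]]]]],[[[[[[],[[[[Int.negSucc (nat_lit 152711615379901499441)]]]]]],[[[[[[Int.negSucc (nat_lit 17965141982226915587)]]]]]]]],[[[[[[[[Int.negSucc (nat_lit 500074221126127733819)]]]]]]]]],[[],[[[[[[[[Int.negSucc (nat_lit 163890828255921768545)]]]]]]]]]]

/-- A coefficient. -/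
noncomputable def sr6_m1_5_2 : MP 10 :=
  [[[[[[[[[[Int.ofNat (nat_lit 621367503800805372006)]]]]],[[[[[Int.negSucc (nat_lit 509451098523294173459)]]]]]],[[[],[[[[Int.negSucc (nat_lit 258651272766286668347)]]]]]]],[[[[[[[Int.ofNat (nat_lit 28153606499353199136)]]]]],[[[[[Int.ofNat (nat_lit 54801588920619020184)]]]]]]]],[[[[[],[[[[Int.negSucc (nat_lit 201228664368650010299)]]]]]]]],[[[[[[[[Int.ofNat (nat_lit 254725549261647086730)]]]]]]],[[[[[[[Int.negSucc (nat_lit 27400794460309510091)]]]]]]]]],[[[[[[[[[Int.ofNat (nat_lit 342055581274725494580)]]]]],[[[[[Int.ofNat (nat_lit 526174217321160962568)]]]]]]]],[[[],[[[[[[Int.negSucc (nat_lit 258651272766286668347)]]]]]]]],[[[[[[[[Int.negSucc (nat_lit 464315773029230491583)]]]]]]]]],[[[[[[[[[Int.negSucc (nat_lit 254725549261647086729)]]]]]]],[[[[[[[Int.ofNat (nat_lit 27400794460309510092)]]]]]]]]],[[[[[[[[[Int.ofNat (nat_lit 263087108660580481284)]]]]]]]]]]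

/-- A coefficient. -/
noncomputable def sr6_m1_5_3 : MP 10 :=
  [[[[[[[],[[[[Int.negSucc (nat_lit 32295314208588422447)]]]]]]]],[[[[[[[[Int.negSucc (nat_lit 452621143104836960081)]]]]],[[[[[Int.ofNat (nat_lit 436125186254857305132)]]]]]]]],[],[[[[[[[[Int.negSucc (nat_lit 218062593127428652565)]]]]]]]]],[[[[[[],[[[[Int.negSucc (nat_lit 57610134817530178883)]]]]]]]],[[[[[[[[Int.negSucc (nat_lit 32295314208588422447)]]]]]]]]],[[],[[[[[[[[Int.ofNat (nat_lit 160452458309898473682)]]]]]]]]]]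

/-- A coefficient. -/
noncomputable def sr6_m1_5_4 : MP 10 :=
  [[[[[[[[[[Int.negSucc (nat_lit 924342449422824382529)]]]]],[[[[[Int.ofNat (nat_lit 1648723977501901598460)]]]]]]]],[],[[[[[[[[Int.negSucc (nat_lit 824361988750950799229)]]]]]]]]],[],[[[[[[[[[Int.ofNat (nat_lit 824361988750950799230)]]]]]]]]]]

/-- A coefficient. -/
noncomputable def sr6_m1_5_5 : MP 10 :=
  [[[[[[[],[[[[Int.negSucc (nat_lit 490523920434582923483)]]]]]]]]],[[],[[[[[[[[Int.negSucc (nat_lit 490523920434582923483)]]]]]]]]]]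

/-- A coefficient. -/
noncomputable def sr6_m1_6_0 : MP 10 :=
  [[[[[[[[[[Int.negSucc (nat_lit 17688301161159717557)]]]],[],[[[[Int.negSucc (nat_lit 16103786029099291115)]]]]],[[[[[Int.ofNat (nat_lit 54963972562316068278)]]]]],[[[[[Int.negSucc (nat_lit 39174740479993266323)]]]]]],[[[],[[[[Int.ofNat (nat_lit 68672020528854048420)]]]]]]],[[[[[[[Int.negSucc (nat_lit 37626865402858374941)]]]]],[[[[[Int.ofNat (nat_lit 75253730805716749884)]]]]]]]],[[[[[],[[[[Int.negSucc (nat_lit 16482177166324030967)]]]]]]]],[[[[[[[[Int.ofNat (nat_lit 68559134342412316746)]]]]],[[[[[Int.ofNat (nat_lit 160812027813334250682)]]]]]]],[[[[[[[Int.negSucc (nat_lit 37626865402858374941)]]]]]]]],[],[[[[[[[[Int.negSucc (nat_lit 70612328786668808759)]]]]]]]]],[[[[[[[[[Int.ofNat (nat_lit 95089872220639045464)]]]]],[[[[[Int.negSucc (nat_lit 190179744441278090927)]]]]]]]],[[[[[],[[[[Int.negSucc (nat_lit 185084448273820425299)]]]]]],[[[[[[Int.ofNat (nat_lit 68672020528854048420)]]]]]]]],[[[[[[[[Int.ofNat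 (nat_lit 78607695054315014496)]]]]]]]]],[[[[[[[[[Int.ofNat (nat_lit 118569525074834907342)]]]]],[[[[[Int.negSucc (nat_lit 221349818067347012729)]]]]]]],[[[[[[[Int.ofNat (nat_lit 37626865402858374942)]]]]]]]],[],[[[[[[[[Int.ofNat (nat_lit 2512890455622864360)]]]]]]]]],[[[[[[[[[Int.negSucc (nat_lit 95089872220639045463)]]]]]]]]],[[[[[[[[[Int.negSucc (nat_lit 100881223913675189783)]]]]]]]]]]

/-- A coefficient. -/
noncomputable def sr6_m1_6_1 : MP 10 :=
  [[[[[[[],[[[[Int.negSucc (nat_lit 349421831339471576891)]]]]]],[[[[[[Int.ofNat (nat_lit 83763924132522112368)]]]]],[[[[[Int.negSucc (nat_lit 84840985582692122111)]]]]]]],[[[[],[[[[Int.negSucc (nat_lit 47793625814485659635)]]]]]]]],[[[[[[[[Int.ofNat (nat_lit 255279844198542393948)]]]]],[[[[[Int.ofNat (nat_lit 234911957049205766736)]]]]]]]],[[[],[[[[[[Int.ofNat (nat_lit 42420492791346061056)]]]]]]]],[[[[[[[[Int.negSucc (nat_lit 117455978524602883367)]]]]]]]]],[[[[[[],[[[[Int.negSucc (nat_lit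 446139540863512682783)]]]]]]]],[[[[[[[[Int.negSucc (nat_lit 349421831339471576891)]]]]]]],[[[[[[[Int.negSucc (nat_lit 47793625814485659635)]]]]]]]]],[[[[],[[[[[[Int.negSucc (nat_lit 42420492791346061055)]]]]]]]],[[[[[[[[Int.negSucc (nat_lit 328683562338909799415)]]]]]]]]]]

/-- A coefficient. -/
noncomputable def sr6_m1_6_2 : MP 10 :=
  [[[[[[[[[[Int.negSucc (nat_lit 446752625926636201310)]]]]],[[[[[Int.negSucc (nat_lit 994191822786732944333)]]]]]]]],[[[[[],[[[[Int.negSucc (nat_lit 66004490732598760859)]]]]]]]],[[[[[[[[Int.ofNat (nat_lit 497095911393366472167)]]]]]]]]],[[[[[[[[[Int.negSucc (nat_lit 304412144572391857607)]]]]],[[[[[Int.negSucc (nat_lit 776202340151585500895)]]]]]]]],[],[[[[[[[[Int.ofNat (nat_lit 322096679343193989588)]]]]]]]]],[[[[[[[[[Int.negSucc (nat_lit 497095911393366472166)]]]]]]]]],[[[[[[[[[Int.negSucc (nat_lit 388101170075792750447)]]]]]]]]]]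

/-- A coefficient. -/
noncomputable def sr6_m1_6_3 : MP 10 :=
  [[[[[[[],[[[[Int.ofNat (nat_lit 133658432704636378332)]]]]]]]]],[[],[[[[[[[[Int.ofNat (nat_lit 133658432704636378332)]]]]]]]]]]

/-- A coefficient. -/
noncomputable def sr6_m1_6_4 : MP 10 :=
  [[[[[[[[[[Int.ofNat (nat_lit 881776633771481175804)]]]]],[[[[[Int.negSucc (nat_lit 851058949087952604311)]]]]]]]],[],[[[[[[[[Int.ofNat (nat_lit 425529474543976302156)]]]]]]]]],[],[[[[[[[[[Int.negSucc (nat_lit 425529474543976302155)]]]]]]]]]]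

/-- A coefficient. -/
noncomputable def sr6_m1_7_0 : MP 10 :=
  [[[[[[[[[[Int.ofNat (nat_lit 130838598941179613928)]]]]],[[[[[Int.negSucc (nat_lit 261677197882359227855)]]]]]],[[[],[[[[Int.negSucc (nat_lit 21150261685414852775)]]]]]]],[[[[[[[Int.ofNat (nat_lit 17627461243841922870)]]]]],[[[[[Int.negSucc (nat_lit 35254922487683845739)]]]]]]]],[[[[[],[[[[Int.negSucc (nat_lit 93886726911872632847)]]]]]]]],[[[[[[[[Int.ofNat (nat_lit 130838598941179613928)]]]]]]],[[[[[[[Int.ofNat (nat_lit 17627461243841922870)]]]]]]]]],[[[[[[[[[Int.ofNat (nat_lit 132810865365163762068)]]]]],[[[[[Int.negSucc (nat_lit 265621730730327524135)]]]]]]]],[[[],[[[[[[Int.negSucc (nat_lit 21150261685414852775)]]]]]]]],[[[[[[[[Int.ofNat (nat_lit 38924138453291129220)]]]]]]]]],[[[[[[[[[Int.negSucc (nat_lit 130838598941179613927)]]]]]]],[[[[[[[Int.negSucc (nat_lit 17627461243841922869)]]]]]]]]],[[[[[[[[[Int.negSucc (nat_lit 132810865365163762067)]]]]]]]]]]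

/-- A coefficient. -/
noncomputable def sr6_m1_7_1 : MP 10 :=
  [[[[[[[],[[[[Int.ofNat (nat_lit 589260283322510090136)]]]]]]]],[[[[[[[[Int.negSucc (nat_lit 241823922837854687501)]]]]],[[[[[Int.negSucc (nat_lit 149667492578557810283)]]]]]]]],[],[[[[[[[[Int.ofNat (nat_lit 74833746289278905142)]]]]]]]]],[[[[[[],[[[[Int.ofNat (nat_lit 391587702561196128168)]]]]]]]],[[[[[[[[Int.ofNat (nat_lit 589260283322510090136)]]]]]]]]],[[],[[[[[[[[Int.ofNat (nat_lit 316753956271917223026)]]]]]]]]]]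

/-- A coefficient. -/
noncomputable def sr6_m1_7_2 : MP 10 :=
  [[[[[[[[[[Int.negSucc (nat_lit 435144039930296133401)]]]]],[[[[[Int.ofNat (nat_lit 156847483425500897508)]]]]]]]],[],[[[[[[[[Int.negSucc (nat_lit 78423741712750448753)]]]]]]]]],[],[[[[[[[[[Int.ofNat (nat_lit 78423741712750448754)]]]]]]]]]]

/-- A coefficient. -/
noncomputable def sr6_m1_7_3 : MP 10 :=
  [[[[[[[],[[[[Int.negSucc (nat_lit 49940090147786811335)]]]]]]]]],[[],[[[[[[[[Int.negSucc (nat_lit 49940090147786811335)]]]]]]]]]]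

/-- A coefficient. -/
noncomputable def sr6_m1_8_0 : MP 10 :=
  [[[[[[[[[[Int.negSucc (nat_lit 36473722596321006716)]]]]],[[[[[Int.ofNat (nat_lit 72947445192642013434)]]]]]]]],[[[[[],[[[[Int.ofNat (nat_lit 81399641599869357984)]]]]]]]],[[[[[[[[Int.negSucc (nat_lit 36473722596321006716)]]]]]]]]],[[[[[[[[[Int.negSucc (nat_lit 108260850477030474755)]]]]],[[[[[Int.ofNat (nat_lit 216521700954060949512)]]]]]]]],[],[[[[[[[[Int.negSucc (nat_lit 26861208877161116771)]]]]]]]]],[[[[[[[[[Int.ofNat (nat_lit 36473722596321006717)]]]]]]]]],[[[[[[[[[Int.ofNat (nat_lit 108260850477030474756)]]]]]]]]]]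

/-- A coefficient. -/
noncomputable def sr6_m1_8_1 : MP 10 :=
  [[[[[[[],[[[[Int.ofNat (nat_lit 155010750447992624544)]]]]]]]]],[[],[[[[[[[[Int.ofNat (nat_lit 155010750447992624544)]]]]]]]]]]

/-- A coefficient. -/
noncomputable def sr6_m1_8_2 : MP 10 :=
  [[[[[[[[[[Int.ofNat (nat_lit 375099968254472372961)]]]]],[[[[[Int.ofNat (nat_lit 332106506746324204218)]]]]]]]],[],[[[[[[[[Int.negSucc (nat_lit 166053253373162102108)]]]]]]]]],[],[[[[[[[[[Int.ofNat (nat_lit 166053253373162102109)]]]]]]]]]]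

/-- A coefficient. -/
noncomputable def sr6_m1_9_0 : MP 10 :=
  [[[[[[[[[[Int.negSucc (nat_lit 108512765192045810405)]]]]],[[[[[Int.ofNat (nat_lit 217025530384091620812)]]]]]]]],[],[[[[[[[[Int.negSucc (nat_lit 108512765192045810405)]]]]]]]]],[],[[[[[[[[[Int.ofNat (nat_lit 108512765192045810406)]]]]]]]]]]

/-- A coefficient. -/
noncomputable def sr6_m1_9_1 : MP 10 :=
  [[[[[[[],[[[[Int.negSucc (nat_lit 258377602528417371899)]]]]]]]]],[[],[[[[[[[[Int.negSucc (nat_lit 258377602528417371899)]]]]]]]]]]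

/-- A coefficient. -/
noncomputable def sr6_m1_10_0 : MP 10 :=
  [[[[[[[[[[Int.ofNat (nat_lit 67534805186353722381)]]]]],[[[[[Int.negSucc (nat_lit 135069610372707444761)]]]]]]]],[],[[[[[[[[Int.ofNat (nat_lit 67534805186353722381)]]]]]]]]],[],[[[[[[[[[Int.negSucc (nat_lit 67534805186353722380)]]]]]]]]]]

/-- An expanded part. -/
noncomputable def sr6_m1 : R12 :=
  [[sr6_m1_0_0, sr6_m1_0_1, sr6_m1_0_2, sr6_m1_0_3, sr6_m1_0_4, sr6_m1_0_5, sr6_m1_0_6, sr6_m1_0_7, sr6_m1_0_8, sr6_m1_0_9, sr6_m1_0_10],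
   [sr6_m1_1_0, sr6_m1_1_1, sr6_m1_1_2, sr6_m1_1_3, sr6_m1_1_4, sr6_m1_1_5, sr6_m1_1_6, sr6_m1_1_7, sr6_m1_1_8, sr6_m1_1_9],
   [sr6_m1_2_0, sr6_m1_2_1, sr6_m1_2_2, sr6_m1_2_3, sr6_m1_2_4, sr6_m1_2_5, sr6_m1_2_6, sr6_m1_2_7, sr6_m1_2_8],
   [sr6_m1_3_0, sr6_m1_3_1, sr6_m1_3_2, sr6_m1_3_3, sr6_m1_3_4, sr6_m1_3_5, sr6_m1_3_6, sr6_m1_3_7],
   [sr6_m1_4_0, sr6_m1_4_1, sr6_m1_4_2, sr6_m1_4_3, sr6_m1_4_4, sr6_m1_4_5, sr6_m1_4_6],
   [sr6_m1_5_0, sr6_m1_5_1, sr6_m1_5_2, sr6_m1_5_3, sr6_m1_5_4, sr6_m1_5_5],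
   [sr6_m1_6_0, sr6_m1_6_1, sr6_m1_6_2, sr6_m1_6_3, sr6_m1_6_4],
   [sr6_m1_7_0, sr6_m1_7_1, sr6_m1_7_2, sr6_m1_7_3],
   [sr6_m1_8_0, sr6_m1_8_1, sr6_m1_8_2],
   [sr6_m1_9_0, sr6_m1_9_1],
   [sr6_m1_10_0]]

set_option maxRecDepth 100000 in
theorem sr6_check1 : partOk 4 sr6_rows 1 sr6_m1 = true :=
  Fast.partOk_of_fast (by decide +kernel)

end Vale.Agent.P142K.CertB
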