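import Vale.Agent.P142K.CertB.Sr6Rows
import Vale.Agent.P142K.Fast

/-!
# An expanded part of the certificate

Generated from a semidefinite program; only the checker is trusted.
-/

namespace Vale.Agent.P142K.CertB

open Vale.Agent.P142J (MP)

/-- A coefficient. -/
noncomputable def sr6_m2_0_0 : MP 10 :=
  [[[[[[[[[[Int.ofNat (nat_lit 1354887318102222822)],[Int.negSucc (nat_lit 4064661954306668465)]]]],[[[[Int.ofNat (nat_lit 0),Int.ofNat (nat_lit 1176316909663727016)]]]],[[[[Int.ofNat (nat_lit 395107928237178290)],[Int.ofNat (nat_lit 1185323784711534870)]]]]],[[[[[Int.negSucc (nat_lit 789657877378535371)],[Int.ofNat (nat_lit 2368973632135606116)]]]],[[[[Int.ofNat (nat_lit 0),Int.negSucc (nat_lit 3890973470641457771)]]]]],[[[[[Int.ofNat (nat_lit 1170726079840157400)],[Int.negSucc (nat_lit 3512178239520472199)]]]]]],[[[[[[Int.ofNat (nat_lit 0),Int.ofNat (nat_lit 1867219621381848108)]]]],[[[[Int.ofNat (nat_lit 372281351284411032)],[Int.ofNat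 (nat_lit 1116844053853233096)]]]]],[[[[[Int.ofNat (nat_lit 0),Int.negSucc (nat_lit 2512515836794115531)]]]]]],[[[[[[Int.ofNat (nat_lit 5097731260565335472)],[Int.ofNat (nat_lit 3099207918776001018)]]]],[],[[[[Int.negSucc (nat_lit 1185323784711534869)]]]]],[[[[[Int.negSucc (nat_lit 2368973632135606115)]]]]],[[[[[Int.ofNat (nat_lit 3512178239520472200)]]]]]],[[[],[[[[Int.negSucc (nat_lit 1116844053853233095)]]]]]],[[[[[[Int.negSucc (nat_lit 3099207918776001017)]]]]]]],[[[[[[[Int.negSucc (nat_lit 908321371656029943)],[Int.ofNat (nat_lit 2724964114968089832)]]]],[[[[Int.ofNat (nat_lit 0),Int.ofNat (nat_lit 1671609974622490308)]]]]],[[[[[Int.negSucc (nat_lit 879605095224619255)],[Int.ofNat (nat_lit 2638815285673857768)]]]]]],[[[[[[Int.ofNat (nat_lit 0),Int.negSucc (nat_lit 4673122645667134775)]]]],[[[[Int.ofNat (nat_lit 2352633819327454032)]]]]],[[],[[[[Int.negSucc (nat_lit 7781946941282915543)]]]]]],[[[[[[Int.ofNat (nat_lit 1009475127795606384)]]]]],[[[[[Int.negSucc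 (nat_lit 7663846959262088831)]]]]]]],[[[[[[[Int.negSucc (nat_lit 2273600481829557155)],[Int.negSucc (nat_lit 5373184417431333929)]]]],[],[[[[Int.ofNat (nat_lit 1185323784711534870)]]]]],[[[[[Int.ofNat (nat_lit 2368973632135606116)]]]]],[[[[[Int.negSucc (nat_lit 3512178239520472199)]]]]]],[[[],[[[[Int.ofNat (nat_lit 4460064003098213712)]]]]]],[[[[[[Int.negSucc (nat_lit 873852955126934603)]]]]]]],[[[[[[[Int.ofNat (nat_lit 2724964114968089832)]]]]],[[[[[Int.ofNat (nat_lit 2638815285673857768)]]]]]]],[[[[[[[Int.negSucc (nat_lit 5373184417431333929)]]]]]]]],[[[[[[[[Int.ofNat (nat_lit 0),Int.negSucc (nat_lit 2564912304681759611)]]]],[[[[Int.ofNat (nat_lit 3540593448417376690)],[Int.negSucc (nat_lit 1572205517667875327)]]]],[],[[[[Int.negSucc (nat_lit 1185323784711534869)]]]]],[[[[[Int.ofNat (nat_lit 0),Int.ofNat (nat_lit 1309063266086662500)]]]],[[[[Int.negSucc (nat_lit 1192656722471879099)]]]]],[[],[[[[Int.negSucc (nat_lit 378795231120985571)]]]]]],[[[[[[Int.ofNat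 (nat_lit 1997290264951208752)],[Int.ofNat (nat_lit 5991870794853626256)]]]],[],[[[[Int.negSucc (nat_lit 1116844053853233095)]]]]],[[[[[Int.ofNat (nat_lit 1867219621381848108)]]]]],[[[[[Int.negSucc (nat_lit 2512515836794115531)]]]]]],[[[],[[[[Int.negSucc (nat_lit 1527002401108125689)]]]]]],[[[[[[Int.negSucc (nat_lit 5991870794853626255)]]]]]]],[[[[[[[Int.ofNat (nat_lit 0),Int.negSucc (nat_lit 8517729419899383599)]]]],[[[[Int.negSucc (nat_lit 2724964114968089831)]]]]],[[],[[[[Int.negSucc (nat_lit 967205311051367459)]]]]]],[[[[[[Int.negSucc (nat_lit 5129824609363519223)]]]]],[[[[[Int.negSucc (nat_lit 2054996113493809775)]]]]]]],[[[[],[[[[Int.ofNat (nat_lit 3800978899763458602)]]]]]],[[[[[[Int.negSucc (nat_lit 11043588044945140943)]]]]]]]],[[[[[[[[Int.ofNat (nat_lit 3583280936781241554)],[Int.ofNat (nat_lit 9613121581557041742)]]]],[[[[Int.ofNat (nat_lit 0),Int.ofNat (nat_lit 718644420316979004)]]]],[[[[Int.ofNat (nat_lit 1572205517667875328)]]]]],[[[[[Int.negSucc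 (nat_lit 3155952239628878867)],[Int.ofNat (nat_lit 1773119804841357768)]]]]],[[[[[Int.ofNat (nat_lit 1309063266086662500)]]]]]],[[[[[[Int.ofNat (nat_lit 0),Int.ofNat (nat_lit 1309318116830582364)]]]],[[[[Int.negSucc (nat_lit 5991870794853626255)]]]]]],[[[[[[Int.negSucc (nat_lit 9613121581557041741)]]]]],[[[[[Int.negSucc (nat_lit 1773119804841357767)]]]]]]],[[[[[[[Int.ofNat (nat_lit 441126696124092936)],[Int.negSucc (nat_lit 1323380088372278807)]]]]],[[[[[Int.negSucc (nat_lit 8517729419899383599)]]]]]],[[[],[[[[Int.ofNat (nat_lit 1437288840633958008)]]]]]],[[[[[[Int.ofNat (nat_lit 3942016322033443536)]]]]]]],[[[[[[[Int.ofNat (nat_lit 9613121581557041742)]]]]],[[[[[Int.ofNat (nat_lit 1773119804841357768)]]]]]]],[[[[[[[Int.negSucc (nat_lit 1323380088372278807)]]]]]]]],[[[[[[[[Int.ofNat (nat_lit 0),Int.negSucc (nat_lit 677219954628656723)]]]],[[[[Int.negSucc (nat_lit 10005227218111617413)]]]]],[[],[[[[Int.ofNat (nat_lit 242515772356107160)]]]]]],[[[[[[Int.negSucc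 (nat_lit 622406540460616035)]]]]],[[[[[Int.ofNat (nat_lit 2146823395761954208)]]]]]]],[[[[],[[[[Int.ofNat (nat_lit 766176763498115372)]]]]]],[[[[[[Int.ofNat (nat_lit 203267639298398144)]]]]]]]],[[[[[[[[Int.ofNat (nat_lit 1174857682632349018)],[Int.negSucc (nat_lit 959660743215287441)]]]]],[[[[[Int.negSucc (nat_lit 1113574376657544223)]]]]]],[],[[[[[[Int.ofNat (nat_lit 959660743215287442)]]]]]]],[[[[[[[Int.ofNat (nat_lit 2839243139966461200)]]]]]]],[[[[[[[Int.negSucc (nat_lit 959660743215287441)]]]]]]]],[[[[[],[[[[Int.ofNat (nat_lit 720112603109627774)]]]]]],[[[[[[Int.negSucc (nat_lit 436439372276860787)]]]]]]]],[[[[[[[[Int.ofNat (nat_lit 225739984876218908)]]]]]]]]],[[[[[[[[[Int.ofNat (nat_lit 3381909877228365940)],[Int.negSucc (nat_lit 10145729631685097819)]]]],[[[[Int.ofNat (nat_lit 0),Int.ofNat (nat_lit 3636429261805262568)]]]],[[[[Int.ofNat (nat_lit 1176316909663727016)]]]]],[[[[[Int.negSucc (nat_lit 6547300420957183317)],[Int.ofNat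 (nat_lit 7447915399951544556)]]]],[],[[[[Int.negSucc (nat_lit 2705649685929922901)]]]]],[[[[[Int.ofNat (nat_lit 2368973632135606116)]]]]],[[[[[Int.negSucc (nat_lit 3512178239520472199)]]]]]],[[[[[[Int.ofNat (nat_lit 0),Int.ofNat (nat_lit 2933843151531977076)]]]],[[[[Int.ofNat (nat_lit 1867219621381848108)]]]]],[[],[[[[Int.negSucc (nat_lit 1395671782940882435)]]]]]],[[[[[[Int.ofNat (nat_lit 10145729631685097820)]]]]],[[[[[Int.negSucc (nat_lit 4348707481175543537)]]]]]]],[[[[[[[Int.ofNat (nat_lit 445230201564099996)],[Int.negSucc (nat_lit 1335690604692299987)]]]],[],[[[[Int.ofNat (nat_lit 1671609974622490308)]]]]],[[[[[Int.ofNat (nat_lit 2724964114968089832)]]]]],[[[[[Int.ofNat (nat_lit 2638815285673857768)]]]]]],[[[],[[[[Int.ofNat (nat_lit 2599735877943390360)]]]]]],[[[[[[Int.ofNat (nat_lit 7203376907756254140)]]]]]]],[[[[[[[Int.negSucc (nat_lit 10145729631685097819)]]]]],[[[[[Int.ofNat (nat_lit 2074730982520210626)]]]]]]],[[[[[[[Int.negSucc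 (nat_lit 1335690604692299987)]]]]]]]],[[[[[[[[Int.ofNat (nat_lit 0),Int.negSucc (nat_lit 7057056589934188379)]]]],[[[[Int.ofNat (nat_lit 6702168179131344736)],[Int.negSucc (nat_lit 2635947443615980415)]]]]],[[[[[Int.ofNat (nat_lit 0),Int.ofNat (nat_lit 4221599461356583884)]]]],[[[[Int.negSucc (nat_lit 4074628389727494815)]]]]]],[[[[[[Int.ofNat (nat_lit 414264755136597572)],[Int.ofNat (nat_lit 1242794265409792716)]]]]],[[[[[Int.ofNat (nat_lit 8925713946385603332)]]]]]],[[[],[[[[Int.ofNat (nat_lit 2635947443615980416)]]]]]],[[[[[[Int.negSucc (nat_lit 1242794265409792715)]]]]]]],[[[[[[[Int.ofNat (nat_lit 0),Int.negSucc (nat_lit 4227758162352040175)]]]],[[[[Int.negSucc (nat_lit 7182038815207083611)]]]]]],[[[[[[Int.negSucc (nat_lit 14114113179868376759)]]]]],[[[[[Int.ofNat (nat_lit 8443198922713167768)]]]]]]],[[[[],[[[[Int.negSucc (nat_lit 2635947443615980415)]]]]]],[[[[[[Int.negSucc (nat_lit 7212722059294287635)]]]]]]]],[[[[[[[[Int.ofNat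 (nat_lit 6967146561674413674)],[Int.ofNat (nat_lit 2215897458983470056)]]]],[],[[[[Int.ofNat (nat_lit 2169268079221424550)]]]]],[[[[[Int.ofNat (nat_lit 187091359487247246)]]]]],[[[[[Int.ofNat (nat_lit 9506897505718413852)]]]]]],[[[],[[[[Int.negSucc (nat_lit 1050320202432443447)]]]]]],[[[[[[Int.negSucc (nat_lit 5315105377759471073)]]]]]]],[[[[[[[Int.negSucc (nat_lit 2724964114968089831)]]]]],[[[[[Int.negSucc (nat_lit 8189953536398176751)]]]]]]],[[[[[[[Int.ofNat (nat_lit 7589081876414803986)]]]]]]]],[[[[[[[[Int.ofNat (nat_lit 0),Int.negSucc (nat_lit 507297562127903471)]]]],[[[[Int.negSucc (nat_lit 2533054983212672307)]]]]]],[[[[[[Int.negSucc (nat_lit 6969818512030951947)]]]]]]],[[],[[[[[[Int.negSucc (nat_lit 1014595124255806943)]]]]]]]],[[[[[[[[Int.negSucc (nat_lit 7260769384912312281)]]]]],[[[[[Int.negSucc (nat_lit 4647277930636743309)]]]]]]],[[[[[[[Int.ofNat (nat_lit 2732632809156292200)]]]]]]]],[],[[[[[[[[Int.ofNat (nat_lit 1128759930591255266)]]]]]]]]],[[[[[[[[[Int.ofNat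 (nat_lit 3938879548746099490)],[Int.negSucc (nat_lit 11816638646238298469)]]]],[[[[Int.ofNat (nat_lit 0),Int.ofNat (nat_lit 2685885434523456132)]]]],[[[[Int.ofNat (nat_lit 3636429261805262568)]]]]],[[[[[Int.negSucc (nat_lit 11944259265917558447)],[Int.ofNat (nat_lit 5395588902697381884)]]]]],[[[[[Int.ofNat (nat_lit 7447915399951544556)]]]]]],[[[[[[Int.ofNat (nat_lit 0),Int.ofNat (nat_lit 1474876785443144880)]]]],[[[[Int.ofNat (nat_lit 2933843151531977076)]]]]]],[[[[[[Int.ofNat (nat_lit 11816638646238298470)]]]]],[[[[[Int.negSucc (nat_lit 5395588902697381883)]]]]]]],[[[[[[[Int.ofNat (nat_lit 1127011738090403420)],[Int.negSucc (nat_lit 3381035214271210259)]]]]],[[[[[Int.negSucc (nat_lit 1335690604692299987)]]]]]],[[[],[[[[Int.ofNat (nat_lit 5371770869046912264)]]]]]],[[[[[[Int.ofNat (nat_lit 6330788785157500020)]]]]]]],[[[[[[[Int.negSucc (nat_lit 11816638646238298469)]]]]],[[[[[Int.ofNat (nat_lit 5395588902697381884)]]]]]]],[[[[[[[Int.negSucc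 (nat_lit 3381035214271210259)]]]]]]]],[[[[[[[[Int.ofNat (nat_lit 0),Int.negSucc (nat_lit 7572421179865609127)]]]],[[[[Int.ofNat (nat_lit 5935898965967837106)]]]]],[[],[[[[Int.negSucc (nat_lit 5015024921074780055)]]]]]],[[[[[[Int.ofNat (nat_lit 1867219621381848108)]]]]],[[[[[Int.ofNat (nat_lit 205155214058822064)]]]]]]],[[[[],[[[[Int.ofNat (nat_lit 824887026541660392)]]]]]],[[[[[[Int.negSucc (nat_lit 19817965005398353031)]]]]]]]],[[[[[[[[Int.ofNat (nat_lit 9186267177850647962)],[Int.negSucc (nat_lit 282510141314652521)]]]]],[[[[[Int.negSucc (nat_lit 11495375854747021127)]]]]]],[],[[[[[[Int.ofNat (nat_lit 282510141314652522)]]]]]]],[[[[[[[Int.negSucc (nat_lit 7182038815207083611)]]]]]]],[[[[[[[Int.negSucc (nat_lit 282510141314652521)]]]]]]]],[[[[[],[[[[Int.ofNat (nat_lit 2234509298278556426)]]]]]],[[[[[[Int.negSucc (nat_lit 425101743726925311)]]]]]]]],[[[[[[[[Int.negSucc (nat_lit 368977020323590403)]]]]]]]]],[[[[[[[[[Int.ofNat (nat_lit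 1529939756315487690)],[Int.negSucc (nat_lit 8654481223253131535)]]]],[],[[[[Int.ofNat (nat_lit 3080993362760634422)]]]]],[[[[[Int.negSucc (nat_lit 11026980768859763097)]]]]],[[[[[Int.ofNat (nat_lit 4224862822857224484)]]]]]],[[[],[[[[Int.ofNat (nat_lit 1847158136727555912)]]]]]],[[[[[[Int.ofNat (nat_lit 9687550529511798542)]]]]]]],[[[[[[[Int.ofNat (nat_lit 908321371656029944)]]]]],[[[[[Int.negSucc (nat_lit 2501430119046591003)]]]]]]],[[[[[[[Int.negSucc (nat_lit 10445542695730242845)]]]]]]]],[[[[[[[[Int.ofNat (nat_lit 0),Int.negSucc (nat_lit 3458667450179249759)]]]],[[[[Int.ofNat (nat_lit 4194420799303493200)]]]]]],[[[[[[Int.ofNat (nat_lit 4931133416483185828)]]]]]]],[[],[[[[[[Int.negSucc (nat_lit 6917334900358499519)]]]]]]]],[[[[[[[[Int.ofNat (nat_lit 7963955916823124004)]]]]],[[[[[Int.negSucc (nat_lit 4324127097887581025)]]]]]]],[[[[[[[Int.negSucc (nat_lit 1287849644204922851)]]]]]]]],[],[[[[[[[[Int.ofNat (nat_lit 608214814841403156)]]]]]]]]],[[[[[[[[[Int.negSucc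 (nat_lit 2360992741321235795)],[Int.negSucc (nat_lit 3062751407721390431)]]]]],[[[[[Int.negSucc (nat_lit 6171842756602616683)]]]]]],[],[[[[[[Int.ofNat (nat_lit 3062751407721390432)]]]]]]],[[[[[[[Int.negSucc (nat_lit 445230201564099995)]]]]]]],[[[[[[[Int.negSucc (nat_lit 3062751407721390431)]]]]]]]],[[[[[],[[[[Int.ofNat (nat_lit 1411320244193603332)]]]]]],[[[[[[Int.ofNat (nat_lit 1889141540579742452)]]]]]]]],[[[[[[[[Int.ofNat (nat_lit 1820692529715345760)]]]]]]]]],[[[[[[[[[Int.negSucc (nat_lit 3938879548746099489)]]]]],[[[[[Int.negSucc (nat_lit 1264221773488929803)]]]]]]],[[[[[[[Int.negSucc (nat_lit 1127011738090403419)]]]]]]]],[],[[[[[[[[Int.negSucc (nat_lit 490086089562743501)]]]]]]]]],[[[[[[[[[Int.negSucc (nat_lit 2884827074417710511)]]]]]]]]],[[[[[[[[[Int.negSucc (nat_lit 1020917135907130143)]]]]]]]]]]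

/-- A coefficient. -/
noncomputable def sr6_m2_0_1 : MP 10 :=
  [[[[[[[[[[Int.ofNat (nat_lit 0),Int.ofNat (nat_lit 13234055593790666472)]]]],[[[[Int.ofNat (nat_lit 4885271669688949624)],[Int.ofNat (nat_lit 14655815009066848872)]]]]],[[[[[Int.ofNat (nat_lit 0),Int.negSucc (nat_lit 24687673550635423319)]]]]]],[[[[[[Int.ofNat (nat_lit 365240981440178760)],[Int.negSucc (nat_lit 3605700520950193103)]]]],[[[[Int.ofNat (nat_lit 0),Int.ofNat (nat_lit 1401480415298811948)]]]]],[[[[[Int.negSucc (nat_lit 895161663547184015)],[Int.ofNat (nat_lit 2685484990641552048)]]]]]],[[[[[[Int.ofNat (nat_lit 0),Int.ofNat (nat_lit 3540632200750601400)]]]],[[[[Int.negSucc (nat_lit 14655815009066848871)]]]]]],[[[[[[Int.ofNat (nat_lit 3605700520950193104)]]]]],[[[[[Int.negSucc (nat_lit 2685484990641552047)]]]]]]],[[[[[[[Int.ofNat (nat_lit 0),Int.ofNat (nat_lit 21732493778226001668)]]]],[[[[Int.ofNat (nat_lit 991800483071276336)],[Int.ofNat (nat_lit 2975401449213829008)]]]]],[[[[[Int.ofNat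 (nat_lit 0),Int.negSucc (nat_lit 5675588718400369007)]]]]]],[[[[[[Int.ofNat (nat_lit 26884083323384692936)],[Int.ofNat (nat_lit 8082454610313339288)]]]]],[[[[[Int.negSucc (nat_lit 49375347101270846639)]]]]]],[[[],[[[[Int.negSucc (nat_lit 172440618616205111)]]]]]],[[[[[[Int.negSucc (nat_lit 1001190208812136487)]]]]]]],[[[[[[[Int.ofNat (nat_lit 0),Int.negSucc (nat_lit 1006111861050178451)]]]],[[[[Int.ofNat (nat_lit 14655815009066848872)]]]]]],[[[[[[Int.ofNat (nat_lit 39859287035501810232)]]]]],[[[[[Int.negSucc (nat_lit 8665692446159185967)]]]]]]],[[[[],[[[[Int.ofNat (nat_lit 2975401449213829008)]]]]]],[[[[[[Int.ofNat (nat_lit 6070230888212982384)]]]]]]]],[[[[[[[[Int.negSucc (nat_lit 4073634799225801395)],[Int.negSucc (nat_lit 40872905223542720627)]]]],[[[[Int.ofNat (nat_lit 0),Int.ofNat (nat_lit 12533231958382134684)]]]],[[[[Int.negSucc (nat_lit 14655815009066848871)]]]]],[[[[[Int.ofNat (nat_lit 6462941574611645892)],[Int.ofNat (nat_lit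 20313342057537061740)]]]]],[[[[[Int.negSucc (nat_lit 24687673550635423319)]]]]]],[[[[[[Int.ofNat (nat_lit 0),Int.ofNat (nat_lit 2133344076820361076)]]]],[[[[Int.ofNat (nat_lit 3605700520950193104)]]]]],[[],[[[[Int.negSucc (nat_lit 1284004575342740099)]]]]]],[[[[[[Int.ofNat (nat_lit 40872905223542720628)]]]]],[[[[[Int.negSucc (nat_lit 16772709856786460339)]]]]]]],[[[[[[[Int.ofNat (nat_lit 4610468349448468596)],[Int.negSucc (nat_lit 7372378590847137539)]]]],[],[[[[Int.negSucc (nat_lit 2975401449213829007)]]]]],[[[[[Int.ofNat (nat_lit 21732493778226001668)]]]]],[[[[[Int.negSucc (nat_lit 5675588718400369007)]]]]]],[[[],[[[[Int.ofNat (nat_lit 16984009306450930080)]]]]]],[[[[[[Int.ofNat (nat_lit 11639066744487859692)]]]]]]],[[[[[[[Int.negSucc (nat_lit 40872905223542720627)]]]]],[[[[[Int.ofNat (nat_lit 19307230196486883288)]]]]]]],[[[[[[[Int.negSucc (nat_lit 7372378590847137539)]]]]]]]],[[[[[[[[Int.ofNat (nat_lit 0),Int.negSucc (nat_lit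 22560402804238514387)]]]],[[[[Int.ofNat (nat_lit 40872905223542720628)]]]]],[[],[[[[Int.negSucc (nat_lit 7780110099154927055)]]]]]],[[[[[[Int.ofNat (nat_lit 196683213584426952)],[Int.negSucc (nat_lit 590049640753280855)]]]]],[[[[[Int.ofNat (nat_lit 2133344076820361076)]]]]]],[],[[[[[[Int.ofNat (nat_lit 590049640753280856)]]]]]]],[[[[[[[Int.ofNat (nat_lit 0),Int.ofNat (nat_lit 1587327730312349916)]]]],[[[[Int.ofNat (nat_lit 7372378590847137540)]]]]]],[[[[[[Int.negSucc (nat_lit 45120805608477028775)]]]]]]],[[],[[[[[[Int.ofNat (nat_lit 2584605819871418976)]]]]]]]],[[[[[[[[Int.negSucc (nat_lit 3795102187456252891)],[Int.negSucc (nat_lit 1848749031421907795)]]]]],[[[[[Int.negSucc (nat_lit 14331178287360039947)]]]]]],[[[],[[[[Int.ofNat (nat_lit 122889502320343540)]]]]]],[[[[[[Int.ofNat (nat_lit 668538297838373996)]]]]]]],[[[[[[[Int.negSucc (nat_lit 7244164592742000555)]]]]],[[[[[Int.ofNat (nat_lit 3479190636445806252)]]]]]]],[[[[[[[Int.negSucc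 (nat_lit 1513378411071848311)]]]]]]]],[[[[[],[[[[Int.negSucc (nat_lit 2328994954705470431)]]]]]],[[[[[[Int.negSucc (nat_lit 711114692273453691)]]]]]]]],[[[[[[[[Int.ofNat (nat_lit 7520134268079504796)]]]]]]],[[[[[[[Int.negSucc (nat_lit 529109243437449971)]]]]]]]]],[[[[[[[[[Int.ofNat (nat_lit 0),Int.ofNat (nat_lit 48181664377936896096)]]]],[[[[Int.ofNat (nat_lit 19515278235337485836)],[Int.ofNat (nat_lit 18843667924640458092)]]]]],[[[[[Int.ofNat (nat_lit 0),Int.negSucc (nat_lit 33040841762969998535)]]]],[[[[Int.negSucc (nat_lit 10031858541568574447)]]]]]],[[[[[[Int.ofNat (nat_lit 2608858138930686084)],[Int.ofNat (nat_lit 313079192476174692)]]]],[],[[[[Int.ofNat (nat_lit 1401480415298811948)]]]]],[[[[[Int.negSucc (nat_lit 3605700520950193103)]]]]],[[[[[Int.ofNat (nat_lit 2685484990641552048)]]]]]],[[[],[[[[Int.negSucc (nat_lit 15303035723889856691)]]]]]],[[[[[[Int.negSucc (nat_lit 313079192476174691)]]]]]]],[[[[[[[Int.ofNat (nat_lit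 0),Int.ofNat (nat_lit 23895502667704378788)]]]],[[[[Int.ofNat (nat_lit 21732493778226001668)]]]]],[[],[[[[Int.negSucc (nat_lit 2700187269186539999)]]]]]],[[[[[[Int.ofNat (nat_lit 96363328755873792192)]]]]],[[[[[Int.negSucc (nat_lit 57999228915626657783)]]]]]]],[[[[],[[[[Int.ofNat (nat_lit 17837556063590279640)]]]]]],[[[[[[Int.ofNat (nat_lit 48104084527884932268)]]]]]]]],[[[[[[[[Int.negSucc (nat_lit 2679764018562519471)],[Int.negSucc (nat_lit 66523202428980305591)]]]],[],[[[[Int.negSucc (nat_lit 6310435966258323407)]]]]],[[[[[Int.ofNat (nat_lit 7308759154394175468)]]]]],[[[[[Int.negSucc (nat_lit 12727499705432936795)]]]]]],[[[[[[Int.ofNat (nat_lit 0),Int.negSucc (nat_lit 685580396781891083)]]]],[[[[Int.ofNat (nat_lit 1820264884344186384)]]]]]],[[[[[[Int.ofNat (nat_lit 66523202428980305592)]]]]]]],[[[[[[[Int.negSucc (nat_lit 610744748292010019)],[Int.negSucc (nat_lit 1832234244876030059)]]]]],[[[[[Int.ofNat (nat_lit 16523124076857241248)]]]]]],[],[[[[[[Int.ofNat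 (nat_lit 461073451312247892)]]]]]]],[[[[[[[Int.negSucc (nat_lit 66523202428980305591)]]]]]]],[[[[[[[Int.negSucc (nat_lit 1832234244876030059)]]]]]]]],[[[[[[[[Int.ofNat (nat_lit 0),Int.negSucc (nat_lit 12982350436524051899)]]]],[[[[Int.ofNat (nat_lit 29306984615674942332)]]]]]],[[[[[[Int.ofNat (nat_lit 3605700520950193104)]]]]],[[[[[Int.negSucc (nat_lit 3961115028176723987)]]]]]]],[[[[],[[[[Int.ofNat (nat_lit 444160525974550968)]]]]]],[[[[[[Int.negSucc (nat_lit 34047155483361443087)]]]]]]]],[[[[[[[[Int.ofNat (nat_lit 24812350430897088596)]]]]],[[[[[Int.negSucc (nat_lit 24130827604493021923)]]]]]]],[[[[[[[Int.negSucc (nat_lit 592788965054322055)]]]]]]]],[[[],[[[[[[Int.ofNat (nat_lit 818576439680577884)]]]]]]]],[[[[[[[[Int.ofNat (nat_lit 6176199176929925096)]]]]]]]]],[[[[[[[[[Int.ofNat (nat_lit 0),Int.ofNat (nat_lit 60596948090964345252)]]]],[[[[Int.ofNat (nat_lit 48181664377936896096)]]]]],[[],[[[[Int.negSucc (nat_lit 14197173838329540443)]]]]]],[[[[[[Int.ofNat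 (nat_lit 655262853758801464)],[Int.negSucc (nat_lit 1965788561276404391)]]]]],[[[[[Int.ofNat (nat_lit 313079192476174692)]]]]]],[],[[[[[[Int.ofNat (nat_lit 1965788561276404392)]]]]]]],[[[[[[[Int.ofNat (nat_lit 0),Int.ofNat (nat_lit 4035370114925134128)]]]],[[[[Int.ofNat (nat_lit 23895502667704378788)]]]]]],[[[[[[Int.ofNat (nat_lit 121193896181928690504)]]]]]]],[[],[[[[[[Int.ofNat (nat_lit 6104951668573863864)]]]]]]]],[[[[[[[[Int.ofNat (nat_lit 10492643498067941772)],[Int.negSucc (nat_lit 41621725417161939011)]]]]],[[[[[Int.negSucc (nat_lit 30613927888651383659)]]]]]],[[[],[[[[Int.ofNat (nat_lit 2681688579793325256)]]]]]],[[[[[[Int.ofNat (nat_lit 45162357617912540412)]]]]]]],[[[[[[[Int.ofNat (nat_lit 21732493778226001668)]]]]],[[[[[Int.negSucc (nat_lit 3472452848351264939)]]]]]]],[[[[[[[Int.negSucc (nat_lit 42627837278212117463)]]]]]]]],[[[[[],[[[[Int.ofNat (nat_lit 22328939014379563704)]]]]]],[[[[[[Int.ofNat (nat_lit 1820264884344186384)]]]]]]]],[[[[[[[[Int.ofNat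 (nat_lit 23763816927753676120)]]]]]]],[[[[[[[Int.ofNat (nat_lit 2074438603546668600)]]]]]]]]],[[[[[[[[[Int.ofNat (nat_lit 0),Int.ofNat (nat_lit 26442281495304969444)]]]],[[[[Int.ofNat (nat_lit 65482219760653294876)]]]]]],[[[[[[Int.negSucc (nat_lit 1201900173650064367)]]]]],[[[[[Int.negSucc (nat_lit 1070626897729220375)]]]]]]],[[[[],[[[[Int.ofNat (nat_lit 5027170597996410464)]]]]]],[[[[[[Int.ofNat (nat_lit 55578714527381051984)]]]]]]]],[[[[[[[[Int.ofNat (nat_lit 34557362636755989220)]]]]],[[[[[Int.negSucc (nat_lit 41449171665647947523)]]]]]]],[[[[[[[Int.ofNat (nat_lit 21438043137421999608)]]]]]]]],[[[],[[[[[[Int.ofNat (nat_lit 1083524950910086356)]]]]]]]],[[[[[[[[Int.ofNat (nat_lit 19209031471728928032)]]]]]]]]],[[[[[[],[[[[Int.ofNat (nat_lit 32723504136851788808)]]]]]],[[[[[[Int.ofNat (nat_lit 104359730825391564)]]]]]]]],[[[[[[[[Int.ofNat (nat_lit 38422547281304243388)]]]]]]],[[[[[[[Int.ofNat (nat_lit 3424625366633124108)]]]]]]]]],[[[[],[[[[[[Int.negSucc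 (nat_lit 655262853758801463)]]]]]]]],[[[[[[[[Int.ofNat (nat_lit 12568373022917656440)]]]]]]]]]]

/-- A coefficient. -/
noncomputable def sr6_m2_0_2 : MP 10 :=
  [[[[[[[[[[Int.ofNat (nat_lit 17667223437607698678)],[Int.ofNat (nat_lit 76638404544448911354)]]]],[[[[Int.ofNat (nat_lit 0),Int.negSucc (nat_lit 17065524384841471103)]]]]],[[[[[Int.ofNat (nat_lit 9152851151111359572)],[Int.negSucc (nat_lit 27458553453334078715)]]]]]],[[[[[[Int.ofNat (nat_lit 0),Int.negSucc (nat_lit 1263853035925584947)]]]]]],[[[[[[Int.negSucc (nat_lit 75845805228805776673)],[Int.negSucc (nat_lit 2377797946929404039)]]]]],[[[[[Int.ofNat (nat_lit 27458553453334078716)]]]]]],[],[[[[[[Int.ofNat (nat_lit 2377797946929404040)]]]]]]],[[[[[[[Int.ofNat (nat_lit 1173454017153973736)],[Int.ofNat (nat_lit 21765959921907778104)]]]]]],[[[[[[Int.ofNat (nat_lit 0),Int.ofNat (nat_lit 4004472332249321100)]]]],[[[[Int.negSucc (nat_lit 34131048769682942207)]]]]]],[[[[[[Int.negSucc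 (nat_lit 24293665993758947999)]]]]]]],[[[[[[[Int.ofNat (nat_lit 77831472038085943636)],[Int.ofNat (nat_lit 3579202480911096846)]]]]],[[[[[Int.negSucc (nat_lit 27458553453334078715)]]]]]],[],[[[[[[Int.ofNat (nat_lit 2051944236658141314)]]]]]]],[[[[[[[Int.ofNat (nat_lit 21765959921907778104)]]]]]]],[[[[[[[Int.ofNat (nat_lit 3579202480911096846)]]]]]]]],[[[[[[[[Int.ofNat (nat_lit 0),Int.ofNat (nat_lit 126433502685919555128)]]]],[[[[Int.negSucc (nat_lit 71597604780957950781)],[Int.ofNat (nat_lit 15122399290472881716)]]]]],[[[[[Int.ofNat (nat_lit 0),Int.negSucc (nat_lit 26480654371297463915)]]]],[[[[Int.ofNat (nat_lit 10393029068492607612)]]]]]],[[[[[[Int.ofNat (nat_lit 8225875104534591136)],[Int.ofNat (nat_lit 5546270776995109464)]]]]],[[[[[Int.negSucc (nat_lit 1263853035925584947)]]]]]],[[[],[[[[Int.negSucc (nat_lit 12744601343543477675)]]]]]],[[[[[[Int.negSucc (nat_lit 5546270776995109463)]]]]]]],[[[[[[[Int.ofNat (nat_lit 0),Int.ofNat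 (nat_lit 13299540784917119340)]]]],[[[[Int.negSucc (nat_lit 21765959921907778103)]]]]]],[[[[[[Int.ofNat (nat_lit 252867005371839110256)]]]]],[[[[[Int.negSucc (nat_lit 48956836410345606731)]]]]]]],[[[[],[[[[Int.ofNat (nat_lit 11543196809561784870)]]]]]],[[[[[[Int.ofNat (nat_lit 32145352346829348144)]]]]]]]],[[[[[[[[Int.ofNat (nat_lit 19894055061800304904)],[Int.negSucc (nat_lit 59581775018360055455)]]]],[],[[[[Int.negSucc (nat_lit 15122399290472881715)]]]]],[[[[[Int.ofNat (nat_lit 126433502685919555128)]]]]],[[[[[Int.negSucc (nat_lit 26480654371297463915)]]]]]],[[[],[[[[Int.negSucc (nat_lit 5546270776995109463)]]]]]],[[[[[[Int.ofNat (nat_lit 59581775018360055456)]]]]]]],[[[],[[[[[Int.ofNat (nat_lit 13299540784917119340)]]]]]]],[[[[[[[Int.negSucc (nat_lit 59581775018360055455)]]]]]]]],[[[[[[[[Int.ofNat (nat_lit 0),Int.ofNat (nat_lit 5975512862614602144)]]]],[[[[Int.ofNat (nat_lit 65270283146640545824)]]]]]],[[[[[[Int.ofNat (nat_lit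 421284345308528316)]]]]]]],[[],[[[[[[Int.ofNat (nat_lit 10616201614479430588)]]]]]]]],[[[[[[[[Int.negSucc (nat_lit 42144500895306518375)]]]]],[[[[[Int.ofNat (nat_lit 14802397653047090116)]]]]]]],[[[[[[[Int.negSucc (nat_lit 4433180261639039779)]]]]]]]],[],[[[[[[[[Int.negSucc (nat_lit 1991837620871534047)]]]]]]]]],[[[[[[[[[Int.ofNat (nat_lit 39745539585576254752)],[Int.ofNat (nat_lit 172362932606774160120)]]]],[[[[Int.ofNat (nat_lit 0),Int.negSucc (nat_lit 6246139715139427511)]]]],[[[[Int.negSucc (nat_lit 17065524384841471103)]]]]],[[[[[Int.ofNat (nat_lit 80016395081838354994)],[Int.negSucc (nat_lit 10133971612168330919)]]]]],[[[[[Int.negSucc (nat_lit 27458553453334078715)]]]]]],[[[[[[Int.ofNat (nat_lit 0),Int.ofNat (nat_lit 2312228395338083088)]]]],[[[[Int.negSucc (nat_lit 1263853035925584947)]]]]]],[[[[[[Int.negSucc (nat_lit 172362932606774160119)]]]]],[[[[[Int.ofNat (nat_lit 7756173665238926880)]]]]]]],[[[[[[[Int.ofNat (nat_lit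 8190421283824330888)],[Int.ofNat (nat_lit 17721837254401248744)]]]]],[[[[[Int.ofNat (nat_lit 21765959921907778104)]]]]]],[[[],[[[[Int.negSucc (nat_lit 8487807098029533923)]]]]]],[[[[[[Int.negSucc (nat_lit 13097380463725082567)]]]]]]],[[[[[[[Int.ofNat (nat_lit 172362932606774160120)]]]]],[[[[[Int.negSucc (nat_lit 6554769131257234073)]]]]]]],[[[[[[[Int.ofNat (nat_lit 17721837254401248744)]]]]]]]],[[[[[[[[Int.ofNat (nat_lit 0),Int.ofNat (nat_lit 158407107364565941656)]]]],[[[[Int.negSucc (nat_lit 45929429920854604991)]]]]],[[],[[[[Int.negSucc (nat_lit 7470423183795678791)]]]]]],[[],[[[[[Int.ofNat (nat_lit 7858499172333192552)]]]]]]],[[[[],[[[[Int.negSucc (nat_lit 4422296469484129403)]]]]]],[[[[[[Int.ofNat (nat_lit 316814214729131883312)]]]]]]]],[[[[[[[[Int.negSucc (nat_lit 81394479844261131553)],[Int.negSucc (nat_lit 13651154351761706207)]]]]],[[[[[Int.ofNat (nat_lit 126283885799539964916)]]]]]],[],[[[[[[Int.ofNat (nat_lit 16028952298691110248)]]]]]]],[[[[[[[Int.negSucc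 (nat_lit 21765959921907778103)]]]]]]],[[[[[[[Int.negSucc (nat_lit 17230356832672803053)]]]]]]]],[[[[[],[[[[Int.ofNat (nat_lit 6586314495616569140)]]]]]],[[[[[[Int.negSucc (nat_lit 6317013575441137159)]]]]]]]],[[[[[[[[Int.ofNat (nat_lit 6779405896838074904)]]]]]]]]],[[[[[[[[[Int.ofNat (nat_lit 24587040288025766744)],[Int.ofNat (nat_lit 113096813704631186040)]]]],[],[[[[Int.negSucc (nat_lit 6246139715139427511)]]]]],[[[[[Int.ofNat (nat_lit 172362932606774160120)]]]]],[[[[[Int.negSucc (nat_lit 10133971612168330919)]]]]]],[[[],[[[[Int.ofNat (nat_lit 2312228395338083088)]]]]]],[[[[[[Int.negSucc (nat_lit 113096813704631186039)]]]]]]],[[[],[[[[[Int.ofNat (nat_lit 17721837254401248744)]]]]]]],[[[[[[[Int.ofNat (nat_lit 113096813704631186040)]]]]]]]],[[[[[[[[Int.ofNat (nat_lit 0),Int.ofNat (nat_lit 23578886294950082748)]]]],[[[[Int.ofNat (nat_lit 28244769275093284512)]]]]]],[[[[[[Int.negSucc (nat_lit 1263853035925584947)]]]]]]],[[],[[[[[[Int.ofNat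 (nat_lit 51162244922149486596)]]]]]]]],[[[[[[[[Int.negSucc (nat_lit 45929429920854604991)]]]]],[[[[[Int.negSucc (nat_lit 6418950815940756455)]]]]]]],[[[[[[[Int.negSucc (nat_lit 4422296469484129403)]]]]]]]],[],[[[[[[[[Int.ofNat (nat_lit 11767038449392947436)]]]]]]]]],[[[[[[[[[Int.ofNat (nat_lit 24242895229043305694)],[Int.ofNat (nat_lit 3909718857318994272)]]]]],[[[[[Int.ofNat (nat_lit 103943962553519826468)]]]]]],[],[[[[[[Int.negSucc (nat_lit 4702318172962128951)]]]]]]],[[[[[[[Int.ofNat (nat_lit 7255319973969259368)]]]]]]],[[[[[[[Int.ofNat (nat_lit 5102786350956026554)]]]]]]]],[[[[[],[[[[Int.ofNat (nat_lit 18463827485982621536)]]]]]],[[[[[[Int.ofNat (nat_lit 4160985321003119576)]]]]]]]],[[[[[[[[Int.ofNat (nat_lit 25449701987148070464)]]]]]]]]],[[[[[[[[[Int.ofNat (nat_lit 57454310868924720040)]]]]],[[[[[Int.ofNat (nat_lit 531728319929550632)]]]]]]],[[[[[[[Int.ofNat (nat_lit 5907279084800416248)]]]]]]]],[],[[[[[[[[Int.ofNat (nat_lit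 15118782653710519740)]]]]]]]]],[[[[[[[[[Int.ofNat (nat_lit 37698937901543728680)]]]]]]]]],[[[[[[[[[Int.ofNat (nat_lit 1303239619106331424)]]]]]]]]]]

/-- A coefficient. -/
noncomputable def sr6_m2_0_3 : MP 10 :=
  [[[[[[[[[[Int.ofNat (nat_lit 0),Int.negSucc (nat_lit 121521590198836077791)]]]],[[[[Int.negSucc (nat_lit 3911075647673778079)],[Int.negSucc (nat_lit 11733226943021334239)]]]]],[[[[[Int.ofNat (nat_lit 0),Int.ofNat (nat_lit 21748307632123478628)]]]]]],[[[[[[Int.negSucc (nat_lit 9827891300386673291)],[Int.negSucc (nat_lit 3757545567149344715)]]]]]],[[[],[[[[Int.ofNat (nat_lit 11733226943021334240)]]]]]],[[[[[[Int.ofNat (nat_lit 3757545567149344716)]]]]]]],[[[[[[[Int.ofNat (nat_lit 0),Int.negSucc (nat_lit 16645872096013205567)]]]]]],[[[[[[Int.negSucc (nat_lit 243043180397672155583)]]]]],[[[[[Int.ofNat (nat_lit 43496615264246957256)]]]]]]],[[[[],[[[[Int.negSucc (nat_lit 11733226943021334239)]]]]]],[[[[[[Int.negSucc (nat_lit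 37049289759175755851)]]]]]]]],[[[[[[[[Int.negSucc (nat_lit 15610822860978587091)],[Int.ofNat (nat_lit 190333600411358796948)]]]],[],[[[[Int.ofNat (nat_lit 11733226943021334240)]]]]],[[[[[Int.negSucc (nat_lit 121521590198836077791)]]]]],[[[[[Int.ofNat (nat_lit 21748307632123478628)]]]]]],[[[[[[Int.ofNat (nat_lit 0),Int.ofNat (nat_lit 17150154419010459180)]]]],[[[[Int.ofNat (nat_lit 3757545567149344716)]]]]]],[[[[[[Int.negSucc (nat_lit 190333600411358796947)]]]]]]],[[[[[[[Int.ofNat (nat_lit 8960735117363041060)],[Int.ofNat (nat_lit 26882205352089123180)]]]]],[[[[[Int.negSucc (nat_lit 16645872096013205567)]]]]]],[],[[[[[[Int.ofNat (nat_lit 7418103485931795180)]]]]]]],[[[[[[[Int.ofNat (nat_lit 190333600411358796948)]]]]]]],[[[[[[[Int.ofNat (nat_lit 26882205352089123180)]]]]]]]],[[[[[[[[Int.ofNat (nat_lit 0),Int.ofNat (nat_lit 74911944270943064688)]]]],[[[[Int.negSucc (nat_lit 190333600411358796947)]]]]]],[[],[[[[[Int.ofNat (nat_lit 17150154419010459180)]]]]]]],[[[[],[[[[Int.negSucc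 (nat_lit 26882205352089123179)]]]]]],[[[[[[Int.ofNat (nat_lit 149823888541886129376)]]]]]]]],[[[[[[[[Int.ofNat (nat_lit 40507196732945359264)]]]]],[[[[[Int.ofNat (nat_lit 67662508393568571812)]]]]]]],[[[[[[[Int.ofNat (nat_lit 5548624032004401856)]]]]]]]],[[[],[[[[[[Int.negSucc (nat_lit 5716718139670153059)]]]]]]]],[[[[[[[[Int.negSucc (nat_lit 24970648090314354895)]]]]]]]]],[[[[[[[[[Int.ofNat (nat_lit 0),Int.negSucc (nat_lit 186546422734485262763)]]]],[[[[Int.negSucc (nat_lit 121521590198836077791)]]]]],[[],[[[[Int.ofNat (nat_lit 10015080689102144388)]]]]]],[[[[[[Int.negSucc (nat_lit 2813945107352355427)],[Int.ofNat (nat_lit 8441835322057066284)]]]]],[[[[[Int.negSucc (nat_lit 3757545567149344715)]]]]]],[],[[[[[[Int.negSucc (nat_lit 8441835322057066283)]]]]]]],[[[[[[[Int.ofNat (nat_lit 0),Int.negSucc (nat_lit 11782165969087624463)]]]],[[[[Int.negSucc (nat_lit 16645872096013205567)]]]]]],[[[[[[Int.negSucc (nat_lit 373092845468970525527)]]]]]]],[[],[[[[[[Int.negSucc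 (nat_lit 15122496616118182643)]]]]]]]],[[[[[[[[Int.ofNat (nat_lit 32011904074277238444)],[Int.ofNat (nat_lit 142591960632387771132)]]]]],[[[[[Int.ofNat (nat_lit 3787177676873534184)]]]]]],[[[],[[[[Int.ofNat (nat_lit 8708319096953392896)]]]]]],[[[[[[Int.negSucc (nat_lit 142591960632387771131)]]]]]]],[[[],[[[[[Int.ofNat (nat_lit 15100039383001498716)]]]]]]],[[[[[[[Int.ofNat (nat_lit 142591960632387771132)]]]]]]]],[[[[[],[[[[Int.negSucc (nat_lit 55946789418423372203)]]]]]],[[[[[[Int.ofNat (nat_lit 3757545567149344716)]]]]]]]],[[[[[[[[Int.negSucc (nat_lit 128151459499863709359)]]]]]]],[[[[[[[Int.negSucc (nat_lit 22954816695726581691)]]]]]]]]],[[[[[[[[[Int.ofNat (nat_lit 0),Int.negSucc (nat_lit 55137230437717730543)]]]],[[[[Int.negSucc (nat_lit 186546422734485262763)]]]]]],[[],[[[[[Int.ofNat (nat_lit 8441835322057066284)]]]]]]],[[[[],[[[[Int.negSucc (nat_lit 11782165969087624463)]]]]]],[[[[[[Int.negSucc (nat_lit 110274460875435461087)]]]]]]]],[[[[[[[[Int.negSucc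 (nat_lit 121521590198836077791)]]]]],[[[[[Int.ofNat (nat_lit 109203037826793519216)]]]]]]],[[[[[[[Int.negSucc (nat_lit 16645872096013205567)]]]]]]]],[[[],[[[[[[Int.ofNat (nat_lit 8708319096953392896)]]]]]]]],[[[[[[[[Int.negSucc (nat_lit 49300939548872129595)]]]]]]]]],[[[[[[],[[[[Int.negSucc (nat_lit 59048306085391508623)]]]]]],[[[[[[Int.negSucc (nat_lit 1252515189049781571)]]]]]]]],[[[[[[[[Int.negSucc (nat_lit 123101889264032330447)]]]]]]],[[[[[[[Int.negSucc (nat_lit 2821430851724583403)]]]]]]]]],[[[[],[[[[[[Int.ofNat (nat_lit 2813945107352355428)]]]]]]]],[[[[[[[[Int.negSucc (nat_lit 7606576893588473499)]]]]]]]]]]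

/-- A coefficient. -/
noncomputable def sr6_m2_0_4 : MP 10 :=
  [[[[[[[[[[Int.ofNat (nat_lit 9342544398470388482)],[Int.negSucc (nat_lit 160007953526661118661)]]]],[[[[Int.ofNat (nat_lit 0),Int.ofNat (nat_lit 1357783007768247180)]]]]],[[[[[Int.negSucc (nat_lit 807446644703986995)],[Int.ofNat (nat_lit 2422339934111960988)]]]]]],[[[[[[Int.ofNat (nat_lit 0),Int.negSucc (nat_lit 9888113800899591515)]]]]]],[[[[[[Int.ofNat (nat_lit 160007953526661118662)]]]]],[[[[[Int.negSucc (nat_lit 2422339934111960987)]]]]]]],[[[[[[[Int.negSucc (nat_lit 11153933328438252959)],[Int.negSucc (nat_lit 13362889280548446695)]]]]]],[[[],[[[[Int.ofNat (nat_lit 2715566015536494360)]]]]]],[[[[[[Int.negSucc (nat_lit 6413338321250736335)]]]]]]],[[[[[[[Int.negSucc (nat_lit 160007953526661118661)]]]]],[[[[[Int.ofNat (nat_lit 2422339934111960988)]]]]]]],[[[[[[[Int.negSucc (nat_lit 13362889280548446695)]]]]]]]],[[[[[[[[Int.ofNat (nat_lit 0),Int.negSucc (nat_lit 181077322498157300327)]]]],[[[[Int.ofNat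 (nat_lit 160007953526661118662)]]]]],[[],[[[[Int.negSucc (nat_lit 1064556926343713807)]]]]]],[[],[[[[[Int.negSucc (nat_lit 9888113800899591515)]]]]]]],[[[[],[[[[Int.ofNat (nat_lit 13362889280548446696)]]]]]],[[[[[[Int.negSucc (nat_lit 362154644996314600655)]]]]]]]],[[[[[[[[Int.ofNat (nat_lit 22985215564938665608)],[Int.ofNat (nat_lit 69938881427327705712)]]]]],[[[[[Int.negSucc (nat_lit 181077322498157300327)]]]]]],[],[[[[[[Int.negSucc (nat_lit 69938881427327705711)]]]]]]],[],[[[[[[[Int.ofNat (nat_lit 69938881427327705712)]]]]]]]],[[[[[],[[[[Int.negSucc (nat_lit 70391475763250454771)]]]]]],[[[[[[Int.ofNat (nat_lit 3296037933633197172)]]]]]]]],[[[[[[[[Int.ofNat (nat_lit 60359107499385766776)]]]]]]]]],[[[[[[[[[Int.negSucc (nat_lit 7481474254920297567)],[Int.negSucc (nat_lit 161680081284803197823)]]]],[],[[[[Int.ofNat (nat_lit 1357783007768247180)]]]]],[[[[[Int.negSucc (nat_lit 160007953526661118661)]]]]],[[[[[Int.ofNat (nat_lit 2422339934111960988)]]]]]],[[[],[[[[Int.negSucc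 (nat_lit 9888113800899591515)]]]]]],[[[[[[Int.ofNat (nat_lit 161680081284803197824)]]]]]]],[[[],[[[[[Int.negSucc (nat_lit 13362889280548446695)]]]]]]],[[[[[[[Int.negSucc (nat_lit 161680081284803197823)]]]]]]]],[[[[[[[[Int.ofNat (nat_lit 0),Int.negSucc (nat_lit 56523832267214522747)]]]],[[[[Int.negSucc (nat_lit 19397241213354102503)]]]]]]],[[],[[[[[[Int.negSucc (nat_lit 113047664534429045495)]]]]]]]],[[[[[[[[Int.ofNat (nat_lit 160007953526661118662)]]]]],[[[[[Int.ofNat (nat_lit 10992709226001221976)]]]]]]],[[[[[[[Int.ofNat (nat_lit 13362889280548446696)]]]]]]]],[],[[[[[[[[Int.negSucc (nat_lit 51097604004922864795)]]]]]]]]],[[[[[[[[[Int.ofNat (nat_lit 9015144859688447680)],[Int.negSucc (nat_lit 27045434579065343039)]]]]],[[[[[Int.negSucc (nat_lit 161680081284803197823)]]]]]],[],[[[[[[Int.ofNat (nat_lit 27045434579065343040)]]]]]]],[],[[[[[[[Int.negSucc (nat_lit 27045434579065343039)]]]]]]]],[[[[[],[[[[Int.negSucc (nat_lit 28120614680380932527)]]]]]],[[[[[[Int.negSucc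 (nat_lit 9888113800899591515)]]]]]]]],[[[[[[[[Int.negSucc (nat_lit 19397241213354102503)]]]]]]]]],[[[[[[[[[Int.negSucc (nat_lit 53335984508887039553)]]]]],[[[[[Int.negSucc (nat_lit 26237987934361356043)]]]]]]],[[[[[[[Int.negSucc (nat_lit 4454296426849482231)]]]]]]]],[],[[[[[[[[Int.negSucc (nat_lit 6165437212373277803)]]]]]]]]],[[[[[[[[[Int.negSucc (nat_lit 53893360428267732607)]]]]]]]]],[[[[[[[[[Int.negSucc (nat_lit 9015144859688447679)]]]]]]]]]]

/-- A coefficient. -/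
noncomputable def sr6_m2_0_5 : MP 10 :=
  [[[[[[[[[[Int.ofNat (nat_lit 0),Int.ofNat (nat_lit 91612809588723101376)]]]]]],[[[[[[Int.ofNat (nat_lit 2596030485690530208)],[Int.negSucc (nat_lit 7788091457071590623)]]]]]],[],[[[[[[Int.ofNat (nat_lit 7788091457071590624)]]]]]]],[[[[[[[Int.ofNat (nat_lit 0),Int.ofNat (nat_lit 4721682753705652344)]]]]]],[[[[[[Int.ofNat (nat_lit 183225619177446202752)]]]]]]],[[],[[[[[[Int.ofNat (nat_lit 1655274050339714064)]]]]]]]],[[[[[[[[Int.negSucc (nat_lit 30963058153815703663)],[Int.negSucc (nat_lit 137682552851427406319)]]]]],[[[[[Int.ofNat (nat_lit 91612809588723101376)]]]]]],[[[],[[[[Int.ofNat (nat_lit 7788091457071590624)]]]]]],[[[[[[Int.ofNat (nat_lit 137682552851427406320)]]]]]]],[[[],[[[[[Int.ofNat (nat_lit 4721682753705652344)]]]]]]],[[[[[[[Int.negSucc (nat_lit 137682552851427406319)]]]]]]]],[[[[[],[[[[Int.ofNat (nat_lit 137682552851427406320)]]]]]]]],[[[[[[[[Int.negSucc (nat_lit 30537603196241033791)]]]]]]],[[[[[[[Int.negSucc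 (nat_lit 1573894251235217447)]]]]]]]]],[[[[[[[[[Int.ofNat (nat_lit 0),Int.ofNat (nat_lit 49603413680113641264)]]]],[[[[Int.ofNat (nat_lit 91612809588723101376)]]]]]],[[],[[[[[Int.negSucc (nat_lit 7788091457071590623)]]]]]]],[[[[],[[[[Int.ofNat (nat_lit 4721682753705652344)]]]]]],[[[[[[Int.ofNat (nat_lit 99206827360227282528)]]]]]]]],[[[[],[[[[[Int.negSucc (nat_lit 88079139171313765055)]]]]]]]],[[[],[[[[[[Int.ofNat (nat_lit 7788091457071590624)]]]]]]]],[[[[[[[[Int.ofNat (nat_lit 121148081624722859232)]]]]]]]]],[[[[[[],[[[[Int.ofNat (nat_lit 49603413680113641264)]]]]]]]],[[[[[[[[Int.ofNat (nat_lit 91612809588723101376)]]]]]]],[[[[[[[Int.ofNat (nat_lit 4721682753705652344)]]]]]]]]],[[[[],[[[[[[Int.negSucc (nat_lit 2596030485690530207)]]]]]]]],[[[[[[[[Int.ofNat (nat_lit 3709229396304505824)]]]]]]]]]]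

/-- A coefficient. -/
noncomputable def sr6_m2_0_6 : MP 10 :=
  [[[[[[[[[[Int.ofNat (nat_lit 15132558385714403418)],[Int.ofNat (nat_lit 99846104113054404126)]]]]]],[],[[[[[[Int.negSucc (nat_lit 99846104113054404125)]]]]]]],[],[[[[[[[Int.ofNat (nat_lit 99846104113054404126)]]]]]]]],[[[[[[[[Int.ofNat (nat_lit 0),Int.ofNat (nat_lit 25983817460326050540)]]]],[[[[Int.negSucc (nat_lit 99846104113054404125)]]]]]]],[[],[[[[[[Int.ofNat (nat_lit 51967634920652101080)]]]]]]]],[[[[],[[[[[Int.ofNat (nat_lit 25983817460326050540)]]]]]]]],[],[[[[[[[[Int.negSucc (nat_lit 8661272486775350179)]]]]]]]]],[[[[[[[[[Int.negSucc (nat_lit 3624790331340374995)],[Int.ofNat (nat_lit 10874370994021124988)]]]]],[[[[[Int.ofNat (nat_lit 99846104113054404126)]]]]]],[],[[[[[[Int.negSucc (nat_lit 10874370994021124987)]]]]]]],[],[[[[[[[Int.ofNat (nat_lit 10874370994021124988)]]]]]]]],[[[[[],[[[[Int.ofNat (nat_lit 15109446466304925552)]]]]]]]],[[[[[[[[Int.negSucc (nat_lit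 99846104113054404125)]]]]]]]]],[[[[[],[[[[[Int.ofNat (nat_lit 10874370994021124988)]]]]]]]],[],[[[[[[[[Int.ofNat (nat_lit 15109446466304925552)]]]]]]]]],[[[[[[[[[Int.ofNat (nat_lit 33282034704351468042)]]]]]]]]],[[[[[[[[[Int.ofNat (nat_lit 3624790331340374996)]]]]]]]]]]

/-- A coefficient. -/
noncomputable def sr6_m2_0_7 : MP 10 :=
  [[[[[[[[[[Int.ofNat (nat_lit 0),Int.negSucc (nat_lit 35152118958867344219)]]]]]]],[[],[[[[[[Int.negSucc (nat_lit 70304237917734688439)]]]]]]]],[[[[],[[[[[Int.negSucc (nat_lit 35152118958867344219)]]]]]]]],[],[[[[[[[[Int.ofNat (nat_lit 11717372986289114740)]]]]]]]]],[[[[[[],[[[[Int.negSucc (nat_lit 35152118958867344219)]]]]]]]]],[[],[[[[[[[[Int.negSucc (nat_lit 35152118958867344219)]]]]]]]]]]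

/-- A coefficient. -/
noncomputable def sr6_m2_0_8 : MP 10 :=
  [[[[[[[[[[Int.ofNat (nat_lit 10749565740966142168)],[Int.negSucc (nat_lit 32248697222898426503)]]]]]],[],[[[[[[Int.ofNat (nat_lit 32248697222898426504)]]]]]]],[],[[[[[[[Int.negSucc (nat_lit 32248697222898426503)]]]]]]]],[[[[[],[[[[Int.ofNat (nat_lit 32248697222898426504)]]]]]]]]],[[[[[],[[[[[Int.negSucc (nat_lit 32248697222898426503)]]]]]]]],[],[[[[[[[[Int.ofNat (nat_lit 32248697222898426504)]]]]]]]]],[],[[[[[[[[[Int.negSucc (nat_lit 10749565740966142167)]]]]]]]]]]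

/-- A coefficient. -/
noncomputable def sr6_m2_1_0 : MP 10 :=
  [[[[[[[[[[Int.negSucc (nat_lit 9271117802131200403)],[Int.ofNat (nat_lit 27813353406393601212)]]]],[[[[Int.ofNat (nat_lit 0),Int.negSucc (nat_lit 4802497230724077083)]]]]],[[[[[Int.ofNat (nat_lit 3524292879554402404)],[Int.negSucc (nat_lit 10572878638663207211)]]]]]],[[[[[[Int.ofNat (nat_lit 0),Int.negSucc (nat_lit 7703509351762769915)]]]],[[[[Int.ofNat (nat_lit 1156833143611974636)],[Int.ofNat (nat_lit 3470499430835923908)]]]]],[[[[[Int.ofNat (nat_lit 0),Int.negSucc (nat_lit 5435247904093407359)]]]]]],[[[[[[Int.negSucc (nat_lit 30518116874812410191)],[Int.negSucc (nat_lit 8114290405256426939)]]]]],[[[[[Int.ofNat (nat_lit 10572878638663207212)]]]]]],[[[],[[[[Int.negSucc (nat_lit 3470499430835923907)]]]]]],[[[[[[Int.ofNat (nat_lit 8114290405256426940)]]]]]]],[[[[[[[Int.ofNat (nat_lit 1945307485187552792)],[Int.negSucc (nat_lit 5835922455562658375)]]]],[[[[Int.ofNat (nat_lit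 0),Int.negSucc (nat_lit 6284831150768648195)]]]]],[[[[[Int.ofNat (nat_lit 3369895237691140892)],[Int.negSucc (nat_lit 10109685713073422675)]]]]]],[[[[[[Int.ofNat (nat_lit 0),Int.ofNat (nat_lit 19069539023066299128)]]]],[[[[Int.negSucc (nat_lit 9604994461448154167)]]]]]],[[[[[[Int.negSucc (nat_lit 9571096247962881455)]]]]],[[[[[Int.negSucc (nat_lit 760810095113392043)]]]]]]],[[[[[[[Int.ofNat (nat_lit 21400125397032489952)],[Int.ofNat (nat_lit 19239684028083333780)]]]]],[[[[[Int.negSucc (nat_lit 10572878638663207211)]]]]]],[[[],[[[[Int.negSucc (nat_lit 9099162870701372483)]]]]]],[[[[[[Int.ofNat (nat_lit 10785103612792837536)]]]]]]],[[[[[[[Int.negSucc (nat_lit 5835922455562658375)]]]]],[[[[[Int.negSucc (nat_lit 10109685713073422675)]]]]]]],[[[[[[[Int.ofNat (nat_lit 19239684028083333780)]]]]]]]],[[[[[[[[Int.ofNat (nat_lit 0),Int.ofNat (nat_lit 11419345107420282888)]]]],[[[[Int.negSucc (nat_lit 30335833113285487595)],[Int.negSucc (nat_lit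 7567439120675659151)]]]]],[[[[[Int.ofNat (nat_lit 0),Int.ofNat (nat_lit 17180135104504291488)]]]],[[[[Int.ofNat (nat_lit 5770381407939130128)]]]]]],[[[[[[Int.negSucc (nat_lit 12005000938722593651)],[Int.negSucc (nat_lit 36015002816167780955)]]]],[],[[[[Int.negSucc (nat_lit 3470499430835923907)]]]]],[[[[[Int.negSucc (nat_lit 7703509351762769915)]]]]],[[[[[Int.negSucc (nat_lit 5435247904093407359)]]]]]],[[[],[[[[Int.ofNat (nat_lit 15681729525932086092)]]]]]],[[[[[[Int.ofNat (nat_lit 36015002816167780956)]]]]]]],[[[[[[[Int.ofNat (nat_lit 0),Int.ofNat (nat_lit 33457094900506866348)]]]],[[[[Int.ofNat (nat_lit 5835922455562658376)]]]]],[[],[[[[Int.ofNat (nat_lit 3824854562304774480)]]]]]],[[[[[[Int.ofNat (nat_lit 22838690214840565776)]]]]],[[[[[Int.ofNat (nat_lit 53429809232074882104)]]]]]]],[[[[],[[[[Int.negSucc (nat_lit 26807123148758992931)]]]]]],[[[[[[Int.ofNat (nat_lit 30899186984845951740)]]]]]]]],[[[[[[[[Int.negSucc (nat_lit 19227696145088719867)],[Int.negSucc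 (nat_lit 46040970746906513003)]]]],[],[[[[Int.ofNat (nat_lit 7567439120675659152)]]]]],[[[[[Int.ofNat (nat_lit 11419345107420282888)]]]]],[[[[[Int.ofNat (nat_lit 17180135104504291488)]]]]]],[[[[[[Int.ofNat (nat_lit 0),Int.negSucc (nat_lit 250062385812725975)]]]],[[[[Int.ofNat (nat_lit 36015002816167780956)]]]]]],[[[[[[Int.ofNat (nat_lit 46040970746906513004)]]]]]]],[[[[[[[Int.negSucc (nat_lit 726917996250953383)],[Int.ofNat (nat_lit 2180753988752860152)]]]]],[[[[[Int.ofNat (nat_lit 33457094900506866348)]]]]]],[],[[[[[[Int.negSucc (nat_lit 2680878760378312103)]]]]]]],[[[[[[[Int.negSucc (nat_lit 46040970746906513003)]]]]]]],[[[[[[[Int.ofNat (nat_lit 2180753988752860152)]]]]]]]],[[[[[[[[Int.ofNat (nat_lit 0),Int.negSucc (nat_lit 1937855077559664455)]]]],[[[[Int.ofNat (nat_lit 47641803157147872032)]]]]]],[[[[[[Int.ofNat (nat_lit 2567836450587589972)]]]]],[[[[[Int.ofNat (nat_lit 1561686915551743144)]]]]]]],[[[[],[[[[Int.negSucc (nat_lit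 85810271829977419)]]]]]],[[[[[[Int.negSucc (nat_lit 10232223162808095287)]]]]]]]],[[[[[[[[Int.negSucc (nat_lit 3806448369140094295)]]]]],[[[[[Int.negSucc (nat_lit 7664566779061094951)]]]]]]],[[[[[[[Int.negSucc (nat_lit 11152364966835622115)]]]]]]]],[[[],[[[[[[Int.ofNat (nat_lit 83354128604241992)]]]]]]]],[[[[[[[[Int.ofNat (nat_lit 645951692519888152)]]]]]]]]],[[[[[[[[[Int.negSucc (nat_lit 18997907335462234155)],[Int.ofNat (nat_lit 56993722006386702468)]]]],[[[[Int.ofNat (nat_lit 0),Int.negSucc (nat_lit 4950010931691174119)]]]],[[[[Int.negSucc (nat_lit 4802497230724077083)]]]]],[[[[[Int.ofNat (nat_lit 31467423023064621012)],[Int.negSucc (nat_lit 10962208850013059399)]]]]],[[[[[Int.negSucc (nat_lit 10572878638663207211)]]]]]],[[[[[[Int.ofNat (nat_lit 0),Int.ofNat (nat_lit 3930053305137924156)]]]],[[[[Int.negSucc (nat_lit 7703509351762769915)]]]]],[[],[[[[Int.negSucc (nat_lit 1964748473257483451)]]]]]],[[[[[[Int.negSucc (nat_lit 56993722006386702467)]]]]],[[[[[Int.ofNat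 (nat_lit 2847918444756632460)]]]]]]],[[[[[[[Int.negSucc (nat_lit 6062697205586786535)],[Int.ofNat (nat_lit 18188091616760359608)]]]],[],[[[[Int.negSucc (nat_lit 6284831150768648195)]]]]],[[[[[Int.negSucc (nat_lit 5835922455562658375)]]]]],[[[[[Int.negSucc (nat_lit 10109685713073422675)]]]]]],[[[],[[[[Int.ofNat (nat_lit 9169517159683950888)]]]]]],[[[[[[Int.negSucc (nat_lit 10327985006484511295)]]]]]]],[[[[[[[Int.ofNat (nat_lit 56993722006386702468)]]]]],[[[[[Int.ofNat (nat_lit 8277475178070274380)]]]]]]],[[[[[[[Int.ofNat (nat_lit 18188091616760359608)]]]]]]]],[[[[[[[[Int.ofNat (nat_lit 0),Int.ofNat (nat_lit 16526694592319608164)]]]],[[[[Int.negSucc (nat_lit 45574376898966419579)]]]]],[[],[[[[Int.ofNat (nat_lit 15624893902150517616)]]]]]],[[[[[[Int.negSucc (nat_lit 2900863256446190263)],[Int.negSucc (nat_lit 8702589769338570791)]]]]],[[[[[Int.negSucc (nat_lit 32084949511029856799)]]]]]],[],[[[[[[Int.ofNat (nat_lit 8702589769338570792)]]]]]]],[[[[[[[Int.ofNat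 (nat_lit 0),Int.ofNat (nat_lit 11780021689813297428)]]]],[[[[Int.ofNat (nat_lit 15269003283746506740)]]]]]],[[[[[[Int.ofNat (nat_lit 33053389184639216328)]]]]]]],[[],[[[[[[Int.ofNat (nat_lit 14857453610288024064)]]]]]]]],[[[[[[[[Int.negSucc (nat_lit 30655938521069031471)],[Int.ofNat (nat_lit 6693702901344760572)]]]]],[[[[[Int.negSucc (nat_lit 18941397515923697627)]]]]]],[[[],[[[[Int.ofNat (nat_lit 4982027952689920908)]]]]]],[[[[[[Int.ofNat (nat_lit 1420587503911666368)]]]]]]],[[[[[[[Int.ofNat (nat_lit 5835922455562658376)]]]]],[[[[[Int.ofNat (nat_lit 24070461391639580256)]]]]]]],[[[[[[[Int.negSucc (nat_lit 12545981126738573207)]]]]]]]],[[[[[],[[[[Int.ofNat (nat_lit 585884785668292164)]]]]]],[[[[[[Int.ofNat (nat_lit 34704985047788472904)]]]]]]]],[[[[[[[[Int.ofNat (nat_lit 40532072549466643616)]]]]]]],[[[[[[[Int.negSucc (nat_lit 6107427885357292627)]]]]]]]]],[[[[[[[[[Int.negSucc (nat_lit 15467835551223541639)],[Int.ofNat (nat_lit 46403506653670624920)]]]],[],[[[[Int.negSucc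 (nat_lit 4950010931691174119)]]]]],[[[[[Int.ofNat (nat_lit 56993722006386702468)]]]]],[[[[[Int.negSucc (nat_lit 10962208850013059399)]]]]]],[[[[[[Int.ofNat (nat_lit 0),Int.ofNat (nat_lit 5087082456983758536)]]]],[[[[Int.ofNat (nat_lit 3930053305137924156)]]]]]],[[[[[[Int.negSucc (nat_lit 46403506653670624919)]]]]]]],[[[[[[[Int.negSucc (nat_lit 3156791892239870531)],[Int.ofNat (nat_lit 9470375676719611596)]]]]],[[[[[Int.ofNat (nat_lit 18188091616760359608)]]]]]],[],[[[[[[Int.ofNat (nat_lit 703789237247905476)]]]]]]],[[[[[[[Int.ofNat (nat_lit 46403506653670624920)]]]]]]],[[[[[[[Int.ofNat (nat_lit 9470375676719611596)]]]]]]]],[[[[[[[[Int.ofNat (nat_lit 0),Int.ofNat (nat_lit 17374983910211244)]]]],[[[[Int.negSucc (nat_lit 34679309292075093839)]]]]]],[[[[[[Int.negSucc (nat_lit 7703509351762769915)]]]]],[[[[[Int.negSucc (nat_lit 9050755216448219615)]]]]]]],[[[[],[[[[Int.negSucc (nat_lit 3975185137674962363)]]]]]],[[[[[[Int.ofNat (nat_lit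 19104288990886721616)]]]]]]]],[[[[[[[[Int.negSucc (nat_lit 45574376898966419579)]]]]],[[[[[Int.ofNat (nat_lit 34853421839772322704)]]]]]]],[[[[[[[Int.ofNat (nat_lit 15269003283746506740)]]]]]]]],[[[],[[[[[[Int.ofNat (nat_lit 6756833231197925304)]]]]]]]],[[[[[[[[Int.negSucc (nat_lit 8637349640207828775)]]]]]]]]],[[[[[[[[[Int.ofNat (nat_lit 4253883687292665096)],[Int.ofNat (nat_lit 15051702344515605924)]]]]],[[[[[Int.ofNat (nat_lit 42879213774116222516)]]]]]],[[[],[[[[Int.ofNat (nat_lit 6243915600595733172)]]]]]],[[[[[[Int.negSucc (nat_lit 17756465812934414903)]]]]]]],[[[[[[[Int.negSucc (nat_lit 1945307485187552791)]]]]],[[[[[Int.ofNat (nat_lit 6100480439028470704)]]]]]]],[[[[[[[Int.ofNat (nat_lit 21464930353876717184)]]]]]]]],[[[[[],[[[[Int.negSucc (nat_lit 22506817999188455183)]]]]]],[[[[[[Int.negSucc (nat_lit 8074947633584669495)]]]]]]]],[[[[[[[[Int.negSucc (nat_lit 45223802310319854423)]]]]]]],[[[[[[[Int.ofNat (nat_lit 3036564009344639216)]]]]]]]]],[[[[[[[[[Int.ofNat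 (nat_lit 18997907335462234156)]]]]],[[[[[Int.ofNat (nat_lit 11397632727844586124)]]]]]]],[[[[[[[Int.ofNat (nat_lit 6062697205586786536)]]]]]]]],[[[],[[[[[[Int.ofNat (nat_lit 2186219200537568272)]]]]]]]],[[[[[[[[Int.negSucc (nat_lit 12803093060157141155)]]]]]]]]],[[[[[[[[[Int.ofNat (nat_lit 15467835551223541640)]]]]]]],[[[[[[[Int.ofNat (nat_lit 3156791892239870532)]]]]]]]]],[[[[[[[[[Int.ofNat (nat_lit 5017234114838535308)]]]]]]]]]]

/-- A coefficient. -/
noncomputable def sr6_m2_1_1 : MP 10 :=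
  [[[[[[[[[[Int.ofNat (nat_lit 0),Int.negSucc (nat_lit 75978408733301772599)]]]],[[[[Int.negSucc (nat_lit 10121781130413522411)],[Int.negSucc (nat_lit 30365343391240567235)]]]]],[[[[[Int.ofNat (nat_lit 0),Int.ofNat (nat_lit 52788945885302313012)]]]]]],[[[[[[Int.ofNat (nat_lit 9950119098865523080)],[Int.ofNat (nat_lit 44066031615883556424)]]]]]],[[[[[[Int.ofNat (nat_lit 0),Int.negSucc (nat_lit 1909772756250256487)]]]],[[[[Int.ofNat (nat_lit 30365343391240567236)]]]]]],[[[[[[Int.negSucc (nat_lit 44066031615883556423)]]]]]]],[[[[[[[Int.ofNat (nat_lit 0),Int.negSucc (nat_lit 102282446506442617451)]]]]]],[[[[[[Int.negSucc (nat_lit 151271381813533418375)],[Int.negSucc (nat_lit 2625229775483887031)]]]]],[[[[[Int.ofNat (nat_lit 105577891770604626024)]]]]]],[],[[[[[[Int.negSucc (nat_lit 1194315737016625943)]]]]]]],[[[[[[[Int.ofNat (nat_lit 0),Int.negSucc (nat_lit 2779128130626799475)]]]],[[[[Int.negSucc (nat_lit 30365343391240567235)]]]]]],[[[[[[Int.negSucc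 (nat_lit 160498861397001678479)]]]]]]],[[],[[[[[[Int.negSucc (nat_lit 8183486036737485983)]]]]]]]],[[[[[[[[Int.negSucc (nat_lit 13144332431325751299)],[Int.ofNat (nat_lit 105940270023543824676)]]]],[[[[Int.ofNat (nat_lit 0),Int.negSucc (nat_lit 20779159293017260199)]]]],[[[[Int.ofNat (nat_lit 30365343391240567236)]]]]],[[[[[Int.negSucc (nat_lit 64038107740966895647)],[Int.negSucc (nat_lit 35820902977004630855)]]]]],[[[[[Int.ofNat (nat_lit 52788945885302313012)]]]]]],[[[[[[Int.ofNat (nat_lit 0),Int.ofNat (nat_lit 12234403644346297116)]]]],[[[[Int.negSucc (nat_lit 44066031615883556423)]]]]]],[[[[[[Int.negSucc (nat_lit 105940270023543824675)]]]]],[[[[[Int.ofNat (nat_lit 33911130220754374368)]]]]]]],[[[[[[[Int.negSucc (nat_lit 29077396660500175203)],[Int.ofNat (nat_lit 36546608036999497572)]]]]],[[[[[Int.negSucc (nat_lit 102282446506442617451)]]]]]],[[[],[[[[Int.negSucc (nat_lit 38933088810550633367)]]]]]],[[[[[[Int.negSucc (nat_lit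 12077800748306903339)]]]]]]],[[[[[[[Int.ofNat (nat_lit 105940270023543824676)]]]]],[[[[[Int.negSucc (nat_lit 38600031107631430331)]]]]]]],[[[[[[[Int.ofNat (nat_lit 36546608036999497572)]]]]]]]],[[[[[[[[Int.ofNat (nat_lit 0),Int.ofNat (nat_lit 46122221035599101784)]]]],[[[[Int.negSucc (nat_lit 105940270023543824675)]]]]],[[],[[[[Int.ofNat (nat_lit 15041743683987370656)]]]]]],[[],[[[[[Int.ofNat (nat_lit 12234403644346297116)]]]]]]],[[[[],[[[[Int.negSucc (nat_lit 36546608036999497571)]]]]]],[[[[[[Int.ofNat (nat_lit 92244442071198203568)]]]]]]]],[[[[[[[[Int.ofNat (nat_lit 21883175746046826588)],[Int.ofNat (nat_lit 10328881495161292836)]]]]],[[[[[Int.ofNat (nat_lit 28525905740498330780)]]]]]],[],[[[[[[Int.negSucc (nat_lit 9692290576411207339)]]]]]]],[[[[[[[Int.ofNat (nat_lit 34094148835480872484)]]]]]]],[[[[[[[Int.ofNat (nat_lit 11255257538703559328)]]]]]]]],[[[[[],[[[[Int.negSucc (nat_lit 3402495064155539435)]]]]]],[[[[[[Int.negSucc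 (nat_lit 4078134548115432371)]]]]]]]],[[[[[[[[Int.negSucc (nat_lit 15374073678533033927)]]]]]]]]],[[[[[[[[[Int.ofNat (nat_lit 0),Int.negSucc (nat_lit 199246532282390009075)]]]],[[[[Int.negSucc (nat_lit 84305709249180943011)],[Int.negSucc (nat_lit 24981901547637511235)]]]]],[[[[[Int.ofNat (nat_lit 0),Int.ofNat (nat_lit 45974099698348658376)]]]],[[[[Int.ofNat (nat_lit 22423602494061745776)]]]]]],[[[[[[Int.ofNat (nat_lit 9885380085745361084)],[Int.ofNat (nat_lit 30226304764184713476)]]]]],[[[[[Int.ofNat (nat_lit 44066031615883556424)]]]]]],[[[],[[[[Int.ofNat (nat_lit 23072128791387254748)]]]]]],[[[[[[Int.negSucc (nat_lit 30226304764184713475)]]]]]]],[[[[[[[Int.ofNat (nat_lit 0),Int.negSucc (nat_lit 86646465446776068035)]]]],[[[[Int.negSucc (nat_lit 102282446506442617451)]]]]]],[[[[[[Int.negSucc (nat_lit 398493064564780018151)]]]]],[[[[[Int.ofNat (nat_lit 89322969621213429720)]]]]]]],[[[[],[[[[Int.negSucc (nat_lit 27761029678264310711)]]]]]],[[[[[[Int.negSucc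 (nat_lit 143066626129367422595)]]]]]]]],[[[[[[[[Int.negSucc (nat_lit 36410033661428549047)],[Int.ofNat (nat_lit 86047132278458009976)]]]],[],[[[[Int.ofNat (nat_lit 4202742254620251036)]]]]],[[[[[Int.negSucc (nat_lit 93306262258846184399)]]]]],[[[[[Int.ofNat (nat_lit 10153196721344027520)]]]]]],[[[],[[[[Int.negSucc (nat_lit 17991901119838416359)]]]]]],[[[[[[Int.negSucc (nat_lit 86047132278458009975)]]]]]]],[[[],[[[[[Int.negSucc (nat_lit 50099857409776570463)]]]]]]],[[[[[[[Int.ofNat (nat_lit 86047132278458009976)]]]]]]]],[[[[[[[[Int.ofNat (nat_lit 0),Int.ofNat (nat_lit 21268203780627283476)]]]],[[[[Int.negSucc (nat_lit 9559567851618340955)]]]]]],[[[[[[Int.negSucc (nat_lit 44066031615883556423)]]]]]]],[[],[[[[[[Int.ofNat (nat_lit 45161637336738453984)]]]]]]]],[[[[[[[[Int.negSucc (nat_lit 39524759262747154983)]]]]],[[[[[Int.ofNat (nat_lit 52093288353343654376)]]]]]]],[[[[[[[Int.negSucc (nat_lit 7664452888074141559)]]]]]]]],[],[[[[[[[[Int.negSucc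 (nat_lit 17418282755370387327)]]]]]]]]],[[[[[[[[[Int.ofNat (nat_lit 0),Int.negSucc (nat_lit 155564419554371336747)]]]],[[[[Int.negSucc (nat_lit 199246532282390009075)]]]]],[[],[[[[Int.ofNat (nat_lit 20992198150711147140)]]]]]],[[],[[[[[Int.ofNat (nat_lit 30226304764184713476)]]]]]]],[[[[],[[[[Int.negSucc (nat_lit 86646465446776068035)]]]]]],[[[[[[Int.negSucc (nat_lit 311128839108742673495)]]]]]]]],[[[[[[[[Int.negSucc (nat_lit 77942008741380498675)],[Int.ofNat (nat_lit 64925433823277488356)]]]]],[[[[[Int.negSucc (nat_lit 16728341390611013759)]]]]]],[],[[[[[[Int.negSucc (nat_lit 66835206579527744843)]]]]]]],[[[[[[[Int.negSucc (nat_lit 102282446506442617451)]]]]]]],[[[[[[[Int.ofNat (nat_lit 62146305692650688880)]]]]]]]],[[[[[],[[[[Int.negSucc (nat_lit 39454487788029953843)]]]]]],[[[[[[Int.negSucc (nat_lit 17991901119838416359)]]]]]]]],[[[[[[[[Int.ofNat (nat_lit 11929895275264870724)]]]]]]]]],[[[[[[[[[Int.ofNat (nat_lit 0),Int.negSucc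 (nat_lit 36593013185830105211)]]]],[[[[Int.negSucc (nat_lit 165686200684784859159)]]]]]],[[[[[[Int.ofNat (nat_lit 14688677205294518808)]]]]]]],[[],[[[[[[Int.negSucc (nat_lit 74061102963488172767)]]]]]]]],[[[[[[[[Int.negSucc (nat_lit 163933108941208734183)]]]]],[[[[[Int.ofNat (nat_lit 62366219343461164568)]]]]]]],[[[[[[[Int.negSucc (nat_lit 74464262767776235511)]]]]]]]],[],[[[[[[[[Int.negSucc (nat_lit 28016598482319738863)]]]]]]]]],[[[[[[],[[[[Int.negSucc (nat_lit 44920313701709275623)]]]]]],[[[[[[Int.ofNat (nat_lit 10075434921394904492)]]]]]]]],[[[[[[[[Int.negSucc (nat_lit 126882042128218666755)]]]]]]]]],[[],[[[[[[[[Int.negSucc (nat_lit 14951201911404275759)]]]]]]]]]]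

/-- A coefficient. -/
noncomputable def sr6_m2_1_2 : MP 10 :=
  [[[[[[[[[[Int.negSucc (nat_lit 72379292344742542855)],[Int.negSucc (nat_lit 305794624299643169087)]]]],[[[[Int.ofNat (nat_lit 0),Int.ofNat (nat_lit 25924519105373986536)]]]]],[[[[[Int.negSucc (nat_lit 15007520780020641571)],[Int.ofNat (nat_lit 45022562340061924716)]]]]]],[[[[[[Int.ofNat (nat_lit 0),Int.negSucc (nat_lit 29049460051393308719)]]]]]],[[[[[[Int.ofNat (nat_lit 305794624299643169088)]]]]],[[[[[Int.negSucc (nat_lit 45022562340061924715)]]]]]]],[[[[[[[Int.ofNat (nat_lit 11508123305748423780)],[Int.negSucc (nat_lit 99127112977217560859)]]]]]],[[[],[[[[Int.ofNat (nat_lit 51849038210747973072)]]]]]],[[[[[[Int.ofNat (nat_lit 41028192874430943420)]]]]]]],[[[[[[[Int.negSucc (nat_lit 305794624299643169087)]]]]],[[[[[Int.ofNat (nat_lit 45022562340061924716)]]]]]]],[[[[[[[Int.negSucc (nat_lit 99127112977217560859)]]]]]]]],[[[[[[[[Int.ofNat (nat_lit 0),Int.negSucc (nat_lit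 355640733605476052351)]]]],[[[[Int.ofNat (nat_lit 305794624299643169088)]]]]],[[],[[[[Int.negSucc (nat_lit 19098043234687938179)]]]]]],[[[[[[Int.negSucc (nat_lit 3431984724650444807)],[Int.ofNat (nat_lit 31515580202394023880)]]]]],[[[[[Int.negSucc (nat_lit 29049460051393308719)]]]]]],[],[[[[[[Int.negSucc (nat_lit 31515580202394023879)]]]]]]],[[[[[[[Int.ofNat (nat_lit 0),Int.negSucc (nat_lit 49603335827571993251)]]]],[[[[Int.ofNat (nat_lit 99127112977217560860)]]]]]],[[[[[[Int.negSucc (nat_lit 711281467210952104703)]]]]]]],[[],[[[[[[Int.negSucc (nat_lit 67691091452749962623)]]]]]]]],[[[[[[[[Int.negSucc (nat_lit 90546333524791710159)],[Int.ofNat (nat_lit 106114889146778626560)]]]]],[[[[[Int.negSucc (nat_lit 355640733605476052351)]]]]]],[[[],[[[[Int.negSucc (nat_lit 31515580202394023879)]]]]]],[[[[[[Int.negSucc (nat_lit 106114889146778626559)]]]]]]],[[[],[[[[[Int.negSucc (nat_lit 49603335827571993251)]]]]]]],[[[[[[[Int.ofNat (nat_lit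 106114889146778626560)]]]]]]]],[[[[[],[[[[Int.negSucc (nat_lit 114756395515236622071)]]]]]],[[[[[[Int.ofNat (nat_lit 9683153350464436240)]]]]]]]],[[[[[[[[Int.ofNat (nat_lit 118546911201825350784)]]]]]]],[[[[[[[Int.ofNat (nat_lit 16534445275857331084)]]]]]]]]],[[[[[[[[[Int.negSucc (nat_lit 139680243508690001651)],[Int.negSucc (nat_lit 546688625666354522147)]]]],[],[[[[Int.ofNat (nat_lit 25924519105373986536)]]]]],[[[[[Int.negSucc (nat_lit 305794624299643169087)]]]]],[[[[[Int.ofNat (nat_lit 45022562340061924716)]]]]]],[[[[[[Int.ofNat (nat_lit 0),Int.negSucc (nat_lit 18617481199584719339)]]]],[[[[Int.negSucc (nat_lit 29049460051393308719)]]]]]],[[[[[[Int.ofNat (nat_lit 546688625666354522148)]]]]]]],[[[[[[[Int.negSucc (nat_lit 10222643958654249419)],[Int.negSucc (nat_lit 39895316685056738747)]]]]],[[[[[Int.negSucc (nat_lit 99127112977217560859)]]]]]],[],[[[[[[Int.ofNat (nat_lit 2660354285887300068)]]]]]]],[[[[[[[Int.negSucc (nat_lit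 546688625666354522147)]]]]]]],[[[[[[[Int.negSucc (nat_lit 39895316685056738747)]]]]]]]],[[[[[[[[Int.ofNat (nat_lit 0),Int.negSucc (nat_lit 345774289212902675651)]]]],[[[[Int.ofNat (nat_lit 191047892060878469796)]]]]]],[[],[[[[[Int.ofNat (nat_lit 12898099002809304540)]]]]]]],[[[[],[[[[Int.negSucc (nat_lit 9708019142515254503)]]]]]],[[[[[[Int.negSucc (nat_lit 691548578425805351303)]]]]]]]],[[[[[[[[Int.ofNat (nat_lit 305794624299643169088)]]]]],[[[[[Int.negSucc (nat_lit 284681962406185973807)]]]]]]],[[[[[[[Int.ofNat (nat_lit 99127112977217560860)]]]]]]]],[[[],[[[[[[Int.negSucc (nat_lit 25309753135865784099)]]]]]]]],[[[[[[[[Int.ofNat (nat_lit 9143207257522265324)]]]]]]]]],[[[[[[[[[Int.negSucc (nat_lit 75011004980645955763)],[Int.negSucc (nat_lit 271792823005578500675)]]]]],[[[[[Int.negSucc (nat_lit 546688625666354522147)]]]]]],[[[],[[[[Int.negSucc (nat_lit 18617481199584719339)]]]]]],[[[[[[Int.ofNat (nat_lit 271792823005578500676)]]]]]]],[[[],[[[[[Int.negSucc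 (nat_lit 39895316685056738747)]]]]]]],[[[[[[[Int.negSucc (nat_lit 271792823005578500675)]]]]]]]],[[[[[],[[[[Int.negSucc (nat_lit 48056947101950188439)]]]]]],[[[[[[Int.negSucc (nat_lit 29049460051393308719)]]]]]]]],[[[[[[[[Int.ofNat (nat_lit 191047892060878469796)]]]]]]],[[[[[[[Int.negSucc (nat_lit 9708019142515254503)]]]]]]]]],[[[[[[[[[Int.negSucc (nat_lit 101931541433214389695)]]]]],[[[[[Int.negSucc (nat_lit 256785302225557859103)]]]]]]],[[[[[[[Int.negSucc (nat_lit 33042370992405853619)]]]]]]]],[[[],[[[[[[Int.negSucc (nat_lit 8112287798786711379)]]]]]]]],[[[[[[[[Int.negSucc (nat_lit 38609836491731299455)]]]]]]]]],[[[[[[[[[Int.negSucc (nat_lit 182229541888784840715)]]]]]]],[[[[[[[Int.negSucc (nat_lit 13298438895018912915)]]]]]]]]],[[[[[[[[[Int.negSucc (nat_lit 90597607668526166891)]]]]]]]]]]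

/-- A coefficient. -/
noncomputable def sr6_m2_1_3 : MP 10 :=
  [[[[[[[[[[Int.ofNat (nat_lit 0),Int.ofNat (nat_lit 437471962286501053764)]]]],[[[[Int.negSucc (nat_lit 1078998971698132287)],[Int.negSucc (nat_lit 3236996915094396863)]]]]],[[[[[Int.ofNat (nat_lit 0),Int.ofNat (nat_lit 2256517712196370596)]]]]]],[[[[[[Int.ofNat (nat_lit 9629362066304468288)],[Int.negSucc (nat_lit 15399779475532517759)]]]]]],[[[],[[[[Int.ofNat (nat_lit 3236996915094396864)]]]]]],[[[[[[Int.ofNat (nat_lit 15399779475532517760)]]]]]]],[[[[[[[Int.ofNat (nat_lit 0),Int.ofNat (nat_lit 41428645390533622884)]]]]]],[[[[[[Int.ofNat (nat_lit 874943924573002107528)]]]]],[[[[[Int.ofNat (nat_lit 4513035424392741192)]]]]]]],[[[[],[[[[Int.negSucc (nat_lit 3236996915094396863)]]]]]],[[[[[[Int.ofNat (nat_lit 67457511305534728008)]]]]]]]],[[[[[[[[Int.ofNat (nat_lit 80632315483481423496)],[Int.negSucc (nat_lit 381567150576284710103)]]]],[],[[[[Int.ofNat (nat_lit 3236996915094396864)]]]]],[[[[[Int.ofNat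 (nat_lit 437471962286501053764)]]]]],[[[[[Int.ofNat (nat_lit 2256517712196370596)]]]]]],[[[],[[[[Int.ofNat (nat_lit 15399779475532517760)]]]]]],[[[[[[Int.ofNat (nat_lit 381567150576284710104)]]]]]]],[[[],[[[[[Int.ofNat (nat_lit 41428645390533622884)]]]]]]],[[[[[[[Int.negSucc (nat_lit 381567150576284710103)]]]]]]]],[[[[[[[[Int.ofNat (nat_lit 0),Int.negSucc (nat_lit 146453595992160382211)]]]],[[[[Int.ofNat (nat_lit 381567150576284710104)]]]]]]],[[],[[[[[[Int.negSucc (nat_lit 292907191984320764423)]]]]]]]],[[[[[[[[Int.negSucc (nat_lit 145823987428833684587)]]]]],[[[[[Int.negSucc (nat_lit 147205768562892505743)]]]]]]],[[[[[[[Int.negSucc (nat_lit 13809548463511207627)]]]]]]]],[],[[[[[[[[Int.ofNat (nat_lit 48817865330720127404)]]]]]]]]],[[[[[[[[[Int.ofNat (nat_lit 0),Int.ofNat (nat_lit 479975922999501466704)]]]],[[[[Int.ofNat (nat_lit 437471962286501053764)]]]]],[[],[[[[Int.negSucc (nat_lit 980479202898026267)]]]]]],[[],[[[[[Int.negSucc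 (nat_lit 15399779475532517759)]]]]]]],[[[[],[[[[Int.ofNat (nat_lit 41428645390533622884)]]]]]],[[[[[[Int.ofNat (nat_lit 959951845999002933408)]]]]]]]],[[[[[[[[Int.negSucc (nat_lit 39225280182862582967)],[Int.negSucc (nat_lit 188727458054984890919)]]]]],[[[[[Int.ofNat (nat_lit 98408772423216756600)]]]]]],[],[[[[[[Int.ofNat (nat_lit 188727458054984890920)]]]]]]],[],[[[[[[[Int.negSucc (nat_lit 188727458054984890919)]]]]]]]],[[[[[],[[[[Int.ofNat (nat_lit 45510858977918905572)]]]]]],[[[[[[Int.ofNat (nat_lit 15399779475532517760)]]]]]]]],[[[[[[[[Int.ofNat (nat_lit 221575176243117554536)]]]]]]]]],[[[[[[[[[Int.ofNat (nat_lit 0),Int.ofNat (nat_lit 59753156273392013304)]]]],[[[[Int.ofNat (nat_lit 479975922999501466704)]]]]]]],[[],[[[[[[Int.ofNat (nat_lit 119506312546784026608)]]]]]]]],[[[[[[[[Int.ofNat (nat_lit 437471962286501053764)]]]]],[[[[[Int.negSucc (nat_lit 126717784069396507019)]]]]]]],[[[[[[[Int.ofNat (nat_lit 41428645390533622884)]]]]]]]],[],[[[[[[[[Int.ofNat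 (nat_lit 22356143305027170940)]]]]]]]]],[[[[[[],[[[[Int.ofNat (nat_lit 58674157301693881016)]]]]]],[[[[[[Int.negSucc (nat_lit 5133259825177505919)]]]]]]]],[[[[[[[[Int.ofNat (nat_lit 352786872807406563336)]]]]]]]]],[[],[[[[[[[[Int.negSucc (nat_lit 3155996411602950335)]]]]]]]]]]

/-- A coefficient. -/
noncomputable def sr6_m2_1_4 : MP 10 :=
  [[[[[[[[[[Int.negSucc (nat_lit 37512009395318947135)],[Int.ofNat (nat_lit 403702447743261004104)]]]]]],[[[[[[Int.ofNat (nat_lit 0),Int.negSucc (nat_lit 8208014148824302367)]]]]]],[[[[[[Int.negSucc (nat_lit 403702447743261004103)]]]]]]],[[[[[[[Int.ofNat (nat_lit 5050626656791491148)],[Int.negSucc (nat_lit 11643334649963840387)]]]]]],[],[[[[[[Int.negSucc (nat_lit 4772693647684764347)]]]]]]],[[[[[[[Int.ofNat (nat_lit 403702447743261004104)]]]]]]],[[[[[[[Int.negSucc (nat_lit 11643334649963840387)]]]]]]]],[[[[[[[[Int.ofNat (nat_lit 0),Int.ofNat (nat_lit 274777392852550004784)]]]],[[[[Int.negSucc (nat_lit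 403702447743261004103)]]]]]],[[],[[[[[Int.negSucc (nat_lit 8208014148824302367)]]]]]]],[[[[],[[[[Int.ofNat (nat_lit 11643334649963840388)]]]]]],[[[[[[Int.ofNat (nat_lit 549554785705100009568)]]]]]]]],[[[[],[[[[[Int.ofNat (nat_lit 274777392852550004784)]]]]]]]],[[[],[[[[[[Int.ofNat (nat_lit 2736004716274767456)]]]]]]]],[[[[[[[[Int.negSucc (nat_lit 91592464284183334927)]]]]]]]]],[[[[[[[[[Int.ofNat (nat_lit 16341386293264017404)],[Int.ofNat (nat_lit 220057225297843902396)]]]]],[[[[[Int.ofNat (nat_lit 403702447743261004104)]]]]]],[[[],[[[[Int.negSucc (nat_lit 8208014148824302367)]]]]]],[[[[[[Int.negSucc (nat_lit 220057225297843902395)]]]]]]],[[[],[[[[[Int.negSucc (nat_lit 11643334649963840387)]]]]]]],[[[[[[[Int.ofNat (nat_lit 220057225297843902396)]]]]]]]],[[[[[],[[[[Int.ofNat (nat_lit 54720167554706102388)]]]]]]]],[[[[[[[[Int.negSucc (nat_lit 403702447743261004103)]]]]]]],[[[[[[[Int.ofNat (nat_lit 11643334649963840388)]]]]]]]]],[[[[[],[[[[[Int.ofNat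 (nat_lit 220057225297843902396)]]]]]]]],[[[],[[[[[[Int.negSucc (nat_lit 8208014148824302367)]]]]]]]],[[[[[[[[Int.ofNat (nat_lit 54720167554706102388)]]]]]]]]],[[[[[[[[[Int.ofNat (nat_lit 134567482581087001368)]]]]]]],[[[[[[[Int.negSucc (nat_lit 3881111549987946795)]]]]]]]]],[[[[[[[[[Int.ofNat (nat_lit 73352408432614634132)]]]]]]]]]]

/-- A coefficient. -/
noncomputable def sr6_m2_1_5 : MP 10 :=
  [[[[[[[[[[Int.ofNat (nat_lit 0),Int.negSucc (nat_lit 111473910605501104775)]]]]]]],[[],[[[[[[Int.negSucc (nat_lit 222947821211002209551)]]]]]]]],[[[[[[[[Int.negSucc (nat_lit 25032568447125463963)],[Int.ofNat (nat_lit 308269934877992532)]]]]],[[[[[Int.negSucc (nat_lit 111473910605501104775)]]]]]],[],[[[[[[Int.negSucc (nat_lit 308269934877992531)]]]]]]],[],[[[[[[[Int.ofNat (nat_lit 308269934877992532)]]]]]]]],[[[[[],[[[[Int.negSucc (nat_lit 308269934877992531)]]]]]]]],[[[[[[[[Int.ofNat (nat_lit 37157970201833701592)]]]]]]]]],[[[[[[[[[Int.ofNat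 (nat_lit 0),Int.ofNat (nat_lit 7404195440327974584)]]]],[[[[Int.negSucc (nat_lit 111473910605501104775)]]]]]]],[[],[[[[[[Int.ofNat (nat_lit 14808390880655949168)]]]]]]]],[[[[],[[[[[Int.ofNat (nat_lit 7712465375205967116)]]]]]]]],[],[[[[[[[[Int.negSucc (nat_lit 2776335081653984059)]]]]]]]]],[[[[[[],[[[[Int.ofNat (nat_lit 7404195440327974584)]]]]]]]],[[[[[[[[Int.negSucc (nat_lit 111473910605501104775)]]]]]]]]],[[],[[[[[[[[Int.ofNat (nat_lit 7506952085287305428)]]]]]]]]]]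

/-- A coefficient. -/
noncomputable def sr6_m2_1_6 : MP 10 :=
  [[[[[[[[[[Int.negSucc (nat_lit 16550274608933294351)],[Int.negSucc (nat_lit 66402891691359328511)]]]]]],[],[[[[[[Int.ofNat (nat_lit 66402891691359328512)]]]]]]],[],[[[[[[[Int.negSucc (nat_lit 66402891691359328511)]]]]]]]],[[[[[],[[[[Int.ofNat (nat_lit 66402891691359328512)]]]]]]]]],[[[[[],[[[[[Int.negSucc (nat_lit 66402891691359328511)]]]]]]]],[],[[[[[[[[Int.ofNat (nat_lit 66402891691359328512)]]]]]]]]],[],[[[[[[[[[Int.negSucc (nat_lit 22134297230453109503)]]]]]]]]]]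

/-- A coefficient. -/
noncomputable def sr6_m2_1_7 : MP 10 :=
  [[[[[[[[[[Int.ofNat (nat_lit 0),Int.ofNat (nat_lit 11824850509184248020)]]]]]]],[[],[[[[[[Int.ofNat (nat_lit 23649701018368496040)]]]]]]]],[[[[],[[[[[Int.ofNat (nat_lit 11824850509184248020)]]]]]]]],[],[[[[[[[[Int.negSucc (nat_lit 3941616836394749339)]]]]]]]]],[[[[[[],[[[[Int.ofNat (nat_lit 11824850509184248020)]]]]]]]]],[[],[[[[[[[[Int.ofNat (nat_lit 11824850509184248020)]]]]]]]]]]

/-- A coefficient. -/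
noncomputable def sr6_m2_2_0 : MP 10 :=
  [[[[[[[[[[Int.ofNat (nat_lit 25657400145478390860)],[Int.negSucc (nat_lit 76972200436435172579)]]]],[[[[Int.ofNat (nat_lit 0),Int.ofNat (nat_lit 6677213308091749044)]]]]],[[[[[Int.negSucc (nat_lit 4572980002518012655)],[Int.ofNat (nat_lit 13718940007554037968)]]]]]],[[[[[[Int.ofNat (nat_lit 0),Int.ofNat (nat_lit 7513534241031340176)]]]]]],[[[[[[Int.ofNat (nat_lit 81021430729325551160)],[Int.ofNat (nat_lit 12147690878671135740)]]]]],[[[[[Int.negSucc (nat_lit 13718940007554037967)]]]]]],[],[[[[[[Int.negSucc (nat_lit 12147690878671135739)]]]]]]],[[[[[[[Int.ofNat (nat_lit 833331077529080272)],[Int.negSucc (nat_lit 2499993232587240815)]]]]]],[[[[[[Int.ofNat (nat_lit 0),Int.negSucc (nat_lit 28139930456575076915)]]]],[[[[Int.ofNat (nat_lit 13354426616183498088)]]]]]],[[[[[[Int.ofNat (nat_lit 17527061714649921168)]]]]]]],[[[[[[[Int.negSucc (nat_lit 69972471736454278393)],[Int.negSucc (nat_lit 20999186099942682557)]]]]],[[[[[Int.ofNat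 (nat_lit 13718940007554037968)]]]]]],[],[[[[[[Int.negSucc (nat_lit 23132983934536335533)]]]]]]],[[[[[[[Int.negSucc (nat_lit 2499993232587240815)]]]]]]],[[[[[[[Int.negSucc (nat_lit 20999186099942682557)]]]]]]]],[[[[[[[[Int.ofNat (nat_lit 0),Int.negSucc (nat_lit 13196974531712673659)]]]],[[[[Int.ofNat (nat_lit 80281216837021745740)],[Int.ofNat (nat_lit 9927049201759719480)]]]]],[[[[[Int.ofNat (nat_lit 0),Int.negSucc (nat_lit 19311097967153956043)]]]],[[[[Int.negSucc (nat_lit 7041726699462288923)]]]]]],[[[[[[Int.ofNat (nat_lit 11398415721126894552)],[Int.ofNat (nat_lit 34195247163380683656)]]]]],[[[[[Int.ofNat (nat_lit 7513534241031340176)]]]]]],[[[],[[[[Int.negSucc (nat_lit 22074740080430855219)]]]]]],[[[[[[Int.negSucc (nat_lit 34195247163380683655)]]]]]]],[[[[[[[Int.ofNat (nat_lit 0),Int.negSucc (nat_lit 23335756619254145951)]]]],[[[[Int.ofNat (nat_lit 2499993232587240816)]]]]]],[[[[[[Int.negSucc (nat_lit 26393949063425347319)]]]]],[[[[[Int.negSucc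 (nat_lit 66762126390882989003)]]]]]]],[[[[],[[[[Int.ofNat (nat_lit 30926235301702402038)]]]]]],[[[[[[Int.negSucc (nat_lit 12476266075127608247)]]]]]]]],[[[[[[[[Int.ofNat (nat_lit 45380413286347430224)],[Int.ofNat (nat_lit 122792375224485521568)]]]],[],[[[[Int.negSucc (nat_lit 9927049201759719479)]]]]],[[[[[Int.negSucc (nat_lit 13196974531712673659)]]]]],[[[[[Int.negSucc (nat_lit 19311097967153956043)]]]]]],[[[],[[[[Int.negSucc (nat_lit 34195247163380683655)]]]]]],[[[[[[Int.negSucc (nat_lit 122792375224485521567)]]]]]]],[[[],[[[[[Int.negSucc (nat_lit 23335756619254145951)]]]]]]],[[[[[[[Int.ofNat (nat_lit 122792375224485521568)]]]]]]]],[[[[[[[[Int.ofNat (nat_lit 0),Int.ofNat (nat_lit 2568894061151060328)]]]],[[[[Int.negSucc (nat_lit 125018112993849437915)]]]]]],[[[[[[Int.negSucc (nat_lit 2504511413677113391)]]]]]]],[[],[[[[[[Int.ofNat (nat_lit 14517764941160479628)]]]]]]]],[[[[[[[[Int.ofNat (nat_lit 4398991510570891220)]]]]],[[[[[Int.ofNat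 (nat_lit 9005926716869045676)]]]]]]],[[[[[[[Int.ofNat (nat_lit 7778585539751381984)]]]]]]]],[],[[[[[[[[Int.negSucc (nat_lit 856298020383686775)]]]]]]]]],[[[[[[[[[Int.ofNat (nat_lit 39609282963203899544)],[Int.negSucc (nat_lit 118827848889611698631)]]]],[[[[Int.ofNat (nat_lit 0),Int.ofNat (nat_lit 773918273480833548)]]]],[[[[Int.ofNat (nat_lit 6677213308091749044)]]]]],[[[[[Int.negSucc (nat_lit 77259545074207377039)],[Int.ofNat (nat_lit 862033913316613380)]]]]],[[[[[Int.ofNat (nat_lit 13718940007554037968)]]]]]],[[[[[[Int.ofNat (nat_lit 0),Int.negSucc (nat_lit 18202988801122907303)]]]],[[[[Int.ofNat (nat_lit 7513534241031340176)]]]]]],[[[[[[Int.ofNat (nat_lit 118827848889611698632)]]]]],[[[[[Int.ofNat (nat_lit 11285656965354522360)]]]]]]],[[[[[[[Int.ofNat (nat_lit 11042321951457299204)],[Int.negSucc (nat_lit 33126965854371897611)]]]]],[[[[[Int.negSucc (nat_lit 2499993232587240815)]]]]]],[[[],[[[[Int.negSucc (nat_lit 26592093909613409819)]]]]]],[[[[[[Int.negSucc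 (nat_lit 3279011747873916995)]]]]]]],[[[[[[[Int.negSucc (nat_lit 118827848889611698631)]]]]],[[[[[Int.negSucc (nat_lit 20137152186626069177)]]]]]]],[[[[[[[Int.negSucc (nat_lit 33126965854371897611)]]]]]]]],[[[[[[[[Int.ofNat (nat_lit 0),Int.negSucc (nat_lit 30890622871714318823)]]]],[[[[Int.ofNat (nat_lit 105630874357899024972)]]]]],[[],[[[[Int.negSucc (nat_lit 9472164405230016395)]]]]]],[[],[[[[[Int.ofNat (nat_lit 15992258362257776352)]]]]]]],[[[[],[[[[Int.ofNat (nat_lit 9791209235117751660)]]]]]],[[[[[[Int.negSucc (nat_lit 61781245743428637647)]]]]]]]],[[[[[[[[Int.ofNat (nat_lit 75411822912928308868)],[Int.negSucc (nat_lit 6560573540001858503)]]]]],[[[[[Int.ofNat (nat_lit 78182812345217164776)]]]]]],[],[[[[[[Int.negSucc (nat_lit 5587117338669277235)]]]]]]],[[[[[[[Int.ofNat (nat_lit 2499993232587240816)]]]]]]],[[[[[[[Int.ofNat (nat_lit 14438612559940824054)]]]]]]]],[[[[[],[[[[Int.negSucc (nat_lit 1055554358433745163)]]]]]],[[[[[[Int.negSucc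 (nat_lit 28127584229673047887)]]]]]]]],[[[[[[[[Int.negSucc (nat_lit 112495500933914081959)]]]]]]]]],[[[[[[[[[Int.ofNat (nat_lit 20194868859248509108)],[Int.negSucc (nat_lit 60584606577745527323)]]]],[],[[[[Int.ofNat (nat_lit 773918273480833548)]]]]],[[[[[Int.negSucc (nat_lit 118827848889611698631)]]]]],[[[[[Int.ofNat (nat_lit 862033913316613380)]]]]]],[[[],[[[[Int.negSucc (nat_lit 18202988801122907303)]]]]]],[[[[[[Int.ofNat (nat_lit 60584606577745527324)]]]]]]],[[[],[[[[[Int.negSucc (nat_lit 33126965854371897611)]]]]]]],[[[[[[[Int.negSucc (nat_lit 60584606577745527323)]]]]]]]],[[[[[[[[Int.ofNat (nat_lit 0),Int.ofNat (nat_lit 7097595213112479996)]]]],[[[[Int.ofNat (nat_lit 36371197014122957544)]]]]]],[[[[[[Int.ofNat (nat_lit 7513534241031340176)]]]]]]],[[],[[[[[[Int.negSucc (nat_lit 13944740030350116923)]]]]]]]],[[[[[[[[Int.ofNat (nat_lit 105630874357899024972)]]]]],[[[[[Int.negSucc (nat_lit 19636110207359947931)]]]]]]],[[[[[[[Int.ofNat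 (nat_lit 9791209235117751660)]]]]]]]],[],[[[[[[[[Int.ofNat (nat_lit 6763602530115425500)]]]]]]]]],[[[[[[[[[Int.negSucc (nat_lit 25321132861424579155)],[Int.negSucc (nat_lit 1008801852161435111)]]]]],[[[[[Int.negSucc (nat_lit 56011626575227514667)]]]]]],[],[[[[[[Int.ofNat (nat_lit 5058032145051813692)]]]]]]],[[[[[[[Int.negSucc (nat_lit 833331077529080271)]]]]]]],[[[[[[[Int.negSucc (nat_lit 8008530552142329297)]]]]]]]],[[[[[],[[[[Int.ofNat (nat_lit 12189331739341321816)]]]]]],[[[[[[Int.negSucc (nat_lit 6804573079996012751)]]]]]]]],[[[[[[[[Int.ofNat (nat_lit 70624775447526382356)]]]]]]]]],[[[[[[[[[Int.negSucc (nat_lit 39609282963203899543)]]]]],[[[[[Int.negSucc (nat_lit 721457214389230651)]]]]]]],[[[[[[[Int.negSucc (nat_lit 11042321951457299203)]]]]]]]],[],[[[[[[[[Int.ofNat (nat_lit 5919539218606628940)]]]]]]]]],[[[[[[[[[Int.negSucc (nat_lit 20194868859248509107)]]]]]]]]],[[[[[[[[[Int.negSucc (nat_lit 336267284053811703)]]]]]]]]]]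

/-- A coefficient. -/
noncomputable def sr6_m2_2_1 : MP 10 :=
  [[[[[[[[[[Int.ofNat (nat_lit 0),Int.ofNat (nat_lit 147452413439649926832)]]]],[[[[Int.ofNat (nat_lit 1652031242032709396)],[Int.ofNat (nat_lit 4956093726098128188)]]]]],[[[[[Int.ofNat (nat_lit 0),Int.negSucc (nat_lit 11351907237661737275)]]]]]],[[[[[[Int.negSucc (nat_lit 20844220884389597471)],[Int.negSucc (nat_lit 75941247032480219903)]]]]]],[[[],[[[[Int.negSucc (nat_lit 4956093726098128187)]]]]]],[[[[[[Int.ofNat (nat_lit 75941247032480219904)]]]]]]],[[[[[[[Int.ofNat (nat_lit 0),Int.ofNat (nat_lit 119089464967889795328)]]]]]],[[[[[[Int.ofNat (nat_lit 294904826879299853664)]]]]],[[[[[Int.negSucc (nat_lit 22703814475323474551)]]]]]]],[[[[],[[[[Int.ofNat (nat_lit 4956093726098128188)]]]]]],[[[[[[Int.ofNat (nat_lit 162237682903299370752)]]]]]]]],[[[[[[[[Int.ofNat (nat_lit 91471620592123669496)],[Int.negSucc (nat_lit 18184872155485208903)]]]],[],[[[[Int.negSucc (nat_lit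 4956093726098128187)]]]]],[[[[[Int.ofNat (nat_lit 147452413439649926832)]]]]],[[[[[Int.negSucc (nat_lit 11351907237661737275)]]]]]],[[[[[[Int.ofNat (nat_lit 0),Int.negSucc (nat_lit 33836577647531872511)]]]],[[[[Int.ofNat (nat_lit 75941247032480219904)]]]]]],[[[[[[Int.ofNat (nat_lit 18184872155485208904)]]]]]]],[[[[[[[Int.ofNat (nat_lit 31060581273072052976)],[Int.negSucc (nat_lit 48850240709256114767)]]]]],[[[[[Int.ofNat (nat_lit 119089464967889795328)]]]]]],[],[[[[[[Int.negSucc (nat_lit 18822914585807630255)]]]]]]],[[[[[[[Int.negSucc (nat_lit 18184872155485208903)]]]]]]],[[[[[[[Int.negSucc (nat_lit 48850240709256114767)]]]]]]]],[[[[[[[[Int.ofNat (nat_lit 0),Int.ofNat (nat_lit 4821215129689139640)]]]],[[[[Int.ofNat (nat_lit 18184872155485208904)]]]]]],[[],[[[[[Int.negSucc (nat_lit 33836577647531872511)]]]]]]],[[[[],[[[[Int.ofNat (nat_lit 48850240709256114768)]]]]]],[[[[[[Int.ofNat (nat_lit 9642430259378279280)]]]]]]]],[[[[[[[[Int.negSucc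 (nat_lit 49150804479883308943)]]]]],[[[[[Int.ofNat (nat_lit 8605184208909718732)]]]]]]],[[[[[[[Int.negSucc (nat_lit 39696488322629931775)]]]]]]]],[[[],[[[[[[Int.ofNat (nat_lit 11278859215843957504)]]]]]]]],[[[[[[[[Int.negSucc (nat_lit 1607071709896379879)]]]]]]]]],[[[[[[[[[Int.ofNat (nat_lit 0),Int.ofNat (nat_lit 270575405677311379740)]]]],[[[[Int.ofNat (nat_lit 147452413439649926832)]]]]],[[],[[[[Int.negSucc (nat_lit 6395813511563609087)]]]]]],[[[[[[Int.negSucc (nat_lit 18288866140453000591)],[Int.negSucc (nat_lit 40026815443218497687)]]]]],[[[[[Int.negSucc (nat_lit 75941247032480219903)]]]]]],[],[[[[[[Int.ofNat (nat_lit 40026815443218497688)]]]]]]],[[[[[[[Int.ofNat (nat_lit 0),Int.ofNat (nat_lit 69839948305739966772)]]]],[[[[Int.ofNat (nat_lit 119089464967889795328)]]]]]],[[[[[[Int.ofNat (nat_lit 541150811354622759480)]]]]]]],[[],[[[[[[Int.ofNat (nat_lit 99653081168261435856)]]]]]]]],[[[[[[[[Int.ofNat (nat_lit 96425043117560402972)],[Int.ofNat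 (nat_lit 107032095114606618348)]]]]],[[[[[Int.ofNat (nat_lit 252390533521826170836)]]]]]],[[[],[[[[Int.ofNat (nat_lit 6190237795686625176)]]]]]],[[[[[[Int.negSucc (nat_lit 107032095114606618347)]]]]]]],[[[],[[[[[Int.ofNat (nat_lit 20989707596483852004)]]]]]]],[[[[[[[Int.ofNat (nat_lit 107032095114606618348)]]]]]]]],[[[[[],[[[[Int.negSucc (nat_lit 107166973711015606895)]]]]]],[[[[[[Int.ofNat (nat_lit 75941247032480219904)]]]]]]]],[[[[[[[[Int.negSucc (nat_lit 72006929736951917675)]]]]]]],[[[[[[[Int.ofNat (nat_lit 25570257940676125844)]]]]]]]]],[[[[[[[[[Int.ofNat (nat_lit 0),Int.ofNat (nat_lit 91606000636516541196)]]]],[[[[Int.ofNat (nat_lit 270575405677311379740)]]]]]],[[],[[[[[Int.negSucc (nat_lit 40026815443218497687)]]]]]]],[[[[],[[[[Int.ofNat (nat_lit 69839948305739966772)]]]]]],[[[[[[Int.ofNat (nat_lit 183212001273033082392)]]]]]]]],[[[[[[[[Int.ofNat (nat_lit 147452413439649926832)]]]]],[[[[[Int.ofNat (nat_lit 187286188513461422268)]]]]]]],[[[[[[[Int.ofNat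 (nat_lit 119089464967889795328)]]]]]]]],[[[],[[[[[[Int.ofNat (nat_lit 6190237795686625176)]]]]]]]],[[[[[[[[Int.negSucc (nat_lit 132746213530422992439)]]]]]]]]],[[[[[[],[[[[Int.ofNat (nat_lit 93258031878549250592)]]]]]],[[[[[[Int.negSucc (nat_lit 25313749010826739967)]]]]]]]],[[[[[[[[Int.ofNat (nat_lit 264513781625482976772)]]]]]]],[[[[[[[Int.ofNat (nat_lit 53556534735987928516)]]]]]]]]],[[[[],[[[[[[Int.negSucc (nat_lit 13342271814406165895)]]]]]]]],[[[[[[[[Int.ofNat (nat_lit 127283365674718747312)]]]]]]]]]]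

/-- A coefficient. -/
noncomputable def sr6_m2_2_2 : MP 10 :=
  [[[[[[[[[[Int.ofNat (nat_lit 82178676244937727572)],[Int.ofNat (nat_lit 390060876540886380636)]]]],[[[[Int.ofNat (nat_lit 0),Int.ofNat (nat_lit 5034254503532036940)]]]]],[[[[[Int.negSucc (nat_lit 2352083209438422855)],[Int.ofNat (nat_lit 7056249628315268568)]]]]]],[[[[[[Int.ofNat (nat_lit 0),Int.ofNat (nat_lit 52738949391192492192)]]]]]],[[[[[[Int.negSucc (nat_lit 390060876540886380635)]]]]],[[[[[Int.negSucc (nat_lit 7056249628315268567)]]]]]]],[[[[[[[Int.negSucc (nat_lit 22288514402820170291)],[Int.ofNat (nat_lit 93866451164239737036)]]]]]],[[[],[[[[Int.ofNat (nat_lit 10068509007064073880)]]]]]],[[[[[[Int.ofNat (nat_lit 11611447618145247348)]]]]]]],[[[[[[[Int.ofNat (nat_lit 390060876540886380636)]]]]],[[[[[Int.ofNat (nat_lit 7056249628315268568)]]]]]]],[[[[[[[Int.ofNat (nat_lit 93866451164239737036)]]]]]]]],[[[[[[[[Int.ofNat (nat_lit 0),Int.ofNat (nat_lit 134546622196190700096)]]]],[[[[Int.negSucc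 (nat_lit 390060876540886380635)]]]]],[[],[[[[Int.negSucc (nat_lit 2021995124783231627)]]]]]],[[],[[[[[Int.ofNat (nat_lit 52738949391192492192)]]]]]]],[[[[],[[[[Int.negSucc (nat_lit 93866451164239737035)]]]]]],[[[[[[Int.ofNat (nat_lit 269093244392381400192)]]]]]]]],[[[[[[[[Int.ofNat (nat_lit 90660761599458855638)],[Int.negSucc (nat_lit 97466228019447893585)]]]]],[[[[[Int.ofNat (nat_lit 134546622196190700096)]]]]]],[],[[[[[[Int.ofNat (nat_lit 97466228019447893586)]]]]]]],[],[[[[[[[Int.negSucc (nat_lit 97466228019447893585)]]]]]]]],[[[[[],[[[[Int.ofNat (nat_lit 95788143184937214606)]]]]]],[[[[[[Int.negSucc (nat_lit 17579649797064164063)]]]]]]]],[[[[[[[[Int.negSucc (nat_lit 44848874065396900031)]]]]]]]]],[[[[[[[[[Int.ofNat (nat_lit 136834269866494040540)],[Int.ofNat (nat_lit 471337929658397821140)]]]],[],[[[[Int.ofNat (nat_lit 5034254503532036940)]]]]],[[[[[Int.ofNat (nat_lit 390060876540886380636)]]]]],[[[[[Int.ofNat (nat_lit 7056249628315268568)]]]]]],[[[],[[[[Int.ofNat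 (nat_lit 52738949391192492192)]]]]]],[[[[[[Int.negSucc (nat_lit 471337929658397821139)]]]]]]],[[[],[[[[[Int.ofNat (nat_lit 93866451164239737036)]]]]]]],[[[[[[[Int.ofNat (nat_lit 471337929658397821140)]]]]]]]],[[[[[[[[Int.ofNat (nat_lit 0),Int.ofNat (nat_lit 178298161570087749300)]]]],[[[[Int.negSucc (nat_lit 336791307462207121043)]]]]]]],[[],[[[[[[Int.ofNat (nat_lit 356596323140175498600)]]]]]]]],[[[[[[[[Int.negSucc (nat_lit 390060876540886380635)]]]]],[[[[[Int.ofNat (nat_lit 73775683922324587146)]]]]]]],[[[[[[[Int.negSucc (nat_lit 93866451164239737035)]]]]]]]],[],[[[[[[[[Int.ofNat (nat_lit 38033507496085310486)]]]]]]]]],[[[[[[[[[Int.ofNat (nat_lit 64844003752429959454)],[Int.ofNat (nat_lit 154896808820158366890)]]]]],[[[[[Int.ofNat (nat_lit 471337929658397821140)]]]]]],[],[[[[[[Int.negSucc (nat_lit 154896808820158366889)]]]]]]],[],[[[[[[[Int.ofNat (nat_lit 154896808820158366890)]]]]]]]],[[[[[],[[[[Int.ofNat (nat_lit 28435607253461419350)]]]]]],[[[[[[Int.ofNat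 (nat_lit 52738949391192492192)]]]]]]]],[[[[[[[[Int.negSucc (nat_lit 336791307462207121043)]]]]]]]]],[[[[[[[[[Int.ofNat (nat_lit 130020292180295460212)]]]]],[[[[[Int.ofNat (nat_lit 157248892029596789746)]]]]]]],[[[[[[[Int.ofNat (nat_lit 31288817054746579012)]]]]]]]],[],[[[[[[[[Int.negSucc (nat_lit 9087389923219915451)]]]]]]]]],[[[[[[[[[Int.ofNat (nat_lit 157112643219465940380)]]]]]]]]],[[[[[[[[[Int.ofNat (nat_lit 51632269606719455630)]]]]]]]]]]

/-- A coefficient. -/
noncomputable def sr6_m2_2_3 : MP 10 :=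
  [[[[[[[[[[Int.ofNat (nat_lit 0),Int.negSucc (nat_lit 447743585905833841739)]]]]]],[[[[[[Int.negSucc (nat_lit 2009180193328291103)],[Int.negSucc (nat_lit 26959034248132673999)]]]]]],[],[[[[[[Int.ofNat (nat_lit 26959034248132674000)]]]]]]],[[[[[[[Int.ofNat (nat_lit 0),Int.ofNat (nat_lit 23343435610237092312)]]]]]],[[[[[[Int.negSucc (nat_lit 895487171811667683479)]]]]]]],[[],[[[[[[Int.ofNat (nat_lit 19727836972341510624)]]]]]]]],[[[[[[[[Int.negSucc (nat_lit 66256128895092033463)],[Int.ofNat (nat_lit 61782876008454171840)]]]]],[[[[[Int.negSucc (nat_lit 447743585905833841739)]]]]]],[[[],[[[[Int.ofNat (nat_lit 26959034248132674000)]]]]]],[[[[[[Int.negSucc (nat_lit 61782876008454171839)]]]]]]],[[[],[[[[[Int.ofNat (nat_lit 23343435610237092312)]]]]]]],[[[[[[[Int.ofNat (nat_lit 61782876008454171840)]]]]]]]],[[[[[],[[[[Int.negSucc (nat_lit 61782876008454171839)]]]]]]]],[[[[[[[[Int.ofNat (nat_lit 149247861968611280580)]]]]]]],[[[[[[[Int.negSucc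 (nat_lit 7781145203412364103)]]]]]]]]],[[[[[[[[[Int.ofNat (nat_lit 0),Int.negSucc (nat_lit 276396705444962554667)]]]],[[[[Int.negSucc (nat_lit 447743585905833841739)]]]]]],[[],[[[[[Int.negSucc (nat_lit 26959034248132673999)]]]]]]],[[[[],[[[[Int.ofNat (nat_lit 23343435610237092312)]]]]]],[[[[[[Int.negSucc (nat_lit 552793410889925109335)]]]]]]]],[[[[],[[[[[Int.negSucc (nat_lit 214613829436508382827)]]]]]]]],[[[],[[[[[[Int.ofNat (nat_lit 26959034248132674000)]]]]]]]],[[[[[[[[Int.ofNat (nat_lit 30349359139866679716)]]]]]]]]],[[[[[[],[[[[Int.negSucc (nat_lit 276396705444962554667)]]]]]]]],[[[[[[[[Int.negSucc (nat_lit 447743585905833841739)]]]]]]],[[[[[[[Int.ofNat (nat_lit 23343435610237092312)]]]]]]]]],[[[[],[[[[[[Int.negSucc (nat_lit 8986344749377557999)]]]]]]]],[[[[[[[[Int.negSucc (nat_lit 255802413442144497387)]]]]]]]]]]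

/-- A coefficient. -/
noncomputable def sr6_m2_2_4 : MP 10 :=
  [[[[[[[[[[Int.ofNat (nat_lit 45573899692692985996)],[Int.negSucc (nat_lit 281051802140918447315)]]]]]],[],[[[[[[Int.ofNat (nat_lit 281051802140918447316)]]]]]]],[],[[[[[[[Int.negSucc (nat_lit 281051802140918447315)]]]]]]]],[[[[[[[[Int.ofNat (nat_lit 0),Int.ofNat (nat_lit 99910492461593291244)]]]],[[[[Int.ofNat (nat_lit 281051802140918447316)]]]]]]],[[],[[[[[[Int.ofNat (nat_lit 199820984923186582488)]]]]]]]],[[[[],[[[[[Int.ofNat (nat_lit 99910492461593291244)]]]]]]]],[],[[[[[[[[Int.negSucc (nat_lit 33303497487197763747)]]]]]]]]],[[[[[[[[[Int.negSucc (nat_lit 20762441992886502907)],[Int.ofNat (nat_lit 38530615069727751612)]]]]],[[[[[Int.negSucc (nat_lit 281051802140918447315)]]]]]],[],[[[[[[Int.negSucc (nat_lit 38530615069727751611)]]]]]]],[],[[[[[[[Int.ofNat (nat_lit 38530615069727751612)]]]]]]]],[[[[[],[[[[Int.ofNat (nat_lit 61379877391865539632)]]]]]]]],[[[[[[[[Int.ofNat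 (nat_lit 281051802140918447316)]]]]]]]]],[[[[[],[[[[[Int.ofNat (nat_lit 38530615069727751612)]]]]]]]],[],[[[[[[[[Int.ofNat (nat_lit 61379877391865539632)]]]]]]]]],[[[[[[[[[Int.negSucc (nat_lit 93683934046972815771)]]]]]]]]],[[[[[[[[[Int.ofNat (nat_lit 12843538356575917204)]]]]]]]]]]

/-- A coefficient. -/
noncomputable def sr6_m2_2_5 : MP 10 :=
  [[[[[[[[[[Int.ofNat (nat_lit 0),Int.negSucc (nat_lit 66500641051082960711)]]]]]]],[[],[[[[[[Int.negSucc (nat_lit 133001282102165921423)]]]]]]]],[[[[],[[[[[Int.negSucc (nat_lit 66500641051082960711)]]]]]]]],[],[[[[[[[[Int.ofNat (nat_lit 22166880350360986904)]]]]]]]]],[[[[[[],[[[[Int.negSucc (nat_lit 66500641051082960711)]]]]]]]]],[[],[[[[[[[[Int.negSucc (nat_lit 66500641051082960711)]]]]]]]]]]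

/-- A coefficient. -/
noncomputable def sr6_m2_2_6 : MP 10 :=
  [[[[[[[[[[Int.ofNat (nat_lit 52312891230451186182)],[Int.ofNat (nat_lit 87230486057546142762)]]]]]],[],[[[[[[Int.negSucc (nat_lit 87230486057546142761)]]]]]]],[],[[[[[[[Int.ofNat (nat_lit 87230486057546142762)]]]]]]]],[[[[[],[[[[Int.negSucc (nat_lit 87230486057546142761)]]]]]]]]],[[[[[],[[[[[Int.ofNat (nat_lit 87230486057546142762)]]]]]]]],[],[[[[[[[[Int.negSucc (nat_lit 87230486057546142761)]]]]]]]]],[],[[[[[[[[[Int.ofNat (nat_lit 29076828685848714254)]]]]]]]]]]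

/-- A coefficient. -/
noncomputable def sr6_m2_3_0 : MP 10 :=
  [[[[[[[[[[Int.negSucc (nat_lit 30521216547093972115)],[Int.ofNat (nat_lit 91563649641281916348)]]]],[[[[Int.ofNat (nat_lit 0),Int.ofNat (nat_lit 1087635271358332140)]]]]],[[[[[Int.negSucc (nat_lit 858393004481095295)],[Int.ofNat (nat_lit 2575179013443285888)]]]]]],[[[[[[Int.ofNat (nat_lit 0),Int.ofNat (nat_lit 3914596884895356600)]]]]]],[[[[[[Int.negSucc (nat_lit 91563649641281916347)]]]]],[[[[[Int.negSucc (nat_lit 2575179013443285887)]]]]]]],[[[[[[[Int.negSucc (nat_lit 2163340696427291059)],[Int.ofNat (nat_lit 6490022089281873180)]]]]]],[[[],[[[[Int.ofNat (nat_lit 2175270542716664280)]]]]]],[[[[[[Int.ofNat (nat_lit 1339171680508840020)]]]]]]],[[[[[[[Int.ofNat (nat_lit 91563649641281916348)]]]]],[[[[[Int.ofNat (nat_lit 2575179013443285888)]]]]]]],[[[[[[[Int.ofNat (nat_lit 6490022089281873180)]]]]]]]],[[[[[[[[Int.ofNat (nat_lit 0),Int.negSucc (nat_lit 23280089636258090111)]]]],[[[[Int.negSucc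 (nat_lit 91563649641281916347)]]]]],[[],[[[[Int.negSucc (nat_lit 1487543742084953747)]]]]]],[[[[[[Int.negSucc (nat_lit 1310569223513186215)],[Int.negSucc (nat_lit 3931707670539558647)]]]]],[[[[[Int.ofNat (nat_lit 3914596884895356600)]]]]]],[],[[[[[[Int.ofNat (nat_lit 3931707670539558648)]]]]]]],[[[[[[[Int.ofNat (nat_lit 0),Int.negSucc (nat_lit 2371586038609354859)]]]],[[[[Int.negSucc (nat_lit 6490022089281873179)]]]]]],[[[[[[Int.negSucc (nat_lit 46560179272516180223)]]]]]]],[[],[[[[[[Int.negSucc (nat_lit 8674879747758268367)]]]]]]]],[[[[[[[[Int.negSucc (nat_lit 47828064329124204899)],[Int.negSucc (nat_lit 151009207705329635747)]]]]],[[[[[Int.negSucc (nat_lit 23280089636258090111)]]]]]],[[[],[[[[Int.ofNat (nat_lit 3931707670539558648)]]]]]],[[[[[[Int.ofNat (nat_lit 151009207705329635748)]]]]]]],[[[],[[[[[Int.negSucc (nat_lit 2371586038609354859)]]]]]]],[[[[[[[Int.negSucc (nat_lit 151009207705329635747)]]]]]]]],[[[[[],[[[[Int.ofNat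 (nat_lit 150646662614876858368)]]]]]],[[[[[[Int.negSucc (nat_lit 1304865628298452199)]]]]]]]],[[[[[[[[Int.ofNat (nat_lit 7760029878752696704)]]]]]]],[[[[[[[Int.ofNat (nat_lit 790528679536451620)]]]]]]]]],[[[[[[[[[Int.negSucc (nat_lit 28435383354229880087)],[Int.ofNat (nat_lit 85306150062689640264)]]]],[],[[[[Int.ofNat (nat_lit 1087635271358332140)]]]]],[[[[[Int.ofNat (nat_lit 91563649641281916348)]]]]],[[[[[Int.ofNat (nat_lit 2575179013443285888)]]]]]],[[[[[[Int.ofNat (nat_lit 0),Int.ofNat (nat_lit 12680652618147212556)]]]],[[[[Int.ofNat (nat_lit 3914596884895356600)]]]]]],[[[[[[Int.negSucc (nat_lit 85306150062689640263)]]]]]]],[[[[[[[Int.negSucc (nat_lit 6290010301188099211)],[Int.ofNat (nat_lit 18870030903564297636)]]]]],[[[[[Int.ofNat (nat_lit 6490022089281873180)]]]]]],[],[[[[[[Int.ofNat (nat_lit 6491274332730127476)]]]]]]],[[[[[[[Int.ofNat (nat_lit 85306150062689640264)]]]]]]],[[[[[[[Int.ofNat (nat_lit 18870030903564297636)]]]]]]]],[[[[[[[[Int.ofNat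 (nat_lit 0),Int.ofNat (nat_lit 43313387384173321932)]]]],[[[[Int.negSucc (nat_lit 108586239698947730375)]]]]]],[[],[[[[[Int.ofNat (nat_lit 8748944947607653908)]]]]]]],[[[[],[[[[Int.negSucc (nat_lit 21241616942173652495)]]]]]],[[[[[[Int.ofNat (nat_lit 86626774768346643864)]]]]]]]],[[[[[[[[Int.negSucc (nat_lit 91563649641281916347)]]]]],[[[[[Int.negSucc (nat_lit 110270999334599599703)]]]]]]],[[[[[[[Int.negSucc (nat_lit 6490022089281873179)]]]]]]]],[[[],[[[[[[Int.negSucc (nat_lit 295176535509512203)]]]]]]]],[[[[[[[[Int.ofNat (nat_lit 136571411910605195104)]]]]]]]]],[[[[[[[[[Int.negSucc (nat_lit 10073506602898181831)],[Int.ofNat (nat_lit 30220519808694545496)]]]]],[[[[[Int.ofNat (nat_lit 85306150062689640264)]]]]]],[[[],[[[[Int.ofNat (nat_lit 12680652618147212556)]]]]]],[[[[[[Int.negSucc (nat_lit 30220519808694545495)]]]]]]],[[[],[[[[[Int.ofNat (nat_lit 18870030903564297636)]]]]]]],[[[[[[[Int.ofNat (nat_lit 30220519808694545496)]]]]]]]],[[[[[],[[[[Int.ofNat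 (nat_lit 14180502846837108576)]]]]]],[[[[[[Int.ofNat (nat_lit 3914596884895356600)]]]]]]]],[[[[[[[[Int.negSucc (nat_lit 108586239698947730375)]]]]]]],[[[[[[[Int.negSucc (nat_lit 21241616942173652495)]]]]]]]]],[[[[[[[[[Int.ofNat (nat_lit 30521216547093972116)]]]]],[[[[[Int.ofNat (nat_lit 31078912813175640792)]]]]]]],[[[[[[[Int.ofNat (nat_lit 2163340696427291060)]]]]]]]],[[[],[[[[[[Int.ofNat (nat_lit 11370083394634026340)]]]]]]]],[[[[[[[[Int.negSucc (nat_lit 37243534992964435479)]]]]]]]]],[[[[[[[[[Int.ofNat (nat_lit 28435383354229880088)]]]]]]],[[[[[[[Int.ofNat (nat_lit 6290010301188099212)]]]]]]]]],[[[[[[[[[Int.ofNat (nat_lit 10073506602898181832)]]]]]]]]]]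

/-- A coefficient. -/
noncomputable def sr6_m2_3_1 : MP 10 :=
  [[[[[[[[[[Int.ofNat (nat_lit 0),Int.negSucc (nat_lit 34306766990381700071)]]]],[[[[Int.ofNat (nat_lit 6887863738244097220)],[Int.ofNat (nat_lit 20663591214732291660)]]]]],[[[[[Int.ofNat (nat_lit 0),Int.negSucc (nat_lit 36883429562443017491)]]]]]],[[[[[[Int.ofNat (nat_lit 3237696471367594376)],[Int.ofNat (nat_lit 15792151231098796368)]]]]]],[[[],[[[[Int.negSucc (nat_lit 20663591214732291659)]]]]]],[[[[[[Int.negSucc (nat_lit 15792151231098796367)]]]]]]],[[[[[[[Int.ofNat (nat_lit 0),Int.ofNat (nat_lit 19891364779753461300)]]]]]],[[[[[[Int.negSucc (nat_lit 68613533980763400143)]]]]],[[[[[Int.negSucc (nat_lit 73766859124886034983)]]]]]]],[[[[],[[[[Int.ofNat (nat_lit 20663591214732291660)]]]]]],[[[[[[Int.ofNat (nat_lit 55574880790605718968)]]]]]]]],[[[[[[[[Int.negSucc (nat_lit 121547651369336184955)],[Int.negSucc (nat_lit 190991052934972964627)]]]],[],[[[[Int.negSucc (nat_lit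 20663591214732291659)]]]]],[[[[[Int.negSucc (nat_lit 34306766990381700071)]]]]],[[[[[Int.negSucc (nat_lit 36883429562443017491)]]]]]],[[[],[[[[Int.negSucc (nat_lit 15792151231098796367)]]]]]],[[[[[[Int.ofNat (nat_lit 190991052934972964628)]]]]]]],[[[],[[[[[Int.ofNat (nat_lit 19891364779753461300)]]]]]]],[[[[[[[Int.negSucc (nat_lit 190991052934972964627)]]]]]]]],[[[[[[[[Int.ofNat (nat_lit 0),Int.negSucc (nat_lit 25694417077719881843)]]]],[[[[Int.ofNat (nat_lit 190991052934972964628)]]]]]]],[[],[[[[[[Int.negSucc (nat_lit 51388834155439763687)]]]]]]]],[[[[[[[[Int.ofNat (nat_lit 11435588996793900024)]]]]],[[[[[Int.negSucc (nat_lit 13399940556905542679)]]]]]]],[[[[[[[Int.negSucc (nat_lit 6630454926584487099)]]]]]]]],[],[[[[[[[[Int.ofNat (nat_lit 8564805692573293948)]]]]]]]]],[[[[[[[[[Int.ofNat (nat_lit 0),Int.negSucc (nat_lit 26250018530954658035)]]]],[[[[Int.negSucc (nat_lit 34306766990381700071)]]]]],[[],[[[[Int.negSucc (nat_lit 16219838347710725831)]]]]]],[[],[[[[[Int.ofNat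 (nat_lit 15792151231098796368)]]]]]]],[[[[],[[[[Int.ofNat (nat_lit 19891364779753461300)]]]]]],[[[[[[Int.negSucc (nat_lit 52500037061909316071)]]]]]]]],[[[[[[[[Int.negSucc (nat_lit 53647437436975494455)],[Int.negSucc (nat_lit 154413381296920493327)]]]]],[[[[[Int.negSucc (nat_lit 217241071465927622663)]]]]]],[],[[[[[[Int.ofNat (nat_lit 154413381296920493328)]]]]]]],[],[[[[[[[Int.negSucc (nat_lit 154413381296920493327)]]]]]]]],[[[[[],[[[[Int.ofNat (nat_lit 108055373004468319824)]]]]]],[[[[[[Int.negSucc (nat_lit 15792151231098796367)]]]]]]]],[[[[[[[[Int.ofNat (nat_lit 199741059111957850640)]]]]]]]]],[[[[[[[[[Int.ofNat (nat_lit 0),Int.ofNat (nat_lit 27867561216218811828)]]]],[[[[Int.negSucc (nat_lit 26250018530954658035)]]]]]]],[[],[[[[[[Int.ofNat (nat_lit 55735122432437623656)]]]]]]]],[[[[[[[[Int.negSucc (nat_lit 34306766990381700071)]]]]],[[[[[Int.negSucc (nat_lit 163429249643144698991)]]]]]]],[[[[[[[Int.ofNat (nat_lit 19891364779753461300)]]]]]]]],[],[[[[[[[[Int.ofNat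 (nat_lit 119429777147127674208)]]]]]]]]],[[[[[[],[[[[Int.ofNat (nat_lit 34755424954462909048)]]]]]],[[[[[[Int.ofNat (nat_lit 5264050410366265456)]]]]]]]],[[[[[[[[Int.negSucc (nat_lit 89913702842612312911)]]]]]]]]],[[],[[[[[[[[Int.negSucc (nat_lit 23603565882754685947)]]]]]]]]]]

/-- A coefficient. -/
noncomputable def sr6_m2_3_2 : MP 10 :=
  [[[[[[[[[[Int.ofNat (nat_lit 5473336567498376836)],[Int.negSucc (nat_lit 28591799100037371779)]]]]]],[[[[[[Int.ofNat (nat_lit 0),Int.ofNat (nat_lit 16290310856823873696)]]]]]],[[[[[[Int.ofNat (nat_lit 28591799100037371780)]]]]]]],[[[[[[[Int.ofNat (nat_lit 6184009802348799248)],[Int.ofNat (nat_lit 33018907496289672744)]]]]]],[],[[[[[[Int.negSucc (nat_lit 438285782641925351)]]]]]]],[[[[[[[Int.negSucc (nat_lit 28591799100037371779)]]]]]]],[[[[[[[Int.ofNat (nat_lit 33018907496289672744)]]]]]]]],[[[[[[[[Int.ofNat (nat_lit 0),Int.ofNat (nat_lit 356825294244266971500)]]]],[[[[Int.ofNat (nat_lit 28591799100037371780)]]]]]],[[],[[[[[Int.ofNat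 (nat_lit 16290310856823873696)]]]]]]],[[[[],[[[[Int.negSucc (nat_lit 33018907496289672743)]]]]]],[[[[[[Int.ofNat (nat_lit 713650588488533943000)]]]]]]]],[[[[],[[[[[Int.ofNat (nat_lit 356825294244266971500)]]]]]]]],[[[],[[[[[[Int.negSucc (nat_lit 5430103618941291231)]]]]]]]],[[[[[[[[Int.negSucc (nat_lit 118941764748088990499)]]]]]]]]],[[[[[[[[[Int.ofNat (nat_lit 33590464691770580600)],[Int.ofNat (nat_lit 138028570419304619832)]]]]],[[[[[Int.negSucc (nat_lit 28591799100037371779)]]]]]],[[[],[[[[Int.ofNat (nat_lit 16290310856823873696)]]]]]],[[[[[[Int.negSucc (nat_lit 138028570419304619831)]]]]]]],[[[],[[[[[Int.ofNat (nat_lit 33018907496289672744)]]]]]]],[[[[[[[Int.ofNat (nat_lit 138028570419304619832)]]]]]]]],[[[[[],[[[[Int.ofNat (nat_lit 218796723824962351668)]]]]]]]],[[[[[[[[Int.ofNat (nat_lit 28591799100037371780)]]]]]]],[[[[[[[Int.negSucc (nat_lit 33018907496289672743)]]]]]]]]],[[[[[],[[[[[Int.ofNat (nat_lit 138028570419304619832)]]]]]]]],[[[],[[[[[[Int.ofNat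 (nat_lit 16290310856823873696)]]]]]]]],[[[[[[[[Int.ofNat (nat_lit 218796723824962351668)]]]]]]]]],[[[[[[[[[Int.negSucc (nat_lit 9530599700012457259)]]]]]]],[[[[[[[Int.ofNat (nat_lit 11006302498763224248)]]]]]]]]],[[[[[[[[[Int.ofNat (nat_lit 46009523473101539944)]]]]]]]]]]

/-- A coefficient. -/
noncomputable def sr6_m2_3_3 : MP 10 :=
  [[[[[[[[[[Int.ofNat (nat_lit 0),Int.ofNat (nat_lit 9421975896486069984)]]]]]]],[[],[[[[[[Int.ofNat (nat_lit 18843951792972139968)]]]]]]]],[[[[[[[[Int.negSucc (nat_lit 19065693079102078399)],[Int.ofNat (nat_lit 320163858854190204384)]]]]],[[[[[Int.ofNat (nat_lit 9421975896486069984)]]]]]],[],[[[[[[Int.negSucc (nat_lit 320163858854190204383)]]]]]]],[],[[[[[[[Int.ofNat (nat_lit 320163858854190204384)]]]]]]]],[[[[[],[[[[Int.negSucc (nat_lit 320163858854190204383)]]]]]]]],[[[[[[[[Int.negSucc (nat_lit 3140658632162023327)]]]]]]]]],[[[[[[[[[Int.ofNat (nat_lit 0),Int.negSucc (nat_lit 77785650000045541475)]]]],[[[[Int.ofNat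 (nat_lit 9421975896486069984)]]]]]]],[[],[[[[[[Int.negSucc (nat_lit 155571300000091082951)]]]]]]]],[[[[],[[[[[Int.ofNat (nat_lit 242378208854144662908)]]]]]]]],[],[[[[[[[[Int.negSucc (nat_lit 294235308854175023891)]]]]]]]]],[[[[[[],[[[[Int.negSucc (nat_lit 77785650000045541475)]]]]]]]],[[[[[[[[Int.ofNat (nat_lit 9421975896486069984)]]]]]]]]],[[],[[[[[[[[Int.ofNat (nat_lit 28935636284684526652)]]]]]]]]]]

/-- A coefficient. -/
noncomputable def sr6_m2_3_4 : MP 10 :=
  [[[[[[[[[[Int.negSucc (nat_lit 54263226507273233071)],[Int.ofNat (nat_lit 66285622252502214984)]]]]]],[],[[[[[[Int.negSucc (nat_lit 66285622252502214983)]]]]]]],[],[[[[[[[Int.ofNat (nat_lit 66285622252502214984)]]]]]]]],[[[[[],[[[[Int.negSucc (nat_lit 66285622252502214983)]]]]]]]]],[[[[[],[[[[[Int.ofNat (nat_lit 66285622252502214984)]]]]]]]],[],[[[[[[[[Int.negSucc (nat_lit 66285622252502214983)]]]]]]]]],[],[[[[[[[[[Int.ofNat (nat_lit 22095207417500738328)]]]]]]]]]]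

/-- A coefficient. -/
noncomputable def sr6_m2_3_5 : MP 10 :=
  [[[[[[[[[[Int.ofNat (nat_lit 0),Int.negSucc (nat_lit 60751509105257839007)]]]]]]],[[],[[[[[[Int.negSucc (nat_lit 121503018210515678015)]]]]]]]],[[[[],[[[[[Int.negSucc (nat_lit 60751509105257839007)]]]]]]]],[],[[[[[[[[Int.ofNat (nat_lit 20250503035085946336)]]]]]]]]],[[[[[[],[[[[Int.negSucc (nat_lit 60751509105257839007)]]]]]]]]],[[],[[[[[[[[Int.negSucc (nat_lit 60751509105257839007)]]]]]]]]]]

/-- A coefficient. -/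
noncomputable def sr6_m2_4_0 : MP 10 :=
  [[[[[[[[[[Int.ofNat (nat_lit 4164847478293252658)],[Int.negSucc (nat_lit 12494542434879757973)]]]],[[[[Int.ofNat (nat_lit 0),Int.negSucc (nat_lit 6251153501468285519)]]]]],[[[[[Int.ofNat (nat_lit 3590365268628377836)],[Int.negSucc (nat_lit 10771095805885133507)]]]]]],[[[[[[Int.ofNat (nat_lit 0),Int.ofNat (nat_lit 7870551010655615388)]]]]]],[[[[[[Int.ofNat (nat_lit 12494542434879757974)]]]]],[[[[[Int.ofNat (nat_lit 10771095805885133508)]]]]]]],[[[[[[[Int.negSucc (nat_lit 8263032311777050935)],[Int.ofNat (nat_lit 24789096935331152808)]]]]]],[[[],[[[[Int.negSucc (nat_lit 12502307002936571039)]]]]]],[[[[[[Int.negSucc (nat_lit 9047994914019922031)]]]]]]],[[[[[[[Int.negSucc (nat_lit 12494542434879757973)]]]]],[[[[[Int.negSucc (nat_lit 10771095805885133507)]]]]]]],[[[[[[[Int.ofNat (nat_lit 24789096935331152808)]]]]]]]],[[[[[[[[Int.ofNat (nat_lit 0),Int.ofNat (nat_lit 67463829204275300856)]]]],[[[[Int.ofNat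 (nat_lit 12494542434879757974)]]]]],[[],[[[[Int.ofNat (nat_lit 4519942304416847988)]]]]]],[[],[[[[[Int.ofNat (nat_lit 7870551010655615388)]]]]]]],[[[[],[[[[Int.negSucc (nat_lit 24789096935331152807)]]]]]],[[[[[[Int.ofNat (nat_lit 134927658408550601712)]]]]]]]],[[[[[[[[Int.ofNat (nat_lit 18728663108735568234)],[Int.ofNat (nat_lit 64883015021646403326)]]]]],[[[[[Int.ofNat (nat_lit 67463829204275300856)]]]]]],[],[[[[[[Int.negSucc (nat_lit 64883015021646403325)]]]]]]],[],[[[[[[[Int.ofNat (nat_lit 64883015021646403326)]]]]]]]],[[[[[],[[[[Int.negSucc (nat_lit 62799297187823641485)]]]]]],[[[[[[Int.negSucc (nat_lit 2623517003551871795)]]]]]]]],[[[[[[[[Int.negSucc (nat_lit 22487943068091766951)]]]]]]]]],[[[[[[[[[Int.negSucc (nat_lit 11546655502279483403)],[Int.ofNat (nat_lit 34639966506838450212)]]]],[],[[[[Int.negSucc (nat_lit 6251153501468285519)]]]]],[[[[[Int.negSucc (nat_lit 12494542434879757973)]]]]],[[[[[Int.negSucc (nat_lit 10771095805885133507)]]]]]],[[[],[[[[Int.ofNat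 (nat_lit 7870551010655615388)]]]]]],[[[[[[Int.negSucc (nat_lit 34639966506838450211)]]]]]]],[[[],[[[[[Int.ofNat (nat_lit 24789096935331152808)]]]]]]],[[[[[[[Int.ofNat (nat_lit 34639966506838450212)]]]]]]]],[[[[[[[[Int.ofNat (nat_lit 0),Int.negSucc (nat_lit 18446047670583959831)]]]],[[[[Int.ofNat (nat_lit 32823862697436850644)]]]]]]],[[],[[[[[[Int.negSucc (nat_lit 36892095341167919663)]]]]]]]],[[[[[[[[Int.ofNat (nat_lit 12494542434879757974)]]]]],[[[[[Int.ofNat (nat_lit 57208063156947577002)]]]]]]],[[[[[[[Int.negSucc (nat_lit 24789096935331152807)]]]]]]]],[],[[[[[[[[Int.negSucc (nat_lit 58734332464785083381)]]]]]]]]],[[[[[[[[[Int.ofNat (nat_lit 3619461733996279544)],[Int.negSucc (nat_lit 10858385201988838631)]]]]],[[[[[Int.ofNat (nat_lit 34639966506838450212)]]]]]],[],[[[[[[Int.ofNat (nat_lit 10858385201988838632)]]]]]]],[],[[[[[[[Int.negSucc (nat_lit 10858385201988838631)]]]]]]]],[[[[[],[[[[Int.negSucc (nat_lit 13838815970063406719)]]]]]],[[[[[[Int.ofNat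 (nat_lit 7870551010655615388)]]]]]]]],[[[[[[[[Int.ofNat (nat_lit 32823862697436850644)]]]]]]]]],[[[[[[[[[Int.negSucc (nat_lit 4164847478293252657)]]]]],[[[[[Int.negSucc (nat_lit 14448750470617216467)]]]]]]],[[[[[[[Int.ofNat (nat_lit 8263032311777050936)]]]]]]]],[],[[[[[[[[Int.ofNat (nat_lit 14040009205287013242)]]]]]]]]],[[[[[[[[[Int.ofNat (nat_lit 11546655502279483404)]]]]]]]]],[[[[[[[[[Int.negSucc (nat_lit 3619461733996279543)]]]]]]]]]]

/-- A coefficient. -/
noncomputable def sr6_m2_4_1 : MP 10 :=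
  [[[[[[[[[[Int.ofNat (nat_lit 0),Int.negSucc (nat_lit 226515633044170957187)]]]]]],[[[[[[Int.ofNat (nat_lit 16837351601649018912)],[Int.ofNat (nat_lit 44301230432770463520)]]]]]],[],[[[[[[Int.negSucc (nat_lit 44301230432770463519)]]]]]]],[[[[[[[Int.ofNat (nat_lit 0),Int.negSucc (nat_lit 81545495534443420691)]]]]]],[[[[[[Int.negSucc (nat_lit 453031266088341914375)]]]]]]],[[],[[[[[[Int.negSucc (nat_lit 118789760636116377863)]]]]]]]],[[[[[[[[Int.ofNat (nat_lit 13598817661209910612)],[Int.ofNat (nat_lit 186316708074441976836)]]]]],[[[[[Int.negSucc (nat_lit 226515633044170957187)]]]]]],[[[],[[[[Int.negSucc (nat_lit 44301230432770463519)]]]]]],[[[[[[Int.negSucc (nat_lit 186316708074441976835)]]]]]]],[[[],[[[[[Int.negSucc (nat_lit 81545495534443420691)]]]]]]],[[[[[[[Int.ofNat (nat_lit 186316708074441976836)]]]]]]]],[[[[[],[[[[Int.negSucc (nat_lit 186316708074441976835)]]]]]]]],[[[[[[[[Int.ofNat (nat_lit 75505211014723652396)]]]]]]],[[[[[[[Int.ofNat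 (nat_lit 27181831844814473564)]]]]]]]]],[[[[[[[[[Int.ofNat (nat_lit 0),Int.negSucc (nat_lit 215826979778069868407)]]]],[[[[Int.negSucc (nat_lit 226515633044170957187)]]]]]],[[],[[[[[Int.ofNat (nat_lit 44301230432770463520)]]]]]]],[[[[],[[[[Int.negSucc (nat_lit 81545495534443420691)]]]]]],[[[[[[Int.negSucc (nat_lit 431653959556139736815)]]]]]]]],[[[[],[[[[[Int.negSucc (nat_lit 29510271703627891571)]]]]]]]],[[[],[[[[[[Int.negSucc (nat_lit 44301230432770463519)]]]]]]]],[[[[[[[[Int.negSucc (nat_lit 114374381481752020699)]]]]]]]]],[[[[[[],[[[[Int.negSucc (nat_lit 215826979778069868407)]]]]]]]],[[[[[[[[Int.negSucc (nat_lit 226515633044170957187)]]]]]]],[[[[[[[Int.negSucc (nat_lit 81545495534443420691)]]]]]]]]],[[[[],[[[[[[Int.ofNat (nat_lit 14767076810923487840)]]]]]]]],[[[[[[[[Int.negSucc (nat_lit 153721410419922542795)]]]]]]]]]]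

/-- A coefficient. -/
noncomputable def sr6_m2_4_2 : MP 10 :=
  [[[[[[[[[[Int.negSucc (nat_lit 19242643740485042083)],[Int.negSucc (nat_lit 208146678697807992443)]]]]]],[],[[[[[[Int.ofNat (nat_lit 208146678697807992444)]]]]]]],[],[[[[[[[Int.negSucc (nat_lit 208146678697807992443)]]]]]]]],[[[[[[[[Int.ofNat (nat_lit 0),Int.negSucc (nat_lit 303224458442749369187)]]]],[[[[Int.ofNat (nat_lit 208146678697807992444)]]]]]]],[[],[[[[[[Int.negSucc (nat_lit 606448916885498738375)]]]]]]]],[[[[],[[[[[Int.negSucc (nat_lit 303224458442749369187)]]]]]]]],[],[[[[[[[[Int.ofNat (nat_lit 101074819480916456396)]]]]]]]]],[[[[[[[[[Int.negSucc (nat_lit 93787482416819791459)],[Int.negSucc (nat_lit 275650461547626183707)]]]]],[[[[[Int.negSucc (nat_lit 208146678697807992443)]]]]]],[],[[[[[[Int.ofNat (nat_lit 275650461547626183708)]]]]]]],[],[[[[[[[Int.negSucc (nat_lit 275650461547626183707)]]]]]]]],[[[[[],[[[[Int.negSucc (nat_lit 27573996895123185479)]]]]]]]],[[[[[[[[Int.ofNat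 (nat_lit 208146678697807992444)]]]]]]]]],[[[[[],[[[[[Int.negSucc (nat_lit 275650461547626183707)]]]]]]]],[],[[[[[[[[Int.negSucc (nat_lit 27573996895123185479)]]]]]]]]],[[[[[[[[[Int.negSucc (nat_lit 69382226232602664147)]]]]]]]]],[[[[[[[[[Int.negSucc (nat_lit 91883487182542061235)]]]]]]]]]]

/-- A coefficient. -/
noncomputable def sr6_m2_4_3 : MP 10 :=
  [[[[[[[[[[Int.ofNat (nat_lit 0),Int.ofNat (nat_lit 72666955032393531156)]]]]]]],[[],[[[[[[Int.ofNat (nat_lit 145333910064787062312)]]]]]]]],[[[[],[[[[[Int.ofNat (nat_lit 72666955032393531156)]]]]]]]],[],[[[[[[[[Int.negSucc (nat_lit 24222318344131177051)]]]]]]]]],[[[[[[],[[[[Int.ofNat (nat_lit 72666955032393531156)]]]]]]]]],[[],[[[[[[[[Int.ofNat (nat_lit 72666955032393531156)]]]]]]]]]]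

/-- A coefficient. -/
noncomputable def sr6_m2_4_4 : MP 10 :=
  [[[[[[[[[[Int.ofNat (nat_lit 62070853372464615124)],[Int.negSucc (nat_lit 206786393137830116507)]]]]]],[],[[[[[[Int.ofNat (nat_lit 206786393137830116508)]]]]]]],[],[[[[[[[Int.negSucc (nat_lit 206786393137830116507)]]]]]]]],[[[[[],[[[[Int.ofNat (nat_lit 206786393137830116508)]]]]]]]]],[[[[[],[[[[[Int.negSucc (nat_lit 206786393137830116507)]]]]]]]],[],[[[[[[[[Int.ofNat (nat_lit 206786393137830116508)]]]]]]]]],[],[[[[[[[[[Int.negSucc (nat_lit 68928797712610038835)]]]]]]]]]]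

/-- A coefficient. -/
noncomputable def sr6_m2_5_0 : MP 10 :=
  [[[[[[[[[[Int.ofNat (nat_lit 20129389203794023996)],[Int.negSucc (nat_lit 60388167611382071987)]]]]]],[[[[[[Int.ofNat (nat_lit 0),Int.negSucc (nat_lit 21187619629783191503)]]]]]],[[[[[[Int.ofNat (nat_lit 60388167611382071988)]]]]]]],[[[[[[[Int.ofNat (nat_lit 11408211375570773484)],[Int.negSucc (nat_lit 34224634126712320451)]]]]]],[],[[[[[[Int.negSucc (nat_lit 8150605132854062555)]]]]]]],[[[[[[[Int.negSucc (nat_lit 60388167611382071987)]]]]]]],[[[[[[[Int.negSucc (nat_lit 34224634126712320451)]]]]]]]],[[[[[[[[Int.ofNat (nat_lit 0),Int.negSucc (nat_lit 50097542247904640975)]]]],[[[[Int.ofNat (nat_lit 60388167611382071988)]]]]]],[[],[[[[[Int.negSucc (nat_lit 21187619629783191503)]]]]]]],[[[[],[[[[Int.ofNat (nat_lit 34224634126712320452)]]]]]],[[[[[[Int.negSucc (nat_lit 100195084495809281951)]]]]]]]],[[[[],[[[[[Int.negSucc (nat_lit 50097542247904640975)]]]]]]]],[[[],[[[[[[Int.ofNat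 (nat_lit 7062539876594397168)]]]]]]]],[[[[[[[[Int.ofNat (nat_lit 16699180749301546992)]]]]]]]]],[[[[[[[[[Int.ofNat (nat_lit 28746494594451851132)],[Int.negSucc (nat_lit 86239483783355553395)]]]]],[[[[[Int.negSucc (nat_lit 60388167611382071987)]]]]]],[[[],[[[[Int.negSucc (nat_lit 21187619629783191503)]]]]]],[[[[[[Int.ofNat (nat_lit 86239483783355553396)]]]]]]],[[[],[[[[[Int.negSucc (nat_lit 34224634126712320451)]]]]]]],[[[[[[[Int.negSucc (nat_lit 86239483783355553395)]]]]]]]],[[[[[],[[[[Int.ofNat (nat_lit 36141941535450912420)]]]]]]]],[[[[[[[[Int.ofNat (nat_lit 60388167611382071988)]]]]]]],[[[[[[[Int.ofNat (nat_lit 34224634126712320452)]]]]]]]]],[[[[[],[[[[[Int.negSucc (nat_lit 86239483783355553395)]]]]]]]],[[[],[[[[[[Int.negSucc (nat_lit 21187619629783191503)]]]]]]]],[[[[[[[[Int.ofNat (nat_lit 36141941535450912420)]]]]]]]]],[[[[[[[[[Int.negSucc (nat_lit 20129389203794023995)]]]]]]],[[[[[[[Int.negSucc (nat_lit 11408211375570773483)]]]]]]]]],[[[[[[[[[Int.negSucc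 (nat_lit 28746494594451851131)]]]]]]]]]]

/-- A coefficient. -/
noncomputable def sr6_m2_5_1 : MP 10 :=
  [[[[[[[[[[Int.ofNat (nat_lit 0),Int.ofNat (nat_lit 204704808926910633756)]]]]]]],[[],[[[[[[Int.ofNat (nat_lit 409409617853821267512)]]]]]]]],[[[[[[[[Int.ofNat (nat_lit 31642916317090613224)],[Int.negSucc (nat_lit 47005063850672771759)]]]]],[[[[[Int.ofNat (nat_lit 204704808926910633756)]]]]]],[],[[[[[[Int.ofNat (nat_lit 47005063850672771760)]]]]]]],[],[[[[[[[Int.negSucc (nat_lit 47005063850672771759)]]]]]]]],[[[[[],[[[[Int.ofNat (nat_lit 47005063850672771760)]]]]]]]],[[[[[[[[Int.negSucc (nat_lit 68234936308970211251)]]]]]]]]],[[[[[[[[[Int.ofNat (nat_lit 0),Int.ofNat (nat_lit 119166025204704877212)]]]],[[[[Int.ofNat (nat_lit 204704808926910633756)]]]]]]],[[],[[[[[[Int.ofNat (nat_lit 238332050409409754424)]]]]]]]],[[[[],[[[[[Int.ofNat (nat_lit 72160961354032105452)]]]]]]]],[],[[[[[[[[Int.ofNat (nat_lit 7283055449104479356)]]]]]]]]],[[[[[[],[[[[Int.ofNat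 (nat_lit 119166025204704877212)]]]]]]]],[[[[[[[[Int.ofNat (nat_lit 204704808926910633756)]]]]]]]]],[[],[[[[[[[[Int.ofNat (nat_lit 103497670587813953292)]]]]]]]]]]

/-- A coefficient. -/
noncomputable def sr6_m2_5_2 : MP 10 :=
  [[[[[[[[[[Int.negSucc (nat_lit 64208352071530002175)],[Int.negSucc (nat_lit 94768488966896050871)]]]]]],[],[[[[[[Int.ofNat (nat_lit 94768488966896050872)]]]]]]],[],[[[[[[[Int.negSucc (nat_lit 94768488966896050871)]]]]]]]],[[[[[],[[[[Int.ofNat (nat_lit 94768488966896050872)]]]]]]]]],[[[[[],[[[[[Int.negSucc (nat_lit 94768488966896050871)]]]]]]]],[],[[[[[[[[Int.ofNat (nat_lit 94768488966896050872)]]]]]]]]],[],[[[[[[[[[Int.negSucc (nat_lit 31589496322298683623)]]]]]]]]]]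

/-- A coefficient. -/
noncomputable def sr6_m2_5_3 : MP 10 :=
  [[[[[[[[[[Int.ofNat (nat_lit 0),Int.ofNat (nat_lit 122501314468222109592)]]]]]]],[[],[[[[[[Int.ofNat (nat_lit 245002628936444219184)]]]]]]]],[[[[],[[[[[Int.ofNat (nat_lit 122501314468222109592)]]]]]]]],[],[[[[[[[[Int.negSucc (nat_lit 40833771489407369863)]]]]]]]]],[[[[[[],[[[[Int.ofNat (nat_lit 122501314468222109592)]]]]]]]]],[[],[[[[[[[[Int.ofNat (nat_lit 122501314468222109592)]]]]]]]]]]

/-- A coefficient. -/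
noncomputable def sr6_m2_6_0 : MP 10 :=
  [[[[[[[[[[Int.negSucc (nat_lit 5346176634501359335)],[Int.ofNat (nat_lit 16038529903504078008)]]]]]],[],[[[[[[Int.negSucc (nat_lit 16038529903504078007)]]]]]]],[],[[[[[[[Int.ofNat (nat_lit 16038529903504078008)]]]]]]]],[[[[[[[[Int.ofNat (nat_lit 0),Int.ofNat (nat_lit 10574148421933231992)]]]],[[[[Int.negSucc (nat_lit 16038529903504078007)]]]]]]],[[],[[[[[[Int.ofNat (nat_lit 21148296843866463984)]]]]]]]],[[[[],[[[[[Int.ofNat (nat_lit 10574148421933231992)]]]]]]]],[],[[[[[[[[Int.negSucc (nat_lit 3524716140644410663)]]]]]]]]],[[[[[[[[[Int.negSucc (nat_lit 15803280083072342731)],[Int.ofNat (nat_lit 47409840249217028196)]]]]],[[[[[Int.ofNat (nat_lit 16038529903504078008)]]]]]],[],[[[[[[Int.negSucc (nat_lit 47409840249217028195)]]]]]]],[],[[[[[[[Int.ofNat (nat_lit 47409840249217028196)]]]]]]]],[[[[[],[[[[Int.negSucc (nat_lit 36835691827283796203)]]]]]]]],[[[[[[[[Int.negSucc (nat_lit 16038529903504078007)]]]]]]]]],[[[[[],[[[[[Int.ofNat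 (nat_lit 47409840249217028196)]]]]]]]],[],[[[[[[[[Int.negSucc (nat_lit 36835691827283796203)]]]]]]]]],[[[[[[[[[Int.ofNat (nat_lit 5346176634501359336)]]]]]]]]],[[[[[[[[[Int.ofNat (nat_lit 15803280083072342732)]]]]]]]]]]

/-- A coefficient. -/
noncomputable def sr6_m2_6_1 : MP 10 :=
  [[[[[[[[[[Int.ofNat (nat_lit 0),Int.ofNat (nat_lit 73831649735471231568)]]]]]]],[[],[[[[[[Int.ofNat (nat_lit 147663299470942463136)]]]]]]]],[[[[],[[[[[Int.ofNat (nat_lit 73831649735471231568)]]]]]]]],[],[[[[[[[[Int.negSucc (nat_lit 24610549911823743855)]]]]]]]]],[[[[[[],[[[[Int.ofNat (nat_lit 73831649735471231568)]]]]]]]]],[[],[[[[[[[[Int.ofNat (nat_lit 73831649735471231568)]]]]]]]]]]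

/-- A coefficient. -/
noncomputable def sr6_m2_6_2 : MP 10 :=
  [[[[[[[[[[Int.ofNat (nat_lit 64353750336402805442)],[Int.ofNat (nat_lit 222183519503666869734)]]]]]],[],[[[[[[Int.negSucc (nat_lit 222183519503666869733)]]]]]]],[],[[[[[[[Int.ofNat (nat_lit 222183519503666869734)]]]]]]]],[[[[[],[[[[Int.negSucc (nat_lit 222183519503666869733)]]]]]]]]],[[[[[],[[[[[Int.ofNat (nat_lit 222183519503666869734)]]]]]]]],[],[[[[[[[[Int.negSucc (nat_lit 222183519503666869733)]]]]]]]]],[],[[[[[[[[[Int.ofNat (nat_lit 74061173167888956578)]]]]]]]]]]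

/-- A coefficient. -/
noncomputable def sr6_m2_7_0 : MP 10 :=
  [[[[[[[[[[Int.negSucc (nat_lit 18053099661056466319)],[Int.ofNat (nat_lit 54159298983169398960)]]]]]],[],[[[[[[Int.negSucc (nat_lit 54159298983169398959)]]]]]]],[],[[[[[[[Int.ofNat (nat_lit 54159298983169398960)]]]]]]]],[[[[[],[[[[Int.negSucc (nat_lit 54159298983169398959)]]]]]]]]],[[[[[],[[[[[Int.ofNat (nat_lit 54159298983169398960)]]]]]]]],[],[[[[[[[[Int.negSucc (nat_lit 54159298983169398959)]]]]]]]]],[],[[[[[[[[[Int.ofNat (nat_lit 18053099661056466320)]]]]]]]]]]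

/-- A coefficient. -/
noncomputable def sr6_m2_7_1 : MP 10 :=
  [[[[[[[[[[Int.ofNat (nat_lit 0),Int.negSucc (nat_lit 112978656629545227959)]]]]]]],[[],[[[[[[Int.negSucc (nat_lit 225957313259090455919)]]]]]]]],[[[[],[[[[[Int.negSucc (nat_lit 112978656629545227959)]]]]]]]],[],[[[[[[[[Int.ofNat (nat_lit 37659552209848409320)]]]]]]]]],[[[[[[],[[[[Int.negSucc (nat_lit 112978656629545227959)]]]]]]]]],[[],[[[[[[[[Int.negSucc (nat_lit 112978656629545227959)]]]]]]]]]]

/-- A coefficient. -/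
noncomputable def sr6_m2_8_0 : MP 10 :=
  [[[[[[[[[[Int.ofNat (nat_lit 13498446819759176688)],[Int.negSucc (nat_lit 40495340459277530063)]]]]]],[],[[[[[[Int.ofNat (nat_lit 40495340459277530064)]]]]]]],[],[[[[[[[Int.negSucc (nat_lit 40495340459277530063)]]]]]]]],[[[[[],[[[[Int.ofNat (nat_lit 40495340459277530064)]]]]]]]]],[[[[[],[[[[[Int.negSucc (nat_lit 40495340459277530063)]]]]]]]],[],[[[[[[[[Int.ofNat (nat_lit 40495340459277530064)]]]]]]]]],[],[[[[[[[[[Int.negSucc (nat_lit 13498446819759176687)]]]]]]]]]]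

/-- An expanded part. -/
noncomputable def sr6_m2 : R12 :=
  [[sr6_m2_0_0, sr6_m2_0_1, sr6_m2_0_2, sr6_m2_0_3, sr6_m2_0_4, sr6_m2_0_5, sr6_m2_0_6, sr6_m2_0_7, sr6_m2_0_8],
   [sr6_m2_1_0, sr6_m2_1_1, sr6_m2_1_2, sr6_m2_1_3, sr6_m2_1_4, sr6_m2_1_5, sr6_m2_1_6, sr6_m2_1_7],
   [sr6_m2_2_0, sr6_m2_2_1, sr6_m2_2_2, sr6_m2_2_3, sr6_m2_2_4, sr6_m2_2_5, sr6_m2_2_6],
   [sr6_m2_3_0, sr6_m2_3_1, sr6_m2_3_2, sr6_m2_3_3, sr6_m2_3_4, sr6_m2_3_5],
   [sr6_m2_4_0, sr6_m2_4_1, sr6_m2_4_2, sr6_m2_4_3, sr6_m2_4_4],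
   [sr6_m2_5_0, sr6_m2_5_1, sr6_m2_5_2, sr6_m2_5_3],
   [sr6_m2_6_0, sr6_m2_6_1, sr6_m2_6_2],
   [sr6_m2_7_0, sr6_m2_7_1],
   [sr6_m2_8_0]]

set_option maxRecDepth 100000 in
theorem sr6_check2 : partOk 4 sr6_rows 2 sr6_m2 = true :=
  Fast.partOk_of_fast (by decide +kernel)

end Vale.Agent.P142K.CertB
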