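import Vale.Agent.P142K.CertB.Sr6Rows
import Vale.Agent.P142K.Fast

/-!
# An expanded part of the certificate

Generated from a semidefinite program; only the checker is trusted.
-/

namespace Vale.Agent.P142K.CertB

open Vale.Agent.P142J (MP)

/-- A coefficient. -/
noncomputable def sr6_m3_0_0 : MP 10 :=
  [[[[[],[[[[[[Int.ofNat (nat_lit 0),Int.negSucc (nat_lit 1358447891033037527)]],[[Int.negSucc (nat_lit 4088265152780076995)],[Int.negSucc (nat_lit 435627686079865955)]]],[[[Int.ofNat (nat_lit 0),Int.negSucc (nat_lit 377990338432722455)]],[[Int.negSucc (nat_lit 651852736505117699)]]]],[[[[Int.negSucc (nat_lit 6144952197864676811)],[Int.ofNat (nat_lit 293897903151015048)]]],[[[Int.negSucc (nat_lit 2463821426310586991)]]]]],[[[[[Int.ofNat (nat_lit 0),Int.ofNat (nat_lit 585229468781333364)]],[[Int.negSucc (nat_lit 3837541183035321203)]]]],[[[[Int.negSucc (nat_lit 4794335184194992847)]]]]]],[[[[[[Int.negSucc (nat_lit 21530969127150035567)],[Int.ofNat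 (nat_lit 452047836616484256)]]],[[[Int.ofNat (nat_lit 2231079493137126936)]]]]],[[[[[Int.negSucc (nat_lit 8381209663038011819)]]]]]],[[[[[],[[Int.negSucc (nat_lit 1215885686250235991)]]]],[[[[Int.ofNat (nat_lit 1857129798772105308)]]]]]],[[[[[[Int.negSucc (nat_lit 9820983120686840459)]]]]]]],[[[[[[[Int.negSucc (nat_lit 2347958659015105991)],[Int.negSucc (nat_lit 390609601961140919)]],[[Int.ofNat (nat_lit 0),Int.ofNat (nat_lit 305531058783338496)]],[[Int.ofNat (nat_lit 535087066323285888)]]],[[[Int.negSucc (nat_lit 4568050798505727143)],[Int.negSucc (nat_lit 355573063495634699)]]],[[[Int.negSucc (nat_lit 390938458298502683)]]]],[[[[Int.ofNat (nat_lit 0),Int.ofNat (nat_lit 508239260225307540)]],[[Int.ofNat (nat_lit 2577073766619640824)]]]],[[[[Int.ofNat (nat_lit 610153961691407784)]]]]],[[[[[Int.negSucc (nat_lit 2166810105322282871)],[Int.ofNat (nat_lit 1350661463392651272)]]],[[[Int.negSucc (nat_lit 2629070015245298651)]]]]],[[[[[Int.ofNat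 (nat_lit 1425288010548592764)]]]]]],[[[[[[Int.ofNat (nat_lit 0),Int.ofNat (nat_lit 2394844384217109900)]],[[Int.ofNat (nat_lit 2944860205827752808)]]]],[[[[Int.ofNat (nat_lit 202176512105067276)]]]]]],[[[[[[Int.ofNat (nat_lit 21994266859471165644)]]],[[[Int.negSucc (nat_lit 1807605496611732683)]]]]],[[[[[Int.ofNat (nat_lit 5645884585053522720)]]]]]]],[[[[[[[Int.negSucc (nat_lit 11611387298047018415)],[Int.ofNat (nat_lit 2306247539932958088)]]],[[[Int.ofNat (nat_lit 6120003863556778896)]]]]],[[[[[Int.ofNat (nat_lit 359951507570739912)]]]]]],[[[[[],[[Int.negSucc (nat_lit 1891443506660132435)]]]],[[[[Int.ofNat (nat_lit 392280201851795700)]]]]]],[[[[[[Int.negSucc (nat_lit 27368661101071657883)]]]]]]],[[[[[[[Int.ofNat (nat_lit 13385991204709119480)]]],[[[Int.negSucc (nat_lit 2874425838090539711)]]]]],[[[[[Int.ofNat (nat_lit 4445709997870465764)]]]]]]],[[[[[[[Int.negSucc (nat_lit 15477873535277584463)]]]]]]]],[[[],[[[[[[Int.negSucc (nat_lit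 9654624407406940439)],[Int.ofNat (nat_lit 2512217930104449336)]]],[[[Int.negSucc (nat_lit 7203696854952280703)]]]],[[[],[[Int.negSucc (nat_lit 10301716617430583)]]]],[[[[Int.ofNat (nat_lit 167006652808059060)]]]]],[[[[[Int.ofNat (nat_lit 394642888499396280)]]],[[[Int.ofNat (nat_lit 138977926241788320)]]]]],[[[[[Int.negSucc (nat_lit 1044485404818976871)]]]]]],[[[[[[Int.ofNat (nat_lit 0),Int.ofNat (nat_lit 66899368571137728)]],[[Int.ofNat (nat_lit 4094527482757346856)]]]],[[[[Int.negSucc (nat_lit 3129780228017562203)]]]]]],[[[[[[Int.ofNat (nat_lit 2180982846067850616)]]]]]]],[[[[[[[Int.ofNat (nat_lit 0),Int.negSucc (nat_lit 1590220545127690691)]],[[Int.ofNat (nat_lit 9066748392624198876)]]]],[[[[Int.ofNat (nat_lit 16269155289008476332)]]],[[[Int.negSucc (nat_lit 497512332582223307)]]]]],[[[[],[[Int.negSucc (nat_lit 105039091214274995)]]]],[[[[Int.ofNat (nat_lit 1200722469228750396)]]]]]],[[[[[[Int.ofNat (nat_lit 29520148043003995668)],[Int.ofNat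 (nat_lit 201749959376020548)]]],[[[Int.ofNat (nat_lit 8770094235136834704)]]]]],[[[[[Int.ofNat (nat_lit 5965182701216012520)]]]]]],[],[[[[[[Int.ofNat (nat_lit 6245588120437966188)]]]]]]],[[[[[[[Int.ofNat (nat_lit 0),Int.negSucc (nat_lit 1027529995758383447)]],[[Int.negSucc (nat_lit 1656874805134134887)]]]],[[[[Int.negSucc (nat_lit 6242531245633573163)]]]]]],[[[[[[Int.negSucc (nat_lit 20031232205267857463)]]]]]]],[[],[[[[[[Int.ofNat (nat_lit 10696827674310870648)]]]]]]]],[[[],[[[[[[Int.ofNat (nat_lit 0),Int.ofNat (nat_lit 149583860091083292)]],[[Int.ofNat (nat_lit 468302457362336904)]]]],[[[[Int.negSucc (nat_lit 489420361500839327)]]]]]],[[[[[[Int.negSucc (nat_lit 14045914182358299311)]]]]],[[[[[Int.negSucc (nat_lit 1419406107011698259)]]]]]]],[[[[[[[Int.ofNat (nat_lit 2440992554928008868)],[Int.ofNat (nat_lit 190938698427813684)]]],[[[Int.negSucc (nat_lit 2964667844811327899)]]]]],[[[[[Int.ofNat (nat_lit 1885426950564880668)]]]]]],[[[],[[[[Int.ofNat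 (nat_lit 1025418476255399520)]]]]]],[[[[[[Int.negSucc (nat_lit 17043372874110145643)]]]]]]],[[[[[[[Int.negSucc (nat_lit 23159746557608490959)]]]]],[[[[[Int.negSucc (nat_lit 1775210076779734511)]]]]]]],[[[[[[[Int.negSucc (nat_lit 6564104344801029047)]]]]]]]],[[[],[[[[[[Int.ofNat (nat_lit 12865926669424818144)]]],[[[Int.ofNat (nat_lit 370495538055702972)]]]]],[[[[[Int.ofNat (nat_lit 4436870979382179240)]]]]]]],[[[[[[],[[Int.negSucc (nat_lit 106364888278061015)]]]],[[[[Int.negSucc (nat_lit 4674635867701821419)]]]]]],[[[[[[Int.ofNat (nat_lit 15133054458384253680)]]]]]]]],[[[],[],[[[[[[Int.negSucc (nat_lit 208333011764757383)]]]]]]],[[[[[[[Int.negSucc (nat_lit 17870884074202059035)]]]]]]],[[[[[[[Int.negSucc (nat_lit 660062403723428747)]]]]]]]],[[[],[[[[[[Int.negSucc (nat_lit 4393660149820269839)]]]]]]]]],[[[[],[[[[[[Int.ofNat (nat_lit 0),Int.negSucc (nat_lit 3753174674489772191)]],[[Int.negSucc (nat_lit 4442719091368178327)]]]],[[[[Int.negSucc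 (nat_lit 15038539066145285963)]]],[[[Int.negSucc (nat_lit 933289867985170163)]]]]],[[[[],[[Int.negSucc (nat_lit 50852442660178319)]]]],[[[[Int.negSucc (nat_lit 589099953143754395)]]]]]],[[[[[[Int.negSucc (nat_lit 67591169330049031031)],[Int.ofNat (nat_lit 324792831406333068)]]],[[[Int.negSucc (nat_lit 986383802851789415)]]]]],[[[[[Int.negSucc (nat_lit 13917962528802278735)]]]]]],[],[[[[[[Int.negSucc (nat_lit 4880689723949410979)]]]]]]],[[[[[[[Int.negSucc (nat_lit 30058744684367607539)],[Int.negSucc (nat_lit 1300674392238506267)]]],[[[Int.negSucc (nat_lit 10006049968454745971)]]]],[[[],[[Int.ofNat (nat_lit 778971892378920708)]]]],[[[[Int.ofNat (nat_lit 48194882413808544)]]]]],[[[[[Int.negSucc (nat_lit 15240033528547050119)]]],[[[Int.negSucc (nat_lit 82604497249929911)]]]]],[[[[[Int.ofNat (nat_lit 187283368189097712)]]]]]],[[[[[[Int.ofNat (nat_lit 0),Int.ofNat (nat_lit 2276229581436629340)]],[[Int.ofNat (nat_lit 2118502213461581364)]]]],[[[[Int.ofNat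 (nat_lit 10156848905912497308)]]]]]],[[[[[[Int.ofNat (nat_lit 24713315789124418668)]]]]]]],[[[[[[[Int.negSucc (nat_lit 10948810074139082555)],[Int.ofNat (nat_lit 1869372515491955760)]]],[[[Int.ofNat (nat_lit 5309833889421535920)]]]]],[[[[[Int.ofNat (nat_lit 5968718627848512924)]]]]]],[],[[[[[[Int.negSucc (nat_lit 4821920049035479163)]]]]]]],[[[[[[[Int.negSucc (nat_lit 5827387839752736875)]]]]]]],[[[[[[[Int.ofNat (nat_lit 2745952389914719296)]]]]]]]],[[[],[[[[[[Int.negSucc (nat_lit 44492080475359352555)],[Int.ofNat (nat_lit 2677185292357575744)]]],[[[Int.negSucc (nat_lit 4883412228997550231)]]]]],[[[[[Int.ofNat (nat_lit 1902359825712908400)]]]]]],[[[],[[[[Int.ofNat (nat_lit 832443332401771068)]]]]]],[[[[[[Int.ofNat (nat_lit 823743382624228116)]]]]]]],[[[[[[[Int.ofNat (nat_lit 0),Int.negSucc (nat_lit 1184088034220517467)]],[[Int.ofNat (nat_lit 6853977126913867680)]]]],[[[[Int.ofNat (nat_lit 15798927864345426840)]]]]]],[[[[[[Int.ofNat (nat_lit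 80228631365792906772)]]]]],[[[[[Int.ofNat (nat_lit 4122660554519205972)]]]]]]],[[[[],[[[[Int.negSucc (nat_lit 2354385833384978651)]]]]]],[[[[[[Int.negSucc (nat_lit 29462227237889876783)]]]]]]]],[[[],[[[[[],[[Int.negSucc (nat_lit 1213403816030520611)]]]],[[[[Int.negSucc (nat_lit 1663152694507601987)]]]]]],[[[[[[Int.negSucc (nat_lit 12525343782880403327)]]]]]]],[[[[[[[Int.negSucc (nat_lit 10848992178057313319)]]],[[[Int.negSucc (nat_lit 1940324701248976895)]]]]],[[[[[Int.ofNat (nat_lit 1336762327398076500)]]]]]]],[[[[[[[Int.negSucc (nat_lit 19807658118444496151)]]]]]]]],[[[],[[[[[[Int.ofNat (nat_lit 1518178882825504668)]]]]]]],[[],[[[[[[Int.ofNat (nat_lit 8029188579462476928)]]]]]]]],[[],[[[[[[[Int.negSucc (nat_lit 12034450829632512383)]]]]]]]]],[[[[],[[[[[[Int.ofNat (nat_lit 0),Int.negSucc (nat_lit 2224743467195770007)]],[[Int.negSucc (nat_lit 194801454796866347)]]]],[[[[Int.negSucc (nat_lit 11116567867587572843)]]]]]],[[[[[[Int.negSucc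 (nat_lit 71446303583003433347)]]]]],[[[[[Int.negSucc (nat_lit 1650478285613024279)]]]]]]],[[[[[[[Int.negSucc (nat_lit 83431590920081699519)],[Int.negSucc (nat_lit 646220458707154499)]]],[[[Int.negSucc (nat_lit 5743378888010471699)]]]]],[[[[[Int.negSucc (nat_lit 16170086417074222463)]]]]]],[[[],[[[[Int.ofNat (nat_lit 2454435818861304480)]]]]]],[[[[[[Int.negSucc (nat_lit 1932054703837543979)]]]]]]],[[[[[[[Int.ofNat (nat_lit 10462252165911129612)]]]]],[[[[[Int.ofNat (nat_lit 2275817109945464544)]]]]]]],[[[[[[[Int.negSucc (nat_lit 17770556898941097035)]]]]]]]],[[[],[[[[[[Int.negSucc (nat_lit 77375399283447324311)]]],[[[Int.ofNat (nat_lit 1529803047637605540)]]]]],[[[[[Int.ofNat (nat_lit 695119074973016640)]]]]]]],[[[[[[],[[Int.negSucc (nat_lit 1137420984449545319)]]]],[[[[Int.ofNat (nat_lit 1603768583643117300)]]]]]],[[[[[[Int.ofNat (nat_lit 61610910087087774096)]]]]]]]],[[[],[],[[[[[[Int.negSucc (nat_lit 5430160646212351859)]]]]]]],[[[[[[[Int.negSucc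 (nat_lit 30641192554640985227)]]]]]]],[[[[[[[Int.ofNat (nat_lit 1502829018180502524)]]]]]]]],[[[],[[[[[[Int.negSucc (nat_lit 11402115406540023611)]]]]]]]]],[[[[],[[[[[],[[Int.negSucc (nat_lit 387885953779512875)]]]],[[[[Int.negSucc (nat_lit 2103797081977594343)]]]]]],[[[[[[Int.negSucc (nat_lit 29519785334558259587)]]]]]]],[[[[[[[Int.negSucc (nat_lit 92326498178931072875)]]],[[[Int.negSucc (nat_lit 894222564993827927)]]]]],[[[[[Int.negSucc (nat_lit 3354878672076373067)]]]]]]],[[[[[[[Int.ofNat (nat_lit 8994651258659022528)]]]]]]]],[[[],[[[[[[Int.negSucc (nat_lit 55425883941218966627)]]]]]]],[[],[[[[[[Int.ofNat (nat_lit 8066599777244915100)]]]]]]]],[[],[[[[[[[Int.negSucc (nat_lit 19612014662657867423)]]]]]]]]],[[[[],[],[[[[[[Int.negSucc (nat_lit 5569322998262172503)]]]]]]],[[[[[[[Int.negSucc (nat_lit 44262513002181268727)]]]]]]],[[[[[[[Int.negSucc (nat_lit 1109933526007616219)]]]]]]]],[[[],[[[[[[Int.negSucc (nat_lit 12907797634918997843)]]]]]]]]],[[[],[[[[[[[Int.negSucc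 (nat_lit 7560414442801525415)]]]]]]]]]]

/-- A coefficient. -/
noncomputable def sr6_m3_0_1 : MP 10 :=
  [[[[[],[[[[[[Int.ofNat (nat_lit 9213117761097546888)],[Int.negSucc (nat_lit 1928999550622927715)]],[],[[Int.negSucc (nat_lit 311039822518832843)]]],[[[Int.ofNat (nat_lit 2182590216511078500)]]],[[[Int.ofNat (nat_lit 1823671791131659032)]]]],[[[[Int.ofNat (nat_lit 0),Int.negSucc (nat_lit 342975905533709255)]],[[Int.ofNat (nat_lit 2706365210255945256)]]]],[[[[Int.ofNat (nat_lit 1169808566403514860)]]]]],[[[[[Int.ofNat (nat_lit 12150843813996608496)],[Int.negSucc (nat_lit 1052933153964752375)]]],[[[Int.negSucc (nat_lit 2193423703251662663)]]]]],[[[[[Int.negSucc (nat_lit 2209633890380549255)]]]]]],[[[[[[Int.ofNat (nat_lit 0),Int.ofNat (nat_lit 4513646280389670456)]],[[Int.negSucc (nat_lit 3221011081580589143)]]]],[[[[Int.negSucc (nat_lit 3928626590161900775)]]]]]],[[[[[[Int.negSucc (nat_lit 13607729021191973603)]]]]],[[[[[Int.negSucc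 (nat_lit 9743641182190967)]]]]]]],[[[[[[[Int.ofNat (nat_lit 0),Int.ofNat (nat_lit 1655608462035221568)]],[[Int.negSucc (nat_lit 2242437967457856395)]]],[[],[[Int.negSucc (nat_lit 659631044130152903)]]]],[[[[Int.negSucc (nat_lit 22179055884355232435)],[Int.negSucc (nat_lit 402111711110828855)]]],[[[Int.ofNat (nat_lit 718720715347621020)]]]]],[[[[[Int.ofNat (nat_lit 0),Int.ofNat (nat_lit 1198914007909094844)]],[[Int.negSucc (nat_lit 433347497746505759)]]]],[[[[Int.ofNat (nat_lit 1326250861070284464)]]]]]],[[[[[[Int.negSucc (nat_lit 418137975803786807)],[Int.ofNat (nat_lit 7692334845797289852)]]],[[[Int.negSucc (nat_lit 10908332479940267579)]]]]],[[[[[Int.ofNat (nat_lit 11548063717380266436)]]]]]],[[[],[[[[Int.negSucc (nat_lit 2249829814969494359)]]]]]],[[[[[[Int.ofNat (nat_lit 11118247692059338608)]]]]]]],[[[[[[[Int.ofNat (nat_lit 0),Int.negSucc (nat_lit 1794344360100907079)]],[[Int.ofNat (nat_lit 11888857036119527760)]]]],[[[[Int.ofNat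 (nat_lit 24318629436003449124)]]]]]],[[[[[[Int.negSucc (nat_lit 5720917173857488163)]]]]],[[[[[Int.negSucc (nat_lit 195818309630549291)]]]]]]],[[[[],[[[[Int.negSucc (nat_lit 2079798114307262399)]]]]]],[[[[[[Int.ofNat (nat_lit 3675590165621307804)]]]]]]]],[[[],[[[[[[Int.ofNat (nat_lit 0),Int.negSucc (nat_lit 2772933461325096467)]],[[Int.ofNat (nat_lit 12161534090071070340)]]]],[[[[Int.ofNat (nat_lit 7802331647370030192)]]]]],[[],[[[[Int.ofNat (nat_lit 2359808239958788464)]]]]]],[[[[[[Int.ofNat (nat_lit 30627279414048909768)]]],[[[Int.negSucc (nat_lit 4551421436831963471)]]]]],[[[[[Int.ofNat (nat_lit 5328890058104805432)]]]]]]],[[[[[[[Int.negSucc (nat_lit 2972849084618470739)],[Int.negSucc (nat_lit 5473087910978322647)]]],[[[Int.ofNat (nat_lit 8764507949194555068)]]]],[],[[[[Int.ofNat (nat_lit 193530551671289856)]]]]],[[[[[Int.negSucc (nat_lit 20046279726956776823)]]]]],[[[[[Int.ofNat (nat_lit 2453619079093597824)]]]]]],[[[[[],[[Int.negSucc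 (nat_lit 3744642085986590087)]]]],[[[[Int.negSucc (nat_lit 224370153256689443)]]]]]],[[[[[[Int.ofNat (nat_lit 36177572576603949888)]]]]]]],[[[[[[[Int.ofNat (nat_lit 27237085684593450048)]]],[[[Int.ofNat (nat_lit 1029272127206028648)]]]]],[[[[[Int.ofNat (nat_lit 3419059490066437452)]]]]]]],[[[[[[[Int.negSucc (nat_lit 4461396517405612547)]]]]]]]],[[[],[[[[[[Int.negSucc (nat_lit 59716260129593673323)],[Int.negSucc (nat_lit 3186363288192060851)]]],[[[Int.ofNat (nat_lit 13221463039723824)]]]]],[[[[[Int.negSucc (nat_lit 28225806199029774035)]]]]]],[],[[[[[[Int.ofNat (nat_lit 1546089169597344144)]]]]]]],[[[[[[[Int.ofNat (nat_lit 0),Int.ofNat (nat_lit 2140645512077655732)]],[[Int.ofNat (nat_lit 7210958570001817320)]]]],[[[[Int.ofNat (nat_lit 14836034200642066872)]]]]]],[[[[[[Int.negSucc (nat_lit 1785504874544728067)]]]]]]],[[],[[[[[[Int.negSucc (nat_lit 15746154629151779027)]]]]]]]],[[[],[[[],[[[[Int.ofNat (nat_lit 114504345767075988)]]]]]],[[[[[[Int.ofNat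 (nat_lit 33419322906079144788)]]]]]]],[[[[[[[Int.ofNat (nat_lit 72025049930261798460)]]]]],[[[[[Int.ofNat (nat_lit 3501154788722346444)]]]]]]],[[[[[[[Int.ofNat (nat_lit 21974907858754988160)]]]]]]]],[[[],[[[[[[Int.ofNat (nat_lit 7634012250339751776)]]]]]]]],[[],[[[[[[[Int.negSucc (nat_lit 5041362801736631003)]]]]]]]]],[[[[],[[[[[[Int.negSucc (nat_lit 3624366105477475703)],[Int.ofNat (nat_lit 1769297580989781180)]]],[[[Int.negSucc (nat_lit 3264313111819929455)]]]],[],[[[[Int.negSucc (nat_lit 25028406508832147)]]]]],[[[[[Int.ofNat (nat_lit 6759298549146485820)]]]]],[[[[[Int.negSucc (nat_lit 1734448255760814983)]]]]]],[[[[[],[[Int.ofNat (nat_lit 1410209934947813964)]]]],[[[[Int.ofNat (nat_lit 5068985498857206012)]]]]]],[[[[[[Int.ofNat (nat_lit 1046786420843940564)]]]]]]],[[[[[[[Int.ofNat (nat_lit 0),Int.negSucc (nat_lit 2303415388198498883)]],[[Int.ofNat (nat_lit 14727035470061594652)]]]],[[[[Int.ofNat (nat_lit 866296692347119212)]]]]],[[],[[[[Int.ofNat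 (nat_lit 849446703320384664)]]]]]],[[[[[[Int.negSucc (nat_lit 16372134738741118547)]]],[[[Int.negSucc (nat_lit 5297412695195972603)]]]]],[[[[[Int.ofNat (nat_lit 13600452214060560888)]]]]]]],[[[[[[],[[Int.ofNat (nat_lit 794348825175125448)]]]],[[[[Int.ofNat (nat_lit 11002159264123462140)]]]]]],[[[[[[Int.ofNat (nat_lit 51027562056541427820)]]]]]]]],[[[],[[[[[[Int.ofNat (nat_lit 0),Int.ofNat (nat_lit 2997557205327065160)]],[[Int.ofNat (nat_lit 8293686791765382840)]]]],[[[[Int.negSucc (nat_lit 2913630743986880039)]]]]]],[[[[[[Int.negSucc (nat_lit 21374337754059653099)]]]]]]],[[[[[[[Int.ofNat (nat_lit 100284302502565351668)],[Int.ofNat (nat_lit 1692758166555076632)]]],[[[Int.ofNat (nat_lit 5567060197394783376)]]]]],[[[[[Int.negSucc (nat_lit 9507830276529263015)]]]]]],[],[[[[[[Int.ofNat (nat_lit 15103434109082598648)]]]]]]],[[[[[[[Int.negSucc (nat_lit 61505083332368312663)]]]]]]],[[[[[[[Int.negSucc (nat_lit 3221012082354028847)]]]]]]]],[[[],[[[[[[Int.negSucc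 (nat_lit 2674633594343567423)]]]]],[[[[[Int.ofNat (nat_lit 2289966280959782820)]]]]]]],[[[[],[[[[Int.negSucc (nat_lit 1425195541922616995)]]]]]],[[[[[[Int.ofNat (nat_lit 29116817693879734464)]]]]]]]],[[],[[[[[[[Int.ofNat (nat_lit 21826357165906516908)]]]]]]]],[[[],[[[[[[Int.ofNat (nat_lit 1808219449486022040)]]]]]]]]],[[[[],[[[[[[Int.negSucc (nat_lit 44897024958128932403)],[Int.ofNat (nat_lit 3036637489556572920)]]],[[[Int.negSucc (nat_lit 7737549018525499655)]]]]],[[[[[Int.ofNat (nat_lit 2166819067550376)]]]]]],[],[[[[[[Int.ofNat (nat_lit 8301719734421267292)]]]]]]],[[[[[[[Int.ofNat (nat_lit 0),Int.negSucc (nat_lit 2505274631795207987)]],[[Int.ofNat (nat_lit 17886599471200110216)]]]],[[[[Int.ofNat (nat_lit 19713571132748203788)]]]]]],[[[[[[Int.negSucc (nat_lit 21495319435055142515)]]]]]]],[[],[[[[[[Int.ofNat (nat_lit 13041868892589477468)]]]]]]]],[[[],[[[],[[[[Int.negSucc (nat_lit 3171106475857716671)]]]]]],[[[[[[Int.negSucc (nat_lit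 14374663639254864311)]]]]]]],[[[[[[[Int.ofNat (nat_lit 202598211154174893828)]]]]],[[[[[Int.ofNat (nat_lit 2025372861628496772)]]]]]]],[[[[[[[Int.negSucc (nat_lit 54192333774396346607)]]]]]]]],[[[],[[[[[[Int.ofNat (nat_lit 64645902438859542456)]]]]]]]],[[],[[[[[[[Int.negSucc (nat_lit 18971343595855937219)]]]]]]]]],[[[[],[[[[[[Int.negSucc (nat_lit 56440780124273545547)]]]]],[[[[[Int.ofNat (nat_lit 3645669666494955276)]]]]]]],[[[[],[[[[Int.ofNat (nat_lit 723125665585892388)]]]]]],[[[[[[Int.ofNat (nat_lit 12426175837428593316)]]]]]]]],[[],[[[[[[[Int.ofNat (nat_lit 91512876301654458228)]]]]]]]],[[[],[[[[[[Int.ofNat (nat_lit 17132219193714031632)]]]]]]]]],[[[[],[[[[[[Int.negSucc (nat_lit 23764950599774580251)]]]]]]]],[[],[[[[[[[Int.negSucc (nat_lit 9613639187531830307)]]]]]]]]],[[[[],[[[[[[Int.ofNat (nat_lit 1201408088470235016)]]]]]]]]]]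

/-- A coefficient. -/
noncomputable def sr6_m3_0_2 : MP 10 :=
  [[[[[],[[[[[[Int.ofNat (nat_lit 0),Int.negSucc (nat_lit 6227608052807741039)]],[[Int.negSucc (nat_lit 16222006991256256079)]]]],[[[[Int.ofNat (nat_lit 13341323730136583460)]]],[[[Int.ofNat (nat_lit 2593436597286741360)]]]]],[[[[],[[Int.negSucc (nat_lit 3957687288173208875)]]]],[[[[Int.ofNat (nat_lit 2470661625783729564)]]]]]],[[[[[[Int.negSucc (nat_lit 544698197341220927)],[Int.negSucc (nat_lit 1641963378741172595)]]],[[[Int.ofNat (nat_lit 5359510999487750256)]]]]],[[[[[Int.negSucc (nat_lit 10455326814668670467)]]]]]],[],[[[[[[Int.negSucc (nat_lit 17058767953806046703)]]]]]]],[[[[[[[Int.negSucc (nat_lit 31683449677530868787)],[Int.negSucc (nat_lit 3108137138906011415)]]],[[[Int.negSucc (nat_lit 13801925523606347627)]]]],[[[],[[Int.negSucc (nat_lit 402104114356291751)]]]],[[[[Int.negSucc (nat_lit 2549230584591573467)]]]]],[[[[[Int.ofNat (nat_lit 20345143459596821412)]]],[[[Int.negSucc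 (nat_lit 5602617267841624907)]]]]],[[[[[Int.ofNat (nat_lit 3228998449537823388)]]]]]],[[[[[[Int.ofNat (nat_lit 0),Int.negSucc (nat_lit 2123503126896001223)]],[[Int.ofNat (nat_lit 4830378144348933228)]]]],[[[[Int.negSucc (nat_lit 14097839810584462043)]]]]]],[[[[[[Int.negSucc (nat_lit 51459900994074899639)]]]]]]],[[[[[[[Int.negSucc (nat_lit 31813615788447938303)],[Int.negSucc (nat_lit 3634619861421830915)]]],[[[Int.ofNat (nat_lit 1873809754962935376)]]]]],[[[[[Int.negSucc (nat_lit 48174489264153302759)]]]]]],[],[[[[[[Int.negSucc (nat_lit 36532382516940774947)]]]]]]],[[[[[[[Int.negSucc (nat_lit 15154788834170235371)]]]]]]],[[[[[[[Int.negSucc (nat_lit 19481773678992744611)]]]]]]]],[[[],[[[[[[Int.ofNat (nat_lit 39806229435355758360)],[Int.ofNat (nat_lit 3745741413323538228)]]],[[[Int.negSucc (nat_lit 14090148194401221095)]]]]],[[[[[Int.ofNat (nat_lit 40677784013734250916)]]]]]],[[[],[[[[Int.ofNat (nat_lit 4429685176705763256)]]]]]],[[[[[[Int.ofNat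 (nat_lit 36674132400574229856)]]]]]]],[[[[[[[Int.ofNat (nat_lit 0),Int.negSucc (nat_lit 303736734236750159)]],[[Int.negSucc (nat_lit 2056110443233287755)]]]],[[[[Int.negSucc (nat_lit 8493514907261806811)]]]]]],[[[[[[Int.negSucc (nat_lit 34448159892573756539)]]]]],[[[[[Int.ofNat (nat_lit 2616248896306775064)]]]]]]],[[[[],[[[[Int.negSucc (nat_lit 375666230251186079)]]]]]],[[[[[[Int.ofNat (nat_lit 122123307188367327048)]]]]]]]],[[[],[[[[[],[[Int.ofNat (nat_lit 3561489858819968364)]]]],[[[[Int.negSucc (nat_lit 10913421345017743631)]]]]]],[[[[[[Int.negSucc (nat_lit 148972023370918236911)]]]]]]],[[[[[[[Int.negSucc (nat_lit 102072180371793409151)]]],[[[Int.ofNat (nat_lit 5652231404979490836)]]]]],[[[[[Int.negSucc (nat_lit 17148541659309536651)]]]]]]],[[[[[[[Int.negSucc (nat_lit 179255853356335541867)]]]]]]]],[[[],[[[[[[Int.negSucc (nat_lit 20789005235448721727)]]]]]]],[[],[[[[[[Int.negSucc (nat_lit 2975787742079592743)]]]]]]]],[[],[[[[[[[Int.ofNat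 (nat_lit 15636544330598668344)]]]]]]]]],[[[[],[[[[[[Int.ofNat (nat_lit 0),Int.negSucc (nat_lit 11317884320316686231)]],[[Int.negSucc (nat_lit 5166708141067505075)]]]],[[[[Int.ofNat (nat_lit 18721125315198463836)]]]]]],[[[[[[Int.ofNat (nat_lit 36259271846118283500)]]]]],[[[[[Int.negSucc (nat_lit 3709191044515219895)]]]]]]],[[[[[[[Int.negSucc (nat_lit 208708649439038338643)],[Int.negSucc (nat_lit 10299103521768140987)]]],[[[Int.negSucc (nat_lit 8468370079088157659)]]]]],[[[[[Int.negSucc (nat_lit 5778713190973879187)]]]]]],[[[],[[[[Int.negSucc (nat_lit 1217616401380831487)]]]]]],[[[[[[Int.negSucc (nat_lit 20152266445574819639)]]]]]]],[[[[[[[Int.ofNat (nat_lit 71020659852312527580)]]]]],[[[[[Int.ofNat (nat_lit 5588215574021436132)]]]]]]],[[[[[[[Int.ofNat (nat_lit 19114597842327337284)]]]]]]]],[[[],[[[[[[Int.negSucc (nat_lit 124221296285572401959)]]],[[[Int.negSucc (nat_lit 4776809576894943791)]]]]],[[[[[Int.ofNat (nat_lit 377032262695851372)]]]]]]],[[[[[[],[[Int.ofNat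 (nat_lit 1791474494021102220)]]]],[[[[Int.ofNat (nat_lit 6297460201415788824)]]]]]],[[[[[[Int.negSucc (nat_lit 32941573813910627507)]]]]]]]],[[[],[],[[[[[[Int.ofNat (nat_lit 3448633490914497384)]]]]]]],[[[[[[[Int.negSucc (nat_lit 10930730396274720719)]]]]]]],[[[[[[[Int.ofNat (nat_lit 17823454415038376364)]]]]]]]],[[[],[[[[[[Int.ofNat (nat_lit 26092922676405866520)]]]]]]]]],[[[[],[[[[[],[[Int.ofNat (nat_lit 2369113026199593804)]]]],[[[[Int.negSucc (nat_lit 5513717015583327695)]]]]]],[[[[[[Int.negSucc (nat_lit 15755077861720340963)]]]]]]],[[[[[[[Int.negSucc (nat_lit 347171521899244794863)]]],[[[Int.ofNat (nat_lit 364192711721718408)]]]]],[[[[[Int.negSucc (nat_lit 10611408255627576971)]]]]]]],[[[[[[[Int.ofNat (nat_lit 34693477761372155340)]]]]]]]],[[[],[[[[[[Int.negSucc (nat_lit 204125271499199971631)]]]]]]],[[],[[[[[[Int.ofNat (nat_lit 21820104218011251804)]]]]]]]],[[],[[[[[[[Int.negSucc (nat_lit 17975551342525467887)]]]]]]]]],[[[[],[],[[[[[[Int.negSucc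 (nat_lit 9485751448364977655)]]]]]]],[[[[[[[Int.negSucc (nat_lit 177963604438290747551)]]]]]]],[[[[[[[Int.ofNat (nat_lit 869745664131007860)]]]]]]]],[[[],[[[[[[Int.negSucc (nat_lit 37343967364645944599)]]]]]]]]],[[[],[[[[[[[Int.negSucc (nat_lit 18314184588006615371)]]]]]]]]]]

/-- A coefficient. -/
noncomputable def sr6_m3_0_3 : MP 10 :=
  [[[[[],[[[[[[Int.ofNat (nat_lit 39403450097725905036)],[Int.ofNat (nat_lit 5228044300729788600)]]],[[[Int.ofNat (nat_lit 16594758505146891780)]]]],[],[[[[Int.ofNat (nat_lit 1260600320808732336)]]]]],[[[[[Int.ofNat (nat_lit 8829906321382272216)]]]]],[[[[[Int.ofNat (nat_lit 467652572790926400)]]]]]],[[[[[],[[Int.ofNat (nat_lit 3788220043130661816)]]]],[[[[Int.negSucc (nat_lit 6154553350880570819)]]]]]],[[[[[[Int.negSucc (nat_lit 8755887759842886407)]]]]]]],[[[[[[[Int.ofNat (nat_lit 0),Int.negSucc (nat_lit 9456045669071488295)]],[[Int.negSucc (nat_lit 3307061620896445163)]]]],[[[[Int.negSucc (nat_lit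 13946073901719404075)]]]]],[[],[[[[Int.negSucc (nat_lit 3750987491061718895)]]]]]],[[[[[[Int.ofNat (nat_lit 12397719749183525736)]]],[[[Int.ofNat (nat_lit 8573194839253383768)]]]]],[[[[[Int.ofNat (nat_lit 14807833613403918660)]]]]]]],[[[[[[],[[Int.negSucc (nat_lit 1333815814867852583)]]]],[[[[Int.ofNat (nat_lit 15411547730844859392)]]]]]],[[[[[[Int.negSucc (nat_lit 56476987700690028683)]]]]]]]],[[[],[[[[[[Int.ofNat (nat_lit 0),Int.negSucc (nat_lit 1444747197124187315)]],[[Int.negSucc (nat_lit 16349072331676658843)]]]],[[[[Int.negSucc (nat_lit 9095456548419386855)]]]]]],[[[[[[Int.ofNat (nat_lit 146229771916454601936)]]]]]]],[[[[[[[Int.negSucc (nat_lit 18652701881492889203)],[Int.negSucc (nat_lit 1005629698967904407)]]],[[[Int.negSucc (nat_lit 15553479428861376491)]]]]],[[[[[Int.negSucc (nat_lit 20196128881937623511)]]]]]],[],[[[[[[Int.negSucc (nat_lit 21802278718030928483)]]]]]]],[[[[[[[Int.ofNat (nat_lit 326851626202314498120)]]]]]]],[[[[[[[Int.negSucc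 (nat_lit 4638315928388512835)]]]]]]]],[[[],[[[[[[Int.ofNat (nat_lit 72934737991643661012)]]]]],[[[[[Int.negSucc (nat_lit 16601247776840319707)]]]]]]],[[[[],[[[[Int.negSucc (nat_lit 6813000554152392443)]]]]]],[[[[[[Int.ofNat (nat_lit 73961300303707675416)]]]]]]]],[[],[[[[[[[Int.negSucc (nat_lit 86249312517006705563)]]]]]]]],[[[],[[[[[[Int.ofNat (nat_lit 35373358614280654956)]]]]]]]]],[[[[],[[[[[[Int.ofNat (nat_lit 140371376084748052020)],[Int.negSucc (nat_lit 397531154580258839)]]],[[[Int.ofNat (nat_lit 15237061321619737620)]]]]],[[[[[Int.negSucc (nat_lit 4789397506386433823)]]]]]],[],[[[[[[Int.ofNat (nat_lit 13130668229392623540)]]]]]]],[[[[[[[Int.ofNat (nat_lit 0),Int.negSucc (nat_lit 1006556424289161095)]],[[Int.negSucc (nat_lit 6801926476663055195)]]]],[[[[Int.negSucc (nat_lit 17334127539853612895)]]]]]],[[[[[[Int.negSucc (nat_lit 83080541474931484115)]]]]]]],[[],[[[[[[Int.ofNat (nat_lit 6052184185100341848)]]]]]]]],[[[],[[[],[[[[Int.negSucc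 (nat_lit 16840360884198135167)]]]]]],[[[[[[Int.negSucc (nat_lit 30253318904244867443)]]]]]]],[[[[[[[Int.negSucc (nat_lit 21699961090458245435)]]]]],[[[[[Int.negSucc (nat_lit 17201563037555760179)]]]]]]],[[[[[[[Int.ofNat (nat_lit 23383866350784188688)]]]]]]]],[[[],[[[[[[Int.negSucc (nat_lit 51078750809479423391)]]]]]]]],[[],[[[[[[[Int.ofNat (nat_lit 40833035515041213444)]]]]]]]]],[[[[],[[[[[[Int.ofNat (nat_lit 168802112442593569836)]]]]],[[[[[Int.ofNat (nat_lit 7637105103277269564)]]]]]]],[[[[],[[[[Int.ofNat (nat_lit 2251279889460552660)]]]]]],[[[[[[Int.negSucc (nat_lit 86469914511572431619)]]]]]]]],[[],[[[[[[[Int.ofNat (nat_lit 76262392518944555376)]]]]]]]],[[[],[[[[[[Int.negSucc (nat_lit 4080188102643104075)]]]]]]]]],[[[[],[[[[[[Int.ofNat (nat_lit 36019709576063528292)]]]]]]]],[[],[[[[[[[Int.negSucc (nat_lit 7352287812563433635)]]]]]]]]],[[[[],[[[[[[Int.ofNat (nat_lit 3175821217305891180)]]]]]]]]]]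

/-- A coefficient. -/
noncomputable def sr6_m3_0_4 : MP 10 :=
  [[[[[],[[[[[[Int.ofNat (nat_lit 0),Int.ofNat (nat_lit 10016209513090461588)]],[[Int.ofNat (nat_lit 16467127324154627532)]]]],[[[[Int.ofNat (nat_lit 48451714525979227620)]]]]]],[[[[[[Int.negSucc (nat_lit 94147427354822744483)]]]]],[[[[[Int.negSucc (nat_lit 132654799646370335)]]]]]]],[[[[[[[Int.ofNat (nat_lit 54565156900203019260)],[Int.ofNat (nat_lit 8781808680119565000)]]],[[[Int.ofNat (nat_lit 11833063635245828304)]]]]],[[[[[Int.ofNat (nat_lit 71168153992578970824)]]]]]],[[[],[[[[Int.ofNat (nat_lit 10485031315496814156)]]]]]],[[[[[[Int.ofNat (nat_lit 53660295770168528124)]]]]]]],[[[[[[[Int.negSucc (nat_lit 214492482771596749343)]]]]],[[[[[Int.negSucc (nat_lit 3986045857236647003)]]]]]]],[[[[[[[Int.ofNat (nat_lit 2307000587852076036)]]]]]]]],[[[],[[[[[[Int.negSucc (nat_lit 131864042870771909795)]]],[[[Int.negSucc (nat_lit 9745086828706732943)]]]]],[[[[[Int.ofNat (nat_lit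 101412981291728156520)]]]]]]],[[[[[[],[[Int.ofNat (nat_lit 4327061861502305100)]]]],[[[[Int.negSucc (nat_lit 9336118912745517695)]]]]]],[[[[[[Int.negSucc (nat_lit 307727828312051094035)]]]]]]]],[[[],[],[[[[[[Int.negSucc (nat_lit 28715840434181105243)]]]]]]],[[[[[[[Int.ofNat (nat_lit 227745709790620634628)]]]]]]],[[[[[[[Int.negSucc (nat_lit 25121176622782147727)]]]]]]]],[[[],[[[[[[Int.negSucc (nat_lit 189331073974514325839)]]]]]]]]],[[[[],[[[[[],[[Int.negSucc (nat_lit 51286089101262479)]]]],[[[[Int.ofNat (nat_lit 61495488319486408236)]]]]]],[[[[[[Int.negSucc (nat_lit 113867690050419141935)]]]]]]],[[[[[[[Int.negSucc (nat_lit 113117605619641825619)]]],[[[Int.negSucc (nat_lit 1191544634192584187)]]]]],[[[[[Int.ofNat (nat_lit 3043374517193414196)]]]]]]],[[[[[[[Int.negSucc (nat_lit 162612551431274662439)]]]]]]]],[[[],[[[[[[Int.negSucc (nat_lit 53684220719034102659)]]]]]]],[[],[[[[[[Int.ofNat (nat_lit 50265009809275009368)]]]]]]]],[[],[[[[[[[Int.negSucc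 (nat_lit 159593324443880455331)]]]]]]]]],[[[[],[],[[[[[[Int.negSucc (nat_lit 76628842094329570295)]]]]]]],[[[[[[[Int.negSucc (nat_lit 156758917198372022819)]]]]]]],[[[[[[[Int.negSucc (nat_lit 46175604108799657619)]]]]]]]],[[[],[[[[[[Int.negSucc (nat_lit 23486968953621884963)]]]]]]]]],[[[],[[[[[[[Int.negSucc (nat_lit 6784880575771485671)]]]]]]]]]]

/-- A coefficient. -/
noncomputable def sr6_m3_0_5 : MP 10 :=
  [[[[[],[[[[[[Int.ofNat (nat_lit 66596678279377731240)],[Int.negSucc (nat_lit 5540989141605530567)]]],[[[Int.negSucc (nat_lit 6843834805822210571)]]]]],[[[[[Int.negSucc (nat_lit 118906936452269836787)]]]]]],[],[[[[[[Int.ofNat (nat_lit 33778343474314191744)]]]]]]],[[[[[[[Int.ofNat (nat_lit 0),Int.ofNat (nat_lit 6356069549914571436)]],[[Int.ofNat (nat_lit 6188098496890892016)]]]],[[[[Int.ofNat (nat_lit 24871277019948576252)]]]]]],[[[[[[Int.ofNat (nat_lit 201301117724067489264)]]]]]]],[[],[[[[[[Int.ofNat (nat_lit 19741077941663356872)]]]]]]]],[[[],[[[],[[[[Int.ofNat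 (nat_lit 7701106732738100124)]]]]]],[[[[[[Int.ofNat (nat_lit 97209085639239122052)]]]]]]],[[[[[[[Int.negSucc (nat_lit 416211901294178870495)]]]]],[[[[[Int.ofNat (nat_lit 16813362219097057404)]]]]]]],[[[[[[[Int.negSucc (nat_lit 17634971472246186179)]]]]]]]],[[[],[[[[[[Int.ofNat (nat_lit 295347779087260011816)]]]]]]]],[[],[[[[[[[Int.ofNat (nat_lit 31691720697197743104)]]]]]]]]],[[[[],[[[[[[Int.ofNat (nat_lit 185841419391701573412)]]]]],[[[[[Int.negSucc (nat_lit 18261346367149187747)]]]]]]],[[[[],[[[[Int.negSucc (nat_lit 4883517270274635479)]]]]]],[[[[[[Int.ofNat (nat_lit 60041029924867973760)]]]]]]]],[[],[[[[[[[Int.ofNat (nat_lit 168742114771645058148)]]]]]]]],[[[],[[[[[[Int.ofNat (nat_lit 61071448756375300404)]]]]]]]]],[[[[],[[[[[[Int.ofNat (nat_lit 143495282979980940408)]]]]]]]],[[],[[[[[[[Int.negSucc (nat_lit 242758720688689151)]]]]]]]]],[[[[],[[[[[[Int.ofNat (nat_lit 42757782091724420340)]]]]]]]]]]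

/-- A coefficient. -/
noncomputable def sr6_m3_0_6 : MP 10 :=
  [[[[[],[[[[[],[[Int.negSucc (nat_lit 8863622735176355603)]]]],[[[[Int.negSucc (nat_lit 45475315943974728671)]]]]]],[[[[[[Int.negSucc (nat_lit 152734160098718779979)]]]]]]],[[[[[[[Int.ofNat (nat_lit 252222643177397071392)]]],[[[Int.negSucc (nat_lit 7174658110302919583)]]]]],[[[[[Int.negSucc (nat_lit 12035960152780880339)]]]]]]],[[[[[[[Int.negSucc (nat_lit 171947408011898569211)]]]]]]]],[[[],[[[[[[Int.ofNat (nat_lit 53872152425180277780)]]]]]]],[[],[[[[[[Int.ofNat (nat_lit 41038583787789141936)]]]]]]]],[[],[[[[[[[Int.negSucc (nat_lit 285718670949682227755)]]]]]]]]],[[[[],[],[[[[[[Int.negSucc (nat_lit 57771088411808758955)]]]]]]],[[[[[[[Int.ofNat (nat_lit 188480944020047932116)]]]]]]],[[[[[[[Int.negSucc (nat_lit 13373351258517153143)]]]]]]]],[[[],[[[[[[Int.ofNat (nat_lit 92787153868228760184)]]]]]]]]],[[[],[[[[[[[Int.negSucc (nat_lit 3770435985019588223)]]]]]]]]]]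

/-- A coefficient. -/
noncomputable def sr6_m3_0_7 : MP 10 :=
  [[[[[],[[[[[[Int.negSucc (nat_lit 176253543929443479479)]]]]],[[[[[Int.ofNat (nat_lit 13561919696545346340)]]]]]]],[[[[],[[[[Int.negSucc (nat_lit 11516650382461496999)]]]]]],[[[[[[Int.negSucc (nat_lit 18370550181068599403)]]]]]]]],[[],[[[[[[[Int.ofNat (nat_lit 465794611475756288472)]]]]]]]],[[[],[[[[[[Int.ofNat (nat_lit 28534703446216547136)]]]]]]]]],[[[[],[[[[[[Int.negSucc (nat_lit 252470453202891055379)]]]]]]]],[[],[[[[[[[Int.negSucc (nat_lit 15771461507518453223)]]]]]]]]],[[[[],[[[[[[Int.ofNat (nat_lit 138138960334686126636)]]]]]]]]]]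

/-- A coefficient. -/
noncomputable def sr6_m3_0_8 : MP 10 :=
  [[[[[],[],[[[[[[Int.negSucc (nat_lit 102292656758713871423)]]]]]]],[[[[[[[Int.negSucc (nat_lit 255031538745684784919)]]]]]]],[[[[[[[Int.negSucc (nat_lit 78528784667775472451)]]]]]]]],[[[],[[[[[[Int.negSucc (nat_lit 75347466862987352087)]]]]]]]]],[[[],[[[[[[[Int.negSucc (nat_lit 224636661830361758159)]]]]]]]]]]

/-- A coefficient. -/
noncomputable def sr6_m3_0_9 : MP 10 :=
  [[[[[],[[[[[[Int.ofNat (nat_lit 77489905126798255944)]]]]]]]],[[],[[[[[[[Int.negSucc (nat_lit 101217297776295344207)]]]]]]]]],[[[[],[[[[[[Int.ofNat (nat_lit 123281910986813979924)]]]]]]]]]]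

/-- A coefficient. -/
noncomputable def sr6_m3_0_10 : MP 10 :=
  [[[[],[[[[[[[Int.negSucc (nat_lit 55245806736327075695)]]]]]]]]]]

/-- A coefficient. -/
noncomputable def sr6_m3_0_11 : MP 10 :=
  [[[[[],[[[[[[Int.ofNat (nat_lit 106729387190131567452)]]]]]]]]]]

/-- A coefficient. -/
noncomputable def sr6_m3_1_0 : MP 10 :=
  [[[[[],[[[[[[Int.ofNat (nat_lit 0),Int.ofNat (nat_lit 9492428728755881520)]],[[Int.ofNat (nat_lit 18372576002767619256)]]],[[],[[Int.ofNat (nat_lit 953129895633431832)]]]],[[[[Int.ofNat (nat_lit 27679220593555107792)],[Int.negSucc (nat_lit 255759518661260999)]]],[[[Int.ofNat (nat_lit 8897254087504918596)]]]]],[[[[[Int.ofNat (nat_lit 0),Int.negSucc (nat_lit 1208046582107328263)]],[[Int.ofNat (nat_lit 11815440220099540608)]]]],[[[[Int.ofNat (nat_lit 18868659592522579608)]]]]]],[[[[[[Int.ofNat (nat_lit 110345020329157594668)],[Int.ofNat (nat_lit 2316304010824138200)]]],[[[Int.negSucc (nat_lit 1279763956528398479)]]]]],[[[[[Int.ofNat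 (nat_lit 31401321407709201900)]]]]]],[[[],[[[[Int.negSucc (nat_lit 1698139070863138643)]]]]]],[[[[[[Int.ofNat (nat_lit 12682175686683423660)]]]]]]],[[[[[[[Int.ofNat (nat_lit 49039270320012826872)],[Int.ofNat (nat_lit 6235050004768779600)]],[],[[Int.negSucc (nat_lit 380847131816830103)]]],[[[Int.ofNat (nat_lit 28508111274711471468)]]],[[[Int.ofNat (nat_lit 1465706579656909068)]]]],[[[[Int.ofNat (nat_lit 0),Int.negSucc (nat_lit 855398466693684923)]],[[Int.negSucc (nat_lit 7993495918921990739)]]]],[[[[Int.ofNat (nat_lit 1860226218790649508)]]]]],[[[[[Int.ofNat (nat_lit 37073997673877668020)],[Int.negSucc (nat_lit 2627419324512469139)]]],[[[Int.ofNat (nat_lit 12737448389107230936)]]]]],[[[[[Int.negSucc (nat_lit 9096175025143179371)]]]]]],[[[[[[Int.ofNat (nat_lit 0),Int.negSucc (nat_lit 3155131668135485771)]],[[Int.negSucc (nat_lit 7421590922328768875)]]]],[[[[Int.ofNat (nat_lit 3153397005215793876)]]]]]],[[[[[[Int.negSucc (nat_lit 67571155257125461127)]]]]],[[[[[Int.ofNat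 (nat_lit 2402907641983587948)]]]]]]],[[[[[[[Int.ofNat (nat_lit 12518123198779925628)],[Int.ofNat (nat_lit 957100762618854300)]]],[[[Int.negSucc (nat_lit 15014972152094709251)]]]]],[[[[[Int.negSucc (nat_lit 18051213649598050295)]]]]]],[[[],[[[[Int.ofNat (nat_lit 888056693507624832)]]]]]],[[[[[[Int.ofNat (nat_lit 35656707905606995872)]]]]]]],[[[[[[[Int.negSucc (nat_lit 24348295277751784631)]]]]],[[[[[Int.ofNat (nat_lit 5078880808513610640)]]]]]]],[[[[[[[Int.ofNat (nat_lit 19248414581076541128)]]]]]]]],[[[],[[[[[[Int.ofNat (nat_lit 93971746807389361980)],[Int.negSucc (nat_lit 2952074907812808731)]]],[[[Int.ofNat (nat_lit 27069060864633432192)]]]],[],[[[[Int.ofNat (nat_lit 110340431848762344)]]]]],[[[[[Int.ofNat (nat_lit 11847742458562390932)]]]]],[[[[[Int.negSucc (nat_lit 1369513969985533955)]]]]]],[[[[[],[[Int.negSucc (nat_lit 2931932281430197247)]]]],[[[[Int.negSucc (nat_lit 16770686122139500703)]]]]]],[[[[[[Int.ofNat (nat_lit 19731071172569415456)]]]]]]],[[[[[[[Int.ofNat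 (nat_lit 0),Int.ofNat (nat_lit 2052034579182012408)]],[[Int.negSucc (nat_lit 31343433001731524663)]]]],[[[[Int.negSucc (nat_lit 69937229115978162443)]]]]],[[],[[[[Int.ofNat (nat_lit 2748521934191654988)]]]]]],[[[[[[Int.negSucc (nat_lit 184678793862182575499)]]],[[[Int.negSucc (nat_lit 13260300290986717031)]]]]],[[[[[Int.negSucc (nat_lit 50458596279853657823)]]]]]]],[[[[[[],[[Int.ofNat (nat_lit 4296278307941041404)]]]],[[[[Int.negSucc (nat_lit 11104742548324256423)]]]]]],[[[[[[Int.ofNat (nat_lit 116026286098263304428)]]]]]]]],[[[],[[[[[[Int.ofNat (nat_lit 0),Int.negSucc (nat_lit 421744074102659615)]],[[Int.negSucc (nat_lit 8832062846770688555)]]]],[[[[Int.ofNat (nat_lit 21170040670173214944)]]]]]],[[[[[[Int.ofNat (nat_lit 38165781793076077128)]]]]]]],[[[[[[[Int.ofNat (nat_lit 23121551579253494028)],[Int.negSucc (nat_lit 259988245277634287)]]],[[[Int.negSucc (nat_lit 5237325372063888659)]]]]],[[[[[Int.ofNat (nat_lit 31526363988785527608)]]]]]],[],[[[[[[Int.ofNat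 (nat_lit 12673825431012399156)]]]]]]],[[[[[[[Int.ofNat (nat_lit 70452873945653404368)]]]]]]],[[[[[[[Int.negSucc (nat_lit 2442560862215354927)]]]]]]]],[[[],[[[[[[Int.negSucc (nat_lit 42418889458176545879)]]]]],[[[[[Int.negSucc (nat_lit 3572725476308417627)]]]]]]],[[[[],[[[[Int.ofNat (nat_lit 3505282669494909300)]]]]]],[[[[[[Int.ofNat (nat_lit 17314023157930883688)]]]]]]]],[[],[[[[[[[Int.ofNat (nat_lit 9867191203169477280)]]]]]]]],[[[],[[[[[[Int.ofNat (nat_lit 6198972934397944272)]]]]]]]]],[[[[],[[[[[[Int.ofNat (nat_lit 0),Int.ofNat (nat_lit 13718893792708856628)]],[[Int.ofNat (nat_lit 15291583608851490468)]]]],[[[[Int.ofNat (nat_lit 50489338800041817804)]]]]],[[],[[[[Int.ofNat (nat_lit 1623513081072405744)]]]]]],[[[[[[Int.ofNat (nat_lit 261648182270368500852)]]],[[[Int.ofNat (nat_lit 2621824562765325480)]]]]],[[[[[Int.ofNat (nat_lit 28626487688498468460)]]]]]]],[[[[[[[Int.ofNat (nat_lit 291809472236967547752)],[Int.ofNat (nat_lit 8151769313750549376)]]],[[[Int.ofNat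 (nat_lit 40450657560261897348)]]]],[],[[[[Int.negSucc (nat_lit 644095665099207431)]]]]],[[[[[Int.ofNat (nat_lit 131905531048403534856)]]]]],[[[[[Int.negSucc (nat_lit 1190738781077911499)]]]]]],[[[[[],[[Int.negSucc (nat_lit 1893945234796375859)]]]],[[[[Int.negSucc (nat_lit 22410753259022814419)]]]]]],[[[[[[Int.negSucc (nat_lit 34045023671218337003)]]]]]]],[[[[[[[Int.negSucc (nat_lit 75373217046773766647)]]],[[[Int.negSucc (nat_lit 4951365378391517075)]]]]],[[[[[Int.negSucc (nat_lit 40676035834630584695)]]]]]]],[[[[[[[Int.ofNat (nat_lit 65198884876209801336)]]]]]]]],[[[],[[[[[[Int.ofNat (nat_lit 289651221565729777704)],[Int.negSucc (nat_lit 3214074584916361547)]]],[[[Int.ofNat (nat_lit 17457530254610397684)]]]]],[[[[[Int.ofNat (nat_lit 5594038315424875200)]]]]]],[],[[[[[[Int.negSucc (nat_lit 2627296737105814307)]]]]]]],[[[[[[[Int.ofNat (nat_lit 0),Int.ofNat (nat_lit 1156013973560197668)]],[[Int.negSucc (nat_lit 20238659849972714675)]]]],[[[[Int.negSucc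 (nat_lit 43236642200589815051)]]]]]],[[[[[[Int.negSucc (nat_lit 273402554989382955059)]]]]]]],[[],[[[[[[Int.ofNat (nat_lit 16938009500345033532)]]]]]]]],[[[],[[[],[[[[Int.ofNat (nat_lit 1843927656629100648)]]]]]],[[[[[[Int.ofNat (nat_lit 13490793027255316740)]]]]]]],[[[[[[[Int.ofNat (nat_lit 52288767130490217456)]]]]],[[[[[Int.ofNat (nat_lit 5311735283929671708)]]]]]]],[[[[[[[Int.ofNat (nat_lit 65405008744857865800)]]]]]]]],[[[],[[[[[[Int.negSucc (nat_lit 5288881238418352715)]]]]]]]],[[],[[[[[[[Int.ofNat (nat_lit 7614120643366234056)]]]]]]]]],[[[[],[[[[[[Int.ofNat (nat_lit 0),Int.ofNat (nat_lit 2616380110140958404)]],[[Int.ofNat (nat_lit 744835043601337944)]]]],[[[[Int.ofNat (nat_lit 25207705846776187056)]]]]]],[[[[[[Int.ofNat (nat_lit 190223219661312756924)]]]]]]],[[[[[[[Int.ofNat (nat_lit 511411679710154148552)],[Int.ofNat (nat_lit 619058043785016528)]]],[[[Int.ofNat (nat_lit 10069396355428196856)]]]]],[[[[[Int.ofNat (nat_lit 92609661911791863036)]]]]]],[],[[[[[[Int.ofNat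 (nat_lit 5205273048371074428)]]]]]]],[[[[[[[Int.negSucc (nat_lit 86262483106992702887)]]]]]]],[[[[[[[Int.ofNat (nat_lit 11448000538679160756)]]]]]]]],[[[],[[[[[[Int.ofNat (nat_lit 328429685743582208700)]]]]],[[[[[Int.ofNat (nat_lit 1378422528836153928)]]]]]]],[[[[],[[[[Int.negSucc (nat_lit 2229743188065387791)]]]]]],[[[[[[Int.negSucc (nat_lit 69994033752362192231)]]]]]]]],[[],[[[[[[[Int.ofNat (nat_lit 39062205293957835924)]]]]]]]],[[[],[[[[[[Int.ofNat (nat_lit 13216283946794100468)]]]]]]]]],[[[[],[[[],[[[[Int.ofNat (nat_lit 2404174610233208244)]]]]]],[[[[[[Int.ofNat (nat_lit 37455182329219006128)]]]]]]],[[[[[[[Int.ofNat (nat_lit 345953718269168023152)]]]]],[[[[[Int.ofNat (nat_lit 10258742023906386984)]]]]]]],[[[[[[[Int.negSucc (nat_lit 3312402545659696763)]]]]]]]],[[[],[[[[[[Int.ofNat (nat_lit 140824676984993791908)]]]]]]]],[[],[[[[[[[Int.ofNat (nat_lit 9148772721669176688)]]]]]]]]],[[[],[[[[[[[Int.ofNat (nat_lit 84624836149600940952)]]]]]]]],[[[],[[[[[[Int.ofNat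 (nat_lit 15900077395341886608)]]]]]]]]],[[[],[[[[[[[Int.ofNat (nat_lit 4705830088070941152)]]]]]]]]]]

/-- A coefficient. -/
noncomputable def sr6_m3_1_1 : MP 10 :=
  [[[[[],[[[[[[Int.negSucc (nat_lit 99166240961241001727)],[Int.ofNat (nat_lit 835387685443802880)]]],[[[Int.negSucc (nat_lit 6756848515865520311)]]]],[[[],[[Int.negSucc (nat_lit 914887719790628111)]]]],[[[[Int.negSucc (nat_lit 12545308092771929519)]]]]],[[[[[Int.negSucc (nat_lit 51067512366162307715)]]],[[[Int.negSucc (nat_lit 6365509977898488359)]]]]],[[[[[Int.ofNat (nat_lit 29068169672601405384)]]]]]],[[[[[[Int.ofNat (nat_lit 0),Int.negSucc (nat_lit 4289693940168406247)]],[[Int.ofNat (nat_lit 7443076087465474380)]]]],[[[[Int.ofNat (nat_lit 96842547046569831000)]]]]]],[[[[[[Int.negSucc (nat_lit 38573195301226566779)]]]]]]],[[[[[[[Int.ofNat (nat_lit 0),Int.ofNat (nat_lit 1465836901679028780)]],[[Int.negSucc (nat_lit 20731191696678880427)]]]],[[[[Int.ofNat (nat_lit 80539609184911436652)]]],[[[Int.ofNat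 (nat_lit 3797812242116461596)]]]]],[[[[],[[Int.ofNat (nat_lit 638070200965825380)]]]],[[[[Int.negSucc (nat_lit 19917346456514598299)]]]]]],[[[[[[Int.ofNat (nat_lit 66771621563129810832)],[Int.negSucc (nat_lit 10604766193290513011)]]],[[[Int.ofNat (nat_lit 35418374458143948468)]]]]],[[[[[Int.negSucc (nat_lit 11012663845969535891)]]]]]],[],[[[[[[Int.negSucc (nat_lit 16044170981511238547)]]]]]]],[[[[[[[Int.ofNat (nat_lit 0),Int.ofNat (nat_lit 5280110668941083772)]],[[Int.negSucc (nat_lit 14424649368108683111)]]]],[[[[Int.negSucc (nat_lit 51423293953974967067)]]]]]],[[[[[[Int.negSucc (nat_lit 155298765927741074387)]]]]]]],[[],[[[[[[Int.negSucc (nat_lit 14811827032817952851)]]]]]]]],[[[],[[[[[[Int.ofNat (nat_lit 0),Int.ofNat (nat_lit 1368920809025485188)]],[[Int.negSucc (nat_lit 38442474962465648891)]]]],[[[[Int.negSucc (nat_lit 93442859262229829927)]]]]]],[[[[[[Int.negSucc (nat_lit 92741747435528155451)]]]]],[[[[[Int.ofNat (nat_lit 8083825503862851816)]]]]]]],[[[[[[[Int.negSucc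 (nat_lit 120613869241905526307)],[Int.ofNat (nat_lit 3130614813331806576)]]],[[[Int.negSucc (nat_lit 13355879929556557703)]]]]],[[[[[Int.negSucc (nat_lit 20255365801828917779)]]]]]],[[[],[[[[Int.ofNat (nat_lit 8402801922850872528)]]]]]],[[[[[[Int.negSucc (nat_lit 41817081187950925259)]]]]]]],[[[[[[[Int.ofNat (nat_lit 6961837801995460344)]]]]],[[[[[Int.negSucc (nat_lit 8458587029113338263)]]]]]]],[[[[[[[Int.ofNat (nat_lit 166448969901965296644)]]]]]]]],[[[],[[[[[[Int.ofNat (nat_lit 109178404725793071396)]]],[[[Int.ofNat (nat_lit 4974551990915567508)]]]]],[[[[[Int.ofNat (nat_lit 28097548711179264)]]]]]]],[[[[[[],[[Int.negSucc (nat_lit 3731441760069956231)]]]],[[[[Int.ofNat (nat_lit 13446079758079575480)]]]]]],[[[[[[Int.negSucc (nat_lit 74069672283413422691)]]]]]]]],[[[],[],[[[[[[Int.negSucc (nat_lit 50615438645333563091)]]]]]]],[[[[[[[Int.negSucc (nat_lit 86184587658392571995)]]]]]]],[[[[[[[Int.negSucc (nat_lit 13352109765904715495)]]]]]]]],[[[],[[[[[[Int.ofNat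 (nat_lit 879238489592393304)]]]]]]]]],[[[[],[[[[[[Int.negSucc (nat_lit 108178661387962941431)],[Int.negSucc (nat_lit 734096470838387075)]]],[[[Int.ofNat (nat_lit 638466498308483136)]]]]],[[[[[Int.negSucc (nat_lit 35115866439897501563)]]]]]],[[[],[[[[Int.negSucc (nat_lit 7438294952441025239)]]]]]],[[[[[[Int.negSucc (nat_lit 7518052501132289147)]]]]]]],[[[[[[[Int.ofNat (nat_lit 0),Int.ofNat (nat_lit 4811311032997060188)]],[[Int.negSucc (nat_lit 57666522957017905775)]]]],[[[[Int.negSucc (nat_lit 77567699948688549275)]]]]]],[[[[[[Int.ofNat (nat_lit 175139448492257759112)]]]]],[[[[[Int.negSucc (nat_lit 14362463424146079683)]]]]]]],[[[[],[[[[Int.negSucc (nat_lit 7659898833705277499)]]]]]],[[[[[[Int.negSucc (nat_lit 146173100241145338287)]]]]]]]],[[[],[[[[[],[[Int.negSucc (nat_lit 10838904910718999099)]]]],[[[[Int.ofNat (nat_lit 949056167499107496)]]]]]],[[[[[[Int.ofNat (nat_lit 58761748996155025824)]]]]]]],[[[[[[[Int.negSucc (nat_lit 471881377711623160307)]]],[[[Int.negSucc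 (nat_lit 5014286733022264559)]]]]],[[[[[Int.ofNat (nat_lit 343991834333093628)]]]]]]],[[[[[[[Int.ofNat (nat_lit 173137907976616846812)]]]]]]]],[[[],[[[[[[Int.ofNat (nat_lit 39958395686410892472)]]]]]]],[[],[[[[[[Int.negSucc (nat_lit 97612863149711424887)]]]]]]]],[[],[[[[[[[Int.ofNat (nat_lit 26215879773155064024)]]]]]]]]],[[[[],[[[[[[Int.ofNat (nat_lit 58828253649571521780)]]],[[[Int.ofNat (nat_lit 11990026131484759800)]]]]],[[[[[Int.negSucc (nat_lit 22403455231991020031)]]]]]]],[[[[[[],[[Int.negSucc (nat_lit 19291100020665034535)]]]],[[[[Int.negSucc (nat_lit 82890648571327092227)]]]]]],[[[[[[Int.ofNat (nat_lit 77695895644951637496)]]]]]]]],[[[],[],[[[[[[Int.ofNat (nat_lit 26952613136521544172)]]]]]]],[[[[[[[Int.negSucc (nat_lit 361049809444062682715)]]]]]]],[[[[[[[Int.ofNat (nat_lit 57200092617200090796)]]]]]]]],[[[],[[[[[[Int.negSucc (nat_lit 1579333579855112627)]]]]]]]]],[[[[],[[[[[[Int.ofNat (nat_lit 158973191450067456684)]]]]]]],[[],[[[[[[Int.negSucc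 (nat_lit 34739247677872069691)]]]]]]]],[[],[[[[[[[Int.ofNat (nat_lit 4373507274351716280)]]]]]]]]],[[[[],[[[[[[Int.ofNat (nat_lit 63580320754254357684)]]]]]]]]]]

/-- A coefficient. -/
noncomputable def sr6_m3_1_2 : MP 10 :=
  [[[[[],[[[[[[Int.ofNat (nat_lit 0),Int.ofNat (nat_lit 15461486129031195804)]],[[Int.ofNat (nat_lit 42530605683729898248)]]]],[[[[Int.negSucc (nat_lit 89370967934066517335)]]]]],[[],[[[[Int.negSucc (nat_lit 13909004229751399043)]]]]]],[[[[[[Int.ofNat (nat_lit 141281236859909527536)]]],[[[Int.negSucc (nat_lit 21010056521148807131)]]]]],[[[[[Int.ofNat (nat_lit 37555402785210713472)]]]]]]],[[[[[[[Int.ofNat (nat_lit 360406276083749488068)],[Int.ofNat (nat_lit 14953381454840081112)]]],[[[Int.ofNat (nat_lit 25757180305788776880)]]]],[],[[[[Int.ofNat (nat_lit 7937996802704453196)]]]]],[[[[[Int.ofNat (nat_lit 59071018596293409792)]]]]],[[[[[Int.ofNat (nat_lit 2417866508788509420)]]]]]],[[[[[],[[Int.ofNat (nat_lit 13412961617375720112)]]]],[[[[Int.ofNat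 (nat_lit 8940799630074231048)]]]]]],[[[[[[Int.ofNat (nat_lit 257986989291547286160)]]]]]]],[[[[[[[Int.ofNat (nat_lit 191902676236630249152)]]],[[[Int.ofNat (nat_lit 12925985054038991136)]]]]],[[[[[Int.ofNat (nat_lit 91112247763466568312)]]]]]]],[[[[[[[Int.ofNat (nat_lit 17430787940659539324)]]]]]]]],[[[],[[[[[[Int.ofNat (nat_lit 167766013271228239188)],[Int.ofNat (nat_lit 9512154162188851428)]]],[[[Int.ofNat (nat_lit 43539806824223338716)]]]]],[[[[[Int.negSucc (nat_lit 11023597808413817723)]]]]]],[],[[[[[[Int.ofNat (nat_lit 23902613560785700608)]]]]]]],[[[[[[[Int.ofNat (nat_lit 0),Int.negSucc (nat_lit 8976781848492664175)]],[[Int.negSucc (nat_lit 45704269928917244807)]]]],[[[[Int.ofNat (nat_lit 69142351893632486616)]]]]]],[[[[[[Int.negSucc (nat_lit 53453670586850840135)]]]]]]],[[],[[[[[[Int.negSucc (nat_lit 114439954879255541243)]]]]]]]],[[[],[[[],[[[[Int.ofNat (nat_lit 29918421190655929416)]]]]]],[[[[[[Int.ofNat (nat_lit 63798089977283001168)]]]]]]],[[[[[[[Int.ofNat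 (nat_lit 257371248509900856648)]]]]],[[[[[Int.negSucc (nat_lit 28582205276347742399)]]]]]]],[[[[[[[Int.ofNat (nat_lit 207930591758221075224)]]]]]]]],[[[],[[[[[[Int.ofNat (nat_lit 379525737852439906080)]]]]]]]],[[],[[[[[[[Int.ofNat (nat_lit 28626653699255405952)]]]]]]]]],[[[[],[[[[[[Int.ofNat (nat_lit 0),Int.ofNat (nat_lit 8546964217059591576)]],[[Int.ofNat (nat_lit 8106060878197007400)]]]],[[[[Int.negSucc (nat_lit 162804166089881360471)]]]]]],[[[[[[Int.ofNat (nat_lit 24963939137487196500)]]]]]]],[[[[[[[Int.ofNat (nat_lit 973502014655448076164)],[Int.ofNat (nat_lit 8919654363117440472)]]],[[[Int.ofNat (nat_lit 5983659720479168388)]]]]],[[[[[Int.ofNat (nat_lit 110056732251583863324)]]]]]],[],[[[[[[Int.ofNat (nat_lit 88713245657219107332)]]]]]]],[[[[[[[Int.ofNat (nat_lit 945420497110090716)]]]]]]],[[[[[[[Int.ofNat (nat_lit 13693273736443073220)]]]]]]]],[[[],[[[[[[Int.ofNat (nat_lit 449538289480211541456)]]]]],[[[[[Int.ofNat (nat_lit 13948719185313868620)]]]]]]],[[[[],[[[[Int.ofNat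 (nat_lit 21422073674930842752)]]]]]],[[[[[[Int.negSucc (nat_lit 57402086147142832571)]]]]]]]],[[],[[[[[[[Int.ofNat (nat_lit 8078577926099957844)]]]]]]]],[[[],[[[[[[Int.negSucc (nat_lit 83078779264057507703)]]]]]]]]],[[[[],[[[],[[[[Int.negSucc (nat_lit 1965607928655495635)]]]]]],[[[[[[Int.ofNat (nat_lit 18818879088587919360)]]]]]]],[[[[[[[Int.ofNat (nat_lit 765924384775632640440)]]]]],[[[[[Int.negSucc (nat_lit 1041595308835773599)]]]]]]],[[[[[[[Int.negSucc (nat_lit 9109894036356060095)]]]]]]]],[[[],[[[[[[Int.ofNat (nat_lit 342326268192781336272)]]]]]]]],[[],[[[[[[[Int.ofNat (nat_lit 51328801242775377900)]]]]]]]]],[[[],[[[[[[[Int.ofNat (nat_lit 146538716583268117512)]]]]]]]],[[[],[[[[[[Int.ofNat (nat_lit 8654099564291477700)]]]]]]]]],[[[],[[[[[[[Int.ofNat (nat_lit 63597477791866212252)]]]]]]]]]]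

/-- A coefficient. -/
noncomputable def sr6_m3_1_3 : MP 10 :=
  [[[[[],[[[[[[Int.negSucc (nat_lit 492582803727278855639)],[Int.negSucc (nat_lit 9521936558689962899)]]],[[[Int.negSucc (nat_lit 55359743372902476083)]]]]],[[[[[Int.negSucc (nat_lit 63851942582963689559)]]]]]],[[[],[[[[Int.negSucc (nat_lit 44093582936742242219)]]]]]],[[[[[[Int.negSucc (nat_lit 138654966057658738607)]]]]]]],[[[[[[[Int.ofNat (nat_lit 0),Int.ofNat (nat_lit 8981029970705643192)]],[[Int.ofNat (nat_lit 60767009936513599668)]]]],[[[[Int.negSucc (nat_lit 70511977465495219823)]]]]]],[[[[[[Int.ofNat (nat_lit 231620797390732402308)]]]]],[[[[[Int.negSucc (nat_lit 35503225780296205103)]]]]]]],[[[[],[[[[Int.negSucc (nat_lit 23019395945101070819)]]]]]],[[[[[[Int.negSucc (nat_lit 15883335231125056847)]]]]]]]],[[[],[[[[[],[[Int.ofNat (nat_lit 16235133588123181680)]]]],[[[[Int.negSucc (nat_lit 2975664781308918995)]]]]]],[[[[[[Int.ofNat (nat_lit 419274005700611164968)]]]]]]],[[[[[[[Int.ofNat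 (nat_lit 235232044419223915488)]]],[[[Int.ofNat (nat_lit 11763712088357599272)]]]]],[[[[[Int.ofNat (nat_lit 119179772840877601872)]]]]]]],[[[[[[[Int.negSucc (nat_lit 375479032770613561403)]]]]]]]],[[[],[[[[[[Int.negSucc (nat_lit 1155411893920235457923)]]]]]]],[[],[[[[[[Int.negSucc (nat_lit 14899239216322537547)]]]]]]]],[[],[[[[[[[Int.negSucc (nat_lit 26860448312656628879)]]]]]]]]],[[[[],[[[[[[Int.negSucc (nat_lit 605375406119635181267)]]],[[[Int.negSucc (nat_lit 9878617326723521171)]]]]],[[[[[Int.negSucc (nat_lit 5675502134069977091)]]]]]]],[[[[[[],[[Int.ofNat (nat_lit 6069377501798792352)]]]],[[[[Int.ofNat (nat_lit 31992745310400834048)]]]]]],[[[[[[Int.ofNat (nat_lit 213070172777100091776)]]]]]]]],[[[],[],[[[[[[Int.ofNat (nat_lit 117305101242935412300)]]]]]]],[[[[[[[Int.ofNat (nat_lit 240802381927763952300)]]]]]]],[[[[[[[Int.negSucc (nat_lit 67256893355191953143)]]]]]]]],[[[],[[[[[[Int.ofNat (nat_lit 140319160302199298316)]]]]]]]]],[[[[],[[[[[[Int.negSucc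 (nat_lit 403799295249875632943)]]]]]]],[[],[[[[[[Int.ofNat (nat_lit 69640684776690267564)]]]]]]]],[[],[[[[[[[Int.ofNat (nat_lit 197942880619714657896)]]]]]]]]],[[[[],[[[[[[Int.negSucc (nat_lit 40817882600112694811)]]]]]]]]]]

/-- A coefficient. -/
noncomputable def sr6_m3_1_4 : MP 10 :=
  [[[[[],[[[[[[Int.ofNat (nat_lit 0),Int.negSucc (nat_lit 12892102350154407947)]],[[Int.negSucc (nat_lit 16150552024920970115)]]]],[[[[Int.negSucc (nat_lit 3062094744650524307)]]]]]],[[[[[[Int.negSucc (nat_lit 378898802489820919511)]]]]]]],[[[[[[[Int.negSucc (nat_lit 574247903496102227615)],[Int.negSucc (nat_lit 12216632537914259591)]]],[[[Int.negSucc (nat_lit 14059040185666566971)]]]]],[[[[[Int.negSucc (nat_lit 155218757611375447451)]]]]]],[],[[[[[[Int.negSucc (nat_lit 30448971477930976115)]]]]]]],[[[[[[[Int.ofNat (nat_lit 362024395173562553808)]]]]]]],[[[[[[[Int.ofNat (nat_lit 89124840227145373740)]]]]]]]],[[[],[[[[[[Int.ofNat (nat_lit 1196757401382684335796)]]]]],[[[[[Int.negSucc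 (nat_lit 57774422979070698359)]]]]]]],[[[[],[[[[Int.ofNat (nat_lit 53260534675356143052)]]]]]],[[[[[[Int.ofNat (nat_lit 379020687632153058756)]]]]]]]],[[],[[[[[[[Int.ofNat (nat_lit 210750128497580476296)]]]]]]]],[[[],[[[[[[Int.ofNat (nat_lit 29755212707127888420)]]]]]]]]],[[[[],[[[],[[[[Int.negSucc (nat_lit 29217886290781235567)]]]]]],[[[[[[Int.negSucc (nat_lit 42791319016711962971)]]]]]]],[[[[[[[Int.negSucc (nat_lit 126448628068531330943)]]]]],[[[[[Int.ofNat (nat_lit 35673208696960815480)]]]]]]],[[[[[[[Int.ofNat (nat_lit 213889863907482741012)]]]]]]]],[[[],[[[[[[Int.negSucc (nat_lit 77917594629020978675)]]]]]]]],[[],[[[[[[[Int.ofNat (nat_lit 9815549030404448820)]]]]]]]]],[[[],[[[[[[[Int.ofNat (nat_lit 114346985759351115804)]]]]]]]],[[[],[[[[[[Int.negSucc (nat_lit 30875511953177295527)]]]]]]]]],[[[],[[[[[[[Int.ofNat (nat_lit 60742186057290291672)]]]]]]]]]]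

/-- A coefficient. -/
noncomputable def sr6_m3_1_5 : MP 10 :=
  [[[[[],[[[[[[Int.negSucc (nat_lit 161605695478980546131)]]],[[[Int.ofNat (nat_lit 38935794615327198180)]]]]],[[[[[Int.ofNat (nat_lit 109759266542204752872)]]]]]]],[[[[[[],[[Int.negSucc (nat_lit 32070863238508972439)]]]],[[[[Int.negSucc (nat_lit 77774719940477511155)]]]]]],[[[[[[Int.negSucc (nat_lit 390416701338315769463)]]]]]]]],[[[],[],[[[[[[Int.negSucc (nat_lit 124503225076220585819)]]]]]]],[[[[[[[Int.ofNat (nat_lit 222791706394480311960)]]]]]]],[[[[[[[Int.ofNat (nat_lit 120603714760236854688)]]]]]]]],[[[],[[[[[[Int.ofNat (nat_lit 438683821258734050592)]]]]]]]]],[[[[],[[[[[[Int.negSucc (nat_lit 214722732452007238835)]]]]]]],[[],[[[[[[Int.negSucc (nat_lit 190655258899162544699)]]]]]]]],[[],[[[[[[[Int.ofNat (nat_lit 192713289521617063896)]]]]]]]]],[[[[],[[[[[[Int.negSucc (nat_lit 296796694088022695231)]]]]]]]]]]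

/-- A coefficient. -/
noncomputable def sr6_m3_1_6 : MP 10 :=
  [[[[[],[[[],[[[[Int.ofNat (nat_lit 55356776752213531656)]]]]]],[[[[[[Int.ofNat (nat_lit 561224045476044355320)]]]]]]],[[[[[[[Int.ofNat (nat_lit 190251795736742462976)]]]]],[[[[[Int.negSucc (nat_lit 9555960976370705771)]]]]]]],[[[[[[[Int.ofNat (nat_lit 154109545979737652544)]]]]]]]],[[[],[[[[[[Int.negSucc (nat_lit 1393001163461825228243)]]]]]]]],[[],[[[[[[[Int.ofNat (nat_lit 89300421245811517512)]]]]]]]]],[[[],[[[[[[[Int.negSucc (nat_lit 321175181788602193127)]]]]]]]],[[[],[[[[[[Int.negSucc (nat_lit 229567509902736484259)]]]]]]]]],[[[],[[[[[[[Int.ofNat (nat_lit 97406548730227522968)]]]]]]]]]]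

/-- A coefficient. -/
noncomputable def sr6_m3_1_7 : MP 10 :=
  [[[[[],[[[[[[Int.ofNat (nat_lit 855494022459913592304)]]]]]]],[[],[[[[[[Int.ofNat (nat_lit 5724929133431657820)]]]]]]]],[[],[[[[[[[Int.negSucc (nat_lit 191479821842691231863)]]]]]]]]],[[[[],[[[[[[Int.ofNat (nat_lit 481271140438116598044)]]]]]]]]]]

/-- A coefficient. -/
noncomputable def sr6_m3_1_8 : MP 10 :=
  [[[[],[[[[[[[Int.ofNat (nat_lit 146720990666553568188)]]]]]]]],[[[],[[[[[[Int.ofNat (nat_lit 222333802141483450860)]]]]]]]]],[[[],[[[[[[[Int.ofNat (nat_lit 327595706319042808500)]]]]]]]]]]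

/-- A coefficient. -/
noncomputable def sr6_m3_1_9 : MP 10 :=
  [[[[[],[[[[[[Int.negSucc (nat_lit 322683015867031872743)]]]]]]]]]]

/-- A coefficient. -/
noncomputable def sr6_m3_1_10 : MP 10 :=
  [[[[],[[[[[[[Int.ofNat (nat_lit 121002124624040140692)]]]]]]]]]]

/-- A coefficient. -/
noncomputable def sr6_m3_2_0 : MP 10 :=
  [[[[[],[[[[[[Int.ofNat (nat_lit 0),Int.negSucc (nat_lit 13518437140740498887)]],[[Int.negSucc (nat_lit 8654834749416133079)]]]],[[[[Int.negSucc (nat_lit 9454389370396005095)]]],[[[Int.negSucc (nat_lit 8780316031696053623)]]]]],[[[[],[[Int.negSucc (nat_lit 9824128883714126987)]]]],[[[[Int.negSucc (nat_lit 32619801535623078611)]]]]]],[[[[[[Int.negSucc (nat_lit 313574684470766007179)],[Int.negSucc (nat_lit 2275572028630332683)]]],[[[Int.negSucc (nat_lit 7378786829297967095)]]]]],[[[[[Int.negSucc (nat_lit 55259574855876707531)]]]]]],[],[[[[[[Int.negSucc (nat_lit 5978696783741786375)]]]]]]],[[[[[[[Int.negSucc (nat_lit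 223031555590158188507)],[Int.negSucc (nat_lit 11629147068371686523)]]],[[[Int.negSucc (nat_lit 38836026064838228999)]]]],[[[],[[Int.ofNat (nat_lit 6002425969794638784)]]]],[[[[Int.negSucc (nat_lit 7560018041487477371)]]]]],[[[[[Int.negSucc (nat_lit 135704583487766395583)]]],[[[Int.negSucc (nat_lit 16375668326100687275)]]]]],[[[[[Int.ofNat (nat_lit 5785679888956150908)]]]]]],[[[[[[Int.ofNat (nat_lit 0),Int.negSucc (nat_lit 1040958473670082607)]],[[Int.ofNat (nat_lit 5469127892709715092)]]]],[[[[Int.negSucc (nat_lit 5784541569291100607)]]]]]],[[[[[[Int.ofNat (nat_lit 126072624365850885240)]]]]]]],[[[[[[[Int.negSucc (nat_lit 82403808905752842059)],[Int.negSucc (nat_lit 4263149230671577199)]]],[[[Int.ofNat (nat_lit 9154791076242405696)]]]]],[[[[[Int.ofNat (nat_lit 36766962126470197572)]]]]]],[],[[[[[[Int.negSucc (nat_lit 30150943147362411467)]]]]]]],[[[[[[[Int.ofNat (nat_lit 78635309192201984988)]]]]]]],[[[[[[[Int.negSucc (nat_lit 25739997402139736927)]]]]]]]],[[[],[[[[[[Int.negSucc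 (nat_lit 255852662649185133107)],[Int.ofNat (nat_lit 144828698557159992)]]],[[[Int.negSucc (nat_lit 21091524217367468435)]]]]],[[[[[Int.negSucc (nat_lit 7250174532803396375)]]]]]],[[[],[[[[Int.ofNat (nat_lit 22358490779428331868)]]]]]],[[[[[[Int.negSucc (nat_lit 31997948247385832747)]]]]]]],[[[[[[[Int.ofNat (nat_lit 0),Int.negSucc (nat_lit 2265087858816777947)]],[[Int.ofNat (nat_lit 13504109111362212024)]]]],[[[[Int.ofNat (nat_lit 84783926874504490236)]]]]]],[[[[[[Int.ofNat (nat_lit 175560162824985179064)]]]]],[[[[[Int.ofNat (nat_lit 50294059557739919364)]]]]]]],[[[[],[[[[Int.ofNat (nat_lit 13053749059752116196)]]]]]],[[[[[[Int.negSucc (nat_lit 109035587508633103451)]]]]]]]],[[[],[[[[[],[[Int.ofNat (nat_lit 11580531446331615060)]]]],[[[[Int.negSucc (nat_lit 51655894643474739983)]]]]]],[[[[[[Int.negSucc (nat_lit 95833885492985275235)]]]]]]],[[[[[[[Int.negSucc (nat_lit 175353621197953208027)]]],[[[Int.ofNat (nat_lit 13199366200289466000)]]]]],[[[[[Int.negSucc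 (nat_lit 45186837806244155663)]]]]]]],[[[[[[[Int.negSucc (nat_lit 121162792183988092067)]]]]]]]],[[[],[[[[[[Int.ofNat (nat_lit 25780438321255415676)]]]]]]],[[],[[[[[[Int.negSucc (nat_lit 18534957313795709915)]]]]]]]],[[],[[[[[[[Int.negSucc (nat_lit 2150351301010739747)]]]]]]]]],[[[[],[[[[[[Int.ofNat (nat_lit 0),Int.negSucc (nat_lit 9473341962455843747)]],[[Int.ofNat (nat_lit 1146190549817544312)]]]],[[[[Int.ofNat (nat_lit 8707406637114093828)]]]]]],[[[[[[Int.negSucc (nat_lit 442504192104369381443)]]]]],[[[[[Int.negSucc (nat_lit 21105455638770575291)]]]]]]],[[[[[[[Int.negSucc (nat_lit 866376286006964512331)],[Int.negSucc (nat_lit 9210536342968151015)]]],[[[Int.negSucc (nat_lit 33908543830691351291)]]]]],[[[[[Int.negSucc (nat_lit 281947694445519800483)]]]]]],[[[],[[[[Int.ofNat (nat_lit 12881129680073253900)]]]]]],[[[[[[Int.ofNat (nat_lit 56575570144470848496)]]]]]]],[[[[[[[Int.ofNat (nat_lit 8062249281894757044)]]]]],[[[[[Int.ofNat (nat_lit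 26745012804533013132)]]]]]]],[[[[[[[Int.negSucc (nat_lit 10918889233941199607)]]]]]]]],[[[],[[[[[[Int.negSucc (nat_lit 540191143027789694723)]]],[[[Int.negSucc (nat_lit 17337349444022368307)]]]]],[[[[[Int.ofNat (nat_lit 1036738781026055172)]]]]]]],[[[[[[],[[Int.ofNat (nat_lit 16302591271651565292)]]]],[[[[Int.ofNat (nat_lit 27451672383282450876)]]]]]],[[[[[[Int.ofNat (nat_lit 79685223296085173376)]]]]]]]],[[[],[],[[[[[[Int.negSucc (nat_lit 7835765425595256611)]]]]]]],[[[[[[[Int.negSucc (nat_lit 147694809669292406651)]]]]]]],[[[[[[[Int.negSucc (nat_lit 42201324838396923167)]]]]]]]],[[[],[[[[[[Int.negSucc (nat_lit 26654416637221594571)]]]]]]]]],[[[[],[[[[[],[[Int.ofNat (nat_lit 263852433891660000)]]]],[[[[Int.ofNat (nat_lit 2853667386748595580)]]]]]],[[[[[[Int.negSucc (nat_lit 176842293118769837567)]]]]]]],[[[[[[[Int.negSucc (nat_lit 975605991100548134963)]]],[[[Int.negSucc (nat_lit 3489459690611239919)]]]]],[[[[[Int.negSucc (nat_lit 99377493340423999535)]]]]]]],[[[[[[[Int.negSucc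 (nat_lit 14570812934212334183)]]]]]]]],[[[],[[[[[[Int.negSucc (nat_lit 384501261780809735783)]]]]]]],[[],[[[[[[Int.ofNat (nat_lit 10327868636235159936)]]]]]]]],[[],[[[[[[[Int.negSucc (nat_lit 55131256253799873863)]]]]]]]]],[[[[],[],[[[[[[Int.negSucc (nat_lit 16322077094156573735)]]]]]]],[[[[[[[Int.negSucc (nat_lit 367184365563504884831)]]]]]]],[[[[[[[Int.negSucc (nat_lit 8116923440859710351)]]]]]]]],[[[],[[[[[[Int.negSucc (nat_lit 81736978951881486347)]]]]]]]]],[[[],[[[[[[[Int.negSucc (nat_lit 39002417127107527139)]]]]]]]]]]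

/-- A coefficient. -/
noncomputable def sr6_m3_2_1 : MP 10 :=
  [[[[[],[[[[[[Int.ofNat (nat_lit 408006451879819317672)],[Int.ofNat (nat_lit 685979661493737504)]]],[[[Int.negSucc (nat_lit 14530860874163948879)]]]],[],[[[[Int.ofNat (nat_lit 12231833729612082576)]]]]],[[[[[Int.ofNat (nat_lit 133257937315939664760)]]]]],[[[[[Int.negSucc (nat_lit 1517005444913583095)]]]]]],[[[[[],[[Int.negSucc (nat_lit 17601117711919850075)]]]],[[[[Int.negSucc (nat_lit 152717999429121374435)]]]]]],[[[[[[Int.ofNat (nat_lit 10517311741091819292)]]]]]]],[[[[[[[Int.ofNat (nat_lit 0),Int.negSucc (nat_lit 6993159108998152259)]],[[Int.ofNat (nat_lit 60261565080424735188)]]]],[[[[Int.negSucc (nat_lit 72429942223226752067)]]]]],[[],[[[[Int.ofNat (nat_lit 5142258122648335248)]]]]]],[[[[[[Int.negSucc (nat_lit 214631808763292308835)]]],[[[Int.negSucc (nat_lit 28961099612189708099)]]]]],[[[[[Int.negSucc (nat_lit 46530866985817353323)]]]]]]],[[[[[[],[[Int.negSucc (nat_lit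 3300801622656111827)]]]],[[[[Int.ofNat (nat_lit 114744068642241761736)]]]]]],[[[[[[Int.ofNat (nat_lit 325272116012990698872)]]]]]]]],[[[],[[[[[[Int.ofNat (nat_lit 0),Int.negSucc (nat_lit 4870726610048859335)]],[[Int.ofNat (nat_lit 53482077281681825820)]]]],[[[[Int.ofNat (nat_lit 114332532469026172500)]]]]]],[[[[[[Int.ofNat (nat_lit 390060431283845049996)]]]]]]],[[[[[[[Int.ofNat (nat_lit 505185051534012541752)],[Int.negSucc (nat_lit 1275944063573312183)]]],[[[Int.ofNat (nat_lit 25626664822126427208)]]]]],[[[[[Int.negSucc (nat_lit 40633782235765992119)]]]]]],[],[[[[[[Int.ofNat (nat_lit 33361888827835143492)]]]]]]],[[[[[[[Int.negSucc (nat_lit 47152600450327172207)]]]]]]],[[[[[[[Int.negSucc (nat_lit 146096223551597842499)]]]]]]]],[[[],[[[[[[Int.ofNat (nat_lit 137794715042930039976)]]]]],[[[[[Int.negSucc (nat_lit 22824519994601885003)]]]]]]],[[[[],[[[[Int.negSucc (nat_lit 11958192445079260787)]]]]]],[[[[[[Int.negSucc (nat_lit 93982535547054025259)]]]]]]]],[[],[[[[[[[Int.ofNat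 (nat_lit 576355800533666112144)]]]]]]]],[[[],[[[[[[Int.ofNat (nat_lit 31396588105126367784)]]]]]]]]],[[[[],[[[[[[Int.ofNat (nat_lit 605775500564050510764)],[Int.negSucc (nat_lit 3504741039572566907)]]],[[[Int.ofNat (nat_lit 1372188973726477272)]]]]],[[[[[Int.ofNat (nat_lit 129803155788104136228)]]]]]],[],[[[[[[Int.negSucc (nat_lit 23391184132203810395)]]]]]]],[[[[[[[Int.ofNat (nat_lit 0),Int.negSucc (nat_lit 1364026315100885207)]],[[Int.ofNat (nat_lit 27314705672874252420)]]]],[[[[Int.ofNat (nat_lit 155309127848370141588)]]]]]],[[[[[[Int.negSucc (nat_lit 319062914198144658455)]]]]]]],[[],[[[[[[Int.ofNat (nat_lit 108291545236270584408)]]]]]]]],[[[],[[[],[[[[Int.negSucc (nat_lit 1121041048432556879)]]]]]],[[[[[[Int.ofNat (nat_lit 53487795309864360384)]]]]]]],[[[[[[[Int.ofNat (nat_lit 519287562015308820600)]]]]],[[[[[Int.negSucc (nat_lit 15617301355388823419)]]]]]]],[[[[[[[Int.negSucc (nat_lit 294567316992371716679)]]]]]]]],[[[],[[[[[[Int.negSucc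 (nat_lit 212569279167187127927)]]]]]]]],[[],[[[[[[[Int.ofNat (nat_lit 39256949872871501364)]]]]]]]]],[[[[],[[[[[[Int.ofNat (nat_lit 246418554701317165296)]]]]],[[[[[Int.ofNat (nat_lit 7241973659373319992)]]]]]]],[[[[],[[[[Int.ofNat (nat_lit 68378580322789128408)]]]]]],[[[[[[Int.negSucc (nat_lit 151639516578449737475)]]]]]]]],[[],[[[[[[[Int.ofNat (nat_lit 64682081941043710932)]]]]]]]],[[[],[[[[[[Int.negSucc (nat_lit 100624569003614618519)]]]]]]]]],[[[[],[[[[[[Int.negSucc (nat_lit 81204728017797332795)]]]]]]]],[[],[[[[[[[Int.negSucc (nat_lit 65417333270509840007)]]]]]]]]],[[[[],[[[[[[Int.negSucc (nat_lit 34502446859135933183)]]]]]]]]]]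

/-- A coefficient. -/
noncomputable def sr6_m3_2_2 : MP 10 :=
  [[[[[],[[[[[[Int.ofNat (nat_lit 0),Int.ofNat (nat_lit 20829046883151000708)]],[[Int.negSucc (nat_lit 47865665413840197263)]]]],[[[[Int.ofNat (nat_lit 259394273077760115900)]]]]]],[[[[[[Int.negSucc (nat_lit 742977942474058420295)]]]]],[[[[[Int.ofNat (nat_lit 12548699970466493256)]]]]]]],[[[[[[[Int.negSucc (nat_lit 691883178694605111791)],[Int.ofNat (nat_lit 14589100415066384700)]]],[[[Int.negSucc (nat_lit 32636168744567587331)]]]]],[[[[[Int.negSucc (nat_lit 12574644681848471519)]]]]]],[[[],[[[[Int.negSucc (nat_lit 33451696936287496007)]]]]]],[[[[[[Int.negSucc (nat_lit 655081107599457915191)]]]]]]],[[[[[[[Int.negSucc (nat_lit 857268383156254863887)]]]]],[[[[[Int.negSucc (nat_lit 78391316144134680311)]]]]]]],[[[[[[[Int.negSucc (nat_lit 334485264764704793015)]]]]]]]],[[[],[[[[[[Int.negSucc (nat_lit 495690999707756402783)]]],[[[Int.negSucc (nat_lit 27544754715088653575)]]]]],[[[[[Int.ofNat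 (nat_lit 239093525549555675772)]]]]]]],[[[[[[],[[Int.ofNat (nat_lit 46221922254461735976)]]]],[[[[Int.negSucc (nat_lit 291872225668204862819)]]]]]],[[[[[[Int.ofNat (nat_lit 583416340791203116008)]]]]]]]],[[[],[],[[[[[[Int.negSucc (nat_lit 70919597874920082359)]]]]]]],[[[[[[[Int.negSucc (nat_lit 1941902059180333906115)]]]]]]],[[[[[[[Int.negSucc (nat_lit 115618773065769091295)]]]]]]]],[[[],[[[[[[Int.negSucc (nat_lit 1039376811539109215543)]]]]]]]]],[[[[],[[[[[],[[Int.negSucc (nat_lit 13912991920236382451)]]]],[[[[Int.ofNat (nat_lit 285641869321785064368)]]]]]],[[[[[[Int.negSucc (nat_lit 223139041287066668063)]]]]]]],[[[[[[[Int.negSucc (nat_lit 399135486776725160915)]]],[[[Int.negSucc (nat_lit 1724916626756440415)]]]]],[[[[[Int.negSucc (nat_lit 107415589184562102167)]]]]]]],[[[[[[[Int.negSucc (nat_lit 630733431187527806147)]]]]]]]],[[[],[[[[[[Int.ofNat (nat_lit 287730691544857581312)]]]]]]],[[],[[[[[[Int.ofNat (nat_lit 150460191564869954160)]]]]]]]],[[],[[[[[[[Int.negSucc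 (nat_lit 336048655929564679175)]]]]]]]]],[[[[],[],[[[[[[Int.negSucc (nat_lit 47488924361131702847)]]]]]]],[[[[[[[Int.ofNat (nat_lit 198370451512430186340)]]]]]]],[[[[[[[Int.negSucc (nat_lit 94524761022295938515)]]]]]]]],[[[],[[[[[[Int.negSucc (nat_lit 135698458477503682115)]]]]]]]]],[[[],[[[[[[[Int.ofNat (nat_lit 183424933752755093964)]]]]]]]]]]

/-- A coefficient. -/
noncomputable def sr6_m3_2_3 : MP 10 :=
  [[[[[],[[[[[[Int.ofNat (nat_lit 911169570883826308080)],[Int.negSucc (nat_lit 7745355566590289411)]]],[[[Int.ofNat (nat_lit 3977093063304049080)]]]]],[[[[[Int.negSucc (nat_lit 259500418657931553095)]]]]]],[],[[[[[[Int.ofNat (nat_lit 123838452770033176740)]]]]]]],[[[[[[[Int.ofNat (nat_lit 0),Int.ofNat (nat_lit 10390606710031195380)]],[[Int.negSucc (nat_lit 41816629958117779571)]]]],[[[[Int.ofNat (nat_lit 296665238226476038572)]]]]]],[[[[[[Int.negSucc (nat_lit 548942859511449903455)]]]]]]],[[],[[[[[[Int.ofNat (nat_lit 53202263870208519192)]]]]]]]],[[[],[[[],[[[[Int.negSucc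 (nat_lit 19443363451474764767)]]]]]],[[[[[[Int.ofNat (nat_lit 34826614615997474928)]]]]]]],[[[[[[[Int.ofNat (nat_lit 516625978517133124584)]]]]],[[[[[Int.ofNat (nat_lit 983313751353007884)]]]]]]],[[[[[[[Int.ofNat (nat_lit 497728378558102978392)]]]]]]]],[[[],[[[[[[Int.ofNat (nat_lit 1674802264366091699856)]]]]]]]],[[],[[[[[[[Int.negSucc (nat_lit 41796265108626960659)]]]]]]]]],[[[[],[[[[[[Int.ofNat (nat_lit 208015774953991706208)]]]]],[[[[[Int.negSucc (nat_lit 3758688740637327143)]]]]]]],[[[[],[[[[Int.negSucc (nat_lit 45393377621263285043)]]]]]],[[[[[[Int.ofNat (nat_lit 96213096392514918252)]]]]]]]],[[],[[[[[[[Int.negSucc (nat_lit 548469231421036074455)]]]]]]]],[[[],[[[[[[Int.ofNat (nat_lit 47483653771157452032)]]]]]]]]],[[[[],[[[[[[Int.ofNat (nat_lit 300719428879275712308)]]]]]]]],[[],[[[[[[[Int.negSucc (nat_lit 288618434679921509291)]]]]]]]]],[[[[],[[[[[[Int.ofNat (nat_lit 23124210635391514392)]]]]]]]]]]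

/-- A coefficient. -/
noncomputable def sr6_m3_2_4 : MP 10 :=
  [[[[[],[[[[[],[[Int.ofNat (nat_lit 12627538323499485000)]]]],[[[[Int.negSucc (nat_lit 241663567880528948303)]]]]]],[[[[[[Int.negSucc (nat_lit 42239212962792555179)]]]]]]],[[[[[[[Int.ofNat (nat_lit 1279337710479831020472)]]],[[[Int.ofNat (nat_lit 23810541104866027320)]]]]],[[[[[Int.negSucc (nat_lit 40778823918361911071)]]]]]]],[[[[[[[Int.negSucc (nat_lit 681078900781433075363)]]]]]]]],[[[],[[[[[[Int.negSucc (nat_lit 72023675501632589687)]]]]]]],[[],[[[[[[Int.negSucc (nat_lit 431352351041412411851)]]]]]]]],[[],[[[[[[[Int.ofNat (nat_lit 132353845085125721820)]]]]]]]]],[[[[],[],[[[[[[Int.ofNat (nat_lit 145791102392699131692)]]]]]]],[[[[[[[Int.ofNat (nat_lit 808207386674336097768)]]]]]]],[[[[[[[Int.negSucc (nat_lit 149237473662660943847)]]]]]]]],[[[],[[[[[[Int.ofNat (nat_lit 566157498488040806976)]]]]]]]]],[[[],[[[[[[[Int.negSucc (nat_lit 91074669885156807107)]]]]]]]]]]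

/-- A coefficient. -/
noncomputable def sr6_m3_2_5 : MP 10 :=
  [[[[[],[[[[[[Int.negSucc (nat_lit 1771048760170469720531)]]]]],[[[[[Int.ofNat (nat_lit 94633480658620688868)]]]]]]],[[[[],[[[[Int.ofNat (nat_lit 7557593263169717640)]]]]]],[[[[[[Int.ofNat (nat_lit 748068339675429919752)]]]]]]]],[[],[[[[[[[Int.negSucc (nat_lit 1008857367792901745507)]]]]]]]],[[[],[[[[[[Int.negSucc (nat_lit 397311991630924587659)]]]]]]]]],[[[[],[[[[[[Int.negSucc (nat_lit 703512564629034408731)]]]]]]]],[[],[[[[[[[Int.negSucc (nat_lit 88060093201785515363)]]]]]]]]],[[[[],[[[[[[Int.ofNat (nat_lit 221091918775395012408)]]]]]]]]]]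

/-- A coefficient. -/
noncomputable def sr6_m3_2_6 : MP 10 :=
  [[[[[],[],[[[[[[Int.negSucc (nat_lit 189738103513490116343)]]]]]]],[[[[[[[Int.negSucc (nat_lit 1306435326530393217875)]]]]]]],[[[[[[[Int.ofNat (nat_lit 22745169571830239784)]]]]]]]],[[[],[[[[[[Int.ofNat (nat_lit 236897639815521354588)]]]]]]]]],[[[],[[[[[[[Int.negSucc (nat_lit 672732889750542495743)]]]]]]]]]]

/-- A coefficient. -/
noncomputable def sr6_m3_2_7 : MP 10 :=
  [[[[[],[[[[[[Int.ofNat (nat_lit 662581916949576035088)]]]]]]]],[[],[[[[[[[Int.ofNat (nat_lit 462789513353639694588)]]]]]]]]],[[[[],[[[[[[Int.negSucc (nat_lit 178212815036164354163)]]]]]]]]]]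

/-- A coefficient. -/
noncomputable def sr6_m3_2_8 : MP 10 :=
  [[[[],[[[[[[[Int.ofNat (nat_lit 57359480993708442504)]]]]]]]]]]

/-- A coefficient. -/
noncomputable def sr6_m3_2_9 : MP 10 :=
  [[[[[],[[[[[[Int.ofNat (nat_lit 191553759736410736008)]]]]]]]]]]

/-- A coefficient. -/
noncomputable def sr6_m3_3_0 : MP 10 :=
  [[[[[],[[[[[[Int.ofNat (nat_lit 0),Int.negSucc (nat_lit 1314235093566930215)]],[[Int.negSucc (nat_lit 33628555085672992367)]]]],[[[[Int.negSucc (nat_lit 109188620184650753831)]]]]],[[],[[[[Int.ofNat (nat_lit 23396318948445690432)]]]]]],[[[[[[Int.ofNat (nat_lit 446455507009544165160)]]],[[[Int.ofNat (nat_lit 5778167450757056004)]]]]],[[[[[Int.ofNat (nat_lit 40773140802607980708)]]]]]]],[[[[[[[Int.ofNat (nat_lit 340390158330373502196)],[Int.ofNat (nat_lit 608392508974920588)]]],[[[Int.negSucc (nat_lit 21443253212769598871)]]]],[],[[[[Int.ofNat (nat_lit 5355804997826366352)]]]]],[[[[[Int.ofNat (nat_lit 187880452406213979840)]]]]],[[[[[Int.ofNat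 (nat_lit 17027946164661549456)]]]]]],[[[[[],[[Int.negSucc (nat_lit 1538597440898376047)]]]],[[[[Int.negSucc (nat_lit 1172489368185420095)]]]]]],[[[[[[Int.negSucc (nat_lit 87175873664494948091)]]]]]]],[[[[[[[Int.ofNat (nat_lit 290896220724911777124)]]],[[[Int.ofNat (nat_lit 646716185572893276)]]]]],[[[[[Int.negSucc (nat_lit 42977877434939315231)]]]]]]],[[[[[[[Int.negSucc (nat_lit 61278696618853135223)]]]]]]]],[[[],[[[[[[Int.ofNat (nat_lit 238103583475788527280)],[Int.ofNat (nat_lit 728578185971194836)]]],[[[Int.negSucc (nat_lit 26979553882904810555)]]]]],[[[[[Int.negSucc (nat_lit 6589942697278717727)]]]]]],[],[[[[[[Int.ofNat (nat_lit 18871813010508807444)]]]]]]],[[[[[[[Int.ofNat (nat_lit 0),Int.ofNat (nat_lit 1510087908515374404)]],[[Int.ofNat (nat_lit 34639523350635573228)]]]],[[[[Int.negSucc (nat_lit 8536269719160659279)]]]]]],[[[[[[Int.ofNat (nat_lit 255144989362344877524)]]]]]]],[[],[[[[[[Int.ofNat (nat_lit 42651372782680742964)]]]]]]]],[[[],[[[],[[[[Int.ofNat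 (nat_lit 27589478747627054616)]]]]]],[[[[[[Int.ofNat (nat_lit 173825000928517431948)]]]]]]],[[[[[[[Int.ofNat (nat_lit 464745092689593259368)]]]]],[[[[[Int.negSucc (nat_lit 7586346758596704563)]]]]]]],[[[[[[[Int.ofNat (nat_lit 66180509894735944548)]]]]]]]],[[[],[[[[[[Int.negSucc (nat_lit 127554063873631390427)]]]]]]]],[[],[[[[[[[Int.ofNat (nat_lit 19466151342740665932)]]]]]]]]],[[[[],[[[[[[Int.ofNat (nat_lit 0),Int.negSucc (nat_lit 1511159939164431947)]],[[Int.negSucc (nat_lit 26527487093906216843)]]]],[[[[Int.negSucc (nat_lit 160332763988929333463)]]]]]],[[[[[[Int.ofNat (nat_lit 208805065736978543592)]]]]]]],[[[[[[[Int.ofNat (nat_lit 910809025387324562424)],[Int.ofNat (nat_lit 1852251022226746392)]]],[[[Int.negSucc (nat_lit 27731506110028377659)]]]]],[[[[[Int.ofNat (nat_lit 209362289301578271564)]]]]]],[],[[[[[[Int.negSucc (nat_lit 30547693148125181459)]]]]]]],[[[[[[[Int.ofNat (nat_lit 260648216986030768056)]]]]]]],[[[[[[[Int.negSucc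 (nat_lit 2897364142731966779)]]]]]]]],[[[],[[[[[[Int.ofNat (nat_lit 297375502817568123492)]]]]],[[[[[Int.negSucc (nat_lit 3009745619596277531)]]]]]]],[[[[],[[[[Int.ofNat (nat_lit 6440294537117961576)]]]]]],[[[[[[Int.ofNat (nat_lit 290133378240826278468)]]]]]]]],[[],[[[[[[[Int.ofNat (nat_lit 217193044932875054676)]]]]]]]],[[[],[[[[[[Int.ofNat (nat_lit 25709661197731662684)]]]]]]]]],[[[[],[[[],[[[[Int.negSucc (nat_lit 22885546694301424955)]]]]]],[[[[[[Int.ofNat (nat_lit 18733953794042362884)]]]]]]],[[[[[[[Int.ofNat (nat_lit 599528109822697506120)]]]]],[[[[[Int.ofNat (nat_lit 11840209226125547292)]]]]]]],[[[[[[[Int.ofNat (nat_lit 104974007634750626796)]]]]]]]],[[[],[[[[[[Int.ofNat (nat_lit 46037336641993017120)]]]]]]]],[[],[[[[[[[Int.ofNat (nat_lit 78503062565924101068)]]]]]]]]],[[[],[[[[[[[Int.ofNat (nat_lit 86086202160110971116)]]]]]]]],[[[],[[[[[[Int.negSucc (nat_lit 28590419808512498423)]]]]]]]]],[[[],[[[[[[[Int.negSucc (nat_lit 378134113194689327)]]]]]]]]]]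

/-- A coefficient. -/
noncomputable def sr6_m3_3_1 : MP 10 :=
  [[[[[],[[[[[[Int.negSucc (nat_lit 962382348940304679311)],[Int.negSucc (nat_lit 2326015133456251235)]]],[[[Int.ofNat (nat_lit 23242982934916826940)]]]]],[[[[[Int.negSucc (nat_lit 93365236123199740295)]]]]]],[[[],[[[[Int.ofNat (nat_lit 81087628125135593100)]]]]]],[[[[[[Int.ofNat (nat_lit 46552948788289212156)]]]]]]],[[[[[[[Int.ofNat (nat_lit 0),Int.ofNat (nat_lit 4737649727536756992)]],[[Int.negSucc (nat_lit 13626498524315368811)]]]],[[[[Int.negSucc (nat_lit 118068811299930218219)]]]]]],[[[[[[Int.ofNat (nat_lit 337888814010051782532)]]]]],[[[[[Int.ofNat (nat_lit 57035460119843416188)]]]]]]],[[[[],[[[[Int.negSucc (nat_lit 64012306839670835891)]]]]]],[[[[[[Int.negSucc (nat_lit 353896023958404117311)]]]]]]]],[[[],[[[[[],[[Int.negSucc (nat_lit 21536039270703813059)]]]],[[[[Int.ofNat (nat_lit 33924281043596819436)]]]]]],[[[[[[Int.negSucc (nat_lit 574702408249381694711)]]]]]]],[[[[[[[Int.negSucc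 (nat_lit 246095885322617407835)]]],[[[Int.negSucc (nat_lit 4785784330370149187)]]]]],[[[[[Int.ofNat (nat_lit 217268530533187109028)]]]]]]],[[[[[[[Int.ofNat (nat_lit 37230832009128501420)]]]]]]]],[[[],[[[[[[Int.negSucc (nat_lit 67029002215481533139)]]]]]]],[[],[[[[[[Int.ofNat (nat_lit 85715524566230598276)]]]]]]]],[[],[[[[[[[Int.negSucc (nat_lit 986959904324944577963)]]]]]]]]],[[[[],[[[[[[Int.negSucc (nat_lit 1560458991297934738115)]]],[[[Int.negSucc (nat_lit 17803286170645017755)]]]]],[[[[[Int.negSucc (nat_lit 25667381447615584823)]]]]]]],[[[[[[],[[Int.ofNat (nat_lit 21381525379155589368)]]]],[[[[Int.negSucc (nat_lit 93685244046940557875)]]]]]],[[[[[[Int.ofNat (nat_lit 255110869241433283008)]]]]]]]],[[[],[],[[[[[[Int.negSucc (nat_lit 12723322999188837623)]]]]]]],[[[[[[[Int.ofNat (nat_lit 794507340045924230844)]]]]]]],[[[[[[[Int.ofNat (nat_lit 118219895753291465004)]]]]]]]],[[[],[[[[[[Int.ofNat (nat_lit 60167288640735183324)]]]]]]]]],[[[[],[[[[[[Int.negSucc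 (nat_lit 938853727193765719583)]]]]]]],[[],[[[[[[Int.ofNat (nat_lit 152865536583401585820)]]]]]]]],[[],[[[[[[[Int.ofNat (nat_lit 67055054650966211832)]]]]]]]]],[[[[],[[[[[[Int.negSucc (nat_lit 215191941756593546843)]]]]]]]]]]

/-- A coefficient. -/
noncomputable def sr6_m3_3_2 : MP 10 :=
  [[[[[],[[[[[[Int.ofNat (nat_lit 0),Int.negSucc (nat_lit 22591655923895605271)]],[[Int.negSucc (nat_lit 774611904444918995)]]]],[[[[Int.ofNat (nat_lit 1349639111007593928)]]]]]],[[[[[[Int.ofNat (nat_lit 1038515630723397019872)]]]]]]],[[[[[[[Int.negSucc (nat_lit 577990136588024918063)],[Int.negSucc (nat_lit 23132971033178066543)]]],[[[Int.negSucc (nat_lit 31980426821841704399)]]]]],[[[[[Int.negSucc (nat_lit 177519596246088437135)]]]]]],[],[[[[[[Int.ofNat (nat_lit 331417134848549693208)]]]]]]],[[[[[[[Int.ofNat (nat_lit 1637459734780610980884)]]]]]]],[[[[[[[Int.ofNat (nat_lit 289589845703756582040)]]]]]]]],[[[],[[[[[[Int.negSucc (nat_lit 118988752783259346359)]]]]],[[[[[Int.negSucc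 (nat_lit 214359628099569392087)]]]]]]],[[[[],[[[[Int.ofNat (nat_lit 204515143154269495680)]]]]]],[[[[[[Int.ofNat (nat_lit 31270201816560240912)]]]]]]]],[[],[[[[[[[Int.ofNat (nat_lit 1833237646181431997460)]]]]]]]],[[[],[[[[[[Int.ofNat (nat_lit 581868897452484895296)]]]]]]]]],[[[[],[[[],[[[[Int.negSucc (nat_lit 102674769612784123811)]]]]]],[[[[[[Int.ofNat (nat_lit 243546176307684570192)]]]]]]],[[[[[[[Int.negSucc (nat_lit 2450337908522169877691)]]]]],[[[[[Int.ofNat (nat_lit 101526484670789775780)]]]]]]],[[[[[[[Int.ofNat (nat_lit 1285701527985458871072)]]]]]]]],[[[],[[[[[[Int.negSucc (nat_lit 456745263300929257115)]]]]]]]],[[],[[[[[[[Int.ofNat (nat_lit 147154586415903664800)]]]]]]]]],[[[],[[[[[[[Int.negSucc (nat_lit 701419076302443902039)]]]]]]]],[[[],[[[[[[Int.ofNat (nat_lit 3878174662667496648)]]]]]]]]],[[[],[[[[[[[Int.negSucc (nat_lit 266435495870582891087)]]]]]]]]]]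

/-- A coefficient. -/
noncomputable def sr6_m3_3_3 : MP 10 :=
  [[[[[],[[[[[[Int.ofNat (nat_lit 262077811197993433848)]]],[[[Int.ofNat (nat_lit 15622217973817214688)]]]]],[[[[[Int.ofNat (nat_lit 149562706840162498752)]]]]]]],[[[[[[],[[Int.negSucc (nat_lit 13237983267948275447)]]]],[[[[Int.negSucc (nat_lit 148917643486887213851)]]]]]],[[[[[[Int.negSucc (nat_lit 592575959568018806771)]]]]]]]],[[[],[],[[[[[[Int.negSucc (nat_lit 256361421445805148851)]]]]]]],[[[[[[[Int.ofNat (nat_lit 850373793026259603120)]]]]]]],[[[[[[[Int.negSucc (nat_lit 216902520931853755811)]]]]]]]],[[[],[[[[[[Int.negSucc (nat_lit 230860644929050022759)]]]]]]]]],[[[[],[[[[[[Int.ofNat (nat_lit 488205474584912236476)]]]]]]],[[],[[[[[[Int.negSucc (nat_lit 129730825375666693775)]]]]]]]],[[],[[[[[[[Int.ofNat (nat_lit 13264248661395328440)]]]]]]]]],[[[[],[[[[[[Int.ofNat (nat_lit 64505213361752747112)]]]]]]]]]]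

/-- A coefficient. -/
noncomputable def sr6_m3_3_4 : MP 10 :=
  [[[[[],[[[],[[[[Int.ofNat (nat_lit 184829727003816560184)]]]]]],[[[[[[Int.ofNat (nat_lit 303610964801491933776)]]]]]]],[[[[[[[Int.negSucc (nat_lit 1429888877259211302491)]]]]],[[[[[Int.ofNat (nat_lit 65876775139352698392)]]]]]]],[[[[[[[Int.ofNat (nat_lit 108158044466950021572)]]]]]]]],[[[],[[[[[[Int.negSucc (nat_lit 1293574249088542535675)]]]]]]]],[[],[[[[[[[Int.negSucc (nat_lit 57893110957719918491)]]]]]]]]],[[[],[[[[[[[Int.ofNat (nat_lit 529540475402499710652)]]]]]]]],[[[],[[[[[[Int.negSucc (nat_lit 567154004920558464911)]]]]]]]]],[[[],[[[[[[[Int.ofNat (nat_lit 170673866201562632004)]]]]]]]]]]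

/-- A coefficient. -/
noncomputable def sr6_m3_3_5 : MP 10 :=
  [[[[[],[[[[[[Int.ofNat (nat_lit 3214054680781115078388)]]]]]]],[[],[[[[[[Int.negSucc (nat_lit 108523768730111583083)]]]]]]]],[[],[[[[[[[Int.negSucc (nat_lit 335376217261039776119)]]]]]]]]],[[[[],[[[[[[Int.ofNat (nat_lit 1327886442409022865720)]]]]]]]]]]

/-- A coefficient. -/
noncomputable def sr6_m3_3_6 : MP 10 :=
  [[[[],[[[[[[[Int.ofNat (nat_lit 3092061533949376119768)]]]]]]]],[[[],[[[[[[Int.ofNat (nat_lit 300371177621194225920)]]]]]]]]],[[[],[[[[[[[Int.ofNat (nat_lit 552843970480013516268)]]]]]]]]]]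

/-- A coefficient. -/
noncomputable def sr6_m3_3_7 : MP 10 :=
  [[[[[],[[[[[[Int.negSucc (nat_lit 2166557240623554902819)]]]]]]]]]]

/-- A coefficient. -/
noncomputable def sr6_m3_3_8 : MP 10 :=
  [[[[],[[[[[[[Int.negSucc (nat_lit 685914625581722164511)]]]]]]]]]]

/-- A coefficient. -/
noncomputable def sr6_m3_4_0 : MP 10 :=
  [[[[[],[[[[[[Int.ofNat (nat_lit 0),Int.ofNat (nat_lit 8294916098698426572)]],[[Int.ofNat (nat_lit 24445099633376685708)]]]],[[[[Int.ofNat (nat_lit 160306518578921000040)]]]]]],[[[[[[Int.negSucc (nat_lit 251506619024468124395)]]]]],[[[[[Int.negSucc (nat_lit 14528016307448942519)]]]]]]],[[[[[[[Int.ofNat (nat_lit 19602776193743243376)],[Int.ofNat (nat_lit 8403969645829494552)]]],[[[Int.ofNat (nat_lit 51428745646388918376)]]]]],[[[[[Int.ofNat (nat_lit 8795095215753618156)]]]]]],[[[],[[[[Int.negSucc (nat_lit 273672328368833375)]]]]]],[[[[[[Int.negSucc (nat_lit 34773123465114829463)]]]]]]],[[[[[[[Int.negSucc (nat_lit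 347512848227541997331)]]]]],[[[[[Int.ofNat (nat_lit 1389372710199499812)]]]]]]],[[[[[[[Int.negSucc (nat_lit 76532008716413967143)]]]]]]]],[[[],[[[[[[Int.negSucc (nat_lit 180571973027742667751)]]],[[[Int.ofNat (nat_lit 28524851484615207516)]]]]],[[[[[Int.negSucc (nat_lit 471501870304975679)]]]]]]],[[[[[[],[[Int.negSucc (nat_lit 26349451812907113047)]]]],[[[[Int.negSucc (nat_lit 29222142594428232395)]]]]]],[[[[[[Int.negSucc (nat_lit 388127701253668349591)]]]]]]]],[[[],[],[[[[[[Int.negSucc (nat_lit 86376298438224284303)]]]]]]],[[[[[[[Int.negSucc (nat_lit 559536883358484080195)]]]]]]],[[[[[[[Int.ofNat (nat_lit 18608359257313301508)]]]]]]]],[[[],[[[[[[Int.ofNat (nat_lit 258575813544645352464)]]]]]]]]],[[[[],[[[[[],[[Int.ofNat (nat_lit 13996182236569122408)]]]],[[[[Int.ofNat (nat_lit 143803372764130892724)]]]]]],[[[[[[Int.ofNat (nat_lit 184991451319479548232)]]]]]]],[[[[[[[Int.ofNat (nat_lit 71237039905175223768)]]],[[[Int.ofNat (nat_lit 28128040992465352464)]]]]],[[[[[Int.ofNat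 (nat_lit 50597627905608641100)]]]]]]],[[[[[[[Int.negSucc (nat_lit 256433013489596133527)]]]]]]]],[[[],[[[[[[Int.negSucc (nat_lit 142257011284153350599)]]]]]]],[[],[[[[[[Int.negSucc (nat_lit 193910614915344113807)]]]]]]]],[[],[[[[[[[Int.negSucc (nat_lit 105292424516297717495)]]]]]]]]],[[[[],[],[[[[[[Int.ofNat (nat_lit 47852265805201328124)]]]]]]],[[[[[[[Int.ofNat (nat_lit 58828869395682200880)]]]]]]],[[[[[[[Int.negSucc (nat_lit 37088663229878145827)]]]]]]]],[[[],[[[[[[Int.ofNat (nat_lit 44386124608895057340)]]]]]]]]],[[[],[[[[[[[Int.negSucc (nat_lit 18305780292196627295)]]]]]]]]]]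

/-- A coefficient. -/
noncomputable def sr6_m3_4_1 : MP 10 :=
  [[[[[],[[[[[[Int.ofNat (nat_lit 1223418305406138721032)],[Int.ofNat (nat_lit 4014803724468688596)]]],[[[Int.ofNat (nat_lit 34137049535118469224)]]]]],[[[[[Int.negSucc (nat_lit 75500234590286767103)]]]]]],[],[[[[[[Int.negSucc (nat_lit 34217607585542044523)]]]]]]],[[[[[[[Int.ofNat (nat_lit 0),Int.negSucc (nat_lit 1311450556411598783)]],[[Int.negSucc (nat_lit 34602307422876488615)]]]],[[[[Int.ofNat (nat_lit 239299022677812753948)]]]]]],[[[[[[Int.negSucc (nat_lit 101126349739553515859)]]]]]]],[[],[[[[[[Int.ofNat (nat_lit 92911139132752025256)]]]]]]]],[[[],[[[],[[[[Int.negSucc (nat_lit 61162616145332431619)]]]]]],[[[[[[Int.ofNat (nat_lit 283146856320486962904)]]]]]]],[[[[[[[Int.negSucc (nat_lit 833001452564618702819)]]]]],[[[[[Int.negSucc (nat_lit 172707939319061063123)]]]]]]],[[[[[[[Int.ofNat (nat_lit 343662906226349269632)]]]]]]]],[[[],[[[[[[Int.ofNat (nat_lit 77753889466728973476)]]]]]]]],[[],[[[[[[[Int.ofNat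 (nat_lit 426910268217874083624)]]]]]]]]],[[[[],[[[[[[Int.ofNat (nat_lit 1666808012457722932500)]]]]],[[[[[Int.negSucc (nat_lit 31633152177226880627)]]]]]]],[[[[],[[[[Int.ofNat (nat_lit 447100659639380820)]]]]]],[[[[[[Int.ofNat (nat_lit 30420538225581614136)]]]]]]]],[[],[[[[[[[Int.negSucc (nat_lit 1223483734751202606143)]]]]]]]],[[[],[[[[[[Int.ofNat (nat_lit 113670911855168499192)]]]]]]]]],[[[[],[[[[[[Int.ofNat (nat_lit 825074632449836911284)]]]]]]]],[[],[[[[[[[Int.ofNat (nat_lit 51531766160118889908)]]]]]]]]],[[[[],[[[[[[Int.ofNat (nat_lit 147055509593775018504)]]]]]]]]]]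

/-- A coefficient. -/
noncomputable def sr6_m3_4_2 : MP 10 :=
  [[[[[],[[[[[],[[Int.ofNat (nat_lit 17353681649023131840)]]]],[[[[Int.negSucc (nat_lit 432380758306061049731)]]]]]],[[[[[[Int.negSucc (nat_lit 433201516699165049711)]]]]]]],[[[[[[[Int.ofNat (nat_lit 1544674310595166079940)]]],[[[Int.ofNat (nat_lit 16344542953429301784)]]]]],[[[[[Int.ofNat (nat_lit 118502379787102666320)]]]]]]],[[[[[[[Int.negSucc (nat_lit 1546402946057574676271)]]]]]]]],[[[],[[[[[[Int.negSucc (nat_lit 2309882916820964099)]]]]]]],[[],[[[[[[Int.negSucc (nat_lit 383876993880681732107)]]]]]]]],[[],[[[[[[[Int.ofNat (nat_lit 230042284858218442188)]]]]]]]]],[[[[],[],[[[[[[Int.negSucc (nat_lit 110770937496393776495)]]]]]]],[[[[[[[Int.ofNat (nat_lit 1078710880764748100520)]]]]]]],[[[[[[[Int.negSucc (nat_lit 605068043484216296003)]]]]]]]],[[[],[[[[[[Int.negSucc (nat_lit 428368698988715612831)]]]]]]]]],[[[],[[[[[[[Int.negSucc (nat_lit 848465012707583064587)]]]]]]]]]]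

/-- A coefficient. -/
noncomputable def sr6_m3_4_3 : MP 10 :=
  [[[[[],[[[[[[Int.negSucc (nat_lit 2831128398928968140135)]]]]],[[[[[Int.ofNat (nat_lit 110759174943860070324)]]]]]]],[[[[],[[[[Int.negSucc (nat_lit 46462906338230235107)]]]]]],[[[[[[Int.ofNat (nat_lit 1045251538014342137772)]]]]]]]],[[],[[[[[[[Int.negSucc (nat_lit 584088382647844339787)]]]]]]]],[[[],[[[[[[Int.negSucc (nat_lit 213929790865109590583)]]]]]]]]],[[[[],[[[[[[Int.negSucc (nat_lit 1484085680628255377027)]]]]]]]],[[],[[[[[[[Int.ofNat (nat_lit 445684403320003185312)]]]]]]]]],[[[[],[[[[[[Int.negSucc (nat_lit 148914507741235488143)]]]]]]]]]]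

/-- A coefficient. -/
noncomputable def sr6_m3_4_4 : MP 10 :=
  [[[[[],[],[[[[[[Int.negSucc (nat_lit 137584471789849401707)]]]]]]],[[[[[[[Int.negSucc (nat_lit 1153485032831958155351)]]]]]]],[[[[[[[Int.ofNat (nat_lit 219270760817716003092)]]]]]]]],[[[],[[[[[[Int.ofNat (nat_lit 24196892672704184208)]]]]]]]]],[[[],[[[[[[[Int.negSucc (nat_lit 1108283514941352157163)]]]]]]]]]]

/-- A coefficient. -/
noncomputable def sr6_m3_4_5 : MP 10 :=
  [[[[[],[[[[[[Int.negSucc (nat_lit 51788781068865917723)]]]]]]]],[[],[[[[[[[Int.ofNat (nat_lit 306617481688521920712)]]]]]]]]],[[[[],[[[[[[Int.negSucc (nat_lit 600082947990567221435)]]]]]]]]]]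

/-- A coefficient. -/
noncomputable def sr6_m3_4_6 : MP 10 :=
  [[[[],[[[[[[[Int.negSucc (nat_lit 1043442269950725493007)]]]]]]]]]]

/-- A coefficient. -/
noncomputable def sr6_m3_4_7 : MP 10 :=
  [[[[[],[[[[[[Int.ofNat (nat_lit 1680407257508930392344)]]]]]]]]]]

/-- A coefficient. -/
noncomputable def sr6_m3_5_0 : MP 10 :=
  [[[[[],[[[[[[Int.ofNat (nat_lit 0),Int.negSucc (nat_lit 361095688507693631)]],[[Int.ofNat (nat_lit 14416496515085876064)]]]],[[[[Int.ofNat (nat_lit 13674625024712806632)]]]]]],[[[[[[Int.ofNat (nat_lit 20414024556504695772)]]]]]]],[[[[[[[Int.negSucc (nat_lit 353952695244878656475)],[Int.negSucc (nat_lit 2215280369388803339)]]],[[[Int.ofNat (nat_lit 9994105344128640600)]]]]],[[[[[Int.negSucc (nat_lit 150435020614383467471)]]]]]],[],[[[[[[Int.ofNat (nat_lit 31826665117406591016)]]]]]]],[[[[[[[Int.ofNat (nat_lit 121630715529169825956)]]]]]]],[[[[[[[Int.ofNat (nat_lit 52008111676612452252)]]]]]]]],[[[],[[[[[[Int.ofNat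 (nat_lit 545921041583799560772)]]]]],[[[[[Int.ofNat (nat_lit 3871506807551589816)]]]]]]],[[[[],[[[[Int.ofNat (nat_lit 4566818653786932)]]]]]],[[[[[[Int.ofNat (nat_lit 21543839418777548316)]]]]]]]],[[],[[[[[[[Int.ofNat (nat_lit 304801078913754817140)]]]]]]]],[[[],[[[[[[Int.negSucc (nat_lit 128617460620167096971)]]]]]]]]],[[[[],[[[],[[[[Int.negSucc (nat_lit 20136211319549683727)]]]]]],[[[[[[Int.negSucc (nat_lit 140777369925179088851)]]]]]]],[[[[[[[Int.negSucc (nat_lit 373691857689328749731)]]]]],[[[[[Int.negSucc (nat_lit 69914676468076188059)]]]]]]],[[[[[[[Int.ofNat (nat_lit 72782209873581890400)]]]]]]]],[[[],[[[[[[Int.ofNat (nat_lit 417857027189851489572)]]]]]]]],[[],[[[[[[[Int.negSucc (nat_lit 44064366851531604791)]]]]]]]]],[[[],[[[[[[[Int.ofNat (nat_lit 72176179911152434488)]]]]]]]],[[[],[[[[[[Int.ofNat (nat_lit 81840379733310934668)]]]]]]]]],[[[],[[[[[[[Int.ofNat (nat_lit 48034363784725823844)]]]]]]]]]]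

/-- A coefficient. -/
noncomputable def sr6_m3_5_1 : MP 10 :=
  [[[[[],[[[[[[Int.negSucc (nat_lit 127144755784561606691)]]],[[[Int.negSucc (nat_lit 24167190449948058467)]]]]],[[[[[Int.negSucc (nat_lit 51778204379269154207)]]]]]]],[[[[[[],[[Int.ofNat (nat_lit 7148096252561946024)]]]],[[[[Int.negSucc (nat_lit 58338048423341508671)]]]]]],[[[[[[Int.negSucc (nat_lit 192780995555770287191)]]]]]]]],[[[],[],[[[[[[Int.negSucc (nat_lit 35343283423199574023)]]]]]]],[[[[[[[Int.ofNat (nat_lit 424359624367290290664)]]]]]]],[[[[[[[Int.negSucc (nat_lit 226741041162295234487)]]]]]]]],[[[],[[[[[[Int.negSucc (nat_lit 239820488039056898939)]]]]]]]]],[[[[],[[[[[[Int.ofNat (nat_lit 374398303433116607736)]]]]]]],[[],[[[[[[Int.negSucc (nat_lit 160532564955566409251)]]]]]]]],[[],[[[[[[[Int.negSucc (nat_lit 250267925539515771779)]]]]]]]]],[[[[],[[[[[[Int.ofNat (nat_lit 320262397643718514308)]]]]]]]]]]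

/-- A coefficient. -/
noncomputable def sr6_m3_5_2 : MP 10 :=
  [[[[[],[[[],[[[[Int.ofNat (nat_lit 236411620547636275668)]]]]]],[[[[[[Int.negSucc (nat_lit 396583833197217253367)]]]]]]],[[[[[[[Int.ofNat (nat_lit 943265535657964584168)]]]]],[[[[[Int.ofNat (nat_lit 14567130402472601244)]]]]]]],[[[[[[[Int.ofNat (nat_lit 132130780889428305636)]]]]]]]],[[[],[[[[[[Int.ofNat (nat_lit 242252831152431288660)]]]]]]]],[[],[[[[[[[Int.negSucc (nat_lit 353452710276522607367)]]]]]]]]],[[[],[[[[[[[Int.ofNat (nat_lit 2482329084197453577588)]]]]]]]],[[[],[[[[[[Int.ofNat (nat_lit 437007108874900431408)]]]]]]]]],[[[],[[[[[[[Int.ofNat (nat_lit 973413345164920347936)]]]]]]]]]]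

/-- A coefficient. -/
noncomputable def sr6_m3_5_3 : MP 10 :=
  [[[[[],[[[[[[Int.ofNat (nat_lit 3851307355893867418620)]]]]]]],[[],[[[[[[Int.negSucc (nat_lit 277501492771183997639)]]]]]]]],[[],[[[[[[[Int.negSucc (nat_lit 741334142876682081623)]]]]]]]]],[[[[],[[[[[[Int.ofNat (nat_lit 1565830910004359349552)]]]]]]]]]]

/-- A coefficient. -/
noncomputable def sr6_m3_5_4 : MP 10 :=
  [[[[],[[[[[[[Int.ofNat (nat_lit 937817598884078561160)]]]]]]]],[[[],[[[[[[Int.ofNat (nat_lit 170141881601092623348)]]]]]]]]],[[[],[[[[[[[Int.negSucc (nat_lit 201783174026386180235)]]]]]]]]]]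

/-- A coefficient. -/
noncomputable def sr6_m3_5_5 : MP 10 :=
  [[[[[],[[[[[[Int.negSucc (nat_lit 3889402089290371594859)]]]]]]]]]]

/-- A coefficient. -/
noncomputable def sr6_m3_5_6 : MP 10 :=
  [[[[],[[[[[[[Int.negSucc (nat_lit 115860706904613995591)]]]]]]]]]]

/-- A coefficient. -/
noncomputable def sr6_m3_6_0 : MP 10 :=
  [[[[[],[[[[[],[[Int.negSucc (nat_lit 11253380816373980639)]]]],[[[[Int.negSucc (nat_lit 141643484946082021739)]]]]]],[[[[[[Int.negSucc (nat_lit 77924622856864531595)]]]]]]],[[[[[[[Int.negSucc (nat_lit 228767207202728877875)]]],[[[Int.negSucc (nat_lit 23574756818995148279)]]]]],[[[[[Int.negSucc (nat_lit 33190351217029503251)]]]]]]],[[[[[[[Int.ofNat (nat_lit 89265035065295962968)]]]]]]]],[[[],[[[[[[Int.negSucc (nat_lit 711699531373135982927)]]]]]]],[[],[[[[[[Int.ofNat (nat_lit 101431862976356445336)]]]]]]]],[[],[[[[[[[Int.negSucc (nat_lit 88499481773263571363)]]]]]]]]],[[[[],[],[[[[[[Int.negSucc (nat_lit 4990529897037474035)]]]]]]],[[[[[[[Int.negSucc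 (nat_lit 564450440506365086435)]]]]]]],[[[[[[[Int.ofNat (nat_lit 22105275465547963140)]]]]]]]],[[[],[[[[[[Int.negSucc (nat_lit 258154583138577237731)]]]]]]]]],[[[],[[[[[[[Int.negSucc (nat_lit 248609976695858205467)]]]]]]]]]]

/-- A coefficient. -/
noncomputable def sr6_m3_6_1 : MP 10 :=
  [[[[[],[[[[[[Int.negSucc (nat_lit 1666980382805412563027)]]]]],[[[[[Int.ofNat (nat_lit 83497004690864529972)]]]]]]],[[[[],[[[[Int.negSucc (nat_lit 34739022803394564515)]]]]]],[[[[[[Int.negSucc (nat_lit 39410064713310698915)]]]]]]]],[[],[[[[[[[Int.ofNat (nat_lit 789522991788576396636)]]]]]]]],[[[],[[[[[[Int.ofNat (nat_lit 75121983499208702064)]]]]]]]]],[[[[],[[[[[[Int.negSucc (nat_lit 1780044106616791199951)]]]]]]]],[[],[[[[[[[Int.ofNat (nat_lit 481309692463081372800)]]]]]]]]],[[[[],[[[[[[Int.negSucc (nat_lit 386731800519004967735)]]]]]]]]]]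

/-- A coefficient. -/
noncomputable def sr6_m3_6_2 : MP 10 :=
  [[[[[],[],[[[[[[Int.ofNat (nat_lit 331211303620326336576)]]]]]]],[[[[[[[Int.negSucc (nat_lit 1990371702183693554807)]]]]]]],[[[[[[[Int.ofNat (nat_lit 270776501443614499776)]]]]]]]],[[[],[[[[[[Int.ofNat (nat_lit 480492190967875997760)]]]]]]]]],[[[],[[[[[[[Int.negSucc (nat_lit 266980125155173035107)]]]]]]]]]]

/-- A coefficient. -/
noncomputable def sr6_m3_6_3 : MP 10 :=
  [[[[[],[[[[[[Int.ofNat (nat_lit 5037168078431802108)]]]]]]]],[[],[[[[[[[Int.negSucc (nat_lit 79757128966460250443)]]]]]]]]],[[[[],[[[[[[Int.negSucc (nat_lit 444820626629363439599)]]]]]]]]]]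

/-- A coefficient. -/
noncomputable def sr6_m3_6_4 : MP 10 :=
  [[[[],[[[[[[[Int.ofNat (nat_lit 493118883733857464040)]]]]]]]]]]

/-- A coefficient. -/
noncomputable def sr6_m3_6_5 : MP 10 :=
  [[[[[],[[[[[[Int.ofNat (nat_lit 2633865606784530459672)]]]]]]]]]]

/-- A coefficient. -/
noncomputable def sr6_m3_7_0 : MP 10 :=
  [[[[[],[[[],[[[[Int.ofNat (nat_lit 60425252923899073992)]]]]]],[[[[[[Int.ofNat (nat_lit 144029148682892814276)]]]]]]],[[[[[[[Int.ofNat (nat_lit 630638707554108446268)]]]]],[[[[[Int.ofNat (nat_lit 70403149711815438804)]]]]]]],[[[[[[[Int.negSucc (nat_lit 71174771051197767359)]]]]]]]],[[[],[[[[[[Int.ofNat (nat_lit 130819511050163037792)]]]]]]]],[[],[[[[[[[Int.ofNat (nat_lit 40645613518703222616)]]]]]]]]],[[[],[[[[[[[Int.ofNat (nat_lit 551340427454090680224)]]]]]]]],[[[],[[[[[[Int.negSucc (nat_lit 45486949142900886611)]]]]]]]]],[[[],[[[[[[[Int.ofNat (nat_lit 65746800169079291496)]]]]]]]]]]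

/-- A coefficient. -/
noncomputable def sr6_m3_7_1 : MP 10 :=
  [[[[[],[[[[[[Int.ofNat (nat_lit 1420791216314159929608)]]]]]]],[[],[[[[[[Int.ofNat (nat_lit 146230622755751437764)]]]]]]]],[[],[[[[[[[Int.negSucc (nat_lit 219247820382991282979)]]]]]]]]],[[[[],[[[[[[Int.ofNat (nat_lit 486027310527489194712)]]]]]]]]]]

/-- A coefficient. -/
noncomputable def sr6_m3_7_2 : MP 10 :=
  [[[[],[[[[[[[Int.negSucc (nat_lit 123592812708059150999)]]]]]]]],[[[],[[[[[[Int.negSucc (nat_lit 428199681832102372043)]]]]]]]]],[[[],[[[[[[[Int.negSucc (nat_lit 1157807272229020507079)]]]]]]]]]]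

/-- A coefficient. -/
noncomputable def sr6_m3_7_3 : MP 10 :=
  [[[[[],[[[[[[Int.negSucc (nat_lit 3132438583470181688015)]]]]]]]]]]

/-- A coefficient. -/
noncomputable def sr6_m3_7_4 : MP 10 :=
  [[[[],[[[[[[[Int.ofNat (nat_lit 411981930990639764196)]]]]]]]]]]

/-- A coefficient. -/
noncomputable def sr6_m3_8_0 : MP 10 :=
  [[[[[],[],[[[[[[Int.negSucc (nat_lit 58602557288184446831)]]]]]]],[[[[[[[Int.ofNat (nat_lit 40482149127049543236)]]]]]]],[[[[[[[Int.negSucc (nat_lit 5327342690648656583)]]]]]]]],[[[],[[[[[[Int.ofNat (nat_lit 240763701405056525640)]]]]]]]]],[[[],[[[[[[[Int.ofNat (nat_lit 181085381127900758208)]]]]]]]]]]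

/-- A coefficient. -/
noncomputable def sr6_m3_8_1 : MP 10 :=
  [[[[[],[[[[[[Int.ofNat (nat_lit 357397726835965259088)]]]]]]]],[[],[[[[[[[Int.negSucc (nat_lit 245930935416172144247)]]]]]]]]],[[[[],[[[[[[Int.ofNat (nat_lit 237635538148016323164)]]]]]]]]]]

/-- A coefficient. -/
noncomputable def sr6_m3_8_2 : MP 10 :=
  [[[[],[[[[[[[Int.negSucc (nat_lit 103787066906904572219)]]]]]]]]]]

/-- A coefficient. -/
noncomputable def sr6_m3_8_3 : MP 10 :=
  [[[[[],[[[[[[Int.ofNat (nat_lit 1448031218508778237992)]]]]]]]]]]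

/-- A coefficient. -/
noncomputable def sr6_m3_9_0 : MP 10 :=
  [[[[],[[[[[[[Int.negSucc (nat_lit 336442228168418830811)]]]]]]]],[[[],[[[[[[Int.negSucc (nat_lit 87246480647823246107)]]]]]]]]],[[[],[[[[[[[Int.negSucc (nat_lit 181442874610668044495)]]]]]]]]]]

/-- A coefficient. -/
noncomputable def sr6_m3_9_1 : MP 10 :=
  [[[[[],[[[[[[Int.negSucc (nat_lit 651688673588139962147)]]]]]]]]]]

/-- A coefficient. -/
noncomputable def sr6_m3_9_2 : MP 10 :=
  [[[[],[[[[[[[Int.ofNat (nat_lit 591783210221400938304)]]]]]]]]]]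

/-- A coefficient. -/
noncomputable def sr6_m3_10_0 : MP 10 :=
  [[[[],[[[[[[[Int.negSucc (nat_lit 19868365478808740507)]]]]]]]]]]

/-- A coefficient. -/
noncomputable def sr6_m3_10_1 : MP 10 :=
  [[[[[],[[[[[[Int.ofNat (nat_lit 121362693450538925532)]]]]]]]]]]

/-- A coefficient. -/
noncomputable def sr6_m3_11_0 : MP 10 :=
  [[[[],[[[[[[[Int.ofNat (nat_lit 89364671204394976836)]]]]]]]]]]

/-- An expanded part. -/
noncomputable def sr6_m3 : R12 :=
  [[sr6_m3_0_0, sr6_m3_0_1, sr6_m3_0_2, sr6_m3_0_3, sr6_m3_0_4, sr6_m3_0_5, sr6_m3_0_6, sr6_m3_0_7, sr6_m3_0_8, sr6_m3_0_9, sr6_m3_0_10, sr6_m3_0_11],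
   [sr6_m3_1_0, sr6_m3_1_1, sr6_m3_1_2, sr6_m3_1_3, sr6_m3_1_4, sr6_m3_1_5, sr6_m3_1_6, sr6_m3_1_7, sr6_m3_1_8, sr6_m3_1_9, sr6_m3_1_10],
   [sr6_m3_2_0, sr6_m3_2_1, sr6_m3_2_2, sr6_m3_2_3, sr6_m3_2_4, sr6_m3_2_5, sr6_m3_2_6, sr6_m3_2_7, sr6_m3_2_8, sr6_m3_2_9],
   [sr6_m3_3_0, sr6_m3_3_1, sr6_m3_3_2, sr6_m3_3_3, sr6_m3_3_4, sr6_m3_3_5, sr6_m3_3_6, sr6_m3_3_7, sr6_m3_3_8],
   [sr6_m3_4_0, sr6_m3_4_1, sr6_m3_4_2, sr6_m3_4_3, sr6_m3_4_4, sr6_m3_4_5, sr6_m3_4_6, sr6_m3_4_7],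
   [sr6_m3_5_0, sr6_m3_5_1, sr6_m3_5_2, sr6_m3_5_3, sr6_m3_5_4, sr6_m3_5_5, sr6_m3_5_6],
   [sr6_m3_6_0, sr6_m3_6_1, sr6_m3_6_2, sr6_m3_6_3, sr6_m3_6_4, sr6_m3_6_5],
   [sr6_m3_7_0, sr6_m3_7_1, sr6_m3_7_2, sr6_m3_7_3, sr6_m3_7_4],
   [sr6_m3_8_0, sr6_m3_8_1, sr6_m3_8_2, sr6_m3_8_3],
   [sr6_m3_9_0, sr6_m3_9_1, sr6_m3_9_2],
   [sr6_m3_10_0, sr6_m3_10_1],
   [sr6_m3_11_0]]

set_option maxRecDepth 100000 in
theorem sr6_check3 : partOk 4 sr6_rows 3 sr6_m3 = true :=
  Fast.partOk_of_fast (by decide +kernel)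

end Vale.Agent.P142K.CertB
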