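import Vale.Agent.P142K.CertB.Sr6Rows
import Vale.Agent.P142K.Fast

/-!
# An expanded part of the certificate

Generated from a semidefinite program; only the checker is trusted.
-/

namespace Vale.Agent.P142K.CertB

open Vale.Agent.P142J (MP)

/-- A coefficient. -/
noncomputable def sr6_m4_0_0 : MP 10 :=
  [[[[[[[],[[[[Int.ofNat (nat_lit 0),Int.negSucc (nat_lit 531019822121435219)]],[[Int.negSucc (nat_lit 353654733329262023)]]]],[[[[Int.negSucc (nat_lit 4645690441871024471)],[Int.ofNat (nat_lit 528088784776815060)]]],[[[Int.ofNat (nat_lit 894596243617809108)]]]]],[[[[[Int.ofNat (nat_lit 5350298262585813144)],[Int.negSucc (nat_lit 838292758205694899)]]],[[[Int.ofNat (nat_lit 522522779726604816)]]]],[[[[Int.ofNat (nat_lit 0),Int.ofNat (nat_lit 1012512371333595840)]],[[Int.ofNat (nat_lit 828693149147278344)]]]],[[[[Int.negSucc (nat_lit 1311789119445942527)]]]]],[[[[[Int.negSucc (nat_lit 5988823973594148515)],[Int.ofNat (nat_lit 1609276375677348240)]]],[[[Int.ofNat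 (nat_lit 1430137960386132048)]]]]],[[[[[Int.ofNat (nat_lit 1860085614266253096)]]]]]],[[[],[[[[Int.negSucc (nat_lit 5964777341422680023)],[Int.ofNat (nat_lit 1847776182421515000)]]],[[[Int.ofNat (nat_lit 80354271239063964)]]]]],[[[[[Int.ofNat (nat_lit 0),Int.negSucc (nat_lit 1372630985563255079)]],[[Int.ofNat (nat_lit 574445378168521548)]]]],[[[[Int.ofNat (nat_lit 3808300054419321264)]]]]]],[[[],[],[[[[Int.negSucc (nat_lit 2628838905231444839)]]]]],[[[[[Int.ofNat (nat_lit 3895013167767680568)]]]]],[[[[[Int.negSucc (nat_lit 3733589002392259055)]]]]]],[[[],[[[[Int.ofNat (nat_lit 930247267920613464)]]]]]]],[[[[],[[[[Int.ofNat (nat_lit 0),Int.ofNat (nat_lit 134199174821140488)]],[[Int.negSucc (nat_lit 2326971312805063259)]]]],[[[[Int.ofNat (nat_lit 5090940429555680112)]]]]],[[[[[Int.negSucc (nat_lit 4981712436987350891)],[Int.ofNat (nat_lit 434053740420702444)]]],[[[Int.negSucc (nat_lit 1594387175217804803)]]]]],[[[[[Int.ofNat (nat_lit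 4974116401547109672)]]]]]],[[[],[[[[Int.ofNat (nat_lit 870239358539250612)]]]]],[[],[[[[Int.negSucc (nat_lit 697205638051707287)]]]]]],[[],[[[[[Int.ofNat (nat_lit 2041043907328403352)]]]]]]],[[[[],[],[[[[Int.negSucc (nat_lit 3341424866239354271)]]]]],[[[[[Int.ofNat (nat_lit 5631974939037846396)]]]]],[[[[[Int.negSucc (nat_lit 4605589801830398915)]]]]]],[[[],[[[[Int.ofNat (nat_lit 403038530017135476)]]]]]]],[[[],[[[[[Int.negSucc (nat_lit 164738010469825667)]]]]]]]],[[[[[],[[[[Int.ofNat (nat_lit 6065799622463326320)],[Int.ofNat (nat_lit 2537878191097155264)]]],[[[Int.negSucc (nat_lit 1262499197219332919)]]]],[],[[[[Int.negSucc (nat_lit 1651436452003180763)]]]]],[[[[[Int.ofNat (nat_lit 0),Int.negSucc (nat_lit 2548376941365731675)]],[[Int.ofNat (nat_lit 3381907644902673432)]]]],[[[[Int.ofNat (nat_lit 10686558954280219680)]]]]],[[],[[[[Int.negSucc (nat_lit 1486579959526344707)]]]]]],[[[],[],[[[[Int.ofNat (nat_lit 1899006415774737444)]]]]],[[[[[Int.ofNat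 (nat_lit 11893339035257694888)]]]]],[[[[[Int.ofNat (nat_lit 2325131761724929200)]]]]]],[[[],[[[[Int.negSucc (nat_lit 2615716956796135991)]]]]]]],[[[[],[[[[Int.negSucc (nat_lit 9589579060936482119)]]]]],[[],[[[[Int.ofNat (nat_lit 1694568580141586688)]]]]]],[[],[[[[[Int.negSucc (nat_lit 14220403013360048567)]]]]]]],[[[[],[[[[Int.ofNat (nat_lit 4033351995844448412)]]]]]]]],[[[[[],[[[[Int.ofNat (nat_lit 0),Int.negSucc (nat_lit 733757771939070659)]],[[Int.negSucc (nat_lit 612039311481016367)]]]],[[[[Int.negSucc (nat_lit 1188653931390176603)]]]]],[[[[[Int.ofNat (nat_lit 382696375739297388)],[Int.negSucc (nat_lit 993861925621192139)]]],[[[Int.negSucc (nat_lit 402720480602385923)]]]]],[[[[[Int.negSucc (nat_lit 1737046311457815743)]]]]]],[[[],[[[[Int.negSucc (nat_lit 6754261882577856899)]]]]]],[[],[[[[[Int.negSucc (nat_lit 1115626668867624971)]]]]]]],[[[],[[[[[Int.negSucc (nat_lit 3529341555204611291)]]]]]],[[[],[[[[Int.ofNat (nat_lit 60756117977603280)]]]]]]],[[[],[[[[[Int.negSucc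 (nat_lit 2061876372179506835)]]]]]]]],[[[[[],[[[[Int.ofNat (nat_lit 7579899250746590832)]]]]],[[],[[[[Int.ofNat (nat_lit 696337901001242784)]]]]]],[[],[[[[[Int.ofNat (nat_lit 2088214707368988120)]]]]]]],[[[[],[[[[Int.negSucc (nat_lit 2346655179327926471)]]]]]]]],[[[[],[[[[[Int.negSucc (nat_lit 5124728092030633535)]]]]]]]],[[[[[],[[[[Int.negSucc (nat_lit 351610777089461123)]]]]]]]]],[[[[[[],[[[[Int.ofNat (nat_lit 0),Int.negSucc (nat_lit 2157389082465771587)]],[[Int.negSucc (nat_lit 2212580665809403895)]]]],[[[[Int.negSucc (nat_lit 7595260888701141407)]]]]],[[[[[Int.ofNat (nat_lit 21956203789920527976)],[Int.negSucc (nat_lit 2612542190876343275)]]],[[[Int.negSucc (nat_lit 874596855290312987)]]]],[],[[[[Int.ofNat (nat_lit 954593276517221112)]]]]],[[[[[Int.negSucc (nat_lit 15289797394044210083)]]]]],[[[[[Int.ofNat (nat_lit 1379495294039824560)]]]]]],[[[],[[[[Int.negSucc (nat_lit 17969687288535297839)]]]]],[[],[[[[Int.ofNat (nat_lit 3820577357755253940)]]]]]],[[],[[[[[Int.negSucc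 (nat_lit 1020540752321969603)]]]]]]],[[[[],[],[[[[Int.ofNat (nat_lit 3520099823937091500)]]]]],[[[[[Int.negSucc (nat_lit 14019855299926367987)]]]]],[[[[[Int.ofNat (nat_lit 4098609816979649664)]]]]]],[[[],[[[[Int.ofNat (nat_lit 7946894791354140444)]]]]]]],[[[],[[[[[Int.ofNat (nat_lit 7810552884997810044)]]]]]]]],[[[[[],[[[[Int.ofNat (nat_lit 15521578556447182716)],[Int.ofNat (nat_lit 3684339757263444)]]],[[[Int.negSucc (nat_lit 1176407409096277727)]]]]],[[[[[Int.ofNat (nat_lit 0),Int.ofNat (nat_lit 110275221418808988)]],[[Int.ofNat (nat_lit 2248039483467645132)]]]],[[[[Int.ofNat (nat_lit 1029108856525587168)]]]]]],[[],[[[[[Int.ofNat (nat_lit 15336364196678131716)]]]]]],[[[],[[[[Int.ofNat (nat_lit 3688005535292953944)]]]]]]],[[[[],[[[[Int.negSucc (nat_lit 14446796721214888115)]]]]]],[[],[[[[[Int.negSucc (nat_lit 1547135667043086995)]]]]]]],[[[[],[[[[Int.ofNat (nat_lit 4250527670888564268)]]]]]]]],[[[[[],[],[[[[Int.negSucc (nat_lit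 2719070262226535819)]]]]],[[[[[Int.negSucc (nat_lit 11032417878958088927)]]]]],[[[[[Int.negSucc (nat_lit 3171822922016385971)]]]]]],[[[],[[[[Int.negSucc (nat_lit 7339114773749268827)]]]]]]],[[[],[[[[[Int.negSucc (nat_lit 252708876361513823)]]]]]]]],[[[[[],[[[[Int.ofNat (nat_lit 3804448776912014748)]]]]]]]],[[[[],[[[[[Int.negSucc (nat_lit 935288553673648283)]]]]]]]]],[[[[[[],[[[[Int.ofNat (nat_lit 0),Int.negSucc (nat_lit 1561463073904291091)]],[[Int.negSucc (nat_lit 2064826844079136631)]]]],[[[[Int.negSucc (nat_lit 7869642054604338227)]]]]],[[[[[Int.ofNat (nat_lit 31065785019553166484)],[Int.negSucc (nat_lit 1707644356611550139)]]],[[[Int.negSucc (nat_lit 1442105398673173967)]]]]],[[[[[Int.negSucc (nat_lit 15271380788974796939)]]]]]],[[[],[[[[Int.negSucc (nat_lit 18645238895450467259)]]]]]],[[],[[[[[Int.ofNat (nat_lit 648717337663968516)]]]]]]],[[[],[[[[[Int.negSucc (nat_lit 6624852987504428495)]]]]]],[[[],[[[[Int.ofNat (nat_lit 1331045950479760500)]]]]]]],[[[],[[[[[Int.negSucc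 (nat_lit 96805956927854531)]]]]]]]],[[[[[],[[[[Int.ofNat (nat_lit 14708223215299882608)]]]]],[[],[[[[Int.negSucc (nat_lit 627917471614323623)]]]]]],[[],[[[[[Int.ofNat (nat_lit 8865442792041919020)]]]]]]],[[[[],[[[[Int.negSucc (nat_lit 4137435317500181579)]]]]]]]],[[[[],[[[[[Int.negSucc (nat_lit 11020547577548024219)]]]]]]]],[[[[[],[[[[Int.ofNat (nat_lit 3365748882765490404)]]]]]]]]],[[[[[[],[],[[[[Int.negSucc (nat_lit 4077303548253022991)]]]]],[[[[[Int.ofNat (nat_lit 19958799987822250104)]]]]],[[[[[Int.negSucc (nat_lit 5737286031349630007)]]]]]],[[[],[[[[Int.negSucc (nat_lit 7701132750677918807)]]]]]]],[[[],[[[[[Int.ofNat (nat_lit 1923907400120615352)]]]]]]]],[[[[[],[[[[Int.ofNat (nat_lit 9162296061272230416)]]]]]]]],[[[[],[[[[[Int.ofNat (nat_lit 177816925456208760)]]]]]]]]],[[[[[],[[[[[Int.ofNat (nat_lit 7309151017893244044)]]]]]]]],[[[[[],[[[[Int.ofNat (nat_lit 3236774150246018916)]]]]]]]]],[[[[[],[[[[[Int.ofNat (nat_lit 1823689860542022768)]]]]]]]]]]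

/-- A coefficient. -/
noncomputable def sr6_m4_0_1 : MP 10 :=
  [[[[[[[],[[[[Int.negSucc (nat_lit 15734122244001407579)],[Int.ofNat (nat_lit 2881573012614833916)]]],[[[Int.ofNat (nat_lit 8316041465840401752)]]]],[[[],[[Int.ofNat (nat_lit 653271503067225624)]]]],[[[[Int.ofNat (nat_lit 3051076892004985032)]]]]],[[[[[Int.ofNat (nat_lit 0),Int.negSucc (nat_lit 2709359698337598587)]],[[Int.negSucc (nat_lit 13069341099829071947)]]]],[[[[Int.ofNat (nat_lit 9708850328718237576)]]],[[[Int.ofNat (nat_lit 133523735714154948)]]]]],[[[[],[[Int.ofNat (nat_lit 1138750996941115212)]]]],[[[[Int.ofNat (nat_lit 1520457856495407096)]]]]]],[[[],[[[[Int.ofNat (nat_lit 0),Int.negSucc (nat_lit 801911189854920119)]],[[Int.ofNat (nat_lit 254102947361624496)]]]],[[[[Int.negSucc (nat_lit 5847341304755188619)]]]]],[[[[[Int.negSucc (nat_lit 34149768201315710219)],[Int.negSucc (nat_lit 980853725837267459)]]],[[[Int.negSucc (nat_lit 327507881481977063)]]]]],[[[[[Int.negSucc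 (nat_lit 3123473960011736039)]]]]]],[[[],[[[[Int.negSucc (nat_lit 13943002018720116743)]]]]]],[[],[[[[[Int.ofNat (nat_lit 130169802080155860)]]]]]]],[[[[],[[[[Int.ofNat (nat_lit 34660400933164804956)],[Int.ofNat (nat_lit 2000120528400462540)]]],[[[Int.negSucc (nat_lit 2112766825247882999)]]]]],[[[[[Int.ofNat (nat_lit 0),Int.negSucc (nat_lit 1867354028967326135)]],[[Int.ofNat (nat_lit 537338990818045140)]]]],[[[[Int.negSucc (nat_lit 6686452495183936139)]]]]]],[[],[[[[[Int.ofNat (nat_lit 36489978413508727248)]]]]]],[[[],[[[[Int.negSucc (nat_lit 920261294052006935)]]]]]]],[[[[],[[[[Int.negSucc (nat_lit 32535863268598570679)]]]]]],[[],[[[[[Int.ofNat (nat_lit 1516851124737989040)]]]]]]],[[[[],[[[[Int.negSucc (nat_lit 2079871213267699991)]]]]]]]],[[[[[],[[[[Int.ofNat (nat_lit 0),Int.negSucc (nat_lit 415646141270472095)]],[[Int.negSucc (nat_lit 9988065504186608819)]]]],[[[[Int.negSucc (nat_lit 16828427705557291439)]]]]],[[[[[Int.negSucc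 (nat_lit 3737970009780828395)],[Int.ofNat (nat_lit 62806447855480956)]]],[[[Int.negSucc (nat_lit 4513402872894072047)]]]]],[[[[[Int.negSucc (nat_lit 13162558995108564923)]]]]]],[[[],[[[[Int.negSucc (nat_lit 3195741076182305783)]]]]],[[],[[[[Int.ofNat (nat_lit 3770487957983829720)]]]]]],[[],[[[[[Int.ofNat (nat_lit 25435637318006767836)]]]]]]],[[[[],[],[[[[Int.ofNat (nat_lit 3066029111557659144)]]]]],[[[[[Int.negSucc (nat_lit 12465401868254274095)]]]]],[[[[[Int.ofNat (nat_lit 9089833270076501484)]]]]]],[[[],[[[[Int.ofNat (nat_lit 8831778095848306656)]]]]]]],[[[],[[[[[Int.ofNat (nat_lit 13867978461250396812)]]]]]]]],[[[[[],[[[[Int.negSucc (nat_lit 41107919527196296823)]]],[[[Int.negSucc (nat_lit 1302570112652153783)]]]]],[[[[],[[Int.ofNat (nat_lit 217827085651884804)]]]],[[[[Int.negSucc (nat_lit 3968765210597198159)]]]]]],[[],[[[[[Int.negSucc (nat_lit 43487028015712944683)]]]]]]],[[[[],[[[[Int.ofNat (nat_lit 52662437035781196708)]]]]]]]],[[[[],[[[[[Int.negSucc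 (nat_lit 6964572407261952467)]]]]]],[[[],[[[[Int.ofNat (nat_lit 614454712383852408)]]]]]]],[[[],[[[[[Int.negSucc (nat_lit 4711510752363362963)]]]]]]]],[[[[[],[[[[Int.ofNat (nat_lit 2197071260814220092)]]]]]]]]],[[[[[[],[[[[Int.negSucc (nat_lit 48660992498639697527)],[Int.ofNat (nat_lit 5858783139758424276)]]],[[[Int.ofNat (nat_lit 8370325183278678528)]]]]],[[[[[Int.ofNat (nat_lit 0),Int.negSucc (nat_lit 5889522071165044403)]],[[Int.negSucc (nat_lit 14633688373852716335)]]]],[[[[Int.ofNat (nat_lit 28757645788674277128)]]]]]],[[[],[],[[[[Int.negSucc (nat_lit 2425282107492328259)]]]]],[[[[[Int.negSucc (nat_lit 76449954920778643631)]]]]],[[[[[Int.negSucc (nat_lit 1178906468627161079)]]]]]],[[[],[[[[Int.negSucc (nat_lit 23635510211515923551)]]]]]]],[[[[],[[[[Int.ofNat (nat_lit 43462590836956282476)]]]]],[[],[[[[Int.ofNat (nat_lit 2978920636413127728)]]]]]],[[],[[[[[Int.ofNat (nat_lit 13594374483426912132)]]]]]]],[[[[],[[[[Int.negSucc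 (nat_lit 31349766598185192743)]]]]]]]],[[[[[],[[[],[[Int.negSucc (nat_lit 719442943318317875)]]]],[[[[Int.negSucc (nat_lit 18320384506800679043)]]]]],[[[[[Int.ofNat (nat_lit 32380860567740605908)]]],[[[Int.negSucc (nat_lit 38156254222763939)]]]]],[[[[[Int.negSucc (nat_lit 27116223819877019447)]]]]]],[[[],[[[[Int.negSucc (nat_lit 10323489969332827451)]]]]]]],[[[],[[[[[Int.ofNat (nat_lit 898759193700189324)]]]]]]]],[[[[[],[[[[Int.negSucc (nat_lit 9562949660603259107)]]]]]],[[],[[[[[Int.ofNat (nat_lit 7895096163269400120)]]]]]]],[[[[],[[[[Int.negSucc (nat_lit 7902818082928856531)]]]]]]]],[[[[],[[[[[Int.ofNat (nat_lit 14542728886005476628)]]]]]]]]],[[[[[[],[[[[Int.negSucc (nat_lit 73166144454561059795)]]],[[[Int.negSucc (nat_lit 506007537147719363)]]]]],[[[[],[[Int.negSucc (nat_lit 272039166151591595)]]]],[[[[Int.ofNat (nat_lit 8776846066206396504)]]]]]],[[],[[[[[Int.negSucc (nat_lit 52140918390849736259)]]]]]]],[[[[],[[[[Int.ofNat (nat_lit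 1640210105344531044)]]]]]]]],[[[[],[[[[[Int.ofNat (nat_lit 71192667044386675956)]]]]]],[[[],[[[[Int.negSucc (nat_lit 2799939590312489519)]]]]]]],[[[],[[[[[Int.negSucc (nat_lit 87947881944781955)]]]]]]]],[[[[[],[[[[Int.negSucc (nat_lit 12443827950145370975)]]]]]]]]],[[[[[[],[[[[Int.negSucc (nat_lit 68052740164751022695)]]]]]],[[],[[[[[Int.ofNat (nat_lit 1160293676423069928)]]]]]]],[[[[],[[[[Int.negSucc (nat_lit 11297910126134539871)]]]]]]]],[[[[],[[[[[Int.ofNat (nat_lit 30543684730220432808)]]]]]]]]],[[[[[[],[[[[Int.negSucc (nat_lit 27032121770864338859)]]]]]]]]]]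

/-- A coefficient. -/
noncomputable def sr6_m4_0_2 : MP 10 :=
  [[[[[[[],[[[[Int.ofNat (nat_lit 0),Int.ofNat (nat_lit 1696168905436032564)]],[[Int.ofNat (nat_lit 12653257568180440236)]]]],[[[[Int.ofNat (nat_lit 17768582796265578024)]]]]],[[[[[Int.ofNat (nat_lit 18944865852298094472)],[Int.ofNat (nat_lit 1618940025557424420)]]],[[[Int.ofNat (nat_lit 3980317008314057712)]]]],[],[[[[Int.negSucc (nat_lit 5117034843369501935)]]]]],[[[[[Int.ofNat (nat_lit 23088777315518393412)]]]]],[[[[[Int.negSucc (nat_lit 2965569203105110319)]]]]]],[[[],[[[[Int.ofNat (nat_lit 6769162168980965832)]]],[[[Int.ofNat (nat_lit 2059561815501055644)]]]]],[[[[],[[Int.negSucc (nat_lit 1077410172403918187)]]]],[[[[Int.ofNat (nat_lit 2800795402461486972)]]]]]],[[],[[[[[Int.negSucc (nat_lit 23661713373087989015)]]]]]]],[[[[],[[[],[[Int.ofNat (nat_lit 572110934464416972)]]]],[[[[Int.negSucc (nat_lit 4714496560016309447)]]]]],[[[[[Int.ofNat (nat_lit 57697966957878548880)]]],[[[Int.ofNat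 (nat_lit 584119471035587340)]]]]],[[[[[Int.negSucc (nat_lit 1426866897154326167)]]]]]],[[[],[[[[Int.negSucc (nat_lit 31401696633498044207)]]]]]]],[[[],[[[[[Int.negSucc (nat_lit 35992016891369810123)]]]]]]]],[[[[[],[[[[Int.ofNat (nat_lit 81767117689713747552)],[Int.ofNat (nat_lit 5854172042288955840)]]],[[[Int.ofNat (nat_lit 12676897304431415244)]]]]],[[[[[Int.ofNat (nat_lit 0),Int.negSucc (nat_lit 5373032505432025499)]],[[Int.negSucc (nat_lit 12660086729974984091)]]]],[[[[Int.ofNat (nat_lit 47414648099018068824)]]]]]],[[],[[[[[Int.ofNat (nat_lit 74989406457044979324)]]]]]],[[[],[[[[Int.negSucc (nat_lit 14331371345202614747)]]]]]]],[[[[],[[[[Int.negSucc (nat_lit 45675698208383890235)]]]]]],[[],[[[[[Int.ofNat (nat_lit 2869658934925660152)]]]]]]],[[[[],[[[[Int.negSucc (nat_lit 8224807445259432527)]]]]]]]],[[[[[],[],[[[[Int.negSucc (nat_lit 10098699405587332535)]]]]],[[[[[Int.ofNat (nat_lit 41158665377329206108)]]]]],[[[[[Int.negSucc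 (nat_lit 13906154005304795687)]]]]]],[[[],[[[[Int.negSucc (nat_lit 49672431243237398411)]]]]]]],[[[],[[[[[Int.negSucc (nat_lit 17994268458700400627)]]]]]]]],[[[[[],[[[[Int.ofNat (nat_lit 25204997627117675820)]]]]]]]],[[[[],[[[[[Int.ofNat (nat_lit 6301439925748292964)]]]]]]]]],[[[[[[],[[[[Int.ofNat (nat_lit 0),Int.ofNat (nat_lit 973620547684497000)]],[[Int.ofNat (nat_lit 8934037344149057832)]]]],[[[[Int.ofNat (nat_lit 32102299720706070348)]]]]],[[[[[Int.negSucc (nat_lit 21523985942346880823)],[Int.ofNat (nat_lit 942365051626156344)]]],[[[Int.ofNat (nat_lit 2572742180299574004)]]]]],[[[[[Int.ofNat (nat_lit 48197024046174083976)]]]]]],[[[],[[[[Int.ofNat (nat_lit 3727357625819267184)]]]]]],[[],[[[[[Int.negSucc (nat_lit 12684945852992632619)]]]]]]],[[[],[[[[[Int.ofNat (nat_lit 11338730358441026232)]]]]]],[[[],[[[[Int.negSucc (nat_lit 713812976775785663)]]]]]]],[[[],[[[[[Int.negSucc (nat_lit 12066154864507655699)]]]]]]]],[[[[[],[[[[Int.negSucc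 (nat_lit 66234941157617598311)]]]]],[[],[[[[Int.ofNat (nat_lit 7791029522853220920)]]]]]],[[],[[[[[Int.negSucc (nat_lit 94190470163697675971)]]]]]]],[[[[],[[[[Int.ofNat (nat_lit 17494823500387371948)]]]]]]]],[[[[],[[[[[Int.ofNat (nat_lit 38760300663696874896)]]]]]]]],[[[[[],[[[[Int.negSucc (nat_lit 25394870438893228091)]]]]]]]]],[[[[[[],[],[[[[Int.negSucc (nat_lit 3295363217862107183)]]]]],[[[[[Int.negSucc (nat_lit 90441646355434779779)]]]]],[[[[[Int.negSucc (nat_lit 9440308483460866751)]]]]]],[[[],[[[[Int.ofNat (nat_lit 9295118526212057568)]]]]]]],[[[],[[[[[Int.negSucc (nat_lit 25165820515372174427)]]]]]]]],[[[[[],[[[[Int.negSucc (nat_lit 95950872503470229975)]]]]]]]],[[[[],[[[[[Int.ofNat (nat_lit 3105737693478185400)]]]]]]]]],[[[[[],[[[[[Int.negSucc (nat_lit 41059372813342613291)]]]]]]]],[[[[[],[[[[Int.negSucc (nat_lit 13428788863318977503)]]]]]]]]],[[[[[],[[[[[Int.ofNat (nat_lit 6372957279643158096)]]]]]]]]]]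

/-- A coefficient. -/
noncomputable def sr6_m4_0_3 : MP 10 :=
  [[[[[[[],[[[[Int.negSucc (nat_lit 103223198998249853183)],[Int.negSucc (nat_lit 7639216293664535903)]]],[[[Int.negSucc (nat_lit 8727874484903729927)]]]]],[[[[[Int.ofNat (nat_lit 0),Int.ofNat (nat_lit 6194541284813146740)]],[[Int.ofNat (nat_lit 9307762159347061608)]]]],[[[[Int.negSucc (nat_lit 73262439927764109719)]]]]]],[[[],[],[[[[Int.ofNat (nat_lit 3227558168202703092)]]]]],[[[[[Int.negSucc (nat_lit 21946927045101041903)]]]]],[[[[[Int.ofNat (nat_lit 3054570469987836480)]]]]]],[[[],[[[[Int.ofNat (nat_lit 13454197385393441400)]]]]]]],[[[[],[[[[Int.ofNat (nat_lit 22194990707781249360)]]]]],[[],[[[[Int.ofNat (nat_lit 6828500575062311520)]]]]]],[[],[[[[[Int.ofNat (nat_lit 24177859254385174836)]]]]]]],[[[[],[[[[Int.negSucc (nat_lit 23469539190339612275)]]]]]]]],[[[[[],[[[],[[Int.ofNat (nat_lit 5421603333074594664)]]]],[[[[Int.ofNat (nat_lit 27964805787208859136)]]]]],[[[[[Int.ofNat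 (nat_lit 17306508671163673200)]]],[[[Int.ofNat (nat_lit 4985629087966880172)]]]]],[[[[[Int.ofNat (nat_lit 83079372191902960464)]]]]]],[[[],[[[[Int.ofNat (nat_lit 63136631460309865656)]]]]]]],[[[],[[[[[Int.ofNat (nat_lit 49501185960244114788)]]]]]]]],[[[[[],[[[[Int.negSucc (nat_lit 115050888619402239503)]]]]]],[[],[[[[[Int.negSucc (nat_lit 18280923156299202347)]]]]]]],[[[[],[[[[Int.ofNat (nat_lit 26589373564573506996)]]]]]]]],[[[[],[[[[[Int.negSucc (nat_lit 64231541007230411891)]]]]]]]]],[[[[[[],[[[[Int.ofNat (nat_lit 1212967550177456232)]]],[[[Int.negSucc (nat_lit 3247967328621373103)]]]]],[[[[],[[Int.ofNat (nat_lit 1578914802513172332)]]]],[[[[Int.negSucc (nat_lit 45935629835531926427)]]]]]],[[],[[[[[Int.ofNat (nat_lit 108825843504935823324)]]]]]]],[[[[],[[[[Int.negSucc (nat_lit 7066465348152674735)]]]]]]]],[[[[],[[[[[Int.negSucc (nat_lit 128074956015992997803)]]]]]],[[[],[[[[Int.ofNat (nat_lit 3565773458402611752)]]]]]]],[[[],[[[[[Int.negSucc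 (nat_lit 31908956005921126727)]]]]]]]],[[[[[],[[[[Int.ofNat (nat_lit 65700075466221045168)]]]]]]]]],[[[[[[],[[[[Int.ofNat (nat_lit 110290218981226129524)]]]]]],[[],[[[[[Int.ofNat (nat_lit 1102360997930591304)]]]]]]],[[[[],[[[[Int.ofNat (nat_lit 4695262396480301208)]]]]]]]],[[[[],[[[[[Int.negSucc (nat_lit 34789631415515813867)]]]]]]]]],[[[[[[],[[[[Int.ofNat (nat_lit 41511256596754689900)]]]]]]]]]]

/-- A coefficient. -/
noncomputable def sr6_m4_0_4 : MP 10 :=
  [[[[[[[],[[[[Int.ofNat (nat_lit 0),Int.negSucc (nat_lit 180329764065492239)]],[[Int.negSucc (nat_lit 3559748128869384299)]]]],[[[[Int.negSucc (nat_lit 31336794501792312551)]]]]],[[[[[Int.negSucc (nat_lit 9997947762471726707)],[Int.negSucc (nat_lit 467581411294668251)]]],[[[Int.negSucc (nat_lit 3364898117909179559)]]]]],[[[[[Int.negSucc (nat_lit 86482806339974150891)]]]]]],[[[],[[[[Int.negSucc (nat_lit 56161127315817604235)]]]]]],[[],[[[[[Int.negSucc (nat_lit 10455168541757516939)]]]]]]],[[[],[[[[[Int.negSucc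 (nat_lit 55612121095097142311)]]]]]],[[[],[[[[Int.ofNat (nat_lit 12532061078360920104)]]]]]]],[[[],[[[[[Int.negSucc (nat_lit 5724522008894812547)]]]]]]]],[[[[[],[[[[Int.ofNat (nat_lit 174652702197724358568)]]]]],[[],[[[[Int.negSucc (nat_lit 1643024155153396427)]]]]]],[[],[[[[[Int.ofNat (nat_lit 13150417025533190988)]]]]]]],[[[[],[[[[Int.negSucc (nat_lit 60499705503780555731)]]]]]]]],[[[[],[[[[[Int.ofNat (nat_lit 23279291468300623176)]]]]]]]],[[[[[],[[[[Int.ofNat (nat_lit 876965820868618032)]]]]]]]]],[[[[[[],[],[[[[Int.negSucc (nat_lit 8394565649529528047)]]]]],[[[[[Int.ofNat (nat_lit 220939571082312899196)]]]]],[[[[[Int.negSucc (nat_lit 14577892611773777699)]]]]]],[[[],[[[[Int.negSucc (nat_lit 18172734973560997475)]]]]]]],[[[],[[[[[Int.negSucc (nat_lit 2767451841259883699)]]]]]]]],[[[[[],[[[[Int.ofNat (nat_lit 103367465876389150452)]]]]]]]],[[[[],[[[[[Int.negSucc (nat_lit 6424580507630981879)]]]]]]]]],[[[[[],[[[[[Int.ofNat (nat_lit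 198267941378011035396)]]]]]]]],[[[[[],[[[[Int.ofNat (nat_lit 6478551296424997644)]]]]]]]]],[[[[[],[[[[[Int.ofNat (nat_lit 38165875305673974756)]]]]]]]]]]

/-- A coefficient. -/
noncomputable def sr6_m4_0_5 : MP 10 :=
  [[[[[[[],[[[[Int.negSucc (nat_lit 67176519238867544555)]]],[[[Int.ofNat (nat_lit 5743262246668988796)]]]]],[[[[],[[Int.negSucc (nat_lit 3780505189770696095)]]]],[[[[Int.ofNat (nat_lit 13395915279495477732)]]]]]],[[],[[[[[Int.ofNat (nat_lit 14562925357670062716)]]]]]]],[[[[],[[[[Int.ofNat (nat_lit 68651779301269969500)]]]]]]]],[[[[],[[[[[Int.ofNat (nat_lit 45655067522343084012)]]]]]],[[[],[[[[Int.ofNat (nat_lit 44826336664471360140)]]]]]]],[[[],[[[[[Int.negSucc (nat_lit 22208050312458743279)]]]]]]]],[[[[[],[[[[Int.ofNat (nat_lit 82399117105347549252)]]]]]]]]],[[[[[[],[[[[Int.negSucc (nat_lit 87988153701682136879)]]]]]],[[],[[[[[Int.ofNat (nat_lit 37956475356718287516)]]]]]]],[[[[],[[[[Int.negSucc (nat_lit 16955289248304061211)]]]]]]]],[[[[],[[[[[Int.ofNat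 (nat_lit 159126966371456670984)]]]]]]]]],[[[[[[],[[[[Int.negSucc (nat_lit 58273949771299316807)]]]]]]]]]]

/-- A coefficient. -/
noncomputable def sr6_m4_0_6 : MP 10 :=
  [[[[[[[],[],[[[[Int.negSucc (nat_lit 19036718586391096331)]]]]],[[[[[Int.negSucc (nat_lit 29842172122747185047)]]]]],[[[[[Int.negSucc (nat_lit 19053535165260521027)]]]]]],[[[],[[[[Int.negSucc (nat_lit 46867172357287644287)]]]]]]],[[[],[[[[[Int.ofNat (nat_lit 27869351137617013008)]]]]]]]],[[[[[],[[[[Int.negSucc (nat_lit 170787810808164030659)]]]]]]]],[[[[],[[[[[Int.ofNat (nat_lit 34886692793392755900)]]]]]]]]],[[[[[],[[[[[Int.negSucc (nat_lit 229833306974937845339)]]]]]]]],[[[[[],[[[[Int.negSucc (nat_lit 98033324595967294679)]]]]]]]]],[[[[[],[[[[[Int.negSucc (nat_lit 33826545906404404883)]]]]]]]]]]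

/-- A coefficient. -/
noncomputable def sr6_m4_0_7 : MP 10 :=
  [[[[[[[],[[[[Int.ofNat (nat_lit 77246605317353111124)]]]]]],[[],[[[[[Int.negSucc (nat_lit 28888621315319488091)]]]]]]],[[[[],[[[[Int.ofNat (nat_lit 17434011965740012620)]]]]]]]],[[[[],[[[[[Int.negSucc (nat_lit 51067168063008700643)]]]]]]]]],[[[[[[],[[[[Int.ofNat (nat_lit 135116326110842136084)]]]]]]]]]]

/-- A coefficient. -/
noncomputable def sr6_m4_0_8 : MP 10 :=
  [[[[[[],[[[[[Int.ofNat (nat_lit 34877635751528335704)]]]]]]]],[[[[[],[[[[Int.ofNat (nat_lit 6534347504938704816)]]]]]]]]],[[[[[],[[[[[Int.ofNat (nat_lit 21330101481615263352)]]]]]]]]]]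

/-- A coefficient. -/
noncomputable def sr6_m4_0_9 : MP 10 :=
  [[[[[[[],[[[[Int.negSucc (nat_lit 45595255299429184631)]]]]]]]]]]

/-- A coefficient. -/
noncomputable def sr6_m4_0_10 : MP 10 :=
  [[[[[[],[[[[[Int.negSucc (nat_lit 15417109476457726127)]]]]]]]]]]

/-- A coefficient. -/
noncomputable def sr6_m4_1_0 : MP 10 :=
  [[[[[[[],[[[[Int.ofNat (nat_lit 0),Int.ofNat (nat_lit 3059813422132898184)]],[[Int.ofNat (nat_lit 2185864841357071260)]]]],[[[[Int.ofNat (nat_lit 9999406347699618624)]]],[[[Int.negSucc (nat_lit 1686981987261039299)]]]]],[[[[[Int.negSucc (nat_lit 37292851886776912247)],[Int.ofNat (nat_lit 4489784821086852192)]]],[[[Int.negSucc (nat_lit 872055285641892875)]]]],[[[],[[Int.negSucc (nat_lit 784348981668140051)]]]],[[[[Int.ofNat (nat_lit 8654894027565980724)]]]]],[[[[[Int.ofNat (nat_lit 8707078015688402208)]]],[[[Int.negSucc (nat_lit 2708176378098626099)]]]]],[[[[[Int.negSucc (nat_lit 3043603932689744267)]]]]]],[[[],[[[[Int.ofNat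 (nat_lit 22391114881059885084)],[Int.negSucc (nat_lit 1200864198950348555)]]],[[[Int.ofNat (nat_lit 2530602008262298836)]]]]],[[[[[Int.ofNat (nat_lit 0),Int.ofNat (nat_lit 323746280064131268)]],[[Int.negSucc (nat_lit 6138316336430387495)]]]],[[[[Int.negSucc (nat_lit 16450002859767871511)]]]]]],[[],[[[[[Int.negSucc (nat_lit 19674786656384978027)]]]]]],[[[],[[[[Int.negSucc (nat_lit 7380140386648873151)]]]]]]],[[[[],[[[[Int.ofNat (nat_lit 0),Int.ofNat (nat_lit 398813089696695600)]],[[Int.ofNat (nat_lit 10448938674683823036)]]]],[[[[Int.negSucc (nat_lit 14465214006951369767)]]]]],[[[[[Int.ofNat (nat_lit 20858956890601104120)],[Int.negSucc (nat_lit 311878524612642839)]]],[[[Int.ofNat (nat_lit 6430818889302931476)]]]]],[[[[[Int.negSucc (nat_lit 7993826519544463151)]]]]]],[[[],[[[[Int.ofNat (nat_lit 7513794553570175652)]]]]]],[[],[[[[[Int.negSucc (nat_lit 6041841456071577479)]]]]]]],[[[],[[[[[Int.negSucc (nat_lit 15624988300747182143)]]]]]],[[[],[[[[Int.negSucc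 (nat_lit 9318236404476622115)]]]]]]],[[[],[[[[[Int.negSucc (nat_lit 6139145490559506875)]]]]]]]],[[[[[],[[[[Int.negSucc (nat_lit 36913597783531474427)],[Int.negSucc (nat_lit 10853839560117444275)]]],[[[Int.ofNat (nat_lit 1528164689432615724)]]]]],[[[[[Int.ofNat (nat_lit 0),Int.ofNat (nat_lit 10799770555864990452)]],[[Int.negSucc (nat_lit 7707744238994273315)]]]],[[[[Int.negSucc (nat_lit 76390544624559143555)]]]]]],[[[],[],[[[[Int.ofNat (nat_lit 488068738195178724)]]]]],[[[[[Int.negSucc (nat_lit 53975141074358712863)]]]]],[[[[[Int.ofNat (nat_lit 1375883436950625348)]]]]]],[[[],[[[[Int.ofNat (nat_lit 20358217339331335776)]]]]]]],[[[[],[[[[Int.ofNat (nat_lit 29822605412167114524)]]]]],[[],[[[[Int.negSucc (nat_lit 395219171822141051)]]]]]],[[],[[[[[Int.ofNat (nat_lit 33899252376854338260)]]]]]]],[[[[],[[[[Int.negSucc (nat_lit 1792173028410198323)]]]]]]]],[[[[[],[[[],[[Int.ofNat (nat_lit 687853684651072644)]]]],[[[[Int.negSucc (nat_lit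 5850729174658765691)]]]]],[[[[[Int.ofNat (nat_lit 19425127651785483768)]]],[[[Int.ofNat (nat_lit 80169371087967912)]]]]],[[[[[Int.negSucc (nat_lit 2647790450731467743)]]]]]],[[[],[[[[Int.ofNat (nat_lit 17201521822925363088)]]]]]]],[[[],[[[[[Int.ofNat (nat_lit 32357425309622181696)]]]]]]]],[[[[[],[[[[Int.negSucc (nat_lit 15774120222429454547)]]]]]],[[],[[[[[Int.ofNat (nat_lit 198969990980605104)]]]]]]],[[[[],[[[[Int.ofNat (nat_lit 1232412873010367808)]]]]]]]],[[[[],[[[[[Int.ofNat (nat_lit 5192913589517112276)]]]]]]]]],[[[[[[],[[[[Int.ofNat (nat_lit 0),Int.ofNat (nat_lit 3383291157874666344)]],[[Int.ofNat (nat_lit 6002298483613474008)]]]],[[[[Int.negSucc (nat_lit 3653113835593976783)]]]]],[[[[[Int.negSucc (nat_lit 109792898648294179199)],[Int.ofNat (nat_lit 4286851502832309600)]]],[[[Int.ofNat (nat_lit 3255012872241070128)]]]]],[[[[[Int.ofNat (nat_lit 22230247038254085156)]]]]]],[[[],[[[[Int.ofNat (nat_lit 65110687542272997420)]]]]],[[],[[[[Int.negSucc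 (nat_lit 2095340532904927703)]]]]]],[[],[[[[[Int.negSucc (nat_lit 8430048261627360647)]]]]]]],[[[[],[],[[[[Int.ofNat (nat_lit 4141252693227952860)]]]]],[[[[[Int.ofNat (nat_lit 34377291384642585600)]]]]],[[[[[Int.ofNat (nat_lit 8218881732075453564)]]]]]],[[[],[[[[Int.negSucc (nat_lit 8432080688109085859)]]]]]]],[[[],[[[[[Int.negSucc (nat_lit 17187350260502156339)]]]]]]]],[[[[[],[[[[Int.negSucc (nat_lit 45456961132307725091)]]],[[[Int.ofNat (nat_lit 2617025240459107776)]]]]],[[[[],[[Int.negSucc (nat_lit 3012744041215864751)]]]],[[[[Int.negSucc (nat_lit 11151308648834782403)]]]]]],[[],[[[[[Int.negSucc (nat_lit 4502525328436851623)]]]]]]],[[[[],[[[[Int.ofNat (nat_lit 10686035629425628452)]]]]]]]],[[[[],[[[[[Int.ofNat (nat_lit 38225852683854959052)]]]]]],[[[],[[[[Int.negSucc (nat_lit 6882421021773549911)]]]]]]],[[[],[[[[[Int.ofNat (nat_lit 263864029464037104)]]]]]]]],[[[[[],[[[[Int.ofNat (nat_lit 30285416039757897036)]]]]]]]]],[[[[[[],[[[],[[Int.ofNat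 (nat_lit 2457534052419942480)]]]],[[[[Int.negSucc (nat_lit 2892830283781616351)]]]]],[[[[[Int.negSucc (nat_lit 111213513806264276615)]]],[[[Int.ofNat (nat_lit 2558941452609121500)]]]]],[[[[[Int.ofNat (nat_lit 19069020812756905764)]]]]]],[[[],[[[[Int.ofNat (nat_lit 36114793776136240116)]]]]]]],[[[],[[[[[Int.negSucc (nat_lit 9548853539318235563)]]]]]]]],[[[[[],[[[[Int.ofNat (nat_lit 6946686283443822756)]]]]]],[[],[[[[[Int.negSucc (nat_lit 11523313471670362535)]]]]]]],[[[[],[[[[Int.negSucc (nat_lit 9816996804659546723)]]]]]]]],[[[[],[[[[[Int.ofNat (nat_lit 22294481945150557404)]]]]]]]]],[[[[[],[[[[[Int.negSucc (nat_lit 57690619020732061151)]]]]]],[[[],[[[[Int.ofNat (nat_lit 2975022124381732068)]]]]]]],[[[],[[[[[Int.negSucc (nat_lit 10206275178227266739)]]]]]]]],[[[[[],[[[[Int.ofNat (nat_lit 7280188398246183852)]]]]]]]]],[[[[[],[[[[[Int.negSucc (nat_lit 18139093261273803167)]]]]]]]]]]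

/-- A coefficient. -/
noncomputable def sr6_m4_1_1 : MP 10 :=
  [[[[[[[],[[[[Int.ofNat (nat_lit 63736130599715558916)],[Int.negSucc (nat_lit 9365159115211211267)]]],[[[Int.negSucc (nat_lit 28891123661831045459)]]]],[],[[[[Int.ofNat (nat_lit 2102786049993611748)]]]]],[[[[[Int.ofNat (nat_lit 0),Int.ofNat (nat_lit 9279393849474739440)]],[[Int.ofNat (nat_lit 39641262266582478636)]]]],[[[[Int.negSucc (nat_lit 46907842551931197275)]]]]],[[],[[[[Int.negSucc (nat_lit 1323501459409766075)]]]]]],[[[],[[[],[[Int.ofNat (nat_lit 72135099548871456)]]]],[[[[Int.negSucc (nat_lit 18632183979338986271)]]]]],[[[[[Int.ofNat (nat_lit 192423175577998001172)]]],[[[Int.ofNat (nat_lit 1635977082370441668)]]]]],[[[[[Int.negSucc (nat_lit 26135079936960544043)]]]]]],[[[],[[[[Int.ofNat (nat_lit 22618892639888046528)]]]]]]],[[[[],[[[[Int.negSucc (nat_lit 170259342089067832379)]]],[[[Int.ofNat (nat_lit 814545954140919792)]]]]],[[[[],[[Int.negSucc (nat_lit 627728671219924079)]]]],[[[[Int.ofNat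 (nat_lit 8086974153166130892)]]]]]],[[],[[[[[Int.negSucc (nat_lit 95356898377734439619)]]]]]]],[[[[],[[[[Int.ofNat (nat_lit 89744458576169389236)]]]]]]]],[[[[[],[[[[Int.ofNat (nat_lit 0),Int.ofNat (nat_lit 2805835438959428040)]],[[Int.ofNat (nat_lit 25878970354645673040)]]]],[[[[Int.ofNat (nat_lit 53882723066491685592)]]]]],[[[[[Int.ofNat (nat_lit 2651059181637843300)],[Int.ofNat (nat_lit 3282677713947909060)]]],[[[Int.ofNat (nat_lit 20915794046346749172)]]]]],[[[[[Int.ofNat (nat_lit 18478395994276624776)]]]]]],[[[],[[[[Int.ofNat (nat_lit 140707403457915718344)]]]]]],[[],[[[[[Int.negSucc (nat_lit 46283641273441699187)]]]]]]],[[[],[[[[[Int.ofNat (nat_lit 20845452080807013060)]]]]]],[[[],[[[[Int.ofNat (nat_lit 13300875401503900284)]]]]]]],[[[],[[[[[Int.negSucc (nat_lit 5487422387631450707)]]]]]]]],[[[[[],[[[[Int.ofNat (nat_lit 35486563571666508792)]]]]],[[],[[[[Int.ofNat (nat_lit 6840750127113144336)]]]]]],[[],[[[[[Int.ofNat (nat_lit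 90839684673879283404)]]]]]]],[[[[],[[[[Int.negSucc (nat_lit 204198340975638769499)]]]]]]]],[[[[],[[[[[Int.ofNat (nat_lit 243302510172696634740)]]]]]]]],[[[[[],[[[[Int.negSucc (nat_lit 2241289825526064491)]]]]]]]]],[[[[[[],[[[[Int.ofNat (nat_lit 98375821092583344324)],[Int.negSucc (nat_lit 11271970757323117871)]]],[[[Int.negSucc (nat_lit 22108798800812317907)]]]]],[[[[[Int.ofNat (nat_lit 0),Int.ofNat (nat_lit 11418247022701544724)]],[[Int.ofNat (nat_lit 31564257725540311632)]]]],[[[[Int.negSucc (nat_lit 87181004791835919635)]]]]]],[[],[[[[[Int.ofNat (nat_lit 280605656913442555512)]]]]]],[[[],[[[[Int.ofNat (nat_lit 26560228789197243336)]]]]]]],[[[[],[[[[Int.negSucc (nat_lit 82983592138642970687)]]]]]],[[],[[[[[Int.negSucc (nat_lit 38392211230314608879)]]]]]]],[[[[],[[[[Int.ofNat (nat_lit 57248314343369506164)]]]]]]]],[[[[[],[],[[[[Int.ofNat (nat_lit 29948118981291119628)]]]]],[[[[[Int.ofNat (nat_lit 12485720397140472576)]]]]],[[[[[Int.ofNat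 (nat_lit 31342776804962082516)]]]]]],[[[],[[[[Int.ofNat (nat_lit 126192518320327303680)]]]]]]],[[[],[[[[[Int.negSucc (nat_lit 26863846402750893479)]]]]]]]],[[[[[],[[[[Int.negSucc (nat_lit 247979950980927737519)]]]]]]]],[[[[],[[[[[Int.ofNat (nat_lit 5271554018306568564)]]]]]]]]],[[[[[[],[[[[Int.ofNat (nat_lit 79672705126811093244)]]]]],[[],[[[[Int.negSucc (nat_lit 4590928998445069823)]]]]]],[[],[[[[[Int.ofNat (nat_lit 140363752626280227456)]]]]]]],[[[[],[[[[Int.ofNat (nat_lit 36016511774460756696)]]]]]]]],[[[[],[[[[[Int.negSucc (nat_lit 76444441091125381415)]]]]]]]],[[[[[],[[[[Int.negSucc (nat_lit 10247686808631229787)]]]]]]]]],[[[[[[],[[[[Int.ofNat (nat_lit 85646658201098280348)]]]]]]]],[[[[],[[[[[Int.negSucc (nat_lit 30461389801006288151)]]]]]]]]],[[[[[[],[[[[Int.ofNat (nat_lit 32072138978004325956)]]]]]]]]]]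

/-- A coefficient. -/
noncomputable def sr6_m4_1_2 : MP 10 :=
  [[[[[[[],[[[[Int.ofNat (nat_lit 0),Int.negSucc (nat_lit 8520483845247150731)]],[[Int.negSucc (nat_lit 27898224574715664035)]]]],[[[[Int.negSucc (nat_lit 4179230755409720975)]]]]],[[[[[Int.negSucc (nat_lit 132183249198006742223)],[Int.negSucc (nat_lit 10148684694756957707)]]],[[[Int.negSucc (nat_lit 20634734044563188075)]]]]],[[[[[Int.ofNat (nat_lit 28866537441323642364)]]]]]],[[[],[[[[Int.negSucc (nat_lit 140982517237202903087)]]]]],[[],[[[[Int.negSucc (nat_lit 17453310263020856051)]]]]]],[[],[[[[[Int.ofNat (nat_lit 45152600664270975564)]]]]]]],[[[[],[],[[[[Int.negSucc (nat_lit 7470447212997620147)]]]]],[[[[[Int.negSucc (nat_lit 220381952704170400523)]]]]],[[[[[Int.negSucc (nat_lit 33774900140616951935)]]]]]],[[[],[[[[Int.ofNat (nat_lit 5503161741108485160)]]]]]]],[[[],[[[[[Int.ofNat (nat_lit 31175778076502249184)]]]]]]]],[[[[[],[[[[Int.negSucc (nat_lit 22223360832396821663)]]],[[[Int.negSucc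 (nat_lit 20843507230004130515)]]]]],[[[[],[[Int.ofNat (nat_lit 15459090690837889608)]]]],[[[[Int.negSucc (nat_lit 109182998935671198611)]]]]]],[[],[[[[[Int.negSucc (nat_lit 73057028507613113375)]]]]]]],[[[[],[[[[Int.ofNat (nat_lit 121861572504377914872)]]]]]]]],[[[[],[[[[[Int.negSucc (nat_lit 664665799360505030399)]]]]]],[[[],[[[[Int.ofNat (nat_lit 109689589797850223280)]]]]]]],[[[],[[[[[Int.ofNat (nat_lit 56159924063172438504)]]]]]]]],[[[[[],[[[[Int.negSucc (nat_lit 182746359851398345919)]]]]]]]]],[[[[[[],[[[],[[Int.negSucc (nat_lit 9807567020901775379)]]]],[[[[Int.negSucc (nat_lit 31864265949546303719)]]]]],[[[[[Int.negSucc (nat_lit 106029638145761957207)]]],[[[Int.negSucc (nat_lit 7517373609882235811)]]]]],[[[[[Int.negSucc (nat_lit 3796335117362053019)]]]]]],[[[],[[[[Int.negSucc (nat_lit 152566853397704947115)]]]]]]],[[[],[[[[[Int.negSucc (nat_lit 7999711027328841503)]]]]]]]],[[[[[],[[[[Int.ofNat (nat_lit 603567485592618143088)]]]]]],[[],[[[[[Int.ofNat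 (nat_lit 104868079875347497896)]]]]]]],[[[[],[[[[Int.ofNat (nat_lit 34078090525196835336)]]]]]]]],[[[[],[[[[[Int.negSucc (nat_lit 243594355593757603583)]]]]]]]]],[[[[[],[[[[[Int.ofNat (nat_lit 22845196615645460712)]]]]]],[[[],[[[[Int.ofNat (nat_lit 3153054645121471356)]]]]]]],[[[],[[[[[Int.ofNat (nat_lit 87350272086024863256)]]]]]]]],[[[[[],[[[[Int.ofNat (nat_lit 212521924750334894352)]]]]]]]]],[[[[[],[[[[[Int.negSucc (nat_lit 2253665017026558011)]]]]]]]]]]

/-- A coefficient. -/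
noncomputable def sr6_m4_1_3 : MP 10 :=
  [[[[[[[],[[[[Int.ofNat (nat_lit 294788549782965908064)],[Int.ofNat (nat_lit 6942960320965688544)]]],[[[Int.ofNat (nat_lit 937503804931477728)]]]]],[[[[[Int.ofNat (nat_lit 0),Int.negSucc (nat_lit 5728031585644263647)]],[[Int.ofNat (nat_lit 2488859628223183572)]]]],[[[[Int.ofNat (nat_lit 165269465183020041708)]]]]]],[[],[[[[[Int.negSucc (nat_lit 89824443222029119343)]]]]]],[[[],[[[[Int.ofNat (nat_lit 9141944759212440888)]]]]]]],[[[[],[[[[Int.ofNat (nat_lit 13969594696206748968)]]]]]],[[],[[[[[Int.negSucc (nat_lit 9884449502982432815)]]]]]]],[[[[],[[[[Int.ofNat (nat_lit 21575339534700436644)]]]]]]]],[[[[[],[],[[[[Int.negSucc (nat_lit 4993515165481561931)]]]]],[[[[[Int.ofNat (nat_lit 450820973914245438084)]]]]],[[[[[Int.negSucc (nat_lit 52433558611468977875)]]]]]],[[[],[[[[Int.negSucc (nat_lit 168109530385553464943)]]]]]]],[[[],[[[[[Int.negSucc (nat_lit 99394221414268514531)]]]]]]]],[[[[[],[[[[Int.ofNat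 (nat_lit 506589728393688026304)]]]]]]]],[[[[],[[[[[Int.ofNat (nat_lit 38174391648423141096)]]]]]]]]],[[[[[[],[[[[Int.negSucc (nat_lit 208882749401508211535)]]]]],[[],[[[[Int.ofNat (nat_lit 34789401612807767460)]]]]]],[[],[[[[[Int.negSucc (nat_lit 196867417436637553643)]]]]]]],[[[[],[[[[Int.ofNat (nat_lit 6540881441025744420)]]]]]]]],[[[[],[[[[[Int.ofNat (nat_lit 400736098906036274868)]]]]]]]],[[[[[],[[[[Int.ofNat (nat_lit 24268267628453321472)]]]]]]]]],[[[[[[],[[[[Int.negSucc (nat_lit 217553562027414199763)]]]]]]]],[[[[],[[[[[Int.ofNat (nat_lit 75305222344815306804)]]]]]]]]],[[[[[[],[[[[Int.negSucc (nat_lit 56233020473570909423)]]]]]]]]]]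

/-- A coefficient. -/
noncomputable def sr6_m4_1_4 : MP 10 :=
  [[[[[[[],[[[],[[Int.negSucc (nat_lit 7912001803271438711)]]]],[[[[Int.ofNat (nat_lit 82151601439004456580)]]]]],[[[[[Int.negSucc (nat_lit 244418797293719756123)]]],[[[Int.negSucc (nat_lit 4815619973753119343)]]]]],[[[[[Int.ofNat (nat_lit 104311024960969501224)]]]]]],[[[],[[[[Int.ofNat (nat_lit 151413117720243185316)]]]]]]],[[[],[[[[[Int.ofNat (nat_lit 214913046196800889872)]]]]]]]],[[[[[],[[[[Int.negSucc (nat_lit 462594113224007370515)]]]]]],[[],[[[[[Int.ofNat (nat_lit 107191726607394592860)]]]]]]],[[[[],[[[[Int.negSucc (nat_lit 119201561341572441527)]]]]]]]],[[[[],[[[[[Int.ofNat (nat_lit 259525751245289611320)]]]]]]]]],[[[[[],[[[[[Int.negSucc (nat_lit 556705559069485349363)]]]]]],[[[],[[[[Int.ofNat (nat_lit 16286321168201959692)]]]]]]],[[[],[[[[[Int.ofNat (nat_lit 38825673742671332136)]]]]]]]],[[[[[],[[[[Int.negSucc (nat_lit 321222255067733106467)]]]]]]]]],[[[[[],[[[[[Int.negSucc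 (nat_lit 268870578263241083207)]]]]]]]]]]

/-- A coefficient. -/
noncomputable def sr6_m4_1_5 : MP 10 :=
  [[[[[[[],[[[[Int.ofNat (nat_lit 52782282564323265984)]]]]],[[],[[[[Int.negSucc (nat_lit 17282821704846924323)]]]]]],[[],[[[[[Int.negSucc (nat_lit 34289471072361526619)]]]]]]],[[[[],[[[[Int.negSucc (nat_lit 38054509016853103595)]]]]]]]],[[[[],[[[[[Int.negSucc (nat_lit 346441568410170989963)]]]]]]]],[[[[[],[[[[Int.negSucc (nat_lit 218069514862797975455)]]]]]]]]],[[[[[[],[[[[Int.ofNat (nat_lit 175759338417047704620)]]]]]]]],[[[[],[[[[[Int.negSucc (nat_lit 231759214137811449467)]]]]]]]]],[[[[[[],[[[[Int.ofNat (nat_lit 120115436983156429896)]]]]]]]]]]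

/-- A coefficient. -/
noncomputable def sr6_m4_1_6 : MP 10 :=
  [[[[[[],[[[[[Int.ofNat (nat_lit 295330674031776078924)]]]]]],[[[],[[[[Int.negSucc (nat_lit 23318490123545735747)]]]]]]],[[[],[[[[[Int.ofNat (nat_lit 15432675889434103932)]]]]]]]],[[[[[],[[[[Int.ofNat (nat_lit 341787092539269165540)]]]]]]]]],[[[[[],[[[[[Int.ofNat (nat_lit 576800717915489619480)]]]]]]]]]]

/-- A coefficient. -/
noncomputable def sr6_m4_1_7 : MP 10 :=
  [[[[[[[],[[[[Int.negSucc (nat_lit 169383338920938984431)]]]]]]]],[[[[],[[[[[Int.ofNat (nat_lit 22669299275102399940)]]]]]]]]],[[[[[[],[[[[Int.negSucc (nat_lit 64347501636245731355)]]]]]]]]]]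

/-- A coefficient. -/
noncomputable def sr6_m4_1_8 : MP 10 :=
  [[[[[[],[[[[[Int.negSucc (nat_lit 110963552461126053383)]]]]]]]]]]

/-- A coefficient. -/
noncomputable def sr6_m4_1_9 : MP 10 :=
  [[[[[[[],[[[[Int.ofNat (nat_lit 17955235626048365460)]]]]]]]]]]

/-- A coefficient. -/
noncomputable def sr6_m4_2_0 : MP 10 :=
  [[[[[[[],[[[[Int.ofNat (nat_lit 0),Int.negSucc (nat_lit 3509332581791679275)]],[[Int.negSucc (nat_lit 5404280146757399387)]]]],[[[[Int.negSucc (nat_lit 17721972851545710563)]]]]],[[[[[Int.ofNat (nat_lit 100335491813092588092)],[Int.negSucc (nat_lit 4438686481202047679)]]],[[[Int.negSucc (nat_lit 1770112621764853055)]]]],[],[[[[Int.negSucc (nat_lit 11718663165186422603)]]]]],[[[[[Int.negSucc (nat_lit 40286383637119914335)]]]]],[[[[[Int.negSucc (nat_lit 4486910492436633395)]]]]]],[[[],[[[[Int.negSucc (nat_lit 102875805735194439347)]]],[[[Int.negSucc (nat_lit 5702039930971522583)]]]]],[[[[],[[Int.ofNat (nat_lit 6870430471083211236)]]]],[[[[Int.ofNat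 (nat_lit 18007617087579589932)]]]]]],[[],[[[[[Int.ofNat (nat_lit 35956686382125872532)]]]]]]],[[[[],[[[],[[Int.negSucc (nat_lit 9766344093510862031)]]]],[[[[Int.ofNat (nat_lit 34360175675816618556)]]]]],[[[[[Int.negSucc (nat_lit 39718963185182226443)]]],[[[Int.negSucc (nat_lit 7975863306255868403)]]]]],[[[[[Int.ofNat (nat_lit 34369476667128632856)]]]]]],[[[],[[[[Int.ofNat (nat_lit 1635561016236610836)]]]]]]],[[[],[[[[[Int.ofNat (nat_lit 19616554636761018840)]]]]]]]],[[[[[],[[[[Int.ofNat (nat_lit 141959419106089507812)],[Int.ofNat (nat_lit 8086082313426851436)]]],[[[Int.ofNat (nat_lit 4532149946979871632)]]]]],[[[[[Int.ofNat (nat_lit 0),Int.negSucc (nat_lit 7821129681071889899)]],[[Int.ofNat (nat_lit 5784957759511995636)]]]],[[[[Int.ofNat (nat_lit 177146440689332796924)]]]]]],[[],[[[[[Int.ofNat (nat_lit 103393863087096298524)]]]]]],[[[],[[[[Int.negSucc (nat_lit 1517263987698870083)]]]]]]],[[[[],[[[[Int.negSucc (nat_lit 27615858957945031199)]]]]]],[[],[[[[[Int.negSucc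 (nat_lit 5756513028786424655)]]]]]]],[[[[],[[[[Int.negSucc (nat_lit 137080626271529207)]]]]]]]],[[[[[],[],[[[[Int.ofNat (nat_lit 7427148699167600664)]]]]],[[[[[Int.negSucc (nat_lit 66040352461657565651)]]]]],[[[[[Int.ofNat (nat_lit 6007490303895730056)]]]]]],[[[],[[[[Int.negSucc (nat_lit 78554343658694131871)]]]]]]],[[[],[[[[[Int.negSucc (nat_lit 113844024722115155951)]]]]]]]],[[[[[],[[[[Int.ofNat (nat_lit 51236334827863649940)]]]]]]]],[[[[],[[[[[Int.negSucc (nat_lit 1466222786945610623)]]]]]]]]],[[[[[[],[[[[Int.ofNat (nat_lit 0),Int.ofNat (nat_lit 970810266744816480)]],[[Int.negSucc (nat_lit 6849742164833424827)]]]],[[[[Int.ofNat (nat_lit 19465033770439464216)]]]]],[[[[[Int.ofNat (nat_lit 285518139960096313452)],[Int.ofNat (nat_lit 1294017538891746852)]]],[[[Int.negSucc (nat_lit 1903164368971568063)]]]]],[[[[[Int.negSucc (nat_lit 39295760156454911447)]]]]]],[[[],[[[[Int.negSucc (nat_lit 169828876127901071183)]]]]]],[[],[[[[[Int.ofNat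 (nat_lit 12795248093034882360)]]]]]]],[[[],[[[[[Int.negSucc (nat_lit 61987899514473668927)]]]]]],[[[],[[[[Int.ofNat (nat_lit 22297228861911938016)]]]]]]],[[[],[[[[[Int.ofNat (nat_lit 35004673552761477432)]]]]]]]],[[[[[],[[[[Int.ofNat (nat_lit 154704859743554788068)]]]]],[[],[[[[Int.ofNat (nat_lit 10559951294577515856)]]]]]],[[],[[[[[Int.negSucc (nat_lit 62142251950257268547)]]]]]]],[[[[],[[[[Int.ofNat (nat_lit 1287629179889655468)]]]]]]]],[[[[],[[[[[Int.negSucc (nat_lit 28287443207071967255)]]]]]]]],[[[[[],[[[[Int.negSucc (nat_lit 37623415037327564567)]]]]]]]]],[[[[[[],[],[[[[Int.ofNat (nat_lit 11196561472664025612)]]]]],[[[[[Int.ofNat (nat_lit 292941469457449449528)]]]]],[[[[[Int.negSucc (nat_lit 4555639361589234671)]]]]]],[[[],[[[[Int.negSucc (nat_lit 31177288444750850123)]]]]]]],[[[],[[[[[Int.negSucc (nat_lit 12876707908760780519)]]]]]]]],[[[[[],[[[[Int.negSucc (nat_lit 12753041293499430911)]]]]]]]],[[[[],[[[[[Int.negSucc (nat_lit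 15427474389329897663)]]]]]]]]],[[[[[],[[[[[Int.ofNat (nat_lit 133644547575654643428)]]]]]]]],[[[[[],[[[[Int.negSucc (nat_lit 10501886585206973543)]]]]]]]]],[[[[[],[[[[[Int.ofNat (nat_lit 13681920031282056588)]]]]]]]]]]

/-- A coefficient. -/
noncomputable def sr6_m4_2_1 : MP 10 :=
  [[[[[[[],[[[[Int.negSucc (nat_lit 158292693799423127519)],[Int.ofNat (nat_lit 6320625421032858180)]]],[[[Int.ofNat (nat_lit 29224193668060202784)]]]]],[[[[[Int.ofNat (nat_lit 0),Int.negSucc (nat_lit 7137980529739861955)]],[[Int.negSucc (nat_lit 25793952801980690123)]]]],[[[[Int.ofNat (nat_lit 71302933656924920088)]]]]]],[[[],[],[[[[Int.ofNat (nat_lit 24795650840755519980)]]]]],[[[[[Int.negSucc (nat_lit 298866465258599225807)]]]]],[[[[[Int.ofNat (nat_lit 32007740449895550552)]]]]]],[[[],[[[[Int.negSucc (nat_lit 63241795409137854407)]]]]]]],[[[[],[[[[Int.ofNat (nat_lit 288824216744211866616)]]]]],[[],[[[[Int.negSucc (nat_lit 5974652244622315451)]]]]]],[[],[[[[[Int.negSucc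 (nat_lit 16707057407055213335)]]]]]]],[[[[],[[[[Int.negSucc (nat_lit 32050864903997895035)]]]]]]]],[[[[[],[[[],[[Int.negSucc (nat_lit 16360527312449168063)]]]],[[[[Int.ofNat (nat_lit 23668081940919391128)]]]]],[[[[[Int.ofNat (nat_lit 158294094447089158932)]]],[[[Int.negSucc (nat_lit 20740734965851139447)]]]]],[[[[[Int.ofNat (nat_lit 87637332920957034228)]]]]]],[[[],[[[[Int.negSucc (nat_lit 182052029938466409395)]]]]]]],[[[],[[[[[Int.ofNat (nat_lit 35639736870585212964)]]]]]]]],[[[[[],[[[[Int.ofNat (nat_lit 105669378787872711696)]]]]]],[[],[[[[[Int.negSucc (nat_lit 43658329189804847039)]]]]]]],[[[[],[[[[Int.ofNat (nat_lit 179650244894512810500)]]]]]]]],[[[[],[[[[[Int.negSucc (nat_lit 519353512680526604015)]]]]]]]]],[[[[[[],[[[[Int.negSucc (nat_lit 44539201185180921719)]]],[[[Int.ofNat (nat_lit 16863260762128912284)]]]]],[[[[],[[Int.negSucc (nat_lit 15235657081711826087)]]]],[[[[Int.ofNat (nat_lit 65923911397482267120)]]]]]],[[],[[[[[Int.negSucc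 (nat_lit 234820746910403920667)]]]]]]],[[[[],[[[[Int.ofNat (nat_lit 3161444723903301372)]]]]]]]],[[[[],[[[[[Int.negSucc (nat_lit 226725602493206270207)]]]]]],[[[],[[[[Int.negSucc (nat_lit 104749228311960456839)]]]]]]],[[[],[[[[[Int.ofNat (nat_lit 60342689848551880248)]]]]]]]],[[[[[],[[[[Int.ofNat (nat_lit 497517557793699312516)]]]]]]]]],[[[[[[],[[[[Int.ofNat (nat_lit 201809797019505305676)]]]]]],[[],[[[[[Int.negSucc (nat_lit 72383025939422564243)]]]]]]],[[[[],[[[[Int.negSucc (nat_lit 54610331289885038783)]]]]]]]],[[[[],[[[[[Int.negSucc (nat_lit 193516435180187683727)]]]]]]]]],[[[[[[],[[[[Int.ofNat (nat_lit 119993093261897244528)]]]]]]]]]]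

/-- A coefficient. -/
noncomputable def sr6_m4_2_2 : MP 10 :=
  [[[[[[[],[[[[Int.ofNat (nat_lit 0),Int.ofNat (nat_lit 4384571986225406808)]],[[Int.ofNat (nat_lit 6631052416901946396)]]]],[[[[Int.negSucc (nat_lit 200210108076031243379)]]]]],[[[[[Int.ofNat (nat_lit 465128112974542640244)],[Int.ofNat (nat_lit 5168924556912910440)]]],[[[Int.ofNat (nat_lit 17775015071215935792)]]]]],[[[[[Int.negSucc (nat_lit 217221058900044630203)]]]]]],[[[],[[[[Int.ofNat (nat_lit 272015206293783659004)]]]]]],[[],[[[[[Int.ofNat (nat_lit 18339345897022794360)]]]]]]],[[[],[[[[[Int.ofNat (nat_lit 282121555129728958980)]]]]]],[[[],[[[[Int.negSucc (nat_lit 27174032247069918503)]]]]]]],[[[],[[[[[Int.negSucc (nat_lit 11394568683413986043)]]]]]]]],[[[[[],[[[[Int.negSucc (nat_lit 730491918203865869783)]]]]],[[],[[[[Int.ofNat (nat_lit 39500413745222531688)]]]]]],[[],[[[[[Int.negSucc (nat_lit 200459305569345484439)]]]]]]],[[[[],[[[[Int.ofNat (nat_lit 328567958905663195848)]]]]]]]],[[[[],[[[[[Int.ofNat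 (nat_lit 1002646374497883502596)]]]]]]]],[[[[[],[[[[Int.ofNat (nat_lit 177427527033006894180)]]]]]]]]],[[[[[[],[],[[[[Int.negSucc (nat_lit 12678424728216736643)]]]]],[[[[[Int.ofNat (nat_lit 565509731521540291524)]]]]],[[[[[Int.negSucc (nat_lit 53101193398432935191)]]]]]],[[[],[[[[Int.ofNat (nat_lit 316773080964023941476)]]]]]]],[[[],[[[[[Int.ofNat (nat_lit 171725865885206425680)]]]]]]]],[[[[[],[[[[Int.negSucc (nat_lit 872037300402385208543)]]]]]]]],[[[[],[[[[[Int.ofNat (nat_lit 173783336665020889992)]]]]]]]]],[[[[[],[[[[[Int.ofNat (nat_lit 312952390982768747796)]]]]]]]],[[[[[],[[[[Int.negSucc (nat_lit 106022274972453474407)]]]]]]]]],[[[[[],[[[[[Int.negSucc (nat_lit 14479788287951860883)]]]]]]]]]]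

/-- A coefficient. -/
noncomputable def sr6_m4_2_3 : MP 10 :=
  [[[[[[[],[[[[Int.negSucc (nat_lit 226708275886573958039)]]],[[[Int.ofNat (nat_lit 20543160736697516580)]]]]],[[[[],[[Int.negSucc (nat_lit 18165692150995116815)]]]],[[[[Int.negSucc (nat_lit 46843374057247213919)]]]]]],[[],[[[[[Int.ofNat (nat_lit 209008049326893199764)]]]]]]],[[[[],[[[[Int.negSucc (nat_lit 266210427695365076435)]]]]]]]],[[[[],[[[[[Int.negSucc (nat_lit 427749211297429252259)]]]]]],[[[],[[[[Int.negSucc (nat_lit 132583975310374516283)]]]]]]],[[[],[[[[[Int.negSucc (nat_lit 107673464993910858431)]]]]]]]],[[[[[],[[[[Int.negSucc (nat_lit 61915325222978533667)]]]]]]]]],[[[[[[],[[[[Int.negSucc (nat_lit 53302349159475932039)]]]]]],[[],[[[[[Int.ofNat (nat_lit 24329491427658427440)]]]]]]],[[[[],[[[[Int.ofNat (nat_lit 7824480023043458496)]]]]]]]],[[[[],[[[[[Int.ofNat (nat_lit 300433738436079442344)]]]]]]]]],[[[[[[],[[[[Int.negSucc (nat_lit 241732420216361651375)]]]]]]]]]]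

/-- A coefficient. -/
noncomputable def sr6_m4_2_4 : MP 10 :=
  [[[[[[[],[],[[[[Int.negSucc (nat_lit 73979967527945835491)]]]]],[[[[[Int.negSucc (nat_lit 127840308912079864739)]]]]],[[[[[Int.negSucc (nat_lit 38285250813738034451)]]]]]],[[[],[[[[Int.ofNat (nat_lit 24360261672720229896)]]]]]]],[[[],[[[[[Int.negSucc (nat_lit 184109835682712686235)]]]]]]]],[[[[[],[[[[Int.negSucc (nat_lit 229794288863954445479)]]]]]]]],[[[[],[[[[[Int.negSucc (nat_lit 353565292489157933831)]]]]]]]]],[[[[[],[[[[[Int.negSucc (nat_lit 615070390670818072859)]]]]]]]],[[[[[],[[[[Int.ofNat (nat_lit 189594416637867051396)]]]]]]]]],[[[[[],[[[[[Int.negSucc (nat_lit 22166360956138160087)]]]]]]]]]]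

/-- A coefficient. -/
noncomputable def sr6_m4_2_5 : MP 10 :=
  [[[[[[[],[[[[Int.ofNat (nat_lit 511419788211879815328)]]]]]],[[],[[[[[Int.negSucc (nat_lit 115514338609360528499)]]]]]]],[[[[],[[[[Int.ofNat (nat_lit 100695594308494756752)]]]]]]]],[[[[],[[[[[Int.ofNat (nat_lit 5860021238180204520)]]]]]]]]],[[[[[[],[[[[Int.ofNat (nat_lit 243725361666757327704)]]]]]]]]]]

/-- A coefficient. -/
noncomputable def sr6_m4_2_6 : MP 10 :=
  [[[[[[],[[[[[Int.negSucc (nat_lit 206096672904742467131)]]]]]]]],[[[[[],[[[[Int.ofNat (nat_lit 176451755873964613056)]]]]]]]]],[[[[[],[[[[[Int.negSucc (nat_lit 272990412770225464943)]]]]]]]]]]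

/-- A coefficient. -/
noncomputable def sr6_m4_2_7 : MP 10 :=
  [[[[[[[],[[[[Int.negSucc (nat_lit 26672520796998656891)]]]]]]]]]]

/-- A coefficient. -/
noncomputable def sr6_m4_2_8 : MP 10 :=
  [[[[[[],[[[[[Int.ofNat (nat_lit 8872467598150335384)]]]]]]]]]]

/-- A coefficient. -/
noncomputable def sr6_m4_3_0 : MP 10 :=
  [[[[[[[],[[[[Int.ofNat (nat_lit 0),Int.negSucc (nat_lit 366865242879560999)]],[[Int.ofNat (nat_lit 2146683900353855268)]]]],[[[[Int.ofNat (nat_lit 19925875601420299500)]]]]],[[[[[Int.negSucc (nat_lit 158777394896141126135)],[Int.negSucc (nat_lit 1309464995683926239)]]],[[[Int.ofNat (nat_lit 5438610548077154988)]]]]],[[[[[Int.ofNat (nat_lit 76235409567111562320)]]]]]],[[[],[[[[Int.ofNat (nat_lit 234293987374056585276)]]]]],[[],[[[[Int.negSucc (nat_lit 10177228114392194783)]]]]]],[[],[[[[[Int.negSucc (nat_lit 17268707380269145907)]]]]]]],[[[[],[],[[[[Int.negSucc (nat_lit 29480175448933417883)]]]]],[[[[[Int.ofNat (nat_lit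 63169714822622260248)]]]]],[[[[[Int.negSucc (nat_lit 41877499882426694771)]]]]]],[[[],[[[[Int.negSucc (nat_lit 9886518597990186083)]]]]]]],[[[],[[[[[Int.ofNat (nat_lit 10233736205748900216)]]]]]]]],[[[[[],[[[[Int.negSucc (nat_lit 121478327213631030707)]]],[[[Int.negSucc (nat_lit 4248117079644545495)]]]]],[[[[],[[Int.negSucc (nat_lit 1517087452205157971)]]]],[[[[Int.negSucc (nat_lit 168698450526109374227)]]]]]],[[],[[[[[Int.negSucc (nat_lit 88937004088665345659)]]]]]]],[[[[],[[[[Int.negSucc (nat_lit 73007210715059330087)]]]]]]]],[[[[],[[[[[Int.ofNat (nat_lit 56091473831683291176)]]]]]],[[[],[[[[Int.ofNat (nat_lit 73155727918103328420)]]]]]]],[[[],[[[[[Int.ofNat (nat_lit 87859122713443965384)]]]]]]]],[[[[[],[[[[Int.negSucc (nat_lit 76060064954582921075)]]]]]]]]],[[[[[[],[[[],[[Int.ofNat (nat_lit 4202913323658747384)]]]],[[[[Int.negSucc (nat_lit 23614330894693115855)]]]]],[[[[[Int.negSucc (nat_lit 428864845911286058375)]]],[[[Int.ofNat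 (nat_lit 614462926193024208)]]]]],[[[[[Int.ofNat (nat_lit 3190214612980171656)]]]]]],[[[],[[[[Int.ofNat (nat_lit 188274703950971538840)]]]]]]],[[[],[[[[[Int.ofNat (nat_lit 65711009153361304968)]]]]]]]],[[[[[],[[[[Int.negSucc (nat_lit 97051442136993293579)]]]]]],[[],[[[[[Int.ofNat (nat_lit 53753922784652211012)]]]]]]],[[[[],[[[[Int.negSucc (nat_lit 4192505935145086079)]]]]]]]],[[[[],[[[[[Int.ofNat (nat_lit 19147121980131886812)]]]]]]]]],[[[[[],[[[[[Int.negSucc (nat_lit 351641931181360556723)]]]]]],[[[],[[[[Int.ofNat (nat_lit 3335308113639213468)]]]]]]],[[[],[[[[[Int.ofNat (nat_lit 10285621768939552416)]]]]]]]],[[[[[],[[[[Int.ofNat (nat_lit 17205790785570076728)]]]]]]]]],[[[[[],[[[[[Int.negSucc (nat_lit 71857353638365049339)]]]]]]]]]]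

/-- A coefficient. -/
noncomputable def sr6_m4_3_1 : MP 10 :=
  [[[[[[[],[[[[Int.ofNat (nat_lit 197116675114732222584)],[Int.ofNat (nat_lit 6652906383809479776)]]],[[[Int.ofNat (nat_lit 2674890016005263784)]]]]],[[[[[Int.ofNat (nat_lit 0),Int.negSucc (nat_lit 6620243691975516107)]],[[Int.negSucc (nat_lit 24560930383212066419)]]]],[[[[Int.negSucc (nat_lit 51309393989411161019)]]]]]],[[],[[[[[Int.ofNat (nat_lit 95772405218545113912)]]]]]],[[[],[[[[Int.ofNat (nat_lit 10830832633098430008)]]]]]]],[[[[],[[[[Int.negSucc (nat_lit 237149311388696528783)]]]]]],[[],[[[[[Int.ofNat (nat_lit 45607788071986661376)]]]]]]],[[[[],[[[[Int.negSucc (nat_lit 39003405299252795459)]]]]]]]],[[[[[],[],[[[[Int.negSucc (nat_lit 46345667381805845843)]]]]],[[[[[Int.negSucc (nat_lit 652176350421372181511)]]]]],[[[[[Int.negSucc (nat_lit 70718922135610125743)]]]]]],[[[],[[[[Int.ofNat (nat_lit 162249254078767885296)]]]]]]],[[[],[[[[[Int.ofNat (nat_lit 211352638941515099328)]]]]]]]],[[[[[],[[[[Int.negSucc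 (nat_lit 190223537849433043463)]]]]]]]],[[[[],[[[[[Int.ofNat (nat_lit 278147568419110731264)]]]]]]]]],[[[[[[],[[[[Int.negSucc (nat_lit 39557856448919029319)]]]]],[[],[[[[Int.negSucc (nat_lit 14202456251331492011)]]]]]],[[],[[[[[Int.ofNat (nat_lit 22137356834505978876)]]]]]]],[[[[],[[[[Int.negSucc (nat_lit 112361557666020962075)]]]]]]]],[[[[],[[[[[Int.negSucc (nat_lit 64127744274515920163)]]]]]]]],[[[[[],[[[[Int.negSucc (nat_lit 250112789082045920087)]]]]]]]]],[[[[[[],[[[[Int.negSucc (nat_lit 260336866611414679055)]]]]]]]],[[[[],[[[[[Int.ofNat (nat_lit 152182567514564204208)]]]]]]]]],[[[[[[],[[[[Int.negSucc (nat_lit 129338202973602938447)]]]]]]]]]]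

/-- A coefficient. -/
noncomputable def sr6_m4_3_2 : MP 10 :=
  [[[[[[[],[[[],[[Int.ofNat (nat_lit 9986178878016445848)]]]],[[[[Int.ofNat (nat_lit 235136576876634596136)]]]]],[[[[[Int.negSucc (nat_lit 696144137775116076419)]]],[[[Int.ofNat (nat_lit 7696851820989729828)]]]]],[[[[[Int.ofNat (nat_lit 95923605449423679900)]]]]]],[[[],[[[[Int.negSucc (nat_lit 209346801946630359215)]]]]]]],[[[],[[[[[Int.negSucc (nat_lit 290382289163852031011)]]]]]]]],[[[[[],[[[[Int.ofNat (nat_lit 1061841615093166948932)]]]]]],[[],[[[[[Int.ofNat (nat_lit 136654006881917335968)]]]]]]],[[[[],[[[[Int.negSucc (nat_lit 443432861168305978955)]]]]]]]],[[[[],[[[[[Int.ofNat (nat_lit 324679145100043931868)]]]]]]]]],[[[[[],[[[[[Int.negSucc (nat_lit 454845923356704936671)]]]]]],[[[],[[[[Int.negSucc (nat_lit 182717016750876181619)]]]]]]],[[[],[[[[[Int.negSucc (nat_lit 297616613448688736003)]]]]]]]],[[[[[],[[[[Int.negSucc (nat_lit 271860651359345035943)]]]]]]]]],[[[[[],[[[[[Int.negSucc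 (nat_lit 284515080018775894307)]]]]]]]]]]

/-- A coefficient. -/
noncomputable def sr6_m4_3_3 : MP 10 :=
  [[[[[[[],[[[[Int.ofNat (nat_lit 325695834487884689316)]]]]],[[],[[[[Int.negSucc (nat_lit 8149749835929528347)]]]]]],[[],[[[[[Int.ofNat (nat_lit 78481244446721284812)]]]]]]],[[[[],[[[[Int.ofNat (nat_lit 105924505878584410956)]]]]]]]],[[[[],[[[[[Int.negSucc (nat_lit 652711973759197203575)]]]]]]]],[[[[[],[[[[Int.negSucc (nat_lit 221250789314600774279)]]]]]]]]],[[[[[[],[[[[Int.ofNat (nat_lit 989331176258770508064)]]]]]]]],[[[[],[[[[[Int.negSucc (nat_lit 519055180929669192227)]]]]]]]]],[[[[[[],[[[[Int.ofNat (nat_lit 414107895102501014220)]]]]]]]]]]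

/-- A coefficient. -/
noncomputable def sr6_m4_3_4 : MP 10 :=
  [[[[[[],[[[[[Int.ofNat (nat_lit 1570279641036164010312)]]]]]],[[[],[[[[Int.ofNat (nat_lit 95750506516371009468)]]]]]]],[[[],[[[[[Int.ofNat (nat_lit 146766347581581603372)]]]]]]]],[[[[[],[[[[Int.ofNat (nat_lit 23690028439058091396)]]]]]]]]],[[[[[],[[[[[Int.ofNat (nat_lit 1408343559085215939132)]]]]]]]]]]

/-- A coefficient. -/
noncomputable def sr6_m4_3_5 : MP 10 :=
  [[[[[[[],[[[[Int.negSucc (nat_lit 675850285178939206019)]]]]]]]],[[[[],[[[[[Int.ofNat (nat_lit 564560580867634770900)]]]]]]]]],[[[[[[],[[[[Int.negSucc (nat_lit 466596471108446593391)]]]]]]]]]]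

/-- A coefficient. -/
noncomputable def sr6_m4_3_6 : MP 10 :=
  [[[[[[],[[[[[Int.negSucc (nat_lit 256832407774251046547)]]]]]]]]]]

/-- A coefficient. -/
noncomputable def sr6_m4_3_7 : MP 10 :=
  [[[[[[[],[[[[Int.negSucc (nat_lit 32494721790292230995)]]]]]]]]]]

/-- A coefficient. -/
noncomputable def sr6_m4_4_0 : MP 10 :=
  [[[[[[[],[[[[Int.ofNat (nat_lit 0),Int.ofNat (nat_lit 699635211779930040)]],[[Int.ofNat (nat_lit 9642102922661351016)]]]],[[[[Int.negSucc (nat_lit 10882353532281622799)]]]]],[[[[[Int.ofNat (nat_lit 149913840812000120880)],[Int.ofNat (nat_lit 854330734243412460)]]],[[[Int.negSucc (nat_lit 196233990321243983)]]]]],[[[[[Int.negSucc (nat_lit 24781983151024979879)]]]]]],[[[],[[[[Int.negSucc (nat_lit 217541383768305771599)]]]]]],[[],[[[[[Int.negSucc (nat_lit 8403481413269824739)]]]]]]],[[[],[[[[[Int.negSucc (nat_lit 106298037316709158199)]]]]]],[[[],[[[[Int.negSucc (nat_lit 7550117354437918835)]]]]]]],[[[],[[[[[Int.negSucc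 (nat_lit 31471345265336013023)]]]]]]]],[[[[[],[[[[Int.negSucc (nat_lit 286619503712372302571)]]]]],[[],[[[[Int.ofNat (nat_lit 55955337453598160496)]]]]]],[[],[[[[[Int.ofNat (nat_lit 64509172044915338292)]]]]]]],[[[[],[[[[Int.ofNat (nat_lit 114759904413791551404)]]]]]]]],[[[[],[[[[[Int.negSucc (nat_lit 5155465233155408987)]]]]]]]],[[[[[],[[[[Int.ofNat (nat_lit 33480693649217421804)]]]]]]]]],[[[[[[],[],[[[[Int.ofNat (nat_lit 17915204685445580424)]]]]],[[[[[Int.ofNat (nat_lit 143623288364827097760)]]]]],[[[[[Int.ofNat (nat_lit 34659308186257762380)]]]]]],[[[],[[[[Int.negSucc (nat_lit 99579619827844517939)]]]]]]],[[[],[[[[[Int.negSucc (nat_lit 64517110535995074611)]]]]]]]],[[[[[],[[[[Int.negSucc (nat_lit 234821426117914719983)]]]]]]]],[[[[],[[[[[Int.negSucc (nat_lit 21521093579336231531)]]]]]]]]],[[[[[],[[[[[Int.negSucc (nat_lit 31433337318988360211)]]]]]]]],[[[[[],[[[[Int.negSucc (nat_lit 22342879291905353027)]]]]]]]]],[[[[[],[[[[[Int.negSucc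 (nat_lit 21202242746529240383)]]]]]]]]]]

/-- A coefficient. -/
noncomputable def sr6_m4_4_1 : MP 10 :=
  [[[[[[[],[[[[Int.ofNat (nat_lit 58638407438848884816)]]],[[[Int.negSucc (nat_lit 18013693769289673091)]]]]],[[[[],[[Int.ofNat (nat_lit 23892193475243332560)]]]],[[[[Int.ofNat (nat_lit 37210481766406316904)]]]]]],[[],[[[[[Int.ofNat (nat_lit 129494003504326785948)]]]]]]],[[[[],[[[[Int.ofNat (nat_lit 120231327359680559052)]]]]]]]],[[[[],[[[[[Int.ofNat (nat_lit 669776605007319041268)]]]]]],[[[],[[[[Int.negSucc (nat_lit 45420832265845009943)]]]]]]],[[[],[[[[[Int.negSucc (nat_lit 219393963135698752055)]]]]]]]],[[[[[],[[[[Int.negSucc (nat_lit 156827619119069345807)]]]]]]]]],[[[[[[],[[[[Int.ofNat (nat_lit 78470250804744425580)]]]]]],[[],[[[[[Int.ofNat (nat_lit 30176752903526756796)]]]]]]],[[[[],[[[[Int.ofNat (nat_lit 187936380188703575940)]]]]]]]],[[[[],[[[[[Int.ofNat (nat_lit 296226888705686018844)]]]]]]]]],[[[[[[],[[[[Int.negSucc (nat_lit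 96308095954598157347)]]]]]]]]]]

/-- A coefficient. -/
noncomputable def sr6_m4_4_2 : MP 10 :=
  [[[[[[[],[],[[[[Int.negSucc (nat_lit 63044635355131118291)]]]]],[[[[[Int.ofNat (nat_lit 346395698686248525732)]]]]],[[[[[Int.ofNat (nat_lit 59079130013483151828)]]]]]],[[[],[[[[Int.negSucc (nat_lit 185197170289675977251)]]]]]]],[[[],[[[[[Int.negSucc (nat_lit 40799761001365064507)]]]]]]]],[[[[[],[[[[Int.ofNat (nat_lit 258640606404160573020)]]]]]]]],[[[[],[[[[[Int.negSucc (nat_lit 645379567489161004103)]]]]]]]]],[[[[[],[[[[[Int.negSucc (nat_lit 187619108113603210571)]]]]]]]],[[[[[],[[[[Int.ofNat (nat_lit 608599488463192287624)]]]]]]]]],[[[[[],[[[[[Int.ofNat (nat_lit 160044691518595883376)]]]]]]]]]]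

/-- A coefficient. -/
noncomputable def sr6_m4_4_3 : MP 10 :=
  [[[[[[[],[[[[Int.negSucc (nat_lit 459042451990957907027)]]]]]],[[],[[[[[Int.negSucc (nat_lit 86442311729352369887)]]]]]]],[[[[],[[[[Int.ofNat (nat_lit 68791950795718730376)]]]]]]]],[[[[],[[[[[Int.negSucc (nat_lit 446928982030976405855)]]]]]]]]],[[[[[[],[[[[Int.ofNat (nat_lit 16404166110557406672)]]]]]]]]]]

/-- A coefficient. -/
noncomputable def sr6_m4_4_4 : MP 10 :=
  [[[[[[],[[[[[Int.negSucc (nat_lit 1115993877671314251083)]]]]]]]],[[[[[],[[[[Int.ofNat (nat_lit 92329116080763387252)]]]]]]]]],[[[[[],[[[[[Int.negSucc (nat_lit 473934148664570517311)]]]]]]]]]]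

/-- A coefficient. -/
noncomputable def sr6_m4_4_5 : MP 10 :=
  [[[[[[[],[[[[Int.ofNat (nat_lit 516452644629516700344)]]]]]]]]]]

/-- A coefficient. -/
noncomputable def sr6_m4_4_6 : MP 10 :=
  [[[[[[],[[[[[Int.ofNat (nat_lit 34575665303529176412)]]]]]]]]]]

/-- A coefficient. -/
noncomputable def sr6_m4_5_0 : MP 10 :=
  [[[[[[[],[[[],[[Int.negSucc (nat_lit 9734755818429824819)]]]],[[[[Int.ofNat (nat_lit 20424086965667091228)]]]]],[[[[[Int.ofNat (nat_lit 5340651875079082596)]]],[[[Int.negSucc (nat_lit 5214987246676012847)]]]]],[[[[[Int.negSucc (nat_lit 2989481046753780503)]]]]]],[[[],[[[[Int.ofNat (nat_lit 25423413275067347088)]]]]]]],[[[],[[[[[Int.ofNat (nat_lit 77356003993569068388)]]]]]]]],[[[[[],[[[[Int.ofNat (nat_lit 515671273138173340656)]]]]]],[[],[[[[[Int.negSucc (nat_lit 30152978264129784191)]]]]]]],[[[[],[[[[Int.negSucc (nat_lit 25938981106119313859)]]]]]]]],[[[[],[[[[[Int.negSucc (nat_lit 27629781859401856499)]]]]]]]]],[[[[[],[[[[[Int.ofNat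 (nat_lit 381499440270879877248)]]]]]],[[[],[[[[Int.ofNat (nat_lit 42764928109404197688)]]]]]]],[[[],[[[[[Int.ofNat (nat_lit 66891702825988966800)]]]]]]]],[[[[[],[[[[Int.ofNat (nat_lit 270165861434927209332)]]]]]]]]],[[[[[],[[[[[Int.ofNat (nat_lit 241795779180790460136)]]]]]]]]]]

/-- A coefficient. -/
noncomputable def sr6_m4_5_1 : MP 10 :=
  [[[[[[[],[[[[Int.negSucc (nat_lit 393549858398163314987)]]]]],[[],[[[[Int.negSucc (nat_lit 17075753786299307903)]]]]]],[[],[[[[[Int.negSucc (nat_lit 178248915149753177171)]]]]]]],[[[[],[[[[Int.ofNat (nat_lit 70754306487869128284)]]]]]]]],[[[[],[[[[[Int.ofNat (nat_lit 345615549507978210060)]]]]]]]],[[[[[],[[[[Int.ofNat (nat_lit 254536408286706449892)]]]]]]]]],[[[[[[],[[[[Int.negSucc (nat_lit 180404604913101155003)]]]]]]]],[[[[],[[[[[Int.negSucc (nat_lit 15798960324448856039)]]]]]]]]],[[[[[[],[[[[Int.ofNat (nat_lit 112870628149424630868)]]]]]]]]]]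

/-- A coefficient. -/
noncomputable def sr6_m4_5_2 : MP 10 :=
  [[[[[[],[[[[[Int.ofNat (nat_lit 361595543804457205584)]]]]]],[[[],[[[[Int.ofNat (nat_lit 167432696269293155052)]]]]]]],[[[],[[[[[Int.ofNat (nat_lit 171056975407261238436)]]]]]]]],[[[[[],[[[[Int.negSucc (nat_lit 444135567921432121019)]]]]]]]]],[[[[[],[[[[[Int.ofNat (nat_lit 662339548657491055548)]]]]]]]]]]

/-- A coefficient. -/
noncomputable def sr6_m4_5_3 : MP 10 :=
  [[[[[[[],[[[[Int.negSucc (nat_lit 484477050449128413143)]]]]]]]],[[[[],[[[[[Int.ofNat (nat_lit 909822648440853732336)]]]]]]]]],[[[[[[],[[[[Int.negSucc (nat_lit 777552141460728823031)]]]]]]]]]]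

/-- A coefficient. -/
noncomputable def sr6_m4_5_4 : MP 10 :=
  [[[[[[],[[[[[Int.negSucc (nat_lit 141322105333562699867)]]]]]]]]]]

/-- A coefficient. -/
noncomputable def sr6_m4_5_5 : MP 10 :=
  [[[[[[[],[[[[Int.negSucc (nat_lit 38152128397923418343)]]]]]]]]]]

/-- A coefficient. -/
noncomputable def sr6_m4_6_0 : MP 10 :=
  [[[[[[[],[],[[[[Int.negSucc (nat_lit 19582566482611215911)]]]]],[[[[[Int.negSucc (nat_lit 116017519007480109947)]]]]],[[[[[Int.negSucc (nat_lit 16327163807238750011)]]]]]],[[[],[[[[Int.ofNat (nat_lit 80167877112402125604)]]]]]]],[[[],[[[[[Int.ofNat (nat_lit 21439640621912994972)]]]]]]]],[[[[[],[[[[Int.negSucc (nat_lit 118662843649225414523)]]]]]]]],[[[[],[[[[[Int.ofNat (nat_lit 28559180911197493368)]]]]]]]]],[[[[[],[[[[[Int.negSucc (nat_lit 265396781540133737963)]]]]]]]],[[[[[],[[[[Int.negSucc (nat_lit 77259664137452198231)]]]]]]]]],[[[[[],[[[[[Int.negSucc (nat_lit 84547225034477613611)]]]]]]]]]]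

/-- A coefficient. -/
noncomputable def sr6_m4_6_1 : MP 10 :=
  [[[[[[[],[[[[Int.ofNat (nat_lit 260855850048651362472)]]]]]],[[],[[[[[Int.ofNat (nat_lit 59722657733445900732)]]]]]]],[[[[],[[[[Int.negSucc (nat_lit 117076297643527285427)]]]]]]]],[[[[],[[[[[Int.negSucc (nat_lit 661801102289581319519)]]]]]]]]],[[[[[[],[[[[Int.ofNat (nat_lit 192439442831374998120)]]]]]]]]]]

/-- A coefficient. -/
noncomputable def sr6_m4_6_2 : MP 10 :=
  [[[[[[],[[[[[Int.negSucc (nat_lit 721620914211239280611)]]]]]]]],[[[[[],[[[[Int.negSucc (nat_lit 172217037591521557163)]]]]]]]]],[[[[[],[[[[[Int.negSucc (nat_lit 478108704889430524631)]]]]]]]]]]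

/-- A coefficient. -/
noncomputable def sr6_m4_6_3 : MP 10 :=
  [[[[[[[],[[[[Int.ofNat (nat_lit 515411422221055499304)]]]]]]]]]]

/-- A coefficient. -/
noncomputable def sr6_m4_6_4 : MP 10 :=
  [[[[[[],[[[[[Int.ofNat (nat_lit 153420280936059076572)]]]]]]]]]]

/-- A coefficient. -/
noncomputable def sr6_m4_7_0 : MP 10 :=
  [[[[[[],[[[[[Int.negSucc (nat_lit 34525169839141966955)]]]]]],[[[],[[[[Int.negSucc (nat_lit 38843924974751729135)]]]]]]],[[[],[[[[[Int.negSucc (nat_lit 40270865027498050571)]]]]]]]],[[[[[],[[[[Int.negSucc (nat_lit 221640444920965169255)]]]]]]]]],[[[[[],[[[[[Int.negSucc (nat_lit 169221327614367743351)]]]]]]]]]]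

/-- A coefficient. -/
noncomputable def sr6_m4_7_1 : MP 10 :=
  [[[[[[[],[[[[Int.ofNat (nat_lit 59413357500886986708)]]]]]]]],[[[[],[[[[[Int.ofNat (nat_lit 145902974839449357708)]]]]]]]]],[[[[[[],[[[[Int.negSucc (nat_lit 43949448138562008875)]]]]]]]]]]

/-- A coefficient. -/
noncomputable def sr6_m4_7_2 : MP 10 :=
  [[[[[[],[[[[[Int.ofNat (nat_lit 209483811833051748696)]]]]]]]]]]

/-- A coefficient. -/
noncomputable def sr6_m4_7_3 : MP 10 :=
  [[[[[[[],[[[[Int.ofNat (nat_lit 107485090093399602480)]]]]]]]]]]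

/-- A coefficient. -/
noncomputable def sr6_m4_8_0 : MP 10 :=
  [[[[[[],[[[[[Int.ofNat (nat_lit 90389212732469720844)]]]]]]]],[[[[[],[[[[Int.ofNat (nat_lit 127744524302067432780)]]]]]]]]],[[[[[],[[[[[Int.ofNat (nat_lit 148957228378025159508)]]]]]]]]]]

/-- A coefficient. -/
noncomputable def sr6_m4_8_1 : MP 10 :=
  [[[[[[[],[[[[Int.negSucc (nat_lit 90709954025297904563)]]]]]]]]]]

/-- A coefficient. -/
noncomputable def sr6_m4_8_2 : MP 10 :=
  [[[[[[],[[[[[Int.ofNat (nat_lit 113312778617652413724)]]]]]]]]]]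

/-- A coefficient. -/
noncomputable def sr6_m4_9_0 : MP 10 :=
  [[[[[[],[[[[[Int.ofNat (nat_lit 45675882937966973844)]]]]]]]]]]

/-- A coefficient. -/
noncomputable def sr6_m4_9_1 : MP 10 :=
  [[[[[[[],[[[[Int.ofNat (nat_lit 18334117089557494788)]]]]]]]]]]

/-- A coefficient. -/
noncomputable def sr6_m4_10_0 : MP 10 :=
  [[[[[[],[[[[[Int.negSucc (nat_lit 52954562707906134227)]]]]]]]]]]

/-- An expanded part. -/
noncomputable def sr6_m4 : R12 :=
  [[sr6_m4_0_0, sr6_m4_0_1, sr6_m4_0_2, sr6_m4_0_3, sr6_m4_0_4, sr6_m4_0_5, sr6_m4_0_6, sr6_m4_0_7, sr6_m4_0_8, sr6_m4_0_9, sr6_m4_0_10],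
   [sr6_m4_1_0, sr6_m4_1_1, sr6_m4_1_2, sr6_m4_1_3, sr6_m4_1_4, sr6_m4_1_5, sr6_m4_1_6, sr6_m4_1_7, sr6_m4_1_8, sr6_m4_1_9],
   [sr6_m4_2_0, sr6_m4_2_1, sr6_m4_2_2, sr6_m4_2_3, sr6_m4_2_4, sr6_m4_2_5, sr6_m4_2_6, sr6_m4_2_7, sr6_m4_2_8],
   [sr6_m4_3_0, sr6_m4_3_1, sr6_m4_3_2, sr6_m4_3_3, sr6_m4_3_4, sr6_m4_3_5, sr6_m4_3_6, sr6_m4_3_7],
   [sr6_m4_4_0, sr6_m4_4_1, sr6_m4_4_2, sr6_m4_4_3, sr6_m4_4_4, sr6_m4_4_5, sr6_m4_4_6],
   [sr6_m4_5_0, sr6_m4_5_1, sr6_m4_5_2, sr6_m4_5_3, sr6_m4_5_4, sr6_m4_5_5],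
   [sr6_m4_6_0, sr6_m4_6_1, sr6_m4_6_2, sr6_m4_6_3, sr6_m4_6_4],
   [sr6_m4_7_0, sr6_m4_7_1, sr6_m4_7_2, sr6_m4_7_3],
   [sr6_m4_8_0, sr6_m4_8_1, sr6_m4_8_2],
   [sr6_m4_9_0, sr6_m4_9_1],
   [sr6_m4_10_0]]

set_option maxRecDepth 100000 in
theorem sr6_check4 : partOk 4 sr6_rows 4 sr6_m4 = true :=
  Fast.partOk_of_fast (by decide +kernel)

end Vale.Agent.P142K.CertB
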