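import Vale.Agent.P142K.CertB.Sr6Rows
import Vale.Agent.P142K.Fast

/-!
# An expanded part of the certificate

Generated from a semidefinite program; only the checker is trusted.
-/

namespace Vale.Agent.P142K.CertB

open Vale.Agent.P142J (MP)

/-- A coefficient. -/
noncomputable def sr6_m5_0_0 : MP 10 :=
  [[[[[[[[[],[],[[Int.negSucc (nat_lit 1190508351443033279)]]],[[[Int.negSucc (nat_lit 2293379664526002695)]]],[[[Int.negSucc (nat_lit 1370829980829846059)]]]],[[[],[[Int.ofNat (nat_lit 5013161755759169088)]]],[[],[[Int.negSucc (nat_lit 408159356964620111)]]]],[[],[[[Int.negSucc (nat_lit 1314963369898079015)]]]]],[[[[],[],[[Int.ofNat (nat_lit 477206183516803152)]]],[[[Int.ofNat (nat_lit 6923380964605284228)]]],[[[Int.negSucc (nat_lit 92526513342065387)]]]],[[[],[[Int.ofNat (nat_lit 4158531560280616140)]]]]],[[[],[[[Int.ofNat (nat_lit 2583276917899475112)]]]]]],[[[[[],[[Int.ofNat (nat_lit 11191252598799802368)]]],[[],[[Int.negSucc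 (nat_lit 350252826265818059)]]]],[[],[[[Int.ofNat (nat_lit 6673157379216801300)]]]]],[[[[],[[Int.negSucc (nat_lit 10567237080833664227)]]]]]],[[[[],[[[Int.ofNat (nat_lit 6916934917075580580)]]]]]]],[[[[[[],[],[[Int.ofNat (nat_lit 1691633188483197648)]]],[[[Int.ofNat (nat_lit 13192392316075231428)]]],[[[Int.ofNat (nat_lit 1851871137626246172)]]]],[[[],[[Int.negSucc (nat_lit 10625970376099883399)]]]]],[[[],[[[Int.negSucc (nat_lit 16857311042483968679)]]]]]],[[[[[],[[Int.negSucc (nat_lit 11740537751142118919)]]]]]]],[[[[[],[[[Int.negSucc (nat_lit 2908105805606649347)]]]]]]]],[[[[[[[],[[Int.ofNat (nat_lit 2813958003271632192)]]],[[],[[Int.negSucc (nat_lit 258846756170042027)]]]],[[],[[[Int.negSucc (nat_lit 2856467498224113935)]]]]],[[[[],[[Int.ofNat (nat_lit 2228723123965748196)]]]]]],[[[[[[Int.ofNat (nat_lit 2293379664526002696)]]],[[[Int.ofNat (nat_lit 1734223750490942544)]]]],[[[],[[Int.ofNat (nat_lit 2258630181991582536)]]]],[[[[Int.ofNat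 (nat_lit 1314963369898079016)]]]]],[[[[[Int.negSucc (nat_lit 6923380964605284227)]]],[[[Int.ofNat (nat_lit 3196765187014269612)]]]]],[[[[[Int.negSucc (nat_lit 2583276917899475111)]]]]]],[[[[[],[[Int.ofNat (nat_lit 529791895476572340)]]]],[[[[Int.negSucc (nat_lit 6673157379216801299)]]]]]],[[[[[[Int.negSucc (nat_lit 6916934917075580579)]]]]]]],[[[[[[],[[Int.negSucc (nat_lit 5527363866316624367)]]]],[[[[Int.ofNat (nat_lit 5013161755759169088)]]],[[[Int.ofNat (nat_lit 1277044351727377572)]]]]],[[[[],[[Int.negSucc (nat_lit 2593555250522457947)]]]],[[[[Int.ofNat (nat_lit 4158531560280616140)]]]]]],[[[[[[Int.negSucc (nat_lit 2001139717275429059)]]],[[[Int.negSucc (nat_lit 7514700715692405335)]]]]],[[[[[Int.ofNat (nat_lit 6290073961650304452)]]]]]]],[[[[[[],[[Int.ofNat (nat_lit 7830872465517728088)]]]],[[[[Int.negSucc (nat_lit 10625970376099883399)]]]]]],[[[[[[Int.negSucc (nat_lit 8832431945535469571)]]]]]]]],[[[[[[[],[],[[Int.negSucc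 (nat_lit 520229125076542151)]]],[[[Int.ofNat (nat_lit 9719019472466899596)]]],[[[Int.negSucc (nat_lit 406091305198579151)]]]],[[[],[[Int.negSucc (nat_lit 5454406539931491947)]]]]],[[[],[[[Int.negSucc (nat_lit 8233549290494456795)]]]]]],[[[[[],[[Int.negSucc (nat_lit 2857057372194720167)]]]],[[[[Int.ofNat (nat_lit 2856467498224113936)]]]]]],[[[[[[Int.negSucc (nat_lit 363393769661096483)]]]]],[[[[[Int.negSucc (nat_lit 3104238673672204223)]]]]]]],[[[[[[[Int.ofNat (nat_lit 2813958003271632192)]]],[[[Int.ofNat (nat_lit 3121400283268912752)]]]]],[[[[[Int.ofNat (nat_lit 2228723123965748196)]]]]]],[[[],[[[[Int.ofNat (nat_lit 573426473299584852)]]]]]],[[[[[[Int.ofNat (nat_lit 5842368647276913444)]]]]]]],[[[[[[[Int.negSucc (nat_lit 4336855514873591087)]]]]],[[[[[Int.negSucc (nat_lit 3070761434039261099)]]]]]]],[[[[[[[Int.ofNat (nat_lit 6139239277034530440)]]]]]]]],[[[[[[[],[[Int.ofNat (nat_lit 4187871886936387668)]]]]]],[[[[[[Int.negSucc (nat_lit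 9719019472466899595)]]],[[[Int.ofNat (nat_lit 314556210962237424)]]]]],[[[[[Int.ofNat (nat_lit 8233549290494456796)]]]]]]],[[[[[[],[[Int.ofNat (nat_lit 283409494655094480)]]]],[[[[Int.negSucc (nat_lit 5454406539931491947)]]]]]],[[[[[[Int.negSucc (nat_lit 6237304411633674947)]]]]]]]],[[[[[[],[[[Int.ofNat (nat_lit 1215937131579754380)]]]]]],[],[[[[[[Int.ofNat (nat_lit 91535094236341728)]]]]]]],[[[[[[[Int.ofNat (nat_lit 4187871886936387668)]]]]]]],[[[[[[[Int.ofNat (nat_lit 803638619731636632)]]]]]]]],[[[],[[[[[[Int.negSucc (nat_lit 1215937131579754379)]]]]]]]]],[[[[[[[[],[],[[Int.negSucc (nat_lit 1766527252179043787)]]],[[[Int.negSucc (nat_lit 2034321904620396827)]]],[[[Int.negSucc (nat_lit 1873734895259598803)]]]],[[[],[[Int.ofNat (nat_lit 2008710116676393936)]]]]],[[[],[[[Int.ofNat (nat_lit 5179839067876765668)]]]]]],[[[[[],[[Int.ofNat (nat_lit 14291223479878045536)]]]],[[[[Int.ofNat (nat_lit 5013161755759169088)]]],[[[Int.ofNat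 (nat_lit 1999908401644097568)]]]]],[[[[],[[Int.negSucc (nat_lit 3161928346294655291)]]]],[[[[Int.ofNat (nat_lit 4158531560280616140)]]]]]],[[[[[[Int.ofNat (nat_lit 11191252598799802368)]]],[[[Int.ofNat (nat_lit 4988056142228939160)]]]]],[[[[[Int.negSucc (nat_lit 10567237080833664227)]]]]]]],[[[[[[[Int.negSucc (nat_lit 2293379664526002695)]]],[[[Int.ofNat (nat_lit 20383784346184277184)]]]],[[[],[[Int.negSucc (nat_lit 1243473831517616447)]]]],[[[[Int.negSucc (nat_lit 1314963369898079015)]]]]],[[[[[Int.ofNat (nat_lit 6923380964605284228)]]],[[[Int.negSucc (nat_lit 3237673362741362639)]]]]],[[[[[Int.ofNat (nat_lit 2583276917899475112)]]]]]],[[[[[],[[Int.negSucc (nat_lit 5846039685230204939)]]]],[[[[Int.negSucc (nat_lit 3952812996883082099)]]]]]],[[[[[[Int.negSucc (nat_lit 4823602834066538339)]]]]]]],[[[[[[[Int.ofNat (nat_lit 13192392316075231428)]]],[[[Int.negSucc (nat_lit 147703564257411455)]]]]],[[[[[Int.negSucc (nat_lit 16857311042483968679)]]]]]]],[[[[[[[Int.negSucc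 (nat_lit 2908105805606649347)]]]]]]]],[[[[[[[],[[Int.ofNat (nat_lit 3233947043338908624)]]],[[],[[Int.ofNat (nat_lit 266979371199420132)]]]],[[],[[[Int.negSucc (nat_lit 75653168379014807)]]]]],[[[[],[[Int.ofNat (nat_lit 440910856216629504)]]]]]],[[[[[[Int.ofNat (nat_lit 4848279907892029020)]]],[[[Int.ofNat (nat_lit 1366592339361205308)]]]]],[[[[[Int.negSucc (nat_lit 2951115943911017471)]]]]]],[[[],[[[[Int.negSucc (nat_lit 149437576617135143)]]]]]],[[[[[[Int.negSucc (nat_lit 4808517073018184879)]]]]]]],[[[[[[],[[Int.ofNat (nat_lit 619883352631014156)]]]],[[[[Int.negSucc (nat_lit 847757381547719999)]]]]]],[[[[[[Int.negSucc (nat_lit 10246344240905539031)]]]]],[[[[[Int.negSucc (nat_lit 460510440779218067)]]]]]]],[[[[],[[[[Int.ofNat (nat_lit 441729877174381236)]]]]]],[[[[[[Int.negSucc (nat_lit 4711435646595555623)]]]]]]]],[[[[[[],[[[Int.ofNat (nat_lit 19632289552529452452)]]]]]],[[[[[],[[Int.negSucc (nat_lit 2462521070398061879)]]]],[[[[Int.negSucc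 (nat_lit 5378753371552477139)]]]]]],[[[[[[Int.negSucc (nat_lit 2608761572466368699)]]]]]]],[[[[[[[Int.ofNat (nat_lit 12952966515805808220)]]],[[[Int.negSucc (nat_lit 2239328100233820023)]]]]],[[[[[Int.negSucc (nat_lit 7792638434277827291)]]]]]]],[[[[[[[Int.ofNat (nat_lit 5766657644249012724)]]]]]]]],[[[[[[[],[[Int.ofNat (nat_lit 6653408404027116384)]]]]]],[[[[[[Int.negSucc (nat_lit 15444417665593064783)]]]]]]],[[],[[[[[[Int.ofNat (nat_lit 870027746408436180)]]]]]]]],[[],[[[[[[[Int.ofNat (nat_lit 7869345535606870764)]]]]]]]]],[[[[[[[[],[],[[Int.negSucc (nat_lit 795511337734107323)]]],[[[Int.negSucc (nat_lit 578000278462205951)]]],[[[Int.negSucc (nat_lit 759633760707495131)]]]],[[[],[[Int.negSucc (nat_lit 3718905260771437847)]]]]],[[[],[[[Int.negSucc (nat_lit 3180841349430353339)]]]]]],[[[[[],[[Int.ofNat (nat_lit 5076203742309629916)]]]],[[[[Int.ofNat (nat_lit 2008710116676393936)]]]]]],[[[[[[Int.ofNat (nat_lit 15481731831321078816)]]]]],[[[[[Int.negSucc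 (nat_lit 3639134529811458443)]]]]]]],[[[[[[[Int.negSucc (nat_lit 2034321904620396827)]]],[[[Int.ofNat (nat_lit 14597708877214246104)]]]]],[[[[[Int.ofNat (nat_lit 5179839067876765668)]]]]]],[[[],[[[[Int.ofNat (nat_lit 1164593927091101232)]]]]]],[[[[[[Int.negSucc (nat_lit 2199363905218645367)]]]]]]],[[[[[[[Int.ofNat (nat_lit 21754614327014123244)]]]]],[[[[[Int.negSucc (nat_lit 3145146849399297251)]]]]]]],[[[[[[[Int.negSucc (nat_lit 1999574701883657627)]]]]]]]],[[[[[[[],[[Int.negSucc (nat_lit 2376488071465364843)]]]]]],[[[[[[Int.ofNat (nat_lit 3811947321801114576)]]],[[[Int.negSucc (nat_lit 773395018054938335)]]]]],[[[[[Int.ofNat (nat_lit 3621752205646982844)]]]]]]],[[[[[[],[[Int.ofNat (nat_lit 3883988495375967804)]]]],[[[[Int.negSucc (nat_lit 3794558429150452655)]]]]]],[[[[[[Int.negSucc (nat_lit 7490597972903464727)]]]]]]]],[[[[[[],[[[Int.ofNat (nat_lit 11082005617110994512)]]]]]],[],[[[[[[Int.negSucc (nat_lit 142283795359666127)]]]]]]],[[[[[[[Int.ofNat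 (nat_lit 17255801481064087608)]]]]]]],[[[[[[[Int.ofNat (nat_lit 2579283666875414124)]]]]]]]],[[[],[[[[[[Int.negSucc (nat_lit 4428597213083878127)]]]]]]]]],[[[[[[[],[[[Int.negSucc (nat_lit 525618393227801291)]]]]]],[[[[[],[[Int.ofNat (nat_lit 494730853999076184)]]]],[[[[Int.negSucc (nat_lit 3718905260771437847)]]]]]],[[[[[[Int.ofNat (nat_lit 6842730994488673704)]]]]]]],[[[[[[[Int.negSucc (nat_lit 578000278462205951)]]],[[[Int.ofNat (nat_lit 3139908285284714268)]]]]],[[[[[Int.negSucc (nat_lit 3180841349430353339)]]]]]]],[[[[[[[Int.ofNat (nat_lit 16471443772473844908)]]]]]]]],[[[[[[[],[[Int.negSucc (nat_lit 2544799991310874727)]]]]]],[[[[[[Int.negSucc (nat_lit 1850869678237563551)]]]]]]],[[],[[[[[[Int.ofNat (nat_lit 270191828889195636)]]]]]]]],[[],[[[[[[[Int.ofNat (nat_lit 8537205625800119784)]]]]]]]]],[[[[[[[],[[[Int.ofNat (nat_lit 305210350723861344)]]]]]],[],[[[[[[Int.ofNat (nat_lit 1290242191733183508)]]]]]]],[[[[[[[Int.negSucc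 (nat_lit 525618393227801291)]]]]]]],[[[[[[[Int.ofNat (nat_lit 3899542045992209400)]]]]]]]],[[[],[[[[[[Int.negSucc (nat_lit 2850010342034736071)]]]]]]]]],[[[],[[[[[[[Int.ofNat (nat_lit 305210350723861344)]]]]]]]]]]

/-- A coefficient. -/
noncomputable def sr6_m5_0_1 : MP 10 :=
  [[[[[[[[[],[[Int.ofNat (nat_lit 24071395591632210408)]]],[[],[[Int.negSucc (nat_lit 1442894253317377223)]]]],[[],[[[Int.negSucc (nat_lit 7146787762680453623)]]]],[[[],[[Int.negSucc (nat_lit 656781107964545243)]]]]],[[[[],[[Int.ofNat (nat_lit 9563010699086535672)]]]],[[],[[[Int.negSucc (nat_lit 2279896506572365463)]]]]],[[[[],[[Int.ofNat (nat_lit 2658993568436270784)]]]]]],[[[[[],[],[[Int.negSucc (nat_lit 1405171582161248159)]]],[[[Int.ofNat (nat_lit 30840522754745596068)]]],[[[Int.negSucc (nat_lit 1513233365151079547)]]]],[[[],[[Int.negSucc (nat_lit 5015256606552283595)]]]]],[[[],[[[Int.negSucc (nat_lit 13903662381369536303)]]]]]],[[[[[],[[Int.negSucc (nat_lit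 2054002888078126499)]]]]]]],[[[[[[],[[Int.negSucc (nat_lit 57944408809124797091)]]],[[],[[Int.negSucc (nat_lit 265971353716849499)]]]],[[],[[[Int.negSucc (nat_lit 11310339710408833931)]]]]],[[[[],[[Int.ofNat (nat_lit 19378758059625633576)]]]]]],[[[[],[[[Int.ofNat (nat_lit 21702800398091740980)]]]]]]],[[[[[[],[[Int.negSucc (nat_lit 20143565576038482251)]]]]]]]],[[[[[[[],[],[[Int.negSucc (nat_lit 1018219722708634679)]]],[[[Int.negSucc (nat_lit 49806983508812543111)]]],[[[Int.negSucc (nat_lit 1427180115344677487)]]]],[[[],[[Int.ofNat (nat_lit 2755644716693809260)]]]]],[[[],[[[Int.ofNat (nat_lit 715459442423573472)]]]]]],[[[[[],[[Int.ofNat (nat_lit 57670477242449324076)]]]],[[[[Int.ofNat (nat_lit 7146787762680453624)]]]]],[[],[[[[Int.ofNat (nat_lit 2279896506572365464)]]]]]],[[[[[[Int.negSucc (nat_lit 30840522754745596067)]]],[[[Int.ofNat (nat_lit 2966700372902619516)]]]]],[[[[[Int.ofNat (nat_lit 13903662381369536304)]]]]]]],[[[[[[[Int.ofNat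 (nat_lit 24071395591632210408)]]],[[[Int.ofNat (nat_lit 83319958434810177792)]]]],[],[[[[Int.negSucc (nat_lit 656781107964545243)]]]]],[[[[[Int.ofNat (nat_lit 9563010699086535672)]]]]],[[[[[Int.ofNat (nat_lit 2658993568436270784)]]]]]],[[[[[],[[Int.ofNat (nat_lit 897036318172291020)]]]],[[[[Int.ofNat (nat_lit 6295083103856550336)]]]]]],[[[[[[Int.negSucc (nat_lit 23756803286169867479)]]]]]]],[[[[[[[Int.negSucc (nat_lit 57944408809124797091)]]],[[[Int.ofNat (nat_lit 2379956293317962724)]]]]],[[[[[Int.ofNat (nat_lit 19378758059625633576)]]]]]]],[[[[[[[Int.negSucc (nat_lit 20143565576038482251)]]]]]]]],[[[[[[[],[[Int.negSucc (nat_lit 71483771636235596603)]]]],[[],[[[Int.negSucc (nat_lit 2423811530378401511)]]]]],[[[[],[[Int.ofNat (nat_lit 5302482194541919464)]]]]]],[[[[[[Int.ofNat (nat_lit 49806983508812543112)]]],[[[Int.negSucc (nat_lit 5439663747463470395)]]]]],[[[[[Int.negSucc (nat_lit 715459442423573471)]]]]]],[],[[[[[[Int.negSucc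 (nat_lit 1453467007751539967)]]]]]]],[[[[[[],[[Int.ofNat (nat_lit 12007941385819344672)]]]],[[[[Int.ofNat (nat_lit 2755644716693809260)]]]]]],[[[[[[Int.negSucc (nat_lit 27092375445678230939)]]]]]]],[[],[[[[[[Int.negSucc (nat_lit 343719746701273043)]]]]]]]],[[[[[[],[[[Int.ofNat (nat_lit 18999657059615038452)]]]]]],[[[],[[[[Int.ofNat (nat_lit 2423811530378401512)]]]]]],[[[[[[Int.ofNat (nat_lit 6866843862808147884)]]]]]]],[[[[[[[Int.negSucc (nat_lit 71483771636235596603)]]]]],[[[[[Int.ofNat (nat_lit 5302482194541919464)]]]]]]],[[[[[[[Int.ofNat (nat_lit 13026161108527979352)]]]]]]]],[[[[[[[],[[Int.negSucc (nat_lit 2996808881895819491)]]]]]],[[[[[[Int.negSucc (nat_lit 18999657059615038451)]]]]]]]],[[],[[[[[[[Int.negSucc (nat_lit 2996808881895819491)]]]]]]]]],[[[[[[[[],[[Int.ofNat (nat_lit 48048514635491907300)]]],[[],[[Int.negSucc (nat_lit 2127781167714874103)]]]],[[],[[[Int.negSucc (nat_lit 12767573862848327195)]]]]],[[[[],[[Int.ofNat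 (nat_lit 13407959323532565648)]]]]]],[[[[[[Int.ofNat (nat_lit 24071395591632210408)]]],[[[Int.ofNat (nat_lit 56627070485216674416)]]]],[],[[[[Int.negSucc (nat_lit 656781107964545243)]]]]],[[[[[Int.ofNat (nat_lit 9563010699086535672)]]]]],[[[[[Int.ofNat (nat_lit 2658993568436270784)]]]]]],[[[[[],[[Int.ofNat (nat_lit 1185772745628520056)]]]],[[[[Int.negSucc (nat_lit 5015256606552283595)]]]]]],[[[[[[Int.negSucc (nat_lit 2054002888078126499)]]]]]]],[[[[[[],[[Int.negSucc (nat_lit 91516311973967542127)]]]],[[[[Int.negSucc (nat_lit 7146787762680453623)]]]]],[[],[[[[Int.negSucc (nat_lit 2279896506572365463)]]]]]],[[[[[[Int.negSucc (nat_lit 27103886054379201023)]]],[[[Int.ofNat (nat_lit 6941143212104741532)]]]]],[[[[[Int.ofNat (nat_lit 5475095678256097272)]]]]]]],[[[[[[],[[Int.negSucc (nat_lit 5658498799277900087)]]]],[[[[Int.negSucc (nat_lit 11310339710408833931)]]]]]],[[[[[[Int.ofNat (nat_lit 1559234822053258728)]]]]]]]],[[[[[[],[[[Int.negSucc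 (nat_lit 72028009219230818951)]]]],[[[],[[Int.ofNat (nat_lit 452478278609566344)]]]]],[[[],[[[Int.negSucc (nat_lit 1875717915495395255)]]]]]],[[[[[],[[Int.ofNat (nat_lit 28862468558282581656)]]]],[[[[Int.ofNat (nat_lit 15523218579542136456)]]]]]],[[[[[[Int.negSucc (nat_lit 399487496084727563)]]]]]]],[[[[[[[Int.negSucc (nat_lit 1758468873320635811)]]],[[[Int.ofNat (nat_lit 44611879422846904848)]]]]],[[[[[Int.ofNat (nat_lit 14123418765956139120)]]]]]],[],[[[[[[Int.negSucc (nat_lit 2373728695097823215)]]]]]]],[[[[[[[Int.negSucc (nat_lit 6753459285839987111)]]]]]]],[[[[[[[Int.negSucc (nat_lit 3012571152243087863)]]]]]]]],[[[[[[[],[[Int.negSucc (nat_lit 96624612535964607263)]]]]]],[[[[[[Int.ofNat (nat_lit 544237582995222348)]]]]],[[[[[Int.ofNat (nat_lit 7178200110037314720)]]]]]]],[[[[],[[[[Int.negSucc (nat_lit 1971333251768835167)]]]]]],[[[[[[Int.negSucc (nat_lit 12126835179195408635)]]]]]]]],[[[[[[],[[[Int.ofNat (nat_lit 1360913516589130956)]]]]]]],[[[[[[[Int.negSucc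 (nat_lit 77624955476349568811)]]]]]]]],[[[],[[[[[[Int.negSucc (nat_lit 4357722398484950447)]]]]]]]]],[[[[[[[[],[[Int.ofNat (nat_lit 19732228736189998608)]]]],[[],[[[Int.negSucc (nat_lit 2284466313625418027)]]]]],[[[[],[[Int.ofNat (nat_lit 1805140462865757480)]]]]]],[[[[[[Int.ofNat (nat_lit 48048514635491907300)]]],[[[Int.ofNat (nat_lit 23113808609734176684)]]]]],[[[[[Int.ofNat (nat_lit 13407959323532565648)]]]]]],[],[[[[[[Int.ofNat (nat_lit 2590944327789768216)]]]]]]],[[[[[[],[[Int.negSucc (nat_lit 31950484736962457735)]]]],[[[[Int.negSucc (nat_lit 12767573862848327195)]]]]]],[[[[[[Int.negSucc (nat_lit 33446347235433490487)]]]]]]],[[],[[[[[[Int.ofNat (nat_lit 3061849131694770492)]]]]]]]],[[[[[[],[[[Int.negSucc (nat_lit 12372193655876617571)]]]]]],[[[],[[[[Int.ofNat (nat_lit 2736944592234984372)]]]]]],[[[[[[Int.ofNat (nat_lit 4639098503542165548)]]]]]]],[[[[[[[Int.negSucc (nat_lit 52295780483040820343)]]]]],[[[[[Int.negSucc (nat_lit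 70577452629637775)]]]]]]],[[[[[[[Int.ofNat (nat_lit 16216355968943998704)]]]]]]]],[[[[[[[],[[Int.negSucc (nat_lit 4226937810347684723)]]]]]],[[[[[[Int.negSucc (nat_lit 84252418880087989691)]]]]]]]],[[],[[[[[[[Int.negSucc (nat_lit 2866024293758553767)]]]]]]]]],[[[[[[[[],[[Int.negSucc (nat_lit 7376723463754246871)]]]]]],[[[[[[Int.ofNat (nat_lit 19732228736189998608)]]]]],[[[[[Int.ofNat (nat_lit 1805140462865757480)]]]]]]],[[[[],[[[[Int.negSucc (nat_lit 2284466313625418027)]]]]]],[[[[[[Int.negSucc (nat_lit 6708894959513406947)]]]]]]]],[[[[[[],[[[Int.ofNat (nat_lit 7094282312540689872)]]]]]]],[[[[[[[Int.negSucc (nat_lit 19748917119630864443)]]]]]]]],[[[],[[[[[[Int.negSucc (nat_lit 11321220122888374595)]]]]]]]]],[[[[[[[[],[[Int.negSucc (nat_lit 2090832558104936183)]]]]]],[[[[[[Int.negSucc (nat_lit 7376723463754246871)]]]]]]]],[[],[[[[[[[Int.ofNat (nat_lit 5003449754435753688)]]]]]]]]],[[[[],[[[[[[Int.negSucc (nat_lit 2090832558104936183)]]]]]]]]]]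

/-- A coefficient. -/
noncomputable def sr6_m5_0_2 : MP 10 :=
  [[[[[[[[[],[],[[Int.ofNat (nat_lit 196679966998064964)]]],[[[Int.ofNat (nat_lit 28075136633275036092)]]],[[[Int.negSucc (nat_lit 1775288760797739623)]]]],[[[],[[Int.ofNat (nat_lit 6658271927205985656)]]]]],[[[],[[[Int.ofNat (nat_lit 16536127650583520532)]]]]]],[[[[[],[[Int.negSucc (nat_lit 67035968372635230311)]]]],[[],[[[Int.ofNat (nat_lit 775296129425668632)]]]]],[[[[],[[Int.negSucc (nat_lit 2993801382328582979)]]]]]],[[[[],[[[Int.negSucc (nat_lit 1699705996493929991)]]]]]]],[[[[[],[[[Int.negSucc (nat_lit 135394557546930737543)]]]],[[[],[[Int.ofNat (nat_lit 277397219641057344)]]]]],[[[],[[[Int.negSucc (nat_lit 850382723782301555)]]]]]],[[[[[],[[Int.negSucc (nat_lit 15242181021982404035)]]]]]]],[[[[[],[[[Int.negSucc (nat_lit 9927889777052262191)]]]]]]]],[[[[[[[],[[Int.ofNat (nat_lit 143067219097678744692)]]],[[],[[Int.negSucc (nat_lit 1513810270197274571)]]]],[[],[[[Int.negSucc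 (nat_lit 14070009957101856107)]]]]],[[[[],[[Int.ofNat (nat_lit 19560087551424516192)]]]]]],[[[[[[Int.negSucc (nat_lit 28075136633275036091)]]],[[[Int.ofNat (nat_lit 72259383726889561164)]]]]],[[[[[Int.negSucc (nat_lit 16536127650583520531)]]]]]],[[[],[[[[Int.negSucc (nat_lit 775296129425668631)]]]]]],[[[[[[Int.ofNat (nat_lit 1699705996493929992)]]]]]]],[[[[[[],[[Int.negSucc (nat_lit 162190477138020197219)]]]],[[[[Int.ofNat (nat_lit 6658271927205985656)]]]]]],[[[[[[Int.ofNat (nat_lit 68358589174295507232)]]]]],[[[[[Int.negSucc (nat_lit 2143418658546281423)]]]]]]],[[[[],[[[[Int.ofNat (nat_lit 277397219641057344)]]]]]],[[[[[[Int.negSucc (nat_lit 5314291244930141843)]]]]]]]],[[[[[[],[[[Int.negSucc (nat_lit 94160721233920913411)]]]]]],[[[[[],[[Int.ofNat (nat_lit 5185023939634517568)]]]],[[[[Int.ofNat (nat_lit 14070009957101856108)]]]]]],[[[[[[Int.negSucc (nat_lit 70484094966091821539)]]]]]]],[[[[[[[Int.ofNat (nat_lit 143067219097678744692)]]],[[[Int.ofNat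 (nat_lit 2748716251413351420)]]]]],[[[[[Int.ofNat (nat_lit 19560087551424516192)]]]]]]],[[[[[[[Int.negSucc (nat_lit 162387157105018262183)]]]]]]]],[[[[[[[],[[Int.negSucc (nat_lit 41652422408617284599)]]]]]],[[[[[[Int.ofNat (nat_lit 94160721233920913412)]]]]]]],[[],[[[[[[Int.ofNat (nat_lit 922497418023891576)]]]]]]]],[[],[[[[[[[Int.negSucc (nat_lit 41652422408617284599)]]]]]]]]],[[[[[[[[],[],[[Int.ofNat (nat_lit 1710021004623895632)]]],[[[Int.ofNat (nat_lit 34648462747873083852)]]],[[[Int.ofNat (nat_lit 616868421060245604)]]]],[[[],[[Int.negSucc (nat_lit 1290293860177652075)]]]]],[[[],[[[Int.ofNat (nat_lit 2754282265160131980)]]]]]],[[[[[],[[Int.negSucc (nat_lit 63797903267398048283)]]]],[[[[Int.ofNat (nat_lit 6658271927205985656)]]]]]],[[[[[[Int.negSucc (nat_lit 67035968372635230311)]]]]],[[[[[Int.negSucc (nat_lit 2993801382328582979)]]]]]]],[[[[[[[Int.ofNat (nat_lit 28075136633275036092)]]],[[[Int.negSucc (nat_lit 126541757645442221675)]]]]],[[[[[Int.ofNat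 (nat_lit 16536127650583520532)]]]]]],[[[],[[[[Int.ofNat (nat_lit 1052693349066725976)]]]]]],[[[[[[Int.negSucc (nat_lit 16941887018476334027)]]]]]]],[[[[[[[Int.negSucc (nat_lit 135394557546930737543)]]]]],[[[[[Int.negSucc (nat_lit 850382723782301555)]]]]]]],[[[[[[[Int.negSucc (nat_lit 9927889777052262191)]]]]]]]],[[[[[[[],[[Int.ofNat (nat_lit 147445949500342184244)]]]]]],[[[[[[Int.ofNat (nat_lit 108418756349805660840)]]],[[[Int.ofNat (nat_lit 17792145213857982816)]]]]],[[[[[Int.ofNat (nat_lit 16805805286264384212)]]]]]]],[[[[[[],[[Int.negSucc (nat_lit 19827135853303072355)]]]],[[[[Int.negSucc (nat_lit 15360303817279508183)]]]]]],[[[[[[Int.negSucc (nat_lit 31131176488678071839)]]]]]]]],[[[[[[],[[[Int.negSucc (nat_lit 40245906431320829687)]]]]]],[],[[[[[[Int.negSucc (nat_lit 14737799965480985423)]]]]]]],[[[[[[[Int.ofNat (nat_lit 53285228266421270832)]]]]]]],[[[[[[[Int.negSucc (nat_lit 17274630336316341995)]]]]]]]],[[[],[[[[[[Int.negSucc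 (nat_lit 1406515977296454911)]]]]]]]]],[[[[[[[],[[[Int.negSucc (nat_lit 29830978638003645359)]]]]]],[[[[[],[[Int.negSucc (nat_lit 8250309980377891403)]]]],[[[[Int.negSucc (nat_lit 1290293860177652075)]]]]]],[[[[[[Int.negSucc (nat_lit 63994583234396113247)]]]]]]],[[[[[[[Int.ofNat (nat_lit 34648462747873083852)]]],[[[Int.negSucc (nat_lit 9703983462482089703)]]]]],[[[[[Int.ofNat (nat_lit 2754282265160131980)]]]]]]],[[[[[[[Int.negSucc (nat_lit 124766468884644482051)]]]]]]]],[[[[[[[],[[Int.negSucc (nat_lit 45194043639849357479)]]]]]],[[[[[[Int.ofNat (nat_lit 177276928138345829604)]]]]]]],[[],[[[[[[Int.negSucc (nat_lit 1253812054270916723)]]]]]]]],[[],[[[[[[[Int.negSucc (nat_lit 85439950071170187167)]]]]]]]]],[[[[[[[],[[[Int.negSucc (nat_lit 33363700334383178687)]]]]]],[],[[[[[[Int.negSucc (nat_lit 9960330985001787035)]]]]]]],[[[[[[[Int.negSucc (nat_lit 29830978638003645359)]]]]]]],[[[[[[[Int.negSucc (nat_lit 10320851883542335307)]]]]]]]],[[[],[[[[[[Int.negSucc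 (nat_lit 11830343305466178791)]]]]]]]]],[[[],[[[[[[[Int.negSucc (nat_lit 33363700334383178687)]]]]]]]]]]

/-- A coefficient. -/
noncomputable def sr6_m5_0_3 : MP 10 :=
  [[[[[[[[[],[[Int.negSucc (nat_lit 12795439912784673755)]]],[[],[[Int.ofNat (nat_lit 794473719402092352)]]]],[[],[[[Int.ofNat (nat_lit 15980076658586661408)]]]]],[[[[],[[Int.negSucc (nat_lit 24233184465980416595)]]]]]],[[[[],[[[Int.negSucc (nat_lit 63428184341368273883)]]]]]],[[[[[],[[Int.negSucc (nat_lit 1003980486753303239)]]]]]]],[[[[[[],[[Int.ofNat (nat_lit 175908220453825518324)]]]]]],[[[[],[[[Int.negSucc (nat_lit 7194064918694340935)]]]]]]],[[[[[[],[[Int.ofNat (nat_lit 5764858650900143916)]]]]]]]],[[[[[[],[[[Int.ofNat (nat_lit 14781728486004704784)]]]],[[[],[[Int.negSucc (nat_lit 4628965876385685299)]]]]],[[[],[[[Int.negSucc (nat_lit 15943890746862089831)]]]]]],[[[[[],[[Int.negSucc (nat_lit 21563989548910469423)]]]],[[[[Int.negSucc (nat_lit 15980076658586661407)]]]]]],[[[[[[Int.ofNat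 (nat_lit 63428184341368273884)]]]]]]],[[[[[[[Int.negSucc (nat_lit 12795439912784673755)]]],[[[Int.negSucc (nat_lit 78435038111234738879)]]]]],[[[[[Int.negSucc (nat_lit 24233184465980416595)]]]]]],[],[[[[[[Int.ofNat (nat_lit 6190084431941037696)]]]]]]],[[[[[[[Int.ofNat (nat_lit 175908220453825518324)]]]]]]],[[[[[[[Int.ofNat (nat_lit 5764858650900143916)]]]]]]]],[[[[[[[],[[Int.ofNat (nat_lit 72355419919177908876)]]]]]],[[[[[[Int.negSucc (nat_lit 14781728486004704783)]]]]],[[[[[Int.ofNat (nat_lit 15943890746862089832)]]]]]]],[[[[],[[[[Int.negSucc (nat_lit 4628965876385685299)]]]]]],[[[[[[Int.ofNat (nat_lit 57665522281726361808)]]]]]]]],[[[[[[],[[[Int.negSucc (nat_lit 18209234592414845831)]]]]]]],[[[[[[[Int.ofNat (nat_lit 72355419919177908876)]]]]]]]],[[[],[[[[[[Int.ofNat (nat_lit 18209234592414845832)]]]]]]]]],[[[[[[[[],[[Int.ofNat (nat_lit 20953493111315567796)]]]],[[],[[[Int.negSucc (nat_lit 1239964613571756623)]]]]],[[[[],[[Int.ofNat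 (nat_lit 7102424625352916400)]]]]]],[[[[[[Int.negSucc (nat_lit 12795439912784673755)]]],[[[Int.negSucc (nat_lit 20275350447580154099)]]]]],[[[[[Int.negSucc (nat_lit 24233184465980416595)]]]]]],[],[[[[[[Int.negSucc (nat_lit 1003980486753303239)]]]]]]],[[[[[[],[[Int.ofNat (nat_lit 71413531395439844664)]]]],[[[[Int.ofNat (nat_lit 15980076658586661408)]]]]]],[[[[[[Int.ofNat (nat_lit 112480036112457244440)]]]]]]],[[],[[[[[[Int.negSucc (nat_lit 1429206267794197019)]]]]]]]],[[[[[[],[[[Int.negSucc (nat_lit 23590761487244005139)]]]]]],[[[],[[[[Int.negSucc (nat_lit 3389001262813928675)]]]]]],[[[[[[Int.negSucc (nat_lit 494165381928222971)]]]]]]],[[[[[[[Int.ofNat (nat_lit 35735221597320272580)]]]]],[[[[[Int.negSucc (nat_lit 8841466121509173431)]]]]]]],[[[[[[[Int.negSucc (nat_lit 7815980435196986567)]]]]]]]],[[[[[[[],[[Int.ofNat (nat_lit 447766945691411100)]]]]]],[[[[[[Int.ofNat (nat_lit 95946181406421914016)]]]]]]]],[[],[[[[[[[Int.negSucc (nat_lit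 17761467646723434731)]]]]]]]]],[[[[[[[[],[[Int.ofNat (nat_lit 59614111148679942864)]]]]]],[[[[[[Int.ofNat (nat_lit 20953493111315567796)]]]]],[[[[[Int.ofNat (nat_lit 7102424625352916400)]]]]]]],[[[[],[[[[Int.negSucc (nat_lit 1239964613571756623)]]]]]],[[[[[[Int.ofNat (nat_lit 50343707228457598212)]]]]]]]],[[[[[[],[[[Int.negSucc (nat_lit 8095457779021419071)]]]]]]],[[[[[[[Int.ofNat (nat_lit 36023349661435937724)]]]]]]]],[[[],[[[[[[Int.ofNat (nat_lit 8543224724712830172)]]]]]]]]],[[[[[[[[],[[Int.ofNat (nat_lit 5725706451031294836)]]]]]],[[[[[[Int.ofNat (nat_lit 59614111148679942864)]]]]]]]],[[],[[[[[[[Int.negSucc (nat_lit 2369751327990124235)]]]]]]]]],[[[[],[[[[[[Int.ofNat (nat_lit 5725706451031294836)]]]]]]]]]]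

/-- A coefficient. -/
noncomputable def sr6_m5_0_4 : MP 10 :=
  [[[[[[[[[],[],[[Int.negSucc (nat_lit 3766180942710065999)]]],[[[Int.ofNat (nat_lit 141295776569197514148)]]],[[[Int.negSucc (nat_lit 4689844816392336011)]]]],[[[],[[Int.negSucc (nat_lit 3482992325228903807)]]]]],[[[],[[[Int.negSucc (nat_lit 875195743965831935)]]]]]],[[[[[],[[Int.ofNat (nat_lit 44223582246223592568)]]]]]]],[[[[[],[[[Int.ofNat (nat_lit 88948171843871967636)]]]]]]]],[[[[[[[],[[Int.ofNat (nat_lit 87864238656506924772)]]]]]],[[[[[[Int.negSucc (nat_lit 141295776569197514147)]]],[[[Int.ofNat (nat_lit 17399270306195498232)]]]]],[[[[[Int.ofNat (nat_lit 875195743965831936)]]]]]]],[[[[[[],[[Int.ofNat (nat_lit 6755626767325587564)]]]],[[[[Int.negSucc (nat_lit 3482992325228903807)]]]]]],[[[[[[Int.negSucc (nat_lit 44724589597648375067)]]]]]]]],[[[[[[],[[[Int.ofNat (nat_lit 10506955453446362292)]]]]]],[],[[[[[[Int.negSucc (nat_lit 12709425489803162219)]]]]]]],[[[[[[[Int.ofNat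 (nat_lit 87864238656506924772)]]]]]]],[[[[[[[Int.ofNat (nat_lit 10521807710035653564)]]]]]]]],[[[],[[[[[[Int.negSucc (nat_lit 10506955453446362291)]]]]]]]]],[[[[[[[],[[[Int.ofNat (nat_lit 185027475522300174936)]]]]]],[[[[[],[[Int.ofNat (nat_lit 3199606910371223172)]]]],[[[[Int.negSucc (nat_lit 3482992325228903807)]]]]]],[[[[[[Int.ofNat (nat_lit 44223582246223592568)]]]]]]],[[[[[[[Int.ofNat (nat_lit 141295776569197514148)]]],[[[Int.ofNat (nat_lit 5637819614735407308)]]]]],[[[[[Int.negSucc (nat_lit 875195743965831935)]]]]]]],[[[[[[[Int.ofNat (nat_lit 88948171843871967636)]]]]]]]],[[[[[[[],[[Int.ofNat (nat_lit 24222459655849722312)]]]]]],[[[[[[Int.negSucc (nat_lit 97163236865793250163)]]]]]]],[[],[[[[[[Int.ofNat (nat_lit 19869356621792361636)]]]]]]]],[[],[[[[[[[Int.ofNat (nat_lit 34729415109296084604)]]]]]]]]],[[[[[[[],[[[Int.ofNat (nat_lit 24357296388316691040)]]]]]],[],[[[[[[Int.ofNat (nat_lit 6965787853081289172)]]]]]]],[[[[[[[Int.ofNat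 (nat_lit 185027475522300174936)]]]]]]],[[[[[[[Int.ofNat (nat_lit 10327664431127743320)]]]]]]]],[[[],[[[[[[Int.negSucc (nat_lit 134836732466968727)]]]]]]]]],[[[],[[[[[[[Int.ofNat (nat_lit 24357296388316691040)]]]]]]]]]]

/-- A coefficient. -/
noncomputable def sr6_m5_0_5 : MP 10 :=
  [[[[[[[[[],[[Int.negSucc (nat_lit 181033126241345846495)]]]],[[],[[[Int.negSucc (nat_lit 18116104377611913647)]]]]],[[[[],[[Int.ofNat (nat_lit 25746422024963349720)]]]]]],[[[[],[[[Int.negSucc (nat_lit 996952003194520871)]]]]]]],[[[[[[],[[Int.negSucc (nat_lit 68727115365810532595)]]]]]]]],[[[[[[],[[[Int.ofNat (nat_lit 110571015493348660248)]]]]]],[[[],[[[[Int.ofNat (nat_lit 18116104377611913648)]]]]]],[[[[[[Int.ofNat (nat_lit 996952003194520872)]]]]]]],[[[[[[[Int.negSucc (nat_lit 181033126241345846495)]]]]],[[[[[Int.ofNat (nat_lit 25746422024963349720)]]]]]]],[[[[[[[Int.negSucc (nat_lit 68727115365810532595)]]]]]]]],[[[[[[[],[[Int.negSucc (nat_lit 47871927952976605751)]]]]]],[[[[[[Int.negSucc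 (nat_lit 110571015493348660247)]]]]]]]],[[],[[[[[[[Int.negSucc (nat_lit 47871927952976605751)]]]]]]]]],[[[[[[[[],[[Int.negSucc (nat_lit 146619353987915526311)]]]]]],[[[[[[Int.negSucc (nat_lit 181033126241345846495)]]]]],[[[[[Int.ofNat (nat_lit 25746422024963349720)]]]]]]],[[[[],[[[[Int.negSucc (nat_lit 18116104377611913647)]]]]]],[[[[[[Int.negSucc (nat_lit 69724067369005053467)]]]]]]]],[[[[[[],[[[Int.negSucc (nat_lit 24349594959297794027)]]]]]]],[[[[[[[Int.negSucc (nat_lit 36048338494566866063)]]]]]]]],[[[],[[[[[[Int.negSucc (nat_lit 23522332993678811723)]]]]]]]]],[[[[[[[[],[[Int.negSucc (nat_lit 8568490640717037431)]]]]]],[[[[[[Int.negSucc (nat_lit 146619353987915526311)]]]]]]]],[[],[[[[[[[Int.negSucc (nat_lit 32918085600014831459)]]]]]]]]],[[[[],[[[[[[Int.negSucc (nat_lit 8568490640717037431)]]]]]]]]]]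

/-- A coefficient. -/
noncomputable def sr6_m5_0_6 : MP 10 :=
  [[[[[[[[],[[[Int.negSucc (nat_lit 201687858279658667759)]]]]]],[[[[[],[[Int.ofNat (nat_lit 1122541629818869932)]]]]]]],[[[[[],[[[Int.negSucc (nat_lit 26293811183230545407)]]]]]]]],[[[[[[[],[[Int.negSucc (nat_lit 58301907535658406827)]]]]]],[[[[[[Int.ofNat (nat_lit 201687858279658667760)]]]]]]],[[],[[[[[[Int.ofNat (nat_lit 27416352813049415340)]]]]]]]],[[],[[[[[[[Int.negSucc (nat_lit 58301907535658406827)]]]]]]]]],[[[[[[[],[[[Int.negSucc (nat_lit 96695641630580549375)]]]]]],[],[[[[[[Int.ofNat (nat_lit 1122541629818869932)]]]]]]],[[[[[[[Int.negSucc (nat_lit 201687858279658667759)]]]]]]],[[[[[[[Int.negSucc (nat_lit 26293811183230545407)]]]]]]]],[[[],[[[[[[Int.ofNat (nat_lit 38393734094922142548)]]]]]]]]],[[[],[[[[[[[Int.negSucc (nat_lit 96695641630580549375)]]]]]]]]]]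

/-- A coefficient. -/
noncomputable def sr6_m5_0_7 : MP 10 :=
  [[[[[[[[[],[[Int.ofNat (nat_lit 133984812604721313984)]]]]]]]],[[[[[[],[[[Int.negSucc (nat_lit 91847238678869403875)]]]]]]],[[[[[[[Int.ofNat (nat_lit 133984812604721313984)]]]]]]]],[[[],[[[[[[Int.ofNat (nat_lit 91847238678869403876)]]]]]]]]],[[[[[[[[],[[Int.ofNat (nat_lit 32887106940779580252)]]]]]],[[[[[[Int.ofNat (nat_lit 133984812604721313984)]]]]]]]],[[],[[[[[[[Int.negSucc (nat_lit 58960131738089823623)]]]]]]]]],[[[[],[[[[[[Int.ofNat (nat_lit 32887106940779580252)]]]]]]]]]]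

/-- A coefficient. -/
noncomputable def sr6_m5_0_8 : MP 10 :=
  [[[[[[[[],[[[Int.ofNat (nat_lit 93873750355996837260)]]]]]]]],[[[],[[[[[[Int.negSucc (nat_lit 93873750355996837259)]]]]]]]]],[[[],[[[[[[[Int.ofNat (nat_lit 93873750355996837260)]]]]]]]]]]

/-- A coefficient. -/
noncomputable def sr6_m5_0_9 : MP 10 :=
  [[[[[[[[[],[[Int.ofNat (nat_lit 10559102683446152136)]]]]]]]],[[],[[[[[[[Int.ofNat (nat_lit 10559102683446152136)]]]]]]]]],[[[[],[[[[[[Int.ofNat (nat_lit 10559102683446152136)]]]]]]]]]]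

/-- A coefficient. -/
noncomputable def sr6_m5_1_0 : MP 10 :=
  [[[[[[[[[],[],[[Int.ofNat (nat_lit 4776697841165553660)]]],[[[Int.ofNat (nat_lit 16916855088263959620)]]],[[[Int.ofNat (nat_lit 5595881852618212884)]]]],[[[],[[Int.negSucc (nat_lit 18826307750100899531)]]]],[[],[[[Int.ofNat (nat_lit 1843446617281355580)]]]]],[[[],[[[Int.negSucc (nat_lit 28991715143133910475)]]]],[[[],[[Int.negSucc (nat_lit 983896434379356959)]]]]],[[[],[[[Int.ofNat (nat_lit 4231333832038691340)]]]]]],[[[[[],[[Int.negSucc (nat_lit 61462881192137935331)]]],[[],[[Int.ofNat (nat_lit 108499098830566872)]]]],[[],[[[Int.negSucc (nat_lit 8968498938058616423)]]]]],[[[[],[[Int.ofNat (nat_lit 12057869225508966180)]]]]]],[[[[],[[[Int.negSucc (nat_lit 11470418866314846791)]]]]]]],[[[[[[],[],[[Int.negSucc (nat_lit 2565882010075413767)]]],[[[Int.negSucc (nat_lit 75748347523249217219)]]],[[[Int.negSucc (nat_lit 2946762905187219551)]]]],[[[],[[Int.ofNat (nat_lit 10830800766645947088)]]]]],[[[],[[[Int.ofNat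 (nat_lit 8399475301107847788)]]]]]],[[[[[],[[Int.ofNat (nat_lit 19267041268461518556)]]]]]]],[[[[[],[[[Int.ofNat (nat_lit 14353144515235544340)]]]]]]]],[[[[[[[],[[Int.negSucc (nat_lit 57918861853579016363)]]],[[],[[Int.ofNat (nat_lit 2424280579252183584)]]]],[[],[[[Int.ofNat (nat_lit 13679404047650316276)]]]]],[[[[],[[Int.negSucc (nat_lit 12730056742324533899)]]]]]],[[[[[[Int.negSucc (nat_lit 16916855088263959619)]]],[[[Int.negSucc (nat_lit 35492998640509673003)]]]],[],[[[[Int.negSucc (nat_lit 1843446617281355579)]]]]],[[[[[Int.ofNat (nat_lit 28991715143133910476)]]]]],[[[[[Int.negSucc (nat_lit 4231333832038691339)]]]]]],[[[[[],[[Int.ofNat (nat_lit 3718099412542128204)]]]],[[[[Int.ofNat (nat_lit 8968498938058616424)]]]]]],[[[[[[Int.ofNat (nat_lit 11470418866314846792)]]]]]]],[[[[[[],[[Int.ofNat (nat_lit 67993457420824523232)]]]],[[[[Int.negSucc (nat_lit 18826307750100899531)]]]]],[[],[[[[Int.negSucc (nat_lit 983896434379356959)]]]]]],[[[[[[Int.ofNat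 (nat_lit 14285466331111281888)]]],[[[Int.ofNat (nat_lit 21139317517578366360)]]]]],[[[[[Int.ofNat (nat_lit 3658393924401118392)]]]]]]],[[[[[[],[[Int.negSucc (nat_lit 17035143815509675019)]]]],[[[[Int.ofNat (nat_lit 10830800766645947088)]]]]]],[[[[[[Int.ofNat (nat_lit 4913896753225974216)]]]]]]]],[[[[[[],[[[Int.negSucc (nat_lit 6963274696152575039)]]]],[[[],[[Int.ofNat (nat_lit 2175607724834453388)]]]]],[[[],[[[Int.ofNat (nat_lit 2132674779234105888)]]]]]],[[[[[],[[Int.negSucc (nat_lit 9238266912926540927)]]]],[[[[Int.negSucc (nat_lit 13679404047650316275)]]]]]],[[[[[[Int.ofNat (nat_lit 29897116787891460120)]]]]]]],[[[[[[[Int.negSucc (nat_lit 57918861853579016363)]]],[[[Int.negSucc (nat_lit 12968377014557517695)]]]]],[[[[[Int.negSucc (nat_lit 12730056742324533899)]]]]]],[],[[[[[[Int.negSucc (nat_lit 14365956101018451731)]]]]]]],[[[[[[[Int.ofNat (nat_lit 63216759579658969572)]]]]]]],[[[[[[[Int.negSucc (nat_lit 14469261805434261251)]]]]]]]],[[[[[[[],[[Int.ofNat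 (nat_lit 17954688247535134512)]]]]]],[[[[[[Int.ofNat (nat_lit 6963274696152575040)]]]]],[[[[[Int.negSucc (nat_lit 2132674779234105887)]]]]]]],[[[[],[[[[Int.ofNat (nat_lit 2175607724834453388)]]]]]],[[[[[[Int.ofNat (nat_lit 6154390680883160352)]]]]]]]],[[[[[[],[[[Int.negSucc (nat_lit 1366136745594395519)]]]]]]],[[[[[[[Int.ofNat (nat_lit 17954688247535134512)]]]]]]]],[[[],[[[[[[Int.ofNat (nat_lit 1366136745594395520)]]]]]]]]],[[[[[[[[],[],[[Int.ofNat (nat_lit 1810332076062492828)]]],[[[Int.ofNat (nat_lit 374797394599591824)]]],[[[Int.ofNat (nat_lit 2065177531230242988)]]]],[[[],[[Int.negSucc (nat_lit 5810404911136749299)]]]]],[[[],[[[Int.negSucc (nat_lit 21235674620518784519)]]]]]],[[[[[],[[Int.negSucc (nat_lit 35025507494349120911)]]]],[[[[Int.negSucc (nat_lit 18826307750100899531)]]]]],[[],[[[[Int.negSucc (nat_lit 983896434379356959)]]]]]],[[[[[[Int.negSucc (nat_lit 61462881192137935331)]]],[[[Int.negSucc (nat_lit 4377744151887345491)]]]]],[[[[[Int.ofNat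 (nat_lit 12057869225508966180)]]]]]]],[[[[[[[Int.ofNat (nat_lit 16916855088263959620)]]],[[[Int.negSucc (nat_lit 47683454118050159699)]]]],[],[[[[Int.ofNat (nat_lit 1843446617281355580)]]]]],[[[[[Int.negSucc (nat_lit 28991715143133910475)]]]]],[[[[[Int.ofNat (nat_lit 4231333832038691340)]]]]]],[[[[[],[[Int.ofNat (nat_lit 1752344540812401072)]]]],[[[[Int.ofNat (nat_lit 1862301828587330664)]]]]]],[[[[[[Int.ofNat (nat_lit 7796622402146671764)]]]]]]],[[[[[[[Int.negSucc (nat_lit 75748347523249217219)]]],[[[Int.negSucc (nat_lit 2668151114051359703)]]]]],[[[[[Int.ofNat (nat_lit 8399475301107847788)]]]]]]],[[[[[[[Int.ofNat (nat_lit 14353144515235544340)]]]]]]]],[[[[[[[],[[Int.negSucc (nat_lit 87150583993539453743)]]]],[[],[[[Int.negSucc (nat_lit 1242567709427794055)]]]]],[[[[],[[Int.negSucc (nat_lit 4091180908412903483)]]]]]],[[[[[[Int.negSucc (nat_lit 58293659248178608187)]]],[[[Int.negSucc (nat_lit 32555113124492185067)]]]]],[[[[[Int.ofNat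 (nat_lit 8505617878194250620)]]]]]],[],[[[[[[Int.ofNat (nat_lit 8204342663260040568)]]]]]]],[[[[[[],[[Int.ofNat (nat_lit 39618485648940817044)]]]],[[[[Int.ofNat (nat_lit 7868999136513566976)]]]]]],[[[[[[Int.ofNat (nat_lit 46796773426921207464)]]]]]]],[[],[[[[[[Int.ofNat (nat_lit 7654408467878273676)]]]]]]]],[[[[[[],[[[Int.negSucc (nat_lit 24121263773389228787)]]]]]],[[[],[[[[Int.ofNat (nat_lit 3418175434262247444)]]]]]],[[[[[[Int.ofNat (nat_lit 23675949259587584736)]]]]]]],[[[[[[[Int.negSucc (nat_lit 94113858689692028783)]]]]],[[[[[Int.negSucc (nat_lit 1958506129178797595)]]]]]]],[[[[[[[Int.ofNat (nat_lit 22415495979068622936)]]]]]]]],[[[[[[[],[[Int.negSucc (nat_lit 2600677106354183171)]]]]]],[[[[[[Int.ofNat (nat_lit 42075952020924363300)]]]]]]]],[[],[[[[[[[Int.negSucc (nat_lit 3966813851948578691)]]]]]]]]],[[[[[[[],[[[Int.negSucc (nat_lit 16307880603383288003)]]]],[[[],[[Int.ofNat (nat_lit 1903074255497373540)]]]]],[[[],[[[Int.negSucc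 (nat_lit 5039595516639613871)]]]]]],[[[[[],[[Int.ofNat (nat_lit 4619199525915169344)]]]],[[[[Int.negSucc (nat_lit 5810404911136749299)]]]]]],[[[[[[Int.negSucc (nat_lit 39802205335514674571)]]]]]]],[[[[[[[Int.ofNat (nat_lit 374797394599591824)]]],[[[Int.negSucc (nat_lit 4157294522958745739)]]]]],[[[[[Int.negSucc (nat_lit 21235674620518784519)]]]]]],[],[[[[[[Int.negSucc (nat_lit 168016699830097523)]]]]]]],[[[[[[[Int.negSucc (nat_lit 53279335970668372583)]]]]]]],[[[[[[[Int.ofNat (nat_lit 278611791135859848)]]]]]]]],[[[[[[[],[[Int.negSucc (nat_lit 22329666262944054119)]]]]]],[[[[[[Int.negSucc (nat_lit 70842703390156165739)]]]]],[[[[[Int.ofNat (nat_lit 948414608226710388)]]]]]]],[[[[],[[[[Int.ofNat (nat_lit 660506546069579484)]]]]]],[[[[[[Int.ofNat (nat_lit 13925276904405863796)]]]]]]]],[[[[[[],[[[Int.negSucc (nat_lit 7664526789819232811)]]]]]]],[[[[[[[Int.negSucc (nat_lit 46450930036333282907)]]]]]]]],[[[],[[[[[[Int.ofNat (nat_lit 5063849683465049640)]]]]]]]]],[[[[[[[],[[[Int.negSucc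 (nat_lit 3883282946277422615)]]]]]],[[[],[[[[Int.ofNat (nat_lit 1903074255497373540)]]]]]],[[[[[[Int.ofNat (nat_lit 2808867449852676516)]]]]]]],[[[[[[[Int.negSucc (nat_lit 16307880603383288003)]]]]],[[[[[Int.negSucc (nat_lit 5039595516639613871)]]]]]]],[[[[[[[Int.negSucc (nat_lit 6222472054188988727)]]]]]]]],[[[[[[[],[[Int.ofNat (nat_lit 2807841282645891336)]]]]]],[[[[[[Int.negSucc (nat_lit 18446383316666631503)]]]]]]]],[[],[[[[[[[Int.negSucc (nat_lit 4856685507173341475)]]]]]]]]],[[[[[[[],[[[Int.ofNat (nat_lit 409562975837841852)]]]]]]],[[[[[[[Int.negSucc (nat_lit 3883282946277422615)]]]]]]]],[[[],[[[[[[Int.ofNat (nat_lit 2398278306808049484)]]]]]]]]],[[[],[[[[[[[Int.ofNat (nat_lit 409562975837841852)]]]]]]]]]]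

/-- A coefficient. -/
noncomputable def sr6_m5_1_1 : MP 10 :=
  [[[[[[[[[],[[Int.negSucc (nat_lit 92262923329771578047)]]],[[],[[Int.ofNat (nat_lit 2936942469449188068)]]]],[[],[[[Int.ofNat (nat_lit 45259541265601293072)]]]]],[[[[],[[Int.negSucc (nat_lit 29349013783580815619)]]]]]],[[[[],[[[Int.negSucc (nat_lit 59304781106215880255)]]]],[[[],[[Int.ofNat (nat_lit 3339340756496460288)]]]]],[[[],[[[Int.ofNat (nat_lit 10997983746627711708)]]]]]],[[[[[],[[Int.ofNat (nat_lit 1976589311081439948)]]]]]]],[[[[[[],[[Int.ofNat (nat_lit 132611766866215723272)]]]],[[],[[[Int.ofNat (nat_lit 8667961150101587520)]]]]],[[[[],[[Int.negSucc (nat_lit 8892402965585614787)]]]]]],[[[[],[[[Int.negSucc (nat_lit 56521153592801063579)]]]]]]],[[[[[[],[[Int.ofNat (nat_lit 36573697957052101428)]]]]]]]],[[[[[[[],[],[[Int.ofNat (nat_lit 4776465995654925084)]]],[[[Int.ofNat (nat_lit 101547406672975066452)]]],[[[Int.ofNat (nat_lit 5785201990109013396)]]]],[[[],[[Int.ofNat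 (nat_lit 54599852336170561764)]]]]],[[[],[[[Int.ofNat (nat_lit 78317482222826200968)]]]]]],[[[[[],[[Int.negSucc (nat_lit 78359480284931637623)]]]],[[[[Int.negSucc (nat_lit 45259541265601293071)]]]]]],[[[[[[Int.ofNat (nat_lit 59304781106215880256)]]]]],[[[[[Int.negSucc (nat_lit 10997983746627711707)]]]]]]],[[[[[[[Int.negSucc (nat_lit 92262923329771578047)]]],[[[Int.negSucc (nat_lit 184691495189104094123)]]]]],[[[[[Int.negSucc (nat_lit 29349013783580815619)]]]]]],[[[],[[[[Int.negSucc (nat_lit 5328620393605127231)]]]]]],[[[[[[Int.ofNat (nat_lit 58497742903882503528)]]]]]]],[[[[[[[Int.ofNat (nat_lit 132611766866215723272)]]]]],[[[[[Int.negSucc (nat_lit 8892402965585614787)]]]]]]],[[[[[[[Int.ofNat (nat_lit 36573697957052101428)]]]]]]]],[[[[[[[],[[Int.ofNat (nat_lit 75147291636123106632)]]]]]],[[[[[[Int.negSucc (nat_lit 101547406672975066451)]]],[[[Int.negSucc (nat_lit 4371488691814868699)]]]]],[[[[[Int.negSucc (nat_lit 78317482222826200967)]]]]]]],[[[[[[],[[Int.negSucc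 (nat_lit 24235185491353094339)]]]],[[[[Int.ofNat (nat_lit 54599852336170561764)]]]]]],[[[[[[Int.ofNat (nat_lit 109268957373621644568)]]]]]]]],[[[[[[],[[[Int.negSucc (nat_lit 33430579592063468531)]]]]]],[],[[[[[[Int.negSucc (nat_lit 1413713298294144695)]]]]]]],[[[[[[[Int.ofNat (nat_lit 75147291636123106632)]]]]]]],[[[[[[[Int.negSucc (nat_lit 29011651487008019423)]]]]]]]],[[[],[[[[[[Int.ofNat (nat_lit 33430579592063468532)]]]]]]]]],[[[[[[[[],[[Int.negSucc (nat_lit 116694707703301920995)]]],[[],[[Int.ofNat (nat_lit 2305175377628249232)]]]],[[],[[[Int.ofNat (nat_lit 59297693125412044668)]]]]],[[[[],[[Int.negSucc (nat_lit 40623697214435226359)]]]]]],[[[[[[Int.negSucc (nat_lit 92262923329771578047)]]],[[[Int.negSucc (nat_lit 74465024662105757111)]]]]],[[[[[Int.negSucc (nat_lit 29349013783580815619)]]]]]],[[[],[[[[Int.ofNat (nat_lit 3339340756496460288)]]]]]],[[[[[[Int.ofNat (nat_lit 1976589311081439948)]]]]]]],[[[[[[],[[Int.ofNat (nat_lit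 133079650467722725164)]]]],[[[[Int.ofNat (nat_lit 45259541265601293072)]]]]]],[[[[[[Int.ofNat (nat_lit 73306985759999843016)]]]]],[[[[[Int.ofNat (nat_lit 2105580781042096920)]]]]]]],[[[[],[[[[Int.ofNat (nat_lit 8667961150101587520)]]]]]],[[[[[[Int.negSucc (nat_lit 19947455635748962151)]]]]]]]],[[[[[[],[[[Int.ofNat (nat_lit 28487715565469575548)]]]]]],[[[[[],[[Int.negSucc (nat_lit 43370842786165020959)]]]],[[[[Int.negSucc (nat_lit 4697840789241482903)]]]]]],[[[[[[Int.negSucc (nat_lit 957513153376692443)]]]]]]],[[[[[[[Int.negSucc (nat_lit 15147301030326854543)]]],[[[Int.negSucc (nat_lit 62831576899626478367)]]]]],[[[[[Int.ofNat (nat_lit 37693785008390974608)]]]]]]],[[[[[[[Int.negSucc (nat_lit 54548787190830557027)]]]]]]]],[[[[[[[],[[Int.ofNat (nat_lit 141494504367168528240)]]]]]],[[[[[[Int.ofNat (nat_lit 46659576070653531084)]]]]]]],[[],[[[[[[Int.negSucc (nat_lit 4823292703170079775)]]]]]]]],[[],[[[[[[[Int.ofNat (nat_lit 108063924775105059708)]]]]]]]]],[[[[[[[[],[[Int.ofNat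 (nat_lit 1297713326252519016)]]]]]],[[[[[[Int.negSucc (nat_lit 116694707703301920995)]]],[[[Int.negSucc (nat_lit 39892100231396802899)]]]]],[[[[[Int.negSucc (nat_lit 40623697214435226359)]]]]]]],[[[[[[],[[Int.ofNat (nat_lit 42128337769793782368)]]]],[[[[Int.ofNat (nat_lit 59297693125412044668)]]]]]],[[[[[[Int.ofNat (nat_lit 55677683336167779984)]]]]]]]],[[[[[[],[[[Int.negSucc (nat_lit 53829850033790906999)]]]]]],[],[[[[[[Int.negSucc (nat_lit 5950033172794893911)]]]]]]],[[[[[[[Int.ofNat (nat_lit 29785428891722094564)]]]]]]],[[[[[[[Int.negSucc (nat_lit 28793616497569958627)]]]]]]]],[[[],[[[[[[Int.ofNat (nat_lit 195324354400959435240)]]]]]]]]],[[[[[[[[],[[Int.ofNat (nat_lit 25745361113412465228)]]]]]],[[[[[[Int.ofNat (nat_lit 1297713326252519016)]]]]]]],[[],[[[[[[Int.negSucc (nat_lit 68937839231269763)]]]]]]]],[[],[[[[[[[Int.negSucc (nat_lit 28084488920378441771)]]]]]]]]],[[[[],[[[[[[Int.ofNat (nat_lit 25745361113412465228)]]]]]]]]]]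

/-- A coefficient. -/
noncomputable def sr6_m5_1_2 : MP 10 :=
  [[[[[[[[[],[],[[Int.negSucc (nat_lit 720232016737812551)]]],[[[Int.ofNat (nat_lit 33770537781584671644)]]],[[[Int.ofNat (nat_lit 3688027333470737004)]]]],[[[],[[Int.negSucc (nat_lit 62639735340714328091)]]]]],[[[],[[[Int.negSucc (nat_lit 63189105279204620627)]]]]]],[[[[[],[[Int.ofNat (nat_lit 165439719461972468016)]]]]]],[[[[],[[[Int.ofNat (nat_lit 7875341033956528968)]]]]]]],[[[[[],[[[Int.ofNat (nat_lit 357576863628645662052)]]]]]],[[[[[],[[Int.ofNat (nat_lit 8640177854977383864)]]]]]]],[[[[[],[[[Int.ofNat (nat_lit 4147641364231967184)]]]]]]]],[[[[[[[],[[Int.negSucc (nat_lit 33316920667811526875)]]]],[[],[[[Int.ofNat (nat_lit 19706765196623267664)]]]]],[[[[],[[Int.negSucc (nat_lit 3953642157599968103)]]]]]],[[[[[[Int.negSucc (nat_lit 33770537781584671643)]]],[[[Int.negSucc (nat_lit 121569020823545520047)]]]]],[[[[[Int.ofNat (nat_lit 63189105279204620628)]]]]]],[],[[[[[[Int.negSucc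 (nat_lit 7875341033956528967)]]]]]]],[[[[[[],[[Int.ofNat (nat_lit 321545719488417932256)]]]],[[[[Int.negSucc (nat_lit 62639735340714328091)]]]]]],[[[[[[Int.negSucc (nat_lit 192137144166673194035)]]]]]]],[[],[[[[[[Int.ofNat (nat_lit 4492536490745416680)]]]]]]]],[[[[[[],[[[Int.ofNat (nat_lit 52774049766935952120)]]]]]],[[[],[[[[Int.negSucc (nat_lit 19706765196623267663)]]]]]],[[[[[[Int.ofNat (nat_lit 117880993490074783044)]]]]]]],[[[[[[[Int.negSucc (nat_lit 33316920667811526875)]]]]],[[[[[Int.negSucc (nat_lit 3953642157599968103)]]]]]]],[[[[[[[Int.ofNat (nat_lit 322265951505155744808)]]]]]]]],[[[[[[[],[[Int.ofNat (nat_lit 54894885212046393672)]]]]]],[[[[[[Int.negSucc (nat_lit 52774049766935952119)]]]]]]]],[[],[[[[[[[Int.ofNat (nat_lit 54894885212046393672)]]]]]]]]],[[[[[[[],[[[Int.ofNat (nat_lit 189353318206467274152)]]]],[[[],[[Int.ofNat (nat_lit 8471951361131542692)]]]]],[[[],[[[Int.ofNat (nat_lit 29639925168374883264)]]]]]],[[[[[],[[Int.ofNat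 (nat_lit 155910829951726506972)]]]],[[[[Int.negSucc (nat_lit 62639735340714328091)]]]]]],[[[[[[Int.ofNat (nat_lit 165439719461972468016)]]]]]]],[[[[[[[Int.ofNat (nat_lit 33770537781584671644)]]],[[[Int.ofNat (nat_lit 241217875129323424704)]]]]],[[[[[Int.negSucc (nat_lit 63189105279204620627)]]]]]],[],[[[[[[Int.ofNat (nat_lit 16515518888933912832)]]]]]]],[[[[[[[Int.ofNat (nat_lit 357576863628645662052)]]]]]]],[[[[[[[Int.ofNat (nat_lit 4147641364231967184)]]]]]]]],[[[[[[[],[[Int.ofNat (nat_lit 129425233810340111328)]]]]]],[[[[[[Int.negSucc (nat_lit 222670238874278801027)]]]]],[[[[[Int.negSucc (nat_lit 33593567325974851367)]]]]]]],[[[[],[[[[Int.ofNat (nat_lit 28178716557754810356)]]]]]],[[[[[[Int.ofNat (nat_lit 123486172187692593588)]]]]]]]],[[[[[[],[[[Int.ofNat (nat_lit 54469291440922209756)]]]]]]],[[[[[[[Int.ofNat (nat_lit 182199283577276063448)]]]]]]]],[[[],[[[[[[Int.ofNat (nat_lit 425593771124183916)]]]]]]]]],[[[[[[[],[[[Int.ofNat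 (nat_lit 204884380448460894792)]]]]]],[[[],[[[[Int.ofNat (nat_lit 8471951361131542692)]]]]]],[[[[[[Int.ofNat (nat_lit 156631061968464319524)]]]]]]],[[[[[[[Int.ofNat (nat_lit 189353318206467274152)]]]]],[[[[[Int.ofNat (nat_lit 29639925168374883264)]]]]]]],[[[[[[[Int.ofNat (nat_lit 237529847795852687700)]]]]]]]],[[[[[[[],[[Int.ofNat (nat_lit 51180932214019649184)]]]]]],[[[[[[Int.negSucc (nat_lit 75459146638120783463)]]]]]]]],[[],[[[[[[[Int.ofNat (nat_lit 105650223654941858940)]]]]]]]]],[[[[[[[],[[[Int.ofNat (nat_lit 16414727246295763968)]]]]]]],[[[[[[[Int.ofNat (nat_lit 204884380448460894792)]]]]]]]],[[[],[[[[[[Int.ofNat (nat_lit 34766204967723885216)]]]]]]]]],[[[],[[[[[[[Int.ofNat (nat_lit 16414727246295763968)]]]]]]]]]]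

/-- A coefficient. -/
noncomputable def sr6_m5_1_3 : MP 10 :=
  [[[[[[[[[],[[Int.negSucc (nat_lit 397381821074000233835)]]],[[],[[Int.ofNat (nat_lit 754372054710128304)]]]],[[],[[[Int.ofNat (nat_lit 5091749855564360100)]]]]],[[[[],[[Int.negSucc (nat_lit 39442499542410307235)]]]]]],[[[[],[[[Int.ofNat (nat_lit 197713303838818423164)]]]]]]],[[[[[[],[[Int.negSucc (nat_lit 370705917593560728443)]]]]]]]],[[[[[[],[[[Int.ofNat (nat_lit 533681646113005298868)]]]]]],[[[[[],[[Int.ofNat (nat_lit 4048590943542126468)]]]],[[[[Int.negSucc (nat_lit 5091749855564360099)]]]]]],[[[[[[Int.negSucc (nat_lit 197713303838818423163)]]]]]]],[[[[[[[Int.negSucc (nat_lit 397381821074000233835)]]],[[[Int.ofNat (nat_lit 82285791002689758648)]]]]],[[[[[Int.negSucc (nat_lit 39442499542410307235)]]]]]]],[[[[[[[Int.negSucc (nat_lit 370705917593560728443)]]]]]]]],[[[[[[[],[[Int.ofNat (nat_lit 145884404118270138312)]]]]]],[[[[[[Int.negSucc (nat_lit 533681646113005298867)]]]]]]],[[],[[[[[[Int.negSucc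 (nat_lit 77482828004437503875)]]]]]]]],[[],[[[[[[[Int.ofNat (nat_lit 145884404118270138312)]]]]]]]]],[[[[[[[[],[[Int.negSucc (nat_lit 552372436965801696899)]]]]]],[[[[[[Int.negSucc (nat_lit 397381821074000233835)]]],[[[Int.negSucc (nat_lit 6890850140854577723)]]]]],[[[[[Int.negSucc (nat_lit 39442499542410307235)]]]]]]],[[[[[[],[[Int.negSucc (nat_lit 65690987772345209027)]]]],[[[[Int.ofNat (nat_lit 5091749855564360100)]]]]]],[[[[[[Int.negSucc (nat_lit 172992613754742305279)]]]]]]]],[[[[[[],[[[Int.ofNat (nat_lit 290711635932711635964)]]]]]],[],[[[[[[Int.ofNat (nat_lit 11693813139106832496)]]]]]]],[[[[[[[Int.negSucc (nat_lit 18690790852796398031)]]]]]]],[[[[[[[Int.ofNat (nat_lit 15840431175634421316)]]]]]]]],[[[],[[[[[[Int.negSucc (nat_lit 144827231814441497651)]]]]]]]]],[[[[[[[[],[[Int.negSucc (nat_lit 66563896830743573339)]]]]]],[[[[[[Int.negSucc (nat_lit 552372436965801696899)]]]]]]],[[],[[[[[[Int.negSucc (nat_lit 73336209967909915055)]]]]]]]],[[],[[[[[[[Int.ofNat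 (nat_lit 224147739101968062624)]]]]]]]]],[[[[],[[[[[[Int.negSucc (nat_lit 66563896830743573339)]]]]]]]]]]

/-- A coefficient. -/
noncomputable def sr6_m5_1_4 : MP 10 :=
  [[[[[[[[],[[[Int.negSucc (nat_lit 875973686599877252915)]]]],[[[],[[Int.ofNat (nat_lit 35039042743755562380)]]]]],[[[],[[[Int.ofNat (nat_lit 55113381161919629616)]]]]]],[[[[[],[[Int.negSucc (nat_lit 126253431286299362123)]]]]]]],[[[[[],[[[Int.negSucc (nat_lit 123379934460689635811)]]]]]]]],[[[[[[[],[[Int.negSucc (nat_lit 628001127782808311735)]]]]]],[[[[[[Int.ofNat (nat_lit 875973686599877252916)]]]]],[[[[[Int.negSucc (nat_lit 55113381161919629615)]]]]]]],[[[[],[[[[Int.ofNat (nat_lit 35039042743755562380)]]]]]],[[[[[[Int.negSucc (nat_lit 2873496825609726311)]]]]]]]],[[[[[[],[[[Int.negSucc (nat_lit 14216078717472482975)]]]]]]],[[[[[[[Int.negSucc (nat_lit 628001127782808311735)]]]]]]]],[[[],[[[[[[Int.ofNat (nat_lit 14216078717472482976)]]]]]]]]],[[[[[[[],[[[Int.negSucc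 (nat_lit 635661217237864939643)]]]]]],[[[],[[[[Int.ofNat (nat_lit 35039042743755562380)]]]]]],[[[[[[Int.negSucc (nat_lit 126253431286299362123)]]]]]]],[[[[[[[Int.negSucc (nat_lit 875973686599877252915)]]]]],[[[[[Int.ofNat (nat_lit 55113381161919629616)]]]]]]],[[[[[[[Int.negSucc (nat_lit 123379934460689635811)]]]]]]]],[[[[[[[],[[Int.ofNat (nat_lit 12625173244363953000)]]]]]],[[[[[[Int.ofNat (nat_lit 7660089455056627908)]]]]]]]],[[],[[[[[[[Int.negSucc (nat_lit 1590905473108529975)]]]]]]]]],[[[[[[[],[[[Int.negSucc (nat_lit 5519107722366722063)]]]]]]],[[[[[[[Int.negSucc (nat_lit 635661217237864939643)]]]]]]]],[[[],[[[[[[Int.ofNat (nat_lit 18144280966730675064)]]]]]]]]],[[[],[[[[[[[Int.negSucc (nat_lit 5519107722366722063)]]]]]]]]]]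

/-- A coefficient. -/
noncomputable def sr6_m5_1_5 : MP 10 :=
  [[[[[[[[[],[[Int.ofNat (nat_lit 924849432849983740752)]]]]]],[[[[],[[[Int.negSucc (nat_lit 61394901728416853975)]]]]]]],[[[[[[],[[Int.ofNat (nat_lit 131639588856744189144)]]]]]]]],[[[[[[],[[[Int.negSucc (nat_lit 133104606793383975851)]]]]]],[],[[[[[[Int.ofNat (nat_lit 61394901728416853976)]]]]]]],[[[[[[[Int.ofNat (nat_lit 924849432849983740752)]]]]]]],[[[[[[[Int.ofNat (nat_lit 131639588856744189144)]]]]]]]],[[[],[[[[[[Int.ofNat (nat_lit 133104606793383975852)]]]]]]]]],[[[[[[[[],[[Int.ofNat (nat_lit 551282006502424348284)]]]]]],[[[[[[Int.ofNat (nat_lit 924849432849983740752)]]]]]]],[[],[[[[[[Int.ofNat (nat_lit 70244687128327335168)]]]]]]]],[[],[[[[[[[Int.ofNat (nat_lit 418177399709040372432)]]]]]]]]],[[[[],[[[[[[Int.ofNat (nat_lit 551282006502424348284)]]]]]]]]]]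

/-- A coefficient. -/
noncomputable def sr6_m5_1_6 : MP 10 :=
  [[[[[[[[],[[[Int.ofNat (nat_lit 571396015896425274024)]]]]]]]],[[[[[[[],[[Int.ofNat (nat_lit 331334945381510305428)]]]]]],[[[[[[Int.negSucc (nat_lit 571396015896425274023)]]]]]]]],[[],[[[[[[[Int.ofNat (nat_lit 331334945381510305428)]]]]]]]]],[[[[[[[],[[[Int.ofNat (nat_lit 245854417402217079780)]]]]]]],[[[[[[[Int.ofNat (nat_lit 571396015896425274024)]]]]]]]],[[[],[[[[[[Int.ofNat (nat_lit 85480527979293225648)]]]]]]]]],[[[],[[[[[[[Int.ofNat (nat_lit 245854417402217079780)]]]]]]]]]]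

/-- A coefficient. -/
noncomputable def sr6_m5_1_7 : MP 10 :=
  [[[[[[[[[],[[Int.negSucc (nat_lit 400274174181744249107)]]]]]]]],[[],[[[[[[[Int.negSucc (nat_lit 400274174181744249107)]]]]]]]]],[[[[],[[[[[[Int.negSucc (nat_lit 400274174181744249107)]]]]]]]]]]

/-- A coefficient. -/
noncomputable def sr6_m5_1_8 : MP 10 :=
  [[[[[[[[],[[[Int.negSucc (nat_lit 21611323462376161379)]]]]]]]],[[[],[[[[[[Int.ofNat (nat_lit 21611323462376161380)]]]]]]]]],[[[],[[[[[[[Int.negSucc (nat_lit 21611323462376161379)]]]]]]]]]]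

/-- A coefficient. -/
noncomputable def sr6_m5_2_0 : MP 10 :=
  [[[[[[[[[],[],[[Int.negSucc (nat_lit 4358166619352010707)]]],[[[Int.negSucc (nat_lit 53154129274697362367)]]],[[[Int.negSucc (nat_lit 5409122147803982483)]]]],[[[],[[Int.ofNat (nat_lit 24705263983084269924)]]]]],[[[],[[[Int.ofNat (nat_lit 41883192710976688776)]]]]]],[[[[[],[[Int.ofNat (nat_lit 120167953952114828232)]]]],[[],[[[Int.ofNat (nat_lit 6531281603636678100)]]]]],[[[[],[[Int.ofNat (nat_lit 1943075954999178984)]]]]]],[[[[],[[[Int.ofNat (nat_lit 21749732023554132984)]]]]]]],[[[[[],[[[Int.ofNat (nat_lit 141646642773550062780)]]]],[[[],[[Int.negSucc (nat_lit 8270009484898446875)]]]]],[[[],[[[Int.ofNat (nat_lit 6956232665887253592)]]]]]],[[[[[],[[Int.negSucc (nat_lit 44393787323280408683)]]]]]]],[[[[[],[[[Int.negSucc (nat_lit 39838085117281864835)]]]]]]]],[[[[[[[],[[Int.ofNat (nat_lit 222916752404569995480)]]],[[],[[Int.negSucc (nat_lit 2654230744182899891)]]]],[[],[[[Int.negSucc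 (nat_lit 6793515928531183487)]]]]],[[[[],[[Int.negSucc (nat_lit 26828004273395121731)]]]]]],[[[[[[Int.ofNat (nat_lit 53154129274697362368)]]],[[[Int.ofNat (nat_lit 25060662465557433456)]]]]],[[[[[Int.negSucc (nat_lit 41883192710976688775)]]]]]],[[[],[[[[Int.negSucc (nat_lit 6531281603636678099)]]]]]],[[[[[[Int.negSucc (nat_lit 21749732023554132983)]]]]]]],[[[[[[],[[Int.negSucc (nat_lit 53390271354230853947)]]]],[[[[Int.ofNat (nat_lit 24705263983084269924)]]]]]],[[[[[[Int.negSucc (nat_lit 21478688821435234547)]]]]],[[[[[Int.negSucc (nat_lit 5013156710888074607)]]]]]]],[[[[],[[[[Int.negSucc (nat_lit 8270009484898446875)]]]]]],[[[[[[Int.negSucc (nat_lit 4555702205998543847)]]]]]]]],[[[[[[],[[[Int.negSucc (nat_lit 73949047259113642175)]]]]]],[[[[[],[[Int.ofNat (nat_lit 7180188406767191064)]]]],[[[[Int.ofNat (nat_lit 6793515928531183488)]]]]]],[[[[[[Int.negSucc (nat_lit 19651540317753450971)]]]]]]],[[[[[[[Int.ofNat (nat_lit 222916752404569995480)]]],[[[Int.ofNat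 (nat_lit 749449837076031852)]]]]],[[[[[Int.negSucc (nat_lit 26828004273395121731)]]]]]]],[[[[[[[Int.negSucc (nat_lit 49032104734878843239)]]]]]]]],[[[[[[[],[[Int.negSucc (nat_lit 33538140561004358327)]]]]]],[[[[[[Int.ofNat (nat_lit 73949047259113642176)]]]]]]],[[],[[[[[[Int.ofNat (nat_lit 3776507825508259320)]]]]]]]],[[],[[[[[[[Int.negSucc (nat_lit 33538140561004358327)]]]]]]]]],[[[[[[[[],[],[[Int.ofNat (nat_lit 2538219916098578916)]]],[[[Int.ofNat (nat_lit 21346654798708931832)]]],[[[Int.ofNat (nat_lit 2596502172167859300)]]]],[[[],[[Int.ofNat (nat_lit 10736399383280551044)]]]]],[[[],[[[Int.ofNat (nat_lit 24825483427131257388)]]]]]],[[[[[],[[Int.ofNat (nat_lit 31658644576890571548)]]]],[[[[Int.ofNat (nat_lit 24705263983084269924)]]]]]],[[[[[[Int.ofNat (nat_lit 120167953952114828232)]]]]],[[[[[Int.ofNat (nat_lit 1943075954999178984)]]]]]]],[[[[[[[Int.negSucc (nat_lit 53154129274697362367)]]],[[[Int.ofNat (nat_lit 15229596512972375724)]]]]],[[[[[Int.ofNat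 (nat_lit 41883192710976688776)]]]]]],[[[],[[[[Int.negSucc (nat_lit 1738727881261768775)]]]]]],[[[[[[Int.negSucc (nat_lit 22644055299726275699)]]]]]]],[[[[[[[Int.ofNat (nat_lit 141646642773550062780)]]]]],[[[[[Int.ofNat (nat_lit 6956232665887253592)]]]]]]],[[[[[[[Int.negSucc (nat_lit 39838085117281864835)]]]]]]]],[[[[[[[],[[Int.ofNat (nat_lit 276561153455640557520)]]]]]],[[[[[[Int.ofNat (nat_lit 201570097605861063648)]]],[[[Int.ofNat (nat_lit 19187681759981068824)]]]]],[[[[[Int.negSucc (nat_lit 51653487700526379119)]]]]]]],[[[[[[],[[Int.negSucc (nat_lit 24028944883164389111)]]]],[[[[Int.ofNat (nat_lit 3942883454749367556)]]]]]],[[[[[[Int.negSucc (nat_lit 14002471881659168219)]]]]]]]],[[[[[[],[[[Int.negSucc (nat_lit 23914937269551509867)]]]]]],[],[[[[[[Int.negSucc (nat_lit 17258226269564636951)]]]]]]],[[[[[[[Int.ofNat (nat_lit 202612106196526915344)]]]]]]],[[[[[[[Int.negSucc (nat_lit 23163484218004036283)]]]]]]]],[[[],[[[[[[Int.negSucc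 (nat_lit 9623203291452848459)]]]]]]]]],[[[[[[[],[[[Int.ofNat (nat_lit 58533912660222488544)]]]]]],[[[[[],[[Int.negSucc (nat_lit 10335797778126671291)]]]],[[[[Int.ofNat (nat_lit 10736399383280551044)]]]]]],[[[[[[Int.ofNat (nat_lit 36016811196242582256)]]]]]]],[[[[[[[Int.ofNat (nat_lit 21346654798708931832)]]],[[[Int.negSucc (nat_lit 14380451253040591115)]]]]],[[[[[Int.ofNat (nat_lit 24825483427131257388)]]]]]]],[[[[[[[Int.ofNat (nat_lit 20638718660776358208)]]]]]]]],[[[[[[[],[[Int.ofNat (nat_lit 69475633397681492100)]]]]]],[[[[[[Int.ofNat (nat_lit 218027240795418068976)]]]]]]],[[],[[[[[[Int.ofNat (nat_lit 1974185608052060196)]]]]]]]],[[],[[[[[[[Int.ofNat (nat_lit 45560696128129982232)]]]]]]]]],[[[[[[[],[[[Int.ofNat (nat_lit 9541437368286155892)]]]]]],[],[[[[[[Int.negSucc (nat_lit 12874017694225250207)]]]]]]],[[[[[[[Int.ofNat (nat_lit 58533912660222488544)]]]]]]],[[[[[[[Int.negSucc (nat_lit 16976953425208450415)]]]]]]]],[[[],[[[[[[Int.ofNat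 (nat_lit 59934196029395336208)]]]]]]]]],[[[],[[[[[[[Int.ofNat (nat_lit 9541437368286155892)]]]]]]]]]]

/-- A coefficient. -/
noncomputable def sr6_m5_2_1 : MP 10 :=
  [[[[[[[[[],[[Int.ofNat (nat_lit 123564826812511661712)]]],[[],[[Int.negSucc (nat_lit 1181357542671853667)]]]],[[],[[[Int.negSucc (nat_lit 69501915453782841335)]]]]],[[[[],[[Int.ofNat (nat_lit 23285634751718875512)]]]]]],[[[[],[[[Int.negSucc (nat_lit 4505279872531654199)]]]]]],[[[[[],[[Int.negSucc (nat_lit 2914902454134132587)]]]]]]],[[[[[[],[[Int.negSucc (nat_lit 53329387893750832751)]]]]]],[[[[],[[[Int.ofNat (nat_lit 19348713352985574588)]]]]]]],[[[[[[],[[Int.negSucc (nat_lit 6422052297884809787)]]]]]]]],[[[[[[],[[[Int.ofNat (nat_lit 156612268141029841200)]]]],[[[],[[Int.negSucc (nat_lit 48143945849895520907)]]]]],[[[],[[[Int.negSucc (nat_lit 48411206315171625911)]]]]]],[[[[[],[[Int.ofNat (nat_lit 71704736388072991836)]]]],[[[[Int.ofNat (nat_lit 69501915453782841336)]]]]]],[[[[[[Int.ofNat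 (nat_lit 4505279872531654200)]]]]]]],[[[[[[[Int.ofNat (nat_lit 123564826812511661712)]]],[[[Int.ofNat (nat_lit 202953338485881882516)]]]]],[[[[[Int.ofNat (nat_lit 23285634751718875512)]]]]]],[],[[[[[[Int.negSucc (nat_lit 22263615807119707175)]]]]]]],[[[[[[[Int.negSucc (nat_lit 53329387893750832751)]]]]]]],[[[[[[[Int.negSucc (nat_lit 6422052297884809787)]]]]]]]],[[[[[[[],[[Int.ofNat (nat_lit 187716687259261952292)]]]]]],[[[[[[Int.negSucc (nat_lit 156612268141029841199)]]]]],[[[[[Int.ofNat (nat_lit 48411206315171625912)]]]]]]],[[[[],[[[[Int.negSucc (nat_lit 48143945849895520907)]]]]]],[[[[[[Int.negSucc (nat_lit 132429959640480744347)]]]]]]]],[[[[[[],[[[Int.ofNat (nat_lit 9441561940787727792)]]]]]]],[[[[[[[Int.ofNat (nat_lit 187716687259261952292)]]]]]]]],[[[],[[[[[[Int.negSucc (nat_lit 9441561940787727791)]]]]]]]]],[[[[[[[[],[[Int.ofNat (nat_lit 96760670292317492448)]]]],[[],[[[Int.negSucc (nat_lit 39495294973471443455)]]]]],[[[[],[[Int.ofNat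 (nat_lit 6399371728665463524)]]]]]],[[[[[[Int.ofNat (nat_lit 123564826812511661712)]]],[[[Int.ofNat (nat_lit 5485717580650823676)]]]]],[[[[[Int.ofNat (nat_lit 23285634751718875512)]]]]]],[],[[[[[[Int.negSucc (nat_lit 2914902454134132587)]]]]]]],[[[[[[],[[Int.negSucc (nat_lit 13362153602393492075)]]]],[[[[Int.negSucc (nat_lit 69501915453782841335)]]]]]],[[[[[[Int.negSucc (nat_lit 57834667766282486951)]]]]]]],[[],[[[[[[Int.ofNat (nat_lit 12926661055100764800)]]]]]]]],[[[[[[],[[[Int.ofNat (nat_lit 293362142273285468112)]]]]]],[[[],[[[[Int.negSucc (nat_lit 8648650876424077451)]]]]]],[[[[[[Int.ofNat (nat_lit 65037661264750314492)]]]]]]],[[[[[[[Int.ofNat (nat_lit 253372938433347333648)]]]]],[[[[[Int.negSucc (nat_lit 42011834586506162387)]]]]]]],[[[[[[[Int.ofNat (nat_lit 190772542426160244108)]]]]]]]],[[[[[[[],[[Int.negSucc (nat_lit 29184195543313034555)]]]]]],[[[[[[Int.negSucc (nat_lit 105645455014023515819)]]]]]]]],[[],[[[[[[[Int.negSucc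 (nat_lit 19742633602525306763)]]]]]]]]],[[[[[[[[],[[Int.negSucc (nat_lit 5504901035396735063)]]]]]],[[[[[[Int.ofNat (nat_lit 96760670292317492448)]]]]],[[[[[Int.ofNat (nat_lit 6399371728665463524)]]]]]]],[[[[],[[[[Int.negSucc (nat_lit 39495294973471443455)]]]]]],[[[[[[Int.negSucc (nat_lit 6695078479070814731)]]]]]]]],[[[[[[],[[[Int.ofNat (nat_lit 45723937969861653432)]]]]]]],[[[[[[[Int.ofNat (nat_lit 287857241237888733048)]]]]]]]],[[[],[[[[[[Int.negSucc (nat_lit 74908133513174687987)]]]]]]]]],[[[[[[[[],[[Int.negSucc (nat_lit 4867593615889495343)]]]]]],[[[[[[Int.negSucc (nat_lit 5504901035396735063)]]]]]]]],[[],[[[[[[[Int.ofNat (nat_lit 40856344353972158088)]]]]]]]]],[[[[],[[[[[[Int.negSucc (nat_lit 4867593615889495343)]]]]]]]]]]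

/-- A coefficient. -/
noncomputable def sr6_m5_2_2 : MP 10 :=
  [[[[[[[[[],[],[[Int.negSucc (nat_lit 4535019536768426567)]]],[[[Int.negSucc (nat_lit 372504625914709488575)]]],[[[Int.negSucc (nat_lit 6746435896618274687)]]]],[[[],[[Int.negSucc (nat_lit 6911235986342505827)]]]]],[[[],[[[Int.negSucc (nat_lit 101401372456119750563)]]]]]],[[[[[],[[Int.negSucc (nat_lit 145722984729747005411)]]]]]]],[[[[[],[[[Int.negSucc (nat_lit 211167245393911691267)]]]]]]]],[[[[[[[],[[Int.negSucc (nat_lit 903228161395357735967)]]]]]],[[[[[[Int.ofNat (nat_lit 372504625914709488576)]]],[[[Int.ofNat (nat_lit 55544798734893260652)]]]]],[[[[[Int.ofNat (nat_lit 101401372456119750564)]]]]]]],[[[[[[],[[Int.negSucc (nat_lit 123735083576013886739)]]]],[[[[Int.negSucc (nat_lit 6911235986342505827)]]]]]],[[[[[[Int.ofNat (nat_lit 65444260664164685856)]]]]]]]],[[[[[[],[[[Int.ofNat (nat_lit 410999226097604421432)]]]]]],[],[[[[[[Int.negSucc (nat_lit 48798362838274985963)]]]]]]],[[[[[[[Int.negSucc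 (nat_lit 903228161395357735967)]]]]]]],[[[[[[[Int.negSucc (nat_lit 119200064039245460171)]]]]]]]],[[[],[[[[[[Int.negSucc (nat_lit 410999226097604421431)]]]]]]]]],[[[[[[[],[[[Int.negSucc (nat_lit 540639458151788941139)]]]]]],[[[[[],[[Int.negSucc (nat_lit 50178469844415185315)]]]],[[[[Int.negSucc (nat_lit 6911235986342505827)]]]]]],[[[[[[Int.negSucc (nat_lit 145722984729747005411)]]]]]]],[[[[[[[Int.negSucc (nat_lit 372504625914709488575)]]],[[[Int.negSucc (nat_lit 55368466421485941395)]]]]],[[[[[Int.negSucc (nat_lit 101401372456119750563)]]]]]]],[[[[[[[Int.negSucc (nat_lit 211167245393911691267)]]]]]]]],[[[[[[[],[[Int.negSucc (nat_lit 786321317234336845823)]]]]]],[[[[[[Int.negSucc (nat_lit 362588703243568794827)]]]]]]],[[],[[[[[[Int.negSucc (nat_lit 67423120983749566247)]]]]]]]],[[],[[[[[[[Int.negSucc (nat_lit 375322091136732424391)]]]]]]]]],[[[[[[[],[[[Int.negSucc (nat_lit 171318847245008909195)]]]]]],[],[[[[[[Int.negSucc (nat_lit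 45643450307646758747)]]]]]]],[[[[[[[Int.negSucc (nat_lit 540639458151788941139)]]]]]]],[[[[[[[Int.negSucc (nat_lit 48622030524867666707)]]]]]]]],[[[],[[[[[[Int.negSucc (nat_lit 615002469989327936627)]]]]]]]]],[[[],[[[[[[[Int.negSucc (nat_lit 171318847245008909195)]]]]]]]]]]

/-- A coefficient. -/
noncomputable def sr6_m5_2_3 : MP 10 :=
  [[[[[[[[[],[[Int.ofNat (nat_lit 1016525910531194976180)]]]],[[],[[[Int.negSucc (nat_lit 16090039093888981379)]]]]],[[[[],[[Int.ofNat (nat_lit 29132436163515307572)]]]]]],[[[[],[[[Int.negSucc (nat_lit 129224347124518273031)]]]]]]],[[[[[[],[[Int.negSucc (nat_lit 14430605461841320211)]]]]]]]],[[[[[[],[[[Int.negSucc (nat_lit 1375731409849227885671)]]]]]],[[[],[[[[Int.ofNat (nat_lit 16090039093888981380)]]]]]],[[[[[[Int.ofNat (nat_lit 129224347124518273032)]]]]]]],[[[[[[[Int.ofNat (nat_lit 1016525910531194976180)]]]]],[[[[[Int.ofNat (nat_lit 29132436163515307572)]]]]]]],[[[[[[[Int.negSucc (nat_lit 14430605461841320211)]]]]]]]],[[[[[[[],[[Int.negSucc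 (nat_lit 154666380086009408471)]]]]]],[[[[[[Int.ofNat (nat_lit 1375731409849227885672)]]]]]]]],[[],[[[[[[[Int.negSucc (nat_lit 154666380086009408471)]]]]]]]]],[[[[[[[[],[[Int.ofNat (nat_lit 673090288058881316028)]]]]]],[[[[[[Int.ofNat (nat_lit 1016525910531194976180)]]]]],[[[[[Int.ofNat (nat_lit 29132436163515307572)]]]]]]],[[[[],[[[[Int.negSucc (nat_lit 16090039093888981379)]]]]]],[[[[[[Int.negSucc (nat_lit 143654952586359593243)]]]]]]]],[[[[[[],[[[Int.negSucc (nat_lit 228332537998739935811)]]]]]]],[[[[[[[Int.negSucc (nat_lit 702641121790346569643)]]]]]]]],[[[],[[[[[[Int.ofNat (nat_lit 73666157912730527340)]]]]]]]]],[[[[[[[[],[[Int.negSucc (nat_lit 35205362341115252495)]]]]]],[[[[[[Int.ofNat (nat_lit 673090288058881316028)]]]]]]]],[[],[[[[[[[Int.negSucc (nat_lit 263537900339855188307)]]]]]]]]],[[[[],[[[[[[Int.negSucc (nat_lit 35205362341115252495)]]]]]]]]]]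

/-- A coefficient. -/
noncomputable def sr6_m5_2_4 : MP 10 :=
  [[[[[[[[],[[[Int.ofNat (nat_lit 1230072410129852923212)]]]]]],[[[[[],[[Int.ofNat (nat_lit 135332562974730513624)]]]]]]],[[[[[],[[[Int.ofNat (nat_lit 47852560827860892264)]]]]]]]],[[[[[[[],[[Int.ofNat (nat_lit 110551027434219474588)]]]]]],[[[[[[Int.negSucc (nat_lit 1230072410129852923211)]]]]]]],[[],[[[[[[Int.ofNat (nat_lit 87480002146869621360)]]]]]]]],[[],[[[[[[[Int.ofNat (nat_lit 110551027434219474588)]]]]]]]]],[[[[[[[],[[[Int.ofNat (nat_lit 342392893314783385044)]]]]]],[],[[[[[[Int.ofNat (nat_lit 135332562974730513624)]]]]]]],[[[[[[[Int.ofNat (nat_lit 1230072410129852923212)]]]]]]],[[[[[[[Int.ofNat (nat_lit 47852560827860892264)]]]]]]]],[[[],[[[[[[Int.negSucc (nat_lit 231841865880563910455)]]]]]]]]],[[[],[[[[[[[Int.ofNat (nat_lit 342392893314783385044)]]]]]]]]]]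

/-- A coefficient. -/
noncomputable def sr6_m5_2_5 : MP 10 :=
  [[[[[[[[[],[[Int.negSucc (nat_lit 819364737905020666079)]]]]]]]],[[[[[[],[[[Int.ofNat (nat_lit 205640704568502056364)]]]]]]],[[[[[[[Int.negSucc (nat_lit 819364737905020666079)]]]]]]]],[[[],[[[[[[Int.negSucc (nat_lit 205640704568502056363)]]]]]]]]],[[[[[[[[],[[Int.negSucc (nat_lit 569661250624105832783)]]]]]],[[[[[[Int.negSucc (nat_lit 819364737905020666079)]]]]]]]],[[],[[[[[[[Int.negSucc (nat_lit 364020546055603776419)]]]]]]]]],[[[[],[[[[[[Int.negSucc (nat_lit 569661250624105832783)]]]]]]]]]]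

/-- A coefficient. -/
noncomputable def sr6_m5_2_6 : MP 10 :=
  [[[[[[[[],[[[Int.negSucc (nat_lit 520172168110605767159)]]]]]]]],[[[],[[[[[[Int.ofNat (nat_lit 520172168110605767160)]]]]]]]]],[[[],[[[[[[[Int.negSucc (nat_lit 520172168110605767159)]]]]]]]]]]

/-- A coefficient. -/
noncomputable def sr6_m5_2_7 : MP 10 :=
  [[[[[[[[[],[[Int.ofNat (nat_lit 4375008772073743272)]]]]]]]],[[],[[[[[[[Int.ofNat (nat_lit 4375008772073743272)]]]]]]]]],[[[[],[[[[[[Int.ofNat (nat_lit 4375008772073743272)]]]]]]]]]]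

/-- A coefficient. -/
noncomputable def sr6_m5_3_0 : MP 10 :=
  [[[[[[[[[],[],[[Int.ofNat (nat_lit 260015199516678084)]]],[[[Int.ofNat (nat_lit 83888382117942373464)]]],[[[Int.ofNat (nat_lit 797219357972785704)]]]],[[[],[[Int.negSucc (nat_lit 1308375086048706323)]]]]],[[[],[[[Int.negSucc (nat_lit 9595474811175509975)]]]]]],[[[[[],[[Int.negSucc (nat_lit 67090441830327511223)]]]]]],[[[[],[[[Int.negSucc (nat_lit 8249934286641160763)]]]]]]],[[[[[],[[[Int.negSucc (nat_lit 61735290457102038563)]]]]]],[[[[[],[[Int.ofNat (nat_lit 10558482406153112184)]]]]]]],[[[[[],[[[Int.ofNat (nat_lit 10670165897860377336)]]]]]]]],[[[[[[[],[[Int.negSucc (nat_lit 345325811013804279191)]]]],[[],[[[Int.negSucc (nat_lit 3483752828678037467)]]]]],[[[[],[[Int.ofNat (nat_lit 38151753374422655124)]]]]]],[[[[[[Int.negSucc (nat_lit 83888382117942373463)]]],[[[Int.ofNat (nat_lit 72641487025111038108)]]]]],[[[[[Int.ofNat (nat_lit 9595474811175509976)]]]]]],[],[[[[[[Int.ofNat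 (nat_lit 8249934286641160764)]]]]]]],[[[[[[],[[Int.negSucc (nat_lit 85599586443382255307)]]]],[[[[Int.negSucc (nat_lit 1308375086048706323)]]]]]],[[[[[[Int.negSucc (nat_lit 5355151373225472659)]]]]]]],[[],[[[[[[Int.negSucc (nat_lit 111683491707265151)]]]]]]]],[[[[[[],[[[Int.ofNat (nat_lit 100710732593192505324)]]]]]],[[[],[[[[Int.ofNat (nat_lit 3483752828678037468)]]]]]],[[[[[[Int.negSucc (nat_lit 73438706383083823811)]]]]]]],[[[[[[[Int.negSucc (nat_lit 345325811013804279191)]]]]],[[[[[Int.ofNat (nat_lit 38151753374422655124)]]]]]]],[[[[[[[Int.negSucc (nat_lit 85859601642898933391)]]]]]]]],[[[[[[[],[[Int.ofNat (nat_lit 8746868371509017400)]]]]]],[[[[[[Int.negSucc (nat_lit 100710732593192505323)]]]]]]]],[[],[[[[[[[Int.ofNat (nat_lit 8746868371509017400)]]]]]]]]],[[[[[[[],[[[Int.negSucc (nat_lit 16166639387576254115)]]]],[[[],[[Int.negSucc (nat_lit 1523664230099736587)]]]]],[[[],[[[Int.negSucc (nat_lit 205404368505168575)]]]]]],[[[[[],[[Int.negSucc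 (nat_lit 8145886775552090099)]]]],[[[[Int.negSucc (nat_lit 1308375086048706323)]]]]]],[[[[[[Int.negSucc (nat_lit 67090441830327511223)]]]]]]],[[[[[[[Int.ofNat (nat_lit 83888382117942373464)]]],[[[Int.ofNat (nat_lit 35401943751990197784)]]]]],[[[[[Int.negSucc (nat_lit 9595474811175509975)]]]]]],[],[[[[[[Int.ofNat (nat_lit 2308548119511951420)]]]]]]],[[[[[[[Int.negSucc (nat_lit 61735290457102038563)]]]]]]],[[[[[[[Int.ofNat (nat_lit 10670165897860377336)]]]]]]]],[[[[[[[],[[Int.negSucc (nat_lit 302367171052788943259)]]]]]],[[[[[[Int.negSucc (nat_lit 329159171626228025075)]]]]],[[[[[Int.ofNat (nat_lit 38357157742927823700)]]]]]]],[[[[],[[[[Int.negSucc (nat_lit 5007417058777774055)]]]]]],[[[[[[Int.negSucc (nat_lit 55431521628901289843)]]]]]]]],[[[[[[],[[[Int.ofNat (nat_lit 26530606088046676140)]]]]]]],[[[[[[[Int.negSucc (nat_lit 201656438459596437935)]]]]]]]],[[[],[[[[[[Int.negSucc (nat_lit 17783737716537658739)]]]]]]]]],[[[[[[[],[[[Int.negSucc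 (nat_lit 36857537010546920159)]]]]]],[[[],[[[[Int.negSucc (nat_lit 1523664230099736587)]]]]]],[[[[[[Int.negSucc (nat_lit 8405901975068768183)]]]]]]],[[[[[[[Int.negSucc (nat_lit 16166639387576254115)]]]]],[[[[[Int.negSucc (nat_lit 205404368505168575)]]]]]]],[[[[[[[Int.ofNat (nat_lit 34604724394017412080)]]]]]]]],[[[[[[[],[[Int.negSucc (nat_lit 41986196098019905655)]]]]]],[[[[[[Int.negSucc (nat_lit 265509634042242023099)]]]]]]]],[[],[[[[[[[Int.negSucc (nat_lit 15455590009973229515)]]]]]]]]],[[[[[[[],[[[Int.negSucc (nat_lit 1073411242547964575)]]]]]]],[[[[[[[Int.negSucc (nat_lit 36857537010546920159)]]]]]]]],[[[],[[[[[[Int.negSucc (nat_lit 40912784855471941079)]]]]]]]]],[[[],[[[[[[[Int.negSucc (nat_lit 1073411242547964575)]]]]]]]]]]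

/-- A coefficient. -/
noncomputable def sr6_m5_3_1 : MP 10 :=
  [[[[[[[[[],[[Int.negSucc (nat_lit 59967982497106820651)]]],[[],[[Int.ofNat (nat_lit 13097818005523080)]]]],[[],[[[Int.ofNat (nat_lit 1144873784074069344)]]]]],[[[[],[[Int.ofNat (nat_lit 29787130817717636568)]]]]]],[[[[],[[[Int.ofNat (nat_lit 103197952001643913788)]]]]]]],[[[[[[],[[Int.negSucc (nat_lit 93745122085821570047)]]]]]]]],[[[[[[],[[[Int.negSucc (nat_lit 541293959148812463671)]]]]]],[[[[[],[[Int.negSucc (nat_lit 17441330015770480799)]]]],[[[[Int.negSucc (nat_lit 1144873784074069343)]]]]]],[[[[[[Int.negSucc (nat_lit 103197952001643913787)]]]]]]],[[[[[[[Int.negSucc (nat_lit 59967982497106820651)]]],[[[Int.negSucc (nat_lit 56729849953086222863)]]]]],[[[[[Int.ofNat (nat_lit 29787130817717636568)]]]]]]],[[[[[[[Int.negSucc (nat_lit 93745122085821570047)]]]]]]]],[[[[[[[],[[Int.negSucc (nat_lit 453385001914745004107)]]]]]],[[[[[[Int.ofNat (nat_lit 541293959148812463672)]]]]]]],[[],[[[[[[Int.ofNat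 (nat_lit 39301617755321265144)]]]]]]]],[[],[[[[[[[Int.negSucc (nat_lit 453385001914745004107)]]]]]]]]],[[[[[[[[],[[Int.negSucc (nat_lit 100117048655022166343)]]]]]],[[[[[[Int.negSucc (nat_lit 59967982497106820651)]]],[[[Int.ofNat (nat_lit 50880200169074937288)]]]]],[[[[[Int.ofNat (nat_lit 29787130817717636568)]]]]]]],[[[[[[],[[Int.negSucc (nat_lit 64122516611937623903)]]]],[[[[Int.ofNat (nat_lit 1144873784074069344)]]]]]],[[[[[[Int.ofNat (nat_lit 9452829915822343740)]]]]]]]],[[[[[[],[[[Int.negSucc (nat_lit 461677742854325970887)]]]]]],[],[[[[[[Int.negSucc (nat_lit 68308432366839895007)]]]]]]],[[[[[[[Int.negSucc (nat_lit 641411007803834630015)]]]]]]],[[[[[[[Int.negSucc (nat_lit 120865464383029369847)]]]]]]]],[[[],[[[[[[Int.ofNat (nat_lit 8292740939580966780)]]]]]]]]],[[[[[[[[],[[Int.negSucc (nat_lit 66046013674281508055)]]]]]],[[[[[[Int.negSucc (nat_lit 100117048655022166343)]]]]]]],[[],[[[[[[Int.negSucc (nat_lit 13255414260868209695)]]]]]]]],[[],[[[[[[[Int.negSucc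 (nat_lit 527723756528607478943)]]]]]]]]],[[[[],[[[[[[Int.negSucc (nat_lit 66046013674281508055)]]]]]]]]]]

/-- A coefficient. -/
noncomputable def sr6_m5_3_2 : MP 10 :=
  [[[[[[[[],[[[Int.ofNat (nat_lit 372098625399845343192)]]]],[[[],[[Int.ofNat (nat_lit 38414074528944613920)]]]]],[[[],[[[Int.ofNat (nat_lit 74557798637110233396)]]]]]],[[[[[],[[Int.negSucc (nat_lit 150487822538847516023)]]]]]]],[[[[[],[[[Int.negSucc (nat_lit 275052141258800370035)]]]]]]]],[[[[[[[],[[Int.ofNat (nat_lit 1358412845644521541608)]]]]]],[[[[[[Int.negSucc (nat_lit 372098625399845343191)]]]]],[[[[[Int.negSucc (nat_lit 74557798637110233395)]]]]]]],[[[[],[[[[Int.ofNat (nat_lit 38414074528944613920)]]]]]],[[[[[[Int.ofNat (nat_lit 124564318719952854012)]]]]]]]],[[[[[[],[[[Int.negSucc (nat_lit 348892198475839782659)]]]]]]],[[[[[[[Int.ofNat (nat_lit 1358412845644521541608)]]]]]]]],[[[],[[[[[[Int.ofNat (nat_lit 348892198475839782660)]]]]]]]]],[[[[[[[],[[[Int.ofNat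 (nat_lit 113185709601393944940)]]]]]],[[[],[[[[Int.ofNat (nat_lit 38414074528944613920)]]]]]],[[[[[[Int.negSucc (nat_lit 150487822538847516023)]]]]]]],[[[[[[[Int.ofNat (nat_lit 372098625399845343192)]]]]],[[[[[Int.ofNat (nat_lit 74557798637110233396)]]]]]]],[[[[[[[Int.negSucc (nat_lit 275052141258800370035)]]]]]]]],[[[[[[[],[[Int.ofNat (nat_lit 415354842592622696292)]]]]]],[[[[[[Int.ofNat (nat_lit 1245227136043127596668)]]]]]]]],[[],[[[[[[[Int.ofNat (nat_lit 66462644116782913632)]]]]]]]]],[[[[[[[],[[[Int.ofNat (nat_lit 7004393202325677972)]]]]]]],[[[[[[[Int.ofNat (nat_lit 113185709601393944940)]]]]]]]],[[[],[[[[[[Int.ofNat (nat_lit 408350449390297018320)]]]]]]]]],[[[],[[[[[[[Int.ofNat (nat_lit 7004393202325677972)]]]]]]]]]]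

/-- A coefficient. -/
noncomputable def sr6_m5_3_3 : MP 10 :=
  [[[[[[[[[],[[Int.ofNat (nat_lit 27578272365663267468)]]]]]],[[[[],[[[Int.ofNat (nat_lit 14886434933415944796)]]]]]]],[[[[[[],[[Int.ofNat (nat_lit 185231571482249644248)]]]]]]]],[[[[[[],[[[Int.ofNat (nat_lit 441581077588015761324)]]]]]],[],[[[[[[Int.negSucc (nat_lit 14886434933415944795)]]]]]]],[[[[[[[Int.ofNat (nat_lit 27578272365663267468)]]]]]]],[[[[[[[Int.ofNat (nat_lit 185231571482249644248)]]]]]]]],[[[],[[[[[[Int.negSucc (nat_lit 441581077588015761323)]]]]]]]]],[[[[[[[[],[[Int.ofNat (nat_lit 536395203539857242108)]]]]]],[[[[[[Int.ofNat (nat_lit 27578272365663267468)]]]]]]],[[],[[[[[[Int.ofNat (nat_lit 200118006415665589044)]]]]]]]],[[],[[[[[[[Int.ofNat (nat_lit 977976281127873003432)]]]]]]]]],[[[[],[[[[[[Int.ofNat (nat_lit 536395203539857242108)]]]]]]]]]]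

/-- A coefficient. -/
noncomputable def sr6_m5_3_4 : MP 10 :=
  [[[[[[[[],[[[Int.ofNat (nat_lit 228874682428803743688)]]]]]]]],[[[[[[[],[[Int.ofNat (nat_lit 132061401389227132692)]]]]]],[[[[[[Int.negSucc (nat_lit 228874682428803743687)]]]]]]]],[[],[[[[[[[Int.ofNat (nat_lit 132061401389227132692)]]]]]]]]],[[[[[[[],[[[Int.negSucc (nat_lit 30080566788675623687)]]]]]]],[[[[[[[Int.ofNat (nat_lit 228874682428803743688)]]]]]]]],[[[],[[[[[[Int.ofNat (nat_lit 162141968177902756380)]]]]]]]]],[[[],[[[[[[[Int.negSucc (nat_lit 30080566788675623687)]]]]]]]]]]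

/-- A coefficient. -/
noncomputable def sr6_m5_3_5 : MP 10 :=
  [[[[[[[[[],[[Int.negSucc (nat_lit 183778986623647609955)]]]]]]]],[[],[[[[[[[Int.negSucc (nat_lit 183778986623647609955)]]]]]]]]],[[[[],[[[[[[Int.negSucc (nat_lit 183778986623647609955)]]]]]]]]]]

/-- A coefficient. -/
noncomputable def sr6_m5_3_6 : MP 10 :=
  [[[[[[[[],[[[Int.negSucc (nat_lit 135459575497844423207)]]]]]]]],[[[],[[[[[[Int.ofNat (nat_lit 135459575497844423208)]]]]]]]]],[[[],[[[[[[[Int.negSucc (nat_lit 135459575497844423207)]]]]]]]]]]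

/-- A coefficient. -/
noncomputable def sr6_m5_4_0 : MP 10 :=
  [[[[[[[[[],[],[[Int.negSucc (nat_lit 1276518124586810147)]]],[[[Int.negSucc (nat_lit 64379730311910336851)]]],[[[Int.negSucc (nat_lit 1657691362197043631)]]]],[[[],[[Int.negSucc (nat_lit 19093263548925763175)]]]]],[[[],[[[Int.negSucc (nat_lit 28760421822045733007)]]]]]],[[[[[],[[Int.negSucc (nat_lit 23233764319161296411)]]]]]]],[[[[[],[[[Int.negSucc (nat_lit 19884986203284402695)]]]]]]]],[[[[[[[],[[Int.ofNat (nat_lit 209097570782589761604)]]]]]],[[[[[[Int.ofNat (nat_lit 64379730311910336852)]]],[[[Int.negSucc (nat_lit 53526229454044910771)]]]]],[[[[[Int.ofNat (nat_lit 28760421822045733008)]]]]]]],[[[[[[],[[Int.ofNat (nat_lit 62948512504570288344)]]]],[[[[Int.negSucc (nat_lit 19093263548925763175)]]]]]],[[[[[[Int.negSucc (nat_lit 3348778115876893715)]]]]]]]],[[[[[[],[[[Int.negSucc (nat_lit 5639506510683118919)]]]]]],[],[[[[[[Int.ofNat (nat_lit 55183920816241954404)]]]]]]],[[[[[[[Int.ofNat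 (nat_lit 209097570782589761604)]]]]]]],[[[[[[[Int.ofNat (nat_lit 64225030629157098492)]]]]]]]],[[[],[[[[[[Int.ofNat (nat_lit 5639506510683118920)]]]]]]]]],[[[[[[[],[[[Int.negSucc (nat_lit 80644597668649720859)]]]]]],[[[[[],[[Int.ofNat (nat_lit 9516638547716197044)]]]],[[[[Int.negSucc (nat_lit 19093263548925763175)]]]]]],[[[[[[Int.negSucc (nat_lit 23233764319161296411)]]]]]]],[[[[[[[Int.negSucc (nat_lit 64379730311910336851)]]],[[[Int.negSucc (nat_lit 2857753408548415355)]]]]],[[[[[Int.negSucc (nat_lit 28760421822045733007)]]]]]]],[[[[[[[Int.negSucc (nat_lit 19884986203284402695)]]]]]]]],[[[[[[[],[[Int.ofNat (nat_lit 99436121650723426608)]]]]]],[[[[[[Int.ofNat (nat_lit 289742168451239482464)]]]]]]],[[],[[[[[[Int.ofNat (nat_lit 21034328531569523004)]]]]]]]],[[],[[[[[[[Int.ofNat (nat_lit 93796615140040307688)]]]]]]]]],[[[[[[[],[[[Int.negSucc (nat_lit 41943692840934642887)]]]]]],[],[[[[[[Int.ofNat (nat_lit 10793156672303007192)]]]]]]],[[[[[[[Int.negSucc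 (nat_lit 80644597668649720859)]]]]]]],[[[[[[[Int.negSucc (nat_lit 1200062046351371723)]]]]]]]],[[[],[[[[[[Int.ofNat (nat_lit 141379814491658069496)]]]]]]]]],[[[],[[[[[[[Int.negSucc (nat_lit 41943692840934642887)]]]]]]]]]]

/-- A coefficient. -/
noncomputable def sr6_m5_4_1 : MP 10 :=
  [[[[[[[[[],[[Int.negSucc (nat_lit 33122021977417751723)]]]],[[],[[[Int.ofNat (nat_lit 32606307700924105740)]]]]],[[[[],[[Int.negSucc (nat_lit 18961246318170594827)]]]]]],[[[[],[[[Int.negSucc (nat_lit 90821099835347734811)]]]]]]],[[[[[[],[[Int.ofNat (nat_lit 65517047157850515852)]]]]]]]],[[[[[[],[[[Int.ofNat (nat_lit 304496262656197657428)]]]]]],[[[],[[[[Int.negSucc (nat_lit 32606307700924105739)]]]]]],[[[[[[Int.ofNat (nat_lit 90821099835347734812)]]]]]]],[[[[[[[Int.negSucc (nat_lit 33122021977417751723)]]]]],[[[[[Int.negSucc (nat_lit 18961246318170594827)]]]]]]],[[[[[[[Int.ofNat (nat_lit 65517047157850515852)]]]]]]]],[[[[[[[],[[Int.ofNat (nat_lit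 240078776223766502268)]]]]]],[[[[[[Int.negSucc (nat_lit 304496262656197657427)]]]]]]]],[[],[[[[[[[Int.ofNat (nat_lit 240078776223766502268)]]]]]]]]],[[[[[[[[],[[Int.ofNat (nat_lit 72648480155393035944)]]]]]],[[[[[[Int.negSucc (nat_lit 33122021977417751723)]]]]],[[[[[Int.negSucc (nat_lit 18961246318170594827)]]]]]]],[[[[],[[[[Int.ofNat (nat_lit 32606307700924105740)]]]]]],[[[[[[Int.negSucc (nat_lit 25304052677497218959)]]]]]]]],[[[[[[],[[[Int.ofNat (nat_lit 197390555811255696912)]]]]]]],[[[[[[[Int.ofNat (nat_lit 377144742811590693372)]]]]]]]],[[[],[[[[[[Int.ofNat (nat_lit 42688220412510805356)]]]]]]]]],[[[[[[[[],[[Int.ofNat (nat_lit 34447496806448730060)]]]]]],[[[[[[Int.ofNat (nat_lit 72648480155393035944)]]]]]]]],[[],[[[[[[[Int.ofNat (nat_lit 231838052617704426972)]]]]]]]]],[[[[],[[[[[[Int.ofNat (nat_lit 34447496806448730060)]]]]]]]]]]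

/-- A coefficient. -/
noncomputable def sr6_m5_4_2 : MP 10 :=
  [[[[[[[[],[[[Int.ofNat (nat_lit 443433612412696410756)]]]]]],[[[[[],[[Int.ofNat (nat_lit 122651562628564084128)]]]]]]],[[[[[],[[[Int.ofNat (nat_lit 174041138127256542252)]]]]]]]],[[[[[[[],[[Int.negSucc (nat_lit 94470863682371143883)]]]]]],[[[[[[Int.negSucc (nat_lit 443433612412696410755)]]]]]]],[[],[[[[[[Int.negSucc (nat_lit 51389575498692458123)]]]]]]]],[[],[[[[[[[Int.negSucc (nat_lit 94470863682371143883)]]]]]]]]],[[[[[[[],[[[Int.ofNat (nat_lit 556638022734726366096)]]]]]],[],[[[[[[Int.ofNat (nat_lit 122651562628564084128)]]]]]]],[[[[[[[Int.ofNat (nat_lit 443433612412696410756)]]]]]]],[[[[[[[Int.ofNat (nat_lit 174041138127256542252)]]]]]]]],[[[],[[[[[[Int.negSucc (nat_lit 651108886417097509979)]]]]]]]]],[[[],[[[[[[[Int.ofNat (nat_lit 556638022734726366096)]]]]]]]]]]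

/-- A coefficient. -/
noncomputable def sr6_m5_4_3 : MP 10 :=
  [[[[[[[[[],[[Int.negSucc (nat_lit 1448998549243536984671)]]]]]]]],[[[[[[],[[[Int.ofNat (nat_lit 286588540912018091196)]]]]]]],[[[[[[[Int.negSucc (nat_lit 1448998549243536984671)]]]]]]]],[[[],[[[[[[Int.negSucc (nat_lit 286588540912018091195)]]]]]]]]],[[[[[[[[],[[Int.negSucc (nat_lit 502418170003205460311)]]]]]],[[[[[[Int.negSucc (nat_lit 1448998549243536984671)]]]]]]]],[[],[[[[[[[Int.negSucc (nat_lit 215829629091187369115)]]]]]]]]],[[[[],[[[[[[Int.negSucc (nat_lit 502418170003205460311)]]]]]]]]]]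

/-- A coefficient. -/
noncomputable def sr6_m5_4_4 : MP 10 :=
  [[[[[[[[],[[[Int.negSucc (nat_lit 883274392131807964883)]]]]]]]],[[[],[[[[[[Int.ofNat (nat_lit 883274392131807964884)]]]]]]]]],[[[],[[[[[[[Int.negSucc (nat_lit 883274392131807964883)]]]]]]]]]]

/-- A coefficient. -/
noncomputable def sr6_m5_4_5 : MP 10 :=
  [[[[[[[[[],[[Int.ofNat (nat_lit 655684439581741519572)]]]]]]]],[[],[[[[[[[Int.ofNat (nat_lit 655684439581741519572)]]]]]]]]],[[[[],[[[[[[Int.ofNat (nat_lit 655684439581741519572)]]]]]]]]]]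

/-- A coefficient. -/
noncomputable def sr6_m5_5_0 : MP 10 :=
  [[[[[[[[],[[[Int.negSucc (nat_lit 20699237949741452747)]]]],[[[],[[Int.ofNat (nat_lit 3842133527791812396)]]]]],[[[],[[[Int.ofNat (nat_lit 14582391290508742272)]]]]]],[[[[[],[[Int.negSucc (nat_lit 1962960469048339439)]]]]]]],[[[[[],[[[Int.negSucc (nat_lit 46460878445125551731)]]]]]]]],[[[[[[[],[[Int.ofNat (nat_lit 51560709973251756432)]]]]]],[[[[[[Int.ofNat (nat_lit 20699237949741452748)]]]]],[[[[[Int.negSucc (nat_lit 14582391290508742271)]]]]]]],[[[[],[[[[Int.ofNat (nat_lit 3842133527791812396)]]]]]],[[[[[[Int.ofNat (nat_lit 44497917976077212292)]]]]]]]],[[[[[[],[[[Int.negSucc (nat_lit 26557197359715770867)]]]]]]],[[[[[[[Int.ofNat (nat_lit 51560709973251756432)]]]]]]]],[[[],[[[[[[Int.ofNat (nat_lit 26557197359715770868)]]]]]]]]],[[[[[[[],[[[Int.ofNat (nat_lit 69362342151412896300)]]]]]],[[[],[[[[Int.ofNat (nat_lit 3842133527791812396)]]]]]],[[[[[[Int.negSucc (nat_lit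 1962960469048339439)]]]]]]],[[[[[[[Int.negSucc (nat_lit 20699237949741452747)]]]]],[[[[[Int.ofNat (nat_lit 14582391290508742272)]]]]]]],[[[[[[[Int.negSucc (nat_lit 46460878445125551731)]]]]]]]],[[[[[[[],[[Int.ofNat (nat_lit 9976197516926392176)]]]]]],[[[[[[Int.negSucc (nat_lit 17801632178161139867)]]]]]]]],[[],[[[[[[[Int.negSucc (nat_lit 16580999842789378691)]]]]]]]]],[[[[[[[],[[[Int.ofNat (nat_lit 24477345787381509108)]]]]]]],[[[[[[[Int.ofNat (nat_lit 69362342151412896300)]]]]]]]],[[[],[[[[[[Int.negSucc (nat_lit 14501148270455116931)]]]]]]]]],[[[],[[[[[[[Int.ofNat (nat_lit 24477345787381509108)]]]]]]]]]]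

/-- A coefficient. -/
noncomputable def sr6_m5_5_1 : MP 10 :=
  [[[[[[[[[],[[Int.ofNat (nat_lit 90803884322149781424)]]]]]],[[[[],[[[Int.ofNat (nat_lit 19774129044449050008)]]]]]]],[[[[[[],[[Int.ofNat (nat_lit 4793675608017262908)]]]]]]]],[[[[[[],[[[Int.ofNat (nat_lit 297920534388307069932)]]]]]],[],[[[[[[Int.negSucc (nat_lit 19774129044449050007)]]]]]]],[[[[[[[Int.ofNat (nat_lit 90803884322149781424)]]]]]]],[[[[[[[Int.ofNat (nat_lit 4793675608017262908)]]]]]]]],[[[],[[[[[[Int.negSucc (nat_lit 297920534388307069931)]]]]]]]]],[[[[[[[[],[[Int.ofNat (nat_lit 66125207301749965068)]]]]]],[[[[[[Int.ofNat (nat_lit 90803884322149781424)]]]]]]],[[],[[[[[[Int.ofNat (nat_lit 24567804652466312916)]]]]]]]],[[],[[[[[[[Int.ofNat (nat_lit 364045741690057035000)]]]]]]]]],[[[[],[[[[[[Int.ofNat (nat_lit 66125207301749965068)]]]]]]]]]]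

/-- A coefficient. -/
noncomputable def sr6_m5_5_2 : MP 10 :=
  [[[[[[[[],[[[Int.negSucc (nat_lit 592375935260158761035)]]]]]]]],[[[[[[[],[[Int.negSucc (nat_lit 366062771691876978791)]]]]]],[[[[[[Int.ofNat (nat_lit 592375935260158761036)]]]]]]]],[[],[[[[[[[Int.negSucc (nat_lit 366062771691876978791)]]]]]]]]],[[[[[[[],[[[Int.negSucc (nat_lit 291988536433240811939)]]]]]]],[[[[[[[Int.negSucc (nat_lit 592375935260158761035)]]]]]]]],[[[],[[[[[[Int.negSucc (nat_lit 74074235258636166851)]]]]]]]]],[[[],[[[[[[[Int.negSucc (nat_lit 291988536433240811939)]]]]]]]]]]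

/-- A coefficient. -/
noncomputable def sr6_m5_5_3 : MP 10 :=
  [[[[[[[[[],[[Int.ofNat (nat_lit 218279011075813134228)]]]]]]]],[[],[[[[[[[Int.ofNat (nat_lit 218279011075813134228)]]]]]]]]],[[[[],[[[[[[Int.ofNat (nat_lit 218279011075813134228)]]]]]]]]]]

/-- A coefficient. -/
noncomputable def sr6_m5_5_4 : MP 10 :=
  [[[[[[[[],[[[Int.ofNat (nat_lit 319244807565500694960)]]]]]]]],[[[],[[[[[[Int.negSucc (nat_lit 319244807565500694959)]]]]]]]]],[[[],[[[[[[[Int.ofNat (nat_lit 319244807565500694960)]]]]]]]]]]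

/-- A coefficient. -/
noncomputable def sr6_m5_6_0 : MP 10 :=
  [[[[[[[[],[[[Int.ofNat (nat_lit 127155498558002882748)]]]]]],[[[[[],[[Int.ofNat (nat_lit 4955200323368697192)]]]]]]],[[[[[],[[[Int.ofNat (nat_lit 24359538603843392868)]]]]]]]],[[[[[[[],[[Int.negSucc (nat_lit 124768176801891874847)]]]]]],[[[[[[Int.negSucc (nat_lit 127155498558002882747)]]]]]]],[[],[[[[[[Int.negSucc (nat_lit 19404338280474695675)]]]]]]]],[[],[[[[[[[Int.negSucc (nat_lit 124768176801891874847)]]]]]]]]],[[[[[[[],[[[Int.ofNat (nat_lit 96835003042090170156)]]]]]],[],[[[[[[Int.ofNat (nat_lit 4955200323368697192)]]]]]]],[[[[[[[Int.ofNat (nat_lit 127155498558002882748)]]]]]]],[[[[[[[Int.ofNat (nat_lit 24359538603843392868)]]]]]]]],[[[],[[[[[[Int.negSucc (nat_lit 221603179843982045003)]]]]]]]]],[[[],[[[[[[[Int.ofNat (nat_lit 96835003042090170156)]]]]]]]]]]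

/-- A coefficient. -/
noncomputable def sr6_m5_6_1 : MP 10 :=
  [[[[[[[[[],[[Int.negSucc (nat_lit 27190474889859205763)]]]]]]]],[[[[[[],[[[Int.negSucc (nat_lit 249922777872290454023)]]]]]]],[[[[[[[Int.negSucc (nat_lit 27190474889859205763)]]]]]]]],[[[],[[[[[[Int.ofNat (nat_lit 249922777872290454024)]]]]]]]]],[[[[[[[[],[[Int.negSucc (nat_lit 51402650947395279407)]]]]]],[[[[[[Int.negSucc (nat_lit 27190474889859205763)]]]]]]]],[[],[[[[[[[Int.negSucc (nat_lit 301325428819685733431)]]]]]]]]],[[[[],[[[[[[Int.negSucc (nat_lit 51402650947395279407)]]]]]]]]]]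

/-- A coefficient. -/
noncomputable def sr6_m5_6_2 : MP 10 :=
  [[[[[[[[],[[[Int.negSucc (nat_lit 272470192196690922659)]]]]]]]],[[[],[[[[[[Int.ofNat (nat_lit 272470192196690922660)]]]]]]]]],[[[],[[[[[[[Int.negSucc (nat_lit 272470192196690922659)]]]]]]]]]]

/-- A coefficient. -/
noncomputable def sr6_m5_6_3 : MP 10 :=
  [[[[[[[[[],[[Int.ofNat (nat_lit 446245251663164354568)]]]]]]]],[[],[[[[[[[Int.ofNat (nat_lit 446245251663164354568)]]]]]]]]],[[[[],[[[[[[Int.ofNat (nat_lit 446245251663164354568)]]]]]]]]]]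

/-- A coefficient. -/
noncomputable def sr6_m5_7_0 : MP 10 :=
  [[[[[[[[],[[[Int.negSucc (nat_lit 72882521387215643135)]]]]]]]],[[[[[[[],[[Int.ofNat (nat_lit 41553268437554224284)]]]]]],[[[[[[Int.ofNat (nat_lit 72882521387215643136)]]]]]]]],[[],[[[[[[[Int.ofNat (nat_lit 41553268437554224284)]]]]]]]]],[[[[[[[],[[[Int.negSucc (nat_lit 73017283466285615579)]]]]]]],[[[[[[[Int.negSucc (nat_lit 72882521387215643135)]]]]]]]],[[[],[[[[[[Int.ofNat (nat_lit 114570551903839839864)]]]]]]]]],[[[],[[[[[[[Int.negSucc (nat_lit 73017283466285615579)]]]]]]]]]]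

/-- A coefficient. -/
noncomputable def sr6_m5_7_1 : MP 10 :=
  [[[[[[[[[],[[Int.negSucc (nat_lit 103024880498094911459)]]]]]]]],[[],[[[[[[[Int.negSucc (nat_lit 103024880498094911459)]]]]]]]]],[[[[],[[[[[[Int.negSucc (nat_lit 103024880498094911459)]]]]]]]]]]

/-- A coefficient. -/
noncomputable def sr6_m5_7_2 : MP 10 :=
  [[[[[[[[],[[[Int.ofNat (nat_lit 321273397768958272836)]]]]]]]],[[[],[[[[[[Int.negSucc (nat_lit 321273397768958272835)]]]]]]]]],[[[],[[[[[[[Int.ofNat (nat_lit 321273397768958272836)]]]]]]]]]]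

/-- A coefficient. -/
noncomputable def sr6_m5_8_0 : MP 10 :=
  [[[[[[[[],[[[Int.negSucc (nat_lit 85229643254533722875)]]]]]]]],[[[],[[[[[[Int.ofNat (nat_lit 85229643254533722876)]]]]]]]]],[[[],[[[[[[[Int.negSucc (nat_lit 85229643254533722875)]]]]]]]]]]

/-- A coefficient. -/
noncomputable def sr6_m5_8_1 : MP 10 :=
  [[[[[[[[[],[[Int.ofNat (nat_lit 61298881340490867060)]]]]]]]],[[],[[[[[[[Int.ofNat (nat_lit 61298881340490867060)]]]]]]]]],[[[[],[[[[[[Int.ofNat (nat_lit 61298881340490867060)]]]]]]]]]]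

/-- A coefficient. -/
noncomputable def sr6_m5_9_0 : MP 10 :=
  [[[[[[[[],[[[Int.ofNat (nat_lit 62632918098825902448)]]]]]]]],[[[],[[[[[[Int.negSucc (nat_lit 62632918098825902447)]]]]]]]]],[[[],[[[[[[[Int.ofNat (nat_lit 62632918098825902448)]]]]]]]]]]

/-- An expanded part. -/
noncomputable def sr6_m5 : R12 :=
  [[sr6_m5_0_0, sr6_m5_0_1, sr6_m5_0_2, sr6_m5_0_3, sr6_m5_0_4, sr6_m5_0_5, sr6_m5_0_6, sr6_m5_0_7, sr6_m5_0_8, sr6_m5_0_9],
   [sr6_m5_1_0, sr6_m5_1_1, sr6_m5_1_2, sr6_m5_1_3, sr6_m5_1_4, sr6_m5_1_5, sr6_m5_1_6, sr6_m5_1_7, sr6_m5_1_8],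
   [sr6_m5_2_0, sr6_m5_2_1, sr6_m5_2_2, sr6_m5_2_3, sr6_m5_2_4, sr6_m5_2_5, sr6_m5_2_6, sr6_m5_2_7],
   [sr6_m5_3_0, sr6_m5_3_1, sr6_m5_3_2, sr6_m5_3_3, sr6_m5_3_4, sr6_m5_3_5, sr6_m5_3_6],
   [sr6_m5_4_0, sr6_m5_4_1, sr6_m5_4_2, sr6_m5_4_3, sr6_m5_4_4, sr6_m5_4_5],
   [sr6_m5_5_0, sr6_m5_5_1, sr6_m5_5_2, sr6_m5_5_3, sr6_m5_5_4],
   [sr6_m5_6_0, sr6_m5_6_1, sr6_m5_6_2, sr6_m5_6_3],
   [sr6_m5_7_0, sr6_m5_7_1, sr6_m5_7_2],
   [sr6_m5_8_0, sr6_m5_8_1],
   [sr6_m5_9_0]]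

set_option maxRecDepth 100000 in
theorem sr6_check5 : partOk 4 sr6_rows 5 sr6_m5 = true :=
  Fast.partOk_of_fast (by decide +kernel)

end Vale.Agent.P142K.CertB
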