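import Vale.Agent.P142K.CertB.Sr6Part0
import Vale.Agent.P142K.CertB.Sr6Part1
import Vale.Agent.P142K.CertB.Sr6Part2
import Vale.Agent.P142K.CertB.Sr6Part3
import Vale.Agent.P142K.CertB.Sr6Part4
import Vale.Agent.P142K.CertB.Sr6Part5

/-!
# A weighted square of the certificate

Generated from a semidefinite program; only the checker is trusted.
-/

namespace Vale.Agent.P142K.CertB

open Vale.Agent.P142J (MP)

/-- An expanded block. -/
noncomputable def sr6 : Block :=
  { g := 4, rows := sr6_rows, mons := [sr6_m0, sr6_m1, sr6_m2, sr6_m3, sr6_m4, sr6_m5] }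

theorem sr6_parts : sr6.parts.length = 6 := rfl

theorem sr6_ok : sr6.Ok := by
  refine ⟨sr6_parts.symm, fun j hj => ?_⟩
  rw [sr6_parts] at hj
  match j, hj with
  | 0, _ => exact sr6_check0
  | 1, _ => exact sr6_check1
  | 2, _ => exact sr6_check2
  | 3, _ => exact sr6_check3
  | 4, _ => exact sr6_check4
  | 5, _ => exact sr6_check5
  | _ + 6, h => exact absurd h (by omega)

end Vale.Agent.P142K.CertB
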