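import Vale.Agent.P142K.CertB.Sr7Rows
import Vale.Agent.P142K.Fast
import Vale.Agent.P142K.CertB.Sr6Part1

/-!
# An expanded part of the certificate

Generated from a semidefinite program; only the checker is trusted.
-/

namespace Vale.Agent.P142K.CertB

open Vale.Agent.P142J (MP)

/-- A coefficient. -/
noncomputable def sr7_m1_0_0 : MP 10 :=
  [[[[[[[[[[Int.ofNat (nat_lit 2282203673023186245)]],[],[[Int.ofNat (nat_lit 219932019827325723)]]],[[[Int.ofNat (nat_lit 320801180905757754)]]],[[[Int.ofNat (nat_lit 163882437717849852)]]]],[[[],[[Int.ofNat (nat_lit 1233632967226283880)]]],[[],[[Int.ofNat (nat_lit 480643103912694744)]]]],[[[[Int.ofNat (nat_lit 949878783278998641)]]],[[[Int.ofNat (nat_lit 411597019095517200)]]]]],[[[[[Int.ofNat (nat_lit 5810789661324276156)]],[],[[Int.negSucc (nat_lit 439864039654651445)]]],[[[Int.ofNat (nat_lit 766426638358894482)]]],[[[Int.ofNat (nat_lit 327764875435699704)]]]],[[[],[[Int.negSucc (nat_lit 373583722193328263)]]]],[[[[Int.ofNat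 (nat_lit 1387254926432617614)]]]]],[[[[[Int.ofNat (nat_lit 4464687523884974844)]]],[[[Int.ofNat (nat_lit 249648553094757948)]]]]],[[[[[Int.ofNat (nat_lit 3943845786658335024)]]]]]],[[[[[],[[Int.negSucc (nat_lit 512934574948646903)]]]],[[[[Int.negSucc (nat_lit 7566834264319031087)]]],[[[Int.negSucc (nat_lit 699979019586518459)]]]]],[[[[],[[Int.ofNat (nat_lit 1025869149897293808)]]]],[[[[Int.negSucc (nat_lit 4240383139630151735)]]]]]],[[[[[[Int.ofNat (nat_lit 5271039603253404021)]]]]],[[[[[Int.negSucc (nat_lit 10542079206506808041)]]]]]]],[[[[[[[Int.negSucc (nat_lit 2613938386372492835)]]],[[[Int.negSucc (nat_lit 549859917396287417)]]]],[[[],[[Int.negSucc (nat_lit 144121705507299623)]]]],[[[[Int.negSucc (nat_lit 1565783147348934347)]]]]],[[[[[Int.negSucc (nat_lit 8115225304797362087)]]],[[[Int.negSucc (nat_lit 1099719834792574835)]]]]],[[[[[Int.negSucc (nat_lit 5774697064104752831)]]]]]],[[[],[[[[Int.ofNat (nat_lit 7470588272480937624)]]]]]]],[[[[[[[Int.ofNat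 (nat_lit 3792917581790472516)]]]]],[[[[[Int.ofNat (nat_lit 7585835163580945032)]]]]]]]],[[[[[[[],[[Int.ofNat (nat_lit 853521038545604040)]]]],[[[[Int.ofNat (nat_lit 4211466207875123610)]]],[[[Int.negSucc (nat_lit 985881275767055543)]]]]],[[[[],[[Int.negSucc (nat_lit 1707042077091208079)]]]],[[[[Int.negSucc (nat_lit 1759842460795196759)]]]]]],[[[[[[Int.negSucc (nat_lit 3611846468357807093)]]],[[[Int.negSucc (nat_lit 7371684428745539)]]]],[[[],[[Int.ofNat (nat_lit 889633523582430288)]]]],[[[[Int.ofNat (nat_lit 2109803158405600776)]]]]],[[[[[Int.ofNat (nat_lit 11301259277498199912)]]],[[[Int.negSucc (nat_lit 14743368857491079)]]]]],[[[[[Int.ofNat (nat_lit 3702471200218568952)]]]]]],[[[],[[[[Int.negSucc (nat_lit 386495844426073295)]]]]]]],[[[[[[],[[Int.negSucc (nat_lit 206465468264516705)]]]],[[[[Int.ofNat (nat_lit 14678509726237353396)]]],[[[Int.ofNat (nat_lit 154537132882077120)]]]]],[[[[],[[Int.ofNat (nat_lit 412930936529033412)]]]],[[[[Int.ofNat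 (nat_lit 4096293530369770500)]]]]]],[[[[[[Int.negSucc (nat_lit 4983550925879901599)]]]]],[[[[[Int.ofNat (nat_lit 8761327585558292400)]]]]]]],[[[[],[[[[Int.negSucc (nat_lit 5552313282445684835)]]]]]]]],[[[[[[[[Int.ofNat (nat_lit 7707081123465203577)]],[],[[Int.ofNat (nat_lit 219932019827325723)]]],[[[Int.negSucc (nat_lit 618019461448149851)]]],[[[Int.negSucc (nat_lit 163882437717849851)]]]],[[[],[[Int.negSucc (nat_lit 1381306990214608031)]]]],[[[[Int.negSucc (nat_lit 3242442698101907138)]]]]],[[[[[Int.negSucc (nat_lit 32710032863478366029)]]],[[[Int.negSucc (nat_lit 719260837632163169)]]]]],[[[[[Int.negSucc (nat_lit 9611680016149567223)]]]]]],[[[[[],[[Int.negSucc (nat_lit 512934574948646903)]]]],[[[[Int.ofNat (nat_lit 1237012469774356884)]]]]]],[[[[[[Int.ofNat (nat_lit 7610499748841936598)]]]]],[[[[[Int.ofNat (nat_lit 4678920291177065154)]]]]]]],[[[[[[[Int.ofNat (nat_lit 3844729944249239868)]]],[[[Int.ofNat (nat_lit 549859917396287418)]]]]],[[[[[Int.ofNat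 (nat_lit 8392989650062865928)]]]]]],[[[],[[[[Int.negSucc (nat_lit 1999610237249236427)]]]]]]],[[[[[[[Int.negSucc (nat_lit 849076753372706000)]]]]],[[[[[Int.negSucc (nat_lit 5887681656835533029)]]]]]]]],[[[[[[[],[[Int.ofNat (nat_lit 853521038545604040)]]]],[[[[Int.negSucc (nat_lit 2981299774157232617)]]]]]],[[[[[[Int.negSucc (nat_lit 9419948788043956475)]]],[[[Int.ofNat (nat_lit 7371684428745540)]]]]],[[[[[Int.negSucc (nat_lit 11241109498808281991)]]]]]]],[[[[[[],[[Int.negSucc (nat_lit 206465468264516705)]]]],[[[[Int.negSucc (nat_lit 406515179639653511)]]]]]],[[[[[[Int.negSucc (nat_lit 4380663792779146199)]]]]]]]],[[[[[[[[Int.ofNat (nat_lit 18160374358597279533)]]],[[[Int.ofNat (nat_lit 297218280542392098)]]]]],[[[[[Int.ofNat (nat_lit 12496855291814496414)]]]]]],[],[[[[[[Int.negSucc (nat_lit 2339460145588532576)]]]]]]],[[[[[[[Int.negSucc (nat_lit 2752820559005244755)]]]]]]],[[[[[[[Int.ofNat (nat_lit 2943840828417766515)]]]]]]]],[[[],[[[[[[Int.ofNat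 (nat_lit 4694936949349498758)]]]]]]]],[[[[[[[[Int.negSucc (nat_lit 4338488365202148278)]]]]]]]]],[[[[[[[[[Int.ofNat (nat_lit 5813961136912553994)]]],[[[Int.ofNat (nat_lit 70641685317332916)]]]],[[[],[[Int.ofNat (nat_lit 871535756322586728)]]]],[[[[Int.negSucc (nat_lit 4520042450709790631)]]]]],[[[[[Int.ofNat (nat_lit 8253886343835790146)]]],[[[Int.ofNat (nat_lit 141283370634665832)]]]]],[[[[[Int.negSucc (nat_lit 6748071859978635683)]]]]]],[[[[[],[[Int.negSucc (nat_lit 427624873850062553)]]]],[[[[Int.negSucc (nat_lit 8184778837375473851)]]],[[[Int.negSucc (nat_lit 539142222113050955)]]]]],[[[[],[[Int.ofNat (nat_lit 855249747700125108)]]]],[[[[Int.negSucc (nat_lit 5247663879695141351)]]]]]],[[[[[[Int.ofNat (nat_lit 6274421253815509386)]]]]],[[[[[Int.negSucc (nat_lit 12548842507631018771)]]]]]]],[[[[[[[Int.ofNat (nat_lit 552047364877885920)]]],[[[Int.negSucc (nat_lit 101457521651009207)]]]],[[[],[[Int.negSucc (nat_lit 131585381521789847)]]]],[[[[Int.ofNat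 (nat_lit 625455888930362376)]]]]],[[[[[Int.ofNat (nat_lit 1546704392130154482)]]],[[[Int.negSucc (nat_lit 202915043302018415)]]]]],[[[[[Int.ofNat (nat_lit 885219324748765284)]]]]]],[[[],[[[[Int.ofNat (nat_lit 6363502588033528056)]]]]]]],[[[[[[[Int.ofNat (nat_lit 679455362092302150)]]]]],[[[[[Int.ofNat (nat_lit 1358910724184604300)]]]]]]]],[[[[[[[],[[Int.ofNat (nat_lit 1871160502790850618)]]],[[],[[Int.ofNat (nat_lit 480643103912694744)]]]],[[[[Int.ofNat (nat_lit 16495234570549544892)]]],[[[Int.negSucc (nat_lit 237824584716209543)]]]]],[[[[],[[Int.negSucc (nat_lit 1648638793322461739)]]]],[[[[Int.negSucc (nat_lit 77840985951609251)]]]]]],[[[[[[Int.negSucc (nat_lit 10230531095074920083)]]],[[[Int.negSucc (nat_lit 699979019586518459)]]]]],[[[[[Int.negSucc (nat_lit 669823883421032015)]]]]]],[[[],[[[[Int.negSucc (nat_lit 4167278334720151943)]]]]]]],[[[[[[],[[Int.negSucc (nat_lit 144121705507299623)]]]],[[[[Int.ofNat (nat_lit 10086513727364180400)]]]]]],[[[[[[Int.ofNat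 (nat_lit 2969827719170225214)]]]]],[[[[[Int.ofNat (nat_lit 9676611189937692036)]]]]]]],[[[[],[[[[Int.negSucc (nat_lit 546668157574618475)]]]]]]]],[[[[[[[[Int.ofNat (nat_lit 20744192377251455496)]]],[[[Int.negSucc (nat_lit 1056522961084388459)]]]]],[[[[[Int.negSucc (nat_lit 34798257924774104645)]]]]]],[[[[[],[[Int.ofNat (nat_lit 462008649732367734)]]]],[[[[Int.ofNat (nat_lit 9884033406671705604)]]]]]],[[[[[[Int.ofNat (nat_lit 5887925409389436090)]]]]]]],[[[[[[[Int.ofNat (nat_lit 10932089625550931166)]]],[[[Int.ofNat (nat_lit 255994654533086328)]]]]],[[[[[Int.ofNat (nat_lit 8516005122547295622)]]]]]]],[[[[[[[Int.negSucc (nat_lit 6231768644537986985)]]]]]]]],[[[[[[[],[[Int.negSucc (nat_lit 743779454650041293)]]]],[[[[Int.negSucc (nat_lit 9245506534745441759)]]]]]],[[[[[[Int.negSucc (nat_lit 548267158330202975)]]]]]]],[[],[[[[[[Int.negSucc (nat_lit 6837915832218082445)]]]]]]]],[[[[[[[[Int.ofNat (nat_lit 15224925922826880246)]]]]]]],[[[[[[[Int.negSucc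 (nat_lit 2837675806915607393)]]]]]]]]],[[[[[[[[[Int.ofNat (nat_lit 13956847225937796870)]],[],[[Int.negSucc (nat_lit 219932019827325722)]]],[[[Int.ofNat (nat_lit 150142128359137092)]]],[[[Int.ofNat (nat_lit 163882437717849852)]]]],[[[],[[Int.negSucc (nat_lit 209627551224308063)]]]],[[[[Int.negSucc (nat_lit 5098258705227837488)]]]]],[[[[[Int.ofNat (nat_lit 20460653374005392988)]]],[[[Int.negSucc (nat_lit 216493828545862349)]]]]],[[[[[Int.negSucc (nat_lit 6298109200874296343)]]]]]],[[[[[],[[Int.ofNat (nat_lit 512934574948646904)]]]],[[[[Int.ofNat (nat_lit 1096299989131058676)]]]]]],[[[[[[Int.negSucc (nat_lit 1345433761787124200)]]]]],[[[[[Int.negSucc (nat_lit 7851211682932559639)]]]]]]],[[[[[[[Int.negSucc (nat_lit 1868133429098382083)]]],[[[Int.negSucc (nat_lit 549859917396287417)]]]]],[[[[[Int.negSucc (nat_lit 1395738617504154911)]]]]]],[[[],[[[[Int.ofNat (nat_lit 1673820093647855772)]]]]]]],[[[[[[[Int.ofNat (nat_lit 4281855799137338616)]]]]],[[[[[Int.ofNat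 (nat_lit 977876434693732200)]]]]]]]],[[[[[[[],[[Int.ofNat (nat_lit 18014717776982688)]]]],[[[[Int.ofNat (nat_lit 18017966763961961370)]]]]]],[[[[[[Int.negSucc (nat_lit 4660620031598270705)]]],[[[Int.negSucc (nat_lit 546513906541796495)]]]]],[[[[[Int.negSucc (nat_lit 4254059210701496483)]]]]]]],[[[[[[],[[Int.ofNat (nat_lit 74880086742726858)]]]],[[[[Int.negSucc (nat_lit 1628299514455208051)]]]]]],[[[[[[Int.ofNat (nat_lit 10744166380812674256)]]]]]]]],[[[[[[[[Int.ofNat (nat_lit 4246945579268454489)]]],[[[Int.negSucc (nat_lit 775980831807498179)]]]]],[[[[[Int.negSucc (nat_lit 15766198771859671091)]]]]]],[],[[[[[[Int.ofNat (nat_lit 2097787652334660453)]]]]]]],[[[[[[[Int.ofNat (nat_lit 13659312476444248752)]]]]]]],[[[[[[[Int.negSucc (nat_lit 3979447203339251090)]]]]]]]],[[[],[[[[[[Int.ofNat (nat_lit 3508108764474425874)]]]]]]]],[[[[[[[[Int.ofNat (nat_lit 5643544701142101807)]]]]]]]]],[[[[[[[[[Int.ofNat (nat_lit 19750291301042764332)]]],[[[Int.ofNat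 (nat_lit 70641685317332916)]]]]],[[[[[Int.ofNat (nat_lit 24498624398271102834)]]]]]],[[[[[],[[Int.ofNat (nat_lit 427624873850062554)]]]],[[[[Int.ofNat (nat_lit 1772353175817855876)]]]]]],[[[[[[Int.negSucc (nat_lit 6274421253815509385)]]]]]]],[[[[[[[Int.negSucc (nat_lit 1274349828445809347)]]],[[[Int.negSucc (nat_lit 101457521651009207)]]]]],[[[[[Int.negSucc (nat_lit 3210184724273007893)]]]]]]],[[[[[[[Int.ofNat (nat_lit 679455362092302150)]]]]]]]],[[[[[[[],[[Int.negSucc (nat_lit 847155086788874801)]]]],[[[[Int.ofNat (nat_lit 5819093040340727340)]]]]]],[[[[[[Int.ofNat (nat_lit 2881579617235618536)]]]]]]],[[],[[[[[[Int.ofNat (nat_lit 6512125688616701790)]]]]]]]],[[[[[[[[Int.negSucc (nat_lit 9604546646442571199)]]]]]]],[[[[[[[Int.ofNat (nat_lit 2003802417214078722)]]]]]]]]],[[[[[[[[[Int.ofNat (nat_lit 17540121920707450533)]]],[[[Int.negSucc (nat_lit 170659052546620661)]]]]],[[[[[Int.ofNat (nat_lit 7595940688483947888)]]]]]],[],[[[[[[Int.negSucc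 (nat_lit 3925605841466279819)]]]]]]],[[[[[[[Int.ofNat (nat_lit 745804957274110752)]]]]]]],[[[[[[[Int.ofNat (nat_lit 488938217346866100)]]]]]]]],[[[],[[[[[[Int.ofNat (nat_lit 1343537710260036072)]]]]]]]],[[[[[[[[Int.negSucc (nat_lit 2256246794807763227)]]]]]]]]],[[[[[[[[[Int.ofNat (nat_lit 13936330164130210338)]]]]]]],[[[[[[[Int.negSucc (nat_lit 1826397193323695267)]]]]]]]]],[[[[[[[[[Int.ofNat (nat_lit 5865478367792839908)]]]]]]]]]]

/-- A coefficient. -/
noncomputable def sr7_m1_0_1 : MP 10 :=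
  [[[[[[[[[],[[Int.negSucc (nat_lit 571787894256791417)]]]],[[[[Int.negSucc (nat_lit 4787138419359055553)]]],[[[Int.ofNat (nat_lit 243887254218823116)]]]],[[[],[[Int.negSucc (nat_lit 656728270786235099)]]]],[[[[Int.negSucc (nat_lit 887007654105825551)]]]]],[[[[],[[Int.ofNat (nat_lit 1747550743272936474)]]]],[[[[Int.ofNat (nat_lit 719993399831545542)]]],[[[Int.ofNat (nat_lit 135064402130098080)]]]]],[[[[],[[Int.negSucc (nat_lit 1207949909518707275)]]]],[[[[Int.negSucc (nat_lit 2760893428538974247)]]]]]],[[[[[[Int.ofNat (nat_lit 7645014704756043480)]]],[[[Int.ofNat (nat_lit 945066390787233150)]]]],[[[],[[Int.ofNat (nat_lit 432981667653268596)]]]],[[[[Int.ofNat (nat_lit 1935518096199668064)]]]]],[[[[[Int.negSucc (nat_lit 5948917399840358525)]]],[[[Int.ofNat (nat_lit 1890132781574466300)]]]]],[[[[[Int.negSucc (nat_lit 257002263309122507)]]]]]],[[[],[[[[Int.negSucc (nat_lit 9412990982185193447)]]]]]]],[[[[[[],[[Int.ofNat (nat_lit 196466344230343812)]]]],[[[[Int.negSucc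 (nat_lit 13531338751648772177)]]],[[[Int.ofNat (nat_lit 243512325076944384)]]]]],[[[[],[[Int.negSucc (nat_lit 392932688460687623)]]]],[[[[Int.ofNat (nat_lit 956132785712253372)]]]]]],[[[[[[Int.ofNat (nat_lit 4072754408956346040)]]]]],[[[[[Int.negSucc (nat_lit 16666175134004543183)]]]]]]],[[[[],[[[[Int.ofNat (nat_lit 6111632840822188416)]]]]]]]],[[[[[[[[Int.negSucc (nat_lit 17479050546541578911)]]],[[[Int.negSucc (nat_lit 415431315246266357)]]]],[[[],[[Int.ofNat (nat_lit 3357687263000180880)]]]],[[[[Int.ofNat (nat_lit 3609758688093526140)]]]]],[[[[[Int.ofNat (nat_lit 53169745360864757520)]]],[[[Int.negSucc (nat_lit 830862630492532715)]]]]],[[[[[Int.ofNat (nat_lit 5403612356167015920)]]]]]],[[[],[[[[Int.ofNat (nat_lit 13803254066628630528)]]]]],[[],[[[[Int.ofNat (nat_lit 1636845072214584624)]]]]]],[[[[[[Int.negSucc (nat_lit 9435761010773785229)]]]]],[[[[[Int.negSucc (nat_lit 18871522021547570459)]]]]]]],[[[[[[[Int.ofNat (nat_lit 2445321123474981156)]]]],[],[[[[Int.negSucc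 (nat_lit 1276452557760318167)]]]]],[[[[[Int.ofNat (nat_lit 4656095979638298348)]]]]],[[[[[Int.ofNat (nat_lit 1161018003993809256)]]]]]],[[[],[[[[Int.ofNat (nat_lit 17998418799869982348)]]]]]]],[[[[[[[Int.negSucc (nat_lit 8840165539373443643)]]]]],[[[[[Int.ofNat (nat_lit 17680331078746887288)]]]]]]]],[[[[[[[],[[Int.negSucc (nat_lit 1057632369498956801)]]]],[[[[Int.ofNat (nat_lit 38450863584892273794)]]],[[[Int.negSucc (nat_lit 1123100983304076743)]]]]],[[[[],[[Int.ofNat (nat_lit 1575663905243684406)]]]],[[[[Int.negSucc (nat_lit 1924826229123017201)]]]]]],[[[[[[Int.ofNat (nat_lit 19405334557159848582)]]],[[[Int.negSucc (nat_lit 945066390787233149)]]]]],[[[[[Int.ofNat (nat_lit 13213295818228863810)]]]]]]],[[[[[[],[[Int.ofNat (nat_lit 196466344230343812)]]]],[[[[Int.negSucc (nat_lit 942182076128957825)]]]]]],[[[[[[Int.ofNat (nat_lit 8333087567002271592)]]]]]]]],[[[[[[[[Int.negSucc (nat_lit 46840968253772831885)]]],[[[Int.ofNat (nat_lit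 415431315246266358)]]]]],[[[[[Int.negSucc (nat_lit 27803271354980297747)]]]]]],[[[],[[[[Int.ofNat (nat_lit 3766364474069332560)]]]]]],[[[[[[Int.ofNat (nat_lit 9435761010773785230)]]]]]]],[[[[[[[Int.negSucc (nat_lit 6329292505162202645)]]]]],[[[[[Int.ofNat (nat_lit 6841471026692297688)]]]]]]],[[[[[[[Int.negSucc (nat_lit 8840165539373443643)]]]]]]]],[[[[[[[],[[Int.negSucc (nat_lit 485844475242165383)]]]],[[[[Int.negSucc (nat_lit 90553168610720123)]]]]]],[[[[[[Int.negSucc (nat_lit 6542397343287151277)]]]]]]]],[[[[[[[[Int.ofNat (nat_lit 12550732588448394894)]]]]]]],[[[[[[[Int.negSucc (nat_lit 3710990014344601157)]]]]]]]]],[[[[[[[[],[[Int.negSucc (nat_lit 1054754257471537799)]]]],[[[[Int.negSucc (nat_lit 13587150629436144725)]]],[[[Int.negSucc (nat_lit 690748509937027955)]]]]],[[[[],[[Int.ofNat (nat_lit 2109508514943075600)]]]],[[[[Int.ofNat (nat_lit 8420963131003479804)]]]]]],[[[[[[Int.negSucc (nat_lit 936904409382085961)]]]],[],[[[[Int.ofNat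 (nat_lit 3174365552087440308)]]]]],[[[[[Int.negSucc (nat_lit 2807461691054998223)]]]]],[[[[[Int.ofNat (nat_lit 2148129792381704328)]]]]]],[[[],[[[[Int.negSucc (nat_lit 67647464440127747)]]]]]]],[[[[],[[[[Int.negSucc (nat_lit 23206612111380884645)]]]]],[[],[[[[Int.negSucc (nat_lit 468046352112441743)]]]]]],[[[[[[Int.ofNat (nat_lit 1602917703189135666)]]]]],[[[[[Int.negSucc (nat_lit 3658527901704950915)]]]]]]],[[[[],[[[[Int.ofNat (nat_lit 690856995967163172)]]]]]]]],[[[[[[[[Int.negSucc (nat_lit 36829262691168252941)]]],[[[Int.negSucc (nat_lit 41423914566201593)]]]],[[[],[[Int.negSucc (nat_lit 1381644120611609075)]]]],[[[[Int.negSucc (nat_lit 474859905357558899)]]]]],[[[[[Int.ofNat (nat_lit 74491598554379088234)]]],[[[Int.negSucc (nat_lit 435557935439951339)]]]]],[[[[[Int.negSucc (nat_lit 1052258474239349447)]]]]]],[[[[[],[[Int.ofNat (nat_lit 432981667653268596)]]]],[[[[Int.negSucc (nat_lit 7334002310094015635)]]]]]],[[[[[[Int.negSucc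 (nat_lit 9412990982185193447)]]]]]]],[[[[[[[Int.negSucc (nat_lit 4831868472398386859)]]],[[[Int.ofNat (nat_lit 243512325076944384)]]]]],[[[[[Int.negSucc (nat_lit 6926998756424143319)]]]]]]],[[[[[[[Int.ofNat (nat_lit 6111632840822188416)]]]]]]]],[[[[[[[],[[Int.ofNat (nat_lit 2302933005528643080)]]]],[[[[Int.ofNat (nat_lit 54807586376167264110)]]]]]],[[[[[[Int.ofNat (nat_lit 19920037073217358134)]]]]],[[[[[Int.negSucc (nat_lit 7452775582227359843)]]]]]]],[[[[],[[[[Int.negSucc (nat_lit 585136014423281069)]]]]]],[[[[[[Int.ofNat (nat_lit 19827682750722457806)]]]]]]]],[[[[[[[[Int.negSucc (nat_lit 2718935082102684071)]]],[[[Int.negSucc (nat_lit 837789814519052033)]]]]],[[[[[Int.negSucc (nat_lit 3234628077813289013)]]]]]]],[[[[[[[Int.ofNat (nat_lit 2999383694939240520)]]]]]]]],[[[],[[[[[[Int.ofNat (nat_lit 7774142353194878712)]]]]]]]],[[[[[[[[Int.ofNat (nat_lit 137189017159509582)]]]]]]]]],[[[[[[[[],[[Int.ofNat (nat_lit 567814077868040130)]]]],[[[[Int.negSucc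 (nat_lit 31637179680544570055)]]],[[[Int.negSucc (nat_lit 860755796715501899)]]]]],[[[[],[[Int.negSucc (nat_lit 596027321981851061)]]]],[[[[Int.negSucc (nat_lit 1011610994678615141)]]]]]],[[[[[[Int.negSucc (nat_lit 5427493164681706529)]]],[[[Int.ofNat (nat_lit 945066390787233150)]]]]],[[[[[Int.negSucc (nat_lit 6437679163898523857)]]]]]]],[[[[[[],[[Int.negSucc (nat_lit 196466344230343811)]]]],[[[[Int.negSucc (nat_lit 309540773469735905)]]]]]],[[[[[[Int.negSucc (nat_lit 8333087567002271591)]]]]]]]],[[[[[[[[Int.negSucc (nat_lit 8886099562085314691)]]],[[[Int.negSucc (nat_lit 1106179825183294313)]]]]],[[[[[Int.ofNat (nat_lit 25917155304920138064)]]]]]],[[[],[[[[Int.negSucc (nat_lit 1281949247593544375)]]]]]],[[[[[[Int.negSucc (nat_lit 9503408475213912977)]]]]]]],[[[[[[[Int.negSucc (nat_lit 22363885443604413761)]]]]],[[[[[Int.ofNat (nat_lit 11012876395796400252)]]]]]]],[[[[[[[Int.ofNat (nat_lit 9531022535340606816)]]]]]]]],[[[[[[[],[[Int.negSucc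 (nat_lit 243045190971959879)]]]],[[[[Int.ofNat (nat_lit 15365573999242314102)]]]]]],[[[[[[Int.ofNat (nat_lit 427465953115448880)]]]]]]]],[[[[[[[[Int.ofNat (nat_lit 31249902101708767926)]]]]]]],[[[[[[[Int.negSucc (nat_lit 1047900315274330427)]]]]]]]]],[[[[[[[[],[[Int.ofNat (nat_lit 1054754257471537800)]]]],[[[[Int.negSucc (nat_lit 25269817017441314849)]]]]]],[[[[[[Int.ofNat (nat_lit 2242082418045108942)]]]]],[[[[[Int.negSucc (nat_lit 5143496734763511779)]]]]]]],[[[[],[[[[Int.ofNat (nat_lit 1122821020435743390)]]]]]],[[[[[[Int.negSucc (nat_lit 1829263950852475457)]]]]]]]],[[[[[[[[Int.ofNat (nat_lit 2897766294845976942)]]],[[[Int.negSucc (nat_lit 1146066965500526609)]]]]],[[[[[Int.negSucc (nat_lit 17734397908191701585)]]]]]]],[[[[[[[Int.negSucc (nat_lit 4251106544537934251)]]]]]]]],[[[],[[[[[[Int.negSucc (nat_lit 5355311863329348863)]]]]]]]],[[[[[[[[Int.ofNat (nat_lit 23514236260055267166)]]]]]]]]],[[[[[[[[],[[Int.ofNat (nat_lit 3973816388751288)]]]],[[[[Int.negSucc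 (nat_lit 3709732091053557437)]]]]]],[[[[[[Int.negSucc (nat_lit 3154589016121981301)]]]]]]]],[[[[[[[[Int.negSucc (nat_lit 17872624019524739699)]]]]]]],[[[[[[[Int.ofNat (nat_lit 6573027893391712074)]]]]]]]]],[[[[],[[[[[[Int.negSucc (nat_lit 3108780815477181971)]]]]]]]],[[[[[[[[Int.negSucc (nat_lit 12498284286385006859)]]]]]]]]]]

/-- A coefficient. -/
noncomputable def sr7_m1_0_2 : MP 10 :=
  [[[[[[[[[[Int.ofNat (nat_lit 12843120794256536007)]]],[[[Int.ofNat (nat_lit 756171948373590660)]]]],[[[],[[Int.negSucc (nat_lit 1512006981159535583)]]]],[[[[Int.negSucc (nat_lit 2373543877222669469)]]]]],[[[[[Int.negSucc (nat_lit 47812180057484979683)]]],[[[Int.ofNat (nat_lit 1512343896747181320)]]]],[],[[[[Int.negSucc (nat_lit 150092194422741359)]]]]],[[[[[Int.negSucc (nat_lit 8884215847138869311)]]]]],[[[[[Int.negSucc (nat_lit 2012092132708976183)]]]]]],[[[[[],[[Int.ofNat (nat_lit 843684062360586456)]]]],[[[[Int.ofNat (nat_lit 6479697697768905354)]]],[[[Int.ofNat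 (nat_lit 607234212405853620)]]]]],[[[[],[[Int.negSucc (nat_lit 1687368124721172911)]]]],[[[[Int.ofNat (nat_lit 583779067144075380)]]]]]],[[[[[[Int.ofNat (nat_lit 8838547044693683736)]]]]],[[[[[Int.ofNat (nat_lit 53057585432799228336)]]]]]]],[[[[[[[Int.negSucc (nat_lit 3027320406172252853)]]],[[[Int.ofNat (nat_lit 627483440292676890)]]]],[[[],[[Int.ofNat (nat_lit 889346432711501184)]]]],[[[[Int.ofNat (nat_lit 1073917267137812988)]]]]],[[[[[Int.ofNat (nat_lit 36656644103702123346)]]],[[[Int.ofNat (nat_lit 1254966880585353780)]]]]],[[[[[Int.ofNat (nat_lit 4403886276251966460)]]]]]],[[[],[[[[Int.negSucc (nat_lit 37444023730658272271)]]]]]]],[[[[[[[Int.ofNat (nat_lit 23687009471824797150)]]]]],[[[[[Int.negSucc (nat_lit 55227290817894437747)]]]]]]]],[[[[[[[],[[Int.negSucc (nat_lit 692746087318408823)]]]],[[[[Int.negSucc (nat_lit 79966578516230207987)]]],[[[Int.ofNat (nat_lit 4589234409741378780)]]]]],[[[[],[[Int.ofNat (nat_lit 1385492174636817648)]]]],[[[[Int.ofNat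 (nat_lit 8935050608793252456)]]]]]],[[[[[[Int.ofNat (nat_lit 5582784322117853412)]]]]],[[[[[Int.negSucc (nat_lit 30968570684076569903)]]]]]],[[[],[[[[Int.negSucc (nat_lit 5339654612202538775)]]]]]]],[[[[],[[[[Int.negSucc (nat_lit 13489519890102545327)]]]]]],[[[[[[Int.ofNat (nat_lit 7442959929934062996)]]]]],[[[[[Int.negSucc (nat_lit 13564112926468716647)]]]]]]],[[[[],[[[[Int.ofNat (nat_lit 10019239390249546584)]]]]]]]],[[[[[[[[Int.ofNat (nat_lit 62852540842379938263)]]],[[[Int.negSucc (nat_lit 756171948373590659)]]]],[],[[[[Int.ofNat (nat_lit 412524676448432898)]]]]],[[[[[Int.ofNat (nat_lit 184662170598126098034)]]]]],[[[[[Int.ofNat (nat_lit 2378254435094358612)]]]]]],[[[[[],[[Int.ofNat (nat_lit 843684062360586456)]]]],[[[[Int.negSucc (nat_lit 23898855109180743257)]]]]]],[[[[[[Int.negSucc (nat_lit 26528792716399614167)]]]]]]],[[[[[[[Int.negSucc (nat_lit 7599824163255577319)]]],[[[Int.negSucc (nat_lit 627483440292676889)]]]]],[[[[[Int.negSucc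 (nat_lit 32998581807801468401)]]]]]]],[[[[[[[Int.ofNat (nat_lit 27613645408947218874)]]]]]]]],[[[[[[[],[[Int.negSucc (nat_lit 692746087318408823)]]]],[[[[Int.ofNat (nat_lit 8888115951581496000)]]]]]],[[[[[[Int.ofNat (nat_lit 15484285342038284952)]]]]]]],[[],[[[[[[Int.ofNat (nat_lit 6782056463234358324)]]]]]]]],[[[[[[[[Int.negSucc (nat_lit 83590724755595202902)]]]]],[[[[[Int.negSucc (nat_lit 13907798498928884045)]]]]]]],[[[[[[[Int.ofNat (nat_lit 15398319334837742586)]]]]]]]],[],[[[[[[[[Int.ofNat (nat_lit 6610847157279474393)]]]]]]]]],[[[[[[[[[Int.ofNat (nat_lit 31152564709524589710)]]],[[[Int.ofNat (nat_lit 948509757871305876)]]]],[[[],[[Int.ofNat (nat_lit 258185243612212644)]]]],[[[[Int.negSucc (nat_lit 2986243866361175579)]]]]],[[[[[Int.negSucc (nat_lit 75019864568618074043)]]],[[[Int.ofNat (nat_lit 1897019515742611752)]]]]],[[[[[Int.negSucc (nat_lit 2313081544612712207)]]]]]],[[[],[[[[Int.ofNat (nat_lit 49701594035417608188)]]]]]],[[[[[[Int.negSucc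 (nat_lit 8026510356587976629)]]]]],[[[[[Int.ofNat (nat_lit 16053020713175953260)]]]]]]],[[[[[[[Int.negSucc (nat_lit 2029673046156782933)]]]]],[[[[[Int.ofNat (nat_lit 26691447563006990628)]]]]]],[[[],[[[[Int.negSucc (nat_lit 12946270666617614327)]]]]]]],[[[[[[[Int.negSucc (nat_lit 1229290618801774283)]]]]],[[[[[Int.negSucc (nat_lit 2458581237603548567)]]]]]]]],[[[[[[[],[[Int.negSucc (nat_lit 1512006981159535583)]]]],[[[[Int.negSucc (nat_lit 195852723402009068177)]]]]],[[],[[[[Int.negSucc (nat_lit 2100906326729356607)]]]]]],[[[[[[Int.ofNat (nat_lit 19826161847346460374)]]],[[[Int.ofNat (nat_lit 607234212405853620)]]]]],[[[[[Int.negSucc (nat_lit 9513280869852761267)]]]]]]],[[[[[[],[[Int.ofNat (nat_lit 889346432711501184)]]]],[[[[Int.ofNat (nat_lit 8066998466223544200)]]]]]],[[[[[[Int.negSucc (nat_lit 37444023730658272271)]]]]]]]],[[[[[[[[Int.negSucc (nat_lit 37404462945279829541)]]],[[[Int.ofNat (nat_lit 3640724651870072904)]]]]],[[[[[Int.ofNat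 (nat_lit 129588641872832811264)]]]]]],[],[[[[[[Int.negSucc (nat_lit 13366164968790515405)]]]]]]],[[[[[[[Int.negSucc (nat_lit 26835243671606040641)]]]]]]],[[[[[[[Int.ofNat (nat_lit 11248530009051320868)]]]]]]]],[[[[[],[[[[Int.ofNat (nat_lit 4470571232518296846)]]]]]],[[[[[[Int.negSucc (nat_lit 18850325140682324933)]]]]]]]],[[[[[[[[Int.negSucc (nat_lit 50860409294285105351)]]]]]]]]],[[[[[[[[[Int.ofNat (nat_lit 15170716950312067170)]]],[[[Int.ofNat (nat_lit 756171948373590660)]]]],[],[[[[Int.ofNat (nat_lit 1156761317879338578)]]]]],[[[[[Int.negSucc (nat_lit 39299025757969333763)]]]]],[[[[[Int.ofNat (nat_lit 1655921752001989116)]]]]]],[[[[[],[[Int.negSucc (nat_lit 843684062360586455)]]]],[[[[Int.ofNat (nat_lit 36429424327401249930)]]]]]],[[[[[[Int.ofNat (nat_lit 26528792716399614168)]]]]]]],[[[[[[[Int.ofNat (nat_lit 26465784217659973326)]]],[[[Int.ofNat (nat_lit 627483440292676890)]]]]],[[[[[Int.negSucc (nat_lit 14077081379120551553)]]]]]]],[[[[[[[Int.negSucc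 (nat_lit 27613645408947218873)]]]]]]]],[[[[[[[],[[Int.ofNat (nat_lit 950931330930621468)]]]],[[[[Int.negSucc (nat_lit 112855970211505944443)]]]]]],[[[[[[Int.ofNat (nat_lit 34217308693379323236)]]]]]]],[[],[[[[[[Int.negSucc (nat_lit 19728327129851972651)]]]]]]]],[[[[[[[[Int.negSucc (nat_lit 75696365270720508194)]]]]],[[[[[Int.ofNat (nat_lit 12731536958228451072)]]]]]]],[[[[[[[Int.negSucc (nat_lit 265725877128743981)]]]]]]]],[],[[[[[[[[Int.negSucc (nat_lit 10216416008881295276)]]]]]]]]],[[[[[[[[[Int.negSucc (nat_lit 13525339506766853831)]]],[[[Int.ofNat (nat_lit 948509757871305876)]]]]],[[[[[Int.negSucc (nat_lit 11999333362750731827)]]]]]],[],[[[[[[Int.ofNat (nat_lit 8026510356587976630)]]]]]]],[[[[[[[Int.ofNat (nat_lit 13345723781503495314)]]]]]]],[[[[[[[Int.negSucc (nat_lit 1229290618801774283)]]]]]]]],[[[[[],[[[[Int.negSucc (nat_lit 3872679167696270021)]]]]]],[[[[[[Int.ofNat (nat_lit 31380894358902831606)]]]]]]]],[[[[[[[[Int.negSucc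 (nat_lit 44699804804055979649)]]]]]]]]],[[[[[[[[[Int.negSucc (nat_lit 7965607140447019760)]]]]],[[[[[Int.negSucc (nat_lit 15760712701972138331)]]]]]]],[[[[[[[Int.negSucc (nat_lit 8139512258623267391)]]]]]]]],[],[[[[[[[[Int.ofNat (nat_lit 11180023227671264700)]]]]]]]]],[[[[[[[[[Int.negSucc (nat_lit 5421396295222187861)]]]]]]]]],[[[[[[[[[Int.negSucc (nat_lit 8545848305575188467)]]]]]]]]]]

/-- A coefficient. -/
noncomputable def sr7_m1_0_3 : MP 10 :=
  [[[[[[[[[],[[Int.ofNat (nat_lit 1561494239871215628)]]]],[[[[Int.ofNat (nat_lit 79976334717129146172)]]],[[[Int.negSucc (nat_lit 4536746735188000259)]]]]],[[[[],[[Int.negSucc (nat_lit 3122988479742431255)]]]],[[[[Int.ofNat (nat_lit 6726190179402808824)]]]]]],[[[[[[Int.negSucc (nat_lit 35786473149608956817)]]]],[],[[[[Int.negSucc (nat_lit 1753295182387980635)]]]]],[[[[[Int.ofNat (nat_lit 39563871584051833992)]]]]],[[[[[Int.negSucc (nat_lit 3564098035840096439)]]]]]],[[[],[[[[Int.ofNat (nat_lit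 32777753934139475136)]]]]]]],[[[[],[[[[Int.negSucc (nat_lit 16881356328286198397)]]]]],[[],[[[[Int.ofNat (nat_lit 2482756695958424700)]]]]]],[[[[[[Int.negSucc (nat_lit 15067642494275176313)]]]]],[[[[[Int.ofNat (nat_lit 53136708451674598404)]]]]]]],[[[[],[[[[Int.negSucc (nat_lit 27492635964590992403)]]]]]]]],[[[[[[[[Int.negSucc (nat_lit 43208037685146395867)]]],[[[Int.negSucc (nat_lit 2040643674592235855)]]]],[[[],[[Int.negSucc (nat_lit 6722885393129292239)]]]],[[[[Int.negSucc (nat_lit 8547261372490761323)]]]]],[[[[[Int.negSucc (nat_lit 410710580292206636825)]]],[[[Int.negSucc (nat_lit 4081287349184471711)]]]]],[[[[[Int.negSucc (nat_lit 20829090020483904395)]]]]]],[[[],[[[[Int.ofNat (nat_lit 67004795931121101684)]]]]]]],[[[[[[[Int.ofNat (nat_lit 8282943738199357464)]]]]],[[[[[Int.ofNat (nat_lit 40715908838317041696)]]]]]]]],[[[[[[[],[[Int.ofNat (nat_lit 1561494239871215628)]]]],[[[[Int.negSucc (nat_lit 154222908687137025491)]]]]]],[[[[[[Int.negSucc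 (nat_lit 46328953379953311455)]]]]],[[[[[Int.ofNat (nat_lit 7423816287164642544)]]]]]]],[[[[],[[[[Int.negSucc (nat_lit 25514056367379042389)]]]]]],[[[[[[Int.negSucc (nat_lit 26568354225837299201)]]]]]]]],[[[[[[[[Int.ofNat (nat_lit 192980319862471459608)]]],[[[Int.ofNat (nat_lit 2040643674592235856)]]]]],[[[[[Int.ofNat (nat_lit 103770445353098590470)]]]]]]],[[[[[[[Int.negSucc (nat_lit 20357954419158520847)]]]]]]]],[[[],[[[[[[Int.negSucc (nat_lit 2820883634622297161)]]]]]]]],[[[[[[[[Int.negSucc (nat_lit 46677950171428319135)]]]]]]]]],[[[[[[[[],[[Int.ofNat (nat_lit 3707650844502862782)]]]],[[[[Int.ofNat (nat_lit 233731623982744395888)]]],[[[Int.ofNat (nat_lit 3620657766757597632)]]]]],[[[[],[[Int.negSucc (nat_lit 7415301689005725563)]]]],[[[[Int.ofNat (nat_lit 2815033347916012500)]]]]]],[[[[[[Int.negSucc (nat_lit 55157138495062313717)]]]]],[[[[[Int.ofNat (nat_lit 39012101842860798852)]]]]]]],[[[[],[[[[Int.negSucc (nat_lit 45557291418750316043)]]]]]]]],[[[[[[[[Int.ofNat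 (nat_lit 69970129360254879654)]]],[[[Int.negSucc (nat_lit 4536746735188000259)]]]]],[[[[[Int.negSucc (nat_lit 363808759656342338435)]]]]]],[[[],[[[[Int.ofNat (nat_lit 40613088241812439596)]]]]]],[[[[[[Int.ofNat (nat_lit 32777753934139475136)]]]]]]],[[[[[[[Int.negSucc (nat_lit 20158251431281532801)]]]]],[[[[[Int.negSucc (nat_lit 10150744171873713443)]]]]]]],[[[[[[[Int.negSucc (nat_lit 27492635964590992403)]]]]]]]],[[[[[[[],[[Int.negSucc (nat_lit 3015234548626429457)]]]],[[[[Int.negSucc (nat_lit 71927093044975300799)]]]]]],[[[[[[Int.ofNat (nat_lit 47498745009690702258)]]]]]]]],[[[[[[[[Int.ofNat (nat_lit 31044566230735548138)]]]]]]],[[[[[[[Int.negSucc (nat_lit 19197305933462973317)]]]]]]]]],[[[[[[[[],[[Int.negSucc (nat_lit 1561494239871215627)]]]],[[[[Int.ofNat (nat_lit 166385341743086547360)]]]]]],[[[[[[Int.ofNat (nat_lit 6091258863457979508)]]]]],[[[[[Int.ofNat (nat_lit 23817255821295778536)]]]]]]],[[[[],[[[[Int.negSucc (nat_lit 15661225246539173153)]]]]]],[[[[[[Int.ofNat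 (nat_lit 26568354225837299202)]]]]]]]],[[[[[[[[Int.ofNat (nat_lit 21403587533302542360)]]],[[[Int.ofNat (nat_lit 1580014092165361776)]]]]],[[[[[Int.negSucc (nat_lit 79641565643418857801)]]]]]]],[[[[[[[Int.negSucc (nat_lit 25199336999591795195)]]]]]]]],[[[],[[[[[[Int.ofNat (nat_lit 32387614639214804016)]]]]]]]],[[[[[[[[Int.ofNat (nat_lit 19319145489490238712)]]]]]]]]],[[[[[[[[],[[Int.negSucc (nat_lit 3707650844502862781)]]]],[[[[Int.ofNat (nat_lit 9601661465852023740)]]]]]],[[[[[[Int.ofNat (nat_lit 19506050921430399426)]]]]]]]],[[[[[[[[Int.negSucc (nat_lit 18882133174786026269)]]]]]]],[[[[[[[Int.negSucc (nat_lit 21977975680455242225)]]]]]]]]],[[[[],[[[[[[Int.ofNat (nat_lit 12799652419607913378)]]]]]]]],[[[[[[[[Int.negSucc (nat_lit 26419365524694435311)]]]]]]]]]]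

/-- A coefficient. -/
noncomputable def sr7_m1_0_4 : MP 10 :=
  [[[[[[[[[[Int.ofNat (nat_lit 70035534630833364612)]]],[[[Int.ofNat (nat_lit 2385322510325561796)]]]],[[[],[[Int.ofNat (nat_lit 6192342997237471128)]]]],[[[[Int.ofNat (nat_lit 134350886977659324)]]]]],[[[[[Int.ofNat (nat_lit 391744935512104168206)]]],[[[Int.ofNat (nat_lit 4770645020651123592)]]]]],[[[[[Int.ofNat (nat_lit 9322170097681626372)]]]]]],[[[],[[[[Int.negSucc (nat_lit 60075107578501009655)]]]]]],[[[[[[Int.ofNat (nat_lit 20014381350299527833)]]]]],[[[[[Int.negSucc (nat_lit 40028762700599055665)]]]]]]],[[[[[[[Int.negSucc (nat_lit 34952616403414640603)]]]]],[[[[[Int.negSucc (nat_lit 4174605529073877863)]]]]]],[[[],[[[[Int.ofNat (nat_lit 33599642363598224424)]]]]]]],[[[[[[[Int.ofNat (nat_lit 12250360863359529327)]]]]],[[[[[Int.ofNat (nat_lit 24500721726719058654)]]]]]]]],[[[[[],[[[[Int.ofNat (nat_lit 486719912737480907610)]]]]],[[],[[[[Int.ofNat (nat_lit 665198074918844916)]]]]]],[[[[[[Int.ofNat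 (nat_lit 5432448913224057948)]]]]],[[[[[Int.ofNat (nat_lit 41044103636357993688)]]]]]]],[[[[],[[[[Int.ofNat (nat_lit 24745092381960298380)]]]]]]]],[[[[[[[[Int.negSucc (nat_lit 131931621015619415876)]]],[[[Int.negSucc (nat_lit 2385322510325561795)]]]]],[[[[[Int.negSucc (nat_lit 381228502067633914679)]]]]]],[],[[[[[[Int.ofNat (nat_lit 20014381350299527833)]]]]]]],[[[[[[[Int.ofNat (nat_lit 2087302764536938932)]]]]]]],[[[[[[[Int.negSucc (nat_lit 12250360863359529326)]]]]]]]],[[[[[],[[[[Int.ofNat (nat_lit 2686093805065625742)]]]]]],[[[[[[Int.negSucc (nat_lit 20522051818178996843)]]]]]]]],[[[[[[[[Int.ofNat (nat_lit 188283708509396550747)]]]]]]]]],[[[[[[[[[Int.ofNat (nat_lit 86929306493446797414)]]]],[],[[[[Int.negSucc (nat_lit 5557873304614308263)]]]]],[[[[[Int.ofNat (nat_lit 498418001255711918148)]]]]],[[[[[Int.negSucc (nat_lit 11059939271147206847)]]]]]],[[[],[[[[Int.negSucc (nat_lit 75689140323461835515)]]]]]]],[[[[[[[Int.negSucc (nat_lit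 5111068186173198797)]]]]],[[[[[Int.negSucc (nat_lit 19772471375657815187)]]]]]]]],[[[[[[[],[[Int.ofNat (nat_lit 6192342997237471128)]]]],[[[[Int.ofNat (nat_lit 309270144510848877696)]]]]]],[[[[[[Int.negSucc (nat_lit 60075107578501009655)]]]]]]],[[],[[[[[[Int.ofNat (nat_lit 33599642363598224424)]]]]]]]],[[[[[[[[Int.ofNat (nat_lit 221842700006562147996)]]]]],[[[[[Int.negSucc (nat_lit 2513135292782987219)]]]]]]],[[[[[[[Int.ofNat (nat_lit 34631328069789205974)]]]]]]]],[],[[[[[[[[Int.ofNat (nat_lit 7040245306703343522)]]]]]]]]],[[[[[[[[[Int.ofNat (nat_lit 222592590795689841960)]]],[[[Int.ofNat (nat_lit 2385322510325561796)]]]]],[[[[[Int.ofNat (nat_lit 225731208270897508746)]]]]]],[],[[[[[[Int.negSucc (nat_lit 20014381350299527832)]]]]]]],[[[[[[[Int.negSucc (nat_lit 2087302764536938931)]]]]]]],[[[[[[[Int.ofNat (nat_lit 12250360863359529327)]]]]]]]],[[[[[],[[[[Int.ofNat (nat_lit 29692221315520795098)]]]]]],[[[[[[Int.negSucc (nat_lit 55167088505282838671)]]]]]]]],[[[[[[[[Int.ofNat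 (nat_lit 10317023503446319845)]]]]]]]]],[[[[[[[[[Int.ofNat (nat_lit 240686250256877233590)]]]]],[[[[[Int.ofNat (nat_lit 5985561470810244120)]]]]]]],[[[[[[[Int.negSucc (nat_lit 9886235687828907593)]]]]]]]],[],[[[[[[[[Int.ofNat (nat_lit 25138177565305461810)]]]]]]]]],[[[[[[[[[Int.ofNat (nat_lit 110535061611028347780)]]]]]]]]],[[[[[[[[[Int.ofNat (nat_lit 5757765553191923772)]]]]]]]]]]

/-- A coefficient. -/
noncomputable def sr7_m1_0_5 : MP 10 :=
  [[[[[[[[[],[[Int.ofNat (nat_lit 1544880204180409752)]]]],[[[[Int.negSucc (nat_lit 371746573819900818143)]]],[[[Int.ofNat (nat_lit 4832850466206652392)]]]]],[[[[],[[Int.negSucc (nat_lit 3089760408360819503)]]]],[[[[Int.negSucc (nat_lit 7831107726847416923)]]]]]],[[[[[[Int.ofNat (nat_lit 84453505686224966922)]]]]],[[[[[Int.negSucc (nat_lit 122044280611970949947)]]]]]]],[[[[],[[[[Int.ofNat (nat_lit 27115971485706278808)]]]]]]]],[[[[[[[[Int.negSucc (nat_lit 157046177406167981285)]]]]],[[[[[Int.ofNat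 (nat_lit 716370864536424871332)]]]]]],[[[],[[[[Int.negSucc (nat_lit 1713260379494616227)]]]]]]],[[[[[[[Int.negSucc (nat_lit 14124098482074214349)]]]]],[[[[[Int.ofNat (nat_lit 15873144073064484060)]]]]]]]],[[[[[[[],[[Int.ofNat (nat_lit 1544880204180409752)]]]],[[[[Int.ofNat (nat_lit 30915657845756046180)]]]]]],[[[[[[Int.ofNat (nat_lit 61022140305985474974)]]]]]]]],[[[[[[[[Int.negSucc (nat_lit 358185432268212435665)]]]]]]],[[[[[[[Int.negSucc (nat_lit 7936572036532242029)]]]]]]]]],[[[[[[],[[[[Int.negSucc (nat_lit 338023022807448089159)]]]]]],[[[[[[Int.ofNat (nat_lit 28203719139436912206)]]]]],[[[[[Int.negSucc (nat_lit 56407438278873824411)]]]]]]],[[[[],[[[[Int.ofNat (nat_lit 30020267109396291108)]]]]]]]],[[[[[[[[Int.negSucc (nat_lit 381165123068775977003)]]],[[[Int.ofNat (nat_lit 4832850466206652392)]]]]],[[[[[Int.ofNat (nat_lit 117328972834936429500)]]]]]]],[[[[[[[Int.ofNat (nat_lit 27115971485706278808)]]]]]]]],[[[],[[[[[[Int.ofNat (nat_lit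 26490458759942295978)]]]]]]]],[[[[[[[[Int.negSucc (nat_lit 31664382435135877031)]]]]]]]]],[[[[[[[[],[[Int.negSucc (nat_lit 1544880204180409751)]]]],[[[[Int.negSucc (nat_lit 82322390951556614651)]]]]]],[[[[[[Int.negSucc (nat_lit 61022140305985474973)]]]]]]]],[[[[[[[[Int.ofNat (nat_lit 20162409460764346506)]]]]]]],[[[[[[[Int.ofNat (nat_lit 37956839145928533138)]]]]]]]]],[[[[],[[[[[[Int.negSucc (nat_lit 28203719139436912205)]]]]]]]],[[[[[[[[Int.negSucc (nat_lit 19742350670664691439)]]]]]]]]]]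

/-- A coefficient. -/
noncomputable def sr7_m1_0_6 : MP 10 :=
  [[[[[[[[[[Int.ofNat (nat_lit 111041731884254709462)]]]],[],[[[[Int.negSucc (nat_lit 2513533460378634431)]]]]],[[[[[Int.negSucc (nat_lit 633901706264946231617)]]]]],[[[[[Int.negSucc (nat_lit 4341092629913486387)]]]]]],[[[],[[[[Int.ofNat (nat_lit 19639424271880064256)]]]]]]],[[[[[[[Int.ofNat (nat_lit 38436124129726174284)]]]]],[[[[[Int.negSucc (nat_lit 46825352890265426759)]]]]]]]],[[[[[],[[[[Int.negSucc (nat_lit 175448925314628165515)]]]]]]]],[[[[[[[[Int.ofNat (nat_lit 388245062475925369701)]]]]],[[[[[Int.ofNat (nat_lit 127574471271189422688)]]]]]]],[[[[[[[Int.ofNat (nat_lit 23412676445132713380)]]]]]]]],[],[[[[[[[[Int.negSucc (nat_lit 62701962478116339746)]]]]]]]]],[[[[[[[[[Int.ofNat (nat_lit 46523924716421637126)]]]]],[[[[[Int.negSucc (nat_lit 275934228259786071227)]]]]]]]],[[[[[],[[[[Int.negSucc (nat_lit 108095298997931366411)]]]]]],[[[[[[Int.ofNat (nat_lit 19639424271880064256)]]]]]]]],[[[[[[[[Int.negSucc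 (nat_lit 37481811184735129901)]]]]]]]]],[[[[[[[[[Int.negSucc (nat_lit 271199987194503709529)]]]]],[[[[[Int.negSucc (nat_lit 95842824505852298945)]]]]]]],[[[[[[[Int.negSucc (nat_lit 23412676445132713379)]]]]]]]],[],[[[[[[[[Int.ofNat (nat_lit 3956336036011385643)]]]]]]]]],[[[[[[[[[Int.negSucc (nat_lit 137967114129893035613)]]]]]]]]],[[[[[[[[[Int.negSucc (nat_lit 46836139095447777875)]]]]]]]]]]

/-- A coefficient. -/
noncomputable def sr7_m1_0_7 : MP 10 :=
  [[[[[[[],[[[[Int.ofNat (nat_lit 215149236035885478480)]]]]]],[[[[[[Int.negSucc (nat_lit 43128647940093473387)]]]]],[[[[[Int.ofNat (nat_lit 86257295880186946776)]]]]]]],[[[[],[[[[Int.negSucc (nat_lit 30864099256817744243)]]]]]]]],[[[[[[[[Int.negSucc (nat_lit 12530825590600963673)]]]]],[[[[[Int.negSucc (nat_lit 299791182144780410051)]]]]]]]],[[[],[[[[[[Int.negSucc (nat_lit 43128647940093473387)]]]]]]]],[[[[[[[[Int.ofNat (nat_lit 149895591072390205026)]]]]]]]]],[[[[[[],[[[[Int.ofNat (nat_lit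 140296000673280952416)]]]]]]]],[[[[[[[[Int.ofNat (nat_lit 215149236035885478480)]]]]]]],[[[[[[[Int.negSucc (nat_lit 30864099256817744243)]]]]]]]]],[[[[],[[[[[[Int.ofNat (nat_lit 43128647940093473388)]]]]]]]],[[[[[[[[Int.negSucc (nat_lit 9599590399109252609)]]]]]]]]]]

/-- A coefficient. -/
noncomputable def sr7_m1_0_8 : MP 10 :=
  [[[[[[[[[[Int.negSucc (nat_lit 91940900827006737749)]]]]],[[[[[Int.ofNat (nat_lit 489152154642010715940)]]]]]]]],[[[[[],[[[[Int.negSucc (nat_lit 27996722473851110519)]]]]]]]],[[[[[[[[Int.negSucc (nat_lit 244576077321005357969)]]]]]]]]],[[[[[[[[[Int.negSucc (nat_lit 13144398744040412345)]]]]],[[[[[Int.ofNat (nat_lit 26288797488080824692)]]]]]]]],[],[[[[[[[[Int.negSucc (nat_lit 41141121217891522865)]]]]]]]]],[[[[[[[[[Int.ofNat (nat_lit 244576077321005357970)]]]]]]]]],[[[[[[[[[Int.ofNat (nat_lit 13144398744040412346)]]]]]]]]]]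

/-- A coefficient. -/
noncomputable def sr7_m1_0_9 : MP 10 :=
  [[[[[[[],[[[[Int.negSucc (nat_lit 11282261285167884971)]]]]]]]]],[[],[[[[[[[[Int.negSucc (nat_lit 11282261285167884971)]]]]]]]]]]

/-- A coefficient. -/
noncomputable def sr7_m1_0_10 : MP 10 :=
  [[[[[[[[[[Int.ofNat (nat_lit 62878308668106777717)]]]]],[[[[[Int.negSucc (nat_lit 125756617336213555433)]]]]]]]],[],[[[[[[[[Int.ofNat (nat_lit 62878308668106777717)]]]]]]]]],[],[[[[[[[[[Int.negSucc (nat_lit 62878308668106777716)]]]]]]]]]]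

/-- A coefficient. -/
noncomputable def sr7_m1_1_0 : MP 10 :=
  [[[[[[[[[[Int.negSucc (nat_lit 8654471809913508425)]]],[[[Int.negSucc (nat_lit 262293657241556693)]]]],[[[],[[Int.negSucc (nat_lit 2001017389980738995)]]]],[[[[Int.negSucc (nat_lit 172240818161940635)]]],[[[Int.negSucc (nat_lit 1038663991521979631)]]]]],[[[[[Int.negSucc (nat_lit 12695770610554391363)]]],[[[Int.negSucc (nat_lit 1263925878013277903)]]]],[[[],[[Int.ofNat (nat_lit 1441114075519442004)]]]],[[[[Int.negSucc (nat_lit 4110529548406555391)]]]]],[[[[[Int.ofNat (nat_lit 3266206580206255758)]]],[[[Int.negSucc (nat_lit 1478677127060329031)]]]]],[[[[[Int.negSucc (nat_lit 11920278876677990435)]]]]]],[[[[[],[[Int.ofNat (nat_lit 228378457679102796)]]]],[[[[Int.ofNat (nat_lit 7802043061018303038)]]],[[[Int.ofNat (nat_lit 816542595201079944)]]]]],[[[[],[[Int.negSucc (nat_lit 456756915358205591)]]]],[[[[Int.ofNat (nat_lit 8847314509958477004)]]]]]],[[[[[[Int.negSucc (nat_lit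 22839100575514173947)]]]]],[[[[[Int.ofNat (nat_lit 45678201151028347896)]]]]]]],[[[[[[[Int.negSucc (nat_lit 4316811126547662113)]]],[[[Int.ofNat (nat_lit 1805178413409803262)]]]],[[[],[[Int.negSucc (nat_lit 1283273109716539319)]]]],[[[[Int.ofNat (nat_lit 1629961530410951952)]]]]],[[[[[Int.negSucc (nat_lit 3549323180885846327)]]],[[[Int.ofNat (nat_lit 3610356826819606524)]]]]],[[[[[Int.ofNat (nat_lit 10168598144418955800)]]]]]],[[[],[[[[Int.negSucc (nat_lit 17951969549701820555)]]]]]]],[[[[[[[Int.negSucc (nat_lit 15575048029572696815)]]]]],[[[[[Int.negSucc (nat_lit 31150096059145393631)]]]]]]]],[[[[[[[],[[Int.negSucc (nat_lit 1155825185341969847)]]]],[[[[Int.negSucc (nat_lit 22525667397446846081)]]],[[[Int.ofNat (nat_lit 3618778840324377744)]]]]],[[[[],[[Int.ofNat (nat_lit 2311650370683939696)]]]],[[[[Int.ofNat (nat_lit 19513199517610389024)]]]]]],[[[[[[Int.ofNat (nat_lit 15372798893245192260)]]]],[],[[[[Int.negSucc (nat_lit 5001301856891181599)]]]]],[[[[[Int.negSucc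 (nat_lit 19361960607246790919)]]]]],[[[[[Int.negSucc (nat_lit 4945872488164010159)]]]]]],[[[],[[[[Int.negSucc (nat_lit 8847107285713397483)]]]]]]],[[[[],[[[[Int.negSucc (nat_lit 68994116816394897089)]]]]],[[],[[[[Int.negSucc (nat_lit 6106132028140240067)]]]]]],[[[[[[Int.ofNat (nat_lit 1613823349494234756)]]]]],[[[[[Int.negSucc (nat_lit 27889197853025038367)]]]]]]],[[[[],[[[[Int.ofNat (nat_lit 845241547929323136)]]]]]]]],[[[[[[[[Int.negSucc (nat_lit 64036392575523092105)]]],[[[Int.ofNat (nat_lit 981320997492068808)]]]],[[[],[[Int.ofNat (nat_lit 454161728784551436)]]]],[[[[Int.ofNat (nat_lit 9588002487142739748)]]]]],[[[[[Int.ofNat (nat_lit 112883478885173982468)]]],[[[Int.ofNat (nat_lit 2177393244031188744)]]]]],[[[[[Int.ofNat (nat_lit 20758975013598762090)]]]]]],[[[[[],[[Int.ofNat (nat_lit 228378457679102796)]]]],[[[[Int.ofNat (nat_lit 23362517111732748846)]]]]]],[[[[[[Int.negSucc (nat_lit 22839100575514173947)]]]]]]],[[[[[[[Int.ofNat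 (nat_lit 12129681310961950362)]]],[[[Int.negSucc (nat_lit 1805178413409803261)]]]]],[[[[[Int.negSucc (nat_lit 459956537146063451)]]]]]]],[[[[[[[Int.ofNat (nat_lit 15575048029572696816)]]]]]]]],[[[[[[[],[[Int.negSucc (nat_lit 1155825185341969847)]]]],[[[[Int.negSucc (nat_lit 10202612382751982405)]]]]]],[[[[[[Int.ofNat (nat_lit 11003413418358671616)]]]]],[[[[[Int.ofNat (nat_lit 7590738717634562472)]]]]]]],[[[[],[[[[Int.negSucc (nat_lit 4474370660030891033)]]]]]],[[[[[[Int.ofNat (nat_lit 13944598926512519184)]]]]]]]],[[[[[[[[Int.negSucc (nat_lit 61652184792273648077)]]],[[[Int.negSucc (nat_lit 719027340250512113)]]]]],[[[[[Int.negSucc (nat_lit 20606553265360455071)]]]]]]],[[[[[[[Int.negSucc (nat_lit 2312171267531707223)]]]]]]]],[[[],[[[[[[Int.negSucc (nat_lit 2558901236776278695)]]]]]]]],[[[[[[[[Int.ofNat (nat_lit 6603567738865285818)]]]]]]]]],[[[[[[[[[Int.negSucc (nat_lit 27006318103514169941)]]],[[[Int.ofNat (nat_lit 1326659850954803634)]]]],[[[],[[Int.ofNat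 (nat_lit 530985144989354472)]]]],[[[[Int.ofNat (nat_lit 20417559961471827912)]]]]],[[[[[Int.negSucc (nat_lit 29696357398887441485)]]],[[[Int.ofNat (nat_lit 2653319701909607268)]]]]],[[[[[Int.ofNat (nat_lit 48632557616281796796)]]]]]],[[[],[[[[Int.negSucc (nat_lit 40017654290306003111)]]]]],[[],[[[[Int.ofNat (nat_lit 5117282492706594900)]]]]]],[[[[[[Int.negSucc (nat_lit 4925847814146923153)]]]]],[[[[[Int.ofNat (nat_lit 9851695628293846308)]]]]]]],[[[[[[[Int.negSucc (nat_lit 28037107756404833147)]]]],[],[[[[Int.negSucc (nat_lit 695143492058376347)]]]]],[[[[[Int.negSucc (nat_lit 56649636493277494379)]]]]],[[[[[Int.negSucc (nat_lit 1150841960935656167)]]]]]],[[[],[[[[Int.ofNat (nat_lit 13434204834016227924)]]]]]]],[[[[[[[Int.negSucc (nat_lit 32430702004290413)]]]]],[[[[[Int.negSucc (nat_lit 64861404008580827)]]]]]]]],[[[[[[[],[[Int.negSucc (nat_lit 1841348511581226467)]]]],[[[[Int.negSucc (nat_lit 85202464349472930437)]]],[[[Int.negSucc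 (nat_lit 271372402556852267)]]]]],[[[[],[[Int.ofNat (nat_lit 1121776318720416948)]]]],[[[[Int.ofNat (nat_lit 7614555202749341208)]]]]]],[[[[[[Int.ofNat (nat_lit 7635576640568886174)]]],[[[Int.ofNat (nat_lit 816542595201079944)]]]]],[[[[[Int.ofNat (nat_lit 28745391391105564092)]]]]]]],[[[[[[],[[Int.negSucc (nat_lit 1283273109716539319)]]]],[[[[Int.negSucc (nat_lit 30039734784835565519)]]]]]],[[[[[[Int.negSucc (nat_lit 17951969549701820555)]]]]]]]],[[[[[[[[Int.negSucc (nat_lit 94846865697816401357)]]],[[[Int.ofNat (nat_lit 2292118989369574110)]]]]],[[[[[Int.ofNat (nat_lit 95010316487508721566)]]]]]],[[[],[[[[Int.negSucc (nat_lit 756750994014927263)]]]]]],[[[[[[Int.negSucc (nat_lit 13772955099860320637)]]]]]]],[[[[[[[Int.negSucc (nat_lit 37368298211237064803)]]]]],[[[[[Int.negSucc (nat_lit 7927653665394953531)]]]]]]],[[[[[[[Int.ofNat (nat_lit 877672249933613550)]]]]]]]],[[[[[[[],[[Int.ofNat (nat_lit 613830607184063964)]]]],[[[[Int.ofNat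 (nat_lit 14879186993721256254)]]]]]],[[[[[[Int.ofNat (nat_lit 13413478671159205302)]]]]]]]],[[[[[[[[Int.negSucc (nat_lit 60109310271771597875)]]]]]]],[[[[[[[Int.negSucc (nat_lit 3275899351169620259)]]]]]]]]],[[[[[[[[[Int.negSucc (nat_lit 72851140203829909547)]]],[[[Int.ofNat (nat_lit 163824279273971820)]]]],[[[],[[Int.ofNat (nat_lit 497516763522373704)]]]],[[[[Int.ofNat (nat_lit 13689885275177587584)]]]]],[[[[[Int.negSucc (nat_lit 113578307987829971021)]]],[[[Int.ofNat (nat_lit 112897309500892512)]]]]],[[[[[Int.ofNat (nat_lit 14443572143121416250)]]]]]],[[[[[],[[Int.negSucc (nat_lit 228378457679102795)]]]],[[[[Int.negSucc (nat_lit 36663325880647721189)]]]]]],[[[[[[Int.ofNat (nat_lit 22839100575514173948)]]]]]]],[[[[[[[Int.negSucc (nat_lit 13512854396896317869)]]],[[[Int.ofNat (nat_lit 1805178413409803262)]]]]],[[[[[Int.negSucc (nat_lit 13307787468487833611)]]]]]]],[[[[[[[Int.negSucc (nat_lit 15575048029572696815)]]]]]]]],[[[[[[[],[[Int.ofNat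 (nat_lit 1686810330331324320)]]]],[[[[Int.negSucc (nat_lit 80611260375195551093)]]]]]],[[[[[[Int.negSucc (nat_lit 50734397451969827189)]]]]],[[[[[Int.ofNat (nat_lit 4381389106711733184)]]]]]]],[[[[],[[[[Int.negSucc (nat_lit 4599806181837661073)]]]]]],[[[[[[Int.negSucc (nat_lit 510394092496291259)]]]]]]]],[[[[[[[[Int.ofNat (nat_lit 2057173662393213012)]]],[[[Int.ofNat (nat_lit 1060200992700110964)]]]]],[[[[[Int.ofNat (nat_lit 45224874453970888446)]]]]]]],[[[[[[[Int.negSucc (nat_lit 20161481777366154491)]]]]]]]],[[[],[[[[[[Int.ofNat (nat_lit 5934930670608961350)]]]]]]]],[[[[[[[[Int.negSucc (nat_lit 19463497085244426383)]]]]]]]]],[[[[[[[[[Int.negSucc (nat_lit 85645155000052390901)]]],[[[Int.ofNat (nat_lit 1326659850954803634)]]]]],[[[[[Int.negSucc (nat_lit 92961394984935543521)]]]]]],[[[],[[[[Int.ofNat (nat_lit 6375329164437431724)]]]]]],[[[[[[Int.ofNat (nat_lit 4925847814146923154)]]]]]]],[[[[[[[Int.negSucc (nat_lit 25636916796830685047)]]]]],[[[[[Int.ofNat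 (nat_lit 4224960938680468116)]]]]]]],[[[[[[[Int.negSucc (nat_lit 32430702004290413)]]]]]]]],[[[[[[[],[[Int.ofNat (nat_lit 337847885122861176)]]]],[[[[Int.negSucc (nat_lit 18910864377125828429)]]]]]],[[[[[[Int.negSucc (nat_lit 26714287440074177645)]]]]]]]],[[[[[[[[Int.ofNat (nat_lit 7516714448890457424)]]]]]]],[[[[[[[Int.negSucc (nat_lit 7503324958214703599)]]]]]]]]],[[[[[[[[[Int.negSucc (nat_lit 79017751052583030563)]]],[[[Int.ofNat (nat_lit 426117936515528514)]]]]],[[[[[Int.negSucc (nat_lit 19440309526603053149)]]]]]]],[[[[[[[Int.negSucc (nat_lit 9196043270348655755)]]]]]]]],[[[],[[[[[[Int.ofNat (nat_lit 7243850593481003406)]]]]]]]],[[[[[[[[Int.ofNat (nat_lit 371446859320870500)]]]]]]]]],[[[[[[[[[Int.negSucc (nat_lit 58638836896538220959)]]]]]]],[[[[[[[Int.ofNat (nat_lit 2400190959574148100)]]]]]]]]],[[[[[[[[[Int.negSucc (nat_lit 14821082658666629441)]]]]]]]]]]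

/-- A coefficient. -/
noncomputable def sr7_m1_1_1 : MP 10 :=
  [[[[[[[[[],[[Int.negSucc (nat_lit 1746027911925143393)]]]],[[[[Int.negSucc (nat_lit 485907285171045887)]]],[[[Int.negSucc (nat_lit 1602837443483996627)]]]],[],[[[[Int.ofNat (nat_lit 2312158058180811408)]]]]],[[[[],[[Int.ofNat (nat_lit 3492055823850286788)]]]],[[[[Int.negSucc (nat_lit 24982732780607340185)]]]]],[[],[[[[Int.ofNat (nat_lit 6789966549420717372)]]]]]],[[[[[[Int.negSucc (nat_lit 8197537907835881237)]]],[[[Int.negSucc (nat_lit 2160147021222520109)]]]],[[[],[[Int.negSucc (nat_lit 3152037955569850703)]]]],[[[[Int.negSucc (nat_lit 731732624820843647)]]]]],[[[[[Int.negSucc (nat_lit 26222549850479021297)]]],[[[Int.negSucc (nat_lit 4320294042445040219)]]]]],[[[[[Int.ofNat (nat_lit 6672416069576102556)]]]]]],[[[],[[[[Int.ofNat (nat_lit 34891633449589259244)]]]]]]],[[[[[[],[[Int.ofNat (nat_lit 58385427001476612)]]]],[[[[Int.ofNat (nat_lit 76860540642063859398)]]],[[[Int.negSucc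 (nat_lit 1236009611225949203)]]]]],[[[[],[[Int.negSucc (nat_lit 116770854002953223)]]]],[[[[Int.negSucc (nat_lit 19689322111840950587)]]]]]],[[[[[[Int.negSucc (nat_lit 7741075043456967683)]]]]],[[[[[Int.ofNat (nat_lit 64156025177282258208)]]]]]]],[[[[],[[[[Int.ofNat (nat_lit 3457966886890572996)]]]]]]]],[[[[[[[[Int.ofNat (nat_lit 114095500246382379582)]]],[[[Int.ofNat (nat_lit 3407634593644572822)]]]],[[[],[[Int.ofNat (nat_lit 2561871842161937676)]]]],[[[[Int.ofNat (nat_lit 10385874422922948204)]]]]],[[[[[Int.negSucc (nat_lit 94049252216933860433)]]],[[[Int.ofNat (nat_lit 6815269187289145644)]]]]],[[[[[Int.ofNat (nat_lit 37189510504346612268)]]]]]],[[[],[[[[Int.negSucc (nat_lit 135047506630372918871)]]]]]],[[[[[[Int.ofNat (nat_lit 6001248986537521458)]]]]],[[[[[Int.ofNat (nat_lit 12002497973075042916)]]]]]]],[[[[[[[Int.negSucc (nat_lit 56995820043719705483)]]]]],[[[[[Int.negSucc (nat_lit 127870237478152858007)]]]]]],[[[],[[[[Int.negSucc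 (nat_lit 20697717527452863839)]]]]]]],[[[[[[[Int.negSucc (nat_lit 1045767050640042227)]]]]],[[[[[Int.ofNat (nat_lit 2091534101280084456)]]]]]]]],[[[[[[[],[[Int.negSucc (nat_lit 1746027911925143393)]]]],[[[[Int.negSucc (nat_lit 187240472824069729703)]]]]],[[],[[[[Int.negSucc (nat_lit 1374140937071448737)]]]]]],[[[[[[Int.ofNat (nat_lit 31287860063590628286)]]],[[[Int.ofNat (nat_lit 2160147021222520110)]]]]],[[[[[Int.ofNat (nat_lit 57532472045148318690)]]]]]]],[[[[[[],[[Int.ofNat (nat_lit 58385427001476612)]]]],[[[[Int.ofNat (nat_lit 21673060241886636810)]]]]]],[[[[[[Int.negSucc (nat_lit 32078012588641129103)]]]]]]]],[[[[[[[[Int.ofNat (nat_lit 61535200376854843638)]]],[[[Int.negSucc (nat_lit 3407634593644572821)]]]]],[[[[[Int.negSucc (nat_lit 51746857856749923605)]]]]]],[],[[[[[[Int.negSucc (nat_lit 6001248986537521457)]]]]]]],[[[[[[[Int.ofNat (nat_lit 63935118739076429004)]]]]]]],[[[[[[[Int.negSucc (nat_lit 1045767050640042227)]]]]]]]],[[[[[],[[[[Int.ofNat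 (nat_lit 6055000983288532476)]]]]]],[[[[[[Int.negSucc (nat_lit 30434340039968184983)]]]]]]]],[[[[[[[[Int.ofNat (nat_lit 16576051302288308736)]]]]]]]]],[[[[[[[[],[[Int.negSucc (nat_lit 659408856309337829)]]]],[[[[Int.ofNat (nat_lit 50730608669926901208)]]],[[[Int.ofNat (nat_lit 1664792743275635784)]]]]],[[[[],[[Int.ofNat (nat_lit 1318817712618675660)]]]],[[[[Int.negSucc (nat_lit 40832001636172144007)]]]]]],[[[[[[Int.ofNat (nat_lit 57788464752163582032)]]]]],[[[[[Int.negSucc (nat_lit 78287219182073443631)]]]]]],[[[],[[[[Int.negSucc (nat_lit 1796814617749560767)]]]]]]],[[[[],[[[[Int.ofNat (nat_lit 87361422841834067592)]]]]]],[[[[[[Int.ofNat (nat_lit 11662700702197980078)]]]]],[[[[[Int.negSucc (nat_lit 27279744700127226059)]]]]]]],[[[[],[[[[Int.ofNat (nat_lit 2725841985543647340)]]]]]]]],[[[[[[[[Int.ofNat (nat_lit 112577354934665744706)]]],[[[Int.negSucc (nat_lit 1602837443483996627)]]]],[],[[[[Int.ofNat (nat_lit 3375811934386154112)]]]]],[[[[[Int.negSucc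 (nat_lit 175013231675826044543)]]]]],[[[[[Int.ofNat (nat_lit 4147865835284157888)]]]]]],[[[[[],[[Int.negSucc (nat_lit 3152037955569850703)]]]],[[[[Int.negSucc (nat_lit 60934393490768673983)]]]]]],[[[[[[Int.ofNat (nat_lit 34891633449589259244)]]]]]]],[[[[[[[Int.ofNat (nat_lit 63633127666629152490)]]],[[[Int.negSucc (nat_lit 1236009611225949203)]]]]],[[[[[Int.negSucc (nat_lit 29139169507047266867)]]]]]]],[[[[[[[Int.ofNat (nat_lit 3457966886890572996)]]]]]]]],[[[[[[[],[[Int.ofNat (nat_lit 1902462985852599846)]]]],[[[[Int.negSucc (nat_lit 145802389624463561915)]]]]]],[[[[[[Int.negSucc (nat_lit 95903897039336197055)]]]]]]],[[],[[[[[[Int.negSucc (nat_lit 7057845177389250809)]]]]]]]],[[[[[[[[Int.negSucc (nat_lit 107561253940773690479)]]]]],[[[[[Int.negSucc (nat_lit 182319845875809863)]]]]]]],[[[[[[[Int.ofNat (nat_lit 26397983939489794950)]]]]]]]],[],[[[[[[[[Int.ofNat (nat_lit 6119615616224852910)]]]]]]]]],[[[[[[[[],[[Int.ofNat (nat_lit 1746027911925143394)]]]],[[[[Int.ofNat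 (nat_lit 125971376230003436178)]]]]],[[],[[[[Int.ofNat (nat_lit 3279188795503739742)]]]]]],[[[[[[Int.ofNat (nat_lit 16543504403016062820)]]],[[[Int.negSucc (nat_lit 2160147021222520109)]]]]],[[[[[Int.negSucc (nat_lit 21503567555583994853)]]]]]]],[[[[[[],[[Int.negSucc (nat_lit 58385427001476611)]]]],[[[[Int.ofNat (nat_lit 33909138131786174598)]]]]]],[[[[[[Int.ofNat (nat_lit 32078012588641129104)]]]]]]]],[[[[[[[[Int.ofNat (nat_lit 5638327369955630262)]]],[[[Int.ofNat (nat_lit 5072427336920208606)]]]]],[[[[[Int.negSucc (nat_lit 86620239210636049169)]]]]]],[],[[[[[[Int.ofNat (nat_lit 4204434368787960690)]]]]]]],[[[[[[[Int.ofNat (nat_lit 23426304102757638588)]]]]]]],[[[[[[[Int.ofNat (nat_lit 3771609036183689568)]]]]]]]],[[[[[],[[[[Int.negSucc (nat_lit 5222497661395335269)]]]]]],[[[[[[Int.negSucc (nat_lit 17348433030793622285)]]]]]]]],[[[[[[[[Int.negSucc (nat_lit 140572818936356213207)]]]]]]]]],[[[[[[[[],[[Int.ofNat (nat_lit 659408856309337830)]]]],[[[[Int.ofNat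 (nat_lit 61192014215020128876)]]]]]],[[[[[[Int.negSucc (nat_lit 39143609591036721815)]]]]]]],[[],[[[[[[Int.negSucc (nat_lit 13639872350063613029)]]]]]]]],[[[[[[[[Int.ofNat (nat_lit 50531295047357376702)]]]]],[[[[[Int.ofNat (nat_lit 16131197987143757892)]]]]]]],[[[[[[[Int.ofNat (nat_lit 29184214434183016458)]]]]]]]],[],[[[[[[[[Int.negSucc (nat_lit 13437295944891147353)]]]]]]]]],[[[[[[],[[[[Int.ofNat (nat_lit 10235991299857074138)]]]]]],[[[[[[Int.negSucc (nat_lit 12419887795186023065)]]]]]]]],[[[[[[[[Int.ofNat (nat_lit 29000517801701523228)]]]]]]]]],[[],[[[[[[[[Int.ofNat (nat_lit 17322521074211223084)]]]]]]]]]]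

/-- A coefficient. -/
noncomputable def sr7_m1_1_2 : MP 10 :=
  [[[[[[[[[[Int.negSucc (nat_lit 128942933658699582029)]]],[[[Int.negSucc (nat_lit 4266942513254490005)]]]],[[[],[[Int.negSucc (nat_lit 5809741535277909155)]]]],[[[[Int.negSucc (nat_lit 6796220957513984711)]]]]],[[[[[Int.ofNat (nat_lit 23560929397832309496)]]],[[[Int.negSucc (nat_lit 8533885026508980011)]]]]],[[[[[Int.negSucc (nat_lit 30935873055020373935)]]]]]],[[[],[[[[Int.ofNat (nat_lit 104961288172956108018)]]]]],[[],[[[[Int.ofNat (nat_lit 1056654416696847708)]]]]]],[[[[[[Int.negSucc (nat_lit 28936997984402936057)]]]]],[[[[[Int.negSucc (nat_lit 91237749977634781811)]]]]]]],[[[[[[[Int.ofNat (nat_lit 58735315077630962820)]]]],[],[[[[Int.ofNat (nat_lit 3550894666961497680)]]]]],[[[[[Int.ofNat (nat_lit 33861000933108771120)]]]]],[[[[[Int.negSucc (nat_lit 622479340575798191)]]]]]],[[[],[[[[Int.ofNat (nat_lit 33620439137600333532)]]]]]]],[[[[[[[Int.negSucc (nat_lit 68062371378705077225)]]]]],[[[[[Int.ofNat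 (nat_lit 93876807245358562596)]]]]]]]],[[[[[[[],[[Int.ofNat (nat_lit 2391123076447767606)]]]],[[[[Int.ofNat (nat_lit 332926490500031822814)]]],[[[Int.negSucc (nat_lit 2547713092553181467)]]]]],[[[[],[[Int.negSucc (nat_lit 4782246152895535211)]]]],[[[[Int.negSucc (nat_lit 31920982683031770635)]]]]]],[[[[[[Int.negSucc (nat_lit 136642403687062818389)]]]]],[[[[[Int.negSucc (nat_lit 174696884813563153139)]]]]]]],[[[[],[[[[Int.ofNat (nat_lit 119754400461358583316)]]]]]]]],[[[[[[[[Int.negSucc (nat_lit 75747816339468203513)]]],[[[Int.ofNat (nat_lit 4266942513254490006)]]]]],[[[[[Int.negSucc (nat_lit 550974583708873833983)]]]]]],[[[],[[[[Int.ofNat (nat_lit 3730498848121648626)]]]]]],[[[[[[Int.ofNat (nat_lit 45618874988817390906)]]]]]]],[[[[[[[Int.negSucc (nat_lit 30419229533145065591)]]]]],[[[[[Int.ofNat (nat_lit 6898389457093784400)]]]]]]],[[[[[[[Int.negSucc (nat_lit 46938403622679281297)]]]]]]]],[[[[[[[],[[Int.ofNat (nat_lit 2391123076447767606)]]]],[[[[Int.ofNat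 (nat_lit 7803552684133422258)]]]]]],[[[[[[Int.ofNat (nat_lit 87348442406781576570)]]]]]]]],[[[[[[[[Int.ofNat (nat_lit 283221260118192010476)]]]]]]],[[[[[[[Int.negSucc (nat_lit 3293574893402942651)]]]]]]]]],[[[[[[[[[Int.negSucc (nat_lit 213478097347337941559)]]],[[[Int.ofNat (nat_lit 205508743006017336)]]]],[[[],[[Int.ofNat (nat_lit 3635534283240099540)]]]],[[[[Int.ofNat (nat_lit 9754672069358508924)]]]]],[[[[[Int.ofNat (nat_lit 142899519367668548238)]]],[[[Int.ofNat (nat_lit 411017486012034672)]]]]],[[[[[Int.negSucc (nat_lit 10481875215680051435)]]]]]],[[[],[[[[Int.ofNat (nat_lit 70448882161183250856)]]]]]]],[[[[[[[Int.ofNat (nat_lit 5652532606283735244)]]]]],[[[[[Int.ofNat (nat_lit 54169739780374312056)]]]]]]]],[[[[[[[],[[Int.negSucc (nat_lit 5809741535277909155)]]]],[[[[Int.ofNat (nat_lit 628202452808595349032)]]]]]],[[[[[[Int.ofNat (nat_lit 87862815535070582928)]]]]],[[[[[Int.ofNat (nat_lit 33396675722907129336)]]]]]]],[[[[],[[[[Int.negSucc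 (nat_lit 11574395896967050307)]]]]]],[[[[[[Int.ofNat (nat_lit 33620439137600333532)]]]]]]]],[[[[[[[[Int.ofNat (nat_lit 262399814821600832430)]]],[[[Int.negSucc (nat_lit 2753221835559198803)]]]]],[[[[[Int.negSucc (nat_lit 298510119502152470189)]]]]]]],[[[[[[[Int.ofNat (nat_lit 92669530571171427288)]]]]]]]],[[[],[[[[[[Int.negSucc (nat_lit 12439511804983492187)]]]]]]]],[[[[[[[[Int.ofNat (nat_lit 143718589897613784894)]]]]]]]]],[[[[[[[[[Int.negSucc (nat_lit 113701546207211660159)]]],[[[Int.negSucc (nat_lit 4266942513254490005)]]]]],[[[[[Int.ofNat (nat_lit 201574089445547533980)]]]]]],[[[],[[[[Int.negSucc (nat_lit 62564319759267239813)]]]]]],[[[[[[Int.negSucc (nat_lit 45618874988817390905)]]]]]]],[[[[[[[Int.ofNat (nat_lit 9158704361162612700)]]]]],[[[[[Int.negSucc (nat_lit 29221410957785216879)]]]]]]],[[[[[[[Int.ofNat (nat_lit 46938403622679281298)]]]]]]]],[[[[[[[],[[Int.ofNat (nat_lit 1244411206792331934)]]]],[[[[Int.ofNat (nat_lit 203436959283121128882)]]]]]],[[[[[[Int.negSucc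 (nat_lit 16899560245598325713)]]]]]]]],[[[[[[[[Int.ofNat (nat_lit 243256400661388462794)]]]]]]],[[[[[[[Int.ofNat (nat_lit 2623369973223053556)]]]]]]]]],[[[[[[[[[Int.ofNat (nat_lit 44620846409013509604)]]],[[[Int.ofNat (nat_lit 205508743006017336)]]]]],[[[[[Int.ofNat (nat_lit 67432120122257316762)]]]]]]],[[[[[[[Int.ofNat (nat_lit 27084869890187156028)]]]]]]]],[[[],[[[[[[Int.negSucc (nat_lit 46394309106162098999)]]]]]]]],[[[[[[[[Int.ofNat (nat_lit 21430721135233586082)]]]]]]]]],[[[[[[[[[Int.ofNat (nat_lit 108521012986528860474)]]]]]]],[[[[[[[Int.negSucc (nat_lit 14455085643748658891)]]]]]]]]],[[[[[[[[[Int.ofNat (nat_lit 36336528865048671240)]]]]]]]]]]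

/-- A coefficient. -/
noncomputable def sr7_m1_1_3 : MP 10 :=
  [[[[[[[[[],[[Int.negSucc (nat_lit 600966709502970131)]]]],[[[[Int.negSucc (nat_lit 188043013478452155857)]]],[[[Int.ofNat (nat_lit 730471568944049100)]]]]],[[[[],[[Int.ofNat (nat_lit 1201933419005940264)]]]],[[[[Int.ofNat (nat_lit 31031008284967157028)]]]]]],[[[[[[Int.ofNat (nat_lit 115667995578039725076)]]]]],[[[[[Int.ofNat (nat_lit 104995848357762303504)]]]]]],[[[],[[[[Int.negSucc (nat_lit 35201206188297686183)]]]]]]],[[[[],[[[[Int.negSucc (nat_lit 52930439886769052459)]]]]]],[[[[[[Int.ofNat (nat_lit 6077867095212150678)]]]]],[[[[[Int.negSucc (nat_lit 48652091914944400763)]]]]]]],[[[[],[[[[Int.ofNat (nat_lit 10390318715258998752)]]]]]]]],[[[[[[[[Int.ofNat (nat_lit 194233640247351392802)]]]],[],[[[[Int.ofNat (nat_lit 20350347786402483708)]]]]],[[[[[Int.ofNat (nat_lit 1206408599238876542124)]]]]],[[[[[Int.ofNat (nat_lit 31610630074932779040)]]]]]],[[[],[[[[Int.negSucc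 (nat_lit 134577762400070030219)]]]]]]],[[[[[[[Int.ofNat (nat_lit 49806978756063750852)]]]]],[[[[[Int.negSucc (nat_lit 58724522318764261463)]]]]]]]],[[[[[[[],[[Int.negSucc (nat_lit 600966709502970131)]]]],[[[[Int.ofNat (nat_lit 441519876613778651922)]]]]]],[[[[[[Int.negSucc (nat_lit 52497924178881151751)]]]]]]],[[],[[[[[[Int.ofNat (nat_lit 24326045957472200382)]]]]]]]],[[[[[[[[Int.negSucc (nat_lit 603633788994848313791)]]]]],[[[[[Int.negSucc (nat_lit 48258200411214119459)]]]]]]],[[[[[[[Int.ofNat (nat_lit 29362261159382130732)]]]]]]]],[],[[[[[[[[Int.ofNat (nat_lit 16226442686873864970)]]]]]]]]],[[[[[[],[[[[Int.negSucc (nat_lit 572538293770852659755)]]]]],[[],[[[[Int.ofNat (nat_lit 18680964843187988868)]]]]]],[[[[[[Int.ofNat (nat_lit 53943895844126136594)]]]]],[[[[[Int.negSucc (nat_lit 7952352620480912603)]]]]]]],[[[[],[[[[Int.ofNat (nat_lit 91349770735011265956)]]]]]]]],[[[[[[[[Int.negSucc (nat_lit 74974963529842144361)]]],[[[Int.ofNat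 (nat_lit 730471568944049100)]]]]],[[[[[Int.ofNat (nat_lit 676494177452781023796)]]]]]],[],[[[[[[Int.negSucc (nat_lit 35201206188297686183)]]]]]]],[[[[[[[Int.negSucc (nat_lit 52930439886769052459)]]]]]]],[[[[[[[Int.ofNat (nat_lit 10390318715258998752)]]]]]]]],[[[[[],[[[[Int.ofNat (nat_lit 44863118440378035840)]]]]]],[[[[[[Int.negSucc (nat_lit 130601586089829573917)]]]]]]]],[[[[[[[[Int.ofNat (nat_lit 118788292029871718538)]]]]]]]]],[[[[[[[[],[[Int.ofNat (nat_lit 600966709502970132)]]]],[[[[Int.negSucc (nat_lit 322731708898808360249)]]]]]],[[[[[[Int.ofNat (nat_lit 52497924178881151752)]]]]]]],[[],[[[[[[Int.negSucc (nat_lit 24326045957472200381)]]]]]]]],[[[[[[[[Int.ofNat (nat_lit 40886978859769467120)]]]]],[[[[[Int.ofNat (nat_lit 22741644584003985552)]]]]]]],[[[[[[[Int.ofNat (nat_lit 61987509575629135224)]]]]]]]],[],[[[[[[[[Int.ofNat (nat_lit 14158645615426883580)]]]]]]]]],[[[[[[],[[[[Int.negSucc (nat_lit 23676279471610969487)]]]]]],[[[[[[Int.negSucc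 (nat_lit 3976176310240456301)]]]]]]]],[[[[[[[[Int.negSucc (nat_lit 124314901426865)]]]]]]]]],[[],[[[[[[[[Int.negSucc (nat_lit 29548597119936165905)]]]]]]]]]]

/-- A coefficient. -/
noncomputable def sr7_m1_1_4 : MP 10 :=
  [[[[[[[[[[Int.negSucc (nat_lit 332683991050380994583)]]],[[[Int.ofNat (nat_lit 2660173225943055294)]]]],[[[],[[Int.ofNat (nat_lit 7240521246792362700)]]]],[[[[Int.ofNat (nat_lit 4094179427027033256)]]]]],[[[[[Int.negSucc (nat_lit 1113330848291031291203)]]],[[[Int.ofNat (nat_lit 5320346451886110588)]]]]],[[[[[Int.ofNat (nat_lit 13693054013122254384)]]]]]],[[[],[[[[Int.ofNat (nat_lit 108765089654507659596)]]]]]]],[[[[[[[Int.negSucc (nat_lit 33198463753636743209)]]]]],[[[[[Int.negSucc (nat_lit 63133100759359909859)]]]]]]]],[[[[[],[[[[Int.negSucc (nat_lit 1512367166545454111819)]]]]]],[[[[[[Int.ofNat (nat_lit 49142553696680437980)]]]]],[[[[[Int.ofNat (nat_lit 39983878901321635008)]]]]]]],[[[[],[[[[Int.ofNat (nat_lit 39616050076105588140)]]]]]]]],[[[[[[[[Int.ofNat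 (nat_lit 284844081389287833594)]]],[[[Int.negSucc (nat_lit 2660173225943055293)]]]]],[[[[[Int.ofNat (nat_lit 379784549991801308628)]]]]]]],[[[[[[[Int.ofNat (nat_lit 31566550379679954930)]]]]]]]],[[[],[[[[[[Int.negSucc (nat_lit 19991939450660817503)]]]]]]]],[[[[[[[[Int.negSucc (nat_lit 193315538499181217909)]]]]]]]]],[[[[[[[[[Int.negSucc (nat_lit 378464305129147574027)]]]]],[[[[[Int.negSucc (nat_lit 1063693607991125590607)]]]]]],[[[],[[[[Int.negSucc (nat_lit 11731049270376320099)]]]]]]],[[[[[[[Int.ofNat (nat_lit 457249556569612452)]]]]],[[[[[Int.ofNat (nat_lit 33409239847224964656)]]]]]]]],[[[[[[[],[[Int.ofNat (nat_lit 7240521246792362700)]]]],[[[[Int.negSucc (nat_lit 382576994497825025531)]]]]]],[[[[[[Int.ofNat (nat_lit 108765089654507659596)]]]]]]]],[[[[[[[[Int.negSucc (nat_lit 980520362549891316515)]]]]]]],[[[[[[[Int.ofNat (nat_lit 22911430152493105812)]]]]]]]]],[[[[[[[[[Int.negSucc (nat_lit 716176887797109451247)]]],[[[Int.ofNat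 (nat_lit 2660173225943055294)]]]]],[[[[[Int.negSucc (nat_lit 339714111759705039839)]]]]]]],[[[[[[[Int.negSucc (nat_lit 31566550379679954929)]]]]]]]],[[[],[[[[[[Int.ofNat (nat_lit 8260890180284497404)]]]]]]]],[[[[[[[[Int.negSucc (nat_lit 20075316042537757361)]]]]]]]]],[[[[[[[[[Int.negSucc (nat_lit 531846803995562795303)]]]]]]],[[[[[[[Int.ofNat (nat_lit 16704619923612482328)]]]]]]]]],[[[[[[[[[Int.negSucc (nat_lit 173280319383133083515)]]]]]]]]]]

/-- A coefficient. -/
noncomputable def sr7_m1_1_5 : MP 10 :=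
  [[[[[[[],[[[[Int.ofNat (nat_lit 845214860170339726608)]]]]],[[],[[[[Int.negSucc (nat_lit 1371551601568073123)]]]]]],[[[[[[Int.negSucc (nat_lit 90827895006971989763)]]]]],[[[[[Int.negSucc (nat_lit 136236921116709403535)]]]]]]],[[[[],[[[[Int.ofNat (nat_lit 48393381325767168108)]]]]]]]],[[[[[[[[Int.ofNat (nat_lit 245194180045141591590)]]]]],[[[[[Int.negSucc (nat_lit 851119400610484587131)]]]]]]]],[[[[[],[[[[Int.negSucc (nat_lit 73265844899465868647)]]]]]],[[[[[[Int.ofNat (nat_lit 68118460558354701768)]]]]]]]],[[[[[[[[Int.ofNat (nat_lit 425559700305242293566)]]]]]]]]],[[[[[[],[[[[Int.ofNat (nat_lit 323168345108094166704)]]]]]]]],[[[[[[[[Int.ofNat (nat_lit 836169170409886000110)]]]]],[[[[[Int.negSucc (nat_lit 233372397677735621255)]]]]]]],[[[[[[[Int.ofNat (nat_lit 48393381325767168108)]]]]]]]],[],[[[[[[[[Int.ofNat (nat_lit 42734578138617905418)]]]]]]]]],[[[[[[],[[[[Int.ofNat (nat_lit 104016879154741838064)]]]]]],[[[[[[Int.negSucc (nat_lit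 68118460558354701767)]]]]]]]],[[[[[[[[Int.negSucc (nat_lit 102391355197148126861)]]]]]]]]],[[],[[[[[[[[Int.negSucc (nat_lit 11983543883341936001)]]]]]]]]]]

/-- A coefficient. -/
noncomputable def sr7_m1_1_6 : MP 10 :=
  [[[[[[[[[[Int.ofNat (nat_lit 192377774636889665148)]]]]],[[[[[Int.ofNat (nat_lit 963128667788169860280)]]]]]],[[[],[[[[Int.negSucc (nat_lit 64673292639321508487)]]]]]]],[[[[[[[Int.negSucc (nat_lit 24581323708954789319)]]]]],[[[[[Int.ofNat (nat_lit 75742197293572803456)]]]]]]]],[[[[[],[[[[Int.ofNat (nat_lit 588614067493312674540)]]]]]]]],[[[[[[[[Int.negSucc (nat_lit 481564333894084930139)]]]]]]],[[[[[[[Int.negSucc (nat_lit 37871098646786401727)]]]]]]]]],[[[[[[[[[Int.ofNat (nat_lit 133126186814662258842)]]]]],[[[[[Int.ofNat (nat_lit 407910968678088943236)]]]]]]]],[[[],[[[[[[Int.negSucc (nat_lit 64673292639321508487)]]]]]]]],[[[[[[[[Int.ofNat (nat_lit 384658583154268202922)]]]]]]]]],[[[[[[[[[Int.ofNat (nat_lit 481564333894084930140)]]]]]]],[[[[[[[Int.ofNat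 (nat_lit 37871098646786401728)]]]]]]]]],[[[[[[[[[Int.ofNat (nat_lit 203955484339044471618)]]]]]]]]]]

/-- A coefficient. -/
noncomputable def sr7_m1_1_7 : MP 10 :=
  [[[[[[[],[[[[Int.negSucc (nat_lit 631612356620226640667)]]]]]]]],[[[[[[[[Int.negSucc (nat_lit 178349793825802986869)]]]]],[[[[[Int.negSucc (nat_lit 196292305298995303691)]]]]]]]],[],[[[[[[[[Int.ofNat (nat_lit 98146152649497651846)]]]]]]]]],[[[[[[],[[[[Int.ofNat (nat_lit 39284446125475413888)]]]]]]]],[[[[[[[[Int.negSucc (nat_lit 631612356620226640667)]]]]]]]]],[[],[[[[[[[[Int.negSucc (nat_lit 58861706524022237957)]]]]]]]]]]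

/-- A coefficient. -/
noncomputable def sr7_m1_1_8 : MP 10 :=
  [[[[[[[[[[Int.negSucc (nat_lit 73171275256605202409)]]]]],[[[[[Int.negSucc (nat_lit 235527579339020225051)]]]]]]]],[],[[[[[[[[Int.ofNat (nat_lit 117763789669510112526)]]]]]]]]],[],[[[[[[[[[Int.negSucc (nat_lit 117763789669510112525)]]]]]]]]]]

/-- A coefficient. -/
noncomputable def sr7_m1_1_9 : MP 10 :=
  [[[[[[[],[[[[Int.ofNat (nat_lit 164275944200952070764)]]]]]]]]],[[],[[[[[[[[Int.ofNat (nat_lit 164275944200952070764)]]]]]]]]]]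

/-- A coefficient. -/
noncomputable def sr7_m1_2_0 : MP 10 :=
  [[[[[[[[[[Int.ofNat (nat_lit 41751347188344127392)]]],[[[Int.negSucc (nat_lit 2525897625030498407)]]]],[[[],[[Int.negSucc (nat_lit 2904394669506817367)]]]],[[[[Int.negSucc (nat_lit 9300105640475524955)]]]]],[[[[[Int.ofNat (nat_lit 56043849336257890122)]]],[[[Int.negSucc (nat_lit 5051795250060996815)]]]],[],[[[[Int.ofNat (nat_lit 2210638058138651808)]]]]],[[[[[Int.negSucc (nat_lit 49333051184431777496)]]]]],[[[[[Int.ofNat (nat_lit 11169277792857903654)]]]]]],[[[[[],[[Int.ofNat (nat_lit 1696925089003972206)]]]],[[[[Int.ofNat (nat_lit 18966706263119701824)]]],[[[Int.ofNat (nat_lit 641109737642917752)]]]]],[[[[],[[Int.negSucc (nat_lit 3393850178007944411)]]]],[[[[Int.negSucc (nat_lit 8470970977038625631)]]]]]],[[[[[[Int.ofNat (nat_lit 48794007878473254678)]]]]],[[[[[Int.negSucc (nat_lit 97588015756946509355)]]]]]]],[[[[[[[Int.ofNat (nat_lit 22511912548863188862)]]],[[[Int.negSucc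 (nat_lit 1236492072306005885)]]]],[[[],[[Int.ofNat (nat_lit 1601431842181911204)]]]],[[[[Int.ofNat (nat_lit 7155458517868913940)]]]]],[[[[[Int.ofNat (nat_lit 41150329379629414050)]]],[[[Int.negSucc (nat_lit 2472984144612011771)]]]]],[[[[[Int.negSucc (nat_lit 7746991436193927347)]]]]]],[[[],[[[[Int.ofNat (nat_lit 55048467958268945100)]]]]]]],[[[[[[[Int.ofNat (nat_lit 44423361909408891477)]]]]],[[[[[Int.ofNat (nat_lit 88846723818817782954)]]]]]]]],[[[[[[[],[[Int.negSucc (nat_lit 2457515310618822263)]]]],[[[[Int.ofNat (nat_lit 99427081984171389456)]]],[[[Int.negSucc (nat_lit 3688989124322851943)]]]]],[[[[],[[Int.ofNat (nat_lit 4915030621237644528)]]]],[[[[Int.negSucc (nat_lit 31341895920927176915)]]]]]],[[[[[[Int.negSucc (nat_lit 14226473689008560645)]]]]],[[[[[Int.negSucc (nat_lit 2425969252620347387)]]]]]],[[[],[[[[Int.ofNat (nat_lit 17016955037110977540)]]]]]]],[[[[],[[[[Int.ofNat (nat_lit 115684628207016981564)]]]]]],[[[[[[Int.ofNat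 (nat_lit 2537604806146940472)]]]]],[[[[[Int.ofNat (nat_lit 22414364968797652080)]]]]]]],[[[[],[[[[Int.ofNat (nat_lit 3289983691449808884)]]]]]]]],[[[[[[[[Int.ofNat (nat_lit 116153125689721010529)]]],[[[Int.ofNat (nat_lit 2525897625030498408)]]]],[],[[[[Int.negSucc (nat_lit 4504368012583388315)]]]]],[[[[[Int.negSucc (nat_lit 162875640478597444931)]]]]],[[[[[Int.negSucc (nat_lit 16957622691703282226)]]]]]],[[[[[],[[Int.ofNat (nat_lit 1696925089003972206)]]]],[[[[Int.negSucc (nat_lit 47385775218094179347)]]]]]],[[[[[[Int.ofNat (nat_lit 48794007878473254678)]]]]]]],[[[[[[[Int.negSucc (nat_lit 20969813926773481391)]]],[[[Int.ofNat (nat_lit 1236492072306005886)]]]]],[[[[[Int.negSucc (nat_lit 7926101136134347817)]]]]]]],[[[[[[[Int.negSucc (nat_lit 44423361909408891476)]]]]]]]],[[[[[[[],[[Int.negSucc (nat_lit 2457515310618822263)]]]],[[[[Int.ofNat (nat_lit 41192000906474354568)]]]]]],[[[[[[Int.ofNat (nat_lit 1212984626310173694)]]]]]]],[[],[[[[[[Int.negSucc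 (nat_lit 11207182484398826039)]]]]]]]],[[[[[[[[Int.ofNat (nat_lit 98816950343559243462)]]]]],[[[[[Int.ofNat (nat_lit 18672398963365007730)]]]]]]],[[[[[[[Int.ofNat (nat_lit 5899798427115655746)]]]]]]]],[],[[[[[[[[Int.negSucc (nat_lit 6492953532863921264)]]]]]]]]],[[[[[[[[[Int.ofNat (nat_lit 112269604767917521716)]]],[[[Int.negSucc (nat_lit 4127415709337284505)]]]],[[[],[[Int.negSucc (nat_lit 5339971770545027303)]]]],[[[[Int.negSucc (nat_lit 28746680959330075583)]]]]],[[[[[Int.ofNat (nat_lit 179092316084112594564)]]],[[[Int.negSucc (nat_lit 8254831418674569011)]]]]],[[[[[Int.negSucc (nat_lit 90893786903444897735)]]]]]],[[[],[[[[Int.ofNat (nat_lit 141703400469909840792)]]]]]],[[[[[[Int.negSucc (nat_lit 5174039252788387649)]]]]],[[[[[Int.ofNat (nat_lit 10348078505576775300)]]]]]]],[[[[[[[Int.ofNat (nat_lit 68615784285463105800)]]]]],[[[[[Int.ofNat (nat_lit 137231568570926211600)]]]]]],[[[],[[[[Int.negSucc (nat_lit 20843015575135451687)]]]]]]],[[[[[[[Int.negSucc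 (nat_lit 1130205471906540005)]]]]],[[[[[Int.negSucc (nat_lit 2260410943813080011)]]]]]]]],[[[[[[[],[[Int.negSucc (nat_lit 2904394669506817367)]]]],[[[[Int.ofNat (nat_lit 205193420932005880710)]]]]],[[],[[[[Int.negSucc (nat_lit 6221021996235697571)]]]]]],[[[[[[Int.ofNat (nat_lit 32581311139512840546)]]],[[[Int.ofNat (nat_lit 641109737642917752)]]]]],[[[[[Int.negSucc (nat_lit 51244315167803435099)]]]]]]],[[[[[[],[[Int.ofNat (nat_lit 1601431842181911204)]]]],[[[[Int.ofNat (nat_lit 36643103582603711088)]]]]]],[[[[[[Int.ofNat (nat_lit 55048467958268945100)]]]]]]]],[[[[[[[[Int.ofNat (nat_lit 105638514517294386312)]]],[[[Int.ofNat (nat_lit 438426585014432562)]]]]],[[[[[Int.negSucc (nat_lit 58241589349400050487)]]]]]],[],[[[[[[Int.ofNat (nat_lit 11842915784322589890)]]]]]]],[[[[[[[Int.ofNat (nat_lit 47068843921553875764)]]]]]]],[[[[[[[Int.ofNat (nat_lit 4420189163356348890)]]]]]]]],[[[[[],[[[[Int.negSucc (nat_lit 7649102545973242793)]]]]]],[[[[[[Int.negSucc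 (nat_lit 25999103122711774613)]]]]]]]],[[[[[[[[Int.ofNat (nat_lit 77365294346572015788)]]]]]]]]],[[[[[[[[[Int.ofNat (nat_lit 178918851260370248871)]]],[[[Int.negSucc (nat_lit 2525897625030498407)]]]],[],[[[[Int.negSucc (nat_lit 9178916222540359919)]]]]],[[[[[Int.ofNat (nat_lit 238978565167087901058)]]]]],[[[[[Int.negSucc (nat_lit 10210556976639002648)]]]]]],[[[[[],[[Int.negSucc (nat_lit 1696925089003972205)]]]],[[[[Int.ofNat (nat_lit 77253207946567994184)]]]]]],[[[[[[Int.negSucc (nat_lit 48794007878473254677)]]]]]]],[[[[[[[Int.ofNat (nat_lit 56123811940226300940)]]],[[[Int.negSucc (nat_lit 1236492072306005885)]]]]],[[[[[Int.ofNat (nat_lit 63350303064629260482)]]]]]]],[[[[[[[Int.ofNat (nat_lit 44423361909408891477)]]]]]]]],[[[[[[[],[[Int.negSucc (nat_lit 2882456459926205039)]]]],[[[[Int.ofNat (nat_lit 109467156862996066020)]]]]]],[[[[[[Int.ofNat (nat_lit 140490415843599667098)]]]]]]],[[],[[[[[[Int.negSucc (nat_lit 9635833090736625647)]]]]]]]],[[[[[[[[Int.ofNat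 (nat_lit 11753977719583983642)]]]]],[[[[[Int.negSucc (nat_lit 21607277851292328941)]]]]]]],[[[[[[[Int.negSucc (nat_lit 10024052753743970675)]]]]]]]],[],[[[[[[[[Int.ofNat (nat_lit 11041580917381462587)]]]]]]]]],[[[[[[[[[Int.ofNat (nat_lit 171959462505921976896)]]],[[[Int.negSucc (nat_lit 4127415709337284505)]]]]],[[[[[Int.ofNat (nat_lit 73932822024286461492)]]]]]],[],[[[[[[Int.ofNat (nat_lit 5174039252788387650)]]]]]]],[[[[[[[Int.ofNat (nat_lit 68615784285463105800)]]]]]]],[[[[[[[Int.negSucc (nat_lit 1130205471906540005)]]]]]]]],[[[[[],[[[[Int.ofNat (nat_lit 14023802283917387994)]]]]]],[[[[[[Int.ofNat (nat_lit 55866535851185589450)]]]]]]]],[[[[[[[[Int.ofNat (nat_lit 42350686644224025204)]]]]]]]]],[[[[[[[[[Int.ofNat (nat_lit 149080491405813708426)]]]]],[[[[[Int.ofNat (nat_lit 15928376731041196656)]]]]]]],[[[[[[[Int.ofNat (nat_lit 33611899391363112078)]]]]]]]],[],[[[[[[[[Int.ofNat (nat_lit 3596369254762765167)]]]]]]]]],[[[[[[[[[Int.ofNat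 (nat_lit 59689857738004455180)]]]]]]]]],[[[[[[[[[Int.ofNat (nat_lit 11912987333787586947)]]]]]]]]]]

/-- A coefficient. -/
noncomputable def sr7_m1_2_1 : MP 10 :=
  [[[[[[[[[],[[Int.ofNat (nat_lit 8253493991772537066)]]]],[[[[Int.negSucc (nat_lit 29364096813830490767)]]],[[[Int.ofNat (nat_lit 5144061501104908668)]]]]],[[[[],[[Int.negSucc (nat_lit 16506987983545074131)]]]],[[[[Int.ofNat (nat_lit 43177022404865620212)]]]]]],[[[[[[Int.negSucc (nat_lit 42722668696584313175)]]]],[],[[[[Int.negSucc (nat_lit 500653273696288463)]]]]],[[[[[Int.ofNat (nat_lit 151917473587550694030)]]]]],[[[[[Int.negSucc (nat_lit 11376566823270777179)]]]]]],[[[],[[[[Int.negSucc (nat_lit 43497053857685483951)]]]]]]],[[[[],[[[[Int.negSucc (nat_lit 159435526286680356959)]]]]],[[],[[[[Int.ofNat (nat_lit 27528936801973233156)]]]]]],[[[[[[Int.ofNat (nat_lit 23838528142051400814)]]]]],[[[[[Int.negSucc (nat_lit 133780114706597812067)]]]]]]],[[[[],[[[[Int.ofNat (nat_lit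 17659932669932222016)]]]]]]]],[[[[[[[[Int.negSucc (nat_lit 205645447364315986571)]]],[[[Int.negSucc (nat_lit 4820257037056855709)]]]],[[[],[[Int.negSucc (nat_lit 4912689276000127367)]]]],[[[[Int.negSucc (nat_lit 66676811881614153347)]]]]],[[[[[Int.negSucc (nat_lit 86010782789317523861)]]],[[[Int.negSucc (nat_lit 9640514074113711419)]]]]],[[[[[Int.negSucc (nat_lit 120112246245987526835)]]]]]],[[[],[[[[Int.ofNat (nat_lit 240560048875587242004)]]]]]]],[[[[[[[Int.ofNat (nat_lit 102548585154447992802)]]]]],[[[[[Int.ofNat (nat_lit 321291914526363743868)]]]]]]]],[[[[[[[],[[Int.ofNat (nat_lit 8253493991772537066)]]]],[[[[Int.ofNat (nat_lit 475095446574291228696)]]]]]],[[[[[[Int.negSucc (nat_lit 104071694207315677871)]]]]],[[[[[Int.negSucc (nat_lit 53058696739539707345)]]]]]]],[[[[],[[[[Int.ofNat (nat_lit 1178034200473832208)]]]]]],[[[[[[Int.ofNat (nat_lit 66890057353298906034)]]]]]]]],[[[[[[[[Int.ofNat (nat_lit 50448004555895137956)]]],[[[Int.ofNat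 (nat_lit 4820257037056855710)]]]]],[[[[[Int.ofNat (nat_lit 170767509578540438490)]]]]]]],[[[[[[[Int.negSucc (nat_lit 160645957263181871933)]]]]]]]],[[[],[[[[[[Int.ofNat (nat_lit 29373490075587547968)]]]]]]]],[[[[[[[[Int.negSucc (nat_lit 55355693227773337535)]]]]]]]]],[[[[[[[[],[[Int.negSucc (nat_lit 211596020738912801)]]]],[[[[Int.negSucc (nat_lit 180004077794686698959)]]],[[[Int.negSucc (nat_lit 1444281145697212043)]]]]],[[[[],[[Int.ofNat (nat_lit 423192041477825604)]]]],[[[[Int.ofNat (nat_lit 44141191446416814192)]]]]]],[[[[[[Int.negSucc (nat_lit 140786081407037727353)]]]]],[[[[[Int.ofNat (nat_lit 201130790265478587684)]]]]]]],[[[[],[[[[Int.negSucc (nat_lit 133619556517869861323)]]]]]]]],[[[[[[[[Int.negSucc (nat_lit 85429754913947528861)]]],[[[Int.ofNat (nat_lit 5144061501104908668)]]]]],[[[[[Int.ofNat (nat_lit 117701230131594207984)]]]]]],[[[],[[[[Int.ofNat (nat_lit 51995403943320993720)]]]]]],[[[[[[Int.negSucc (nat_lit 43497053857685483951)]]]]]]],[[[[[[[Int.negSucc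 (nat_lit 152614611823809955595)]]]]],[[[[[Int.ofNat (nat_lit 23840767642561409172)]]]]]]],[[[[[[[Int.ofNat (nat_lit 17659932669932222016)]]]]]]]],[[[[[[[],[[Int.negSucc (nat_lit 5124285296739040169)]]]],[[[[Int.ofNat (nat_lit 158286862714136905920)]]]]]],[[[[[[Int.ofNat (nat_lit 139994653742847948162)]]]]]]]],[[[[[[[[Int.ofNat (nat_lit 437833342710926934810)]]]]]]],[[[[[[[Int.ofNat (nat_lit 3022118780179744200)]]]]]]]]],[[[[[[[[],[[Int.negSucc (nat_lit 8253493991772537065)]]]],[[[[Int.negSucc (nat_lit 160170711688349104259)]]]]]],[[[[[[Int.ofNat (nat_lit 40694592712751406414)]]]]],[[[[[Int.ofNat (nat_lit 32674634299258659894)]]]]]]],[[[[],[[[[Int.negSucc (nat_lit 20997070400799338255)]]]]]],[[[[[[Int.negSucc (nat_lit 66890057353298906033)]]]]]]]],[[[[[[[[Int.negSucc (nat_lit 147585810088369043729)]]],[[[Int.negSucc (nat_lit 6264538182754067753)]]]]],[[[[[Int.ofNat (nat_lit 151040439254367188946)]]]]]]],[[[[[[[Int.ofNat (nat_lit 27026400745312010610)]]]]]]]],[[[],[[[[[[Int.ofNat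 (nat_lit 3941108285982709974)]]]]]]]],[[[[[[[[Int.ofNat (nat_lit 196841682358052327718)]]]]]]]]],[[[[[[[[],[[Int.ofNat (nat_lit 211596020738912802)]]]],[[[[Int.negSucc (nat_lit 25492132306280646647)]]]]]],[[[[[[Int.ofNat (nat_lit 100565395132739293842)]]]]]]]],[[[[[[[[Int.negSucc (nat_lit 122908607824984810373)]]]]]]],[[[[[[[Int.negSucc (nat_lit 22841154980505250247)]]]]]]]]],[[[[],[[[[[[Int.ofNat (nat_lit 19181458855447024242)]]]]]]]],[[[[[[[[Int.ofNat (nat_lit 57985553159191422438)]]]]]]]]]]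

/-- A coefficient. -/
noncomputable def sr7_m1_2_2 : MP 10 :=
  [[[[[[[[[[Int.ofNat (nat_lit 384897027548587594353)]]],[[[Int.ofNat (nat_lit 4286081994027462630)]]]],[[[],[[Int.ofNat (nat_lit 4748024104783961472)]]]],[[[[Int.ofNat (nat_lit 41272713891497589792)]]]]],[[[[[Int.ofNat (nat_lit 166050837553781368404)]]],[[[Int.ofNat (nat_lit 8572163988054925260)]]]]],[[[[[Int.ofNat (nat_lit 119508887007494661708)]]]]]],[[[],[[[[Int.negSucc (nat_lit 291742200212935659023)]]]]]],[[[[[[Int.ofNat (nat_lit 34121014402712939277)]]]]],[[[[[Int.ofNat (nat_lit 49568591128385812386)]]]]]]],[[[[[[[Int.negSucc (nat_lit 68890145716632198569)]]]]],[[[[[Int.negSucc (nat_lit 263834073202397417339)]]]]]],[[[],[[[[Int.negSucc (nat_lit 5281596987097866407)]]]]]]],[[[[[[[Int.ofNat (nat_lit 66164498918089609710)]]]]],[[[[[Int.negSucc (nat_lit 81672911074528863659)]]]]]]]],[[[[[],[[[[Int.negSucc (nat_lit 632943672151483313087)]]]]],[[],[[[[Int.ofNat (nat_lit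 42960775056279877296)]]]]]],[[[[[[Int.ofNat (nat_lit 124801692511997091240)]]]]],[[[[[Int.ofNat (nat_lit 288868372933203875112)]]]]]]],[[[[],[[[[Int.negSucc (nat_lit 336551627377206997535)]]]]]]]],[[[[[[[[Int.ofNat (nat_lit 286313611434566163042)]]],[[[Int.negSucc (nat_lit 4286081994027462629)]]]]],[[[[[Int.ofNat (nat_lit 1197941674520833730700)]]]]]],[],[[[[[[Int.negSucc (nat_lit 24784295564192906192)]]]]]]],[[[[[[[Int.ofNat (nat_lit 131917036601198708670)]]]]]]],[[[[[[[Int.ofNat (nat_lit 40836455537264431830)]]]]]]]],[[[[[],[[[[Int.negSucc (nat_lit 44138633540024999375)]]]]]],[[[[[[Int.negSucc (nat_lit 144434186466601937555)]]]]]]]],[[[[[[[[Int.negSucc (nat_lit 628848059012290530776)]]]]]]]]],[[[[[[[[[Int.ofNat (nat_lit 558974890236770095374)]]]],[],[[[[Int.negSucc (nat_lit 11520782188935218879)]]]]],[[[[[Int.negSucc (nat_lit 332263142797807925951)]]]]],[[[[[Int.ofNat (nat_lit 17924960460625239480)]]]]]],[[[],[[[[Int.negSucc (nat_lit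 316542994783034626487)]]]]]]],[[[[[[[Int.negSucc (nat_lit 9932112398015774483)]]]]],[[[[[Int.negSucc (nat_lit 207249001740046701167)]]]]]]]],[[[[[[[],[[Int.ofNat (nat_lit 4748024104783961472)]]]],[[[[Int.negSucc (nat_lit 871324493494794058391)]]]]]],[[[[[[Int.negSucc (nat_lit 291742200212935659023)]]]]]]],[[],[[[[[[Int.negSucc (nat_lit 5281596987097866407)]]]]]]]],[[[[[[[[Int.negSucc (nat_lit 482358593581509147527)]]]]],[[[[[Int.ofNat (nat_lit 151463398295900850048)]]]]]]],[[[[[[[Int.negSucc (nat_lit 232927126507183646951)]]]]]]]],[],[[[[[[[[Int.negSucc (nat_lit 102871185274991795621)]]]]]]]]],[[[[[[[[[Int.ofNat (nat_lit 352728846054958390923)]]],[[[Int.ofNat (nat_lit 4286081994027462630)]]]]],[[[[[Int.negSucc (nat_lit 500350435896640369577)]]]]]],[],[[[[[[Int.ofNat (nat_lit 24784295564192906193)]]]]]]],[[[[[[[Int.negSucc (nat_lit 131917036601198708669)]]]]]]],[[[[[[[Int.negSucc (nat_lit 40836455537264431829)]]]]]]]],[[[[[],[[[[Int.negSucc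 (nat_lit 105292820016058166435)]]]]]],[[[[[[Int.negSucc (nat_lit 172108808316432688931)]]]]]]]],[[[[[[[[Int.negSucc (nat_lit 3696708673807267190)]]]]]]]]],[[[[[[[[[Int.negSucc (nat_lit 189472824710842135109)]]]]],[[[[[Int.negSucc (nat_lit 13637313502064370107)]]]]]]],[[[[[[[Int.negSucc (nat_lit 103624500870023350583)]]]]]]]],[],[[[[[[[[Int.negSucc (nat_lit 23739589225967656385)]]]]]]]]],[[[[[[[[[Int.negSucc (nat_lit 280052439700193850215)]]]]]]]]],[[[[[[[[[Int.negSucc (nat_lit 11299896866188494923)]]]]]]]]]]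

/-- A coefficient. -/
noncomputable def sr7_m1_2_3 : MP 10 :=
  [[[[[[[[[],[[Int.negSucc (nat_lit 10037254526137206341)]]]],[[[[Int.ofNat (nat_lit 64056747298959835062)]]],[[[Int.negSucc (nat_lit 7098821643075735863)]]]]],[[[[],[[Int.ofNat (nat_lit 20074509052274412684)]]]],[[[[Int.negSucc (nat_lit 70195741379295848183)]]]]]],[[[[[[Int.ofNat (nat_lit 35616493447244227518)]]]]],[[[[[Int.negSucc (nat_lit 174523987462410992267)]]]]]]],[[[[],[[[[Int.ofNat (nat_lit 219316393185902129700)]]]]]]]],[[[[[[[[Int.negSucc (nat_lit 846020696974525019921)]]]]],[[[[[Int.negSucc (nat_lit 1484456428510191649355)]]]]]],[[[],[[[[Int.ofNat (nat_lit 75852094258054186200)]]]]]]],[[[[[[[Int.negSucc (nat_lit 20307872628777356777)]]]]],[[[[[Int.ofNat (nat_lit 61598703823098298188)]]]]]]]],[[[[[[[],[[Int.negSucc (nat_lit 10037254526137206341)]]]],[[[[Int.negSucc (nat_lit 437199054047200792841)]]]]]],[[[[[[Int.ofNat (nat_lit 87261993731205496134)]]]]]]]],[[[[[[[[Int.ofNat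 (nat_lit 742228214255095824678)]]]]]]],[[[[[[[Int.negSucc (nat_lit 30799351911549149093)]]]]]]]]],[[[[[[],[[[[Int.ofNat (nat_lit 356539179391135828272)]]]]]],[[[[[[Int.ofNat (nat_lit 36380455762503133506)]]]]],[[[[[Int.negSucc (nat_lit 106306012692562667939)]]]]]]],[[[[],[[[[Int.negSucc (nat_lit 50064870204252829655)]]]]]]]],[[[[[[[[Int.negSucc (nat_lit 166047137034104205845)]]],[[[Int.negSucc (nat_lit 7098821643075735863)]]]]],[[[[[Int.ofNat (nat_lit 193889026834932840672)]]]]]]],[[[[[[[Int.ofNat (nat_lit 219316393185902129700)]]]]]]]],[[[],[[[[[[Int.ofNat (nat_lit 129005100604335520170)]]]]]]]],[[[[[[[[Int.negSucc (nat_lit 569241438154315137269)]]]]]]]]],[[[[[[[[],[[Int.ofNat (nat_lit 10037254526137206342)]]]],[[[[Int.ofNat (nat_lit 57165564844263411750)]]]]]],[[[[[[Int.negSucc (nat_lit 87261993731205496133)]]]]]]]],[[[[[[[[Int.negSucc (nat_lit 385689034863959996405)]]]]]]],[[[[[[[Int.negSucc (nat_lit 19265518292703680561)]]]]]]]]],[[[[],[[[[[[Int.negSucc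 (nat_lit 53153006346281333969)]]]]]]]],[[[[[[[[Int.ofNat (nat_lit 189207948951377756178)]]]]]]]]]]

/-- A coefficient. -/
noncomputable def sr7_m1_2_4 : MP 10 :=
  [[[[[[[[[[Int.ofNat (nat_lit 523402403231172229146)]]]],[],[[[[Int.negSucc (nat_lit 18672527604346161959)]]]]],[[[[[Int.ofNat (nat_lit 982793159922453839910)]]]]],[[[[[Int.negSucc (nat_lit 42309231193322257259)]]]]]],[[[],[[[[Int.ofNat (nat_lit 17505687372249173904)]]]]]]],[[[[[[[Int.ofNat (nat_lit 8050351899691085544)]]]]],[[[[[Int.ofNat (nat_lit 72360918436361540976)]]]]]]]],[[[[[],[[[[Int.ofNat (nat_lit 1128278602041774455616)]]]]]]]],[[[[[[[[Int.negSucc (nat_lit 218145782508449194163)]]]]],[[[[[Int.negSucc (nat_lit 255497313945804177773)]]]]]]],[[[[[[[Int.negSucc (nat_lit 36180459218180770487)]]]]]]]],[],[[[[[[[[Int.ofNat (nat_lit 138325964771232653202)]]]]]]]]],[[[[[[[[[Int.ofNat (nat_lit 349770161233836911856)]]]]],[[[[[Int.ofNat (nat_lit 151080074247468816744)]]]]]]]],[[[[[],[[[[Int.ofNat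 (nat_lit 236128785803318107452)]]]]]],[[[[[[Int.ofNat (nat_lit 17505687372249173904)]]]]]]]],[[[[[[[[Int.ofNat (nat_lit 1052738564918040047244)]]]]]]]]],[[[[[[[[[Int.ofNat (nat_lit 662043901345307062539)]]]]],[[[[[Int.ofNat (nat_lit 248104287677118149076)]]]]]]],[[[[[[[Int.ofNat (nat_lit 36180459218180770488)]]]]]]]],[],[[[[[[[[Int.negSucc (nat_lit 18154103000458022642)]]]]]]]]],[[[[[[[[[Int.ofNat (nat_lit 75540037123734408372)]]]]]]]]],[[[[[[[[[Int.ofNat (nat_lit 134629451636889638853)]]]]]]]]]]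

/-- A coefficient. -/
noncomputable def sr7_m1_2_5 : MP 10 :=
  [[[[[[[],[[[[Int.ofNat (nat_lit 10375525886139099840)]]]]]],[[[[[[Int.negSucc (nat_lit 3687095630673504293)]]]]],[[[[[Int.ofNat (nat_lit 156382641705414174012)]]]]]]],[[[[],[[[[Int.negSucc (nat_lit 188703440475081491711)]]]]]]]],[[[[[[[[Int.ofNat (nat_lit 389462580200984426730)]]]]],[[[[[Int.ofNat (nat_lit 738031169425127977620)]]]]]]]],[[[],[[[[[[Int.negSucc (nat_lit 78191320852707087005)]]]]]]]],[[[[[[[[Int.negSucc (nat_lit 369015584712563988809)]]]]]]]]],[[[[[[],[[[[Int.ofNat (nat_lit 6465097608684600972)]]]]]]]],[[[[[[[[Int.ofNat (nat_lit 10375525886139099840)]]]]]]],[[[[[[[Int.negSucc (nat_lit 188703440475081491711)]]]]]]]]],[[[[],[[[[[[Int.ofNat (nat_lit 78191320852707087006)]]]]]]]],[[[[[[[[Int.ofNat (nat_lit 375480682321248589782)]]]]]]]]]]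

/-- A coefficient. -/
noncomputable def sr7_m1_2_6 : MP 10 :=
  [[[[[[[[[[Int.negSucc (nat_lit 676758661532638043141)]]]]],[[[[[Int.negSucc (nat_lit 1103607760491373391579)]]]]]]]],[[[[[],[[[[Int.negSucc (nat_lit 152326083149350683275)]]]]]]]],[[[[[[[[Int.ofNat (nat_lit 551803880245686695790)]]]]]]]]],[[[[[[[[[Int.negSucc (nat_lit 193819059697145442101)]]]]],[[[[[Int.ofNat (nat_lit 272020633936276011348)]]]]]]]],[],[[[[[[[[Int.negSucc (nat_lit 288336400117488688949)]]]]]]]]],[[[[[[[[[Int.negSucc (nat_lit 551803880245686695789)]]]]]]]]],[[[[[[[[[Int.ofNat (nat_lit 136010316968138005674)]]]]]]]]]]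

/-- A coefficient. -/
noncomputable def sr7_m1_2_7 : MP 10 :=
  [[[[[[[],[[[[Int.ofNat (nat_lit 24928549802964804192)]]]]]]]]],[[],[[[[[[[[Int.ofNat (nat_lit 24928549802964804192)]]]]]]]]]]

/-- A coefficient. -/
noncomputable def sr7_m1_2_8 : MP 10 :=
  [[[[[[[[[[Int.ofNat (nat_lit 394807835966394287319)]]]]],[[[[[Int.ofNat (nat_lit 627658293022252651374)]]]]]]]],[],[[[[[[[[Int.negSucc (nat_lit 313829146511126325686)]]]]]]]]],[],[[[[[[[[[Int.ofNat (nat_lit 313829146511126325687)]]]]]]]]]]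

/-- A coefficient. -/
noncomputable def sr7_m1_3_0 : MP 10 :=
  [[[[[[[[[[Int.negSucc (nat_lit 181508104832727689489)]]],[[[Int.ofNat (nat_lit 4508455144174139988)]]]],[[[],[[Int.ofNat (nat_lit 5549820546790065888)]]]],[[[[Int.ofNat (nat_lit 15593688103579820448)]]]]],[[[[[Int.negSucc (nat_lit 322338508777297834421)]]],[[[Int.ofNat (nat_lit 9016910288348279976)]]]]],[[[[[Int.ofNat (nat_lit 81355401776315089116)]]]]]],[[[],[[[[Int.ofNat (nat_lit 13602740831448712632)]]]]],[[],[[[[Int.ofNat (nat_lit 10746120765917930076)]]]]]],[[[[[[Int.negSucc (nat_lit 62450713390624658873)]]]]],[[[[[Int.ofNat (nat_lit 124901426781249317748)]]]]]]],[[[[[[[Int.negSucc (nat_lit 13994786413200994961)]]]],[],[[[[Int.negSucc (nat_lit 8329151561047476575)]]]]],[[[[[Int.negSucc (nat_lit 26572316424896852333)]]]]],[[[[[Int.ofNat (nat_lit 2834512803010275180)]]]]]],[[[],[[[[Int.negSucc (nat_lit 114777996073342340339)]]]]]]],[[[[[[[Int.negSucc (nat_lit 59939599986041499557)]]]]],[[[[[Int.negSucc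 (nat_lit 119879199972082999115)]]]]]]]],[[[[[[[],[[Int.ofNat (nat_lit 1786669573536824442)]]]],[[[[Int.negSucc (nat_lit 285040160729769780941)]]],[[[Int.ofNat (nat_lit 69536767029944100)]]]]],[[[[],[[Int.negSucc (nat_lit 3573339147073648883)]]]],[[[[Int.negSucc (nat_lit 7280353679592291443)]]]]]],[[[[[[Int.negSucc (nat_lit 3792439853630208389)]]]]],[[[[[Int.ofNat (nat_lit 19268527828359878004)]]]]]]],[[[[],[[[[Int.negSucc (nat_lit 64889704407840329003)]]]]]]]],[[[[[[[[Int.ofNat (nat_lit 32232295705958074152)]]],[[[Int.negSucc (nat_lit 4508455144174139987)]]]]],[[[[[Int.ofNat (nat_lit 130839800962301569758)]]]]]],[[[],[[[[Int.ofNat (nat_lit 6221275841935509444)]]]]]],[[[[[[Int.negSucc (nat_lit 62450713390624658873)]]]]]]],[[[[[[[Int.ofNat (nat_lit 6712945932702650364)]]]]],[[[[[Int.negSucc (nat_lit 7061839535292601073)]]]]]]],[[[[[[[Int.ofNat (nat_lit 59939599986041499558)]]]]]]]],[[[[[[[],[[Int.ofNat (nat_lit 1786669573536824442)]]]],[[[[Int.negSucc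 (nat_lit 26242128284811470117)]]]]]],[[[[[[Int.negSucc (nat_lit 9634263914179939001)]]]]]]]],[[[[[[[[Int.negSucc (nat_lit 85758750925229557157)]]]]]]],[[[[[[[Int.ofNat (nat_lit 2822291566893731742)]]]]]]]]],[[[[[[[[[Int.negSucc (nat_lit 342694139072037152957)]]],[[[Int.ofNat (nat_lit 1989750266742824604)]]]],[[[],[[Int.ofNat (nat_lit 4582107939484432644)]]]],[[[[Int.ofNat (nat_lit 8854407570703949844)]]]]],[[[[[Int.negSucc (nat_lit 656653091758586074607)]]],[[[Int.ofNat (nat_lit 3979500533485649208)]]]]],[[[[[Int.ofNat (nat_lit 57470372770976462616)]]]]]],[[[],[[[[Int.negSucc (nat_lit 89513877975668657291)]]]]]]],[[[[[[[Int.negSucc (nat_lit 44488981093167742973)]]]]],[[[[[Int.negSucc (nat_lit 88977962186335485947)]]]]]]]],[[[[[[[],[[Int.ofNat (nat_lit 5549820546790065888)]]]],[[[[Int.negSucc (nat_lit 256529962032787782839)]]]]]],[[[[[[Int.ofNat (nat_lit 7789607941084648836)]]]]],[[[[[Int.ofNat (nat_lit 27257985782843342412)]]]]]]],[[[[],[[[[Int.negSucc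 (nat_lit 9964657544883595223)]]]]]],[[[[[[Int.negSucc (nat_lit 114777996073342340339)]]]]]]]],[[[[[[[[Int.ofNat (nat_lit 29198442904333101678)]]],[[[Int.negSucc (nat_lit 1920213499712880503)]]]]],[[[[[Int.negSucc (nat_lit 63488616019141889555)]]]]]]],[[[[[[[Int.negSucc (nat_lit 20400723314672586029)]]]]]]]],[[[],[[[[[[Int.negSucc (nat_lit 2034656666527196723)]]]]]]]],[[[[[[[[Int.negSucc (nat_lit 12505590307780786715)]]]]]]]]],[[[[[[[[[Int.negSucc (nat_lit 347197891553471023523)]]],[[[Int.ofNat (nat_lit 4508455144174139988)]]]]],[[[[[Int.negSucc (nat_lit 290701872553329123509)]]]]]],[[[],[[[[Int.negSucc (nat_lit 58059156488270944739)]]]]]],[[[[[[Int.ofNat (nat_lit 62450713390624658874)]]]]]]],[[[[[[[Int.negSucc (nat_lit 39987124143534886247)]]]]],[[[[[Int.negSucc (nat_lit 50567419059162644981)]]]]]]],[[[[[[[Int.negSucc (nat_lit 59939599986041499557)]]]]]]]],[[[[[[[],[[Int.ofNat (nat_lit 2795438365947608202)]]]],[[[[Int.negSucc (nat_lit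 21016526330425148093)]]]]]],[[[[[[Int.negSucc (nat_lit 79879614061488718289)]]]]]]]],[[[[[[[[Int.negSucc (nat_lit 20675112490394712095)]]]]]]],[[[[[[[Int.ofNat (nat_lit 21534540179604040896)]]]]]]]]],[[[[[[[[[Int.negSucc (nat_lit 332993112224133004907)]]],[[[Int.ofNat (nat_lit 1989750266742824604)]]]]],[[[[[Int.ofNat (nat_lit 48137240081296527408)]]]]]]],[[[[[[[Int.negSucc (nat_lit 44488981093167742973)]]]]]]]],[[[],[[[[[[Int.negSucc (nat_lit 49803223979808238571)]]]]]]]],[[[[[[[[Int.negSucc (nat_lit 53308498726063929389)]]]]]]]]],[[[[[[[[[Int.negSucc (nat_lit 165689786720743334033)]]]]]]],[[[[[[[Int.negSucc (nat_lit 25992337730333891285)]]]]]]]]],[[[[[[[[[Int.ofNat (nat_lit 9701026847904148050)]]]]]]]]]]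

/-- A coefficient. -/
noncomputable def sr7_m1_3_1 : MP 10 :=
  [[[[[[[[[],[[Int.ofNat (nat_lit 369191839609614702)]]]],[[[[Int.ofNat (nat_lit 256449311907328598340)]]],[[[Int.negSucc (nat_lit 2236953266132358479)]]]]],[[[[],[[Int.negSucc (nat_lit 738383679219229403)]]]],[[[[Int.ofNat (nat_lit 82913537403990840)]]]]]],[[[[[[Int.ofNat (nat_lit 77880124315961824410)]]]]],[[[[[Int.negSucc (nat_lit 205626120366907100099)]]]]]],[[[],[[[[Int.ofNat (nat_lit 8937156816438518136)]]]]]]],[[[[],[[[[Int.ofNat (nat_lit 139195489527893876352)]]]]]],[[[[[[Int.negSucc (nat_lit 24961786549304851217)]]]]],[[[[[Int.ofNat (nat_lit 98752717930670509092)]]]]]]],[[[[],[[[[Int.negSucc (nat_lit 29154229718835044819)]]]]]]]],[[[[[[[[Int.ofNat (nat_lit 141649236690941746248)]]]],[],[[[[Int.ofNat (nat_lit 50252777683693318332)]]]]],[[[[[Int.ofNat (nat_lit 245705853037319795238)]]]]],[[[[[Int.ofNat (nat_lit 105234948887633738628)]]]]]],[[[],[[[[Int.negSucc (nat_lit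 53817733118059873583)]]]]]]],[[[[[[[Int.negSucc (nat_lit 132171237243402450527)]]]]],[[[[[Int.negSucc (nat_lit 300138355628181031535)]]]]]]]],[[[[[[[],[[Int.ofNat (nat_lit 369191839609614702)]]]],[[[[Int.negSucc (nat_lit 638058587927040559487)]]]]]],[[[[[[Int.ofNat (nat_lit 102813060183453550050)]]]]]]],[[],[[[[[[Int.negSucc (nat_lit 49376358965335254545)]]]]]]]],[[[[[[[[Int.negSucc (nat_lit 154173594098970507419)]]]]],[[[[[Int.negSucc (nat_lit 163261283087650514921)]]]]]]],[[[[[[[Int.ofNat (nat_lit 150069177814090515768)]]]]]]]],[],[[[[[[[[Int.ofNat (nat_lit 55321904321916822804)]]]]]]]]],[[[[[[],[[[[Int.ofNat (nat_lit 378200662534897959366)]]]]],[[],[[[[Int.negSucc (nat_lit 20336387085407526143)]]]]]],[[[[[[Int.ofNat (nat_lit 84143627207044313742)]]]]],[[[[[Int.negSucc (nat_lit 109989350888580195179)]]]]]]],[[[[],[[[[Int.ofNat (nat_lit 69923357697819857064)]]]]]]]],[[[[[[[[Int.ofNat (nat_lit 224127021029094388104)]]],[[[Int.negSucc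 (nat_lit 2236953266132358479)]]]]],[[[[[Int.ofNat (nat_lit 78621816460396024152)]]]]]],[],[[[[[[Int.ofNat (nat_lit 8937156816438518136)]]]]]]],[[[[[[[Int.ofNat (nat_lit 139195489527893876352)]]]]]]],[[[[[[[Int.negSucc (nat_lit 29154229718835044819)]]]]]]]],[[[[[],[[[[Int.negSucc (nat_lit 57671461473078361937)]]]]]],[[[[[[Int.ofNat (nat_lit 1176942326230224006)]]]]]]]],[[[[[[[[Int.negSucc (nat_lit 677328039388536576143)]]]]]]]]],[[[[[[[[],[[Int.negSucc (nat_lit 369191839609614701)]]]],[[[[Int.ofNat (nat_lit 22467917673768479460)]]]]]],[[[[[[Int.negSucc (nat_lit 102813060183453550049)]]]]]]],[[],[[[[[[Int.ofNat (nat_lit 49376358965335254546)]]]]]]]],[[[[[[[[Int.ofNat (nat_lit 413568895444017240870)]]]]],[[[[[Int.negSucc (nat_lit 96167155583876002517)]]]]]]],[[[[[[[Int.negSucc (nat_lit 80145820116270658703)]]]]]]]],[],[[[[[[[[Int.negSucc (nat_lit 99022022007545830229)]]]]]]]]],[[[[[[],[[[[Int.negSucc (nat_lit 27840878272622971229)]]]]]],[[[[[[Int.negSucc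 (nat_lit 54994675444290097589)]]]]]]]],[[[[[[[[Int.ofNat (nat_lit 61737369135264496116)]]]]]]]]],[[],[[[[[[[[Int.negSucc (nat_lit 92064999743765644073)]]]]]]]]]]

/-- A coefficient. -/
noncomputable def sr7_m1_3_2 : MP 10 :=
  [[[[[[[[[[Int.negSucc (nat_lit 468713010022889119907)]]],[[[Int.ofNat (nat_lit 203505575505460326)]]]],[[[],[[Int.negSucc (nat_lit 721143437886533483)]]]],[[[[Int.negSucc (nat_lit 15527135706218422367)]]]]],[[[[[Int.ofNat (nat_lit 202766661092903694360)]]],[[[Int.ofNat (nat_lit 407011151010920652)]]]]],[[[[[Int.negSucc (nat_lit 87773449368900052631)]]]]]],[[[],[[[[Int.ofNat (nat_lit 92378113548859951080)]]]]]]],[[[[[[[Int.ofNat (nat_lit 28119939950477019636)]]]]],[[[[[Int.ofNat (nat_lit 227278972010660346912)]]]]]]]],[[[[[],[[[[Int.ofNat (nat_lit 545354924537356230828)]]]]]],[[[[[[Int.ofNat (nat_lit 7620229848665604504)]]]]],[[[[[Int.negSucc (nat_lit 128824921620133656695)]]]]]]],[[[[],[[[[Int.ofNat (nat_lit 220701608318461451796)]]]]]]]],[[[[[[[[Int.negSucc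 (nat_lit 770542989197222760071)]]],[[[Int.negSucc (nat_lit 203505575505460325)]]]]],[[[[[Int.negSucc (nat_lit 1385311973612514926195)]]]]]]],[[[[[[[Int.negSucc (nat_lit 113639486005330173455)]]]]]]]],[[[],[[[[[[Int.ofNat (nat_lit 64412460810066828348)]]]]]]]],[[[[[[[[Int.ofNat (nat_lit 714599349148482476256)]]]]]]]]],[[[[[[[[[Int.negSucc (nat_lit 726301057700247938603)]]]]],[[[[[Int.ofNat (nat_lit 811365563401903645992)]]]]]],[[[],[[[[Int.ofNat (nat_lit 270363334578087045036)]]]]]]],[[[[[[[Int.ofNat (nat_lit 3015196926387008754)]]]]],[[[[[Int.ofNat (nat_lit 199068462864387624660)]]]]]]]],[[[[[[[],[[Int.negSucc (nat_lit 721143437886533483)]]]],[[[[Int.ofNat (nat_lit 533335923408552344940)]]]]]],[[[[[[Int.ofNat (nat_lit 92378113548859951080)]]]]]]]],[[[[[[[[Int.ofNat (nat_lit 139672142836404407832)]]]]]]],[[[[[[[Int.ofNat (nat_lit 121167376886267639466)]]]]]]]]],[[[[[[[[[Int.negSucc (nat_lit 310103971799121400169)]]],[[[Int.ofNat (nat_lit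 203505575505460326)]]]]],[[[[[Int.ofNat (nat_lit 482739498782542660416)]]]]]]],[[[[[[[Int.ofNat (nat_lit 113639486005330173456)]]]]]]]],[[[],[[[[[[Int.ofNat (nat_lit 205950873768020216688)]]]]]]]],[[[[[[[[Int.negSucc (nat_lit 429049401767208052313)]]]]]]]]],[[[[[[[[[Int.ofNat (nat_lit 405682781700951822996)]]]]]]],[[[[[[[Int.ofNat (nat_lit 99534231432193812330)]]]]]]]]],[[[[[[[[[Int.ofNat (nat_lit 263313111733496343366)]]]]]]]]]]

/-- A coefficient. -/
noncomputable def sr7_m1_3_3 : MP 10 :=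
  [[[[[[[],[[[[Int.negSucc (nat_lit 17435132166213325205)]]]]],[[],[[[[Int.negSucc (nat_lit 1617555257097886991)]]]]]],[[[[[[Int.negSucc (nat_lit 155620320365242023785)]]]]],[[[[[Int.negSucc (nat_lit 109321205001666953771)]]]]]]],[[[[],[[[[Int.negSucc (nat_lit 42307858515690353171)]]]]]]]],[[[[[[[[Int.ofNat (nat_lit 759327275732359847532)]]]]],[[[[[Int.ofNat (nat_lit 117315967375816027560)]]]]]]]],[[[[[],[[[[Int.ofNat (nat_lit 198506287945603622958)]]]]]],[[[[[[Int.ofNat (nat_lit 54660602500833476886)]]]]]]]],[[[[[[[[Int.negSucc (nat_lit 58657983687908013779)]]]]]]]]],[[[[[[],[[[[Int.ofNat (nat_lit 166428851592942638820)]]]]]]]],[[[[[[[[Int.ofNat (nat_lit 88073574402851697510)]]]]],[[[[[Int.negSucc (nat_lit 368078892715619812055)]]]]]]],[[[[[[[Int.negSucc (nat_lit 42307858515690353171)]]]]]]]],[],[[[[[[[[Int.ofNat (nat_lit 381736956674864585490)]]]]]]]]],[[[[[[],[[[[Int.ofNat (nat_lit 121406082710673756282)]]]]]],[[[[[[Int.negSucc (nat_lit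 54660602500833476885)]]]]]]]],[[[[[[[[Int.ofNat (nat_lit 225086835280850652600)]]]]]]]]],[[],[[[[[[[[Int.negSucc (nat_lit 61824586018587206249)]]]]]]]]]]

/-- A coefficient. -/
noncomputable def sr7_m1_3_4 : MP 10 :=
  [[[[[[[[[[Int.ofNat (nat_lit 438542594142347096034)]]]]],[[[[[Int.ofNat (nat_lit 72094782425316610308)]]]]]],[[[],[[[[Int.negSucc (nat_lit 54571243271123406143)]]]]]]],[[[[[[[Int.ofNat (nat_lit 54053388125893428828)]]]]],[[[[[Int.negSucc (nat_lit 94663621075665883583)]]]]]]]],[[[[[],[[[[Int.ofNat (nat_lit 179727960590916869052)]]]]]]]],[[[[[[[[Int.negSucc (nat_lit 36047391212658305153)]]]]]]],[[[[[[[Int.ofNat (nat_lit 47331810537832941792)]]]]]]]]],[[[[[[[[[Int.ofNat (nat_lit 391783075684420353978)]]]]],[[[[[Int.ofNat (nat_lit 335812654695525599820)]]]]]]]],[[[],[[[[[[Int.negSucc (nat_lit 54571243271123406143)]]]]]]]],[[[[[[[[Int.ofNat (nat_lit 11821633243154069142)]]]]]]]]],[[[[[[[[[Int.ofNat (nat_lit 36047391212658305154)]]]]]]],[[[[[[[Int.negSucc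 (nat_lit 47331810537832941791)]]]]]]]]],[[[[[[[[[Int.ofNat (nat_lit 167906327347762799910)]]]]]]]]]]

/-- A coefficient. -/
noncomputable def sr7_m1_3_5 : MP 10 :=
  [[[[[[[],[[[[Int.negSucc (nat_lit 612778880224623691823)]]]]]]]],[[[[[[[[Int.negSucc (nat_lit 688747520459601988463)]]]]],[[[[[Int.negSucc (nat_lit 20480057211117261863)]]]]]]]],[],[[[[[[[[Int.ofNat (nat_lit 10240028605558630932)]]]]]]]]],[[[[[[],[[[[Int.negSucc (nat_lit 359527466375260746539)]]]]]]]],[[[[[[[[Int.negSucc (nat_lit 612778880224623691823)]]]]]]]]],[[],[[[[[[[[Int.negSucc (nat_lit 369767494980819377471)]]]]]]]]]]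

/-- A coefficient. -/
noncomputable def sr7_m1_3_6 : MP 10 :=
  [[[[[[[[[[Int.negSucc (nat_lit 202535456033751525647)]]]]],[[[[[Int.ofNat (nat_lit 386714853649816923816)]]]]]]]],[],[[[[[[[[Int.negSucc (nat_lit 193357426824908461907)]]]]]]]]],[],[[[[[[[[[Int.ofNat (nat_lit 193357426824908461908)]]]]]]]]]]

/-- A coefficient. -/
noncomputable def sr7_m1_3_7 : MP 10 :=
  [[[[[[[],[[[[Int.negSucc (nat_lit 105982648947591609371)]]]]]]]]],[[],[[[[[[[[Int.negSucc (nat_lit 105982648947591609371)]]]]]]]]]]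

/-- A coefficient. -/
noncomputable def sr7_m1_4_0 : MP 10 :=
  [[[[[[[[[[Int.ofNat (nat_lit 404166811653854992245)]]],[[[Int.negSucc (nat_lit 1004912282156797511)]]]],[[[],[[Int.negSucc (nat_lit 1753208429115685655)]]]],[[[[Int.negSucc (nat_lit 13197439053465200351)]]]]],[[[[[Int.ofNat (nat_lit 785862477382978358940)]]],[[[Int.negSucc (nat_lit 2009824564313595023)]]]]],[[[[[Int.negSucc (nat_lit 44942291849463251099)]]]]]],[[[],[[[[Int.negSucc (nat_lit 99629059459899975023)]]]]]],[[[[[[Int.ofNat (nat_lit 36517364735522231877)]]]]],[[[[[Int.negSucc (nat_lit 73034729471044463753)]]]]]]],[[[[[[[Int.negSucc (nat_lit 4070004275314947839)]]]]],[[[[[Int.negSucc (nat_lit 8140008550629895679)]]]]]],[[[],[[[[Int.ofNat (nat_lit 73509251780116044144)]]]]]]],[[[[[[[Int.ofNat (nat_lit 28105069961022315984)]]]]],[[[[[Int.ofNat (nat_lit 56210139922044631968)]]]]]]]],[[[[[],[[[[Int.ofNat (nat_lit 451619904526749100788)]]]]],[[],[[[[Int.ofNat (nat_lit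 18822792374307496632)]]]]]],[[[[[[Int.negSucc (nat_lit 1383492770659942649)]]]]],[[[[[Int.negSucc (nat_lit 5716931478238619627)]]]]]]],[[[[],[[[[Int.negSucc (nat_lit 7885750828502696003)]]]]]]]],[[[[[[[[Int.negSucc (nat_lit 306594026028750499844)]]],[[[Int.ofNat (nat_lit 1004912282156797512)]]]]],[[[[[Int.negSucc (nat_lit 139144640694733675241)]]]]]],[],[[[[[[Int.ofNat (nat_lit 36517364735522231877)]]]]]]],[[[[[[[Int.ofNat (nat_lit 4070004275314947840)]]]]]]],[[[[[[[Int.negSucc (nat_lit 28105069961022315983)]]]]]]]],[[[[[],[[[[Int.negSucc (nat_lit 707751130838295671)]]]]]],[[[[[[Int.ofNat (nat_lit 2858465739119309814)]]]]]]]],[[[[[[[[Int.ofNat (nat_lit 80807893309732650396)]]]]]]]]],[[[[[[[[[Int.ofNat (nat_lit 608810573169613379430)]]]],[],[[[[Int.ofNat (nat_lit 4352422263076043844)]]]]],[[[[[Int.ofNat (nat_lit 1218713345160666608268)]]]]],[[[[[Int.ofNat (nat_lit 2184397642879698816)]]]]]],[[[],[[[[Int.negSucc (nat_lit 69446440898370330515)]]]]]]],[[[[[[[Int.negSucc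 (nat_lit 33214654574931864959)]]]]],[[[[[Int.negSucc (nat_lit 66429309149863729919)]]]]]]]],[[[[[[[],[[Int.negSucc (nat_lit 1753208429115685655)]]]],[[[[Int.ofNat (nat_lit 185511991129408105284)]]]]]],[[[[[[Int.negSucc (nat_lit 99629059459899975023)]]]]]]],[[],[[[[[[Int.ofNat (nat_lit 73509251780116044144)]]]]]]]],[[[[[[[[Int.negSucc (nat_lit 186321637240621944689)]]]]],[[[[[Int.ofNat (nat_lit 44078589362154765144)]]]]]]],[[[[[[[Int.ofNat (nat_lit 25328903746429168956)]]]]]]]],[],[[[[[[[[Int.negSucc (nat_lit 13881749035481854631)]]]]]]]]],[[[[[[[[[Int.ofNat (nat_lit 594598573234861074303)]]],[[[Int.negSucc (nat_lit 1004912282156797511)]]]]],[[[[[Int.ofNat (nat_lit 358392377237280538566)]]]]]],[],[[[[[[Int.negSucc (nat_lit 36517364735522231876)]]]]]]],[[[[[[[Int.negSucc (nat_lit 4070004275314947839)]]]]]]],[[[[[[[Int.ofNat (nat_lit 28105069961022315984)]]]]]]]],[[[[[],[[[[Int.negSucc (nat_lit 32275377222988933463)]]]]]],[[[[[[Int.negSucc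 (nat_lit 72304906637489640329)]]]]]]]],[[[[[[[[Int.negSucc (nat_lit 72530224707865426817)]]]]]]]]],[[[[[[[[[Int.ofNat (nat_lit 573649491431264695464)]]]]],[[[[[Int.negSucc (nat_lit 69229964655257518523)]]]]]]],[[[[[[[Int.negSucc (nat_lit 33214654574931864959)]]]]]]]],[],[[[[[[[[Int.ofNat (nat_lit 11707280156927265618)]]]]]]]]],[[[[[[[[[Int.ofNat (nat_lit 190431761581006082058)]]]]]]]]],[[[[[[[[[Int.negSucc (nat_lit 35161081738348683965)]]]]]]]]]]

/-- A coefficient. -/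
noncomputable def sr7_m1_4_1 : MP 10 :=
  [[[[[[[[[],[[Int.negSucc (nat_lit 2932811910146233637)]]]],[[[[Int.negSucc (nat_lit 459357652013093825903)]]],[[[Int.ofNat (nat_lit 1366046290508636256)]]]]],[[[[],[[Int.ofNat (nat_lit 5865623820292467276)]]]],[[[[Int.negSucc (nat_lit 5280071931957669767)]]]]]],[[[[[[Int.negSucc (nat_lit 40253509572921284291)]]]]],[[[[[Int.ofNat (nat_lit 111068690939383910256)]]]]]]],[[[[],[[[[Int.negSucc (nat_lit 74525003151517023095)]]]]]]]],[[[[[[[[Int.negSucc (nat_lit 35233961941814460167)]]]]],[[[[[Int.ofNat (nat_lit 36698611487576829624)]]]]]],[[[],[[[[Int.negSucc (nat_lit 17289527790036797699)]]]]]]],[[[[[[[Int.ofNat (nat_lit 80170664198368160826)]]]]],[[[[[Int.ofNat (nat_lit 128021240607502624572)]]]]]]]],[[[[[[[],[[Int.negSucc (nat_lit 2932811910146233637)]]]],[[[[Int.ofNat (nat_lit 264857487082585326936)]]]]]],[[[[[[Int.negSucc (nat_lit 55534345469691955127)]]]]]]]],[[[[[[[[Int.negSucc (nat_lit 18349305743788414811)]]]]]]],[[[[[[[Int.negSucc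 (nat_lit 64010620303751312285)]]]]]]]]],[[[[[[],[[[[Int.negSucc (nat_lit 351261841823713443011)]]]]]],[[[[[[Int.negSucc (nat_lit 6204744143488607705)]]]]],[[[[[Int.ofNat (nat_lit 5851474865666151684)]]]]]]],[[[[],[[[[Int.negSucc (nat_lit 17360447457639099587)]]]]]]]],[[[[[[[[Int.negSucc (nat_lit 504980486338233676019)]]],[[[Int.ofNat (nat_lit 1366046290508636256)]]]]],[[[[[Int.negSucc (nat_lit 241005878634071686847)]]]]]]],[[[[[[[Int.negSucc (nat_lit 74525003151517023095)]]]]]]]],[[[],[[[[[[Int.negSucc (nat_lit 20215265222869873541)]]]]]]]],[[[[[[[[Int.ofNat (nat_lit 382720390433642335476)]]]]]]]]],[[[[[[[[],[[Int.ofNat (nat_lit 2932811910146233638)]]]],[[[[Int.ofNat (nat_lit 54512491602441975468)]]]]]],[[[[[[Int.ofNat (nat_lit 55534345469691955128)]]]]]]]],[[[[[[[[Int.negSucc (nat_lit 332912536079925028199)]]]]]]],[[[[[[[Int.ofNat (nat_lit 46650172846112212698)]]]]]]]]],[[[[],[[[[[[Int.ofNat (nat_lit 2925737432833075842)]]]]]]]],[[[[[[[[Int.negSucc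 (nat_lit 63350411748615033071)]]]]]]]]]]

/-- A coefficient. -/
noncomputable def sr7_m1_4_2 : MP 10 :=
  [[[[[[[[[[Int.negSucc (nat_lit 58751557760620478117)]]]],[],[[[[Int.negSucc (nat_lit 15311970971266441823)]]]]],[[[[[Int.negSucc (nat_lit 1158965429697752165837)]]]]],[[[[[Int.negSucc (nat_lit 33486890602088020859)]]]]]],[[[],[[[[Int.ofNat (nat_lit 165688951945201413600)]]]]]]],[[[[[[[Int.negSucc (nat_lit 27745341792633848273)]]]]],[[[[[Int.ofNat (nat_lit 79349467631531271948)]]]]]]]],[[[[[],[[[[Int.ofNat (nat_lit 247685286433804417824)]]]]]]]],[[[[[[[[Int.ofNat (nat_lit 1017879746438933286711)]]]]],[[[[[Int.ofNat (nat_lit 802410014301573077904)]]]]]]],[[[[[[[Int.negSucc (nat_lit 39674733815765635973)]]]]]]]],[],[[[[[[[[Int.negSucc (nat_lit 392833284500264533736)]]]]]]]]],[[[[[[[[[Int.ofNat (nat_lit 177556493819519564298)]]]]],[[[[[Int.negSucc (nat_lit 652987314427175136755)]]]]]]]],[[[[[],[[[[Int.negSucc (nat_lit 151494540437512772795)]]]]]],[[[[[[Int.ofNat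 (nat_lit 165688951945201413600)]]]]]]]],[[[[[[[[Int.ofNat (nat_lit 574178943647391986202)]]]]]]]]],[[[[[[[[[Int.negSucc (nat_lit 277984311374541614315)]]]]],[[[[[Int.negSucc (nat_lit 198102449020099825913)]]]]]]],[[[[[[[Int.ofNat (nat_lit 39674733815765635974)]]]]]]]],[],[[[[[[[[Int.ofNat (nat_lit 347330216893546110507)]]]]]]]]],[[[[[[[[[Int.negSucc (nat_lit 326493657213587568377)]]]]]]]]],[[[[[[[[[Int.negSucc (nat_lit 90679501859527907741)]]]]]]]]]]

/-- A coefficient. -/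
noncomputable def sr7_m1_4_3 : MP 10 :=
  [[[[[[[],[[[[Int.ofNat (nat_lit 346672212815589154176)]]]]]],[[[[[[Int.ofNat (nat_lit 18066026286127747278)]]]]],[[[[[Int.ofNat (nat_lit 253740819765192209628)]]]]]]],[[[[],[[[[Int.negSucc (nat_lit 127376580039853299647)]]]]]]]],[[[[[[[[Int.ofNat (nat_lit 439688510109790216818)]]]]],[[[[[Int.ofNat (nat_lit 889192209312368656548)]]]]]]]],[[[],[[[[[[Int.negSucc (nat_lit 126870409882596104813)]]]]]]]],[[[[[[[[Int.negSucc (nat_lit 444596104656184328273)]]]]]]]]],[[[[[[],[[[[Int.ofNat (nat_lit 79191055349472661836)]]]]]]]],[[[[[[[[Int.ofNat (nat_lit 346672212815589154176)]]]]]]],[[[[[[[Int.negSucc (nat_lit 127376580039853299647)]]]]]]]]],[[[[],[[[[[[Int.ofNat (nat_lit 126870409882596104814)]]]]]]]],[[[[[[[[Int.ofNat (nat_lit 523787160005656990110)]]]]]]]]]]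

/-- A coefficient. -/
noncomputable def sr7_m1_4_4 : MP 10 :=
  [[[[[[[[[[Int.negSucc (nat_lit 975615768050004044861)]]]]],[[[[[Int.ofNat (nat_lit 538590654135646230780)]]]]]]]],[[[[[],[[[[Int.negSucc (nat_lit 336548735597422048835)]]]]]]]],[[[[[[[[Int.negSucc (nat_lit 269295327067823115389)]]]]]]]]],[[[[[[[[[Int.negSucc (nat_lit 466783947136663926197)]]]]],[[[[[Int.negSucc (nat_lit 233729239083595333619)]]]]]]]],[],[[[[[[[[Int.negSucc (nat_lit 219684116055624382025)]]]]]]]]],[[[[[[[[[Int.ofNat (nat_lit 269295327067823115390)]]]]]]]]],[[[[[[[[[Int.negSucc (nat_lit 116864619541797666809)]]]]]]]]]]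

/-- A coefficient. -/
noncomputable def sr7_m1_4_5 : MP 10 :=
  [[[[[[[],[[[[Int.negSucc (nat_lit 66429400125631609271)]]]]]]]]],[[],[[[[[[[[Int.negSucc (nat_lit 66429400125631609271)]]]]]]]]]]

/-- A coefficient. -/
noncomputable def sr7_m1_4_6 : MP 10 :=
  [[[[[[[[[[Int.ofNat (nat_lit 863152276638076126335)]]]]],[[[[[Int.negSucc (nat_lit 359254529095241689949)]]]]]]]],[],[[[[[[[[Int.ofNat (nat_lit 179627264547620844975)]]]]]]]]],[],[[[[[[[[[Int.negSucc (nat_lit 179627264547620844974)]]]]]]]]]]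

/-- A coefficient. -/
noncomputable def sr7_m1_5_0 : MP 10 :=
  [[[[[[[[[[Int.negSucc (nat_lit 413664792795719450009)]]],[[[Int.negSucc (nat_lit 543514919080409951)]]]],[[[],[[Int.negSucc (nat_lit 1051518053943951575)]]]],[[[[Int.ofNat (nat_lit 19429031498719710336)]]]]],[[[[[Int.negSucc (nat_lit 822259426608403437173)]]],[[[Int.negSucc (nat_lit 1087029838160819903)]]]]],[[[[[Int.ofNat (nat_lit 10140317966070925692)]]]]]],[[[],[[[[Int.ofNat (nat_lit 60719234645873404464)]]]]]]],[[[[[[[Int.negSucc (nat_lit 15305754876683180561)]]]]],[[[[[Int.negSucc (nat_lit 30611509753366361123)]]]]]]]],[[[[[],[[[[Int.negSucc (nat_lit 397074650491413335711)]]]]]],[[[[[[Int.ofNat (nat_lit 2086708536528651948)]]]]],[[[[[Int.ofNat (nat_lit 6340624314520887240)]]]]]]],[[[[],[[[[Int.ofNat (nat_lit 7142024862126693612)]]]]]]]],[[[[[[[[Int.ofNat (nat_lit 335505279477400736088)]]],[[[Int.ofNat (nat_lit 543514919080409952)]]]]],[[[[[Int.ofNat (nat_lit 158478937460775225486)]]]]]]],[[[[[[[Int.ofNat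 (nat_lit 15305754876683180562)]]]]]]]],[[[],[[[[[[Int.negSucc (nat_lit 3170312157260443619)]]]]]]]],[[[[[[[[Int.negSucc (nat_lit 81774548221905344165)]]]]]]]]],[[[[[[[[[Int.negSucc (nat_lit 559035242098421541227)]]]]],[[[[[Int.negSucc (nat_lit 1118070484196843082455)]]]]]],[[[],[[[[Int.ofNat (nat_lit 81446258722048126044)]]]]]]],[[[[[[[Int.ofNat (nat_lit 36494579290226965488)]]]]],[[[[[Int.ofNat (nat_lit 72989158580453930976)]]]]]]]],[[[[[[[],[[Int.negSucc (nat_lit 1051518053943951575)]]]],[[[[Int.negSucc (nat_lit 137306323389073704671)]]]]]],[[[[[[Int.ofNat (nat_lit 60719234645873404464)]]]]]]]],[[[[[[[[Int.ofNat (nat_lit 161960591607008205516)]]]]]]],[[[[[[[Int.negSucc (nat_lit 29352554428100271875)]]]]]]]]],[[[[[[[[[Int.negSucc (nat_lit 609874002718550008955)]]],[[[Int.negSucc (nat_lit 543514919080409951)]]]]],[[[[[Int.negSucc (nat_lit 387348260862625655045)]]]]]]],[[[[[[[Int.negSucc (nat_lit 15305754876683180561)]]]]]]]],[[[],[[[[[[Int.ofNat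 (nat_lit 84616570879308569664)]]]]]]]],[[[[[[[[Int.ofNat (nat_lit 121248403256942488104)]]]]]]]]],[[[[[[[[[Int.negSucc (nat_lit 559035242098421541227)]]]]]]],[[[[[[[Int.ofNat (nat_lit 36494579290226965488)]]]]]]]]],[[[[[[[[[Int.negSucc (nat_lit 196209209922830558945)]]]]]]]]]]

/-- A coefficient. -/
noncomputable def sr7_m1_5_1 : MP 10 :=
  [[[[[[[],[[[[Int.ofNat (nat_lit 167167136963017059372)]]]]],[[],[[[[Int.negSucc (nat_lit 4864723830087107711)]]]]]],[[[[[[Int.ofNat (nat_lit 50913811170753171642)]]]]],[[[[[Int.negSucc (nat_lit 95526828478096248395)]]]]]]],[[[[],[[[[Int.ofNat (nat_lit 65852523653374571064)]]]]]]]],[[[[[[[[Int.negSucc (nat_lit 119491434810617595077)]]]]],[[[[[Int.negSucc (nat_lit 217760236847460067715)]]]]]]]],[[[[[],[[[[Int.ofNat (nat_lit 40255953155015923728)]]]]]],[[[[[[Int.ofNat (nat_lit 47763414239048124198)]]]]]]]],[[[[[[[[Int.ofNat (nat_lit 108880118423730033858)]]]]]]]]],[[[[[[],[[[[Int.ofNat (nat_lit 109975503850214274264)]]]]]]]],[[[[[[[[Int.ofNat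 (nat_lit 285451948250134829214)]]]]],[[[[[Int.ofNat (nat_lit 179396130721205211420)]]]]]]],[[[[[[[Int.ofNat (nat_lit 65852523653374571064)]]]]]]]],[],[[[[[[[[Int.negSucc (nat_lit 51874474120630235837)]]]]]]]]],[[[[[[],[[[[Int.ofNat (nat_lit 7445832857697636588)]]]]]],[[[[[[Int.negSucc (nat_lit 47763414239048124197)]]]]]]]],[[[[[[[[Int.ofNat (nat_lit 1095385426484240406)]]]]]]]]],[[],[[[[[[[[Int.ofNat (nat_lit 99576260133343796154)]]]]]]]]]]

/-- A coefficient. -/
noncomputable def sr7_m1_5_2 : MP 10 :=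
  [[[[[[[[[[Int.ofNat (nat_lit 746420451433329154404)]]]]],[[[[[Int.ofNat (nat_lit 1106374251764656273584)]]]]]],[[[],[[[[Int.negSucc (nat_lit 154898456332083987731)]]]]]]],[[[[[[[Int.ofNat (nat_lit 19900651420764712500)]]]]],[[[[[Int.negSucc (nat_lit 154871220630550635407)]]]]]]]],[[[[[],[[[[Int.negSucc (nat_lit 476307977765275437647)]]]]]]]],[[[[[[[[Int.negSucc (nat_lit 553187125882328136791)]]]]]]],[[[[[[[Int.ofNat (nat_lit 77435610315275317704)]]]]]]]]],[[[[[[[[[Int.ofNat (nat_lit 517359307621992404646)]]]]],[[[[[Int.ofNat (nat_lit 8633473784996776404)]]]]]]]],[[[],[[[[[[Int.negSucc (nat_lit 154898456332083987731)]]]]]]]],[[[[[[[[Int.negSucc (nat_lit 480624714657773825849)]]]]]]]]],[[[[[[[[[Int.ofNat (nat_lit 553187125882328136792)]]]]]]],[[[[[[[Int.negSucc (nat_lit 77435610315275317703)]]]]]]]]],[[[[[[[[[Int.ofNat (nat_lit 4316736892498388202)]]]]]]]]]]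

/-- A coefficient. -/
noncomputable def sr7_m1_5_3 : MP 10 :=
  [[[[[[[],[[[[Int.negSucc (nat_lit 726473725348489683731)]]]]]]]],[[[[[[[[Int.negSucc (nat_lit 658552140050763193019)]]]]],[[[[[Int.negSucc (nat_lit 741428858061746547335)]]]]]]]],[],[[[[[[[[Int.ofNat (nat_lit 370714429030873273668)]]]]]]]]],[[[[[[],[[[[Int.negSucc (nat_lit 206626855197486697175)]]]]]]]],[[[[[[[[Int.negSucc (nat_lit 726473725348489683731)]]]]]]]]],[[],[[[[[[[[Int.negSucc (nat_lit 577341284228359970843)]]]]]]]]]]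

/-- A coefficient. -/
noncomputable def sr7_m1_5_4 : MP 10 :=
  [[[[[[[[[[Int.negSucc (nat_lit 446939301427862100419)]]]]],[[[[[Int.negSucc (nat_lit 1363222174149751764551)]]]]]]]],[],[[[[[[[[Int.ofNat (nat_lit 681611087074875882276)]]]]]]]]],[],[[[[[[[[[Int.negSucc (nat_lit 681611087074875882275)]]]]]]]]]]

/-- A coefficient. -/
noncomputable def sr7_m1_5_5 : MP 10 :=
  [[[[[[[],[[[[Int.ofNat (nat_lit 350746315211774939436)]]]]]]]]],[[],[[[[[[[[Int.ofNat (nat_lit 350746315211774939436)]]]]]]]]]]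

/-- A coefficient. -/
noncomputable def sr7_m1_6_0 : MP 10 :=
  [[[[[[[[[[Int.ofNat (nat_lit 73878644648795287656)]]]],[],[[[[Int.negSucc (nat_lit 13092189422192650703)]]]]],[[[[[Int.ofNat (nat_lit 142553877109161665376)]]]]],[[[[[Int.negSucc (nat_lit 10406824376857819871)]]]]]],[[[],[[[[Int.ofNat (nat_lit 36730621245763194816)]]]]]]],[[[[[[[Int.ofNat (nat_lit 39121522475790553968)]]]]],[[[[[Int.ofNat (nat_lit 78243044951581107936)]]]]]]]],[[[[[],[[[[Int.ofNat (nat_lit 186731947085541215880)]]]]]]]],[[[[[[[[Int.negSucc (nat_lit 30297328233226892894)]]]]],[[[[[Int.negSucc (nat_lit 65392434538493163185)]]]]]]],[[[[[[[Int.negSucc (nat_lit 39121522475790553967)]]]]]]]],[],[[[[[[[[Int.ofNat (nat_lit 35297923363461036561)]]]]]]]]],[[[[[[[[[Int.ofNat (nat_lit 145860569259418892172)]]]]],[[[[[Int.ofNat (nat_lit 291721138518837784344)]]]]]]]],[[[[[],[[[[Int.ofNat (nat_lit 78654173204538907932)]]]]]],[[[[[[Int.ofNat (nat_lit 36730621245763194816)]]]]]]]],[[[[[[[[Int.ofNat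 (nat_lit 40871377826122323708)]]]]]]]]],[[[[[[[[[Int.ofNat (nat_lit 175573633013621231163)]]]]],[[[[[Int.ofNat (nat_lit 198186564541222977078)]]]]]]],[[[[[[[Int.ofNat (nat_lit 39121522475790553968)]]]]]]]],[],[[[[[[[[Int.negSucc (nat_lit 45246549101555421431)]]]]]]]]],[[[[[[[[[Int.ofNat (nat_lit 145860569259418892172)]]]]]]]]],[[[[[[[[[Int.ofNat (nat_lit 101694988364825943507)]]]]]]]]]]

/-- A coefficient. -/
noncomputable def sr7_m1_6_1 : MP 10 :=
  [[[[[[[],[[[[Int.ofNat (nat_lit 237702179733751116756)]]]]]],[[[[[[Int.negSucc (nat_lit 31421113115707608521)]]]]],[[[[[Int.ofNat (nat_lit 46500630320333133372)]]]]]]],[[[[],[[[[Int.negSucc (nat_lit 29477138534295165767)]]]]]]]],[[[[[[[[Int.ofNat (nat_lit 237255225058133395686)]]]]],[[[[[Int.ofNat (nat_lit 59843008113729149292)]]]]]]]],[[[],[[[[[[Int.negSucc (nat_lit 23250315160166566685)]]]]]]]],[[[[[[[[Int.negSucc (nat_lit 29921504056864574645)]]]]]]]]],[[[[[[],[[[[Int.ofNat (nat_lit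 72784911213131512308)]]]]]]]],[[[[[[[[Int.ofNat (nat_lit 237702179733751116756)]]]]]]],[[[[[[[Int.negSucc (nat_lit 29477138534295165767)]]]]]]]]],[[[[],[[[[[[Int.ofNat (nat_lit 23250315160166566686)]]]]]]]],[[[[[[[[Int.ofNat (nat_lit 102706415269996086954)]]]]]]]]]]

/-- A coefficient. -/
noncomputable def sr7_m1_6_2 : MP 10 :=
  [[[[[[[[[[Int.negSucc (nat_lit 388167478083297560915)]]]]],[[[[[Int.negSucc (nat_lit 368442433540250092079)]]]]]]]],[[[[[],[[[[Int.ofNat (nat_lit 96640775969487765156)]]]]]]]],[[[[[[[[Int.ofNat (nat_lit 184221216770125046040)]]]]]]]]],[[[[[[[[[Int.negSucc (nat_lit 443402899004562441341)]]]]],[[[[[Int.ofNat (nat_lit 106185351997698598908)]]]]]]]],[],[[[[[[[[Int.ofNat (nat_lit 43548099970638465702)]]]]]]]]],[[[[[[[[[Int.negSucc (nat_lit 184221216770125046039)]]]]]]]]],[[[[[[[[[Int.ofNat (nat_lit 53092675998849299454)]]]]]]]]]]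

/-- A coefficient. -/
noncomputable def sr7_m1_6_3 : MP 10 :=
  [[[[[[[],[[[[Int.ofNat (nat_lit 418418865526225597500)]]]]]]]]],[[],[[[[[[[[Int.ofNat (nat_lit 418418865526225597500)]]]]]]]]]]

/-- A coefficient. -/
noncomputable def sr7_m1_6_4 : MP 10 :=
  [[[[[[[[[[Int.ofNat (nat_lit 809477189140352016129)]]]]],[[[[[Int.ofNat (nat_lit 923551537842527328810)]]]]]]]],[],[[[[[[[[Int.negSucc (nat_lit 461775768921263664404)]]]]]]]]],[],[[[[[[[[[Int.ofNat (nat_lit 461775768921263664405)]]]]]]]]]]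

/-- A coefficient. -/
noncomputable def sr7_m1_7_0 : MP 10 :=
  [[[[[[[[[[Int.ofNat (nat_lit 191503969135683754254)]]]]],[[[[[Int.ofNat (nat_lit 383007938271367508508)]]]]]],[[[],[[[[Int.negSucc (nat_lit 38395379671052476103)]]]]]]],[[[[[[[Int.negSucc (nat_lit 20990080372363715573)]]]]],[[[[[Int.negSucc (nat_lit 41980160744727431147)]]]]]]]],[[[[[],[[[[Int.ofNat (nat_lit 315211433622622020)]]]]]]]],[[[[[[[[Int.negSucc (nat_lit 191503969135683754253)]]]]]]],[[[[[[[Int.ofNat (nat_lit 20990080372363715574)]]]]]]]]],[[[[[[[[[Int.ofNat (nat_lit 145656130730181599340)]]]]],[[[[[Int.ofNat (nat_lit 291312261460363198680)]]]]]]]],[[[],[[[[[[Int.negSucc (nat_lit 38395379671052476103)]]]]]]]],[[[[[[[[Int.negSucc (nat_lit 145340919296558977319)]]]]]]]]],[[[[[[[[[Int.ofNat (nat_lit 191503969135683754254)]]]]]]],[[[[[[[Int.negSucc (nat_lit 20990080372363715573)]]]]]]]]],[[[[[[[[[Int.ofNat (nat_lit 145656130730181599340)]]]]]]]]]]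

/-- A coefficient. -/
noncomputable def sr7_m1_7_1 : MP 10 :=
  [[[[[[[],[[[[Int.negSucc (nat_lit 224000048842345685087)]]]]]]]],[[[[[[[[Int.negSucc (nat_lit 156441853235791525463)]]]]],[[[[[Int.ofNat (nat_lit 12466711723389947040)]]]]]]]],[],[[[[[[[[Int.negSucc (nat_lit 6233355861694973519)]]]]]]]]],[[[[[[],[[[[Int.negSucc (nat_lit 70314921255996138023)]]]]]]]],[[[[[[[[Int.negSucc (nat_lit 224000048842345685087)]]]]]]]]],[[],[[[[[[[[Int.negSucc (nat_lit 64081565394301164503)]]]]]]]]]]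

/-- A coefficient. -/
noncomputable def sr7_m1_7_2 : MP 10 :=
  [[[[[[[[[[Int.negSucc (nat_lit 390868524816501396071)]]]]],[[[[[Int.ofNat (nat_lit 148528938600721532328)]]]]]]]],[],[[[[[[[[Int.negSucc (nat_lit 74264469300360766163)]]]]]]]]],[],[[[[[[[[[Int.ofNat (nat_lit 74264469300360766164)]]]]]]]]]]

/-- A coefficient. -/
noncomputable def sr7_m1_7_3 : MP 10 :=
  [[[[[[[],[[[[Int.negSucc (nat_lit 26114147673102338099)]]]]]]]]],[[],[[[[[[[[Int.negSucc (nat_lit 26114147673102338099)]]]]]]]]]]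

/-- A coefficient. -/
noncomputable def sr7_m1_8_0 : MP 10 :=
  [[[[[[[[[[Int.negSucc (nat_lit 84749741692337873348)]]]]],[[[[[Int.negSucc (nat_lit 169499483384675746697)]]]]]]]],[[[[[],[[[[Int.negSucc (nat_lit 39046583702667231287)]]]]]]]],[[[[[[[[Int.ofNat (nat_lit 84749741692337873349)]]]]]]]]],[[[[[[[[[Int.negSucc (nat_lit 99842315753966469857)]]]]],[[[[[Int.negSucc (nat_lit 199684631507932939715)]]]]]]]],[],[[[[[[[[Int.ofNat (nat_lit 60795732051299238570)]]]]]]]]],[[[[[[[[[Int.negSucc (nat_lit 84749741692337873348)]]]]]]]]],[[[[[[[[[Int.negSucc (nat_lit 99842315753966469857)]]]]]]]]]]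

/-- A coefficient. -/
noncomputable def sr7_m1_8_1 : MP 10 :=
  [[[[[[[],[[[[Int.ofNat (nat_lit 8126978910150084348)]]]]]]]]],[[],[[[[[[[[Int.ofNat (nat_lit 8126978910150084348)]]]]]]]]]]

/-- A coefficient. -/
noncomputable def sr7_m1_8_2 : MP 10 :=
  [[[[[[[[[[Int.ofNat (nat_lit 349538924340962432007)]]]]],[[[[[Int.negSucc (nat_lit 103009794390946470365)]]]]]]]],[],[[[[[[[[Int.ofNat (nat_lit 51504897195473235183)]]]]]]]]],[],[[[[[[[[[Int.negSucc (nat_lit 51504897195473235182)]]]]]]]]]]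

/-- A coefficient. -/
noncomputable def sr7_m1_9_0 : MP 10 :=
  [[[[[[[[[[Int.negSucc (nat_lit 69902786193919978475)]]]]],[[[[[Int.negSucc (nat_lit 139805572387839956951)]]]]]]]],[],[[[[[[[[Int.ofNat (nat_lit 69902786193919978476)]]]]]]]]],[],[[[[[[[[[Int.negSucc (nat_lit 69902786193919978475)]]]]]]]]]]

/-- A coefficient. -/
noncomputable def sr7_m1_9_1 : MP 10 :=
  [[[[[[[],[[[[Int.ofNat (nat_lit 44384065342449778368)]]]]]]]]],[[],[[[[[[[[Int.ofNat (nat_lit 44384065342449778368)]]]]]]]]]]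

/-- A coefficient. -/
noncomputable def sr7_m1_10_0 : MP 10 :=
  [[[[[[[[[[Int.ofNat (nat_lit 47706563235444514437)]]]]],[[[[[Int.ofNat (nat_lit 95413126470889028874)]]]]]]]],[],[[[[[[[[Int.negSucc (nat_lit 47706563235444514436)]]]]]]]]],[],[[[[[[[[[Int.ofNat (nat_lit 47706563235444514437)]]]]]]]]]]

/-- An expanded part. -/
noncomputable def sr7_m1 : R12 :=
  [[sr7_m1_0_0, sr7_m1_0_1, sr7_m1_0_2, sr7_m1_0_3, sr7_m1_0_4, sr7_m1_0_5, sr7_m1_0_6, sr7_m1_0_7, sr7_m1_0_8, sr7_m1_0_9, sr7_m1_0_10],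
   [sr7_m1_1_0, sr7_m1_1_1, sr7_m1_1_2, sr7_m1_1_3, sr7_m1_1_4, sr7_m1_1_5, sr7_m1_1_6, sr7_m1_1_7, sr7_m1_1_8, sr7_m1_1_9],
   [sr7_m1_2_0, sr7_m1_2_1, sr7_m1_2_2, sr7_m1_2_3, sr7_m1_2_4, sr7_m1_2_5, sr7_m1_2_6, sr7_m1_2_7, sr7_m1_2_8],
   [sr7_m1_3_0, sr7_m1_3_1, sr7_m1_3_2, sr7_m1_3_3, sr7_m1_3_4, sr7_m1_3_5, sr7_m1_3_6, sr7_m1_3_7],
   [sr7_m1_4_0, sr7_m1_4_1, sr7_m1_4_2, sr7_m1_4_3, sr7_m1_4_4, sr7_m1_4_5, sr7_m1_4_6],
   [sr7_m1_5_0, sr7_m1_5_1, sr7_m1_5_2, sr7_m1_5_3, sr7_m1_5_4, sr7_m1_5_5],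
   [sr7_m1_6_0, sr7_m1_6_1, sr7_m1_6_2, sr7_m1_6_3, sr7_m1_6_4],
   [sr7_m1_7_0, sr7_m1_7_1, sr7_m1_7_2, sr7_m1_7_3],
   [sr7_m1_8_0, sr7_m1_8_1, sr7_m1_8_2],
   [sr7_m1_9_0, sr7_m1_9_1],
   [sr7_m1_10_0]]

set_option maxRecDepth 100000 in
theorem sr7_check1 : partOk 4 sr7_rows 1 sr7_m1 = true :=
  Fast.partOk_of_fast (by decide +kernel)

end Vale.Agent.P142K.CertB
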