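import Vale.Agent.P142K.CertB.Sr7Rows
import Vale.Agent.P142K.Fast
import Vale.Agent.P142K.CertB.Sr6Part2

/-!
# An expanded part of the certificate

Generated from a semidefinite program; only the checker is trusted.
-/

namespace Vale.Agent.P142K.CertB

open Vale.Agent.P142J (MP)

/-- A coefficient. -/
noncomputable def sr7_m2_0_0 : MP 10 :=
  [[[[[[[[[[Int.ofNat (nat_lit 866256933188536564)],[Int.ofNat (nat_lit 2598770799565609692)]]]],[[[[Int.ofNat (nat_lit 0),Int.ofNat (nat_lit 1609411618283965320)]]]],[[[[Int.ofNat (nat_lit 825742191606657332)],[Int.negSucc (nat_lit 2477226574819971995)]]]]],[[[[[Int.ofNat (nat_lit 213694585142528788)],[Int.ofNat (nat_lit 641083755427586364)]]]],[[[[Int.ofNat (nat_lit 0),Int.ofNat (nat_lit 3154208680309560816)]]]]],[[[[[Int.ofNat (nat_lit 440021941472281380)],[Int.ofNat (nat_lit 1320065824416844140)]]]]]],[[[[[[Int.ofNat (nat_lit 0),Int.negSucc (nat_lit 3182633168731152167)]]]],[[[[Int.negSucc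 (nat_lit 1788105195810129827)],[Int.ofNat (nat_lit 5364315587430389484)]]]]],[[[[[Int.ofNat (nat_lit 0),Int.negSucc (nat_lit 2929398494435792699)]]]]]],[[[[[[Int.negSucc (nat_lit 1217107385256891005)],[Int.negSucc (nat_lit 4144990242926156057)]]]],[],[[[[Int.ofNat (nat_lit 2477226574819971996)]]]]],[[[[[Int.negSucc (nat_lit 641083755427586363)]]]]],[[[[[Int.negSucc (nat_lit 1320065824416844139)]]]]]],[[[],[[[[Int.negSucc (nat_lit 5364315587430389483)]]]]]],[[[[[[Int.ofNat (nat_lit 4144990242926156058)]]]]]]],[[[[[[[Int.negSucc (nat_lit 1769146329400609979)],[Int.negSucc (nat_lit 5307438988201829939)]]]],[[[[Int.ofNat (nat_lit 0),Int.negSucc (nat_lit 4091479435466367911)]]]]],[[[[[Int.negSucc (nat_lit 1006424059915561651)],[Int.negSucc (nat_lit 3019272179746684955)]]]]]],[[[[[[Int.ofNat (nat_lit 0),Int.ofNat (nat_lit 5702827389514405512)]]]],[[[[Int.ofNat (nat_lit 3218823236567930640)]]]]],[[],[[[[Int.ofNat (nat_lit 6308417360619121632)]]]]]],[[[[[[Int.negSucc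 (nat_lit 1057827349260474395)]]]]],[[[[[Int.negSucc (nat_lit 2839524809124900443)]]]]]]],[[[[[[[Int.ofNat (nat_lit 4169052443742730036)],[Int.ofNat (nat_lit 4710844932531361032)]]]],[],[[[[Int.negSucc (nat_lit 2477226574819971995)]]]]],[[[[[Int.ofNat (nat_lit 641083755427586364)]]]]],[[[[[Int.ofNat (nat_lit 1320065824416844140)]]]]]],[[[],[[[[Int.negSucc (nat_lit 2818643283502346339)]]]]]],[[[[[[Int.ofNat (nat_lit 2549819603571293934)]]]]]]],[[[[[[[Int.negSucc (nat_lit 5307438988201829939)]]]]],[[[[[Int.negSucc (nat_lit 3019272179746684955)]]]]]]],[[[[[[[Int.ofNat (nat_lit 4710844932531361032)]]]]]]]],[[[[[[[[Int.ofNat (nat_lit 0),Int.negSucc (nat_lit 2346637545296425415)]]]],[[[[Int.negSucc (nat_lit 3725517233464117899)],[Int.ofNat (nat_lit 3380239301695524624)]]]],[],[[[[Int.ofNat (nat_lit 2477226574819971996)]]]]],[[[[[Int.ofNat (nat_lit 0),Int.negSucc (nat_lit 1081982637169267811)]]]],[[[[Int.ofNat (nat_lit 968327862856378956)]]]]],[[],[[[[Int.ofNat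 (nat_lit 1834142855892716676)]]]]]],[[[[[[Int.ofNat (nat_lit 1258372062516546832)],[Int.negSucc (nat_lit 3775116187549640495)]]]],[],[[[[Int.negSucc (nat_lit 5364315587430389483)]]]]],[[[[[Int.negSucc (nat_lit 3182633168731152167)]]]]],[[[[[Int.negSucc (nat_lit 2929398494435792699)]]]]]],[[[],[[[[Int.ofNat (nat_lit 764750941230631434)]]]]]],[[[[[[Int.ofNat (nat_lit 3775116187549640496)]]]]]]],[[[[[[[Int.ofNat (nat_lit 0),Int.ofNat (nat_lit 2262123721385037972)]]]],[[[[Int.ofNat (nat_lit 5307438988201829940)]]]]],[[],[[[[Int.negSucc (nat_lit 1072207255719682955)]]]]]],[[[[[[Int.negSucc (nat_lit 4693275090592850831)]]]]],[[[[[Int.ofNat (nat_lit 3538862115175869888)]]]]]]],[[[[],[[[[Int.negSucc (nat_lit 1330605630835836407)]]]]]],[[[[[[Int.ofNat (nat_lit 749131255220435448)]]]]]]]],[[[[[[[[Int.ofNat (nat_lit 1332592812368918300)],[Int.negSucc (nat_lit 5166376594050825491)]]]],[[[[Int.ofNat (nat_lit 0),Int.ofNat (nat_lit 143742493661821920)]]]],[[[[Int.negSucc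 (nat_lit 3380239301695524623)]]]]],[[[[[Int.negSucc (nat_lit 2674774624261328727)],[Int.negSucc (nat_lit 984411236894709935)]]]]],[[[[[Int.negSucc (nat_lit 1081982637169267811)]]]]]],[[[[[[Int.ofNat (nat_lit 0),Int.negSucc (nat_lit 854034280414823303)]]]],[[[[Int.ofNat (nat_lit 3775116187549640496)]]]]]],[[[[[[Int.ofNat (nat_lit 5166376594050825492)]]]]],[[[[[Int.ofNat (nat_lit 984411236894709936)]]]]]]],[[[[[[[Int.ofNat (nat_lit 761572966104068088)],[Int.ofNat (nat_lit 2284718898312204264)]]]]],[[[[[Int.ofNat (nat_lit 2262123721385037972)]]]]]],[[[],[[[[Int.ofNat (nat_lit 287484987323643840)]]]]]],[[[[[[Int.negSucc (nat_lit 3992787459141850871)]]]]]]],[[[[[[[Int.negSucc (nat_lit 5166376594050825491)]]]]],[[[[[Int.negSucc (nat_lit 984411236894709935)]]]]]]],[[[[[[[Int.ofNat (nat_lit 2284718898312204264)]]]]]]]],[[[[[[[[Int.ofNat (nat_lit 0),Int.negSucc (nat_lit 2236848725220710411)]]]],[[[[Int.ofNat (nat_lit 4629906054622837052)]]]]],[[],[[[[Int.ofNat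 (nat_lit 76750837120011584)]]]]]],[[[[[[Int.ofNat (nat_lit 1060877722910384056)]]]]],[[[[[Int.ofNat (nat_lit 122431884397107596)]]]]]]],[[[[],[[[[Int.negSucc (nat_lit 920892419823414959)]]]]]],[[[[[[Int.negSucc (nat_lit 6374639913612889327)]]]]]]]],[[[[[[[[Int.ofNat (nat_lit 1290188843602401002)],[Int.ofNat (nat_lit 1523928985510777590)]]]]],[[[[[Int.negSucc (nat_lit 1876187846164287807)]]]]]],[],[[[[[[Int.negSucc (nat_lit 1523928985510777589)]]]]]]],[[[[[[[Int.negSucc (nat_lit 754041240461679323)]]]]]]],[[[[[[[Int.ofNat (nat_lit 1523928985510777590)]]]]]]]],[[[[[],[[[[Int.negSucc (nat_lit 1571843150064718229)]]]]]],[[[[[[Int.ofNat (nat_lit 284678093471607768)]]]]]]]],[[[[[[[[Int.ofNat (nat_lit 745616241740236804)]]]]]]]]],[[[[[[[[[Int.ofNat (nat_lit 1615669677695886240)],[Int.ofNat (nat_lit 4847009033087658720)]]]],[[[[Int.ofNat (nat_lit 0),Int.ofNat (nat_lit 46957088505762012)]]]],[[[[Int.ofNat (nat_lit 1609411618283965320)]]]]],[[[[[Int.ofNat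 (nat_lit 2176255554528893000)],[Int.negSucc (nat_lit 1267545735110150075)]]]],[],[[[[Int.ofNat (nat_lit 676982105489588820)]]]]],[[[[[Int.ofNat (nat_lit 641083755427586364)]]]]],[[[[[Int.ofNat (nat_lit 1320065824416844140)]]]]]],[[[[[[Int.ofNat (nat_lit 0),Int.negSucc (nat_lit 1751093841139442267)]]]],[[[[Int.negSucc (nat_lit 3182633168731152167)]]]]],[[],[[[[Int.ofNat (nat_lit 2434917092994596784)]]]]]],[[[[[[Int.negSucc (nat_lit 4847009033087658719)]]]]],[[[[[Int.negSucc (nat_lit 2877444507816005981)]]]]]]],[[[[[[[Int.negSucc (nat_lit 636537411739073103)],[Int.negSucc (nat_lit 1909612235217219311)]]]],[],[[[[Int.negSucc (nat_lit 4091479435466367911)]]]]],[[[[[Int.negSucc (nat_lit 5307438988201829939)]]]]],[[[[[Int.negSucc (nat_lit 3019272179746684955)]]]]]],[[[],[[[[Int.ofNat (nat_lit 5796741566525929536)]]]]]],[[[[[[Int.negSucc (nat_lit 1592575447061665223)]]]]]]],[[[[[[[Int.ofNat (nat_lit 4847009033087658720)]]]]],[[[[[Int.ofNat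 (nat_lit 3443299197421210956)]]]]]]],[[[[[[[Int.negSucc (nat_lit 1909612235217219311)]]]]]]]],[[[[[[[[Int.ofNat (nat_lit 0),Int.negSucc (nat_lit 2342119429857722375)]]]],[[[[Int.negSucc (nat_lit 7046901427851712327)],[Int.negSucc (nat_lit 440235451597115423)]]]]],[[[[[Int.ofNat (nat_lit 0),Int.ofNat (nat_lit 770867059708581840)]]]],[[[[Int.ofNat (nat_lit 3612759488142168900)]]]]]],[[[[[[Int.negSucc (nat_lit 69576673071121839)],[Int.ofNat (nat_lit 208730019213365520)]]]]],[[[[[Int.negSucc (nat_lit 5526210028689082763)]]]]]],[[[],[[[[Int.ofNat (nat_lit 440235451597115424)]]]]]],[[[[[[Int.negSucc (nat_lit 208730019213365519)]]]]]]],[[[[[[[Int.ofNat (nat_lit 0),Int.negSucc (nat_lit 512743401668762543)]]]],[[[[Int.ofNat (nat_lit 4171735956602257284)]]]]]],[[[[[[Int.negSucc (nat_lit 4684238859715444751)]]]]],[[[[[Int.ofNat (nat_lit 1541734119417163680)]]]]]]],[[[[],[[[[Int.negSucc (nat_lit 440235451597115423)]]]]]],[[[[[[Int.negSucc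 (nat_lit 816756784124159567)]]]]]]]],[[[[[[[[Int.negSucc (nat_lit 1644487544695542187)],[Int.negSucc (nat_lit 193707332149787351)]]]],[],[[[[Int.ofNat (nat_lit 3061204520078909340)]]]]],[[[[[Int.negSucc (nat_lit 8149579779336134231)]]]]],[[[[[Int.negSucc (nat_lit 1533610001602972235)]]]]]],[[[],[[[[Int.negSucc (nat_lit 6427079887058578307)]]]]]],[[[[[[Int.ofNat (nat_lit 4338697575075943410)]]]]]]],[[[[[[[Int.ofNat (nat_lit 5307438988201829940)]]]]],[[[[[Int.ofNat (nat_lit 4791247676390126676)]]]]]]],[[[[[[[Int.negSucc (nat_lit 4904552264681148383)]]]]]]]],[[[[[[[[Int.ofNat (nat_lit 0),Int.negSucc (nat_lit 940738277429376191)]]]],[[[[Int.negSucc (nat_lit 5439033057601701687)]]]]]],[[[[[[Int.ofNat (nat_lit 4358814134596121252)]]]]]]],[[],[[[[[[Int.negSucc (nat_lit 1881476554858752383)]]]]]]]],[[[[[[[[Int.ofNat (nat_lit 5947083070670066284)]]]]],[[[[[Int.ofNat (nat_lit 1310646258406584054)]]]]]]],[[[[[[[Int.negSucc (nat_lit 2113804431089283415)]]]]]]]],[],[[[[[[[[Int.negSucc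 (nat_lit 1210349559700985525)]]]]]]]]],[[[[[[[[[Int.ofNat (nat_lit 1199564815470387682)],[Int.ofNat (nat_lit 3598694446411163046)]]]],[[[[Int.ofNat (nat_lit 0),Int.ofNat (nat_lit 603457518218705952)]]]],[[[[Int.ofNat (nat_lit 46957088505762012)]]]]],[[[[[Int.ofNat (nat_lit 4629082527814021628)],[Int.negSucc (nat_lit 653779515820911275)]]]]],[[[[[Int.negSucc (nat_lit 1267545735110150075)]]]]]],[[[[[[Int.ofNat (nat_lit 0),Int.negSucc (nat_lit 1410113550595496603)]]]],[[[[Int.negSucc (nat_lit 1751093841139442267)]]]]]],[[[[[[Int.negSucc (nat_lit 3598694446411163045)]]]]],[[[[[Int.ofNat (nat_lit 653779515820911276)]]]]]]],[[[[[[[Int.ofNat (nat_lit 819211662333435424)],[Int.ofNat (nat_lit 2457634987000306272)]]]]],[[[[[Int.negSucc (nat_lit 1909612235217219311)]]]]]],[[[],[[[[Int.ofNat (nat_lit 1206915036437411904)]]]]]],[[[[[[Int.negSucc (nat_lit 5277862088191299479)]]]]]]],[[[[[[[Int.ofNat (nat_lit 3598694446411163046)]]]]],[[[[[Int.negSucc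 (nat_lit 653779515820911275)]]]]]]],[[[[[[[Int.ofNat (nat_lit 2457634987000306272)]]]]]]]],[[[[[[[[Int.ofNat (nat_lit 0),Int.negSucc (nat_lit 2725710249948001463)]]]],[[[[Int.negSucc (nat_lit 4331402257984920101)]]]]],[[],[[[[Int.ofNat (nat_lit 4742077322460644460)]]]]]],[[[[[[Int.negSucc (nat_lit 3182633168731152167)]]]]],[[[[[Int.negSucc (nat_lit 4130782025817923783)]]]]]]],[[[[],[[[[Int.negSucc (nat_lit 7061857824135436727)]]]]]],[[[[[[Int.ofNat (nat_lit 251406889618402584)]]]]]]]],[[[[[[[[Int.negSucc (nat_lit 6059271109018979991)],[Int.ofNat (nat_lit 2316894140230973208)]]]]],[[[[[Int.negSucc (nat_lit 2733854484156906551)]]]]]],[],[[[[[[Int.negSucc (nat_lit 2316894140230973207)]]]]]]],[[[[[[[Int.ofNat (nat_lit 4171735956602257284)]]]]]]],[[[[[[[Int.ofNat (nat_lit 2316894140230973208)]]]]]]]],[[[[[],[[[[Int.negSucc (nat_lit 2874806978474314039)]]]]]],[[[[[[Int.negSucc (nat_lit 592726449429689955)]]]]]]]],[[[[[[[[Int.negSucc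 (nat_lit 1134571309754922571)]]]]]]]]],[[[[[[[[[Int.ofNat (nat_lit 1503751998820385600)],[Int.ofNat (nat_lit 1912485196895547108)]]]],[],[[[[Int.negSucc (nat_lit 222284673387951379)]]]]],[[[[[Int.ofNat (nat_lit 3812389031553691834)]]]]],[[[[[Int.negSucc (nat_lit 213757574348629895)]]]]]],[[[],[[[[Int.ofNat (nat_lit 377991645214633224)]]]]]],[[[[[[Int.negSucc (nat_lit 3294148611204265793)]]]]]]],[[[[[[[Int.negSucc (nat_lit 1769146329400609979)]]]]],[[[[[Int.ofNat (nat_lit 1451210927084744620)]]]]]]],[[[[[[[Int.ofNat (nat_lit 3482766841072667452)]]]]]]]],[[[[[[[[Int.ofNat (nat_lit 0),Int.negSucc (nat_lit 604145793029235215)]]]],[[[[Int.negSucc (nat_lit 3464491924439278351)]]]]]],[[[[[[Int.negSucc (nat_lit 3009465903655989099)]]]]]]],[[],[[[[[[Int.negSucc (nat_lit 1208291586058470431)]]]]]]]],[[[[[[[[Int.negSucc (nat_lit 7662939407619160585)]]]]],[[[[[Int.ofNat (nat_lit 2809257843766327796)]]]]]]],[[[[[[[Int.negSucc (nat_lit 2208805422565000727)]]]]]]]],[],[[[[[[[[Int.negSucc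 (nat_lit 2548274158147011797)]]]]]]]]],[[[[[[[[[Int.ofNat (nat_lit 2192995235879456700)],[Int.ofNat (nat_lit 1731976674550711380)]]]]],[[[[[Int.ofNat (nat_lit 1489969951858830416)]]]]]],[],[[[[[[Int.negSucc (nat_lit 1731976674550711379)]]]]]]],[[[[[[[Int.negSucc (nat_lit 636537411739073103)]]]]]]],[[[[[[[Int.ofNat (nat_lit 1731976674550711380)]]]]]]]],[[[[[],[[[[Int.negSucc (nat_lit 1879410099893612451)]]]]]],[[[[[[Int.negSucc (nat_lit 1340536877524374763)]]]]]]]],[[[[[[[[Int.negSucc (nat_lit 4702764557560144355)]]]]]]]]],[[[[[[[[[Int.ofNat (nat_lit 1199564815470387682)]]]]],[[[[[Int.ofNat (nat_lit 1514050169277074288)]]]]]]],[[[[[[[Int.ofNat (nat_lit 819211662333435424)]]]]]]]],[],[[[[[[[[Int.negSucc (nat_lit 1563824420836288859)]]]]]]]]],[[[[[[[[[Int.ofNat (nat_lit 637495065631849036)]]]]]]]]],[[[[[[[[[Int.ofNat (nat_lit 577325558183570460)]]]]]]]]]]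

/-- A coefficient. -/
noncomputable def sr7_m2_0_1 : MP 10 :=
  [[[[[[[[[[Int.ofNat (nat_lit 0),Int.ofNat (nat_lit 3441133155693069000)]]]],[[[[Int.ofNat (nat_lit 335250651912135068)],[Int.negSucc (nat_lit 1005751955736405203)]]]]],[[[[[Int.ofNat (nat_lit 0),Int.ofNat (nat_lit 458674269733721064)]]]]]],[[[[[[Int.negSucc (nat_lit 1565407928320267223)],[Int.ofNat (nat_lit 1757348502517168248)]]]],[[[[Int.ofNat (nat_lit 0),Int.negSucc (nat_lit 3392172566677227335)]]]]],[[[[[Int.negSucc (nat_lit 583697412859196351)],[Int.negSucc (nat_lit 1751092238577589055)]]]]]],[[[[[[Int.ofNat (nat_lit 0),Int.ofNat (nat_lit 5005830185416997748)]]]],[[[[Int.ofNat (nat_lit 1005751955736405204)]]]]]],[[[[[[Int.negSucc (nat_lit 1757348502517168247)]]]]],[[[[[Int.ofNat (nat_lit 1751092238577589056)]]]]]]],[[[[[[[Int.ofNat (nat_lit 0),Int.negSucc (nat_lit 2939166053283283775)]]]],[[[[Int.ofNat (nat_lit 958586923272614524)],[Int.negSucc (nat_lit 2875760769817843571)]]]]],[[[[[Int.ofNat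 (nat_lit 0),Int.ofNat (nat_lit 2242153521138351744)]]]]]],[[[[[[Int.ofNat (nat_lit 7111560812257087016)],[Int.ofNat (nat_lit 8305904868555311304)]]]]],[[[[[Int.ofNat (nat_lit 917348539467442128)]]]]]],[[[],[[[[Int.negSucc (nat_lit 3908584363536611099)]]]]]],[[[[[[Int.ofNat (nat_lit 1705755502278684192)]]]]]]],[[[[[[[Int.ofNat (nat_lit 0),Int.negSucc (nat_lit 6839468178855802031)]]]],[[[[Int.negSucc (nat_lit 1005751955736405203)]]]]]],[[[[[[Int.negSucc (nat_lit 4120983604049399303)]]]]],[[[[[Int.ofNat (nat_lit 2733214803699114432)]]]]]]],[[[[],[[[[Int.negSucc (nat_lit 2875760769817843571)]]]]]],[[[[[[Int.negSucc (nat_lit 5373031489156292759)]]]]]]]],[[[[[[[[Int.negSucc (nat_lit 1919908637757550843)],[Int.negSucc (nat_lit 12198304934564406347)]]]],[[[[Int.ofNat (nat_lit 0),Int.negSucc (nat_lit 2942455032290105747)]]]],[[[[Int.ofNat (nat_lit 1005751955736405204)]]]]],[[[[[Int.ofNat (nat_lit 3745135459264029420)],[Int.ofNat (nat_lit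 912006910712881260)]]]]],[[[[[Int.ofNat (nat_lit 458674269733721064)]]]]]],[[[[[[Int.ofNat (nat_lit 0),Int.ofNat (nat_lit 13268408974962292128)]]]],[[[[Int.negSucc (nat_lit 1757348502517168247)]]]]],[[],[[[[Int.negSucc (nat_lit 1641080328099638279)]]]]]],[[[[[[Int.ofNat (nat_lit 12198304934564406348)]]]]],[[[[[Int.ofNat (nat_lit 4093823274704116488)]]]]]]],[[[[[[[Int.ofNat (nat_lit 2189896357699583652)],[Int.ofNat (nat_lit 9503758807532513628)]]]],[],[[[[Int.ofNat (nat_lit 2875760769817843572)]]]]],[[[[[Int.negSucc (nat_lit 2939166053283283775)]]]]],[[[[[Int.ofNat (nat_lit 2242153521138351744)]]]]]],[[[],[[[[Int.negSucc (nat_lit 14190814933135522799)]]]]]],[[[[[[Int.ofNat (nat_lit 17033059142392070628)]]]]]]],[[[[[[[Int.negSucc (nat_lit 12198304934564406347)]]]]],[[[[[Int.negSucc (nat_lit 5927461268142920771)]]]]]]],[[[[[[[Int.ofNat (nat_lit 9503758807532513628)]]]]]]]],[[[[[[[[Int.ofNat (nat_lit 0),Int.ofNat (nat_lit 5420197943388975804)]]]],[[[[Int.ofNat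 (nat_lit 12198304934564406348)]]]]],[[],[[[[Int.negSucc (nat_lit 3854461943002987007)]]]]]],[[[[[[Int.negSucc (nat_lit 337965549476632123)],[Int.negSucc (nat_lit 1013896648429896371)]]]]],[[[[[Int.ofNat (nat_lit 13268408974962292128)]]]]]],[],[[[[[[Int.ofNat (nat_lit 1013896648429896372)]]]]]]],[[[[[[[Int.ofNat (nat_lit 0),Int.negSucc (nat_lit 1295899942565037419)]]]],[[[[Int.negSucc (nat_lit 9503758807532513627)]]]]]],[[[[[[Int.ofNat (nat_lit 10840395886777951608)]]]]]]],[[],[[[[[[Int.negSucc (nat_lit 3605696533559971211)]]]]]]]],[[[[[[[[Int.negSucc (nat_lit 2817248948830564395)],[Int.negSucc (nat_lit 5010613690798624187)]]]]],[[[[[Int.ofNat (nat_lit 5267306520144402116)]]]]]],[[[],[[[[Int.ofNat (nat_lit 2144620837322305484)]]]]]],[[[[[[Int.ofNat (nat_lit 3342003628992958272)]]]]]]],[[[[[[[Int.ofNat (nat_lit 979722017761094592)]]]]],[[[[[Int.negSucc (nat_lit 2043284449611154667)]]]]]]],[[[[[[[Int.negSucc (nat_lit 2730790964513356843)]]]]]]]],[[[[[],[[[[Int.ofNat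 (nat_lit 5991432034895326104)]]]]]],[[[[[[Int.negSucc (nat_lit 4422802991654097375)]]]]]]]],[[[[[[[[Int.negSucc (nat_lit 1806732647796325267)]]]]]]],[[[[[[[Int.ofNat (nat_lit 431966647521679140)]]]]]]]]],[[[[[[[[[Int.ofNat (nat_lit 0),Int.ofNat (nat_lit 3925449187215509196)]]]],[[[[Int.ofNat (nat_lit 4412707431745715072)],[Int.negSucc (nat_lit 2914722828157938215)]]]]],[[[[[Int.ofNat (nat_lit 0),Int.ofNat (nat_lit 1553454982637752416)]]]],[[[[Int.negSucc (nat_lit 547077686002684139)]]]]]],[[[[[[Int.negSucc (nat_lit 2039206011906438727)],[Int.ofNat (nat_lit 7456193935574306040)]]]],[],[[[[Int.negSucc (nat_lit 3392172566677227335)]]]]],[[[[[Int.ofNat (nat_lit 1757348502517168248)]]]]],[[[[[Int.negSucc (nat_lit 1751092238577589055)]]]]]],[[[],[[[[Int.ofNat (nat_lit 7920553013574935964)]]]]]],[[[[[[Int.negSucc (nat_lit 7456193935574306039)]]]]]]],[[[[[[[Int.ofNat (nat_lit 0),Int.negSucc (nat_lit 5627283180360233339)]]]],[[[[Int.negSucc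 (nat_lit 2939166053283283775)]]]]],[[],[[[[Int.negSucc (nat_lit 633607248679491827)]]]]]],[[[[[[Int.ofNat (nat_lit 7850898374431018392)]]]]],[[[[[Int.ofNat (nat_lit 11412814833830816136)]]]]]]],[[[[],[[[[Int.negSucc (nat_lit 9754191007013740247)]]]]]],[[[[[[Int.negSucc (nat_lit 3798372425146160639)]]]]]]]],[[[[[[[[Int.negSucc (nat_lit 1890508752285651723)],[Int.negSucc (nat_lit 17225904606435239795)]]]],[],[[[[Int.negSucc (nat_lit 27732204132167531)]]]]],[[[[[Int.negSucc (nat_lit 8272855747348897151)]]]]],[[[[[Int.ofNat (nat_lit 2465461893350633676)]]]]]],[[[[[[Int.ofNat (nat_lit 0),Int.ofNat (nat_lit 97560352809210636)]]]],[[[[Int.ofNat (nat_lit 5812215039387986088)]]]]]],[[[[[[Int.ofNat (nat_lit 17225904606435239796)]]]]]]],[[[[[[[Int.ofNat (nat_lit 196853820011789476)],[Int.negSucc (nat_lit 590561460035368427)]]]]],[[[[[Int.ofNat (nat_lit 3876475627172280288)]]]]]],[],[[[[[[Int.ofNat (nat_lit 785682165653789700)]]]]]]],[[[[[[[Int.negSucc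 (nat_lit 17225904606435239795)]]]]]]],[[[[[[[Int.negSucc (nat_lit 590561460035368427)]]]]]]]],[[[[[[[[Int.ofNat (nat_lit 0),Int.ofNat (nat_lit 3631087411039638432)]]]],[[[[Int.ofNat (nat_lit 23651854505560620804)]]]]]],[[[[[[Int.negSucc (nat_lit 1757348502517168247)]]]]],[[[[[Int.ofNat (nat_lit 834755942956903320)]]]]]]],[[[[],[[[[Int.ofNat (nat_lit 2170422287288174580)]]]]]],[[[[[[Int.negSucc (nat_lit 1043730046476034439)]]]]]]]],[[[[[[[[Int.ofNat (nat_lit 10889821872159236616)]]]]],[[[[[Int.negSucc (nat_lit 2809351518017784487)]]]]]]],[[[[[[[Int.negSucc (nat_lit 7627997747412435847)]]]]]]]],[[[],[[[[[[Int.ofNat (nat_lit 981376530826826160)]]]]]]]],[[[[[[[[Int.ofNat (nat_lit 3800251220452078044)]]]]]]]]],[[[[[[[[[Int.ofNat (nat_lit 0),Int.negSucc (nat_lit 1493586599362799015)]]]],[[[[Int.ofNat (nat_lit 3925449187215509196)]]]]],[[],[[[[Int.negSucc (nat_lit 1361267845520185799)]]]]]],[[[[[[Int.negSucc (nat_lit 51407113440668875)],[Int.negSucc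 (nat_lit 154221340322006627)]]]]],[[[[[Int.ofNat (nat_lit 7456193935574306040)]]]]]],[],[[[[[[Int.ofNat (nat_lit 154221340322006628)]]]]]]],[[[[[[[Int.ofNat (nat_lit 0),Int.negSucc (nat_lit 2690024929463136395)]]]],[[[[Int.negSucc (nat_lit 5627283180360233339)]]]]]],[[[[[[Int.negSucc (nat_lit 2987173198725598031)]]]]]]],[[],[[[[[[Int.negSucc (nat_lit 5534271199248279419)]]]]]]]],[[[[[[[[Int.ofNat (nat_lit 1933895491587176072)],[Int.negSucc (nat_lit 3522745417078528655)]]]]],[[[[[Int.negSucc (nat_lit 18260816936064317747)]]]]]],[[[],[[[[Int.negSucc (nat_lit 3140390873546010071)]]]]]],[[[[[[Int.ofNat (nat_lit 8528575602495526404)]]]]]]],[[[[[[[Int.negSucc (nat_lit 2939166053283283775)]]]]],[[[[[Int.negSucc (nat_lit 1038432868360153079)]]]]]]],[[[[[[[Int.negSucc (nat_lit 10362213595934330687)]]]]]]]],[[[[[],[[[[Int.ofNat (nat_lit 7126100623985999556)]]]]]],[[[[[[Int.ofNat (nat_lit 5812215039387986088)]]]]]]]],[[[[[[[[Int.ofNat (nat_lit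 23143964749611815272)]]]]]]],[[[[[[[Int.ofNat (nat_lit 191336493958043140)]]]]]]]]],[[[[[[[[[Int.ofNat (nat_lit 0),Int.ofNat (nat_lit 1345906524072926244)]]]],[[[[Int.negSucc (nat_lit 1828837251274934083)]]]]]],[[[[[[Int.ofNat (nat_lit 585782834172389416)]]]]],[[[[[Int.negSucc (nat_lit 737918753181202979)]]]]]]],[[[[],[[[[Int.negSucc (nat_lit 3648611852735750919)]]]]]],[[[[[[Int.ofNat (nat_lit 5460448004330956256)]]]]]]]],[[[[[[[[Int.negSucc (nat_lit 140652457639292919)]]]]],[[[[[Int.negSucc (nat_lit 319381606796889575)]]]]]]],[[[[[[[Int.negSucc (nat_lit 2459363577849395463)]]]]]]]],[[[],[[[[[[Int.negSucc (nat_lit 86183856345414859)]]]]]]]],[[[[[[[[Int.ofNat (nat_lit 5034992756494316944)]]]]]]]]],[[[[[[],[[[[Int.ofNat (nat_lit 374332248020280172)]]]]]],[[[[[[Int.ofNat (nat_lit 2485397978524768680)]]]]]]]],[[[[[[[[Int.negSucc (nat_lit 7235554801507878947)]]]]]]],[[[[[[[Int.negSucc (nat_lit 2886878749474925871)]]]]]]]]],[[[[],[[[[[[Int.negSucc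 (nat_lit 51407113440668875)]]]]]]]],[[[[[[[[Int.ofNat (nat_lit 171658051713416692)]]]]]]]]]]

/-- A coefficient. -/
noncomputable def sr7_m2_0_2 : MP 10 :=
  [[[[[[[[[[Int.ofNat (nat_lit 9057113642919078866)],[Int.negSucc (nat_lit 2744320198152510893)]]]],[[[[Int.ofNat (nat_lit 0),Int.ofNat (nat_lit 5839160965611421836)]]]]],[[[[[Int.ofNat (nat_lit 390736484460415752)],[Int.ofNat (nat_lit 1172209453381247256)]]]]]],[[[[[[Int.ofNat (nat_lit 0),Int.negSucc (nat_lit 22224160512324606239)]]]]]],[[[[[[Int.ofNat (nat_lit 4103181005747832682)],[Int.ofNat (nat_lit 4076582422785965364)]]]]],[[[[[Int.negSucc (nat_lit 1172209453381247255)]]]]]],[],[[[[[[Int.negSucc (nat_lit 4076582422785965363)]]]]]]],[[[[[[[Int.negSucc (nat_lit 4493170458178501983)],[Int.negSucc (nat_lit 20223122833625898479)]]]]]],[[[[[[Int.ofNat (nat_lit 0),Int.negSucc (nat_lit 8319143330257479503)]]]],[[[[Int.ofNat (nat_lit 11678321931222843672)]]]]]],[[[[[[Int.negSucc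 (nat_lit 24225198191023313999)]]]]]]],[[[[[[[Int.negSucc (nat_lit 537560988708292843)],[Int.negSucc (nat_lit 6620277628332654149)]]]]],[[[[[Int.ofNat (nat_lit 1172209453381247256)]]]]]],[],[[[[[[Int.negSucc (nat_lit 5941426609396339493)]]]]]]],[[[[[[[Int.negSucc (nat_lit 20223122833625898479)]]]]]]],[[[[[[[Int.negSucc (nat_lit 6620277628332654149)]]]]]]]],[[[[[[[[Int.ofNat (nat_lit 0),Int.negSucc (nat_lit 21813611254598565287)]]]],[[[[Int.ofNat (nat_lit 4527142927041860186)],[Int.negSucc (nat_lit 5348468186668047875)]]]]],[[[[[Int.ofNat (nat_lit 0),Int.ofNat (nat_lit 3033669966297339612)]]]],[[[[Int.ofNat (nat_lit 4666951512230174580)]]]]]],[[[[[[Int.negSucc (nat_lit 34027605983021167)],[Int.ofNat (nat_lit 19342806127778124552)]]]]],[[[[[Int.negSucc (nat_lit 22224160512324606239)]]]]]],[[[],[[[[Int.ofNat (nat_lit 1271885763882082512)]]]]]],[[[[[[Int.negSucc (nat_lit 19342806127778124551)]]]]]]],[[[[[[[Int.ofNat (nat_lit 0),Int.negSucc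 (nat_lit 17318136571225279007)]]]],[[[[Int.ofNat (nat_lit 20223122833625898480)]]]]]],[[[[[[Int.negSucc (nat_lit 43627222509197130575)]]]]],[[[[[Int.negSucc (nat_lit 2251803397662800279)]]]]]]],[[[[],[[[[Int.ofNat (nat_lit 1271809441664606274)]]]]]],[[[[[[Int.negSucc (nat_lit 15293467014672433463)]]]]]]]],[[[[[[[[Int.ofNat (nat_lit 8854359005821493378)],[Int.ofNat (nat_lit 29810845419281119254)]]]],[],[[[[Int.ofNat (nat_lit 5348468186668047876)]]]]],[[[[[Int.negSucc (nat_lit 21813611254598565287)]]]]],[[[[[Int.ofNat (nat_lit 3033669966297339612)]]]]]],[[[],[[[[Int.negSucc (nat_lit 19342806127778124551)]]]]]],[[[[[[Int.negSucc (nat_lit 29810845419281119253)]]]]]]],[[[],[[[[[Int.negSucc (nat_lit 17318136571225279007)]]]]]]],[[[[[[[Int.ofNat (nat_lit 29810845419281119254)]]]]]]]],[[[[[[[[Int.ofNat (nat_lit 0),Int.negSucc (nat_lit 66767173238795339)]]]],[[[[Int.negSucc (nat_lit 31757232407818259865)]]]]]],[[[[[[Int.ofNat (nat_lit 7408053504108202080)]]]]]]],[[],[[[[[[Int.ofNat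 (nat_lit 2639513430274902488)]]]]]]]],[[[[[[[[Int.ofNat (nat_lit 7271203751532855096)]]]]],[[[[[Int.negSucc (nat_lit 1077990495337908543)]]]]]]],[[[[[[[Int.ofNat (nat_lit 5772712190408426336)]]]]]]]],[],[[[[[[[[Int.ofNat (nat_lit 22255724412931780)]]]]]]]]],[[[[[[[[[Int.ofNat (nat_lit 14589719746597457852)],[Int.negSucc (nat_lit 23619640997315563643)]]]],[[[[Int.ofNat (nat_lit 0),Int.ofNat (nat_lit 4041883103922629916)]]]],[[[[Int.ofNat (nat_lit 5839160965611421836)]]]]],[[[[[Int.negSucc (nat_lit 2046116010135374621)],[Int.ofNat (nat_lit 2094612564051408816)]]]]],[[[[[Int.ofNat (nat_lit 1172209453381247256)]]]]]],[[[[[[Int.ofNat (nat_lit 0),Int.negSucc (nat_lit 12154308456158366735)]]]],[[[[Int.negSucc (nat_lit 22224160512324606239)]]]]]],[[[[[[Int.ofNat (nat_lit 23619640997315563644)]]]]],[[[[[Int.ofNat (nat_lit 1981969858734556548)]]]]]]],[[[[[[[Int.ofNat (nat_lit 503523654081488544)],[Int.negSucc (nat_lit 4135942259292099095)]]]]],[[[[[Int.negSucc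 (nat_lit 20223122833625898479)]]]]]],[[[],[[[[Int.negSucc (nat_lit 235377122412219671)]]]]]],[[[[[[Int.negSucc (nat_lit 20172674653024634375)]]]]]]],[[[[[[[Int.negSucc (nat_lit 23619640997315563643)]]]]],[[[[[Int.negSucc (nat_lit 4525665064281245333)]]]]]]],[[[[[[[Int.negSucc (nat_lit 4135942259292099095)]]]]]]]],[[[[[[[[Int.ofNat (nat_lit 0),Int.negSucc (nat_lit 25408131718335869699)]]]],[[[[Int.ofNat (nat_lit 1806029742716998356)]]]]],[[],[[[[Int.negSucc (nat_lit 367527680499487163)]]]]]],[[],[[[[[Int.ofNat (nat_lit 7188497671619757816)]]]]]]],[[[[],[[[[Int.negSucc (nat_lit 13182194311933179911)]]]]]],[[[[[[Int.negSucc (nat_lit 50816263436671739399)]]]]]]]],[[[[[[[[Int.ofNat (nat_lit 4033557472053885994)],[Int.ofNat (nat_lit 2155638516031515396)]]]]],[[[[[Int.ofNat (nat_lit 3230504247564002298)]]]]]],[],[[[[[[Int.negSucc (nat_lit 6232220938817480759)]]]]]]],[[[[[[[Int.ofNat (nat_lit 20223122833625898480)]]]]]]],[[[[[[[Int.ofNat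 (nat_lit 8775916144364169546)]]]]]]]],[[[[[],[[[[Int.ofNat (nat_lit 1778768129423527168)]]]]]],[[[[[[Int.negSucc (nat_lit 15291369975725335639)]]]]]]]],[[[[[[[[Int.negSucc (nat_lit 21341468179835829353)]]]]]]]]],[[[[[[[[[Int.ofNat (nat_lit 9229435576623015780)],[Int.negSucc (nat_lit 26925063002796660443)]]]],[],[[[[Int.ofNat (nat_lit 4041883103922629916)]]]]],[[[[[Int.negSucc (nat_lit 23619640997315563643)]]]]],[[[[[Int.ofNat (nat_lit 2094612564051408816)]]]]]],[[[],[[[[Int.negSucc (nat_lit 12154308456158366735)]]]]]],[[[[[[Int.ofNat (nat_lit 26925063002796660444)]]]]]]],[[[],[[[[[Int.negSucc (nat_lit 4135942259292099095)]]]]]]],[[[[[[[Int.negSucc (nat_lit 26925063002796660443)]]]]]]]],[[[[[[[[Int.ofNat (nat_lit 0),Int.negSucc (nat_lit 2268399456114626735)]]]],[[[[Int.ofNat (nat_lit 7356092250072212580)]]]]]],[[[[[[Int.negSucc (nat_lit 22224160512324606239)]]]]]]],[[],[[[[[[Int.negSucc (nat_lit 12855942242486732975)]]]]]]]],[[[[[[[[Int.ofNat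 (nat_lit 1806029742716998356)]]]]],[[[[[Int.ofNat (nat_lit 826296462162819456)]]]]]]],[[[[[[[Int.negSucc (nat_lit 13182194311933179911)]]]]]]]],[],[[[[[[[[Int.negSucc (nat_lit 1466272537232101823)]]]]]]]]],[[[[[[[[[Int.negSucc (nat_lit 150990163599306217)],[Int.ofNat (nat_lit 2291349707354592240)]]]]],[[[[[Int.negSucc (nat_lit 26534326518336244691)]]]]]],[],[[[[[[Int.negSucc (nat_lit 932488899759270451)]]]]]]],[[[[[[[Int.negSucc (nat_lit 6741040944541966159)]]]]]]],[[[[[[[Int.ofNat (nat_lit 84590497910374190)]]]]]]]],[[[[[],[[[[Int.negSucc (nat_lit 2300688788435938351)]]]]]],[[[[[[Int.negSucc (nat_lit 5706706413565658551)]]]]]]]],[[[[[[[[Int.ofNat (nat_lit 11453879757554497162)]]]]]]]]],[[[[[[[[[Int.negSucc (nat_lit 7873213665771854547)]]]]],[[[[[Int.ofNat (nat_lit 2989553895371728512)]]]]]]],[[[[[[[Int.negSucc (nat_lit 1378647419764033031)]]]]]]]],[],[[[[[[[[Int.negSucc (nat_lit 3841202991458713843)]]]]]]]]],[[[[[[[[[Int.negSucc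 (nat_lit 8975021000932220147)]]]]]]]]],[[[[[[[[[Int.ofNat (nat_lit 763783235784864080)]]]]]]]]]]

/-- A coefficient. -/
noncomputable def sr7_m2_0_3 : MP 10 :=
  [[[[[[[[[[Int.ofNat (nat_lit 0),Int.ofNat (nat_lit 13536329160890773956)]]]],[[[[Int.negSucc (nat_lit 2397332241247833627)],[Int.ofNat (nat_lit 7191996723743500884)]]]]],[[[[[Int.ofNat (nat_lit 0),Int.negSucc (nat_lit 4524414578278795775)]]]]]],[[[[[[Int.negSucc (nat_lit 1350551896913923079)],[Int.negSucc (nat_lit 33550137318955285943)]]]]]],[[[],[[[[Int.negSucc (nat_lit 7191996723743500883)]]]]]],[[[[[[Int.ofNat (nat_lit 33550137318955285944)]]]]]]],[[[[[[[Int.ofNat (nat_lit 0),Int.ofNat (nat_lit 38303329220943056424)]]]]]],[[[[[[Int.ofNat (nat_lit 27072658321781547912)]]]]],[[[[[Int.negSucc (nat_lit 9048829156557591551)]]]]]]],[[[[],[[[[Int.ofNat (nat_lit 7191996723743500884)]]]]]],[[[[[[Int.ofNat (nat_lit 43056521122930826904)]]]]]]]],[[[[[[[[Int.negSucc (nat_lit 17506271471278294767)],[Int.negSucc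 (nat_lit 78301857296165876519)]]]],[],[[[[Int.negSucc (nat_lit 7191996723743500883)]]]]],[[[[[Int.ofNat (nat_lit 13536329160890773956)]]]]],[[[[[Int.negSucc (nat_lit 4524414578278795775)]]]]]],[[[[[[Int.ofNat (nat_lit 0),Int.negSucc (nat_lit 14874522641959595567)]]]],[[[[Int.ofNat (nat_lit 33550137318955285944)]]]]]],[[[[[[Int.ofNat (nat_lit 78301857296165876520)]]]]]]],[[[[[[[Int.ofNat (nat_lit 7122198946188974928)],[Int.negSucc (nat_lit 21366596838566924783)]]]]],[[[[[Int.ofNat (nat_lit 38303329220943056424)]]]]]],[],[[[[[[Int.negSucc (nat_lit 8382448445352266351)]]]]]]],[[[[[[[Int.negSucc (nat_lit 78301857296165876519)]]]]]]],[[[[[[[Int.negSucc (nat_lit 21366596838566924783)]]]]]]]],[[[[[[[[Int.ofNat (nat_lit 0),Int.negSucc (nat_lit 16794106755908453951)]]]],[[[[Int.ofNat (nat_lit 78301857296165876520)]]]]]],[[],[[[[[Int.negSucc (nat_lit 14874522641959595567)]]]]]]],[[[[],[[[[Int.ofNat (nat_lit 21366596838566924784)]]]]]],[[[[[[Int.negSucc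 (nat_lit 33588213511816907903)]]]]]]]],[[[[[[[[Int.negSucc (nat_lit 4512109720296924651)]]]]],[[[[[Int.negSucc (nat_lit 15285968563148855359)]]]]]]],[[[[[[[Int.negSucc (nat_lit 12767776406981018807)]]]]]]]],[[[],[[[[[[Int.ofNat (nat_lit 4958174213986531856)]]]]]]]],[[[[[[[[Int.ofNat (nat_lit 5598035585302817984)]]]]]]]]],[[[[[[[[[Int.ofNat (nat_lit 0),Int.ofNat (nat_lit 28611676746090469404)]]]],[[[[Int.ofNat (nat_lit 13536329160890773956)]]]]],[[],[[[[Int.ofNat (nat_lit 2667582145464705108)]]]]]],[[[[[[Int.negSucc (nat_lit 2637672941904887975)],[Int.negSucc (nat_lit 7913018825714663927)]]]]],[[[[[Int.negSucc (nat_lit 33550137318955285943)]]]]]],[],[[[[[[Int.ofNat (nat_lit 7913018825714663928)]]]]]]],[[[[[[[Int.ofNat (nat_lit 0),Int.ofNat (nat_lit 6292132083110317584)]]]],[[[[Int.ofNat (nat_lit 38303329220943056424)]]]]]],[[[[[[Int.ofNat (nat_lit 57223353492180938808)]]]]]]],[[],[[[[[[Int.ofNat (nat_lit 4671245340505971240)]]]]]]]],[[[[[[[[Int.ofNat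 (nat_lit 1113963513595304044)],[Int.negSucc (nat_lit 19397315281023272987)]]]]],[[[[[Int.negSucc (nat_lit 49690180550075407115)]]]]]],[[[],[[[[Int.negSucc (nat_lit 6961503816244931639)]]]]]],[[[[[[Int.ofNat (nat_lit 19397315281023272988)]]]]]]],[[[],[[[[[Int.negSucc (nat_lit 15074464755456607199)]]]]]]],[[[[[[[Int.negSucc (nat_lit 19397315281023272987)]]]]]]]],[[[[[],[[[[Int.negSucc (nat_lit 4588788198628681847)]]]]]],[[[[[[Int.ofNat (nat_lit 33550137318955285944)]]]]]]]],[[[[[[[[Int.ofNat (nat_lit 68764631714135720052)]]]]]]],[[[[[[[Int.ofNat (nat_lit 19269219477530152256)]]]]]]]]],[[[[[[[[[Int.ofNat (nat_lit 0),Int.ofNat (nat_lit 16947885194810212752)]]]],[[[[Int.ofNat (nat_lit 28611676746090469404)]]]]]],[[],[[[[[Int.negSucc (nat_lit 7913018825714663927)]]]]]]],[[[[],[[[[Int.ofNat (nat_lit 6292132083110317584)]]]]]],[[[[[[Int.ofNat (nat_lit 33895770389620425504)]]]]]]]],[[[[[[[[Int.ofNat (nat_lit 13536329160890773956)]]]]],[[[[[Int.negSucc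 (nat_lit 6973844664491856011)]]]]]]],[[[[[[[Int.ofNat (nat_lit 38303329220943056424)]]]]]]]],[[[],[[[[[[Int.negSucc (nat_lit 6961503816244931639)]]]]]]]],[[[[[[[[Int.negSucc (nat_lit 3046086539821918547)]]]]]]]]],[[[[[[],[[[[Int.ofNat (nat_lit 19345217436058046380)]]]]]],[[[[[[Int.negSucc (nat_lit 11183379106318428647)]]]]]]]],[[[[[[[[Int.ofNat (nat_lit 2511057647368510564)]]]]]]],[[[[[[[Int.negSucc (nat_lit 830066863078657343)]]]]]]]]],[[[[],[[[[[[Int.negSucc (nat_lit 2637672941904887975)]]]]]]]],[[[[[[[[Int.ofNat (nat_lit 10482113434469121756)]]]]]]]]]]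

/-- A coefficient. -/
noncomputable def sr7_m2_0_4 : MP 10 :=
  [[[[[[[[[[Int.ofNat (nat_lit 14029960616885906336)],[Int.ofNat (nat_lit 83342699647461667656)]]]],[[[[Int.ofNat (nat_lit 0),Int.ofNat (nat_lit 2132260228449986088)]]]]],[[[[[Int.ofNat (nat_lit 409126746946344608)],[Int.ofNat (nat_lit 1227380240839033824)]]]]]],[[[[[[Int.ofNat (nat_lit 0),Int.ofNat (nat_lit 19204754590751853936)]]]]]],[[[[[[Int.negSucc (nat_lit 83342699647461667655)]]]]],[[[[[Int.negSucc (nat_lit 1227380240839033823)]]]]]]],[[[[[[[Int.negSucc (nat_lit 8320073851171228795)],[Int.ofNat (nat_lit 33305348969278899036)]]]]]],[[[],[[[[Int.ofNat (nat_lit 4264520456899972176)]]]]]],[[[[[[Int.ofNat (nat_lit 5104160212224808836)]]]]]]],[[[[[[[Int.ofNat (nat_lit 83342699647461667656)]]]]],[[[[[Int.ofNat (nat_lit 1227380240839033824)]]]]]]],[[[[[[[Int.ofNat (nat_lit 33305348969278899036)]]]]]]]],[[[[[[[[Int.ofNat (nat_lit 0),Int.ofNat (nat_lit 73380228033335618532)]]]],[[[[Int.negSucc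 (nat_lit 83342699647461667655)]]]]],[[],[[[[Int.ofNat (nat_lit 904879987610952264)]]]]]],[[],[[[[[Int.ofNat (nat_lit 19204754590751853936)]]]]]]],[[[[],[[[[Int.negSucc (nat_lit 33305348969278899035)]]]]]],[[[[[[Int.ofNat (nat_lit 146760456066671237064)]]]]]]]],[[[[[[[[Int.ofNat (nat_lit 8943840633689727222)],[Int.negSucc (nat_lit 24867687992423539169)]]]]],[[[[[Int.ofNat (nat_lit 73380228033335618532)]]]]]],[],[[[[[[Int.ofNat (nat_lit 24867687992423539170)]]]]]]],[],[[[[[[[Int.negSucc (nat_lit 24867687992423539169)]]]]]]]],[[[[[],[[[[Int.ofNat (nat_lit 24156934582940210474)]]]]]],[[[[[[Int.negSucc (nat_lit 6401584863583951311)]]]]]]]],[[[[[[[[Int.negSucc (nat_lit 24460076011111872843)]]]]]]]]],[[[[[[[[[Int.ofNat (nat_lit 2207621969455446340)],[Int.ofNat (nat_lit 36360344141156945532)]]]],[],[[[[Int.ofNat (nat_lit 2132260228449986088)]]]]],[[[[[Int.ofNat (nat_lit 83342699647461667656)]]]]],[[[[[Int.ofNat (nat_lit 1227380240839033824)]]]]]],[[[],[[[[Int.ofNat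 (nat_lit 19204754590751853936)]]]]]],[[[[[[Int.negSucc (nat_lit 36360344141156945531)]]]]]]],[[[],[[[[[Int.ofNat (nat_lit 33305348969278899036)]]]]]]],[[[[[[[Int.ofNat (nat_lit 36360344141156945532)]]]]]]]],[[[[[[[[Int.ofNat (nat_lit 0),Int.ofNat (nat_lit 13158333390773171448)]]]],[[[[Int.ofNat (nat_lit 37019883892178673000)]]]]]]],[[],[[[[[[Int.ofNat (nat_lit 26316666781546342896)]]]]]]]],[[[[[[[[Int.negSucc (nat_lit 83342699647461667655)]]]]],[[[[[Int.negSucc (nat_lit 12936734842489401545)]]]]]]],[[[[[[[Int.negSucc (nat_lit 33305348969278899035)]]]]]]]],[],[[[[[[[[Int.ofNat (nat_lit 20481576862165815354)]]]]]]]]],[[[[[[[[[Int.ofNat (nat_lit 5439635754618726766)],[Int.ofNat (nat_lit 16318907263856180298)]]]]],[[[[[Int.ofNat (nat_lit 36360344141156945532)]]]]]],[],[[[[[[Int.negSucc (nat_lit 16318907263856180297)]]]]]]],[],[[[[[[[Int.ofNat (nat_lit 16318907263856180298)]]]]]]]],[[[[[],[[[[Int.negSucc (nat_lit 1028313644633022761)]]]]]],[[[[[[Int.ofNat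 (nat_lit 19204754590751853936)]]]]]]]],[[[[[[[[Int.ofNat (nat_lit 37019883892178673000)]]]]]]]]],[[[[[[[[[Int.ofNat (nat_lit 27780899882487222552)]]]]],[[[[[Int.ofNat (nat_lit 16728034010802524906)]]]]]]],[[[[[[[Int.ofNat (nat_lit 11101782989759633012)]]]]]]]],[],[[[[[[[[Int.negSucc (nat_lit 11449803203890855239)]]]]]]]]],[[[[[[[[[Int.ofNat (nat_lit 12120114713718981844)]]]]]]]]],[[[[[[[[[Int.ofNat (nat_lit 5439635754618726766)]]]]]]]]]]

/-- A coefficient. -/
noncomputable def sr7_m2_0_5 : MP 10 :=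
  [[[[[[[[[[Int.ofNat (nat_lit 0),Int.negSucc (nat_lit 77340820910014596671)]]]]]],[[[[[[Int.ofNat (nat_lit 686761420159190824)],[Int.ofNat (nat_lit 2060284260477572472)]]]]]],[],[[[[[[Int.negSucc (nat_lit 2060284260477572471)]]]]]]],[[[[[[[Int.ofNat (nat_lit 0),Int.negSucc (nat_lit 2861659942392690191)]]]]]],[[[[[[Int.negSucc (nat_lit 154681641820029193343)]]]]]]],[[],[[[[[[Int.negSucc (nat_lit 3663035624307807911)]]]]]]]],[[[[[[[[Int.negSucc (nat_lit 14066839675451941383)],[Int.ofNat (nat_lit 76607345844736443864)]]]]],[[[[[Int.negSucc (nat_lit 77340820910014596671)]]]]]],[[[],[[[[Int.negSucc (nat_lit 2060284260477572471)]]]]]],[[[[[[Int.negSucc (nat_lit 76607345844736443863)]]]]]]],[[[],[[[[[Int.negSucc (nat_lit 2861659942392690191)]]]]]]],[[[[[[[Int.ofNat (nat_lit 76607345844736443864)]]]]]]]],[[[[[],[[[[Int.negSucc (nat_lit 76607345844736443863)]]]]]]]],[[[[[[[[Int.ofNat (nat_lit 25780273636671532224)]]]]]]],[[[[[[[Int.ofNat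 (nat_lit 953886647464230064)]]]]]]]]],[[[[[[[[[Int.ofNat (nat_lit 0),Int.negSucc (nat_lit 2635378628439373475)]]]],[[[[Int.negSucc (nat_lit 77340820910014596671)]]]]]],[[],[[[[[Int.ofNat (nat_lit 2060284260477572472)]]]]]]],[[[[],[[[[Int.negSucc (nat_lit 2861659942392690191)]]]]]],[[[[[[Int.negSucc (nat_lit 5270757256878746951)]]]]]]]],[[[[],[[[[[Int.ofNat (nat_lit 73971967216297070388)]]]]]]]],[[[],[[[[[[Int.negSucc (nat_lit 2060284260477572471)]]]]]]]],[[[[[[[[Int.negSucc (nat_lit 75728886301923319371)]]]]]]]]],[[[[[[],[[[[Int.negSucc (nat_lit 2635378628439373475)]]]]]]]],[[[[[[[[Int.negSucc (nat_lit 77340820910014596671)]]]]]]],[[[[[[[Int.negSucc (nat_lit 2861659942392690191)]]]]]]]]],[[[[],[[[[[[Int.ofNat (nat_lit 686761420159190824)]]]]]]]],[[[[[[[[Int.ofNat (nat_lit 22900403319806107812)]]]]]]]]]]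

/-- A coefficient. -/
noncomputable def sr7_m2_0_6 : MP 10 :=
  [[[[[[[[[[Int.ofNat (nat_lit 6122367220331135268)],[Int.negSucc (nat_lit 109299914443965874643)]]]]]],[],[[[[[[Int.ofNat (nat_lit 109299914443965874644)]]]]]]],[],[[[[[[[Int.negSucc (nat_lit 109299914443965874643)]]]]]]]],[[[[[[[[Int.ofNat (nat_lit 0),Int.negSucc (nat_lit 493330917609167267)]]]],[[[[Int.ofNat (nat_lit 109299914443965874644)]]]]]]],[[],[[[[[[Int.negSucc (nat_lit 986661835218334535)]]]]]]]],[[[[],[[[[[Int.negSucc (nat_lit 493330917609167267)]]]]]]]],[],[[[[[[[[Int.ofNat (nat_lit 164443639203055756)]]]]]]]]],[[[[[[[[[Int.negSucc (nat_lit 379667565545734435)],[Int.negSucc (nat_lit 1139002696637203307)]]]]],[[[[[Int.negSucc (nat_lit 109299914443965874643)]]]]]],[],[[[[[[Int.ofNat (nat_lit 1139002696637203308)]]]]]]],[],[[[[[[[Int.negSucc (nat_lit 1139002696637203307)]]]]]]]],[[[[[],[[[[Int.ofNat (nat_lit 645671779028036040)]]]]]]]],[[[[[[[[Int.ofNat (nat_lit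 109299914443965874644)]]]]]]]]],[[[[[],[[[[[Int.negSucc (nat_lit 1139002696637203307)]]]]]]]],[],[[[[[[[[Int.ofNat (nat_lit 645671779028036040)]]]]]]]]],[[[[[[[[[Int.negSucc (nat_lit 36433304814655291547)]]]]]]]]],[[[[[[[[[Int.negSucc (nat_lit 379667565545734435)]]]]]]]]]]

/-- A coefficient. -/
noncomputable def sr7_m2_0_7 : MP 10 :=
  [[[[[[[[[[Int.ofNat (nat_lit 0),Int.ofNat (nat_lit 12646197167010561612)]]]]]]],[[],[[[[[[Int.ofNat (nat_lit 25292394334021123224)]]]]]]]],[[[[],[[[[[Int.ofNat (nat_lit 12646197167010561612)]]]]]]]],[],[[[[[[[[Int.negSucc (nat_lit 4215399055670187203)]]]]]]]]],[[[[[[],[[[[Int.ofNat (nat_lit 12646197167010561612)]]]]]]]]],[[],[[[[[[[[Int.ofNat (nat_lit 12646197167010561612)]]]]]]]]]]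

/-- A coefficient. -/
noncomputable def sr7_m2_0_8 : MP 10 :=
  [[[[[[[[[[Int.ofNat (nat_lit 10612766546819876962)],[Int.ofNat (nat_lit 31838299640459630886)]]]]]],[],[[[[[[Int.negSucc (nat_lit 31838299640459630885)]]]]]]],[],[[[[[[[Int.ofNat (nat_lit 31838299640459630886)]]]]]]]],[[[[[],[[[[Int.negSucc (nat_lit 31838299640459630885)]]]]]]]]],[[[[[],[[[[[Int.ofNat (nat_lit 31838299640459630886)]]]]]]]],[],[[[[[[[[Int.negSucc (nat_lit 31838299640459630885)]]]]]]]]],[],[[[[[[[[[Int.ofNat (nat_lit 10612766546819876962)]]]]]]]]]]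

/-- A coefficient. -/
noncomputable def sr7_m2_1_0 : MP 10 :=
  [[[[[[[[[[Int.negSucc (nat_lit 4595578080712644379)],[Int.negSucc (nat_lit 13786734242137933139)]]]],[[[[Int.ofNat (nat_lit 0),Int.negSucc (nat_lit 1017983911706466515)]]]]],[[[[[Int.ofNat (nat_lit 1201619723798284664)],[Int.ofNat (nat_lit 3604859171394853992)]]]]]],[[[[[[Int.ofNat (nat_lit 0),Int.ofNat (nat_lit 12303110946414448284)]]]],[[[[Int.ofNat (nat_lit 1366431143289140272)],[Int.negSucc (nat_lit 4099293429867420815)]]]]],[[[[[Int.ofNat (nat_lit 0),Int.ofNat (nat_lit 1760173417507575732)]]]]]],[[[[[[Int.ofNat (nat_lit 10995177654672632008)],[Int.ofNat (nat_lit 8374669762395903396)]]]]],[[[[[Int.negSucc (nat_lit 3604859171394853991)]]]]]],[[[],[[[[Int.ofNat (nat_lit 4099293429867420816)]]]]]],[[[[[[Int.negSucc (nat_lit 8374669762395903395)]]]]]]],[[[[[[[Int.ofNat (nat_lit 5006412716300184628)],[Int.ofNat (nat_lit 15019238148900553884)]]]],[[[[Int.ofNat (nat_lit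 0),Int.ofNat (nat_lit 2977777686391892640)]]]]],[[[[[Int.ofNat (nat_lit 438453119295252924)],[Int.ofNat (nat_lit 1315359357885758772)]]]]]],[[[[[[Int.ofNat (nat_lit 0),Int.negSucc (nat_lit 10433837544459890783)]]]],[[[[Int.negSucc (nat_lit 2035967823412933031)]]]]]],[[[[[[Int.ofNat (nat_lit 9586983743928342684)]]]]],[[[[[Int.ofNat (nat_lit 2204987477129392692)]]]]]]],[[[[[[[Int.negSucc (nat_lit 16889042493673182851)],[Int.negSucc (nat_lit 9306924754605749135)]]]]],[[[[[Int.ofNat (nat_lit 3604859171394853992)]]]]]],[[[],[[[[Int.ofNat (nat_lit 1856261942916364464)]]]]]],[[[[[[Int.negSucc (nat_lit 3186080571918129035)]]]]]]],[[[[[[[Int.ofNat (nat_lit 15019238148900553884)]]]]],[[[[[Int.ofNat (nat_lit 1315359357885758772)]]]]]]],[[[[[[[Int.negSucc (nat_lit 9306924754605749135)]]]]]]]],[[[[[[[[Int.ofNat (nat_lit 0),Int.ofNat (nat_lit 23044569448731282864)]]]],[[[[Int.ofNat (nat_lit 20308329458972191728)],[Int.negSucc (nat_lit 19564785650502775763)]]]]],[[[[[Int.ofNat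 (nat_lit 0),Int.ofNat (nat_lit 9916735046075430792)]]]],[[[[Int.negSucc (nat_lit 4622843083101320507)]]]]]],[[[[[[Int.negSucc (nat_lit 8695410304332769875)],[Int.ofNat (nat_lit 26086230912998309628)]]]],[],[[[[Int.ofNat (nat_lit 4099293429867420816)]]]]],[[[[[Int.ofNat (nat_lit 12303110946414448284)]]]]],[[[[[Int.ofNat (nat_lit 1760173417507575732)]]]]]],[[[],[[[[Int.ofNat (nat_lit 11190115888106872368)]]]]]],[[[[[[Int.negSucc (nat_lit 26086230912998309627)]]]]]]],[[[[[[[Int.ofNat (nat_lit 0),Int.negSucc (nat_lit 20182756019230244147)]]]],[[[[Int.negSucc (nat_lit 15019238148900553883)]]]]],[[],[[[[Int.ofNat (nat_lit 1662418328506133868)]]]]]],[[[[[[Int.ofNat (nat_lit 46089138897462565728)]]]]],[[[[[Int.ofNat (nat_lit 9399632547690970800)]]]]]]],[[[[],[[[[Int.negSucc (nat_lit 10257860895897026627)]]]]]],[[[[[[Int.negSucc (nat_lit 14279281125462178667)]]]]]]]],[[[[[[[[Int.negSucc (nat_lit 12573030770617957619)],[Int.ofNat (nat_lit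 25517991390017412204)]]]],[],[[[[Int.ofNat (nat_lit 19564785650502775764)]]]]],[[[[[Int.ofNat (nat_lit 23044569448731282864)]]]]],[[[[[Int.ofNat (nat_lit 9916735046075430792)]]]]]],[[[[[[Int.ofNat (nat_lit 0),Int.ofNat (nat_lit 1622754942159723240)]]]],[[[[Int.negSucc (nat_lit 26086230912998309627)]]]]]],[[[[[[Int.negSucc (nat_lit 25517991390017412203)]]]]]]],[[[[[[[Int.negSucc (nat_lit 227014368409408663)],[Int.negSucc (nat_lit 681043105228225991)]]]]],[[[[[Int.negSucc (nat_lit 20182756019230244147)]]]]]],[],[[[[[[Int.ofNat (nat_lit 3926552989547672472)]]]]]]],[[[[[[[Int.ofNat (nat_lit 25517991390017412204)]]]]]]],[[[[[[[Int.negSucc (nat_lit 681043105228225991)]]]]]]]],[[[[[[[[Int.ofNat (nat_lit 0),Int.ofNat (nat_lit 4823979457132482084)]]]],[[[[Int.negSucc (nat_lit 25178663419448590031)]]]]]],[[[[[[Int.negSucc (nat_lit 4101036982138149427)]]]]],[[[[[Int.ofNat (nat_lit 1036030469657197996)]]]]]]],[[[[],[[[[Int.negSucc (nat_lit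 311549456902404887)]]]]]],[[[[[[Int.ofNat (nat_lit 13125904762418261096)]]]]]]]],[[[[[[[[Int.negSucc (nat_lit 7681523149577094287)]]]]],[[[[[Int.ofNat (nat_lit 1518401108440671820)]]]]]]],[[[[[[[Int.ofNat (nat_lit 6727585339743414716)]]]]]]]],[[[],[[[[[[Int.negSucc (nat_lit 540918314053241079)]]]]]]]],[[[[[[[[Int.negSucc (nat_lit 1607993152377494027)]]]]]]]]],[[[[[[[[[Int.negSucc (nat_lit 7954518173106973015)],[Int.negSucc (nat_lit 23863554519320919047)]]]],[[[[Int.ofNat (nat_lit 0),Int.ofNat (nat_lit 6015684348695310420)]]]],[[[[Int.negSucc (nat_lit 1017983911706466515)]]]]],[[[[[Int.negSucc (nat_lit 11088971311949338471)],[Int.ofNat (nat_lit 8093288790565784004)]]]]],[[[[[Int.ofNat (nat_lit 3604859171394853992)]]]]]],[[[[[[Int.ofNat (nat_lit 0),Int.ofNat (nat_lit 475278795782613012)]]]],[[[[Int.ofNat (nat_lit 12303110946414448284)]]]]],[[],[[[[Int.negSucc (nat_lit 2339120012359845083)]]]]]],[[[[[[Int.ofNat (nat_lit 23863554519320919048)]]]]],[[[[[Int.ofNat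 (nat_lit 281380971830119392)]]]]]]],[[[[[[[Int.ofNat (nat_lit 78585366023311960)],[Int.ofNat (nat_lit 235756098069935880)]]]],[],[[[[Int.ofNat (nat_lit 2977777686391892640)]]]]],[[[[[Int.ofNat (nat_lit 15019238148900553884)]]]]],[[[[[Int.ofNat (nat_lit 1315359357885758772)]]]]]],[[[],[[[[Int.ofNat (nat_lit 1597531152930730056)]]]]]],[[[[[[Int.ofNat (nat_lit 714801493495290144)]]]]]]],[[[[[[[Int.negSucc (nat_lit 23863554519320919047)]]]]],[[[[[Int.negSucc (nat_lit 1213635964039965131)]]]]]]],[[[[[[[Int.ofNat (nat_lit 235756098069935880)]]]]]]]],[[[[[[[[Int.ofNat (nat_lit 0),Int.ofNat (nat_lit 14816711532591348444)]]]],[[[[Int.ofNat (nat_lit 46908123968052201912)]]]]],[[],[[[[Int.negSucc (nat_lit 11725655046297818555)]]]]]],[[[[[[Int.negSucc (nat_lit 51241846966140215)],[Int.ofNat (nat_lit 153725540898420648)]]]]],[[[[[Int.ofNat (nat_lit 26561509708780922640)]]]]]],[],[[[[[[Int.negSucc (nat_lit 153725540898420647)]]]]]]],[[[[[[[Int.ofNat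 (nat_lit 0),Int.negSucc (nat_lit 402838201766706287)]]]],[[[[Int.negSucc (nat_lit 20418512117300180027)]]]]]],[[[[[[Int.ofNat (nat_lit 29633423065182696888)]]]]]]],[[],[[[[[[Int.negSucc (nat_lit 651950862634991927)]]]]]]]],[[[[[[[[Int.ofNat (nat_lit 10922932294893606380)],[Int.negSucc (nat_lit 5188719054323946023)]]]]],[[[[[Int.ofNat (nat_lit 36729843751213906656)]]]]]],[[[],[[[[Int.ofNat (nat_lit 5568322831128723408)]]]]]],[[[[[[Int.negSucc (nat_lit 3185950708071957371)]]]]]]],[[[[[[[Int.negSucc (nat_lit 15019238148900553883)]]]]],[[[[[Int.negSucc (nat_lit 2399240664880691051)]]]]]]],[[[[[[[Int.ofNat (nat_lit 4118205700281803112)]]]]]]]],[[[[[],[[[[Int.ofNat (nat_lit 27572256045727433732)]]]]]],[[[[[[Int.negSucc (nat_lit 26244657178259180631)]]]]]]]],[[[[[[[[Int.negSucc (nat_lit 30456895234214528351)]]]]]]],[[[[[[[Int.ofNat (nat_lit 815322505817128088)]]]]]]]]],[[[[[[[[[Int.negSucc (nat_lit 7651728979863000979)],[Int.negSucc (nat_lit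 22955186939589002939)]]]],[],[[[[Int.ofNat (nat_lit 6015684348695310420)]]]]],[[[[[Int.negSucc (nat_lit 23863554519320919047)]]]]],[[[[[Int.ofNat (nat_lit 8093288790565784004)]]]]]],[[[[[[Int.ofNat (nat_lit 0),Int.ofNat (nat_lit 2337691776248968392)]]]],[[[[Int.ofNat (nat_lit 475278795782613012)]]]]]],[[[[[[Int.ofNat (nat_lit 22955186939589002940)]]]]]]],[[[[[[[Int.negSucc (nat_lit 420375927669357091)],[Int.negSucc (nat_lit 1261127783008071275)]]]]],[[[[[Int.ofNat (nat_lit 235756098069935880)]]]]]],[],[[[[[[Int.ofNat (nat_lit 5936511335506008060)]]]]]]],[[[[[[[Int.negSucc (nat_lit 22955186939589002939)]]]]]]],[[[[[[[Int.negSucc (nat_lit 1261127783008071275)]]]]]]]],[[[[[[[[Int.ofNat (nat_lit 0),Int.ofNat (nat_lit 9355152485555966376)]]]],[[[[Int.ofNat (nat_lit 36753914560473884868)]]]]]],[[[[[[Int.ofNat (nat_lit 12303110946414448284)]]]]],[[[[[Int.ofNat (nat_lit 4251590734654964772)]]]]]]],[[[[],[[[[Int.ofNat (nat_lit 3836067267633257628)]]]]]],[[[[[[Int.ofNat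 (nat_lit 8276467426652041968)]]]]]]]],[[[[[[[[Int.ofNat (nat_lit 46908123968052201912)]]]]],[[[[[Int.ofNat (nat_lit 5989879686741667140)]]]]]]],[[[[[[[Int.negSucc (nat_lit 20418512117300180027)]]]]]]]],[[[],[[[[[[Int.ofNat (nat_lit 689798809178313128)]]]]]]]],[[[[[[[[Int.ofNat (nat_lit 6894314349604439316)]]]]]]]]],[[[[[[[[[Int.negSucc (nat_lit 6654953346991514003)],[Int.negSucc (nat_lit 6178125798836608871)]]]]],[[[[[Int.negSucc (nat_lit 21753567215790718275)]]]]]],[[[],[[[[Int.ofNat (nat_lit 971260632959828120)]]]]]],[[[[[[Int.ofNat (nat_lit 8969682386301910004)]]]]]]],[[[[[[[Int.ofNat (nat_lit 5006412716300184628)]]]]],[[[[[Int.negSucc (nat_lit 822674663712818351)]]]]]]],[[[[[[[Int.negSucc (nat_lit 9280434050371858583)]]]]]]]],[[[[[],[[[[Int.ofNat (nat_lit 15027367416253627080)]]]]]],[[[[[[Int.ofNat (nat_lit 9170689100115382888)]]]]]]]],[[[[[[[[Int.ofNat (nat_lit 46277895602186155452)]]]]]]],[[[[[[[Int.ofNat (nat_lit 631275212831956324)]]]]]]]]],[[[[[[[[[Int.negSucc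 (nat_lit 7954518173106973015)]]]]],[[[[[Int.negSucc (nat_lit 3480362868648014203)]]]]]]],[[[[[[[Int.ofNat (nat_lit 78585366023311960)]]]]]]]],[[[],[[[[[[Int.ofNat (nat_lit 2388933623215108608)]]]]]]]],[[[[[[[[Int.ofNat (nat_lit 13803705266284593240)]]]]]]]]],[[[[[[[[[Int.negSucc (nat_lit 7651728979863000979)]]]]]]],[[[[[[[Int.negSucc (nat_lit 420375927669357091)]]]]]]]]],[[[[[[[[[Int.negSucc (nat_lit 2059375266278869623)]]]]]]]]]]

/-- A coefficient. -/
noncomputable def sr7_m2_1_1 : MP 10 :=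
  [[[[[[[[[[Int.ofNat (nat_lit 0),Int.negSucc (nat_lit 24279922715587329443)]]]],[[[[Int.negSucc (nat_lit 5898150173177838815)],[Int.ofNat (nat_lit 17694450519533516448)]]]]],[[[[[Int.ofNat (nat_lit 0),Int.negSucc (nat_lit 12514784676540613151)]]]]]],[[[[[[Int.ofNat (nat_lit 12610518246288140000)],[Int.negSucc (nat_lit 23834171759631107399)]]]]]],[[[[[[Int.ofNat (nat_lit 0),Int.negSucc (nat_lit 4053147904697968979)]]]],[[[[Int.negSucc (nat_lit 17694450519533516447)]]]]]],[[[[[[Int.ofNat (nat_lit 23834171759631107400)]]]]]]],[[[[[[[Int.ofNat (nat_lit 0),Int.ofNat (nat_lit 32414061313340410332)]]]]]],[[[[[[Int.negSucc (nat_lit 49828054269736037927)],[Int.negSucc (nat_lit 7017838940255345735)]]]]],[[[[[Int.negSucc (nat_lit 25029569353081226303)]]]]]],[],[[[[[[Int.negSucc (nat_lit 1088456869140592223)]]]]]]],[[[[[[[Int.ofNat (nat_lit 0),Int.ofNat (nat_lit 6870902302674417708)]]]],[[[[Int.ofNat (nat_lit 17694450519533516448)]]]]]],[[[[[[Int.ofNat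 (nat_lit 40993950867049713264)]]]]]]],[[],[[[[[[Int.ofNat (nat_lit 6723965665093489680)]]]]]]]],[[[[[[[[Int.ofNat (nat_lit 14615123234214081684)],[Int.ofNat (nat_lit 77892181642124596380)]]]],[[[[Int.ofNat (nat_lit 0),Int.ofNat (nat_lit 9217754379908070432)]]]],[[[[Int.negSucc (nat_lit 17694450519533516447)]]]]],[[[[[Int.negSucc (nat_lit 22989345272446054167)],[Int.ofNat (nat_lit 3871732329423825828)]]]]],[[[[[Int.negSucc (nat_lit 12514784676540613151)]]]]]],[[[[[[Int.ofNat (nat_lit 0),Int.negSucc (nat_lit 48790084788526033607)]]]],[[[[Int.ofNat (nat_lit 23834171759631107400)]]]]]],[[[[[[Int.negSucc (nat_lit 77892181642124596379)]]]]],[[[[[Int.negSucc (nat_lit 7924880234121794807)]]]]]]],[[[[[[[Int.negSucc (nat_lit 11083234852283907583)],[Int.negSucc (nat_lit 51616287496967479031)]]]]],[[[[[Int.ofNat (nat_lit 32414061313340410332)]]]]]],[[[],[[[[Int.ofNat (nat_lit 25453347700071486600)]]]]]],[[[[[[Int.negSucc (nat_lit 45963882080084588183)]]]]]]],[[[[[[[Int.ofNat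 (nat_lit 77892181642124596380)]]]]],[[[[[Int.ofNat (nat_lit 10742634632098243536)]]]]]]],[[[[[[[Int.negSucc (nat_lit 51616287496967479031)]]]]]]]],[[[[[[[[Int.ofNat (nat_lit 0),Int.negSucc (nat_lit 25119728406968234651)]]]],[[[[Int.negSucc (nat_lit 77892181642124596379)]]]]],[[],[[[[Int.ofNat (nat_lit 5346022050484244604)]]]]]],[[],[[[[[Int.negSucc (nat_lit 48790084788526033607)]]]]]]],[[[[],[[[[Int.ofNat (nat_lit 51616287496967479032)]]]]]],[[[[[[Int.negSucc (nat_lit 50239456813936469303)]]]]]]]],[[[[[[[[Int.ofNat (nat_lit 8053296383203678344)],[Int.negSucc (nat_lit 120033565976294411)]]]]],[[[[[Int.negSucc (nat_lit 20948133514788030267)]]]]]],[],[[[[[[Int.ofNat (nat_lit 1471082867542284072)]]]]]]],[[[[[[[Int.negSucc (nat_lit 10804687104446803443)]]]]]]],[[[[[[[Int.negSucc (nat_lit 2410334333534433647)]]]]]]]],[[[[[],[[[[Int.negSucc (nat_lit 2952551227326395731)]]]]]],[[[[[[Int.ofNat (nat_lit 16263361596175344536)]]]]]]]],[[[[[[[[Int.ofNat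 (nat_lit 8373242802322744884)]]]]]]]]],[[[[[[[[[Int.ofNat (nat_lit 0),Int.negSucc (nat_lit 21798626442847882163)]]]],[[[[Int.negSucc (nat_lit 26781266402234252479)],[Int.ofNat (nat_lit 7504031059940769108)]]]]],[[[[[Int.ofNat (nat_lit 0),Int.negSucc (nat_lit 5578501171557101267)]]]],[[[[Int.ofNat (nat_lit 5179665842992903296)]]]]]],[[[[[[Int.ofNat (nat_lit 7512939971753774616)],[Int.negSucc (nat_lit 25679514063411364319)]]]]],[[[[[Int.negSucc (nat_lit 23834171759631107399)]]]]]],[[[],[[[[Int.negSucc (nat_lit 11557178964638738087)]]]]]],[[[[[[Int.ofNat (nat_lit 25679514063411364320)]]]]]]],[[[[[[[Int.ofNat (nat_lit 0),Int.ofNat (nat_lit 22987511924468202576)]]]],[[[[Int.ofNat (nat_lit 32414061313340410332)]]]]]],[[[[[[Int.negSucc (nat_lit 43597252885695764327)]]]]],[[[[[Int.negSucc (nat_lit 18174841283369548271)]]]]]]],[[[[],[[[[Int.ofNat (nat_lit 14374933362615186816)]]]]]],[[[[[[Int.ofNat (nat_lit 20295509785525040832)]]]]]]]],[[[[[[[[Int.ofNat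 (nat_lit 2370085213947725524)],[Int.ofNat (nat_lit 78579134068974205092)]]]],[],[[[[Int.ofNat (nat_lit 1713723319967301324)]]]]],[[[[[Int.ofNat (nat_lit 56093555199276714216)]]]]],[[[[[Int.negSucc (nat_lit 1706768842133275439)]]]]]],[[[],[[[[Int.negSucc (nat_lit 23110570725114669287)]]]]]],[[[[[[Int.negSucc (nat_lit 78579134068974205091)]]]]]]],[[[],[[[[[Int.negSucc (nat_lit 28628775572499276455)]]]]]]],[[[[[[[Int.ofNat (nat_lit 78579134068974205092)]]]]]]]],[[[[[[[[Int.ofNat (nat_lit 0),Int.negSucc (nat_lit 1077798535555668515)]]]],[[[[Int.negSucc (nat_lit 121393312995475956191)]]]]]],[[[[[[Int.ofNat (nat_lit 23834171759631107400)]]]]]]],[[],[[[[[[Int.ofNat (nat_lit 4862241869144008704)]]]]]]]],[[[[[[[[Int.negSucc (nat_lit 70625972827841968991)]]]]],[[[[[Int.negSucc (nat_lit 3210064040436754999)]]]]]]],[[[[[[[Int.ofNat (nat_lit 43953783522144744840)]]]]]]]],[],[[[[[[[[Int.ofNat (nat_lit 479299744494850584)]]]]]]]]],[[[[[[[[[Int.ofNat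 (nat_lit 0),Int.ofNat (nat_lit 10999761046955563020)]]]],[[[[Int.negSucc (nat_lit 21798626442847882163)]]]]],[[],[[[[Int.ofNat (nat_lit 1925529888383667840)]]]]]],[[],[[[[[Int.negSucc (nat_lit 25679514063411364319)]]]]]]],[[[[],[[[[Int.ofNat (nat_lit 22987511924468202576)]]]]]],[[[[[[Int.ofNat (nat_lit 21999522093911126040)]]]]]]]],[[[[[[[[Int.negSucc (nat_lit 25538637817202796127)],[Int.negSucc (nat_lit 295443811233457163)]]]]],[[[[[Int.ofNat (nat_lit 77064110439389154960)]]]]]],[],[[[[[[Int.negSucc (nat_lit 3757704093464511815)]]]]]]],[[[[[[[Int.ofNat (nat_lit 32414061313340410332)]]]]]]],[[[[[[[Int.ofNat (nat_lit 6575458491440960544)]]]]]]]],[[[[[],[[[[Int.ofNat (nat_lit 931368595645089972)]]]]]],[[[[[[Int.negSucc (nat_lit 23110570725114669287)]]]]]]]],[[[[[[[[Int.negSucc (nat_lit 107365449491594294083)]]]]]]]]],[[[[[[[[[Int.ofNat (nat_lit 0),Int.ofNat (nat_lit 1333957298843707992)]]]],[[[[Int.ofNat (nat_lit 16897911220133401836)]]]]]],[[[[[[Int.negSucc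 (nat_lit 7944723919877035799)]]]]]]],[[],[[[[[[Int.ofNat (nat_lit 328634950935634072)]]]]]]]],[[[[[[[[Int.ofNat (nat_lit 4165434104526983296)]]]]],[[[[[Int.negSucc (nat_lit 3249410240805575163)]]]]]]],[[[[[[[Int.ofNat (nat_lit 5782082758812376232)]]]]]]]],[],[[[[[[[[Int.negSucc (nat_lit 1267018345928878819)]]]]]]]]],[[[[[[],[[[[Int.ofNat (nat_lit 3835300985490631028)]]]]]],[[[[[[Int.negSucc (nat_lit 8559838021137121439)]]]]]]]],[[[[[[[[Int.ofNat (nat_lit 37192805736613631384)]]]]]]]]],[[],[[[[[[[[Int.ofNat (nat_lit 1235476028432555604)]]]]]]]]]]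

/-- A coefficient. -/
noncomputable def sr7_m2_1_2 : MP 10 :=
  [[[[[[[[[[Int.negSucc (nat_lit 50729025512805434371)],[Int.ofNat (nat_lit 11837360175808990524)]]]],[[[[Int.ofNat (nat_lit 0),Int.negSucc (nat_lit 18853108357286163923)]]]]],[[[[[Int.negSucc (nat_lit 4383453903463654875)],[Int.negSucc (nat_lit 13150361710390964627)]]]]]],[[[[[[Int.ofNat (nat_lit 0),Int.ofNat (nat_lit 79708321172006536104)]]]]]],[[[[[[Int.negSucc (nat_lit 11837360175808990523)]]]]],[[[[[Int.ofNat (nat_lit 13150361710390964628)]]]]]]],[[[[[[[Int.ofNat (nat_lit 12463235109529008156)],[Int.ofNat (nat_lit 92863452338309785140)]]]]]],[[[],[[[[Int.negSucc (nat_lit 37706216714572327847)]]]]]],[[[[[[Int.ofNat (nat_lit 66553190005703287068)]]]]]]],[[[[[[[Int.ofNat (nat_lit 11837360175808990524)]]]]],[[[[[Int.negSucc (nat_lit 13150361710390964627)]]]]]]],[[[[[[[Int.ofNat (nat_lit 92863452338309785140)]]]]]]]],[[[[[[[[Int.ofNat (nat_lit 0),Int.ofNat (nat_lit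 127247123556832426632)]]]],[[[[Int.negSucc (nat_lit 11837360175808990523)]]]]],[[],[[[[Int.negSucc (nat_lit 5702746646895199295)]]]]]],[[[[[[Int.negSucc (nat_lit 5669812941270881247)],[Int.negSucc (nat_lit 32088339807918280271)]]]]],[[[[[Int.ofNat (nat_lit 79708321172006536104)]]]]]],[],[[[[[[Int.ofNat (nat_lit 32088339807918280272)]]]]]]],[[[[[[[Int.ofNat (nat_lit 0),Int.ofNat (nat_lit 38609268398498403600)]]]],[[[[Int.negSucc (nat_lit 92863452338309785139)]]]]]],[[[[[[Int.ofNat (nat_lit 254494247113664853264)]]]]]]],[[],[[[[[[Int.ofNat (nat_lit 45130196989078526928)]]]]]]]],[[[[[[[[Int.negSucc (nat_lit 19639288530329719435)],[Int.negSucc (nat_lit 86153347892276725667)]]]]],[[[[[Int.ofNat (nat_lit 127247123556832426632)]]]]]],[[[],[[[[Int.ofNat (nat_lit 32088339807918280272)]]]]]],[[[[[[Int.ofNat (nat_lit 86153347892276725668)]]]]]]],[[[],[[[[[Int.ofNat (nat_lit 38609268398498403600)]]]]]]],[[[[[[[Int.negSucc (nat_lit 86153347892276725667)]]]]]]]],[[[[[],[[[[Int.ofNat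 (nat_lit 92437717344705446976)]]]]]],[[[[[[Int.negSucc (nat_lit 26569440390668845367)]]]]]]]],[[[[[[[[Int.negSucc (nat_lit 42415707852277475543)]]]]]]],[[[[[[[Int.negSucc (nat_lit 12869756132832801199)]]]]]]]]],[[[[[[[[[Int.negSucc (nat_lit 60603533573453829459)],[Int.ofNat (nat_lit 124884717819330051204)]]]],[],[[[[Int.negSucc (nat_lit 18853108357286163923)]]]]],[[[[[Int.ofNat (nat_lit 11837360175808990524)]]]]],[[[[[Int.negSucc (nat_lit 13150361710390964627)]]]]]],[[[[[[Int.ofNat (nat_lit 0),Int.ofNat (nat_lit 26739841891895996472)]]]],[[[[Int.ofNat (nat_lit 79708321172006536104)]]]]]],[[[[[[Int.negSucc (nat_lit 124884717819330051203)]]]]]]],[[[[[[[Int.negSucc (nat_lit 6718310317595388579)],[Int.ofNat (nat_lit 23522120708993323956)]]]]],[[[[[Int.ofNat (nat_lit 92863452338309785140)]]]]]],[],[[[[[[Int.ofNat (nat_lit 29957563074798668988)]]]]]]],[[[[[[[Int.ofNat (nat_lit 124884717819330051204)]]]]]]],[[[[[[[Int.ofNat (nat_lit 23522120708993323956)]]]]]]]],[[[[[[[[Int.ofNat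 (nat_lit 0),Int.ofNat (nat_lit 90203830554651948588)]]]],[[[[Int.ofNat (nat_lit 2362405737502375428)]]]]]],[[],[[[[[Int.negSucc (nat_lit 5348497916022283799)]]]]]]],[[[[],[[[[Int.ofNat (nat_lit 15087147689505079644)]]]]]],[[[[[[Int.ofNat (nat_lit 180407661109303897176)]]]]]]]],[[[[[[[[Int.negSucc (nat_lit 11837360175808990523)]]]]],[[[[[Int.ofNat (nat_lit 17200844372766187548)]]]]]]],[[[[[[[Int.negSucc (nat_lit 92863452338309785139)]]]]]]]],[[[],[[[[[[Int.ofNat (nat_lit 23175059177286281448)]]]]]]]],[[[[[[[[Int.ofNat (nat_lit 56085404374059409472)]]]]]]]]],[[[[[[[[[Int.negSucc (nat_lit 29681750322525356419)],[Int.ofNat (nat_lit 102434895459906605820)]]]]],[[[[[Int.ofNat (nat_lit 124884717819330051204)]]]]]],[[[],[[[[Int.ofNat (nat_lit 26739841891895996472)]]]]]],[[[[[[Int.negSucc (nat_lit 102434895459906605819)]]]]]]],[[[],[[[[[Int.ofNat (nat_lit 23522120708993323956)]]]]]]],[[[[[[[Int.ofNat (nat_lit 102434895459906605820)]]]]]]]],[[[[[],[[[[Int.negSucc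 (nat_lit 31084173262540821155)]]]]]],[[[[[[Int.ofNat (nat_lit 79708321172006536104)]]]]]]]],[[[[[[[[Int.ofNat (nat_lit 2362405737502375428)]]]]]]],[[[[[[[Int.ofNat (nat_lit 15087147689505079644)]]]]]]]]],[[[[[[[[[Int.ofNat (nat_lit 3945786725269663508)]]]]],[[[[[Int.ofNat (nat_lit 98051441556442950944)]]]]]]],[[[[[[[Int.ofNat (nat_lit 30954484112769928380)]]]]]]]],[[[],[[[[[[Int.ofNat (nat_lit 16043728622589903048)]]]]]]]],[[[[[[[[Int.negSucc (nat_lit 40948847536013565787)]]]]]]]]],[[[[[[[[[Int.ofNat (nat_lit 41628239273110017068)]]]]]]],[[[[[[[Int.ofNat (nat_lit 7840706902997774652)]]]]]]]]],[[[[[[[[[Int.ofNat (nat_lit 34144965153302201940)]]]]]]]]]]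

/-- A coefficient. -/
noncomputable def sr7_m2_1_3 : MP 10 :=
  [[[[[[[[[[Int.ofNat (nat_lit 0),Int.negSucc (nat_lit 75058313966235997007)]]]],[[[[Int.ofNat (nat_lit 1640186381132497996)],[Int.negSucc (nat_lit 4920559143397493987)]]]]],[[[[[Int.ofNat (nat_lit 0),Int.ofNat (nat_lit 5560377265009661820)]]]]]],[[[[[[Int.ofNat (nat_lit 8303102075446252728)],[Int.ofNat (nat_lit 63376640866080621624)]]]]]],[[[],[[[[Int.ofNat (nat_lit 4920559143397493988)]]]]]],[[[[[[Int.negSucc (nat_lit 63376640866080621623)]]]]]]],[[[[[[[Int.ofNat (nat_lit 0),Int.negSucc (nat_lit 97934920249073035223)]]]]]],[[[[[[Int.negSucc (nat_lit 150116627932471994015)]]]]],[[[[[Int.ofNat (nat_lit 11120754530019323640)]]]]]]],[[[[],[[[[Int.negSucc (nat_lit 4920559143397493987)]]]]]],[[[[[[Int.negSucc (nat_lit 132493199632065448823)]]]]]]]],[[[[[[[[Int.ofNat (nat_lit 30655402246336130160)],[Int.ofNat (nat_lit 262160116008009931728)]]]],[],[[[[Int.ofNat (nat_lit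 4920559143397493988)]]]]],[[[[[Int.negSucc (nat_lit 75058313966235997007)]]]]],[[[[[Int.ofNat (nat_lit 5560377265009661820)]]]]]],[[[],[[[[Int.negSucc (nat_lit 63376640866080621623)]]]]]],[[[[[[Int.negSucc (nat_lit 262160116008009931727)]]]]]]],[[[],[[[[[Int.negSucc (nat_lit 97934920249073035223)]]]]]]],[[[[[[[Int.ofNat (nat_lit 262160116008009931728)]]]]]]]],[[[[[[[[Int.ofNat (nat_lit 0),Int.ofNat (nat_lit 45162276102207706116)]]]],[[[[Int.negSucc (nat_lit 262160116008009931727)]]]]]]],[[],[[[[[[Int.ofNat (nat_lit 90324552204415412232)]]]]]]]],[[[[[[[[Int.ofNat (nat_lit 25019437988745332336)]]]]],[[[[[Int.ofNat (nat_lit 43308817013871152176)]]]]]]],[[[[[[[Int.ofNat (nat_lit 32644973416357678408)]]]]]]]],[],[[[[[[[[Int.negSucc (nat_lit 15054092034069235371)]]]]]]]]],[[[[[[[[[Int.ofNat (nat_lit 0),Int.negSucc (nat_lit 124547231729875029611)]]]],[[[[Int.negSucc (nat_lit 75058313966235997007)]]]]],[[],[[[[Int.ofNat (nat_lit 639818121612167832)]]]]]],[[],[[[[[Int.ofNat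 (nat_lit 63376640866080621624)]]]]]]],[[[[],[[[[Int.negSucc (nat_lit 97934920249073035223)]]]]]],[[[[[[Int.negSucc (nat_lit 249094463459750059223)]]]]]]]],[[[[[[[[Int.negSucc (nat_lit 10835889258945240987)],[Int.ofNat (nat_lit 61123120956984372924)]]]]],[[[[[Int.ofNat (nat_lit 137612884278134902116)]]]]]],[],[[[[[[Int.negSucc (nat_lit 61123120956984372923)]]]]]]],[],[[[[[[[Int.ofNat (nat_lit 61123120956984372924)]]]]]]]],[[[[[],[[[[Int.negSucc (nat_lit 11040285711379172819)]]]]]],[[[[[[Int.negSucc (nat_lit 63376640866080621623)]]]]]]]],[[[[[[[[Int.negSucc (nat_lit 220644372098051588523)]]]]]]]]],[[[[[[[[[Int.ofNat (nat_lit 0),Int.negSucc (nat_lit 39294830872962614339)]]]],[[[[Int.negSucc (nat_lit 124547231729875029611)]]]]]]],[[],[[[[[[Int.negSucc (nat_lit 78589661745925228679)]]]]]]]],[[[[[[[[Int.negSucc (nat_lit 75058313966235997007)]]]]],[[[[[Int.ofNat (nat_lit 27388667349031420404)]]]]]]],[[[[[[[Int.negSucc (nat_lit 97934920249073035223)]]]]]]]],[],[[[[[[[[Int.negSucc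 (nat_lit 2862567897122462027)]]]]]]]]],[[[[[[],[[[[Int.negSucc (nat_lit 40935017254095112335)]]]]]],[[[[[[Int.ofNat (nat_lit 21125546955360207208)]]]]]]]],[[[[[[[[Int.negSucc (nat_lit 37160526393871719035)]]]]]]]]],[[],[[[[[[[[Int.negSucc (nat_lit 18920457220634490031)]]]]]]]]]]

/-- A coefficient. -/
noncomputable def sr7_m2_1_4 : MP 10 :=
  [[[[[[[[[[Int.negSucc (nat_lit 21729053346934190347)],[Int.negSucc (nat_lit 292969369275121966859)]]]]]],[[[[[[Int.ofNat (nat_lit 0),Int.negSucc (nat_lit 10086043911530093531)]]]]]],[[[[[[Int.ofNat (nat_lit 292969369275121966860)]]]]]]],[[[[[[[Int.ofNat (nat_lit 4480610297403606728)],[Int.negSucc (nat_lit 27496218422449251095)]]]]]],[],[[[[[[Int.ofNat (nat_lit 7324130599389064032)]]]]]]],[[[[[[[Int.negSucc (nat_lit 292969369275121966859)]]]]]]],[[[[[[[Int.negSucc (nat_lit 27496218422449251095)]]]]]]]],[[[[[[[[Int.ofNat (nat_lit 0),Int.negSucc (nat_lit 199615406789660047103)]]]],[[[[Int.ofNat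 (nat_lit 292969369275121966860)]]]]]],[[],[[[[[Int.negSucc (nat_lit 10086043911530093531)]]]]]]],[[[[],[[[[Int.ofNat (nat_lit 27496218422449251096)]]]]]],[[[[[[Int.negSucc (nat_lit 399230813579320094207)]]]]]]]],[[[[],[[[[[Int.negSucc (nat_lit 199615406789660047103)]]]]]]]],[[[],[[[[[[Int.ofNat (nat_lit 3362014637176697844)]]]]]]]],[[[[[[[[Int.ofNat (nat_lit 66538468929886682368)]]]]]]]]],[[[[[[[[[Int.ofNat (nat_lit 10535220912920174156)],[Int.negSucc (nat_lit 77057518984242581723)]]]]],[[[[[Int.negSucc (nat_lit 292969369275121966859)]]]]]],[[[],[[[[Int.negSucc (nat_lit 10086043911530093531)]]]]]],[[[[[[Int.ofNat (nat_lit 77057518984242581724)]]]]]]],[[[],[[[[[Int.negSucc (nat_lit 27496218422449251095)]]]]]]],[[[[[[[Int.negSucc (nat_lit 77057518984242581723)]]]]]]]],[[[[[],[[[[Int.negSucc (nat_lit 122557887805417465379)]]]]]]]],[[[[[[[[Int.ofNat (nat_lit 292969369275121966860)]]]]]]],[[[[[[[Int.ofNat (nat_lit 27496218422449251096)]]]]]]]]],[[[[[],[[[[[Int.negSucc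 (nat_lit 77057518984242581723)]]]]]]]],[[[],[[[[[[Int.negSucc (nat_lit 10086043911530093531)]]]]]]]],[[[[[[[[Int.negSucc (nat_lit 122557887805417465379)]]]]]]]]],[[[[[[[[[Int.negSucc (nat_lit 97656456425040655619)]]]]]]],[[[[[[[Int.negSucc (nat_lit 9165406140816417031)]]]]]]]]],[[[[[[[[[Int.negSucc (nat_lit 25685839661414193907)]]]]]]]]]]

/-- A coefficient. -/
noncomputable def sr7_m2_1_5 : MP 10 :=
  [[[[[[[[[[Int.ofNat (nat_lit 0),Int.ofNat (nat_lit 230855078119433087676)]]]]]]],[[],[[[[[[Int.ofNat (nat_lit 461710156238866175352)]]]]]]]],[[[[[[[[Int.negSucc (nat_lit 6876190335826306287)],[Int.negSucc (nat_lit 43570357612067384831)]]]]],[[[[[Int.ofNat (nat_lit 230855078119433087676)]]]]]],[],[[[[[[Int.ofNat (nat_lit 43570357612067384832)]]]]]]],[],[[[[[[[Int.negSucc (nat_lit 43570357612067384831)]]]]]]]],[[[[[],[[[[Int.ofNat (nat_lit 43570357612067384832)]]]]]]]],[[[[[[[[Int.negSucc (nat_lit 76951692706477695891)]]]]]]]]],[[[[[[[[[Int.ofNat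 (nat_lit 0),Int.negSucc (nat_lit 16343765944093889915)]]]],[[[[Int.ofNat (nat_lit 230855078119433087676)]]]]]]],[[],[[[[[[Int.negSucc (nat_lit 32687531888187779831)]]]]]]]],[[[[],[[[[[Int.negSucc (nat_lit 59914123556161274747)]]]]]]]],[],[[[[[[[[Int.ofNat (nat_lit 49018279593432014804)]]]]]]]]],[[[[[[],[[[[Int.negSucc (nat_lit 16343765944093889915)]]]]]]]],[[[[[[[[Int.ofNat (nat_lit 230855078119433087676)]]]]]]]]],[[],[[[[[[[[Int.negSucc (nat_lit 30867218481449684859)]]]]]]]]]]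

/-- A coefficient. -/
noncomputable def sr7_m2_1_6 : MP 10 :=
  [[[[[[[[[[Int.negSucc (nat_lit 21504307002382551451)],[Int.ofNat (nat_lit 164060642817922834908)]]]]]],[],[[[[[[Int.negSucc (nat_lit 164060642817922834907)]]]]]]],[],[[[[[[[Int.ofNat (nat_lit 164060642817922834908)]]]]]]]],[[[[[],[[[[Int.negSucc (nat_lit 164060642817922834907)]]]]]]]]],[[[[[],[[[[[Int.ofNat (nat_lit 164060642817922834908)]]]]]]]],[],[[[[[[[[Int.negSucc (nat_lit 164060642817922834907)]]]]]]]]],[],[[[[[[[[[Int.ofNat (nat_lit 54686880939307611636)]]]]]]]]]]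

/-- A coefficient. -/
noncomputable def sr7_m2_1_7 : MP 10 :=
  [[[[[[[[[[Int.ofNat (nat_lit 0),Int.negSucc (nat_lit 26751341952755128799)]]]]]]],[[],[[[[[[Int.negSucc (nat_lit 53502683905510257599)]]]]]]]],[[[[],[[[[[Int.negSucc (nat_lit 26751341952755128799)]]]]]]]],[],[[[[[[[[Int.ofNat (nat_lit 8917113984251709600)]]]]]]]]],[[[[[[],[[[[Int.negSucc (nat_lit 26751341952755128799)]]]]]]]]],[[],[[[[[[[[Int.negSucc (nat_lit 26751341952755128799)]]]]]]]]]]

/-- A coefficient. -/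
noncomputable def sr7_m2_2_0 : MP 10 :=
  [[[[[[[[[[Int.ofNat (nat_lit 14228128510433594252)],[Int.ofNat (nat_lit 42684385531300782756)]]]],[[[[Int.ofNat (nat_lit 0),Int.ofNat (nat_lit 2992477681231650048)]]]]],[[[[[Int.negSucc (nat_lit 1094645511216644539)],[Int.negSucc (nat_lit 3283936533649933619)]]]]]],[[[[[[Int.ofNat (nat_lit 0),Int.negSucc (nat_lit 26618653462857669335)]]]]]],[[[[[[Int.negSucc (nat_lit 41005262427544996733)],[Int.negSucc (nat_lit 5037369311267358065)]]]]],[[[[[Int.ofNat (nat_lit 3283936533649933620)]]]]]],[],[[[[[[Int.ofNat (nat_lit 5037369311267358066)]]]]]]],[[[[[[[Int.negSucc (nat_lit 8424285165089201935)],[Int.negSucc (nat_lit 25272855495267605807)]]]]]],[[[[[[Int.ofNat (nat_lit 0),Int.ofNat (nat_lit 5820533927340964176)]]]],[[[[Int.ofNat (nat_lit 5984955362463300096)]]]]]],[[[[[[Int.negSucc (nat_lit 27964451430447732863)]]]]]]],[[[[[[[Int.ofNat (nat_lit 44634951292766532326)],[Int.ofNat (nat_lit 5851697284397248710)]]]]],[[[[[Int.negSucc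 (nat_lit 3283936533649933619)]]]]]],[],[[[[[[Int.ofNat (nat_lit 752001259017321576)]]]]]]],[[[[[[[Int.negSucc (nat_lit 25272855495267605807)]]]]]]],[[[[[[[Int.ofNat (nat_lit 5851697284397248710)]]]]]]]],[[[[[[[[Int.ofNat (nat_lit 0),Int.negSucc (nat_lit 59906215292506887983)]]]],[[[[Int.negSucc (nat_lit 47778798330122294367)],[Int.ofNat (nat_lit 15283238396464534836)]]]]],[[[[[Int.ofNat (nat_lit 0),Int.negSucc (nat_lit 8551271720429319275)]]]],[[[[Int.ofNat (nat_lit 6276414214881583668)]]]]]],[[[[[[Int.ofNat (nat_lit 12841112015960961660)],[Int.negSucc (nat_lit 38523336047882884979)]]]]],[[[[[Int.negSucc (nat_lit 26618653462857669335)]]]]]],[[[],[[[[Int.negSucc (nat_lit 10245869085197176769)]]]]]],[[[[[[Int.ofNat (nat_lit 38523336047882884980)]]]]]]],[[[[[[[Int.ofNat (nat_lit 0),Int.ofNat (nat_lit 31601106129029555928)]]]],[[[[Int.ofNat (nat_lit 25272855495267605808)]]]]]],[[[[[[Int.negSucc (nat_lit 119812430585013775967)]]]]],[[[[[Int.negSucc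 (nat_lit 11282009513517674375)]]]]]]],[[[[],[[[[Int.ofNat (nat_lit 9431541112067286126)]]]]]],[[[[[[Int.ofNat (nat_lit 24678876210176226876)]]]]]]]],[[[[[[[[Int.ofNat (nat_lit 32899574124294449378)],[Int.negSucc (nat_lit 77183009787723769133)]]]],[],[[[[Int.negSucc (nat_lit 15283238396464534835)]]]]],[[[[[Int.negSucc (nat_lit 59906215292506887983)]]]]],[[[[[Int.negSucc (nat_lit 8551271720429319275)]]]]]],[[[],[[[[Int.ofNat (nat_lit 38523336047882884980)]]]]]],[[[[[[Int.ofNat (nat_lit 77183009787723769134)]]]]]]],[[[],[[[[[Int.ofNat (nat_lit 31601106129029555928)]]]]]]],[[[[[[[Int.negSucc (nat_lit 77183009787723769133)]]]]]]]],[[[[[[[[Int.ofNat (nat_lit 0),Int.negSucc (nat_lit 1937979401561382251)]]]],[[[[Int.ofNat (nat_lit 76185517227313219118)]]]]]],[[[[[[Int.ofNat (nat_lit 8872884487619223112)]]]]]]],[[],[[[[[[Int.negSucc (nat_lit 5816136778903085895)]]]]]]]],[[[[[[[[Int.ofNat (nat_lit 19968738430835629328)]]]]],[[[[[Int.ofNat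 (nat_lit 912444505248390840)]]]]]]],[[[[[[[Int.negSucc (nat_lit 10533702043009851975)]]]]]]]],[],[[[[[[[[Int.ofNat (nat_lit 645993133853794084)]]]]]]]]],[[[[[[[[[Int.ofNat (nat_lit 17861902606415273240)],[Int.ofNat (nat_lit 53585707819245819720)]]]],[[[[Int.ofNat (nat_lit 0),Int.negSucc (nat_lit 3403759266075991487)]]]],[[[[Int.ofNat (nat_lit 2992477681231650048)]]]]],[[[[[Int.ofNat (nat_lit 41738531256004259052)],[Int.negSucc (nat_lit 2837562825889571111)]]]]],[[[[[Int.negSucc (nat_lit 3283936533649933619)]]]]]],[[[[[[Int.ofNat (nat_lit 0),Int.ofNat (nat_lit 1317899345607650328)]]]],[[[[Int.negSucc (nat_lit 26618653462857669335)]]]]]],[[[[[[Int.negSucc (nat_lit 53585707819245819719)]]]]],[[[[[Int.negSucc (nat_lit 2199806485377786953)]]]]]]],[[[[[[[Int.negSucc (nat_lit 1832438326403830659)],[Int.negSucc (nat_lit 5497314979211491979)]]]]],[[[[[Int.negSucc (nat_lit 25272855495267605807)]]]]]],[[[],[[[[Int.negSucc (nat_lit 986984604811018799)]]]]]],[[[[[[Int.ofNat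 (nat_lit 8133113670426792636)]]]]]]],[[[[[[[Int.ofNat (nat_lit 53585707819245819720)]]]]],[[[[[Int.ofNat (nat_lit 3014134458507677598)]]]]]]],[[[[[[[Int.negSucc (nat_lit 5497314979211491979)]]]]]]]],[[[[[[[[Int.ofNat (nat_lit 0),Int.negSucc (nat_lit 6479528965151562695)]]]],[[[[Int.negSucc (nat_lit 113491923111752707703)]]]]],[[],[[[[Int.ofNat (nat_lit 6165770235848795184)]]]]]],[[],[[[[[Int.negSucc (nat_lit 37205436702275234651)]]]]]]],[[[[],[[[[Int.ofNat (nat_lit 37098421108241047908)]]]]]],[[[[[[Int.negSucc (nat_lit 12959057930303125391)]]]]]]]],[[[[[[[[Int.negSucc (nat_lit 42834619537135699455)],[Int.ofNat (nat_lit 1289794943152178340)]]]]],[[[[[Int.negSucc (nat_lit 80378602219225398209)]]]]]],[],[[[[[[Int.ofNat (nat_lit 3747574368115179726)]]]]]]],[[[[[[[Int.ofNat (nat_lit 25272855495267605808)]]]]]]],[[[[[[[Int.negSucc (nat_lit 4561902341245070369)]]]]]]]],[[[[[],[[[[Int.negSucc (nat_lit 17376426319152764931)]]]]]],[[[[[[Int.ofNat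 (nat_lit 38084036266013668204)]]]]]]]],[[[[[[[[Int.ofNat (nat_lit 79342852776107623366)]]]]]]]]],[[[[[[[[[Int.ofNat (nat_lit 14020071553988373610)],[Int.ofNat (nat_lit 42060214661965120830)]]]],[],[[[[Int.negSucc (nat_lit 3403759266075991487)]]]]],[[[[[Int.ofNat (nat_lit 53585707819245819720)]]]]],[[[[[Int.negSucc (nat_lit 2837562825889571111)]]]]]],[[[],[[[[Int.ofNat (nat_lit 1317899345607650328)]]]]]],[[[[[[Int.negSucc (nat_lit 42060214661965120829)]]]]]]],[[[],[[[[[Int.negSucc (nat_lit 5497314979211491979)]]]]]]],[[[[[[[Int.ofNat (nat_lit 42060214661965120830)]]]]]]]],[[[[[[[[Int.ofNat (nat_lit 0),Int.negSucc (nat_lit 4832491273063234295)]]]],[[[[Int.negSucc (nat_lit 45547265945885033477)]]]]]],[[[[[[Int.negSucc (nat_lit 26618653462857669335)]]]]]]],[[],[[[[[[Int.negSucc (nat_lit 3844448618785504415)]]]]]]]],[[[[[[[[Int.negSucc (nat_lit 113491923111752707703)]]]]],[[[[[Int.negSucc (nat_lit 9256405224450804119)]]]]]]],[[[[[[[Int.ofNat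 (nat_lit 37098421108241047908)]]]]]]]],[],[[[[[[[[Int.negSucc (nat_lit 1616943920359149159)]]]]]]]]],[[[[[[[[[Int.ofNat (nat_lit 13641205315277097404)],[Int.negSucc (nat_lit 1760769585469490543)]]]]],[[[[[Int.ofNat (nat_lit 40965569150748476290)]]]]]],[],[[[[[[Int.ofNat (nat_lit 81646481713704522)]]]]]]],[[[[[[[Int.negSucc (nat_lit 8424285165089201935)]]]]]]],[[[[[[[Int.ofNat (nat_lit 189796175996259026)]]]]]]]],[[[[[],[[[[Int.negSucc (nat_lit 1381068154848223627)]]]]]],[[[[[[Int.negSucc (nat_lit 11523212670353311331)]]]]]]]],[[[[[[[[Int.negSucc (nat_lit 74267413556357939903)]]]]]]]]],[[[[[[[[[Int.ofNat (nat_lit 17861902606415273240)]]]]],[[[[[Int.negSucc (nat_lit 2706623860766014247)]]]]]]],[[[[[[[Int.negSucc (nat_lit 1832438326403830659)]]]]]]]],[],[[[[[[[[Int.negSucc (nat_lit 2641790039876350971)]]]]]]]]],[[[[[[[[[Int.ofNat (nat_lit 14020071553988373610)]]]]]]]]],[[[[[[[[[Int.negSucc (nat_lit 586923195156496847)]]]]]]]]]]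

/-- A coefficient. -/
noncomputable def sr7_m2_2_1 : MP 10 :=
  [[[[[[[[[[Int.ofNat (nat_lit 0),Int.ofNat (nat_lit 26213386254440171796)]]]],[[[[Int.negSucc (nat_lit 684154595859537191)],[Int.ofNat (nat_lit 2052463787578611576)]]]]],[[[[[Int.ofNat (nat_lit 0),Int.ofNat (nat_lit 1354395546477349980)]]]]]],[[[[[[Int.negSucc (nat_lit 12607494071745481819)],[Int.ofNat (nat_lit 6408110783042981580)]]]]]],[[[],[[[[Int.negSucc (nat_lit 2052463787578611575)]]]]]],[[[[[[Int.negSucc (nat_lit 6408110783042981579)]]]]]]],[[[[[[[Int.ofNat (nat_lit 0),Int.negSucc (nat_lit 13304870853247819139)]]]]]],[[[[[[Int.ofNat (nat_lit 52426772508880343592)]]]]],[[[[[Int.ofNat (nat_lit 2708791092954699960)]]]]]]],[[[[],[[[[Int.ofNat (nat_lit 2052463787578611576)]]]]]],[[[[[[Int.negSucc (nat_lit 20201630923452656699)]]]]]]]],[[[[[[[[Int.negSucc (nat_lit 31222994376982230579)],[Int.negSucc (nat_lit 120688119219330946523)]]]],[],[[[[Int.negSucc (nat_lit 2052463787578611575)]]]]],[[[[[Int.ofNat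 (nat_lit 26213386254440171796)]]]]],[[[[[Int.ofNat (nat_lit 1354395546477349980)]]]]]],[[[[[[Int.ofNat (nat_lit 0),Int.ofNat (nat_lit 32145252232861236912)]]]],[[[[Int.negSucc (nat_lit 6408110783042981579)]]]]]],[[[[[[Int.ofNat (nat_lit 120688119219330946524)]]]]]]],[[[[[[[Int.ofNat (nat_lit 10010112290974891976)],[Int.ofNat (nat_lit 41526491820526141800)]]]]],[[[[[Int.negSucc (nat_lit 13304870853247819139)]]]]]],[],[[[[[[Int.ofNat (nat_lit 22764012645196332024)]]]]]]],[[[[[[[Int.negSucc (nat_lit 120688119219330946523)]]]]]]],[[[[[[[Int.ofNat (nat_lit 41526491820526141800)]]]]]]]],[[[[[[[[Int.ofNat (nat_lit 0),Int.ofNat (nat_lit 54188369452298757660)]]]],[[[[Int.ofNat (nat_lit 120688119219330946524)]]]]]],[[],[[[[[Int.ofNat (nat_lit 32145252232861236912)]]]]]]],[[[[],[[[[Int.negSucc (nat_lit 41526491820526141799)]]]]]],[[[[[[Int.ofNat (nat_lit 108376738904597515320)]]]]]]]],[[[[[[[[Int.negSucc (nat_lit 8737795418146723931)]]]]],[[[[[Int.ofNat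 (nat_lit 53736904270139641000)]]]]]]],[[[[[[[Int.ofNat (nat_lit 4434956951082606380)]]]]]]]],[[[],[[[[[[Int.negSucc (nat_lit 10715084077620412303)]]]]]]]],[[[[[[[[Int.negSucc (nat_lit 18062789817432919219)]]]]]]]]],[[[[[[[[[Int.ofNat (nat_lit 0),Int.ofNat (nat_lit 30384499395027368520)]]]],[[[[Int.ofNat (nat_lit 26213386254440171796)]]]]],[[],[[[[Int.ofNat (nat_lit 3406859334055961556)]]]]]],[[[[[[Int.negSucc (nat_lit 6112626666403897863)],[Int.ofNat (nat_lit 14321732130426162912)]]]]],[[[[[Int.ofNat (nat_lit 6408110783042981580)]]]]]],[],[[[[[[Int.negSucc (nat_lit 14321732130426162911)]]]]]]],[[[[[[[Int.ofNat (nat_lit 0),Int.negSucc (nat_lit 9104804624189525795)]]]],[[[[Int.negSucc (nat_lit 13304870853247819139)]]]]]],[[[[[[Int.ofNat (nat_lit 60768998790054737040)]]]]]]],[[],[[[[[[Int.negSucc (nat_lit 3887877117952888679)]]]]]]]],[[[[[[[[Int.ofNat (nat_lit 5737150910352526460)],[Int.negSucc (nat_lit 87405620894226222995)]]]]],[[[[[Int.negSucc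 (nat_lit 90303619824303578003)]]]]]],[[[],[[[[Int.ofNat (nat_lit 17823520102435074000)]]]]]],[[[[[[Int.ofNat (nat_lit 87405620894226222996)]]]]]]],[[[],[[[[[Int.ofNat (nat_lit 32421687196336616004)]]]]]]],[[[[[[[Int.negSucc (nat_lit 87405620894226222995)]]]]]]]],[[[[[],[[[[Int.ofNat (nat_lit 139541526558946369080)]]]]]],[[[[[[Int.negSucc (nat_lit 6408110783042981579)]]]]]]]],[[[[[[[[Int.ofNat (nat_lit 110559952754321823684)]]]]]]],[[[[[[[Int.negSucc (nat_lit 38491556945796299867)]]]]]]]]],[[[[[[[[[Int.ofNat (nat_lit 0),Int.negSucc (nat_lit 11377831116389544191)]]]],[[[[Int.ofNat (nat_lit 30384499395027368520)]]]]]],[[],[[[[[Int.ofNat (nat_lit 14321732130426162912)]]]]]]],[[[[],[[[[Int.negSucc (nat_lit 9104804624189525795)]]]]]],[[[[[[Int.negSucc (nat_lit 22755662232779088383)]]]]]]]],[[[[[[[[Int.ofNat (nat_lit 26213386254440171796)]]]]],[[[[[Int.negSucc (nat_lit 97429056464138417207)]]]]]]],[[[[[[[Int.negSucc (nat_lit 13304870853247819139)]]]]]]]],[[[],[[[[[[Int.ofNat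 (nat_lit 17823520102435074000)]]]]]]]],[[[[[[[[Int.ofNat (nat_lit 145386600718654828720)]]]]]]]]],[[[[[[],[[[[Int.negSucc (nat_lit 10693676520530006999)]]]]]],[[[[[[Int.ofNat (nat_lit 2136036927680993860)]]]]]]]],[[[[[[[[Int.negSucc (nat_lit 9844873678082946987)]]]]]]],[[[[[[[Int.ofNat (nat_lit 4737359315985854804)]]]]]]]]],[[[[],[[[[[[Int.ofNat (nat_lit 4773910710142054304)]]]]]]]],[[[[[[[[Int.negSucc (nat_lit 40513038081131618523)]]]]]]]]]]

/-- A coefficient. -/
noncomputable def sr7_m2_2_2 : MP 10 :=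
  [[[[[[[[[[Int.ofNat (nat_lit 91243914502576867730)],[Int.negSucc (nat_lit 72980146103239719629)]]]],[[[[Int.ofNat (nat_lit 0),Int.ofNat (nat_lit 950696234918323128)]]]]],[[[[[Int.ofNat (nat_lit 1613287218112382716)],[Int.ofNat (nat_lit 4839861654337148148)]]]]]],[[[[[[Int.ofNat (nat_lit 0),Int.negSucc (nat_lit 10082697116915553011)]]]]]],[[[[[[Int.ofNat (nat_lit 72980146103239719630)]]]]],[[[[[Int.negSucc (nat_lit 4839861654337148147)]]]]]]],[[[[[[[Int.negSucc (nat_lit 14677830918425553031)],[Int.negSucc (nat_lit 24308717084763961895)]]]]]],[[[],[[[[Int.ofNat (nat_lit 1901392469836646256)]]]]]],[[[[[[Int.ofNat (nat_lit 4143322850932855872)]]]]]]],[[[[[[[Int.negSucc (nat_lit 72980146103239719629)]]]]],[[[[[Int.ofNat (nat_lit 4839861654337148148)]]]]]]],[[[[[[[Int.negSucc (nat_lit 24308717084763961895)]]]]]]]],[[[[[[[[Int.ofNat (nat_lit 0),Int.negSucc (nat_lit 197866577275370613563)]]]],[[[[Int.ofNat (nat_lit 72980146103239719630)]]]]],[[],[[[[Int.negSucc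 (nat_lit 3889165419418825019)]]]]]],[[],[[[[[Int.negSucc (nat_lit 10082697116915553011)]]]]]]],[[[[],[[[[Int.ofNat (nat_lit 24308717084763961896)]]]]]],[[[[[[Int.negSucc (nat_lit 395733154550741227127)]]]]]]]],[[[[[[[[Int.ofNat (nat_lit 23048934072033150444)],[Int.ofNat (nat_lit 87833920314713026236)]]]]],[[[[[Int.negSucc (nat_lit 197866577275370613563)]]]]]],[],[[[[[[Int.negSucc (nat_lit 87833920314713026235)]]]]]]],[],[[[[[[[Int.ofNat (nat_lit 87833920314713026236)]]]]]]]],[[[[[],[[[[Int.negSucc (nat_lit 88150819059685800611)]]]]]],[[[[[[Int.ofNat (nat_lit 3360899038971851004)]]]]]]]],[[[[[[[[Int.ofNat (nat_lit 65955525758456871188)]]]]]]]]],[[[[[[[[[Int.ofNat (nat_lit 64882501789673522100)],[Int.negSucc (nat_lit 224772068294668143443)]]]],[],[[[[Int.ofNat (nat_lit 950696234918323128)]]]]],[[[[[Int.negSucc (nat_lit 72980146103239719629)]]]]],[[[[[Int.ofNat (nat_lit 4839861654337148148)]]]]]],[[[],[[[[Int.negSucc (nat_lit 10082697116915553011)]]]]]],[[[[[[Int.ofNat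 (nat_lit 224772068294668143444)]]]]]]],[[[],[[[[[Int.negSucc (nat_lit 24308717084763961895)]]]]]]],[[[[[[[Int.negSucc (nat_lit 224772068294668143443)]]]]]]]],[[[[[[[[Int.ofNat (nat_lit 0),Int.negSucc (nat_lit 93613107411059203403)]]]],[[[[Int.ofNat (nat_lit 26905491019297529880)]]]]]]],[[],[[[[[[Int.negSucc (nat_lit 187226214822118406807)]]]]]]]],[[[[[[[[Int.ofNat (nat_lit 72980146103239719630)]]]]],[[[[[Int.negSucc (nat_lit 10619048750683325315)]]]]]]],[[[[[[[Int.ofNat (nat_lit 24308717084763961896)]]]]]]]],[],[[[[[[[[Int.negSucc (nat_lit 56629551177693291767)]]]]]]]]],[[[[[[[[[Int.ofNat (nat_lit 32421370441212996778)],[Int.negSucc (nat_lit 100117311368783810885)]]]]],[[[[[Int.negSucc (nat_lit 224772068294668143443)]]]]]],[],[[[[[[Int.ofNat (nat_lit 100117311368783810886)]]]]]]],[],[[[[[[[Int.negSucc (nat_lit 100117311368783810885)]]]]]]]],[[[[[],[[[[Int.ofNat (nat_lit 7454900192642930610)]]]]]],[[[[[[Int.negSucc (nat_lit 10082697116915553011)]]]]]]]],[[[[[[[[Int.ofNat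 (nat_lit 26905491019297529880)]]]]]]]]],[[[[[[[[[Int.negSucc (nat_lit 24326715367746573209)]]]]],[[[[[Int.negSucc (nat_lit 98504024150671428169)]]]]]]],[[[[[[[Int.negSucc (nat_lit 8102905694921320631)]]]]]]]],[],[[[[[[[[Int.ofNat (nat_lit 35782177395962282894)]]]]]]]]],[[[[[[[[[Int.negSucc (nat_lit 74924022764889381147)]]]]]]]]],[[[[[[[[[Int.negSucc (nat_lit 33372437122927936961)]]]]]]]]]]

/-- A coefficient. -/
noncomputable def sr7_m2_2_3 : MP 10 :=
  [[[[[[[[[[Int.ofNat (nat_lit 0),Int.ofNat (nat_lit 43528394109318373512)]]]]]],[[[[[[Int.ofNat (nat_lit 1871769199242088672)],[Int.ofNat (nat_lit 323955356148941664)]]]]]],[],[[[[[[Int.negSucc (nat_lit 323955356148941663)]]]]]]],[[[[[[[Int.ofNat (nat_lit 0),Int.ofNat (nat_lit 24649014738137440464)]]]]]],[[[[[[Int.ofNat (nat_lit 87056788218636747024)]]]]]]],[[],[[[[[[Int.ofNat (nat_lit 49621984832423822592)]]]]]]]],[[[[[[[[Int.negSucc (nat_lit 24648048224151961151)],[Int.negSucc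 (nat_lit 122589207811129722503)]]]]],[[[[[Int.ofNat (nat_lit 43528394109318373512)]]]]]],[[[],[[[[Int.negSucc (nat_lit 323955356148941663)]]]]]],[[[[[[Int.ofNat (nat_lit 122589207811129722504)]]]]]]],[[[],[[[[[Int.ofNat (nat_lit 24649014738137440464)]]]]]]],[[[[[[[Int.negSucc (nat_lit 122589207811129722503)]]]]]]]],[[[[[],[[[[Int.ofNat (nat_lit 122589207811129722504)]]]]]]]],[[[[[[[[Int.negSucc (nat_lit 14509464703106124503)]]]]]]],[[[[[[[Int.negSucc (nat_lit 8216338246045813487)]]]]]]]]],[[[[[[[[[Int.ofNat (nat_lit 0),Int.ofNat (nat_lit 99228616690825794732)]]]],[[[[Int.ofNat (nat_lit 43528394109318373512)]]]]]],[[],[[[[[Int.ofNat (nat_lit 323955356148941664)]]]]]]],[[[[],[[[[Int.ofNat (nat_lit 24649014738137440464)]]]]]],[[[[[[Int.ofNat (nat_lit 198457233381651589464)]]]]]]]],[[[[],[[[[[Int.negSucc (nat_lit 23360591120303927771)]]]]]]]],[[[],[[[[[[Int.negSucc (nat_lit 323955356148941663)]]]]]]]],[[[[[[[[Int.ofNat (nat_lit 89513002247521124260)]]]]]]]]],[[[[[[],[[[[Int.ofNat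 (nat_lit 99228616690825794732)]]]]]]]],[[[[[[[[Int.ofNat (nat_lit 43528394109318373512)]]]]]]],[[[[[[[Int.ofNat (nat_lit 24649014738137440464)]]]]]]]]],[[[[],[[[[[[Int.ofNat (nat_lit 107985118716313888)]]]]]]]],[[[[[[[[Int.ofNat (nat_lit 58365547420449220564)]]]]]]]]]]

/-- A coefficient. -/
noncomputable def sr7_m2_2_4 : MP 10 :=
  [[[[[[[[[[Int.ofNat (nat_lit 43841942813594461464)],[Int.ofNat (nat_lit 260506288412279741280)]]]]]],[],[[[[[[Int.negSucc (nat_lit 260506288412279741279)]]]]]]],[],[[[[[[[Int.ofNat (nat_lit 260506288412279741280)]]]]]]]],[[[[[[[[Int.ofNat (nat_lit 0),Int.ofNat (nat_lit 61831524134714322360)]]]],[[[[Int.negSucc (nat_lit 260506288412279741279)]]]]]]],[[],[[[[[[Int.ofNat (nat_lit 123663048269428644720)]]]]]]]],[[[[],[[[[[Int.ofNat (nat_lit 61831524134714322360)]]]]]]]],[],[[[[[[[[Int.negSucc (nat_lit 20610508044904774119)]]]]]]]]],[[[[[[[[[Int.negSucc (nat_lit 14605041692925086263)],[Int.negSucc (nat_lit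 21233840325735741815)]]]]],[[[[[Int.ofNat (nat_lit 260506288412279741280)]]]]]],[],[[[[[[Int.ofNat (nat_lit 21233840325735741816)]]]]]]],[],[[[[[[[Int.negSucc (nat_lit 21233840325735741815)]]]]]]]],[[[[[],[[[[Int.ofNat (nat_lit 83065364460450064176)]]]]]]]],[[[[[[[[Int.negSucc (nat_lit 260506288412279741279)]]]]]]]]],[[[[[],[[[[[Int.negSucc (nat_lit 21233840325735741815)]]]]]]]],[],[[[[[[[[Int.ofNat (nat_lit 83065364460450064176)]]]]]]]]],[[[[[[[[[Int.ofNat (nat_lit 86835429470759913760)]]]]]]]]],[[[[[[[[[Int.negSucc (nat_lit 7077946775245247271)]]]]]]]]]]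

/-- A coefficient. -/
noncomputable def sr7_m2_2_5 : MP 10 :=
  [[[[[[[[[[Int.ofNat (nat_lit 0),Int.negSucc (nat_lit 163305634986578609015)]]]]]]],[[],[[[[[[Int.negSucc (nat_lit 326611269973157218031)]]]]]]]],[[[[],[[[[[Int.negSucc (nat_lit 163305634986578609015)]]]]]]]],[],[[[[[[[[Int.ofNat (nat_lit 54435211662192869672)]]]]]]]]],[[[[[[],[[[[Int.negSucc (nat_lit 163305634986578609015)]]]]]]]]],[[],[[[[[[[[Int.negSucc (nat_lit 163305634986578609015)]]]]]]]]]]

/-- A coefficient. -/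
noncomputable def sr7_m2_2_6 : MP 10 :=
  [[[[[[[[[[Int.ofNat (nat_lit 46478460729454535502)],[Int.negSucc (nat_lit 80637196465965681641)]]]]]],[],[[[[[[Int.ofNat (nat_lit 80637196465965681642)]]]]]]],[],[[[[[[[Int.negSucc (nat_lit 80637196465965681641)]]]]]]]],[[[[[],[[[[Int.ofNat (nat_lit 80637196465965681642)]]]]]]]]],[[[[[],[[[[[Int.negSucc (nat_lit 80637196465965681641)]]]]]]]],[],[[[[[[[[Int.ofNat (nat_lit 80637196465965681642)]]]]]]]]],[],[[[[[[[[[Int.negSucc (nat_lit 26879065488655227213)]]]]]]]]]]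

/-- A coefficient. -/
noncomputable def sr7_m2_3_0 : MP 10 :=
  [[[[[[[[[[Int.negSucc (nat_lit 26945111310258950775)],[Int.negSucc (nat_lit 80835333930776852327)]]]],[[[[Int.ofNat (nat_lit 0),Int.negSucc (nat_lit 14124555948202981103)]]]]],[[[[[Int.negSucc (nat_lit 3282620705273922807)],[Int.negSucc (nat_lit 9847862115821768423)]]]]]],[[[[[[Int.ofNat (nat_lit 0),Int.ofNat (nat_lit 36593510008620529932)]]]]]],[[[[[[Int.ofNat (nat_lit 80835333930776852328)]]]]],[[[[[Int.ofNat (nat_lit 9847862115821768424)]]]]]]],[[[[[[[Int.ofNat (nat_lit 10556607328022510128)],[Int.ofNat (nat_lit 31669821984067530384)]]]]]],[[[],[[[[Int.negSucc (nat_lit 28249111896405962207)]]]]]],[[[[[[Int.ofNat (nat_lit 41517198033173529480)]]]]]]],[[[[[[[Int.negSucc (nat_lit 80835333930776852327)]]]]],[[[[[Int.negSucc (nat_lit 9847862115821768423)]]]]]]],[[[[[[[Int.ofNat (nat_lit 31669821984067530384)]]]]]]]],[[[[[[[[Int.ofNat (nat_lit 0),Int.ofNat (nat_lit 76064800500101227176)]]]],[[[[Int.ofNat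 (nat_lit 80835333930776852328)]]]]],[[],[[[[Int.negSucc (nat_lit 4276693832381212679)]]]]]],[[[[[[Int.negSucc (nat_lit 5762195561876410855)],[Int.ofNat (nat_lit 17286586685629232568)]]]]],[[[[[Int.ofNat (nat_lit 36593510008620529932)]]]]]],[],[[[[[[Int.negSucc (nat_lit 17286586685629232567)]]]]]]],[[[[[[[Int.ofNat (nat_lit 0),Int.negSucc (nat_lit 13648254807437612231)]]]],[[[[Int.negSucc (nat_lit 31669821984067530383)]]]]]],[[[[[[Int.ofNat (nat_lit 152129601000202454352)]]]]]]],[[],[[[[[[Int.negSucc (nat_lit 10009922929245991895)]]]]]]]],[[[[[[[[Int.negSucc (nat_lit 33801794131405600083)],[Int.ofNat (nat_lit 100389527880412186260)]]]]],[[[[[Int.ofNat (nat_lit 76064800500101227176)]]]]]],[[[],[[[[Int.negSucc (nat_lit 17286586685629232567)]]]]]],[[[[[[Int.negSucc (nat_lit 100389527880412186259)]]]]]]],[[[],[[[[[Int.negSucc (nat_lit 13648254807437612231)]]]]]]],[[[[[[[Int.ofNat (nat_lit 100389527880412186260)]]]]]]]],[[[[[],[[[[Int.negSucc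 (nat_lit 95681342564344525891)]]]]]],[[[[[[Int.negSucc (nat_lit 12197836669540176643)]]]]]]]],[[[[[[[[Int.negSucc (nat_lit 25354933500033742391)]]]]]]],[[[[[[[Int.ofNat (nat_lit 4549418269145870744)]]]]]]]]],[[[[[[[[[Int.negSucc (nat_lit 8713932658359795415)],[Int.negSucc (nat_lit 26141797975079386247)]]]],[],[[[[Int.negSucc (nat_lit 14124555948202981103)]]]]],[[[[[Int.negSucc (nat_lit 80835333930776852327)]]]]],[[[[[Int.negSucc (nat_lit 9847862115821768423)]]]]]],[[[[[[Int.ofNat (nat_lit 0),Int.negSucc (nat_lit 3088143429992320175)]]]],[[[[Int.ofNat (nat_lit 36593510008620529932)]]]]]],[[[[[[Int.ofNat (nat_lit 26141797975079386248)]]]]]]],[[[[[[[Int.ofNat (nat_lit 1099081664210511268)],[Int.ofNat (nat_lit 3297244992631533804)]]]]],[[[[[Int.ofNat (nat_lit 31669821984067530384)]]]]]],[],[[[[[[Int.negSucc (nat_lit 9473531852616174155)]]]]]]],[[[[[[[Int.negSucc (nat_lit 26141797975079386247)]]]]]]],[[[[[[[Int.ofNat (nat_lit 3297244992631533804)]]]]]]]],[[[[[[[[Int.ofNat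 (nat_lit 0),Int.negSucc (nat_lit 19370604202143642647)]]]],[[[[Int.ofNat (nat_lit 102206598475180613424)]]]]]],[[],[[[[[Int.ofNat (nat_lit 14198443255636912392)]]]]]]],[[[[],[[[[Int.negSucc (nat_lit 16945499800069146035)]]]]]],[[[[[[Int.negSucc (nat_lit 38741208404287285295)]]]]]]]],[[[[[[[[Int.ofNat (nat_lit 80835333930776852328)]]]]],[[[[[Int.ofNat (nat_lit 90866785794090312036)]]]]]]],[[[[[[[Int.negSucc (nat_lit 31669821984067530383)]]]]]]]],[[[],[[[[[[Int.negSucc (nat_lit 16257205542298459175)]]]]]]]],[[[[[[[[Int.negSucc (nat_lit 93932659813030972043)]]]]]]]]],[[[[[[[[[Int.negSucc (nat_lit 7680149368343174859)],[Int.negSucc (nat_lit 23040448105029524579)]]]]],[[[[[Int.negSucc (nat_lit 26141797975079386247)]]]]]],[[[],[[[[Int.negSucc (nat_lit 3088143429992320175)]]]]]],[[[[[[Int.ofNat (nat_lit 23040448105029524580)]]]]]]],[[[],[[[[[Int.ofNat (nat_lit 3297244992631533804)]]]]]]],[[[[[[[Int.negSucc (nat_lit 23040448105029524579)]]]]]]]],[[[[[],[[[[Int.negSucc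 (nat_lit 10454712045317099171)]]]]]],[[[[[[Int.ofNat (nat_lit 36593510008620529932)]]]]]]]],[[[[[[[[Int.ofNat (nat_lit 102206598475180613424)]]]]]]],[[[[[[[Int.negSucc (nat_lit 16945499800069146035)]]]]]]]]],[[[[[[[[[Int.negSucc (nat_lit 26945111310258950775)]]]]],[[[[[Int.negSucc (nat_lit 26323068810303447387)]]]]]]],[[[[[[[Int.ofNat (nat_lit 10556607328022510128)]]]]]]]],[[[],[[[[[[Int.ofNat (nat_lit 2674052131884090680)]]]]]]]],[[[[[[[[Int.ofNat (nat_lit 37133019863023277352)]]]]]]]]],[[[[[[[[[Int.negSucc (nat_lit 8713932658359795415)]]]]]]],[[[[[[[Int.ofNat (nat_lit 1099081664210511268)]]]]]]]]],[[[[[[[[[Int.negSucc (nat_lit 7680149368343174859)]]]]]]]]]]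

/-- A coefficient. -/
noncomputable def sr7_m2_3_1 : MP 10 :=
  [[[[[[[[[[Int.ofNat (nat_lit 0),Int.ofNat (nat_lit 33367457929014070116)]]]],[[[[Int.ofNat (nat_lit 6695737104540186940)],[Int.negSucc (nat_lit 20087211313620560819)]]]]],[[[[[Int.ofNat (nat_lit 0),Int.ofNat (nat_lit 12537394228256164752)]]]]]],[[[[[[Int.negSucc (nat_lit 5395727953698339787)],[Int.ofNat (nat_lit 50461054517729681604)]]]]]],[[[],[[[[Int.ofNat (nat_lit 20087211313620560820)]]]]]],[[[[[[Int.negSucc (nat_lit 50461054517729681603)]]]]]]],[[[[[[[Int.ofNat (nat_lit 0),Int.negSucc (nat_lit 64099315071179910539)]]]]]],[[[[[[Int.ofNat (nat_lit 66734915858028140232)]]]]],[[[[[Int.ofNat (nat_lit 25074788456512329504)]]]]]]],[[[[],[[[[Int.negSucc (nat_lit 20087211313620560819)]]]]]],[[[[[[Int.negSucc (nat_lit 77737575624630139475)]]]]]]]],[[[[[[[[Int.ofNat (nat_lit 6770597475230033704)],[Int.ofNat (nat_lit 122340687515892405840)]]]],[],[[[[Int.ofNat (nat_lit 20087211313620560820)]]]]],[[[[[Int.ofNat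 (nat_lit 33367457929014070116)]]]]],[[[[[Int.ofNat (nat_lit 12537394228256164752)]]]]]],[[[],[[[[Int.negSucc (nat_lit 50461054517729681603)]]]]]],[[[[[[Int.negSucc (nat_lit 122340687515892405839)]]]]]]],[[[],[[[[[Int.negSucc (nat_lit 64099315071179910539)]]]]]]],[[[[[[[Int.ofNat (nat_lit 122340687515892405840)]]]]]]]],[[[[[[[[Int.ofNat (nat_lit 0),Int.negSucc (nat_lit 35859013030687658591)]]]],[[[[Int.negSucc (nat_lit 122340687515892405839)]]]]]]],[[],[[[[[[Int.negSucc (nat_lit 71718026061375317183)]]]]]]]],[[[[[[[[Int.negSucc (nat_lit 11122485976338023371)]]]]],[[[[[Int.negSucc (nat_lit 40038144440106380175)]]]]]]],[[[[[[[Int.ofNat (nat_lit 21366438357059970180)]]]]]]]],[],[[[[[[[[Int.ofNat (nat_lit 11953004343562552864)]]]]]]]]],[[[[[[[[[Int.ofNat (nat_lit 0),Int.negSucc (nat_lit 76362780158526791411)]]]],[[[[Int.ofNat (nat_lit 33367457929014070116)]]]]],[[],[[[[Int.negSucc (nat_lit 7549817085364396067)]]]]]],[[],[[[[[Int.ofNat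 (nat_lit 50461054517729681604)]]]]]]],[[[[],[[[[Int.negSucc (nat_lit 64099315071179910539)]]]]]],[[[[[[Int.negSucc (nat_lit 152725560317053582823)]]]]]]]],[[[[[[[[Int.negSucc (nat_lit 778977985467315547)],[Int.ofNat (nat_lit 40841142109746470844)]]]]],[[[[[Int.ofNat (nat_lit 45977907357365614428)]]]]]],[],[[[[[[Int.negSucc (nat_lit 40841142109746470843)]]]]]]],[],[[[[[[[Int.ofNat (nat_lit 40841142109746470844)]]]]]]]],[[[[[],[[[[Int.negSucc (nat_lit 56612943826813568615)]]]]]],[[[[[[Int.negSucc (nat_lit 50461054517729681603)]]]]]]]],[[[[[[[[Int.negSucc (nat_lit 96886427463050142035)]]]]]]]]],[[[[[[[[[Int.ofNat (nat_lit 0),Int.negSucc (nat_lit 12744900494137392983)]]]],[[[[Int.negSucc (nat_lit 76362780158526791411)]]]]]]],[[],[[[[[[Int.negSucc (nat_lit 25489800988274785967)]]]]]]]],[[[[[[[[Int.ofNat (nat_lit 33367457929014070116)]]]]],[[[[[Int.ofNat (nat_lit 40633635843865242612)]]]]]]],[[[[[[[Int.negSucc (nat_lit 64099315071179910539)]]]]]]]],[],[[[[[[[[Int.negSucc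 (nat_lit 72451854975721665107)]]]]]]]]],[[[[[[],[[[[Int.negSucc (nat_lit 19440637598677579923)]]]]]],[[[[[[Int.ofNat (nat_lit 16820351505909893868)]]]]]]]],[[[[[[[[Int.negSucc (nat_lit 35582550986562656131)]]]]]]]]],[[],[[[[[[[[Int.ofNat (nat_lit 868813542444763964)]]]]]]]]]]

/-- A coefficient. -/
noncomputable def sr7_m2_3_2 : MP 10 :=
  [[[[[[[[[[Int.negSucc (nat_lit 39892684625010587607)],[Int.negSucc (nat_lit 18183737530797488711)]]]]]],[[[[[[Int.ofNat (nat_lit 0),Int.negSucc (nat_lit 56789528931680396675)]]]]]],[[[[[[Int.ofNat (nat_lit 18183737530797488712)]]]]]]],[[[[[[[Int.ofNat (nat_lit 8755187200501786952)],[Int.negSucc (nat_lit 66462257353603780991)]]]]]],[],[[[[[[Int.negSucc (nat_lit 47116800509757012359)]]]]]]],[[[[[[[Int.negSucc (nat_lit 18183737530797488711)]]]]]]],[[[[[[[Int.negSucc (nat_lit 66462257353603780991)]]]]]]]],[[[[[[[[Int.ofNat (nat_lit 0),Int.negSucc (nat_lit 87324927831950314811)]]]],[[[[Int.ofNat (nat_lit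 18183737530797488712)]]]]]],[[],[[[[[Int.negSucc (nat_lit 56789528931680396675)]]]]]]],[[[[],[[[[Int.ofNat (nat_lit 66462257353603780992)]]]]]],[[[[[[Int.negSucc (nat_lit 174649855663900629623)]]]]]]]],[[[[],[[[[[Int.negSucc (nat_lit 87324927831950314811)]]]]]]]],[[[],[[[[[[Int.ofNat (nat_lit 18929842977226798892)]]]]]]]],[[[[[[[[Int.ofNat (nat_lit 29108309277316771604)]]]]]]]]],[[[[[[[[[Int.ofNat (nat_lit 26612585336764637612)],[Int.negSucc (nat_lit 10694509402447766171)]]]]],[[[[[Int.negSucc (nat_lit 18183737530797488711)]]]]]],[[[],[[[[Int.negSucc (nat_lit 56789528931680396675)]]]]]],[[[[[[Int.ofNat (nat_lit 10694509402447766172)]]]]]]],[[[],[[[[[Int.negSucc (nat_lit 66462257353603780991)]]]]]]],[[[[[[[Int.negSucc (nat_lit 10694509402447766171)]]]]]]]],[[[[[],[[[[Int.negSucc (nat_lit 76630418429502548639)]]]]]]]],[[[[[[[[Int.ofNat (nat_lit 18183737530797488712)]]]]]]],[[[[[[[Int.ofNat (nat_lit 66462257353603780992)]]]]]]]]],[[[[[],[[[[[Int.negSucc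 (nat_lit 10694509402447766171)]]]]]]]],[[[],[[[[[[Int.negSucc (nat_lit 56789528931680396675)]]]]]]]],[[[[[[[[Int.negSucc (nat_lit 76630418429502548639)]]]]]]]]],[[[[[[[[[Int.negSucc (nat_lit 6061245843599162903)]]]]]]],[[[[[[[Int.negSucc (nat_lit 22154085784534593663)]]]]]]]]],[[[[[[[[[Int.negSucc (nat_lit 3564836467482588723)]]]]]]]]]]

/-- A coefficient. -/
noncomputable def sr7_m2_3_3 : MP 10 :=
  [[[[[[[[[[Int.ofNat (nat_lit 0),Int.ofNat (nat_lit 336210399754593401964)]]]]]]],[[],[[[[[[Int.ofNat (nat_lit 672420799509186803928)]]]]]]]],[[[[[[[[Int.negSucc (nat_lit 15693409836632597071)],[Int.negSucc (nat_lit 188213322509036508959)]]]]],[[[[[Int.ofNat (nat_lit 336210399754593401964)]]]]]],[],[[[[[[Int.ofNat (nat_lit 188213322509036508960)]]]]]]],[],[[[[[[[Int.negSucc (nat_lit 188213322509036508959)]]]]]]]],[[[[[],[[[[Int.ofNat (nat_lit 188213322509036508960)]]]]]]]],[[[[[[[[Int.negSucc (nat_lit 112070133251531133987)]]]]]]]]],[[[[[[[[[Int.ofNat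 (nat_lit 0),Int.ofNat (nat_lit 73800774054558684276)]]]],[[[[Int.ofNat (nat_lit 336210399754593401964)]]]]]]],[[],[[[[[[Int.ofNat (nat_lit 147601548109117368552)]]]]]]]],[[[[],[[[[[Int.negSucc (nat_lit 114412548454477824683)]]]]]]]],[],[[[[[[[[Int.ofNat (nat_lit 163613064490850280868)]]]]]]]]],[[[[[[],[[[[Int.ofNat (nat_lit 73800774054558684276)]]]]]]]],[[[[[[[[Int.ofNat (nat_lit 336210399754593401964)]]]]]]]]],[[],[[[[[[[[Int.ofNat (nat_lit 11062999884879847956)]]]]]]]]]]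

/-- A coefficient. -/
noncomputable def sr7_m2_3_4 : MP 10 :=
  [[[[[[[[[[Int.negSucc (nat_lit 98681850094815303179)],[Int.negSucc (nat_lit 67162069037200521491)]]]]]],[],[[[[[[Int.ofNat (nat_lit 67162069037200521492)]]]]]]],[],[[[[[[[Int.negSucc (nat_lit 67162069037200521491)]]]]]]]],[[[[[],[[[[Int.ofNat (nat_lit 67162069037200521492)]]]]]]]]],[[[[[],[[[[[Int.negSucc (nat_lit 67162069037200521491)]]]]]]]],[],[[[[[[[[Int.ofNat (nat_lit 67162069037200521492)]]]]]]]]],[],[[[[[[[[[Int.negSucc (nat_lit 22387356345733507163)]]]]]]]]]]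

/-- A coefficient. -/
noncomputable def sr7_m2_3_5 : MP 10 :=
  [[[[[[[[[[Int.ofNat (nat_lit 0),Int.ofNat (nat_lit 30158261035756125096)]]]]]]],[[],[[[[[[Int.ofNat (nat_lit 60316522071512250192)]]]]]]]],[[[[],[[[[[Int.ofNat (nat_lit 30158261035756125096)]]]]]]]],[],[[[[[[[[Int.negSucc (nat_lit 10052753678585375031)]]]]]]]]],[[[[[[],[[[[Int.ofNat (nat_lit 30158261035756125096)]]]]]]]]],[[],[[[[[[[[Int.ofNat (nat_lit 30158261035756125096)]]]]]]]]]]

/-- A coefficient. -/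
noncomputable def sr7_m2_4_0 : MP 10 :=
  [[[[[[[[[[Int.ofNat (nat_lit 33326692647629504820)],[Int.ofNat (nat_lit 99980077942888514460)]]]],[[[[Int.ofNat (nat_lit 0),Int.ofNat (nat_lit 7213554810734344152)]]]]],[[[[[Int.ofNat (nat_lit 1834352575924869004)],[Int.ofNat (nat_lit 5503057727774607012)]]]]]],[[[[[[Int.ofNat (nat_lit 0),Int.negSucc (nat_lit 23481462166230775223)]]]]]],[[[[[[Int.negSucc (nat_lit 99980077942888514459)]]]]],[[[[[Int.negSucc (nat_lit 5503057727774607011)]]]]]]],[[[[[[[Int.negSucc (nat_lit 5154396411681684463)],[Int.negSucc (nat_lit 15463189235045053391)]]]]]],[[[],[[[[Int.ofNat (nat_lit 14427109621468688304)]]]]]],[[[[[[Int.negSucc (nat_lit 31499735097416497055)]]]]]]],[[[[[[[Int.ofNat (nat_lit 99980077942888514460)]]]]],[[[[[Int.ofNat (nat_lit 5503057727774607012)]]]]]]],[[[[[[[Int.negSucc (nat_lit 15463189235045053391)]]]]]]]],[[[[[[[[Int.ofNat (nat_lit 0),Int.negSucc (nat_lit 76472565259701651827)]]]],[[[[Int.negSucc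 (nat_lit 99980077942888514459)]]]]],[[],[[[[Int.ofNat (nat_lit 1710497082959737140)]]]]]],[[],[[[[[Int.negSucc (nat_lit 23481462166230775223)]]]]]]],[[[[],[[[[Int.ofNat (nat_lit 15463189235045053392)]]]]]],[[[[[[Int.negSucc (nat_lit 152945130519403303655)]]]]]]]],[[[[[[[[Int.ofNat (nat_lit 13454849425005430416)],[Int.negSucc (nat_lit 42930698199209743583)]]]]],[[[[[Int.negSucc (nat_lit 76472565259701651827)]]]]]],[],[[[[[[Int.ofNat (nat_lit 42930698199209743584)]]]]]]],[],[[[[[[[Int.negSucc (nat_lit 42930698199209743583)]]]]]]]],[[[[[],[[[[Int.ofNat (nat_lit 40526179928964962200)]]]]]],[[[[[[Int.ofNat (nat_lit 7827154055410258408)]]]]]]]],[[[[[[[[Int.ofNat (nat_lit 25490855086567217276)]]]]]]]]],[[[[[[[[[Int.negSucc (nat_lit 19502373859432307603)],[Int.negSucc (nat_lit 58507121578296922811)]]]],[],[[[[Int.ofNat (nat_lit 7213554810734344152)]]]]],[[[[[Int.ofNat (nat_lit 99980077942888514460)]]]]],[[[[[Int.ofNat (nat_lit 5503057727774607012)]]]]]],[[[],[[[[Int.negSucc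 (nat_lit 23481462166230775223)]]]]]],[[[[[[Int.ofNat (nat_lit 58507121578296922812)]]]]]]],[[[],[[[[[Int.negSucc (nat_lit 15463189235045053391)]]]]]]],[[[[[[[Int.negSucc (nat_lit 58507121578296922811)]]]]]]]],[[[[[[[[Int.ofNat (nat_lit 0),Int.ofNat (nat_lit 13131951336616563336)]]]],[[[[Int.negSucc (nat_lit 17965443681404729015)]]]]]]],[[],[[[[[[Int.ofNat (nat_lit 26263902673233126672)]]]]]]]],[[[[[[[[Int.negSucc (nat_lit 99980077942888514459)]]]]],[[[[[Int.negSucc (nat_lit 35301804590367787259)]]]]]]],[[[[[[[Int.ofNat (nat_lit 15463189235045053392)]]]]]]]],[],[[[[[[[[Int.ofNat (nat_lit 38553381087004222472)]]]]]]]]],[[[[[[[[[Int.ofNat (nat_lit 3389684573282433814)],[Int.ofNat (nat_lit 10169053719847301442)]]]]],[[[[[Int.negSucc (nat_lit 58507121578296922811)]]]]]],[],[[[[[[Int.negSucc (nat_lit 10169053719847301441)]]]]]]],[],[[[[[[[Int.ofNat (nat_lit 10169053719847301442)]]]]]]]],[[[[[],[[[[Int.ofNat (nat_lit 10176452427503606046)]]]]]],[[[[[[Int.negSucc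 (nat_lit 23481462166230775223)]]]]]]]],[[[[[[[[Int.negSucc (nat_lit 17965443681404729015)]]]]]]]]],[[[[[[[[[Int.ofNat (nat_lit 33326692647629504820)]]]]],[[[[[Int.ofNat (nat_lit 12003406295772170446)]]]]]]],[[[[[[[Int.negSucc (nat_lit 5154396411681684463)]]]]]]]],[],[[[[[[[[Int.negSucc (nat_lit 11347335116300652633)]]]]]]]]],[[[[[[[[[Int.negSucc (nat_lit 19502373859432307603)]]]]]]]]],[[[[[[[[[Int.ofNat (nat_lit 3389684573282433814)]]]]]]]]]]

/-- A coefficient. -/
noncomputable def sr7_m2_4_1 : MP 10 :=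
  [[[[[[[[[[Int.ofNat (nat_lit 0),Int.negSucc (nat_lit 103435418369549538239)]]]]]],[[[[[[Int.ofNat (nat_lit 8632479224595643716)],[Int.negSucc (nat_lit 33580068964374218291)]]]]]],[],[[[[[[Int.ofNat (nat_lit 33580068964374218292)]]]]]]],[[[[[[[Int.ofNat (nat_lit 0),Int.ofNat (nat_lit 43729863396937496988)]]]]]],[[[[[[Int.negSucc (nat_lit 206870836739099076479)]]]]]]],[[],[[[[[[Int.ofNat (nat_lit 53879657829500775684)]]]]]]]],[[[[[[[[Int.ofNat (nat_lit 29385489079395285840)],[Int.negSucc (nat_lit 139807399696886827007)]]]]],[[[[[Int.negSucc (nat_lit 103435418369549538239)]]]]]],[[[],[[[[Int.ofNat (nat_lit 33580068964374218292)]]]]]],[[[[[[Int.ofNat (nat_lit 139807399696886827008)]]]]]]],[[[],[[[[[Int.ofNat (nat_lit 43729863396937496988)]]]]]]],[[[[[[[Int.negSucc (nat_lit 139807399696886827007)]]]]]]]],[[[[[],[[[[Int.ofNat (nat_lit 139807399696886827008)]]]]]]]],[[[[[[[[Int.ofNat (nat_lit 34478472789849846080)]]]]]]],[[[[[[[Int.negSucc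 (nat_lit 14576621132312498995)]]]]]]]]],[[[[[[[[[Int.ofNat (nat_lit 0),Int.ofNat (nat_lit 90167415790844040672)]]]],[[[[Int.negSucc (nat_lit 103435418369549538239)]]]]]],[[],[[[[[Int.negSucc (nat_lit 33580068964374218291)]]]]]]],[[[[],[[[[Int.ofNat (nat_lit 43729863396937496988)]]]]]],[[[[[[Int.ofNat (nat_lit 180334831581688081344)]]]]]]]],[[[[],[[[[[Int.negSucc (nat_lit 49639983906042786335)]]]]]]]],[[[],[[[[[[Int.ofNat (nat_lit 33580068964374218292)]]]]]]]],[[[[[[[[Int.ofNat (nat_lit 109751594433272146784)]]]]]]]]],[[[[[[],[[[[Int.ofNat (nat_lit 90167415790844040672)]]]]]]]],[[[[[[[[Int.negSucc (nat_lit 103435418369549538239)]]]]]]],[[[[[[[Int.ofNat (nat_lit 43729863396937496988)]]]]]]]]],[[[[],[[[[[[Int.negSucc (nat_lit 11193356321458072763)]]]]]]]],[[[[[[[[Int.ofNat (nat_lit 43564949225215098336)]]]]]]]]]]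

/-- A coefficient. -/
noncomputable def sr7_m2_4_2 : MP 10 :=
  [[[[[[[[[[Int.ofNat (nat_lit 12153907029585006306)],[Int.ofNat (nat_lit 206708640668784258522)]]]]]],[],[[[[[[Int.negSucc (nat_lit 206708640668784258521)]]]]]]],[],[[[[[[[Int.ofNat (nat_lit 206708640668784258522)]]]]]]]],[[[[[[[[Int.ofNat (nat_lit 0),Int.ofNat (nat_lit 206056782690831167196)]]]],[[[[Int.negSucc (nat_lit 206708640668784258521)]]]]]]],[[],[[[[[[Int.ofNat (nat_lit 412113565381662334392)]]]]]]]],[[[[],[[[[[Int.ofNat (nat_lit 206056782690831167196)]]]]]]]],[],[[[[[[[[Int.negSucc (nat_lit 68685594230277055731)]]]]]]]]],[[[[[[[[[Int.negSucc (nat_lit 65033125108246032103)],[Int.ofNat (nat_lit 155297071442473984464)]]]]],[[[[[Int.ofNat (nat_lit 206708640668784258522)]]]]]],[],[[[[[[Int.negSucc (nat_lit 155297071442473984463)]]]]]]],[],[[[[[[[Int.ofNat (nat_lit 155297071442473984464)]]]]]]]],[[[[[],[[[[Int.ofNat (nat_lit 50759711248357182732)]]]]]]]],[[[[[[[[Int.negSucc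 (nat_lit 206708640668784258521)]]]]]]]]],[[[[[],[[[[[Int.ofNat (nat_lit 155297071442473984464)]]]]]]]],[],[[[[[[[[Int.ofNat (nat_lit 50759711248357182732)]]]]]]]]],[[[[[[[[[Int.ofNat (nat_lit 68902880222928086174)]]]]]]]]],[[[[[[[[[Int.ofNat (nat_lit 51765690480824661488)]]]]]]]]]]

/-- A coefficient. -/
noncomputable def sr7_m2_4_3 : MP 10 :=
  [[[[[[[[[[Int.ofNat (nat_lit 0),Int.negSucc (nat_lit 340662455082550470035)]]]]]]],[[],[[[[[[Int.negSucc (nat_lit 681324910165100940071)]]]]]]]],[[[[],[[[[[Int.negSucc (nat_lit 340662455082550470035)]]]]]]]],[],[[[[[[[[Int.ofNat (nat_lit 113554151694183490012)]]]]]]]]],[[[[[[],[[[[Int.negSucc (nat_lit 340662455082550470035)]]]]]]]]],[[],[[[[[[[[Int.negSucc (nat_lit 340662455082550470035)]]]]]]]]]]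

/-- A coefficient. -/
noncomputable def sr7_m2_4_4 : MP 10 :=
  [[[[[[[[[[Int.ofNat (nat_lit 95205378798411587392)],[Int.ofNat (nat_lit 148499703393137692992)]]]]]],[],[[[[[[Int.negSucc (nat_lit 148499703393137692991)]]]]]]],[],[[[[[[[Int.ofNat (nat_lit 148499703393137692992)]]]]]]]],[[[[[],[[[[Int.negSucc (nat_lit 148499703393137692991)]]]]]]]]],[[[[[],[[[[[Int.ofNat (nat_lit 148499703393137692992)]]]]]]]],[],[[[[[[[[Int.negSucc (nat_lit 148499703393137692991)]]]]]]]]],[],[[[[[[[[[Int.ofNat (nat_lit 49499901131045897664)]]]]]]]]]]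

/-- A coefficient. -/
noncomputable def sr7_m2_5_0 : MP 10 :=
  [[[[[[[[[[Int.negSucc (nat_lit 44896002524226018927)],[Int.negSucc (nat_lit 134688007572678056783)]]]]]],[[[[[[Int.ofNat (nat_lit 0),Int.ofNat (nat_lit 6524443710860207424)]]]]]],[[[[[[Int.ofNat (nat_lit 134688007572678056784)]]]]]]],[[[[[[[Int.ofNat (nat_lit 685641886862645892)],[Int.ofNat (nat_lit 2056925660587937676)]]]]]],[],[[[[[[Int.ofNat (nat_lit 10991961761132477172)]]]]]]],[[[[[[[Int.negSucc (nat_lit 134688007572678056783)]]]]]]],[[[[[[[Int.ofNat (nat_lit 2056925660587937676)]]]]]]]],[[[[[[[[Int.ofNat (nat_lit 0),Int.ofNat (nat_lit 56981109406849774344)]]]],[[[[Int.ofNat (nat_lit 134688007572678056784)]]]]]],[[],[[[[[Int.ofNat (nat_lit 6524443710860207424)]]]]]]],[[[[],[[[[Int.negSucc (nat_lit 2056925660587937675)]]]]]],[[[[[[Int.ofNat (nat_lit 113962218813699548688)]]]]]]]],[[[[],[[[[[Int.ofNat (nat_lit 56981109406849774344)]]]]]]]],[[[],[[[[[[Int.negSucc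 (nat_lit 2174814570286735807)]]]]]]]],[[[[[[[[Int.negSucc (nat_lit 18993703135616591447)]]]]]]]]],[[[[[[[[[Int.ofNat (nat_lit 21857882133075860096)],[Int.ofNat (nat_lit 65573646399227580288)]]]]],[[[[[Int.negSucc (nat_lit 134688007572678056783)]]]]]],[[[],[[[[Int.ofNat (nat_lit 6524443710860207424)]]]]]],[[[[[[Int.negSucc (nat_lit 65573646399227580287)]]]]]]],[[[],[[[[[Int.ofNat (nat_lit 2056925660587937676)]]]]]]],[[[[[[[Int.ofNat (nat_lit 65573646399227580288)]]]]]]]],[[[[[],[[[[Int.negSucc (nat_lit 8592536992377805943)]]]]]]]],[[[[[[[[Int.ofNat (nat_lit 134688007572678056784)]]]]]]],[[[[[[[Int.negSucc (nat_lit 2056925660587937675)]]]]]]]]],[[[[[],[[[[[Int.ofNat (nat_lit 65573646399227580288)]]]]]]]],[[[],[[[[[[Int.ofNat (nat_lit 6524443710860207424)]]]]]]]],[[[[[[[[Int.negSucc (nat_lit 8592536992377805943)]]]]]]]]],[[[[[[[[[Int.negSucc (nat_lit 44896002524226018927)]]]]]]],[[[[[[[Int.ofNat (nat_lit 685641886862645892)]]]]]]]]],[[[[[[[[[Int.ofNat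 (nat_lit 21857882133075860096)]]]]]]]]]]

/-- A coefficient. -/
noncomputable def sr7_m2_5_1 : MP 10 :=
  [[[[[[[[[[Int.ofNat (nat_lit 0),Int.ofNat (nat_lit 193023614158334752416)]]]]]]],[[],[[[[[[Int.ofNat (nat_lit 386047228316669504832)]]]]]]]],[[[[[[[[Int.negSucc (nat_lit 22660078465836227991)],[Int.ofNat (nat_lit 68347645964647931784)]]]]],[[[[[Int.ofNat (nat_lit 193023614158334752416)]]]]]],[],[[[[[[Int.negSucc (nat_lit 68347645964647931783)]]]]]]],[],[[[[[[[Int.ofNat (nat_lit 68347645964647931784)]]]]]]]],[[[[[],[[[[Int.negSucc (nat_lit 68347645964647931783)]]]]]]]],[[[[[[[[Int.negSucc (nat_lit 64341204719444917471)]]]]]]]]],[[[[[[[[[Int.ofNat (nat_lit 0),Int.negSucc (nat_lit 9852917723483695163)]]]],[[[[Int.ofNat (nat_lit 193023614158334752416)]]]]]]],[[],[[[[[[Int.negSucc (nat_lit 19705835446967390327)]]]]]]]],[[[[],[[[[[Int.ofNat (nat_lit 58494728241164236620)]]]]]]]],[],[[[[[[[[Int.negSucc (nat_lit 65063340056820033395)]]]]]]]]],[[[[[[],[[[[Int.negSucc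 (nat_lit 9852917723483695163)]]]]]]]],[[[[[[[[Int.ofNat (nat_lit 193023614158334752416)]]]]]]]]],[[],[[[[[[[[Int.ofNat (nat_lit 12929630931398948764)]]]]]]]]]]

/-- A coefficient. -/
noncomputable def sr7_m2_5_2 : MP 10 :=
  [[[[[[[[[[Int.negSucc (nat_lit 91720525063914230483)],[Int.negSucc (nat_lit 321113898140986043)]]]]]],[],[[[[[[Int.ofNat (nat_lit 321113898140986044)]]]]]]],[],[[[[[[[Int.negSucc (nat_lit 321113898140986043)]]]]]]]],[[[[[],[[[[Int.ofNat (nat_lit 321113898140986044)]]]]]]]]],[[[[[],[[[[[Int.negSucc (nat_lit 321113898140986043)]]]]]]]],[],[[[[[[[[Int.ofNat (nat_lit 321113898140986044)]]]]]]]]],[],[[[[[[[[[Int.negSucc (nat_lit 107037966046995347)]]]]]]]]]]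

/-- A coefficient. -/
noncomputable def sr7_m2_5_3 : MP 10 :=
  [[[[[[[[[[Int.ofNat (nat_lit 0),Int.negSucc (nat_lit 37164092749596206543)]]]]]]],[[],[[[[[[Int.negSucc (nat_lit 74328185499192413087)]]]]]]]],[[[[],[[[[[Int.negSucc (nat_lit 37164092749596206543)]]]]]]]],[],[[[[[[[[Int.ofNat (nat_lit 12388030916532068848)]]]]]]]]],[[[[[[],[[[[Int.negSucc (nat_lit 37164092749596206543)]]]]]]]]],[[],[[[[[[[[Int.negSucc (nat_lit 37164092749596206543)]]]]]]]]]]

/-- A coefficient. -/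
noncomputable def sr7_m2_6_0 : MP 10 :=
  [[[[[[[[[[Int.ofNat (nat_lit 59170837941906710758)],[Int.ofNat (nat_lit 177512513825720132274)]]]]]],[],[[[[[[Int.negSucc (nat_lit 177512513825720132273)]]]]]]],[],[[[[[[[Int.ofNat (nat_lit 177512513825720132274)]]]]]]]],[[[[[[[[Int.ofNat (nat_lit 0),Int.negSucc (nat_lit 18338101311383707211)]]]],[[[[Int.negSucc (nat_lit 177512513825720132273)]]]]]]],[[],[[[[[[Int.negSucc (nat_lit 36676202622767414423)]]]]]]]],[[[[],[[[[[Int.negSucc (nat_lit 18338101311383707211)]]]]]]]],[],[[[[[[[[Int.ofNat (nat_lit 6112700437127902404)]]]]]]]]],[[[[[[[[[Int.negSucc (nat_lit 8021875968091766411)],[Int.negSucc (nat_lit 24065627904275299235)]]]]],[[[[[Int.ofNat (nat_lit 177512513825720132274)]]]]]],[],[[[[[[Int.ofNat (nat_lit 24065627904275299236)]]]]]]],[],[[[[[[[Int.negSucc (nat_lit 24065627904275299235)]]]]]]]],[[[[[],[[[[Int.ofNat (nat_lit 5727526592891592024)]]]]]]]],[[[[[[[[Int.negSucc (nat_lit 177512513825720132273)]]]]]]]]],[[[[[],[[[[[Int.negSucc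 (nat_lit 24065627904275299235)]]]]]]]],[],[[[[[[[[Int.ofNat (nat_lit 5727526592891592024)]]]]]]]]],[[[[[[[[[Int.ofNat (nat_lit 59170837941906710758)]]]]]]]]],[[[[[[[[[Int.negSucc (nat_lit 8021875968091766411)]]]]]]]]]]

/-- A coefficient. -/
noncomputable def sr7_m2_6_1 : MP 10 :=
  [[[[[[[[[[Int.ofNat (nat_lit 0),Int.negSucc (nat_lit 186096897634501589327)]]]]]]],[[],[[[[[[Int.negSucc (nat_lit 372193795269003178655)]]]]]]]],[[[[],[[[[[Int.negSucc (nat_lit 186096897634501589327)]]]]]]]],[],[[[[[[[[Int.ofNat (nat_lit 62032299211500529776)]]]]]]]]],[[[[[[],[[[[Int.negSucc (nat_lit 186096897634501589327)]]]]]]]]],[[],[[[[[[[[Int.negSucc (nat_lit 186096897634501589327)]]]]]]]]]]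

/-- A coefficient. -/
noncomputable def sr7_m2_6_2 : MP 10 :=
  [[[[[[[[[[Int.ofNat (nat_lit 80966559657036545624)],[Int.negSucc (nat_lit 135600360162184331399)]]]]]],[],[[[[[[Int.ofNat (nat_lit 135600360162184331400)]]]]]]],[],[[[[[[[Int.negSucc (nat_lit 135600360162184331399)]]]]]]]],[[[[[],[[[[Int.ofNat (nat_lit 135600360162184331400)]]]]]]]]],[[[[[],[[[[[Int.negSucc (nat_lit 135600360162184331399)]]]]]]]],[],[[[[[[[[Int.ofNat (nat_lit 135600360162184331400)]]]]]]]]],[],[[[[[[[[[Int.negSucc (nat_lit 45200120054061443799)]]]]]]]]]]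

/-- A coefficient. -/
noncomputable def sr7_m2_7_0 : MP 10 :=
  [[[[[[[[[[Int.negSucc (nat_lit 41879766462035053383)],[Int.negSucc (nat_lit 125639299386105160151)]]]]]],[],[[[[[[Int.ofNat (nat_lit 125639299386105160152)]]]]]]],[],[[[[[[[Int.negSucc (nat_lit 125639299386105160151)]]]]]]]],[[[[[],[[[[Int.ofNat (nat_lit 125639299386105160152)]]]]]]]]],[[[[[],[[[[[Int.negSucc (nat_lit 125639299386105160151)]]]]]]]],[],[[[[[[[[Int.ofNat (nat_lit 125639299386105160152)]]]]]]]]],[],[[[[[[[[[Int.negSucc (nat_lit 41879766462035053383)]]]]]]]]]]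

/-- A coefficient. -/
noncomputable def sr7_m2_7_1 : MP 10 :=
  [[[[[[[[[[Int.ofNat (nat_lit 0),Int.ofNat (nat_lit 53308061743160184024)]]]]]]],[[],[[[[[[Int.ofNat (nat_lit 106616123486320368048)]]]]]]]],[[[[],[[[[[Int.ofNat (nat_lit 53308061743160184024)]]]]]]]],[],[[[[[[[[Int.negSucc (nat_lit 17769353914386728007)]]]]]]]]],[[[[[[],[[[[Int.ofNat (nat_lit 53308061743160184024)]]]]]]]]],[[],[[[[[[[[Int.ofNat (nat_lit 53308061743160184024)]]]]]]]]]]

/-- A coefficient. -/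
noncomputable def sr7_m2_8_0 : MP 10 :=
  [[[[[[[[[[Int.ofNat (nat_lit 11736142430749015852)],[Int.ofNat (nat_lit 35208427292247047556)]]]]]],[],[[[[[[Int.negSucc (nat_lit 35208427292247047555)]]]]]]],[],[[[[[[[Int.ofNat (nat_lit 35208427292247047556)]]]]]]]],[[[[[],[[[[Int.negSucc (nat_lit 35208427292247047555)]]]]]]]]],[[[[[],[[[[[Int.ofNat (nat_lit 35208427292247047556)]]]]]]]],[],[[[[[[[[Int.negSucc (nat_lit 35208427292247047555)]]]]]]]]],[],[[[[[[[[[Int.ofNat (nat_lit 11736142430749015852)]]]]]]]]]]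

/-- An expanded part. -/
noncomputable def sr7_m2 : R12 :=
  [[sr7_m2_0_0, sr7_m2_0_1, sr7_m2_0_2, sr7_m2_0_3, sr7_m2_0_4, sr7_m2_0_5, sr7_m2_0_6, sr7_m2_0_7, sr7_m2_0_8],
   [sr7_m2_1_0, sr7_m2_1_1, sr7_m2_1_2, sr7_m2_1_3, sr7_m2_1_4, sr7_m2_1_5, sr7_m2_1_6, sr7_m2_1_7],
   [sr7_m2_2_0, sr7_m2_2_1, sr7_m2_2_2, sr7_m2_2_3, sr7_m2_2_4, sr7_m2_2_5, sr7_m2_2_6],
   [sr7_m2_3_0, sr7_m2_3_1, sr7_m2_3_2, sr7_m2_3_3, sr7_m2_3_4, sr7_m2_3_5],
   [sr7_m2_4_0, sr7_m2_4_1, sr7_m2_4_2, sr7_m2_4_3, sr7_m2_4_4],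
   [sr7_m2_5_0, sr7_m2_5_1, sr7_m2_5_2, sr7_m2_5_3],
   [sr7_m2_6_0, sr7_m2_6_1, sr7_m2_6_2],
   [sr7_m2_7_0, sr7_m2_7_1],
   [sr7_m2_8_0]]

set_option maxRecDepth 100000 in
theorem sr7_check2 : partOk 4 sr7_rows 2 sr7_m2 = true :=
  Fast.partOk_of_fast (by decide +kernel)

end Vale.Agent.P142K.CertB
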