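import Vale.Agent.P142K.CertB.Sr7Rows
import Vale.Agent.P142K.Fast
import Vale.Agent.P142K.CertB.Sr6Part3

/-!
# An expanded part of the certificate

Generated from a semidefinite program; only the checker is trusted.
-/

namespace Vale.Agent.P142K.CertB

open Vale.Agent.P142J (MP)

/-- A coefficient. -/
noncomputable def sr7_m3_0_0 : MP 10 :=
  [[[[[],[[[[[[Int.ofNat (nat_lit 0),Int.ofNat (nat_lit 373060761542560872)]],[[Int.negSucc (nat_lit 187440628561477355)],[Int.ofNat (nat_lit 435627686978432628)]]],[[[Int.ofNat (nat_lit 0),Int.ofNat (nat_lit 377990340923937384)]],[[Int.negSucc (nat_lit 119343495348265691)]]]],[[[[Int.ofNat (nat_lit 3534485421868634064)],[Int.ofNat (nat_lit 628457163810424752)]]],[[[Int.ofNat (nat_lit 2426942921458896324)]]]]],[[[[[Int.ofNat (nat_lit 0),Int.ofNat (nat_lit 598500341654459136)]],[[Int.ofNat (nat_lit 2945645368556558748)]]]],[[[[Int.ofNat (nat_lit 4663238596385757384)]]]]]],[[[[[[Int.negSucc (nat_lit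 6596777001013946255)],[Int.negSucc (nat_lit 2560488234814498343)]]],[[[Int.ofNat (nat_lit 441436603720380024)]]]]],[[[[[Int.negSucc (nat_lit 6182841412106019107)]]]]]],[[[[[],[[Int.negSucc (nat_lit 2418520277524491431)]]]],[[[[Int.negSucc (nat_lit 3317717368357968191)]]]]]],[[[[[[Int.ofNat (nat_lit 1445584235853058236)]]]]]]],[[[[[[[Int.negSucc (nat_lit 1632882608996055047)],[Int.ofNat (nat_lit 763216246872241656)]],[[Int.ofNat (nat_lit 0),Int.negSucc (nat_lit 305531060127492311)]],[[Int.ofNat (nat_lit 535946983435399236)]]],[[[Int.ofNat (nat_lit 323906338006591428)],[Int.ofNat (nat_lit 355573063677986544)]]],[[[Int.ofNat (nat_lit 748777029071316348)]]]],[[[[Int.ofNat (nat_lit 0),Int.negSucc (nat_lit 178884567588776087)]],[[Int.negSucc (nat_lit 2963565710508336683)]]]],[[[[Int.negSucc (nat_lit 2461108473599859707)]]]]],[[[[[Int.ofNat (nat_lit 3719573218218196488)],[Int.ofNat (nat_lit 1070146028648508384)]]],[[[Int.ofNat (nat_lit 615596410256499372)]]]]],[[[[[Int.ofNat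 (nat_lit 1539463081375747884)]]]]]],[[[[[[Int.ofNat (nat_lit 0),Int.ofNat (nat_lit 1471903652037394776)]],[[Int.ofNat (nat_lit 1283145728464037808)]]]],[[[[Int.ofNat (nat_lit 12591785478943767036)]]]]]],[[[[[[Int.negSucc (nat_lit 14724620171215127531)]]],[[[Int.negSucc (nat_lit 749615813123290079)]]]]],[[[[[Int.negSucc (nat_lit 2342499636756470003)]]]]]]],[[[[[[[Int.negSucc (nat_lit 637528857139481615)],[Int.negSucc (nat_lit 794955828642743783)]]],[[[Int.negSucc (nat_lit 1075136307009187619)]]]]],[[[[[Int.ofNat (nat_lit 1055338664288729964)]]]]]],[[[[[],[[Int.negSucc (nat_lit 3687778365073887335)]]]],[[[[Int.negSucc (nat_lit 5603933647764199319)]]]]]],[[[[[[Int.ofNat (nat_lit 2232894181052506872)]]]]]]],[[[[[[[Int.negSucc (nat_lit 5533217020126052327)]]],[[[Int.negSucc (nat_lit 1599319270242995675)]]]]],[[[[[Int.negSucc (nat_lit 4684270940372150579)]]]]]]],[[[[[[[Int.ofNat (nat_lit 847932355284737700)]]]]]]]],[[[],[[[[[[Int.negSucc (nat_lit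 4294267916548017551)],[Int.ofNat (nat_lit 3471349642872169320)]]],[[[Int.negSucc (nat_lit 7331910237431680055)]]]],[[[],[[Int.ofNat (nat_lit 118597392969920124)]]]],[[[[Int.negSucc (nat_lit 308302542353916815)]]]]],[[[[[Int.negSucc (nat_lit 7823336471043716639)]]],[[[Int.ofNat (nat_lit 79995172374373560)]]]]],[[[[[Int.negSucc (nat_lit 2733771023799237731)]]]]]],[[[[[[Int.ofNat (nat_lit 0),Int.negSucc (nat_lit 341021871544155839)]],[[Int.ofNat (nat_lit 3580450130234783796)]]]],[[[[Int.ofNat (nat_lit 9674508323545391376)]]]]]],[[[[[[Int.negSucc (nat_lit 18752083327167881087)]]]]]]],[[[[[[[Int.ofNat (nat_lit 0),Int.negSucc (nat_lit 2138729857622734223)]],[[Int.ofNat (nat_lit 2686969435681532496)]]]],[[[[Int.negSucc (nat_lit 4252226276145254987)]]],[[[Int.ofNat (nat_lit 53282623318965756)]]]]],[[[[],[[Int.ofNat (nat_lit 713766557452944348)]]]],[[[[Int.ofNat (nat_lit 478693395760807716)]]]]]],[[[[[[Int.ofNat (nat_lit 39617110130755172148)],[Int.negSucc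 (nat_lit 29189415301680455)]]],[[[Int.negSucc (nat_lit 721785347288976947)]]]]],[[[[[Int.ofNat (nat_lit 19987021337084210244)]]]]]],[],[[[[[[Int.negSucc (nat_lit 1478860504914253835)]]]]]]],[[[[[[[Int.ofNat (nat_lit 0),Int.negSucc (nat_lit 216966504282866879)]],[[Int.negSucc (nat_lit 668187402706342523)]]]],[[[[Int.negSucc (nat_lit 7462983817582677095)]]]]]],[[[[[[Int.ofNat (nat_lit 13803433048116569580)]]]]]]],[[],[[[[[[Int.negSucc (nat_lit 4957422836362024307)]]]]]]]],[[[],[[[[[[Int.ofNat (nat_lit 0),Int.negSucc (nat_lit 1096412504246695367)]],[[Int.negSucc (nat_lit 4732533406256524679)]]]],[[[[Int.negSucc (nat_lit 13692809004245941463)]]]]]],[[[[[[Int.ofNat (nat_lit 56499581314487846304)]]]]],[[[[[Int.negSucc (nat_lit 4406015855941435139)]]]]]]],[[[[[[[Int.negSucc (nat_lit 35964168512171822195)],[Int.negSucc (nat_lit 1692177765188272319)]]],[[[Int.ofNat (nat_lit 507002999913546180)]]]]],[[[[[Int.negSucc (nat_lit 9611888631207676427)]]]]]],[[[],[[[[Int.negSucc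 (nat_lit 898882100381151647)]]]]]],[[[[[[Int.ofNat (nat_lit 10697078772845678784)]]]]]]],[[[[[[[Int.negSucc (nat_lit 20192099721245056655)]]]]],[[[[[Int.negSucc (nat_lit 130601821052427407)]]]]]]],[[[[[[[Int.ofNat (nat_lit 499437706332611160)]]]]]]]],[[[],[[[[[[Int.negSucc (nat_lit 42046073622668313851)]]],[[[Int.negSucc (nat_lit 382591049253867239)]]]]],[[[[[Int.ofNat (nat_lit 8230387050821910480)]]]]]]],[[[[[[],[[Int.negSucc (nat_lit 591136375271216735)]]]],[[[[Int.negSucc (nat_lit 831780859590521603)]]]]]],[[[[[[Int.negSucc (nat_lit 23544875228615413667)]]]]]]]],[[[],[],[[[[[[Int.ofNat (nat_lit 4241022657113151648)]]]]]]],[[[[[[[Int.ofNat (nat_lit 2551632081099834300)]]]]]]],[[[[[[[Int.negSucc (nat_lit 2783245458764242127)]]]]]]]],[[[],[[[[[[Int.negSucc (nat_lit 6247657176090929747)]]]]]]]]],[[[[],[[[[[[Int.ofNat (nat_lit 0),Int.negSucc (nat_lit 2190441586993017719)]],[[Int.negSucc (nat_lit 2553387848365146419)]]]],[[[[Int.negSucc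 (nat_lit 5031335060308967303)]]],[[[Int.ofNat (nat_lit 399011094218845236)]]]]],[[[[],[[Int.ofNat (nat_lit 973744302908348352)]]]],[[[[Int.ofNat (nat_lit 3723806968865778528)]]]]]],[[[[[[Int.negSucc (nat_lit 7019793366219225803)],[Int.negSucc (nat_lit 1511489866273766999)]]],[[[Int.ofNat (nat_lit 62758655284154208)]]]]],[[[[[Int.negSucc (nat_lit 7826790620922110807)]]]]]],[],[[[[[[Int.ofNat (nat_lit 3825367465414898004)]]]]]]],[[[[[[[Int.negSucc (nat_lit 8178833060420590811)],[Int.negSucc (nat_lit 2254927380524167211)]]],[[[Int.ofNat (nat_lit 1106055253703366904)]]]],[[[],[[Int.negSucc (nat_lit 585395714635166627)]]]],[[[[Int.negSucc (nat_lit 1317367438835732675)]]]]],[[[[[Int.ofNat (nat_lit 120433262177000028)]]],[[[Int.ofNat (nat_lit 1134001030985808576)]]]]],[[[[[Int.negSucc (nat_lit 451427550768137639)]]]]]],[[[[[[Int.ofNat (nat_lit 0),Int.ofNat (nat_lit 1627512781308410592)]],[[Int.ofNat (nat_lit 3953220095489489412)]]]],[[[[Int.ofNat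 (nat_lit 19883821387627484856)]]]]]],[[[[[[Int.negSucc (nat_lit 27148072376099970911)]]]]]]],[[[[[[[Int.negSucc (nat_lit 3604895338225723763)],[Int.ofNat (nat_lit 221091553408437552)]]],[[[Int.negSucc (nat_lit 1647958364913811967)]]]]],[[[[[Int.ofNat (nat_lit 7379727336409212084)]]]]]],[],[[[[[[Int.ofNat (nat_lit 5474356321278650928)]]]]]]],[[[[[[[Int.ofNat (nat_lit 7859862228030700632)]]]]]]],[[[[[[[Int.negSucc (nat_lit 532689656177220239)]]]]]]]],[[[],[[[[[[Int.negSucc (nat_lit 7030183950685041935)],[Int.ofNat (nat_lit 2644103237511583824)]]],[[[Int.negSucc (nat_lit 7135130515104088319)]]]]],[[[[[Int.negSucc (nat_lit 8527242761822673503)]]]]]],[[[],[[[[Int.ofNat (nat_lit 6322975079381794668)]]]]]],[[[[[[Int.negSucc (nat_lit 20064137579024858531)]]]]]]],[[[[[[[Int.ofNat (nat_lit 0),Int.negSucc (nat_lit 1503162350025726887)]],[[Int.ofNat (nat_lit 2394749893438670616)]]]],[[[[Int.ofNat (nat_lit 404849262102339072)]]]]]],[[[[[[Int.ofNat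 (nat_lit 63890591488391074428)]]]]],[[[[[Int.negSucc (nat_lit 3087430594509500795)]]]]]]],[[[[],[[[[Int.negSucc (nat_lit 1929164413127708171)]]]]]],[[[[[[Int.ofNat (nat_lit 14712487818292901868)]]]]]]]],[[[],[[[[[],[[Int.negSucc (nat_lit 755129834238491303)]]]],[[[[Int.negSucc (nat_lit 9864749768979311207)]]]]]],[[[[[[Int.ofNat (nat_lit 53903478999991950768)]]]]]]],[[[[[[[Int.negSucc (nat_lit 51193779676550353451)]]],[[[Int.negSucc (nat_lit 470689188038384327)]]]]],[[[[[Int.ofNat (nat_lit 1384251554856363576)]]]]]]],[[[[[[[Int.negSucc (nat_lit 17291231687509156247)]]]]]]]],[[[],[[[[[[Int.negSucc (nat_lit 31364775948947508959)]]]]]]],[[],[[[[[[Int.ofNat (nat_lit 11929225311189291060)]]]]]]]],[[],[[[[[[[Int.negSucc (nat_lit 7948279640555882027)]]]]]]]]],[[[[],[[[[[[Int.ofNat (nat_lit 0),Int.negSucc (nat_lit 2379224550294293639)]],[[Int.negSucc (nat_lit 4237182729531797975)]]]],[[[[Int.negSucc (nat_lit 12470207959391429771)]]]]]],[[[[[[Int.ofNat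 (nat_lit 962679025988102268)]]]]],[[[[[Int.ofNat (nat_lit 2000620959779965668)]]]]]]],[[[[[[[Int.negSucc (nat_lit 11837192825484427031)],[Int.negSucc (nat_lit 2756225210344379231)]]],[[[Int.negSucc (nat_lit 536137506653433851)]]]]],[[[[[Int.negSucc (nat_lit 792675294451528271)]]]]]],[[[],[[[[Int.ofNat (nat_lit 5031877092494630196)]]]]]],[[[[[[Int.negSucc (nat_lit 14098150599116367455)]]]]]]],[[[[[[[Int.negSucc (nat_lit 16428391914264928547)]]]]],[[[[[Int.ofNat (nat_lit 208997586550270428)]]]]]]],[[[[[[[Int.ofNat (nat_lit 6323459464067697624)]]]]]]]],[[[],[[[[[[Int.ofNat (nat_lit 4336471250042938536)]]],[[[Int.negSucc (nat_lit 1316720253339035831)]]]]],[[[[[Int.ofNat (nat_lit 247433943046752972)]]]]]]],[[[[[[],[[Int.ofNat (nat_lit 612676203365924268)]]]],[[[[Int.ofNat (nat_lit 3263408106647804496)]]]]]],[[[[[[Int.ofNat (nat_lit 29074567512751776792)]]]]]]]],[[[],[],[[[[[[Int.negSucc (nat_lit 4080306068616234887)]]]]]]],[[[[[[[Int.negSucc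 (nat_lit 24138333090613581287)]]]]]]],[[[[[[[Int.negSucc (nat_lit 7163827020577042259)]]]]]]]],[[[],[[[[[[Int.negSucc (nat_lit 5390158277475165983)]]]]]]]]],[[[[],[[[[[],[[Int.negSucc (nat_lit 1722319586053294751)]]]],[[[[Int.negSucc (nat_lit 5094358120301137943)]]]]]],[[[[[[Int.negSucc (nat_lit 3154570453791750575)]]]]]]],[[[[[[[Int.negSucc (nat_lit 9589180532637294743)]]],[[[Int.negSucc (nat_lit 1541493231927555563)]]]]],[[[[[Int.ofNat (nat_lit 2170891961473423260)]]]]]]],[[[[[[[Int.negSucc (nat_lit 10799811574158306119)]]]]]]]],[[[],[[[[[[Int.ofNat (nat_lit 9434679888215577768)]]]]]]],[[],[[[[[[Int.ofNat (nat_lit 11772510594378517224)]]]]]]]],[[],[[[[[[[Int.negSucc (nat_lit 5065814631503648867)]]]]]]]]],[[[[],[],[[[[[[Int.negSucc (nat_lit 5914909452632772395)]]]]]]],[[[[[[[Int.negSucc (nat_lit 8097104282525276783)]]]]]]],[[[[[[[Int.negSucc (nat_lit 114918287983464779)]]]]]]]],[[[],[[[[[[Int.ofNat (nat_lit 239091721748335464)]]]]]]]]],[[[],[[[[[[[Int.negSucc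 (nat_lit 3509132348666712119)]]]]]]]]]]

/-- A coefficient. -/
noncomputable def sr7_m3_0_1 : MP 10 :=
  [[[[[],[[[[[[Int.ofNat (nat_lit 7203459855112251180)],[Int.negSucc (nat_lit 4686370672766827787)]],[],[[Int.ofNat (nat_lit 439288984492775388)]]],[[[Int.ofNat (nat_lit 6446665494105738684)]]],[[[Int.negSucc (nat_lit 576213951968368487)]]]],[[[[Int.ofNat (nat_lit 0),Int.negSucc (nat_lit 469136658163920119)]],[[Int.negSucc (nat_lit 207703872269588795)]]]],[[[[Int.negSucc (nat_lit 6531476871051812111)]]]]],[[[[[Int.ofNat (nat_lit 9629854319983659120)],[Int.ofNat (nat_lit 127155253965635316)]]],[[[Int.ofNat (nat_lit 912631369564667472)]]]]],[[[[[Int.ofNat (nat_lit 9748808819359833216)]]]]]],[[[[[[Int.ofNat (nat_lit 0),Int.ofNat (nat_lit 3855024042352522080)]],[[Int.negSucc (nat_lit 3319346780289144323)]]]],[[[[Int.ofNat (nat_lit 12716199188920094796)]]]]]],[[[[[[Int.ofNat (nat_lit 18527731373959660332)]]]]],[[[[[Int.negSucc (nat_lit 4572445307947613519)]]]]]]],[[[[[[[Int.ofNat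 (nat_lit 0),Int.ofNat (nat_lit 3988481120936834160)]],[[Int.ofNat (nat_lit 216232386071607180)]]],[[],[[Int.ofNat (nat_lit 300973938180544644)]]]],[[[[Int.negSucc (nat_lit 300630823222593815)],[Int.negSucc (nat_lit 594846826062509675)]]],[[[Int.ofNat (nat_lit 113892977079187236)]]]]],[[[[[Int.ofNat (nat_lit 0),Int.ofNat (nat_lit 88078858963777152)]],[[Int.ofNat (nat_lit 544197955497827496)]]]],[[[[Int.negSucc (nat_lit 16856721624182364923)]]]]]],[[[[[[Int.negSucc (nat_lit 52777901895233132327)],[Int.ofNat (nat_lit 9474942281036388000)]]],[[[Int.ofNat (nat_lit 4190203248312033264)]]]]],[[[[[Int.negSucc (nat_lit 22079670515005073411)]]]]]],[[[],[[[[Int.ofNat (nat_lit 1612504609743609804)]]]]]],[[[[[[Int.negSucc (nat_lit 4006538091914010239)]]]]]]],[[[[[[[Int.ofNat (nat_lit 0),Int.negSucc (nat_lit 5913585208419436607)]],[[Int.negSucc (nat_lit 3987023093794765307)]]]],[[[[Int.negSucc (nat_lit 4623555201871087055)]]]]]],[[[[[[Int.negSucc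 (nat_lit 13146861416014717871)]]]]],[[[[[Int.negSucc (nat_lit 7019537011525718627)]]]]]]],[[[[],[[[[Int.ofNat (nat_lit 2866706955694816908)]]]]]],[[[[[[Int.ofNat (nat_lit 825961725075828072)]]]]]]]],[[[],[[[[[[Int.ofNat (nat_lit 0),Int.ofNat (nat_lit 3074750888324156808)]],[[Int.ofNat (nat_lit 3303057821672588808)]]]],[[[[Int.ofNat (nat_lit 19715134794642529068)]]]]],[[],[[[[Int.ofNat (nat_lit 2512274599386295452)]]]]]],[[[[[[Int.negSucc (nat_lit 106123908313914430199)]]],[[[Int.ofNat (nat_lit 4470765367421761152)]]]]],[[[[[Int.ofNat (nat_lit 21522715938470976408)]]]]]]],[[[[[[[Int.ofNat (nat_lit 45133119261232948824)],[Int.ofNat (nat_lit 3975771794653062852)]]],[[[Int.negSucc (nat_lit 18109664562543834887)]]]],[],[[[[Int.ofNat (nat_lit 385729320065587872)]]]]],[[[[[Int.ofNat (nat_lit 15734645983752869004)]]]]],[[[[[Int.ofNat (nat_lit 2344338499486925748)]]]]]],[[[[[],[[Int.negSucc (nat_lit 502025125977095807)]]]],[[[[Int.negSucc (nat_lit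 24688282050326894099)]]]]]],[[[[[[Int.negSucc (nat_lit 14823640645764348011)]]]]]]],[[[[[[[Int.ofNat (nat_lit 67557649658777508432)]]],[[[Int.negSucc (nat_lit 287871302874453515)]]]]],[[[[[Int.ofNat (nat_lit 2582331305359535304)]]]]]]],[[[[[[[Int.ofNat (nat_lit 9215990257946238048)]]]]]]]],[[[],[[[[[[Int.ofNat (nat_lit 136115479196509661712)],[Int.negSucc (nat_lit 1928512257070054331)]]],[[[Int.negSucc (nat_lit 5569226243876893847)]]]]],[[[[[Int.negSucc (nat_lit 28429652851413745607)]]]]]],[],[[[[[[Int.ofNat (nat_lit 2897493841787242644)]]]]]]],[[[[[[[Int.ofNat (nat_lit 0),Int.ofNat (nat_lit 1501118631895862616)]],[[Int.ofNat (nat_lit 569613940509855564)]]]],[[[[Int.ofNat (nat_lit 17334016277693145048)]]]]]],[[[[[[Int.ofNat (nat_lit 64876821854407621644)]]]]]]],[[],[[[[[[Int.ofNat (nat_lit 12980218203678735912)]]]]]]]],[[[],[[[],[[[[Int.ofNat (nat_lit 2864710314262302168)]]]]]],[[[[[[Int.negSucc (nat_lit 25291946657144515643)]]]]]]],[[[[[[[Int.negSucc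 (nat_lit 32005613473487211143)]]]]],[[[[[Int.negSucc (nat_lit 698439085535029235)]]]]]]],[[[[[[[Int.ofNat (nat_lit 13183040160313919520)]]]]]]]],[[[],[[[[[[Int.ofNat (nat_lit 53921589962095068912)]]]]]]]],[[],[[[[[[[Int.ofNat (nat_lit 5319221105878548888)]]]]]]]]],[[[[],[[[[[[Int.ofNat (nat_lit 24890434866715076760)],[Int.negSucc (nat_lit 1386665728053001523)]]],[[[Int.ofNat (nat_lit 8774191145576164848)]]]],[],[[[[Int.negSucc (nat_lit 1370319083712631643)]]]]],[[[[[Int.ofNat (nat_lit 5903463793715591496)]]]]],[[[[[Int.ofNat (nat_lit 743290731710744664)]]]]]],[[[[[],[[Int.negSucc (nat_lit 229365661750417307)]]]],[[[[Int.ofNat (nat_lit 3577197894256804272)]]]]]],[[[[[[Int.ofNat (nat_lit 32591952259707411264)]]]]]]],[[[[[[[Int.ofNat (nat_lit 0),Int.ofNat (nat_lit 1361441547930981696)]],[[Int.negSucc (nat_lit 1432947408726293579)]]]],[[[[Int.ofNat (nat_lit 773655161155404360)]]]]],[[],[[[[Int.negSucc (nat_lit 1338620948069020655)]]]]]],[[[[[[Int.negSucc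 (nat_lit 77516634307268371379)]]],[[[Int.ofNat (nat_lit 2971218304740031740)]]]]],[[[[[Int.ofNat (nat_lit 8768521182222842616)]]]]]]],[[[[[[],[[Int.negSucc (nat_lit 2171957025899799503)]]]],[[[[Int.negSucc (nat_lit 14209134337251524099)]]]]]],[[[[[[Int.ofNat (nat_lit 4143513419236059456)]]]]]]]],[[[],[[[[[[Int.ofNat (nat_lit 0),Int.ofNat (nat_lit 2549398909526549592)]],[[Int.negSucc (nat_lit 3980457762342277643)]]]],[[[[Int.ofNat (nat_lit 15941512614994735176)]]]]]],[[[[[[Int.negSucc (nat_lit 72820479879614147099)]]]]]]],[[[[[[[Int.ofNat (nat_lit 21621062594905095624)],[Int.ofNat (nat_lit 2402008803907949976)]]],[[[Int.negSucc (nat_lit 12404829750487590947)]]]]],[[[[[Int.negSucc (nat_lit 23434966322606587967)]]]]]],[],[[[[[[Int.negSucc (nat_lit 12062682549492890675)]]]]]]],[[[[[[[Int.ofNat (nat_lit 99250230668118410256)]]]]]]],[[[[[[[Int.ofNat (nat_lit 255488033101845276)]]]]]]]],[[[],[[[[[[Int.ofNat (nat_lit 95700420160001573916)]]]]],[[[[[Int.ofNat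 (nat_lit 6678355294925222916)]]]]]]],[[[[],[[[[Int.negSucc (nat_lit 6464967949045607063)]]]]]],[[[[[[Int.negSucc (nat_lit 58799180349053969927)]]]]]]]],[[],[[[[[[[Int.ofNat (nat_lit 51578108105680820400)]]]]]]]],[[[],[[[[[[Int.negSucc (nat_lit 7794224310928556219)]]]]]]]]],[[[[],[[[[[[Int.ofNat (nat_lit 19254556664616246576)],[Int.ofNat (nat_lit 2737685354736216468)]]],[[[Int.ofNat (nat_lit 3261892965683156052)]]]]],[[[[[Int.negSucc (nat_lit 6908689666550228087)]]]]]],[],[[[[[[Int.ofNat (nat_lit 9111834049589459208)]]]]]]],[[[[[[[Int.ofNat (nat_lit 0),Int.negSucc (nat_lit 2136738261642644735)]],[[Int.negSucc (nat_lit 1308322832025619931)]]]],[[[[Int.ofNat (nat_lit 1129524452906213100)]]]]]],[[[[[[Int.ofNat (nat_lit 1127579538989267436)]]]]]]],[[],[[[[[[Int.ofNat (nat_lit 4865216094740886144)]]]]]]]],[[[],[[[],[[[[Int.negSucc (nat_lit 1115005439125460159)]]]]]],[[[[[[Int.ofNat (nat_lit 46556814426338515128)]]]]]]],[[[[[[[Int.negSucc (nat_lit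 30545027523872150279)]]]]],[[[[[Int.negSucc (nat_lit 8260573040848176287)]]]]]]],[[[[[[[Int.ofNat (nat_lit 41656587709294625868)]]]]]]]],[[[],[[[[[[Int.negSucc (nat_lit 4402967489613569303)]]]]]]]],[[],[[[[[[[Int.ofNat (nat_lit 8701110482536948788)]]]]]]]]],[[[[],[[[[[[Int.ofNat (nat_lit 6896697225094480620)]]]]],[[[[[Int.ofNat (nat_lit 1549010151474941556)]]]]]]],[[[[],[[[[Int.ofNat (nat_lit 16769244061780260)]]]]]],[[[[[[Int.ofNat (nat_lit 15862063445229788700)]]]]]]]],[[],[[[[[[[Int.ofNat (nat_lit 902015358337139376)]]]]]]]],[[[],[[[[[[Int.negSucc (nat_lit 14236575244604052587)]]]]]]]]],[[[[],[[[[[[Int.ofNat (nat_lit 5774944865899150248)]]]]]]]],[[],[[[[[[[Int.ofNat (nat_lit 5970946746357551232)]]]]]]]]],[[[[],[[[[[[Int.negSucc (nat_lit 584608907810933015)]]]]]]]]]]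

/-- A coefficient. -/
noncomputable def sr7_m3_0_2 : MP 10 :=
  [[[[[],[[[[[[Int.ofNat (nat_lit 0),Int.negSucc (nat_lit 7851002065831962671)]],[[Int.negSucc (nat_lit 3951545563938620111)]]]],[[[[Int.negSucc (nat_lit 24227153333101941071)]]],[[[Int.ofNat (nat_lit 870310485864728856)]]]]],[[[[],[[Int.negSucc (nat_lit 632581514744573171)]]]],[[[[Int.negSucc (nat_lit 14423713276094209175)]]]]]],[[[[[[Int.ofNat (nat_lit 1852876856018354700)],[Int.ofNat (nat_lit 2064221714880848076)]]],[[[Int.negSucc (nat_lit 6476905599145766987)]]]]],[[[[[Int.negSucc (nat_lit 6389504722701942935)]]]]]],[],[[[[[[Int.negSucc (nat_lit 1564529570668153691)]]]]]]],[[[[[[[Int.ofNat (nat_lit 11491592406172243620)],[Int.negSucc (nat_lit 7764773208166774619)]]],[[[Int.ofNat (nat_lit 23158245453811567908)]]]],[[[],[[Int.negSucc (nat_lit 3790089246198527363)]]]],[[[[Int.ofNat (nat_lit 2486663740092155028)]]]]],[[[[[Int.negSucc (nat_lit 5820669101677162271)]]],[[[Int.negSucc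 (nat_lit 1866377217047354243)]]]]],[[[[[Int.negSucc (nat_lit 9997377551233925183)]]]]]],[[[[[[Int.ofNat (nat_lit 0),Int.negSucc (nat_lit 2199657382693851815)]],[[Int.negSucc (nat_lit 1695478912450315043)]]]],[[[[Int.ofNat (nat_lit 31039985144338277640)]]]]]],[[[[[[Int.ofNat (nat_lit 74042317341282924900)]]]]]]],[[[[[[[Int.negSucc (nat_lit 134633039876919872051)],[Int.negSucc (nat_lit 579276300103144019)]]],[[[Int.ofNat (nat_lit 3595766788887072180)]]]]],[[[[[Int.ofNat (nat_lit 14345818577048344140)]]]]]],[],[[[[[[Int.negSucc (nat_lit 1723918833518395295)]]]]]]],[[[[[[[Int.ofNat (nat_lit 24484886089042844592)]]]]]]],[[[[[[[Int.negSucc (nat_lit 3887347856495971259)]]]]]]]],[[[],[[[[[[Int.negSucc (nat_lit 88547578054989044615)],[Int.negSucc (nat_lit 1472171809514742959)]]],[[[Int.ofNat (nat_lit 41201066336519059176)]]]]],[[[[[Int.negSucc (nat_lit 10545074495934560795)]]]]]],[[[],[[[[Int.negSucc (nat_lit 12301114800930313775)]]]]]],[[[[[[Int.ofNat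 (nat_lit 37341369146285447496)]]]]]]],[[[[[[[Int.ofNat (nat_lit 0),Int.ofNat (nat_lit 721175534986099872)]],[[Int.negSucc (nat_lit 2960675055300830375)]]]],[[[[Int.negSucc (nat_lit 13649352994488918215)]]]]]],[[[[[[Int.negSucc (nat_lit 230390357192793334535)]]]]],[[[[[Int.negSucc (nat_lit 8784179785968547979)]]]]]]],[[[[],[[[[Int.negSucc (nat_lit 3186374854604991695)]]]]]],[[[[[[Int.negSucc (nat_lit 11619748715504181803)]]]]]]]],[[[],[[[[[],[[Int.ofNat (nat_lit 4552661744493020652)]]]],[[[[Int.ofNat (nat_lit 17335500107019061932)]]]]]],[[[[[[Int.negSucc (nat_lit 98031973399204477343)]]]]]]],[[[[[[[Int.ofNat (nat_lit 83257564310706167868)]]],[[[Int.ofNat (nat_lit 777214202364774672)]]]]],[[[[[Int.ofNat (nat_lit 10763095966725322776)]]]]]]],[[[[[[[Int.negSucc (nat_lit 28111218283486854995)]]]]]]]],[[[],[[[[[[Int.negSucc (nat_lit 31794036689233685111)]]]]]]],[[],[[[[[[Int.negSucc (nat_lit 4189481737019660003)]]]]]]]],[[],[[[[[[[Int.negSucc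 (nat_lit 49920872278679028599)]]]]]]]]],[[[[],[[[[[[Int.ofNat (nat_lit 0),Int.negSucc (nat_lit 8473588720618962287)]],[[Int.ofNat (nat_lit 3364204715200459404)]]]],[[[[Int.negSucc (nat_lit 33652828771320120287)]]]]]],[[[[[[Int.negSucc (nat_lit 51944393121251044679)]]]]],[[[[[Int.negSucc (nat_lit 6945105615055455311)]]]]]]],[[[[[[[Int.ofNat (nat_lit 92325625976195426112)],[Int.negSucc (nat_lit 9069151145180615543)]]],[[[Int.ofNat (nat_lit 27723384250017546912)]]]]],[[[[[Int.ofNat (nat_lit 40781311450604238936)]]]]]],[[[],[[[[Int.ofNat (nat_lit 3297946159306478508)]]]]]],[[[[[[Int.ofNat (nat_lit 37604947859686831092)]]]]]]],[[[[[[[Int.negSucc (nat_lit 285434379634070577779)]]]]],[[[[[Int.negSucc (nat_lit 10195536613870034051)]]]]]]],[[[[[[[Int.ofNat (nat_lit 28843872766635668148)]]]]]]]],[[[],[[[[[[Int.ofNat (nat_lit 17159444616616920384)]]],[[[Int.ofNat (nat_lit 1499939839607804244)]]]]],[[[[[Int.negSucc (nat_lit 21828984886432380839)]]]]]]],[[[[[[],[[Int.negSucc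 (nat_lit 546881637839745203)]]]],[[[[Int.ofNat (nat_lit 26115054823744529700)]]]]]],[[[[[[Int.negSucc (nat_lit 96173848329742988831)]]]]]]]],[[[],[],[[[[[[Int.negSucc (nat_lit 2685016174673239727)]]]]]]],[[[[[[[Int.negSucc (nat_lit 66703772173095437171)]]]]]]],[[[[[[[Int.ofNat (nat_lit 9341854591454996700)]]]]]]]],[[[],[[[[[[Int.ofNat (nat_lit 72378234650376694560)]]]]]]]]],[[[[],[[[[[],[[Int.ofNat (nat_lit 1797890706534048300)]]]],[[[[Int.ofNat (nat_lit 5763068535545900880)]]]]]],[[[[[[Int.negSucc (nat_lit 78710620169193056039)]]]]]]],[[[[[[[Int.ofNat (nat_lit 78962113850726465208)]]],[[[Int.ofNat (nat_lit 5817139752998309184)]]]]],[[[[[Int.ofNat (nat_lit 33371985219725523180)]]]]]]],[[[[[[[Int.negSucc (nat_lit 168450291872291465375)]]]]]]]],[[[],[[[[[[Int.ofNat (nat_lit 80814409562955741420)]]]]]]],[[],[[[[[[Int.negSucc (nat_lit 34865373816792614015)]]]]]]]],[[],[[[[[[[Int.negSucc (nat_lit 40677345461372815607)]]]]]]]]],[[[[],[],[[[[[[Int.ofNat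 (nat_lit 17491260935740038660)]]]]]]],[[[[[[[Int.negSucc (nat_lit 45869991467692189151)]]]]]]],[[[[[[[Int.ofNat (nat_lit 12211824239971195980)]]]]]]]],[[[],[[[[[[Int.ofNat (nat_lit 26615540984937612684)]]]]]]]]],[[[],[[[[[[[Int.negSucc (nat_lit 48830173962288147767)]]]]]]]]]]

/-- A coefficient. -/
noncomputable def sr7_m3_0_3 : MP 10 :=
  [[[[[],[[[[[[Int.ofNat (nat_lit 16775211632695879056)],[Int.ofNat (nat_lit 3101827451850919080)]]],[[[Int.negSucc (nat_lit 52999587129099377015)]]]],[],[[[[Int.negSucc (nat_lit 1512378127984879043)]]]]],[[[[[Int.ofNat (nat_lit 63180952118351736756)]]]]],[[[[[Int.ofNat (nat_lit 411785799251055048)]]]]]],[[[[[],[[Int.negSucc (nat_lit 4710668096738341043)]]]],[[[[Int.ofNat (nat_lit 8186581315745074404)]]]]]],[[[[[[Int.negSucc (nat_lit 66642066179012264219)]]]]]]],[[[[[[[Int.ofNat (nat_lit 0),Int.negSucc (nat_lit 1077907538212576535)]],[[Int.ofNat (nat_lit 10531210881083647992)]]]],[[[[Int.negSucc (nat_lit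 8214643318233883763)]]]]],[[],[[[[Int.negSucc (nat_lit 780096593890152323)]]]]]],[[[[[[Int.ofNat (nat_lit 202990350464526352740)]]],[[[Int.negSucc (nat_lit 4777740426279355655)]]]]],[[[[[Int.ofNat (nat_lit 9041652624910562292)]]]]]]],[[[[[[],[[Int.negSucc (nat_lit 1393778419725903227)]]]],[[[[Int.negSucc (nat_lit 11303134105533924635)]]]]]],[[[[[[Int.ofNat (nat_lit 5545186553108888088)]]]]]]]],[[[],[[[[[[Int.ofNat (nat_lit 0),Int.negSucc (nat_lit 5101811236725642479)]],[[Int.negSucc (nat_lit 5537029105569312431)]]]],[[[[Int.negSucc (nat_lit 46952481159033188063)]]]]]],[[[[[[Int.ofNat (nat_lit 449989603208876884800)]]]]]]],[[[[[[[Int.negSucc (nat_lit 147663926479241135279)],[Int.negSucc (nat_lit 6530685628707163307)]]],[[[Int.ofNat (nat_lit 26042530697775698436)]]]]],[[[[[Int.negSucc (nat_lit 49113014420515845263)]]]]]],[],[[[[[[Int.ofNat (nat_lit 19296769209772777248)]]]]]]],[[[[[[[Int.ofNat (nat_lit 78817111536706169436)]]]]]]],[[[[[[[Int.ofNat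 (nat_lit 30302176152068513400)]]]]]]]],[[[],[[[[[[Int.negSucc (nat_lit 297062563658513801855)]]]]],[[[[[Int.ofNat (nat_lit 22695334821342037476)]]]]]]],[[[[],[[[[Int.ofNat (nat_lit 6668340863036905308)]]]]]],[[[[[[Int.ofNat (nat_lit 6006037918043375328)]]]]]]]],[[],[[[[[[[Int.ofNat (nat_lit 235133642594233715208)]]]]]]]],[[[],[[[[[[Int.ofNat (nat_lit 12220289290618048320)]]]]]]]]],[[[[],[[[[[[Int.negSucc (nat_lit 105727723179626248367)],[Int.ofNat (nat_lit 4304014889172321432)]]],[[[Int.negSucc (nat_lit 18024591420091333451)]]]]],[[[[[Int.ofNat (nat_lit 27489451687519796592)]]]]]],[],[[[[[[Int.negSucc (nat_lit 16931302236473229515)]]]]]]],[[[[[[[Int.ofNat (nat_lit 0),Int.negSucc (nat_lit 3037275237040985975)]],[[Int.ofNat (nat_lit 7756976019547132260)]]]],[[[[Int.negSucc (nat_lit 36599185209574747727)]]]]]],[[[[[[Int.ofNat (nat_lit 249166945425094206528)]]]]]]],[[],[[[[[[Int.negSucc (nat_lit 22342569120290340299)]]]]]]]],[[[],[[[],[[[[Int.negSucc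 (nat_lit 15945233896849644887)]]]]]],[[[[[[Int.ofNat (nat_lit 129391473670010116128)]]]]]]],[[[[[[[Int.negSucc (nat_lit 203904575648560179743)]]]]],[[[[[Int.ofNat (nat_lit 91952948990913924)]]]]]]],[[[[[[[Int.ofNat (nat_lit 19317149776426284768)]]]]]]]],[[[],[[[[[[Int.negSucc (nat_lit 340574015983904168291)]]]]]]]],[[],[[[[[[[Int.ofNat (nat_lit 26548461797044680768)]]]]]]]]],[[[[],[[[[[[Int.negSucc (nat_lit 170162693490586923251)]]]]],[[[[[Int.negSucc (nat_lit 616424836391025803)]]]]]]],[[[[],[[[[Int.negSucc (nat_lit 18163802957020686707)]]]]]],[[[[[[Int.ofNat (nat_lit 117672370316007425904)]]]]]]]],[[],[[[[[[[Int.negSucc (nat_lit 63163012174741913051)]]]]]]]],[[[],[[[[[[Int.ofNat (nat_lit 14377646093562299388)]]]]]]]]],[[[[],[[[[[[Int.negSucc (nat_lit 77427276864563642951)]]]]]]]],[[],[[[[[[[Int.ofNat (nat_lit 15477520520884931952)]]]]]]]]],[[[[],[[[[[[Int.negSucc (nat_lit 7815823659120757487)]]]]]]]]]]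

/-- A coefficient. -/
noncomputable def sr7_m3_0_4 : MP 10 :=
  [[[[[],[[[[[[Int.ofNat (nat_lit 0),Int.ofNat (nat_lit 8906899494030525216)]],[[Int.negSucc (nat_lit 5323506065609153627)]]]],[[[[Int.ofNat (nat_lit 33289433032621637724)]]]]]],[[[[[[Int.negSucc (nat_lit 346903707582841456523)]]]]],[[[[[Int.negSucc (nat_lit 4997030605517294699)]]]]]]],[[[[[[[Int.ofNat (nat_lit 20155398564127626324)],[Int.ofNat (nat_lit 9703235943713574120)]]],[[[Int.negSucc (nat_lit 42643776008793681491)]]]]],[[[[[Int.ofNat (nat_lit 80324688278917827312)]]]]]],[[[],[[[[Int.negSucc (nat_lit 11974125587288095739)]]]]]],[[[[[[Int.negSucc (nat_lit 115138320562378687235)]]]]]]],[[[[[[[Int.negSucc (nat_lit 126761522192092834391)]]]]],[[[[[Int.negSucc (nat_lit 4525133948986694531)]]]]]]],[[[[[[[Int.negSucc (nat_lit 53330794137751075259)]]]]]]]],[[[],[[[[[[Int.ofNat (nat_lit 529713771546699020976)]]],[[[Int.negSucc (nat_lit 8961332579586288971)]]]]],[[[[[Int.negSucc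 (nat_lit 28018499023440253487)]]]]]]],[[[[[[],[[Int.ofNat (nat_lit 858497627912666580)]]]],[[[[Int.ofNat (nat_lit 27977374411497112332)]]]]]],[[[[[[Int.ofNat (nat_lit 42769888165080483756)]]]]]]]],[[[],[],[[[[[[Int.negSucc (nat_lit 53897665595249722127)]]]]]]],[[[[[[[Int.negSucc (nat_lit 565281742742940002615)]]]]]]],[[[[[[[Int.negSucc (nat_lit 78524696136020827247)]]]]]]]],[[[],[[[[[[Int.negSucc (nat_lit 111500722595180793059)]]]]]]]]],[[[[],[[[[[],[[Int.ofNat (nat_lit 6244456527570914508)]]]],[[[[Int.negSucc (nat_lit 5027530229905789619)]]]]]],[[[[[[Int.negSucc (nat_lit 48554223108527654195)]]]]]]],[[[[[[[Int.ofNat (nat_lit 70956959988276988716)]]],[[[Int.negSucc (nat_lit 1828336738998183491)]]]]],[[[[[Int.ofNat (nat_lit 12797883357675017232)]]]]]]],[[[[[[[Int.ofNat (nat_lit 20776991460906230232)]]]]]]]],[[[],[[[[[[Int.ofNat (nat_lit 536101606102662431484)]]]]]]],[[],[[[[[[Int.negSucc (nat_lit 35970650644538431091)]]]]]]]],[[],[[[[[[[Int.negSucc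 (nat_lit 8190577838309381675)]]]]]]]]],[[[[],[],[[[[[[Int.negSucc (nat_lit 36000407548359517343)]]]]]]],[[[[[[[Int.negSucc (nat_lit 136456072124423426447)]]]]]]],[[[[[[[Int.negSucc (nat_lit 39195907774752906683)]]]]]]]],[[[],[[[[[[Int.negSucc (nat_lit 131329338698037540767)]]]]]]]]],[[[],[[[[[[[Int.negSucc (nat_lit 97950994906903726607)]]]]]]]]]]

/-- A coefficient. -/
noncomputable def sr7_m3_0_5 : MP 10 :=
  [[[[[],[[[[[[Int.negSucc (nat_lit 122071977164199290315)],[Int.ofNat (nat_lit 2625823115329414968)]]],[[[Int.ofNat (nat_lit 20097211033110567444)]]]]],[[[[[Int.negSucc (nat_lit 14904702895656729071)]]]]]],[],[[[[[[Int.negSucc (nat_lit 9243126401886570023)]]]]]]],[[[[[[[Int.ofNat (nat_lit 0),Int.negSucc (nat_lit 3603314923669118231)]],[[Int.negSucc (nat_lit 7184818542613034771)]]]],[[[[Int.negSucc (nat_lit 45811221484675975559)]]]]]],[[[[[[Int.negSucc (nat_lit 108210080866696245731)]]]]]]],[[],[[[[[[Int.negSucc (nat_lit 16826690437661087987)]]]]]]]],[[[],[[[],[[[[Int.ofNat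 (nat_lit 6451580460683784468)]]]]]],[[[[[[Int.negSucc (nat_lit 18790746387257009003)]]]]]]],[[[[[[[Int.ofNat (nat_lit 407040514401672504948)]]]]],[[[[[Int.ofNat (nat_lit 25421551153766485920)]]]]]]],[[[[[[[Int.ofNat (nat_lit 95839439237867392860)]]]]]]]],[[[],[[[[[[Int.ofNat (nat_lit 380208300292641326940)]]]]]]]],[[],[[[[[[[Int.negSucc (nat_lit 66517948351629957383)]]]]]]]]],[[[[],[[[[[[Int.negSucc (nat_lit 25218653500482535271)]]]]],[[[[[Int.ofNat (nat_lit 16844363423463431604)]]]]]]],[[[[],[[[[Int.negSucc (nat_lit 27060830347513690823)]]]]]],[[[[[[Int.ofNat (nat_lit 37819193366272691904)]]]]]]]],[[],[[[[[[[Int.ofNat (nat_lit 5005930998553293516)]]]]]]]],[[[],[[[[[[Int.ofNat (nat_lit 71488220823174946440)]]]]]]]]],[[[[],[[[[[[Int.ofNat (nat_lit 160422750516766504320)]]]]]]]],[[],[[[[[[[Int.ofNat (nat_lit 42883225155176330316)]]]]]]]]],[[[[],[[[[[[Int.negSucc (nat_lit 16852301694526491215)]]]]]]]]]]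

/-- A coefficient. -/
noncomputable def sr7_m3_0_6 : MP 10 :=
  [[[[[],[[[[[],[[Int.ofNat (nat_lit 1288529810321520372)]]]],[[[[Int.ofNat (nat_lit 15311835776362570476)]]]]]],[[[[[[Int.ofNat (nat_lit 71295018236866321620)]]]]]]],[[[[[[[Int.negSucc (nat_lit 77001066978624892127)]]],[[[Int.ofNat (nat_lit 18126043041021040356)]]]]],[[[[[Int.negSucc (nat_lit 47875976132538450011)]]]]]]],[[[[[[[Int.negSucc (nat_lit 86571499950587489303)]]]]]]]],[[[],[[[[[[Int.negSucc (nat_lit 781330978735950921347)]]]]]]],[[],[[[[[[Int.negSucc (nat_lit 14477956786730070335)]]]]]]]],[[],[[[[[[[Int.ofNat (nat_lit 115043696034531653256)]]]]]]]]],[[[[],[],[[[[[[Int.negSucc (nat_lit 21385282408938670019)]]]]]]],[[[[[[[Int.negSucc (nat_lit 111983181250676634923)]]]]]]],[[[[[[[Int.negSucc (nat_lit 33488134407762395639)]]]]]]]],[[[],[[[[[[Int.negSucc (nat_lit 324036665075049295835)]]]]]]]]],[[[],[[[[[[[Int.negSucc (nat_lit 137036252542397825807)]]]]]]]]]]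

/-- A coefficient. -/
noncomputable def sr7_m3_0_7 : MP 10 :=
  [[[[[],[[[[[[Int.ofNat (nat_lit 291956012763342894552)]]]]],[[[[[Int.negSucc (nat_lit 20599410214953238895)]]]]]]],[[[[],[[[[Int.ofNat (nat_lit 10952463662494926984)]]]]]],[[[[[[Int.ofNat (nat_lit 104168107368522157176)]]]]]]]],[[],[[[[[[[Int.negSucc (nat_lit 176541794542971533579)]]]]]]]],[[[],[[[[[[Int.ofNat (nat_lit 80933808351764963364)]]]]]]]]],[[[[],[[[[[[Int.ofNat (nat_lit 119407746456230648724)]]]]]]]],[[],[[[[[[[Int.ofNat (nat_lit 63530498555507349012)]]]]]]]]],[[[[],[[[[[[Int.ofNat (nat_lit 126777362337264195096)]]]]]]]]]]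

/-- A coefficient. -/
noncomputable def sr7_m3_0_8 : MP 10 :=
  [[[[[],[],[[[[[[Int.negSucc (nat_lit 62078720504269429799)]]]]]]],[[[[[[[Int.negSucc (nat_lit 27046270425651852167)]]]]]]],[[[[[[[Int.negSucc (nat_lit 31157534743851852479)]]]]]]]],[[[],[[[[[[Int.ofNat (nat_lit 193147790793071379888)]]]]]]]]],[[[],[[[[[[[Int.negSucc (nat_lit 20652312937458329711)]]]]]]]]]]

/-- A coefficient. -/
noncomputable def sr7_m3_0_9 : MP 10 :=
  [[[[[],[[[[[[Int.negSucc (nat_lit 217540336916424602639)]]]]]]]],[[],[[[[[[[Int.ofNat (nat_lit 115034217212338676724)]]]]]]]]],[[[[],[[[[[[Int.negSucc (nat_lit 26777558472863298419)]]]]]]]]]]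

/-- A coefficient. -/
noncomputable def sr7_m3_0_10 : MP 10 :=
  [[[[],[[[[[[[Int.negSucc (nat_lit 63272693623585971107)]]]]]]]]]]

/-- A coefficient. -/
noncomputable def sr7_m3_0_11 : MP 10 :=
  [[[[[],[[[[[[Int.ofNat (nat_lit 114877365684649534848)]]]]]]]]]]

/-- A coefficient. -/
noncomputable def sr7_m3_1_0 : MP 10 :=
  [[[[[],[[[[[[Int.ofNat (nat_lit 0),Int.ofNat (nat_lit 3048733132291644552)]],[[Int.ofNat (nat_lit 11530262945039312448)]]],[[],[[Int.ofNat (nat_lit 218560997713558464)]]]],[[[[Int.ofNat (nat_lit 1793788804072239660)],[Int.negSucc (nat_lit 1217439702685039727)]]],[[[Int.negSucc (nat_lit 5785708907322739151)]]]]],[[[[[Int.ofNat (nat_lit 0),Int.negSucc (nat_lit 1263788154846899975)]],[[Int.negSucc (nat_lit 4442322121648349999)]]]],[[[[Int.negSucc (nat_lit 13721940366017626175)]]]]]],[[[[[[Int.ofNat (nat_lit 7782151247009920992)],[Int.ofNat (nat_lit 3744552645656254896)]]],[[[Int.negSucc (nat_lit 4708178997782481179)]]]]],[[[[[Int.negSucc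 (nat_lit 1165207518899409227)]]]]]],[[[],[[[[Int.ofNat (nat_lit 8427510970878202812)]]]]]],[[[[[[Int.ofNat (nat_lit 7862783775777947580)]]]]]]],[[[[[[[Int.ofNat (nat_lit 14173228981186378212)],[Int.ofNat (nat_lit 2312745629702843220)]],[],[[Int.negSucc (nat_lit 503156861496536411)]]],[[[Int.ofNat (nat_lit 3508677384454131996)]]],[[[Int.negSucc (nat_lit 675433392099638003)]]]],[[[[Int.ofNat (nat_lit 0),Int.ofNat (nat_lit 280789802617248816)]],[[Int.ofNat (nat_lit 7894087006309949700)]]]],[[[[Int.ofNat (nat_lit 12672280212423917808)]]]]],[[[[[Int.ofNat (nat_lit 8673703310197893360)],[Int.negSucc (nat_lit 1660652888002956527)]]],[[[Int.negSucc (nat_lit 1755385017398380415)]]]]],[[[[[Int.ofNat (nat_lit 8388307696627989240)]]]]]],[[[[[[Int.ofNat (nat_lit 0),Int.negSucc (nat_lit 1013293811961557399)]],[[Int.negSucc (nat_lit 1318554006472339499)]]]],[[[[Int.negSucc (nat_lit 61506047544122985719)]]]]]],[[[[[[Int.ofNat (nat_lit 89766169541256578376)]]]]],[[[[[Int.ofNat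 (nat_lit 4688543104869341700)]]]]]]],[[[[[[[Int.ofNat (nat_lit 7558278014282543688)],[Int.ofNat (nat_lit 724751846429240400)]]],[[[Int.ofNat (nat_lit 4371675157905693180)]]]]],[[[[[Int.negSucc (nat_lit 34649963971456485023)]]]]]],[[[],[[[[Int.ofNat (nat_lit 13885994568993425112)]]]]]],[[[[[[Int.ofNat (nat_lit 13988460452445545940)]]]]]]],[[[[[[[Int.ofNat (nat_lit 30480293751184393332)]]]]],[[[[[Int.ofNat (nat_lit 9011602632408921180)]]]]]]],[[[[[[[Int.ofNat (nat_lit 7953942429816367128)]]]]]]]],[[[],[[[[[[Int.negSucc (nat_lit 1429792916603545151)],[Int.negSucc (nat_lit 7734192033275576303)]]],[[[Int.ofNat (nat_lit 30071958085343814060)]]]],[],[[[[Int.negSucc (nat_lit 324409778213143835)]]]]],[[[[[Int.ofNat (nat_lit 40288144556827758276)]]]]],[[[[[Int.ofNat (nat_lit 3910315623495533556)]]]]]],[[[[[],[[Int.negSucc (nat_lit 3193751004680964155)]]]],[[[[Int.negSucc (nat_lit 22083278281343465879)]]]]]],[[[[[[Int.ofNat (nat_lit 21527467015427916132)]]]]]]],[[[[[[[Int.ofNat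 (nat_lit 0),Int.ofNat (nat_lit 4909573399580320152)]],[[Int.negSucc (nat_lit 12366268633829421431)]]]],[[[[Int.ofNat (nat_lit 24004559901887412324)]]]]],[[],[[[[Int.negSucc (nat_lit 4251538133590615115)]]]]]],[[[[[[Int.negSucc (nat_lit 90397398462148079435)]]],[[[Int.negSucc (nat_lit 1367733861379849487)]]]]],[[[[[Int.negSucc (nat_lit 20965186044709203119)]]]]]]],[[[[[[],[[Int.ofNat (nat_lit 1471925219914992972)]]]],[[[[Int.ofNat (nat_lit 28266523493187092184)]]]]]],[[[[[[Int.negSucc (nat_lit 127295149640062523591)]]]]]]]],[[[],[[[[[[Int.ofNat (nat_lit 0),Int.ofNat (nat_lit 2281985426979980208)]],[[Int.ofNat (nat_lit 4419611685845730108)]]]],[[[[Int.ofNat (nat_lit 31566657989433482448)]]]]]],[[[[[[Int.negSucc (nat_lit 132251633575006517051)]]]]]]],[[[[[[[Int.ofNat (nat_lit 162701052173111462568)],[Int.ofNat (nat_lit 2163527191616734584)]]],[[[Int.negSucc (nat_lit 1503957735259566395)]]]]],[[[[[Int.negSucc (nat_lit 20656656263170762055)]]]]]],[],[[[[[[Int.negSucc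 (nat_lit 2566791286750349243)]]]]]]],[[[[[[[Int.ofNat (nat_lit 141442248488215725708)]]]]]]],[[[[[[[Int.ofNat (nat_lit 1093486622362026804)]]]]]]]],[[[],[[[[[[Int.ofNat (nat_lit 198649461030268988928)]]]]],[[[[[Int.negSucc (nat_lit 4447980539946682199)]]]]]]],[[[[],[[[[Int.ofNat (nat_lit 4621354231827489936)]]]]]],[[[[[[Int.negSucc (nat_lit 18360179398965891551)]]]]]]]],[[],[[[[[[[Int.ofNat (nat_lit 41431173077134905252)]]]]]]]],[[[],[[[[[[Int.negSucc (nat_lit 2520802779533952683)]]]]]]]]],[[[[],[[[[[[Int.ofNat (nat_lit 0),Int.ofNat (nat_lit 9130905793921071168)]],[[Int.ofNat (nat_lit 11325917638419623100)]]]],[[[[Int.ofNat (nat_lit 37900789979847770532)]]]]],[[],[[[[Int.negSucc (nat_lit 7210643439186869531)]]]]]],[[[[[[Int.negSucc (nat_lit 4363040396708444279)]]],[[[Int.ofNat (nat_lit 1610621835027946236)]]]]],[[[[[Int.ofNat (nat_lit 4397513797581451428)]]]]]]],[[[[[[[Int.negSucc (nat_lit 13704039001603214831)],[Int.ofNat (nat_lit 9728981032457575032)]]],[[[Int.ofNat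 (nat_lit 441703367653758396)]]]],[],[[[[Int.ofNat (nat_lit 2547679835233029396)]]]]],[[[[[Int.negSucc (nat_lit 36901296632909394047)]]]]],[[[[[Int.negSucc (nat_lit 3258592772929231355)]]]]]],[[[[[],[[Int.negSucc (nat_lit 1490188617105873215)]]]],[[[[Int.negSucc (nat_lit 51373875332852174999)]]]]]],[[[[[[Int.ofNat (nat_lit 91309193127275596560)]]]]]]],[[[[[[[Int.ofNat (nat_lit 111359957924877631320)]]],[[[Int.ofNat (nat_lit 3887281325425852260)]]]]],[[[[[Int.ofNat (nat_lit 10191317631155623296)]]]]]]],[[[[[[[Int.negSucc (nat_lit 71355980567843792843)]]]]]]]],[[[],[[[[[[Int.negSucc (nat_lit 31046502392295385559)],[Int.negSucc (nat_lit 2755362506060120231)]]],[[[Int.ofNat (nat_lit 15192722706375295728)]]]]],[[[[[Int.ofNat (nat_lit 25439357060101259808)]]]]]],[],[[[[[[Int.ofNat (nat_lit 8551689388388149008)]]]]]]],[[[[[[[Int.ofNat (nat_lit 0),Int.ofNat (nat_lit 1491079699054859136)]],[[Int.negSucc (nat_lit 1964996081453339795)]]]],[[[[Int.ofNat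 (nat_lit 11144818633320775236)]]]]]],[[[[[[Int.negSucc (nat_lit 180840863021269721531)]]]]]]],[[],[[[[[[Int.ofNat (nat_lit 2555828462671098600)]]]]]]]],[[[],[[[],[[[[Int.ofNat (nat_lit 11835301968730863900)]]]]]],[[[[[[Int.negSucc (nat_lit 76850963225733416519)]]]]]]],[[[[[[[Int.ofNat (nat_lit 303809150679654492528)]]]]],[[[[[Int.ofNat (nat_lit 5286420988613281884)]]]]]]],[[[[[[[Int.negSucc (nat_lit 39379837630162870091)]]]]]]]],[[[],[[[[[[Int.ofNat (nat_lit 77233571441250784380)]]]]]]]],[[],[[[[[[[Int.ofNat (nat_lit 193939445738760468)]]]]]]]]],[[[[],[[[[[[Int.ofNat (nat_lit 0),Int.ofNat (nat_lit 2691044576329865136)]],[[Int.negSucc (nat_lit 218037393158570483)]]]],[[[[Int.ofNat (nat_lit 22871982423281231640)]]]]]],[[[[[[Int.ofNat (nat_lit 21560397503358342444)]]]]]]],[[[[[[[Int.negSucc (nat_lit 4893048323383090655)],[Int.ofNat (nat_lit 2545490298615574212)]]],[[[Int.negSucc (nat_lit 2290264705601640215)]]]]],[[[[[Int.negSucc (nat_lit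 62899192937165261411)]]]]]],[],[[[[[[Int.negSucc (nat_lit 2890549595690911295)]]]]]]],[[[[[[[Int.ofNat (nat_lit 116199378886663250244)]]]]]]],[[[[[[[Int.negSucc (nat_lit 4939586987846067971)]]]]]]]],[[[],[[[[[[Int.negSucc (nat_lit 48518079204429759143)]]]]],[[[[[Int.ofNat (nat_lit 4231500671204668704)]]]]]]],[[[[],[[[[Int.negSucc (nat_lit 1087081276641358091)]]]]]],[[[[[[Int.negSucc (nat_lit 92487068111540164247)]]]]]]]],[[],[[[[[[[Int.ofNat (nat_lit 195339842651989583964)]]]]]]]],[[[],[[[[[[Int.negSucc (nat_lit 10554588575453005631)]]]]]]]]],[[[[],[[[],[[[[Int.ofNat (nat_lit 6383424545126722476)]]]]]],[[[[[[Int.ofNat (nat_lit 25453992127293020340)]]]]]]],[[[[[[[Int.ofNat (nat_lit 102355004491149645372)]]]]],[[[[[Int.ofNat (nat_lit 4260106428843894804)]]]]]]],[[[[[[[Int.negSucc (nat_lit 19580955750494178359)]]]]]]]],[[[],[[[[[[Int.negSucc (nat_lit 36898249550405298155)]]]]]]]],[[],[[[[[[[Int.negSucc (nat_lit 9092578066859507699)]]]]]]]]],[[[],[[[[[[[Int.ofNat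 (nat_lit 82038427752561329040)]]]]]]]],[[[],[[[[[[Int.negSucc (nat_lit 6319327304406458159)]]]]]]]]],[[[],[[[[[[[Int.negSucc (nat_lit 2042378843565255551)]]]]]]]]]]

/-- A coefficient. -/
noncomputable def sr7_m3_1_1 : MP 10 :=
  [[[[[],[[[[[[Int.negSucc (nat_lit 27462608634529884299)],[Int.ofNat (nat_lit 1572365765837536524)]]],[[[Int.negSucc (nat_lit 12121949997497492759)]]]],[[[],[[Int.negSucc (nat_lit 2664837233608781183)]]]],[[[[Int.ofNat (nat_lit 17427108945409135056)]]]]],[[[[[Int.negSucc (nat_lit 66882030327868154891)]]],[[[Int.ofNat (nat_lit 2702893625798974716)]]]]],[[[[[Int.negSucc (nat_lit 24990550758576076595)]]]]]],[[[[[[Int.ofNat (nat_lit 0),Int.negSucc (nat_lit 5331649428809320991)]],[[Int.ofNat (nat_lit 2137525426731227352)]]]],[[[[Int.negSucc (nat_lit 43815845740460966627)]]]]]],[[[[[[Int.negSucc (nat_lit 25526106892686339011)]]]]]]],[[[[[[[Int.ofNat (nat_lit 0),Int.negSucc (nat_lit 2596815436572586415)]],[[Int.ofNat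 (nat_lit 6900250587005834340)]]]],[[[[Int.negSucc (nat_lit 2664984945254845847)]]],[[[Int.negSucc (nat_lit 543766855290362771)]]]]],[[[[],[[Int.negSucc (nat_lit 3131144599652987759)]]]],[[[[Int.ofNat (nat_lit 37987779838830304404)]]]]]],[[[[[[Int.ofNat (nat_lit 143522610575911269336)],[Int.negSucc (nat_lit 12271009002128840783)]]],[[[Int.negSucc (nat_lit 17231686344274443071)]]]]],[[[[[Int.ofNat (nat_lit 75640236008748186300)]]]]]],[],[[[[[[Int.ofNat (nat_lit 14564444505197517228)]]]]]]],[[[[[[[Int.ofNat (nat_lit 0),Int.ofNat (nat_lit 8215522746844347648)]],[[Int.ofNat (nat_lit 7792002200158734348)]]]],[[[[Int.ofNat (nat_lit 57868740346882010184)]]]]]],[[[[[[Int.ofNat (nat_lit 140125384767331336884)]]]]]]],[[],[[[[[[Int.ofNat (nat_lit 17868088113170548908)]]]]]]]],[[[],[[[[[[Int.ofNat (nat_lit 0),Int.negSucc (nat_lit 5633877654639600383)]],[[Int.ofNat (nat_lit 16494789614958112704)]]]],[[[[Int.negSucc (nat_lit 28337157713595682163)]]]]]],[[[[[[Int.ofNat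 (nat_lit 230950788586835876172)]]]]],[[[[[Int.negSucc (nat_lit 25424076458234098739)]]]]]]],[[[[[[[Int.negSucc (nat_lit 113709815892893045975)],[Int.negSucc (nat_lit 5424907325556445799)]]],[[[Int.ofNat (nat_lit 57828681600389165964)]]]]],[[[[[Int.ofNat (nat_lit 66006957217318523316)]]]]]],[[[],[[[[Int.ofNat (nat_lit 26911995513438469560)]]]]]],[[[[[[Int.negSucc (nat_lit 1550857883709902315)]]]]]]],[[[[[[[Int.negSucc (nat_lit 302785951690173098939)]]]]],[[[[[Int.negSucc (nat_lit 5738915138250761567)]]]]]]],[[[[[[[Int.negSucc (nat_lit 120636543172981545875)]]]]]]]],[[[],[[[[[[Int.negSucc (nat_lit 549779533695368020607)]]],[[[Int.ofNat (nat_lit 3947484580598187204)]]]]],[[[[[Int.ofNat (nat_lit 9608858374688294208)]]]]]]],[[[[[[],[[Int.ofNat (nat_lit 1900082274682953312)]]]],[[[[Int.negSucc (nat_lit 3123899017868005907)]]]]]],[[[[[[Int.negSucc (nat_lit 38911968369192996143)]]]]]]]],[[[],[],[[[[[[Int.ofNat (nat_lit 29647189310259522240)]]]]]]],[[[[[[[Int.ofNat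 (nat_lit 50639225887702629324)]]]]]]],[[[[[[[Int.ofNat (nat_lit 1238321110487225580)]]]]]]]],[[[],[[[[[[Int.negSucc (nat_lit 50028566524066766399)]]]]]]]]],[[[[],[[[[[[Int.negSucc (nat_lit 18967277169117044027)],[Int.negSucc (nat_lit 5073597852184974359)]]],[[[Int.negSucc (nat_lit 8282294087734146671)]]]]],[[[[[Int.negSucc (nat_lit 43871145575462826563)]]]]]],[[[],[[[[Int.negSucc (nat_lit 8451161426852521343)]]]]]],[[[[[[Int.negSucc (nat_lit 21916907553479290631)]]]]]]],[[[[[[[Int.ofNat (nat_lit 0),Int.ofNat (nat_lit 3331236500412710496)]],[[Int.ofNat (nat_lit 6281261707742032716)]]]],[[[[Int.ofNat (nat_lit 26210237270917231608)]]]]]],[[[[[[Int.ofNat (nat_lit 106627576740293727372)]]]]],[[[[[Int.negSucc (nat_lit 6988797954980170235)]]]]]]],[[[[],[[[[Int.ofNat (nat_lit 25265574008109508572)]]]]]],[[[[[[Int.ofNat (nat_lit 21903632438133088560)]]]]]]]],[[[],[[[[[],[[Int.ofNat (nat_lit 7960896405810724044)]]]],[[[[Int.ofNat (nat_lit 18464189104609629468)]]]]]],[[[[[[Int.ofNat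 (nat_lit 33495018171017306724)]]]]]]],[[[[[[[Int.negSucc (nat_lit 118278743235630963959)]]],[[[Int.ofNat (nat_lit 16794516769147444272)]]]]],[[[[[Int.ofNat (nat_lit 92371631359927361508)]]]]]]],[[[[[[[Int.negSucc (nat_lit 151651982736575938355)]]]]]]]],[[[],[[[[[[Int.negSucc (nat_lit 239325692151130127447)]]]]]]],[[],[[[[[[Int.ofNat (nat_lit 48338439203136257424)]]]]]]]],[[],[[[[[[[Int.negSucc (nat_lit 51471394669180480463)]]]]]]]]],[[[[],[[[[[[Int.ofNat (nat_lit 16687700725494542616)]]],[[[Int.negSucc (nat_lit 3604897235201918987)]]]]],[[[[[Int.negSucc (nat_lit 6231998404443764375)]]]]]]],[[[[[[],[[Int.ofNat (nat_lit 641374123248217128)]]]],[[[[Int.ofNat (nat_lit 46276581678424577220)]]]]]],[[[[[[Int.negSucc (nat_lit 80784412670159559623)]]]]]]]],[[[],[],[[[[[[Int.negSucc (nat_lit 53094480553243320119)]]]]]]],[[[[[[[Int.negSucc (nat_lit 35161008773735248295)]]]]]]],[[[[[[[Int.negSucc (nat_lit 33825597394066606295)]]]]]]]],[[[],[[[[[[Int.ofNat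 (nat_lit 20503407731417153328)]]]]]]]]],[[[[],[[[[[[Int.negSucc (nat_lit 32026309839032594435)]]]]]]],[[],[[[[[[Int.negSucc (nat_lit 37125127943902080635)]]]]]]]],[[],[[[[[[[Int.ofNat (nat_lit 10985873204428622196)]]]]]]]]],[[[[],[[[[[[Int.negSucc (nat_lit 30372629591167768103)]]]]]]]]]]

/-- A coefficient. -/
noncomputable def sr7_m3_1_2 : MP 10 :=
  [[[[[],[[[[[[Int.ofNat (nat_lit 0),Int.ofNat (nat_lit 12261419106576546000)]],[[Int.negSucc (nat_lit 10588268653814059151)]]]],[[[[Int.ofNat (nat_lit 81696885588401877840)]]]]],[[],[[[[Int.ofNat (nat_lit 16988262767134564968)]]]]]],[[[[[[Int.ofNat (nat_lit 249999740320514204724)]]],[[[Int.ofNat (nat_lit 2411458627667077224)]]]]],[[[[[Int.ofNat (nat_lit 4320447995079855960)]]]]]]],[[[[[[[Int.negSucc (nat_lit 87451728391240786835)],[Int.ofNat (nat_lit 9870915915335135544)]]],[[[Int.negSucc (nat_lit 64099405766100474719)]]]],[],[[[[Int.ofNat (nat_lit 3245487558797304144)]]]]],[[[[[Int.negSucc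 (nat_lit 114186290214373161707)]]]]],[[[[[Int.ofNat (nat_lit 15302158660864724184)]]]]]],[[[[[],[[Int.ofNat (nat_lit 6206010661960721448)]]]],[[[[Int.negSucc (nat_lit 35458410171578773523)]]]]]],[[[[[[Int.negSucc (nat_lit 326007295760128078223)]]]]]]],[[[[[[[Int.ofNat (nat_lit 668020093454205311244)]]],[[[Int.negSucc (nat_lit 4988417253326792399)]]]]],[[[[[Int.negSucc (nat_lit 48049796020185460175)]]]]]]],[[[[[[[Int.negSucc (nat_lit 26601646022623232267)]]]]]]]],[[[],[[[[[[Int.ofNat (nat_lit 321663761965185223584)],[Int.ofNat (nat_lit 12299713915699495068)]]],[[[Int.negSucc (nat_lit 72165847807258588919)]]]]],[[[[[Int.ofNat (nat_lit 156316784409880355064)]]]]]],[],[[[[[[Int.negSucc (nat_lit 47660166644374770395)]]]]]]],[[[[[[[Int.ofNat (nat_lit 0),Int.negSucc (nat_lit 8846577021078542759)]],[[Int.negSucc (nat_lit 3893834680794281771)]]]],[[[[Int.negSucc (nat_lit 112114427040756470471)]]]]]],[[[[[[Int.ofNat (nat_lit 757371444899811824532)]]]]]]],[[],[[[[[[Int.negSucc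 (nat_lit 19076910014537238011)]]]]]]]],[[[],[[[],[[[[Int.negSucc (nat_lit 50326247360734447355)]]]]]],[[[[[[Int.ofNat (nat_lit 229591576875414582852)]]]]]]],[[[[[[[Int.negSucc (nat_lit 346763153610479502311)]]]]],[[[[[Int.negSucc (nat_lit 9405974862584897423)]]]]]]],[[[[[[[Int.ofNat (nat_lit 73043244535281628572)]]]]]]]],[[[],[[[[[[Int.negSucc (nat_lit 263777569087244939687)]]]]]]]],[[],[[[[[[[Int.ofNat (nat_lit 29953877055220855464)]]]]]]]]],[[[[],[[[[[[Int.ofNat (nat_lit 0),Int.ofNat (nat_lit 7107959266749013608)]],[[Int.negSucc (nat_lit 7753141750885940903)]]]],[[[[Int.ofNat (nat_lit 92950367241575563488)]]]]]],[[[[[[Int.ofNat (nat_lit 424541760604139246196)]]]]]]],[[[[[[[Int.negSucc (nat_lit 9810727683062017991)],[Int.ofNat (nat_lit 7960777627435319484)]]],[[[Int.negSucc (nat_lit 38576592697259997443)]]]]],[[[[[Int.negSucc (nat_lit 122199071967595503335)]]]]]],[],[[[[[[Int.negSucc (nat_lit 22915983447465339863)]]]]]]],[[[[[[[Int.ofNat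 (nat_lit 802703875305127296168)]]]]]]],[[[[[[[Int.negSucc (nat_lit 32230794907667093531)]]]]]]]],[[[],[[[[[[Int.negSucc (nat_lit 53311358840891823107)]]]]],[[[[[Int.ofNat (nat_lit 27501782176743701448)]]]]]]],[[[[],[[[[Int.negSucc (nat_lit 23574224409407591939)]]]]]],[[[[[[Int.ofNat (nat_lit 318842803680514444092)]]]]]]]],[[],[[[[[[[Int.negSucc (nat_lit 270287659973810585687)]]]]]]]],[[[],[[[[[[Int.negSucc (nat_lit 48086980995320883155)]]]]]]]]],[[[[],[[[],[[[[Int.negSucc (nat_lit 18177678608267151251)]]]]]],[[[[[[Int.ofNat (nat_lit 194819690511549802968)]]]]]]],[[[[[[[Int.ofNat (nat_lit 279700705182625846416)]]]]],[[[[[Int.negSucc (nat_lit 38949513332882225507)]]]]]]],[[[[[[[Int.ofNat (nat_lit 377309093070371966064)]]]]]]]],[[[],[[[[[[Int.negSucc (nat_lit 131801367494504569367)]]]]]]]],[[],[[[[[[[Int.ofNat (nat_lit 52340836443540583920)]]]]]]]]],[[[],[[[[[[[Int.ofNat (nat_lit 162609683665624098336)]]]]]]]],[[[],[[[[[[Int.negSucc (nat_lit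 16770546225802066067)]]]]]]]]],[[[],[[[[[[[Int.ofNat (nat_lit 36544700122236311340)]]]]]]]]]]

/-- A coefficient. -/
noncomputable def sr7_m3_1_3 : MP 10 :=
  [[[[[],[[[[[[Int.ofNat (nat_lit 3372548119579565496)],[Int.negSucc (nat_lit 2992248612953218631)]]],[[[Int.ofNat (nat_lit 72851048937681518772)]]]]],[[[[[Int.negSucc (nat_lit 213283219957577723123)]]]]]],[[[],[[[[Int.ofNat (nat_lit 6644993466457642548)]]]]]],[[[[[[Int.ofNat (nat_lit 139760558570869670940)]]]]]]],[[[[[[[Int.ofNat (nat_lit 0),Int.ofNat (nat_lit 1271540145316582968)]],[[Int.negSucc (nat_lit 8930207411273165999)]]]],[[[[Int.ofNat (nat_lit 191734702791052956024)]]]]]],[[[[[[Int.negSucc (nat_lit 896043557517489341183)]]]]],[[[[[Int.negSucc (nat_lit 4567671607164557807)]]]]]]],[[[[],[[[[Int.ofNat (nat_lit 14242249351723412544)]]]]]],[[[[[[Int.negSucc (nat_lit 20033672274895915091)]]]]]]]],[[[],[[[[[],[[Int.negSucc (nat_lit 3838489545063678515)]]]],[[[[Int.ofNat (nat_lit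 49264605532412998404)]]]]]],[[[[[[Int.negSucc (nat_lit 715777757178554927663)]]]]]]],[[[[[[[Int.ofNat (nat_lit 306723716538005313912)]]],[[[Int.negSucc (nat_lit 25811266878175313639)]]]]],[[[[[Int.negSucc (nat_lit 54006377128318082891)]]]]]]],[[[[[[[Int.negSucc (nat_lit 79717248389805632543)]]]]]]]],[[[],[[[[[[Int.ofNat (nat_lit 969953489225510074272)]]]]]]],[[],[[[[[[Int.negSucc (nat_lit 75640484884236592991)]]]]]]]],[[],[[[[[[[Int.negSucc (nat_lit 92719181669086627571)]]]]]]]]],[[[[],[[[[[[Int.ofNat (nat_lit 356765726280195306528)]]],[[[Int.ofNat (nat_lit 22127450424494672964)]]]]],[[[[[Int.negSucc (nat_lit 42078749666764077935)]]]]]]],[[[[[[],[[Int.negSucc (nat_lit 6117243433928403671)]]]],[[[[Int.ofNat (nat_lit 73926055358364751788)]]]]]],[[[[[[Int.negSucc (nat_lit 613829234378663740331)]]]]]]]],[[[],[],[[[[[[Int.negSucc (nat_lit 84827166458968954043)]]]]]]],[[[[[[[Int.ofNat (nat_lit 981796178482052964600)]]]]]]],[[[[[[[Int.negSucc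 (nat_lit 156392092755405150227)]]]]]]]],[[[],[[[[[[Int.ofNat (nat_lit 335284845010670479728)]]]]]]]]],[[[[],[[[[[[Int.ofNat (nat_lit 298503276891723442608)]]]]]]],[[],[[[[[[Int.negSucc (nat_lit 8993667519290715863)]]]]]]]],[[],[[[[[[[Int.ofNat (nat_lit 286801115982351320616)]]]]]]]]],[[[[],[[[[[[Int.ofNat (nat_lit 9165114820159776492)]]]]]]]]]]

/-- A coefficient. -/
noncomputable def sr7_m3_1_4 : MP 10 :=
  [[[[[],[[[[[[Int.ofNat (nat_lit 0),Int.negSucc (nat_lit 5183744370185776487)]],[[Int.ofNat (nat_lit 9631792770557463468)]]]],[[[[Int.negSucc (nat_lit 65666158018302810371)]]]]]],[[[[[[Int.ofNat (nat_lit 581639829182613498720)]]]]]]],[[[[[[[Int.ofNat (nat_lit 698091451070039523444)],[Int.negSucc (nat_lit 2966356072974074579)]]],[[[Int.ofNat (nat_lit 21198248353410142248)]]]]],[[[[[Int.ofNat (nat_lit 109104272532358647264)]]]]]],[],[[[[[[Int.ofNat (nat_lit 188121264466512858828)]]]]]]],[[[[[[[Int.ofNat (nat_lit 199609199287542239964)]]]]]]],[[[[[[[Int.ofNat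 (nat_lit 21233965571804002404)]]]]]]]],[[[],[[[[[[Int.negSucc (nat_lit 562455094561534349087)]]]]],[[[[[Int.negSucc (nat_lit 43747371223736576627)]]]]]]],[[[[],[[[[Int.negSucc (nat_lit 24758431721573809187)]]]]]],[[[[[[Int.negSucc (nat_lit 122194420178885820647)]]]]]]]],[[],[[[[[[[Int.ofNat (nat_lit 749645215791759989820)]]]]]]]],[[[],[[[[[[Int.ofNat (nat_lit 84103916667459836568)]]]]]]]]],[[[[],[[[],[[[[Int.ofNat (nat_lit 20056235730415174632)]]]]]],[[[[[[Int.negSucc (nat_lit 154559186190960521003)]]]]]]],[[[[[[[Int.ofNat (nat_lit 330624061069169162124)]]]]],[[[[[Int.ofNat (nat_lit 21193393131186626580)]]]]]]],[[[[[[[Int.negSucc (nat_lit 16099464647718310115)]]]]]]]],[[[],[[[[[[Int.negSucc (nat_lit 406422598110785452775)]]]]]]]],[[],[[[[[[[Int.negSucc (nat_lit 65991191186887283795)]]]]]]]]],[[[],[[[[[[[Int.ofNat (nat_lit 541821538946836348728)]]]]]]]],[[[],[[[[[[Int.ofNat (nat_lit 130911326022014263416)]]]]]]]]],[[[],[[[[[[[Int.ofNat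 (nat_lit 126531596944681584888)]]]]]]]]]]

/-- A coefficient. -/
noncomputable def sr7_m3_1_5 : MP 10 :=
  [[[[[],[[[[[[Int.negSucc (nat_lit 645218502007401617747)]]],[[[Int.negSucc (nat_lit 19422967681464874823)]]]]],[[[[[Int.ofNat (nat_lit 167775723505221829104)]]]]]]],[[[[[[],[[Int.ofNat (nat_lit 6732262501442187216)]]]],[[[[Int.negSucc (nat_lit 83747997296239032251)]]]]]],[[[[[[Int.ofNat (nat_lit 575007774283116323100)]]]]]]]],[[[],[],[[[[[[Int.ofNat (nat_lit 237270442473303274356)]]]]]]],[[[[[[[Int.negSucc (nat_lit 88889112036971809151)]]]]]]],[[[[[[[Int.ofNat (nat_lit 190248838017555413808)]]]]]]]],[[[],[[[[[[Int.negSucc (nat_lit 552276477777694611839)]]]]]]]]],[[[[],[[[[[[Int.negSucc (nat_lit 794574929291504309267)]]]]]]],[[],[[[[[[Int.ofNat (nat_lit 29144265497043697320)]]]]]]]],[[],[[[[[[[Int.negSucc (nat_lit 288231328809709659755)]]]]]]]]],[[[[],[[[[[[Int.negSucc (nat_lit 378978956686075150223)]]]]]]]]]]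

/-- A coefficient. -/
noncomputable def sr7_m3_1_6 : MP 10 :=
  [[[[[],[[[],[[[[Int.negSucc (nat_lit 17311260742477018259)]]]]]],[[[[[[Int.negSucc (nat_lit 411589408917840576203)]]]]]]],[[[[[[[Int.negSucc (nat_lit 875285384150515187783)]]]]],[[[[[Int.negSucc (nat_lit 9530144707672753391)]]]]]]],[[[[[[[Int.negSucc (nat_lit 33971298369613146167)]]]]]]]],[[[],[[[[[[Int.ofNat (nat_lit 950838426878695854264)]]]]]]]],[[],[[[[[[[Int.ofNat (nat_lit 201254818040700585732)]]]]]]]]],[[[],[[[[[[[Int.ofNat (nat_lit 149331531665214792648)]]]]]]]],[[[],[[[[[[Int.ofNat (nat_lit 64440728607969954024)]]]]]]]]],[[[],[[[[[[[Int.ofNat (nat_lit 28710837439783447968)]]]]]]]]]]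

/-- A coefficient. -/
noncomputable def sr7_m3_1_7 : MP 10 :=
  [[[[[],[[[[[[Int.ofNat (nat_lit 433417500335790900840)]]]]]]],[[],[[[[[[Int.negSucc (nat_lit 214345029986495403443)]]]]]]]],[[],[[[[[[[Int.negSucc (nat_lit 261388250216927738771)]]]]]]]]],[[[[],[[[[[[Int.ofNat (nat_lit 440541296361646144824)]]]]]]]]]]

/-- A coefficient. -/
noncomputable def sr7_m3_1_8 : MP 10 :=
  [[[[],[[[[[[[Int.ofNat (nat_lit 657480455391742077684)]]]]]]]],[[[],[[[[[[Int.negSucc (nat_lit 562168868433687279599)]]]]]]]]],[[[],[[[[[[[Int.negSucc (nat_lit 218904386130664779371)]]]]]]]]]]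

/-- A coefficient. -/
noncomputable def sr7_m3_1_9 : MP 10 :=
  [[[[[],[[[[[[Int.negSucc (nat_lit 65216062547957817659)]]]]]]]]]]

/-- A coefficient. -/
noncomputable def sr7_m3_1_10 : MP 10 :=
  [[[[],[[[[[[[Int.negSucc (nat_lit 76621989769211263427)]]]]]]]]]]

/-- A coefficient. -/
noncomputable def sr7_m3_2_0 : MP 10 :=
  [[[[[],[[[[[[Int.ofNat (nat_lit 0),Int.negSucc (nat_lit 11291182807906282487)]],[[Int.negSucc (nat_lit 23707586297512151363)]]]],[[[[Int.negSucc (nat_lit 57365528917103688215)]]],[[[Int.ofNat (nat_lit 2950595970018788160)]]]]],[[[[],[[Int.ofNat (nat_lit 1616276552940667464)]]]],[[[[Int.ofNat (nat_lit 2903778705881739036)]]]]]],[[[[[[Int.negSucc (nat_lit 100281956438137530695)],[Int.ofNat (nat_lit 268844343810588348)]]],[[[Int.ofNat (nat_lit 10892357478712207260)]]]]],[[[[[Int.ofNat (nat_lit 34040798992526205108)]]]]]],[],[[[[[[Int.negSucc (nat_lit 19988547240133739855)]]]]]]],[[[[[[[Int.ofNat (nat_lit 51420203708291174952)],[Int.negSucc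 (nat_lit 9905654933114231531)]]],[[[Int.negSucc (nat_lit 13543767883115415611)]]]],[[[],[[Int.negSucc (nat_lit 5800059448797039875)]]]],[[[[Int.negSucc (nat_lit 21415664585240458691)]]]]],[[[[[Int.negSucc (nat_lit 15815577456670745279)]]],[[[Int.ofNat (nat_lit 431945288022281184)]]]]],[[[[[Int.negSucc (nat_lit 32128653659276385143)]]]]]],[[[[[[Int.ofNat (nat_lit 0),Int.negSucc (nat_lit 1998646310583557975)]],[[Int.negSucc (nat_lit 4108963790764870619)]]]],[[[[Int.ofNat (nat_lit 95173266878681355360)]]]]]],[[[[[[Int.negSucc (nat_lit 141896332899377735147)]]]]]]],[[[[[[[Int.negSucc (nat_lit 224880617515042645643)],[Int.negSucc (nat_lit 351445411774741811)]]],[[[Int.negSucc (nat_lit 948027313611687503)]]]]],[[[[[Int.ofNat (nat_lit 73008810915567646344)]]]]]],[],[[[[[[Int.negSucc (nat_lit 32051958891786817163)]]]]]]],[[[[[[[Int.negSucc (nat_lit 44360280631802830271)]]]]]]],[[[[[[[Int.negSucc (nat_lit 10080790841284685303)]]]]]]]],[[[],[[[[[[Int.ofNat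 (nat_lit 180467748573709472892)],[Int.ofNat (nat_lit 1889294725620666696)]]],[[[Int.negSucc (nat_lit 36292919743782378107)]]]]],[[[[[Int.negSucc (nat_lit 82925252286344625155)]]]]]],[[[],[[[[Int.ofNat (nat_lit 10765521516034087440)]]]]]],[[[[[[Int.ofNat (nat_lit 24262767330093069888)]]]]]]],[[[[[[[Int.ofNat (nat_lit 0),Int.negSucc (nat_lit 2383173633639251927)]],[[Int.ofNat (nat_lit 17855664238605545376)]]]],[[[[Int.negSucc (nat_lit 65463777582359565407)]]]]]],[[[[[[Int.ofNat (nat_lit 54985888633011205344)]]]]],[[[[[Int.ofNat (nat_lit 15685534769313776028)]]]]]]],[[[[],[[[[Int.negSucc (nat_lit 26144051963955129731)]]]]]],[[[[[[Int.ofNat (nat_lit 195101023747794052848)]]]]]]]],[[[],[[[[[],[[Int.negSucc (nat_lit 35071302035426915)]]]],[[[[Int.negSucc (nat_lit 253437762258181151)]]]]]],[[[[[[Int.ofNat (nat_lit 28619618072967003180)]]]]]]],[[[[[[[Int.negSucc (nat_lit 470132654077293844067)]]],[[[Int.ofNat (nat_lit 2131421159785830108)]]]]],[[[[[Int.ofNat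 (nat_lit 74679457171183754616)]]]]]]],[[[[[[[Int.negSucc (nat_lit 245921744206124253227)]]]]]]]],[[[],[[[[[[Int.negSucc (nat_lit 340135178251804218635)]]]]]]],[[],[[[[[[Int.ofNat (nat_lit 11130156129293016912)]]]]]]]],[[],[[[[[[[Int.negSucc (nat_lit 65574618596522259707)]]]]]]]]],[[[[],[[[[[[Int.ofNat (nat_lit 0),Int.negSucc (nat_lit 9738114998522830631)]],[[Int.negSucc (nat_lit 1456807603656804203)]]]],[[[[Int.negSucc (nat_lit 80420976318986907683)]]]]]],[[[[[[Int.negSucc (nat_lit 151042493943879122087)]]]]],[[[[[Int.negSucc (nat_lit 6226830990668136491)]]]]]]],[[[[[[[Int.ofNat (nat_lit 287778721603360957752)],[Int.negSucc (nat_lit 9210892250667287195)]]],[[[Int.negSucc (nat_lit 5480699236622486819)]]]]],[[[[[Int.ofNat (nat_lit 146772312277338719784)]]]]]],[[[],[[[[Int.ofNat (nat_lit 26000761764152949636)]]]]]],[[[[[[Int.negSucc (nat_lit 74769963569390778395)]]]]]]],[[[[[[[Int.negSucc (nat_lit 423770891046290390771)]]]]],[[[[[Int.negSucc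 (nat_lit 24822020763630591779)]]]]]]],[[[[[[[Int.ofNat (nat_lit 96064285337250360708)]]]]]]]],[[[],[[[[[[Int.ofNat (nat_lit 350472572303527232112)]]],[[[Int.negSucc (nat_lit 6998638563058710707)]]]]],[[[[[Int.negSucc (nat_lit 24277883036841967883)]]]]]]],[[[[[[],[[Int.negSucc (nat_lit 1296887282637486947)]]]],[[[[Int.negSucc (nat_lit 51456429467343137111)]]]]]],[[[[[[Int.ofNat (nat_lit 199799841740254376064)]]]]]]]],[[[],[],[[[[[[Int.ofNat (nat_lit 45369082513647997500)]]]]]]],[[[[[[[Int.negSucc (nat_lit 687296227152169197491)]]]]]]],[[[[[[[Int.ofNat (nat_lit 65971700648208511452)]]]]]]]],[[[],[[[[[[Int.negSucc (nat_lit 39559082040941965787)]]]]]]]]],[[[[],[[[[[],[[Int.ofNat (nat_lit 6341201062811564784)]]]],[[[[Int.ofNat (nat_lit 26920703822516935140)]]]]]],[[[[[[Int.negSucc (nat_lit 97343643449318462939)]]]]]]],[[[[[[[Int.ofNat (nat_lit 17637066894417732432)]]],[[[Int.ofNat (nat_lit 5732868475686156072)]]]]],[[[[[Int.ofNat (nat_lit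 127129324993162562328)]]]]]]],[[[[[[[Int.negSucc (nat_lit 109279112624214188003)]]]]]]]],[[[],[[[[[[Int.ofNat (nat_lit 154553242180804731348)]]]]]]],[[],[[[[[[Int.ofNat (nat_lit 13859574859781281380)]]]]]]]],[[],[[[[[[[Int.negSucc (nat_lit 278083984274576608559)]]]]]]]]],[[[[],[],[[[[[[Int.ofNat (nat_lit 17092117409028162660)]]]]]]],[[[[[[[Int.negSucc (nat_lit 306118023442920336887)]]]]]]],[[[[[[[Int.ofNat (nat_lit 30753492635178584760)]]]]]]]],[[[],[[[[[[Int.ofNat (nat_lit 54832469301659385996)]]]]]]]]],[[[],[[[[[[[Int.negSucc (nat_lit 107235409343433079787)]]]]]]]]]]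

/-- A coefficient. -/
noncomputable def sr7_m3_2_1 : MP 10 :=
  [[[[[],[[[[[[Int.negSucc (nat_lit 233931432299640324047)],[Int.ofNat (nat_lit 18512985313927993788)]]],[[[Int.negSucc (nat_lit 10873514257424712599)]]]],[],[[[[Int.negSucc (nat_lit 6900333614293854119)]]]]],[[[[[Int.ofNat (nat_lit 91222618882468916484)]]]]],[[[[[Int.ofNat (nat_lit 13439829931175360100)]]]]]],[[[[[],[[Int.negSucc (nat_lit 1386963313949382371)]]]],[[[[Int.ofNat (nat_lit 54353530848556694748)]]]]]],[[[[[[Int.ofNat (nat_lit 12294571942718284620)]]]]]]],[[[[[[[Int.ofNat (nat_lit 0),Int.negSucc (nat_lit 13315042336418897903)]],[[Int.negSucc (nat_lit 15690990010011873527)]]]],[[[[Int.negSucc (nat_lit 88753299363728203847)]]]]],[[],[[[[Int.negSucc (nat_lit 18390045405937014155)]]]]]],[[[[[[Int.ofNat (nat_lit 83642491182091500600)]]],[[[Int.ofNat (nat_lit 14400847350506072556)]]]]],[[[[[Int.negSucc (nat_lit 121439159841732121427)]]]]]]],[[[[[[],[[Int.negSucc (nat_lit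 5360422389239213687)]]]],[[[[Int.negSucc (nat_lit 93693867805019641235)]]]]]],[[[[[[Int.negSucc (nat_lit 312904143482866399175)]]]]]]]],[[[],[[[[[[Int.ofNat (nat_lit 0),Int.negSucc (nat_lit 6776153859457804175)]],[[Int.negSucc (nat_lit 29634368004348378671)]]]],[[[[Int.negSucc (nat_lit 2583908864930864735)]]]]]],[[[[[[Int.negSucc (nat_lit 289027397905139095139)]]]]]]],[[[[[[[Int.ofNat (nat_lit 467661503559490093464)],[Int.negSucc (nat_lit 5238636513898783115)]]],[[[Int.negSucc (nat_lit 52505047014484528691)]]]]],[[[[[Int.negSucc (nat_lit 54605412658280651483)]]]]]],[],[[[[[[Int.ofNat (nat_lit 1726818060376193316)]]]]]]],[[[[[[[Int.ofNat (nat_lit 201617133854017865556)]]]]]]],[[[[[[[Int.ofNat (nat_lit 117250088215049597388)]]]]]]]],[[[],[[[[[[Int.ofNat (nat_lit 869774440994920322976)]]]]],[[[[[Int.negSucc (nat_lit 11393373588747661127)]]]]]]],[[[[],[[[[Int.negSucc (nat_lit 14609831897654253731)]]]]]],[[[[[[Int.ofNat (nat_lit 262936418995987716456)]]]]]]]],[[],[[[[[[[Int.negSucc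 (nat_lit 480356474790363386195)]]]]]]]],[[[],[[[[[[Int.ofNat (nat_lit 82836336946078677420)]]]]]]]]],[[[[],[[[[[[Int.negSucc (nat_lit 616180879392136845899)],[Int.ofNat (nat_lit 2359095026573532420)]]],[[[Int.negSucc (nat_lit 12238157922675923603)]]]]],[[[[[Int.ofNat (nat_lit 14127489428537135604)]]]]]],[],[[[[[[Int.ofNat (nat_lit 6964682925895255608)]]]]]]],[[[[[[[Int.ofNat (nat_lit 0),Int.negSucc (nat_lit 2193069557381578799)]],[[Int.negSucc (nat_lit 14736956853623866955)]]]],[[[[Int.negSucc (nat_lit 112488500057574703847)]]]]]],[[[[[[Int.ofNat (nat_lit 159909585052383276924)]]]]]]],[[],[[[[[[Int.negSucc (nat_lit 62424637058857807067)]]]]]]]],[[[],[[[],[[[[Int.negSucc (nat_lit 50049698473473037631)]]]]]],[[[[[[Int.negSucc (nat_lit 183029347395171411239)]]]]]]],[[[[[[[Int.ofNat (nat_lit 343386767900080012584)]]]]],[[[[[Int.negSucc (nat_lit 105470800532030334623)]]]]]]],[[[[[[[Int.ofNat (nat_lit 284915402573394260184)]]]]]]]],[[[],[[[[[[Int.ofNat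 (nat_lit 424853870084057303436)]]]]]]]],[[],[[[[[[[Int.ofNat (nat_lit 46705533438428300688)]]]]]]]]],[[[[],[[[[[[Int.negSucc (nat_lit 289049042863623216467)]]]]],[[[[[Int.negSucc (nat_lit 1043650501039997375)]]]]]]],[[[[],[[[[Int.negSucc (nat_lit 55449989100767412191)]]]]]],[[[[[[Int.ofNat (nat_lit 65152289407038791172)]]]]]]]],[[],[[[[[[[Int.negSucc (nat_lit 219400195942323069887)]]]]]]]],[[[],[[[[[[Int.ofNat (nat_lit 127450378228649750088)]]]]]]]]],[[[[],[[[[[[Int.ofNat (nat_lit 128861066270761744236)]]]]]]]],[[],[[[[[[[Int.ofNat (nat_lit 19411208119670204040)]]]]]]]]],[[[[],[[[[[[Int.ofNat (nat_lit 62802736291531305120)]]]]]]]]]]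

/-- A coefficient. -/
noncomputable def sr7_m3_2_2 : MP 10 :=
  [[[[[],[[[[[[Int.ofNat (nat_lit 0),Int.ofNat (nat_lit 21549862104993057648)]],[[Int.ofNat (nat_lit 7811728800972468552)]]]],[[[[Int.negSucc (nat_lit 54226600396366470587)]]]]]],[[[[[[Int.negSucc (nat_lit 479874451281848537039)]]]]],[[[[[Int.ofNat (nat_lit 6482375848358829276)]]]]]]],[[[[[[[Int.negSucc (nat_lit 729896974400470920383)],[Int.ofNat (nat_lit 21704402579631123768)]]],[[[Int.ofNat (nat_lit 26169286710909649752)]]]]],[[[[[Int.ofNat (nat_lit 121574984378603879004)]]]]]],[[[],[[[[Int.negSucc (nat_lit 26689821676348603775)]]]]]],[[[[[[Int.ofNat (nat_lit 494261665106559254700)]]]]]]],[[[[[[[Int.negSucc (nat_lit 813042248638955521031)]]]]],[[[[[Int.ofNat (nat_lit 41407306789912367304)]]]]]]],[[[[[[[Int.ofNat (nat_lit 108459013023841009116)]]]]]]]],[[[],[[[[[[Int.negSucc (nat_lit 1054607992729276450415)]]],[[[Int.ofNat (nat_lit 43591259801913214128)]]]]],[[[[[Int.negSucc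 (nat_lit 143482354284114839135)]]]]]]],[[[[[[],[[Int.ofNat (nat_lit 4584042593949969780)]]]],[[[[Int.ofNat (nat_lit 198610708956585063828)]]]]]],[[[[[[Int.negSucc (nat_lit 1277219767285504699871)]]]]]]]],[[[],[],[[[[[[Int.negSucc (nat_lit 195416752388530869503)]]]]]]],[[[[[[[Int.ofNat (nat_lit 1463972981273314374660)]]]]]]],[[[[[[[Int.negSucc (nat_lit 146853185544111812507)]]]]]]]],[[[],[[[[[[Int.ofNat (nat_lit 436757031856900712184)]]]]]]]]],[[[[],[[[[[],[[Int.negSucc (nat_lit 6482060863059974027)]]]],[[[[Int.negSucc (nat_lit 131191181863399113143)]]]]]],[[[[[[Int.negSucc (nat_lit 382339467102373169999)]]]]]]],[[[[[[[Int.negSucc (nat_lit 1881711022442918633999)]]],[[[Int.negSucc (nat_lit 7916150990029232723)]]]]],[[[[[Int.ofNat (nat_lit 40897274042367462036)]]]]]]],[[[[[[[Int.negSucc (nat_lit 646959342993432634355)]]]]]]]],[[[],[[[[[[Int.negSucc (nat_lit 910424713041576806987)]]]]]]],[[],[[[[[[Int.negSucc (nat_lit 161726457706685627471)]]]]]]]],[[],[[[[[[[Int.ofNat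 (nat_lit 933860455869940006200)]]]]]]]]],[[[[],[],[[[[[[Int.negSucc (nat_lit 213512029811449159379)]]]]]]],[[[[[[[Int.negSucc (nat_lit 1365097156325772862631)]]]]]]],[[[[[[[Int.negSucc (nat_lit 236251289443559893511)]]]]]]]],[[[],[[[[[[Int.negSucc (nat_lit 243961013887993859543)]]]]]]]]],[[[],[[[[[[[Int.negSucc (nat_lit 162143079962134048283)]]]]]]]]]]

/-- A coefficient. -/
noncomputable def sr7_m3_2_3 : MP 10 :=
  [[[[[],[[[[[[Int.ofNat (nat_lit 872372816581307393388)],[Int.negSucc (nat_lit 17800929530788153007)]]],[[[Int.ofNat (nat_lit 2839082433071540244)]]]]],[[[[[Int.ofNat (nat_lit 45146118430456056732)]]]]]],[],[[[[[[Int.negSucc (nat_lit 74106155223942136319)]]]]]]],[[[[[[[Int.ofNat (nat_lit 0),Int.ofNat (nat_lit 13766407330555963248)]],[[Int.negSucc (nat_lit 8245513711511614583)]]]],[[[[Int.negSucc (nat_lit 169321918124111042411)]]]]]],[[[[[[Int.ofNat (nat_lit 1100358926985123365580)]]]]]]],[[],[[[[[[Int.ofNat (nat_lit 129011844686959926828)]]]]]]]],[[[],[[[],[[[[Int.ofNat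 (nat_lit 35048052419757332328)]]]]]],[[[[[[Int.ofNat (nat_lit 111372583394140014756)]]]]]]],[[[[[[[Int.negSucc (nat_lit 881278934061106843835)]]]]],[[[[[Int.ofNat (nat_lit 99448058629956334284)]]]]]]],[[[[[[[Int.negSucc (nat_lit 187953949615163671511)]]]]]]]],[[[],[[[[[[Int.negSucc (nat_lit 646471315069863055619)]]]]]]]],[[],[[[[[[[Int.negSucc (nat_lit 40188145995108997115)]]]]]]]]],[[[[],[[[[[[Int.ofNat (nat_lit 1220106080427117497880)]]]]],[[[[[Int.negSucc (nat_lit 25056382729706352443)]]]]]]],[[[[],[[[[Int.ofNat (nat_lit 868086484955354820)]]]]]],[[[[[[Int.ofNat (nat_lit 270157372140618569472)]]]]]]]],[[],[[[[[[[Int.negSucc (nat_lit 1138147023865285222667)]]]]]]]],[[[],[[[[[[Int.negSucc (nat_lit 111518044641796185527)]]]]]]]]],[[[[],[[[[[[Int.ofNat (nat_lit 476341520086090412712)]]]]]]]],[[],[[[[[[[Int.negSucc (nat_lit 298278329436345812183)]]]]]]]]],[[[[],[[[[[[Int.ofNat (nat_lit 51454462189893029304)]]]]]]]]]]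

/-- A coefficient. -/
noncomputable def sr7_m3_2_4 : MP 10 :=
  [[[[[],[[[[[],[[Int.negSucc (nat_lit 17124961246463677871)]]]],[[[[Int.ofNat (nat_lit 109596897725986785996)]]]]]],[[[[[[Int.negSucc (nat_lit 293453931748343220995)]]]]]]],[[[[[[[Int.negSucc (nat_lit 1193562932926089522563)]]],[[[Int.ofNat (nat_lit 8827899371888124204)]]]]],[[[[[Int.negSucc (nat_lit 285548556622987410779)]]]]]]],[[[[[[[Int.negSucc (nat_lit 112995698949588077351)]]]]]]]],[[[],[[[[[[Int.negSucc (nat_lit 654254149726014958835)]]]]]]],[[],[[[[[[Int.ofNat (nat_lit 284130416337467401320)]]]]]]]],[[],[[[[[[[Int.negSucc (nat_lit 1551941047269760441163)]]]]]]]]],[[[[],[],[[[[[[Int.ofNat (nat_lit 341592692213239927524)]]]]]]],[[[[[[[Int.negSucc (nat_lit 615032624129526821099)]]]]]]],[[[[[[[Int.ofNat (nat_lit 342907205225718051120)]]]]]]]],[[[],[[[[[[Int.ofNat (nat_lit 211391159677275386736)]]]]]]]]],[[[],[[[[[[[Int.negSucc (nat_lit 429252811892694636959)]]]]]]]]]]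

/-- A coefficient. -/
noncomputable def sr7_m3_2_5 : MP 10 :=
  [[[[[],[[[[[[Int.ofNat (nat_lit 472120442513237637372)]]]]],[[[[[Int.negSucc (nat_lit 121707084504002221151)]]]]]]],[[[[],[[[[Int.ofNat (nat_lit 205394245773248111112)]]]]]],[[[[[[Int.negSucc (nat_lit 675869667010118893679)]]]]]]]],[[],[[[[[[[Int.ofNat (nat_lit 1182685531720474526268)]]]]]]]],[[[],[[[[[[Int.ofNat (nat_lit 333966195797830266960)]]]]]]]]],[[[[],[[[[[[Int.negSucc (nat_lit 30371828386183668419)]]]]]]]],[[],[[[[[[[Int.ofNat (nat_lit 397431091189436372016)]]]]]]]]],[[[[],[[[[[[Int.ofNat (nat_lit 251282077999788454488)]]]]]]]]]]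

/-- A coefficient. -/
noncomputable def sr7_m3_2_6 : MP 10 :=
  [[[[[],[],[[[[[[Int.ofNat (nat_lit 185059991267906536116)]]]]]]],[[[[[[[Int.ofNat (nat_lit 1511012302988885158968)]]]]]]],[[[[[[[Int.negSucc (nat_lit 233919487136886960995)]]]]]]]],[[[],[[[[[[Int.ofNat (nat_lit 611696518450399643772)]]]]]]]]],[[[],[[[[[[[Int.ofNat (nat_lit 745086605582921218044)]]]]]]]]]]

/-- A coefficient. -/
noncomputable def sr7_m3_2_7 : MP 10 :=
  [[[[[],[[[[[[Int.negSucc (nat_lit 1459443060642775178591)]]]]]]]],[[],[[[[[[[Int.negSucc (nat_lit 314356641225946900103)]]]]]]]]],[[[[],[[[[[[Int.negSucc (nat_lit 486034352267215477307)]]]]]]]]]]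

/-- A coefficient. -/
noncomputable def sr7_m3_2_8 : MP 10 :=
  [[[[],[[[[[[[Int.negSucc (nat_lit 803954867831226601127)]]]]]]]]]]

/-- A coefficient. -/
noncomputable def sr7_m3_2_9 : MP 10 :=
  [[[[[],[[[[[[Int.ofNat (nat_lit 882973980568887831648)]]]]]]]]]]

/-- A coefficient. -/
noncomputable def sr7_m3_3_0 : MP 10 :=
  [[[[[],[[[[[[Int.ofNat (nat_lit 0),Int.ofNat (nat_lit 7748638469814289800)]],[[Int.ofNat (nat_lit 11130534929835615372)]]]],[[[[Int.ofNat (nat_lit 126199173002037644232)]]]]],[[],[[[[Int.ofNat (nat_lit 9893715291090696780)]]]]]],[[[[[[Int.ofNat (nat_lit 440926567754774566716)]]],[[[Int.negSucc (nat_lit 7868080651052570771)]]]]],[[[[[Int.negSucc (nat_lit 41874884833275633815)]]]]]]],[[[[[[[Int.negSucc (nat_lit 276814659006238810031)],[Int.ofNat (nat_lit 6298134043614339708)]]],[[[Int.ofNat (nat_lit 18272030652683442936)]]]],[],[[[[Int.ofNat (nat_lit 12186193217025342600)]]]]],[[[[[Int.negSucc (nat_lit 55050557993164888103)]]]]],[[[[[Int.ofNat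 (nat_lit 25241130165516820128)]]]]]],[[[[[],[[Int.ofNat (nat_lit 1067686963042634076)]]]],[[[[Int.negSucc (nat_lit 48126479444649606047)]]]]]],[[[[[[Int.ofNat (nat_lit 93160807522894418664)]]]]]]],[[[[[[[Int.ofNat (nat_lit 768308763952413948324)]]],[[[Int.negSucc (nat_lit 5416051867135627691)]]]]],[[[[[Int.negSucc (nat_lit 71426015502153718727)]]]]]]],[[[[[[[Int.ofNat (nat_lit 79481553861241802892)]]]]]]]],[[[],[[[[[[Int.negSucc (nat_lit 679601479589006314427)],[Int.ofNat (nat_lit 2443107458824873596)]]],[[[Int.ofNat (nat_lit 4512932405520548856)]]]]],[[[[[Int.ofNat (nat_lit 63818990696618297328)]]]]]],[],[[[[[[Int.negSucc (nat_lit 9863589204678922955)]]]]]]],[[[[[[[Int.ofNat (nat_lit 0),Int.negSucc (nat_lit 414064636387243199)]],[[Int.negSucc (nat_lit 6652536487477608671)]]]],[[[[Int.ofNat (nat_lit 68004935851861342176)]]]]]],[[[[[[Int.ofNat (nat_lit 65053802895829889952)]]]]]]],[[],[[[[[[Int.negSucc (nat_lit 96703204436950097411)]]]]]]]],[[[],[[[],[[[[Int.negSucc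 (nat_lit 25791440570520594923)]]]]]],[[[[[[Int.ofNat (nat_lit 110640396291216886128)]]]]]]],[[[[[[[Int.ofNat (nat_lit 743693738345678457480)]]]]],[[[[[Int.negSucc (nat_lit 55579885461482003135)]]]]]]],[[[[[[[Int.ofNat (nat_lit 250629864918318156048)]]]]]]]],[[[],[[[[[[Int.ofNat (nat_lit 325116842223606414732)]]]]]]]],[[],[[[[[[[Int.ofNat (nat_lit 36295288330687043160)]]]]]]]]],[[[[],[[[[[[Int.ofNat (nat_lit 0),Int.ofNat (nat_lit 1952260620302247192)]],[[Int.negSucc (nat_lit 7228984109146778279)]]]],[[[[Int.ofNat (nat_lit 94020422609456106528)]]]]]],[[[[[[Int.ofNat (nat_lit 443806448293254343896)]]]]]]],[[[[[[[Int.negSucc (nat_lit 677477450688781602095)],[Int.ofNat (nat_lit 1717098796729761960)]]],[[[Int.ofNat (nat_lit 7094372969485983192)]]]]],[[[[[Int.negSucc (nat_lit 140050119750900252287)]]]]]],[],[[[[[[Int.ofNat (nat_lit 49004180205015299688)]]]]]]],[[[[[[[Int.ofNat (nat_lit 624560438966945187468)]]]]]]],[[[[[[[Int.negSucc (nat_lit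 30634782671040396791)]]]]]]]],[[[],[[[[[[Int.negSucc (nat_lit 847951347309697508999)]]]]],[[[[[Int.negSucc (nat_lit 1499898136685325023)]]]]]]],[[[[],[[[[Int.ofNat (nat_lit 38140421464148735712)]]]]]],[[[[[[Int.negSucc (nat_lit 33575019521785249367)]]]]]]]],[[],[[[[[[[Int.ofNat (nat_lit 490723024556833064580)]]]]]]]],[[[],[[[[[[Int.ofNat (nat_lit 17666174361523399452)]]]]]]]]],[[[[],[[[],[[[[Int.negSucc (nat_lit 41215125385847518751)]]]]]],[[[[[[Int.ofNat (nat_lit 92433031181488594464)]]]]]]],[[[[[[[Int.negSucc (nat_lit 8449842321235321043)]]]]],[[[[[Int.negSucc (nat_lit 78866389385130211247)]]]]]]],[[[[[[[Int.ofNat (nat_lit 83359768933983801372)]]]]]]]],[[[],[[[[[[Int.negSucc (nat_lit 120027633090887382119)]]]]]]]],[[],[[[[[[[Int.ofNat (nat_lit 153162280258478986548)]]]]]]]]],[[[],[[[[[[[Int.ofNat (nat_lit 180234762549741363204)]]]]]]]],[[[],[[[[[[Int.negSucc (nat_lit 3604770705920291819)]]]]]]]]],[[[],[[[[[[[Int.ofNat (nat_lit 65212088069600701848)]]]]]]]]]]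

/-- A coefficient. -/
noncomputable def sr7_m3_3_1 : MP 10 :=
  [[[[[],[[[[[[Int.ofNat (nat_lit 886107329585171450256)],[Int.negSucc (nat_lit 9816786045203851019)]]],[[[Int.ofNat (nat_lit 33534138932805644736)]]]]],[[[[[Int.ofNat (nat_lit 120000017873575037856)]]]]]],[[[],[[[[Int.negSucc (nat_lit 21345486463684643339)]]]]]],[[[[[[Int.negSucc (nat_lit 104039213877547693391)]]]]]]],[[[[[[[Int.ofNat (nat_lit 0),Int.ofNat (nat_lit 8681574639122098728)]],[[Int.ofNat (nat_lit 5988636386992736244)]]]],[[[[Int.ofNat (nat_lit 265508585038130458908)]]]]]],[[[[[[Int.negSucc (nat_lit 621472263557537332943)]]]]],[[[[[Int.ofNat (nat_lit 37106837830282896792)]]]]]]],[[[[],[[[[Int.ofNat (nat_lit 50460039359198180280)]]]]]],[[[[[[Int.ofNat (nat_lit 223498597663196666016)]]]]]]]],[[[],[[[[[],[[Int.ofNat (nat_lit 5264431759800357264)]]]],[[[[Int.negSucc (nat_lit 55551115475306165615)]]]]]],[[[[[[Int.ofNat (nat_lit 592181840796574914540)]]]]]]],[[[[[[[Int.negSucc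 (nat_lit 941171993097161065607)]]],[[[Int.ofNat (nat_lit 1525396351085843160)]]]]],[[[[[Int.negSucc (nat_lit 208941149645706680651)]]]]]]],[[[[[[[Int.ofNat (nat_lit 334633839678818485428)]]]]]]]],[[[],[[[[[[Int.negSucc (nat_lit 760902585622412536727)]]]]]]],[[],[[[[[[Int.negSucc (nat_lit 175565128601759715491)]]]]]]]],[[],[[[[[[[Int.ofNat (nat_lit 782954616462135002880)]]]]]]]]],[[[[],[[[[[[Int.ofNat (nat_lit 1251616436036901249204)]]],[[[Int.ofNat (nat_lit 18368027250076281084)]]]]],[[[[[Int.ofNat (nat_lit 103123923311707933992)]]]]]]],[[[[[[],[[Int.ofNat (nat_lit 11637285789856257708)]]]],[[[[Int.ofNat (nat_lit 104901080754129136200)]]]]]],[[[[[[Int.negSucc (nat_lit 350589280013289065219)]]]]]]]],[[[],[],[[[[[[Int.ofNat (nat_lit 134470100830577815164)]]]]]]],[[[[[[[Int.ofNat (nat_lit 133190937327337550244)]]]]]]],[[[[[[[Int.negSucc (nat_lit 267793507716611227631)]]]]]]]],[[[],[[[[[[Int.negSucc (nat_lit 426811588534366597859)]]]]]]]]],[[[[],[[[[[[Int.ofNat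 (nat_lit 212174786666774098860)]]]]]]],[[],[[[[[[Int.ofNat (nat_lit 91059759313751253480)]]]]]]]],[[],[[[[[[[Int.ofNat (nat_lit 543721282424905204176)]]]]]]]]],[[[[],[[[[[[Int.negSucc (nat_lit 71559429777153726251)]]]]]]]]]]

/-- A coefficient. -/
noncomputable def sr7_m3_3_2 : MP 10 :=
  [[[[[],[[[[[[Int.ofNat (nat_lit 0),Int.negSucc (nat_lit 17111970595450698095)]],[[Int.ofNat (nat_lit 24370657461597151764)]]]],[[[[Int.negSucc (nat_lit 68608836200794021583)]]]]]],[[[[[[Int.negSucc (nat_lit 25034093838238709195)]]]]]]],[[[[[[[Int.ofNat (nat_lit 2919774897995736343656)],[Int.negSucc (nat_lit 18281074564519452839)]]],[[[Int.ofNat (nat_lit 39366217588557293304)]]]]],[[[[[Int.ofNat (nat_lit 248895096447045022812)]]]]]],[],[[[[[[Int.negSucc (nat_lit 227013561186615848387)]]]]]]],[[[[[[[Int.negSucc (nat_lit 33673581356793415499)]]]]]]],[[[[[[[Int.negSucc (nat_lit 99102334799855407271)]]]]]]]],[[[],[[[[[[Int.ofNat (nat_lit 2210544751799003624184)]]]]],[[[[[Int.ofNat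 (nat_lit 18128485783445736504)]]]]]]],[[[[],[[[[Int.negSucc (nat_lit 74405383988975485703)]]]]]],[[[[[[Int.ofNat (nat_lit 334723193404344313836)]]]]]]]],[[],[[[[[[[Int.negSucc (nat_lit 940529598954128105543)]]]]]]]],[[[],[[[[[[Int.negSucc (nat_lit 538957117146355858487)]]]]]]]]],[[[[],[[[],[[[[Int.ofNat (nat_lit 141724432175682495288)]]]]]],[[[[[[Int.negSucc (nat_lit 60983525673254789927)]]]]]]],[[[[[[[Int.ofNat (nat_lit 4362647600319889276740)]]]]],[[[[[Int.ofNat (nat_lit 152578668773258040948)]]]]]]],[[[[[[[Int.negSucc (nat_lit 570665793295386959159)]]]]]]]],[[[],[[[[[[Int.ofNat (nat_lit 1349864138814178827708)]]]]]]]],[[],[[[[[[[Int.negSucc (nat_lit 868361357685892197743)]]]]]]]]],[[[],[[[[[[[Int.ofNat (nat_lit 1914714799482371052384)]]]]]]]],[[[],[[[[[[Int.negSucc (nat_lit 6086554904657266775)]]]]]]]]],[[[],[[[[[[[Int.negSucc (nat_lit 83046748461405222443)]]]]]]]]]]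

/-- A coefficient. -/
noncomputable def sr7_m3_3_3 : MP 10 :=
  [[[[[],[[[[[[Int.negSucc (nat_lit 2853060780342484714667)]]],[[[Int.negSucc (nat_lit 33222300410292622379)]]]]],[[[[[Int.ofNat (nat_lit 204491082169929326328)]]]]]]],[[[[[[],[[Int.negSucc (nat_lit 11483341029604051559)]]]],[[[[Int.negSucc (nat_lit 327196509469202259959)]]]]]],[[[[[[Int.ofNat (nat_lit 535965434103968292204)]]]]]]]],[[[],[],[[[[[[Int.ofNat (nat_lit 423125920170993470928)]]]]]]],[[[[[[[Int.negSucc (nat_lit 383371067685068269823)]]]]]]],[[[[[[[Int.ofNat (nat_lit 603368282456321937456)]]]]]]]],[[[],[[[[[[Int.ofNat (nat_lit 184719953683277429112)]]]]]]]]],[[[[],[[[[[[Int.negSucc (nat_lit 2880960816945629945615)]]]]]]],[[],[[[[[[Int.negSucc (nat_lit 86313043025058063455)]]]]]]]],[[],[[[[[[[Int.negSucc (nat_lit 800218060343266478267)]]]]]]]]],[[[[],[[[[[[Int.negSucc (nat_lit 486701655205668142787)]]]]]]]]]]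

/-- A coefficient. -/
noncomputable def sr7_m3_3_4 : MP 10 :=
  [[[[[],[[[],[[[[Int.negSucc (nat_lit 99262388138016142007)]]]]]],[[[[[[Int.ofNat (nat_lit 49918837547157495912)]]]]]]],[[[[[[[Int.negSucc (nat_lit 1293022935717745184291)]]]]],[[[[[Int.ofNat (nat_lit 68667454136171512572)]]]]]]],[[[[[[[Int.ofNat (nat_lit 169206890097591823548)]]]]]]]],[[[],[[[[[[Int.negSucc (nat_lit 579241843640609440223)]]]]]]]],[[],[[[[[[[Int.ofNat (nat_lit 1372577669646121485192)]]]]]]]]],[[[],[[[[[[[Int.negSucc (nat_lit 1203091358975367475079)]]]]]]]],[[[],[[[[[[Int.negSucc (nat_lit 357245232184007525327)]]]]]]]]],[[[],[[[[[[[Int.ofNat (nat_lit 24049184923309988556)]]]]]]]]]]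

/-- A coefficient. -/
noncomputable def sr7_m3_3_5 : MP 10 :=
  [[[[[],[[[[[[Int.ofNat (nat_lit 3417290166035916746700)]]]]]]],[[],[[[[[[Int.ofNat (nat_lit 194007575970426805836)]]]]]]]],[[],[[[[[[[Int.negSucc (nat_lit 448997656729295702015)]]]]]]]]],[[[[],[[[[[[Int.ofNat (nat_lit 2209560031866702196152)]]]]]]]]]]

/-- A coefficient. -/
noncomputable def sr7_m3_3_6 : MP 10 :=
  [[[[],[[[[[[[Int.negSucc (nat_lit 961852960837949086247)]]]]]]]],[[[],[[[[[[Int.negSucc (nat_lit 1100126534181391872323)]]]]]]]]],[[[],[[[[[[[Int.negSucc (nat_lit 977729806665872511431)]]]]]]]]]]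

/-- A coefficient. -/
noncomputable def sr7_m3_3_7 : MP 10 :=
  [[[[[],[[[[[[Int.negSucc (nat_lit 628889562362211833747)]]]]]]]]]]

/-- A coefficient. -/
noncomputable def sr7_m3_3_8 : MP 10 :=
  [[[[],[[[[[[[Int.ofNat (nat_lit 794977169990972556852)]]]]]]]]]]

/-- A coefficient. -/
noncomputable def sr7_m3_4_0 : MP 10 :=
  [[[[[],[[[[[[Int.ofNat (nat_lit 0),Int.ofNat (nat_lit 5024636944403394720)]],[[Int.negSucc (nat_lit 1516426504376351987)]]]],[[[[Int.negSucc (nat_lit 113731791631742719823)]]]]]],[[[[[[Int.negSucc (nat_lit 628875263038078950119)]]]]],[[[[[Int.ofNat (nat_lit 20112454386523280028)]]]]]]],[[[[[[[Int.ofNat (nat_lit 216932548948174524744)],[Int.ofNat (nat_lit 4199126774700857640)]]],[[[Int.negSucc (nat_lit 10693972592565388343)]]]]],[[[[[Int.ofNat (nat_lit 89099176449495419364)]]]]]],[[[],[[[[Int.ofNat (nat_lit 6089133619601984232)]]]]]],[[[[[[Int.negSucc (nat_lit 52968924411429353963)]]]]]]],[[[[[[[Int.negSucc (nat_lit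 1133026589018262899687)]]]]],[[[[[Int.ofNat (nat_lit 40400219524224764376)]]]]]]],[[[[[[[Int.negSucc (nat_lit 96501588470330125091)]]]]]]]],[[[],[[[[[[Int.ofNat (nat_lit 942961885641473861016)]]],[[[Int.ofNat (nat_lit 8944013812896772464)]]]]],[[[[[Int.ofNat (nat_lit 11465130757548326448)]]]]]]],[[[[[[],[[Int.negSucc (nat_lit 2967269132154800447)]]]],[[[[Int.negSucc (nat_lit 6693370593481578743)]]]]]],[[[[[[Int.negSucc (nat_lit 141168506879896032731)]]]]]]]],[[[],[],[[[[[[Int.negSucc (nat_lit 76492815562205050943)]]]]]]],[[[[[[[Int.negSucc (nat_lit 522866514217756577915)]]]]]]],[[[[[[[Int.negSucc (nat_lit 133367786200279246523)]]]]]]]],[[[],[[[[[[Int.negSucc (nat_lit 230605805496218511083)]]]]]]]]],[[[[],[[[[[],[[Int.ofNat (nat_lit 1160188465722948972)]]]],[[[[Int.negSucc (nat_lit 122358394578105453323)]]]]]],[[[[[[Int.negSucc (nat_lit 345611519962577876075)]]]]]]],[[[[[[[Int.ofNat (nat_lit 446408870518841652420)]]],[[[Int.negSucc (nat_lit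 4523118608078996123)]]]]],[[[[[Int.negSucc (nat_lit 25189052814599894351)]]]]]]],[[[[[[[Int.negSucc (nat_lit 592073656428529932383)]]]]]]]],[[[],[[[[[[Int.ofNat (nat_lit 739465947909837558828)]]]]]]],[[],[[[[[[Int.ofNat (nat_lit 18711974631372352428)]]]]]]]],[[],[[[[[[[Int.ofNat (nat_lit 52681585354212208224)]]]]]]]]],[[[[],[],[[[[[[Int.negSucc (nat_lit 94185918616707174527)]]]]]]],[[[[[[[Int.ofNat (nat_lit 97994513542361857896)]]]]]]],[[[[[[[Int.negSucc (nat_lit 77391151215698939039)]]]]]]]],[[[],[[[[[[Int.negSucc (nat_lit 47528638075464666707)]]]]]]]]],[[[],[[[[[[[Int.ofNat (nat_lit 127306235931682260048)]]]]]]]]]]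

/-- A coefficient. -/
noncomputable def sr7_m3_4_1 : MP 10 :=
  [[[[[],[[[[[[Int.negSucc (nat_lit 434540629371130703147)],[Int.negSucc (nat_lit 4884422354337049979)]]],[[[Int.negSucc (nat_lit 11247492903572549495)]]]]],[[[[[Int.negSucc (nat_lit 264871913743332668855)]]]]]],[],[[[[[[Int.ofNat (nat_lit 62352153564419874228)]]]]]]],[[[[[[[Int.ofNat (nat_lit 0),Int.ofNat (nat_lit 3644434221336867792)]],[[Int.ofNat (nat_lit 18520286060870873448)]]]],[[[[Int.negSucc (nat_lit 166456959606378231863)]]]]]],[[[[[[Int.ofNat (nat_lit 500189041737578945448)]]]]]]],[[],[[[[[[Int.negSucc (nat_lit 21216378242800633763)]]]]]]]],[[[],[[[],[[[[Int.ofNat (nat_lit 109580875666011767952)]]]]]],[[[[[[Int.negSucc (nat_lit 593511598878076597379)]]]]]]],[[[[[[[Int.ofNat (nat_lit 419049047040762609672)]]]]],[[[[[Int.ofNat (nat_lit 246224796225776577492)]]]]]]],[[[[[[[Int.negSucc (nat_lit 848400325775085622115)]]]]]]]],[[[],[[[[[[Int.ofNat (nat_lit 1556549943060777060)]]]]]]]],[[],[[[[[[[Int.negSucc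 (nat_lit 420200399034874363415)]]]]]]]]],[[[[],[[[[[[Int.ofNat (nat_lit 159002677453059420156)]]]]],[[[[[Int.negSucc (nat_lit 61210556705318243795)]]]]]]],[[[[],[[[[Int.negSucc (nat_lit 22319327787316939223)]]]]]],[[[[[[Int.ofNat (nat_lit 286882134437460310260)]]]]]]]],[[],[[[[[[[Int.negSucc (nat_lit 586247284800387840383)]]]]]]]],[[[],[[[[[[Int.negSucc (nat_lit 21175570872205432943)]]]]]]]]],[[[[],[[[[[[Int.ofNat (nat_lit 154290861385845352332)]]]]]]]],[[],[[[[[[[Int.negSucc (nat_lit 402543278046060510239)]]]]]]]]],[[[[],[[[[[[Int.negSucc (nat_lit 123424021436643553739)]]]]]]]]]]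

/-- A coefficient. -/
noncomputable def sr7_m3_4_2 : MP 10 :=
  [[[[[],[[[[[],[[Int.negSucc (nat_lit 4844456202972180863)]]]],[[[[Int.ofNat (nat_lit 166227222678185120676)]]]]]],[[[[[[Int.ofNat (nat_lit 3342858104673393324)]]]]]]],[[[[[[[Int.negSucc (nat_lit 2597227970749223791799)]]],[[[Int.negSucc (nat_lit 5408316441562399127)]]]]],[[[[[Int.negSucc (nat_lit 310001168538850419407)]]]]]]],[[[[[[[Int.ofNat (nat_lit 514357732386988838820)]]]]]]]],[[[],[[[[[[Int.negSucc (nat_lit 966839746642012418531)]]]]]]],[[],[[[[[[Int.ofNat (nat_lit 271792629900836609100)]]]]]]]],[[],[[[[[[[Int.negSucc (nat_lit 1553429260699898270579)]]]]]]]]],[[[[],[],[[[[[[Int.ofNat (nat_lit 225739645797746792424)]]]]]]],[[[[[[[Int.negSucc (nat_lit 3063452458092299247767)]]]]]]],[[[[[[[Int.ofNat (nat_lit 717075435777796195140)]]]]]]]],[[[],[[[[[[Int.ofNat (nat_lit 207648221195224190688)]]]]]]]]],[[[],[[[[[[[Int.negSucc (nat_lit 1129489936641053254715)]]]]]]]]]]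

/-- A coefficient. -/
noncomputable def sr7_m3_4_3 : MP 10 :=
  [[[[[],[[[[[[Int.ofNat (nat_lit 1305299458612394314704)]]]]],[[[[[Int.negSucc (nat_lit 90319019223815182907)]]]]]]],[[[[],[[[[Int.ofNat (nat_lit 320482384276047751740)]]]]]],[[[[[[Int.negSucc (nat_lit 1154826944583845423651)]]]]]]]],[[],[[[[[[[Int.ofNat (nat_lit 1844763943155697672968)]]]]]]]],[[[],[[[[[[Int.ofNat (nat_lit 615318797484458811288)]]]]]]]]],[[[[],[[[[[[Int.ofNat (nat_lit 576375730851937956972)]]]]]]]],[[],[[[[[[[Int.ofNat (nat_lit 1686440721784773715824)]]]]]]]]],[[[[],[[[[[[Int.ofNat (nat_lit 100070274796086384852)]]]]]]]]]]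

/-- A coefficient. -/
noncomputable def sr7_m3_4_4 : MP 10 :=
  [[[[[],[],[[[[[[Int.negSucc (nat_lit 371665249165349452259)]]]]]]],[[[[[[[Int.ofNat (nat_lit 4602323068086708223692)]]]]]]],[[[[[[[Int.negSucc (nat_lit 572297633643550845011)]]]]]]]],[[[],[[[[[[Int.ofNat (nat_lit 1777003711043076428964)]]]]]]]]],[[[],[[[[[[[Int.ofNat (nat_lit 3113817216516782479560)]]]]]]]]]]

/-- A coefficient. -/
noncomputable def sr7_m3_4_5 : MP 10 :=
  [[[[[],[[[[[[Int.negSucc (nat_lit 3411572689079521759847)]]]]]]]],[[],[[[[[[[Int.negSucc (nat_lit 1486166526925505259971)]]]]]]]]],[[[[],[[[[[[Int.negSucc (nat_lit 1126847751192663506867)]]]]]]]]]]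

/-- A coefficient. -/
noncomputable def sr7_m3_4_6 : MP 10 :=
  [[[[],[[[[[[[Int.negSucc (nat_lit 1255049630154486113903)]]]]]]]]]]

/-- A coefficient. -/
noncomputable def sr7_m3_4_7 : MP 10 :=
  [[[[[],[[[[[[Int.ofNat (nat_lit 1930277548215953991576)]]]]]]]]]]

/-- A coefficient. -/
noncomputable def sr7_m3_5_0 : MP 10 :=
  [[[[[],[[[[[[Int.ofNat (nat_lit 0),Int.negSucc (nat_lit 4358689714593344279)]],[[Int.ofNat (nat_lit 6312252951656004816)]]]],[[[[Int.ofNat (nat_lit 15643850191073719224)]]]]]],[[[[[[Int.ofNat (nat_lit 319126212164482309416)]]]]]]],[[[[[[[Int.ofNat (nat_lit 401227081779419634636)],[Int.negSucc (nat_lit 3427667251961113643)]]],[[[Int.ofNat (nat_lit 4497333315662840436)]]]]],[[[[[Int.negSucc (nat_lit 27743802802135027703)]]]]]],[],[[[[[[Int.ofNat (nat_lit 9921974964419932380)]]]]]]],[[[[[[[Int.ofNat (nat_lit 926437278963089389800)]]]]]]],[[[[[[[Int.ofNat (nat_lit 33912900726808687776)]]]]]]]],[[[],[[[[[[Int.negSucc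 (nat_lit 345496914069748245743)]]]]],[[[[[Int.negSucc (nat_lit 18326261537716470767)]]]]]]],[[[[],[[[[Int.negSucc (nat_lit 14440970591646612251)]]]]]],[[[[[[Int.ofNat (nat_lit 67027070689135952748)]]]]]]]],[[],[[[[[[[Int.ofNat (nat_lit 161918906627003511852)]]]]]]]],[[[],[[[[[[Int.ofNat (nat_lit 71763611029762557312)]]]]]]]]],[[[[],[[[],[[[[Int.ofNat (nat_lit 80516612893683682788)]]]]]],[[[[[[Int.ofNat (nat_lit 16686756470578691880)]]]]]]],[[[[[[[Int.ofNat (nat_lit 462003367439260901028)]]]]],[[[[[Int.ofNat (nat_lit 68736445164556958328)]]]]]]],[[[[[[[Int.ofNat (nat_lit 307462758113235547932)]]]]]]]],[[[],[[[[[[Int.negSucc (nat_lit 144838191447386978123)]]]]]]]],[[],[[[[[[[Int.negSucc (nat_lit 163117668662161761467)]]]]]]]]],[[[],[[[[[[[Int.ofNat (nat_lit 139056269895077843736)]]]]]]]],[[[],[[[[[[Int.ofNat (nat_lit 21833564769020274432)]]]]]]]]],[[[],[[[[[[[Int.negSucc (nat_lit 160090870356450966047)]]]]]]]]]]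

/-- A coefficient. -/
noncomputable def sr7_m3_5_1 : MP 10 :=
  [[[[[],[[[[[[Int.negSucc (nat_lit 1292786775401770433279)]]],[[[Int.negSucc (nat_lit 11249435089827882947)]]]]],[[[[[Int.ofNat (nat_lit 78902493565427962584)]]]]]]],[[[[[[],[[Int.negSucc (nat_lit 11573316068649641327)]]]],[[[[Int.negSucc (nat_lit 108987445955825605751)]]]]]],[[[[[[Int.ofNat (nat_lit 82897257768937327800)]]]]]]]],[[[],[],[[[[[[Int.ofNat (nat_lit 229222763543066395188)]]]]]]],[[[[[[[Int.ofNat (nat_lit 601003136779141285044)]]]]]]],[[[[[[[Int.ofNat (nat_lit 626618970802308528492)]]]]]]]],[[[],[[[[[[Int.ofNat (nat_lit 714695203634965385400)]]]]]]]]],[[[[],[[[[[[Int.negSucc (nat_lit 1659640282487557597463)]]]]]]],[[],[[[[[[Int.negSucc (nat_lit 237234741008440571147)]]]]]]]],[[],[[[[[[[Int.ofNat (nat_lit 94948375430668962588)]]]]]]]]],[[[[],[[[[[[Int.negSucc (nat_lit 279164728459521569711)]]]]]]]]]]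

/-- A coefficient. -/
noncomputable def sr7_m3_5_2 : MP 10 :=
  [[[[[],[[[],[[[[Int.negSucc (nat_lit 171978867378344935079)]]]]]],[[[[[[Int.ofNat (nat_lit 595354506609819993564)]]]]]]],[[[[[[[Int.negSucc (nat_lit 2070991418366312676959)]]]]],[[[[[Int.negSucc (nat_lit 43819498590147320471)]]]]]]],[[[[[[[Int.ofNat (nat_lit 241477495406353520496)]]]]]]]],[[[],[[[[[[Int.negSucc (nat_lit 1175213837447738732123)]]]]]]]],[[],[[[[[[[Int.ofNat (nat_lit 1637282748151455061500)]]]]]]]]],[[[],[[[[[[[Int.negSucc (nat_lit 697427882680673135807)]]]]]]]],[[[],[[[[[[Int.negSucc (nat_lit 268795741088435595959)]]]]]]]]],[[[],[[[[[[[Int.ofNat (nat_lit 585611774368488570468)]]]]]]]]]]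

/-- A coefficient. -/
noncomputable def sr7_m3_5_3 : MP 10 :=
  [[[[[],[[[[[[Int.ofNat (nat_lit 2288015252135289176472)]]]]]]],[[],[[[[[[Int.ofNat (nat_lit 337029776772698838180)]]]]]]]],[[],[[[[[[[Int.ofNat (nat_lit 851081704164045425736)]]]]]]]]],[[[[],[[[[[[Int.ofNat (nat_lit 938739525711113183184)]]]]]]]]]]

/-- A coefficient. -/
noncomputable def sr7_m3_5_4 : MP 10 :=
  [[[[],[[[[[[[Int.negSucc (nat_lit 1905994854559499587139)]]]]]]]],[[[],[[[[[[Int.negSucc (nat_lit 1098564363564176039363)]]]]]]]]],[[[],[[[[[[[Int.negSucc (nat_lit 1933753446904926058415)]]]]]]]]]]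

/-- A coefficient. -/
noncomputable def sr7_m3_5_5 : MP 10 :=
  [[[[[],[[[[[[Int.negSucc (nat_lit 1478262250069376312987)]]]]]]]]]]

/-- A coefficient. -/
noncomputable def sr7_m3_5_6 : MP 10 :=
  [[[[],[[[[[[[Int.ofNat (nat_lit 2405613932980924278972)]]]]]]]]]]

/-- A coefficient. -/
noncomputable def sr7_m3_6_0 : MP 10 :=
  [[[[[],[[[[[],[[Int.negSucc (nat_lit 4974757558658479271)]]]],[[[[Int.ofNat (nat_lit 73936294472356578240)]]]]]],[[[[[[Int.negSucc (nat_lit 9955385770036423283)]]]]]]],[[[[[[[Int.negSucc (nat_lit 597692933869221534299)]]],[[[Int.negSucc (nat_lit 2362326410294835539)]]]]],[[[[[Int.ofNat (nat_lit 14741039308038484272)]]]]]]],[[[[[[[Int.negSucc (nat_lit 398802089784853810799)]]]]]]]],[[[],[[[[[[Int.negSucc (nat_lit 358637657341037837831)]]]]]]],[[],[[[[[[Int.negSucc (nat_lit 26892351248902352267)]]]]]]]],[[],[[[[[[[Int.negSucc (nat_lit 100123560329991009671)]]]]]]]]],[[[[],[],[[[[[[Int.ofNat (nat_lit 107345092869594159408)]]]]]]],[[[[[[[Int.negSucc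 (nat_lit 911005219332044313767)]]]]]]],[[[[[[[Int.negSucc (nat_lit 15389689796145392255)]]]]]]]],[[[],[[[[[[Int.negSucc (nat_lit 62984455705227619067)]]]]]]]]],[[[],[[[[[[[Int.negSucc (nat_lit 466491678233120742863)]]]]]]]]]]

/-- A coefficient. -/
noncomputable def sr7_m3_6_1 : MP 10 :=
  [[[[[],[[[[[[Int.ofNat (nat_lit 1319324366504430712272)]]]]],[[[[[Int.ofNat (nat_lit 25978205877059158044)]]]]]]],[[[[],[[[[Int.ofNat (nat_lit 99968375965069328664)]]]]]],[[[[[[Int.negSucc (nat_lit 127767562548624875195)]]]]]]]],[[],[[[[[[[Int.negSucc (nat_lit 845054771709477354395)]]]]]]]],[[[],[[[[[[Int.negSucc (nat_lit 293238230240942401283)]]]]]]]]],[[[[],[[[[[[Int.ofNat (nat_lit 851783802349719286176)]]]]]]]],[[],[[[[[[[Int.ofNat (nat_lit 312269289270099163656)]]]]]]]]],[[[[],[[[[[[Int.ofNat (nat_lit 242732381301825102468)]]]]]]]]]]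

/-- A coefficient. -/
noncomputable def sr7_m3_6_2 : MP 10 :=
  [[[[[],[],[[[[[[Int.negSucc (nat_lit 444169395190041627875)]]]]]]],[[[[[[[Int.ofNat (nat_lit 4348180511806965184656)]]]]]]],[[[[[[[Int.negSucc (nat_lit 546493398172351644251)]]]]]]]],[[[],[[[[[[Int.ofNat (nat_lit 289306877678841291540)]]]]]]]]],[[[],[[[[[[[Int.ofNat (nat_lit 1729381592235582332820)]]]]]]]]]]

/-- A coefficient. -/
noncomputable def sr7_m3_6_3 : MP 10 :=
  [[[[[],[[[[[[Int.negSucc (nat_lit 1448645273111572215623)]]]]]]]],[[],[[[[[[[Int.negSucc (nat_lit 2079742652483490962723)]]]]]]]]],[[[[],[[[[[[Int.negSucc (nat_lit 415831221834233220875)]]]]]]]]]]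

/-- A coefficient. -/
noncomputable def sr7_m3_6_4 : MP 10 :=
  [[[[],[[[[[[[Int.negSucc (nat_lit 3986565854473569131735)]]]]]]]]]]

/-- A coefficient. -/
noncomputable def sr7_m3_6_5 : MP 10 :=
  [[[[[],[[[[[[Int.ofNat (nat_lit 1729904541560934658956)]]]]]]]]]]

/-- A coefficient. -/
noncomputable def sr7_m3_7_0 : MP 10 :=
  [[[[[],[[[],[[[[Int.negSucc (nat_lit 52048680141275284211)]]]]]],[[[[[[Int.negSucc (nat_lit 8011260952053446435)]]]]]]],[[[[[[[Int.negSucc (nat_lit 146629724213933018351)]]]]],[[[[[Int.negSucc (nat_lit 22113310055594623607)]]]]]]],[[[[[[[Int.ofNat (nat_lit 63475658378056741860)]]]]]]]],[[[],[[[[[[Int.ofNat (nat_lit 348879212506321017504)]]]]]]]],[[],[[[[[[[Int.ofNat (nat_lit 82999008075073669632)]]]]]]]]],[[[],[[[[[[[Int.ofNat (nat_lit 203100314063715456888)]]]]]]]],[[[],[[[[[[Int.ofNat (nat_lit 28900488844829233044)]]]]]]]]],[[[],[[[[[[[Int.ofNat (nat_lit 300862140512157691464)]]]]]]]]]]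

/-- A coefficient. -/
noncomputable def sr7_m3_7_1 : MP 10 :=
  [[[[[],[[[[[[Int.ofNat (nat_lit 210487607890918102284)]]]]]]],[[],[[[[[[Int.ofNat (nat_lit 42325456609654076772)]]]]]]]],[[],[[[[[[[Int.ofNat (nat_lit 477406224545776765440)]]]]]]]]],[[[[],[[[[[[Int.ofNat (nat_lit 248247359495848778256)]]]]]]]]]]

/-- A coefficient. -/
noncomputable def sr7_m3_7_2 : MP 10 :=
  [[[[],[[[[[[[Int.negSucc (nat_lit 882944534540408535947)]]]]]]]],[[[],[[[[[[Int.ofNat (nat_lit 230825803190694286056)]]]]]]]]],[[[],[[[[[[[Int.negSucc (nat_lit 896608405242323979503)]]]]]]]]]]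

/-- A coefficient. -/
noncomputable def sr7_m3_7_3 : MP 10 :=
  [[[[[],[[[[[[Int.negSucc (nat_lit 175591921678990283147)]]]]]]]]]]

/-- A coefficient. -/
noncomputable def sr7_m3_7_4 : MP 10 :=
  [[[[],[[[[[[[Int.ofNat (nat_lit 3213509296779304761960)]]]]]]]]]]

/-- A coefficient. -/
noncomputable def sr7_m3_8_0 : MP 10 :=
  [[[[[],[],[[[[[[Int.negSucc (nat_lit 30777155072918980187)]]]]]]],[[[[[[[Int.ofNat (nat_lit 544028373474623592228)]]]]]]],[[[[[[[Int.negSucc (nat_lit 13703824497822878663)]]]]]]]],[[[],[[[[[[Int.negSucc (nat_lit 95087976350718221483)]]]]]]]]],[[[],[[[[[[[Int.ofNat (nat_lit 473704218113757048540)]]]]]]]]]]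

/-- A coefficient. -/
noncomputable def sr7_m3_8_1 : MP 10 :=
  [[[[[],[[[[[[Int.negSucc (nat_lit 553797295128592540115)]]]]]]]],[[],[[[[[[[Int.negSucc (nat_lit 207858497892210322907)]]]]]]]]],[[[[],[[[[[[Int.negSucc (nat_lit 265696534751144670503)]]]]]]]]]]

/-- A coefficient. -/
noncomputable def sr7_m3_8_2 : MP 10 :=
  [[[[],[[[[[[[Int.negSucc (nat_lit 1699526915023140094103)]]]]]]]]]]

/-- A coefficient. -/
noncomputable def sr7_m3_8_3 : MP 10 :=
  [[[[[],[[[[[[Int.ofNat (nat_lit 180448448389951289604)]]]]]]]]]]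

/-- A coefficient. -/
noncomputable def sr7_m3_9_0 : MP 10 :=
  [[[[],[[[[[[[Int.ofNat (nat_lit 21104898810109447296)]]]]]]]],[[[],[[[[[[Int.ofNat (nat_lit 4884773709751200060)]]]]]]]]],[[[],[[[[[[[Int.negSucc (nat_lit 292606996753758444851)]]]]]]]]]]

/-- A coefficient. -/
noncomputable def sr7_m3_9_1 : MP 10 :=
  [[[[[],[[[[[[Int.ofNat (nat_lit 67231008447967153728)]]]]]]]]]]

/-- A coefficient. -/
noncomputable def sr7_m3_9_2 : MP 10 :=
  [[[[],[[[[[[[Int.ofNat (nat_lit 936937999315430308656)]]]]]]]]]]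

/-- A coefficient. -/
noncomputable def sr7_m3_10_0 : MP 10 :=
  [[[[],[[[[[[[Int.negSucc (nat_lit 398202244549980269651)]]]]]]]]]]

/-- A coefficient. -/
noncomputable def sr7_m3_10_1 : MP 10 :=
  [[[[[],[[[[[[Int.ofNat (nat_lit 53858234867500585548)]]]]]]]]]]

/-- A coefficient. -/
noncomputable def sr7_m3_11_0 : MP 10 :=
  [[[[],[[[[[[[Int.ofNat (nat_lit 177720702118368208848)]]]]]]]]]]

/-- An expanded part. -/
noncomputable def sr7_m3 : R12 :=
  [[sr7_m3_0_0, sr7_m3_0_1, sr7_m3_0_2, sr7_m3_0_3, sr7_m3_0_4, sr7_m3_0_5, sr7_m3_0_6, sr7_m3_0_7, sr7_m3_0_8, sr7_m3_0_9, sr7_m3_0_10, sr7_m3_0_11],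
   [sr7_m3_1_0, sr7_m3_1_1, sr7_m3_1_2, sr7_m3_1_3, sr7_m3_1_4, sr7_m3_1_5, sr7_m3_1_6, sr7_m3_1_7, sr7_m3_1_8, sr7_m3_1_9, sr7_m3_1_10],
   [sr7_m3_2_0, sr7_m3_2_1, sr7_m3_2_2, sr7_m3_2_3, sr7_m3_2_4, sr7_m3_2_5, sr7_m3_2_6, sr7_m3_2_7, sr7_m3_2_8, sr7_m3_2_9],
   [sr7_m3_3_0, sr7_m3_3_1, sr7_m3_3_2, sr7_m3_3_3, sr7_m3_3_4, sr7_m3_3_5, sr7_m3_3_6, sr7_m3_3_7, sr7_m3_3_8],
   [sr7_m3_4_0, sr7_m3_4_1, sr7_m3_4_2, sr7_m3_4_3, sr7_m3_4_4, sr7_m3_4_5, sr7_m3_4_6, sr7_m3_4_7],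
   [sr7_m3_5_0, sr7_m3_5_1, sr7_m3_5_2, sr7_m3_5_3, sr7_m3_5_4, sr7_m3_5_5, sr7_m3_5_6],
   [sr7_m3_6_0, sr7_m3_6_1, sr7_m3_6_2, sr7_m3_6_3, sr7_m3_6_4, sr7_m3_6_5],
   [sr7_m3_7_0, sr7_m3_7_1, sr7_m3_7_2, sr7_m3_7_3, sr7_m3_7_4],
   [sr7_m3_8_0, sr7_m3_8_1, sr7_m3_8_2, sr7_m3_8_3],
   [sr7_m3_9_0, sr7_m3_9_1, sr7_m3_9_2],
   [sr7_m3_10_0, sr7_m3_10_1],
   [sr7_m3_11_0]]

set_option maxRecDepth 100000 in
theorem sr7_check3 : partOk 4 sr7_rows 3 sr7_m3 = true :=
  Fast.partOk_of_fast (by decide +kernel)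

end Vale.Agent.P142K.CertB
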