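import Vale.Agent.P142K.CertB.Sr7Rows
import Vale.Agent.P142K.Fast
import Vale.Agent.P142K.CertB.Sr6Part4

/-!
# An expanded part of the certificate

Generated from a semidefinite program; only the checker is trusted.
-/

namespace Vale.Agent.P142K.CertB

open Vale.Agent.P142J (MP)

/-- A coefficient. -/
noncomputable def sr7_m4_0_0 : MP 10 :=
  [[[[[[[],[[[[Int.ofNat (nat_lit 0),Int.negSucc (nat_lit 1248440058667137671)]],[[Int.ofNat (nat_lit 1093747457572700508)]]]],[[[[Int.negSucc (nat_lit 6287223356087715887)],[Int.negSucc (nat_lit 704213723627028803)]]],[[[Int.negSucc (nat_lit 1377546964285466747)]]]]],[[[[[Int.ofNat (nat_lit 1547953239200272944)],[Int.negSucc (nat_lit 1272579305956144115)]]],[[[Int.negSucc (nat_lit 45539450014869827)]]]],[[[[Int.ofNat (nat_lit 0),Int.ofNat (nat_lit 998586130570423704)]],[[Int.negSucc (nat_lit 432124410134210555)]]]],[[[[Int.ofNat (nat_lit 1191178819163487384)]]]]],[[[[[Int.negSucc (nat_lit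 1515810109101822119)],[Int.ofNat (nat_lit 303987024441849876)]]],[[[Int.negSucc (nat_lit 1015372114684575671)]]]]],[[[[[Int.negSucc (nat_lit 1537755644391533843)]]]]]],[[[],[[[[Int.negSucc (nat_lit 990360247698031259)],[Int.ofNat (nat_lit 1408761976888084956)]]],[[[Int.ofNat (nat_lit 2349343723291509816)]]]]],[[[[[Int.ofNat (nat_lit 0),Int.negSucc (nat_lit 1458259446042060239)]],[[Int.ofNat (nat_lit 481377584398327440)]]]],[[[[Int.negSucc (nat_lit 2698098515197127783)]]]]]],[[[],[],[[[[Int.ofNat (nat_lit 2973169432369483632)]]]]],[[[[[Int.ofNat (nat_lit 2061851100870467868)]]]]],[[[[[Int.ofNat (nat_lit 1102261292516532588)]]]]]],[[[],[[[[Int.negSucc (nat_lit 4718779778491442603)]]]]]]],[[[[],[[[[Int.ofNat (nat_lit 0),Int.ofNat (nat_lit 487135887363811680)]],[[Int.negSucc (nat_lit 1174340215549195439)]]]],[[[[Int.ofNat (nat_lit 3523552506939512760)]]]]],[[[[[Int.ofNat (nat_lit 732198019963346136)],[Int.ofNat (nat_lit 352360812496316652)]]],[[[Int.ofNat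 (nat_lit 1396298206415094756)]]]]],[[[[[Int.ofNat (nat_lit 2461703848836959760)]]]]]],[[[],[[[[Int.ofNat (nat_lit 2811492307794390372)]]]]],[[],[[[[Int.ofNat (nat_lit 419038407569603256)]]]]]],[[],[[[[[Int.negSucc (nat_lit 4764864676684672235)]]]]]]],[[[[],[],[[[[Int.ofNat (nat_lit 4222686240198810948)]]]]],[[[[[Int.ofNat (nat_lit 2729268017471162604)]]]]],[[[[[Int.ofNat (nat_lit 2088388759612455900)]]]]]],[[[],[[[[Int.negSucc (nat_lit 6064096142454684767)]]]]]]],[[[],[[[[[Int.negSucc (nat_lit 5635195088485607555)]]]]]]]],[[[[[],[[[[Int.negSucc (nat_lit 1437738379027340651)],[Int.ofNat (nat_lit 2698450116864029184)]]],[[[Int.negSucc (nat_lit 724558334357104223)]]]],[],[[[[Int.negSucc (nat_lit 1075798424379086315)]]]]],[[[[[Int.ofNat (nat_lit 0),Int.negSucc (nat_lit 2645084911539005591)]],[[Int.ofNat (nat_lit 1074703407207261252)]]]],[[[[Int.negSucc (nat_lit 12856333290728574371)]]]]],[[],[[[[Int.negSucc (nat_lit 1173798948751087943)]]]]]],[[[],[],[[[[Int.ofNat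 (nat_lit 7384963267487405472)]]]]],[[[[[Int.ofNat (nat_lit 6906293738004886200)]]]]],[[[[[Int.ofNat (nat_lit 6988715763252628656)]]]]]],[[[],[[[[Int.negSucc (nat_lit 6576767087339603351)]]]]]]],[[[[],[[[[Int.ofNat (nat_lit 5811026577920919288)]]]]],[[],[[[[Int.negSucc (nat_lit 968723545717649123)]]]]]],[[],[[[[[Int.ofNat (nat_lit 344719705920761820)]]]]]]],[[[[],[[[[Int.negSucc (nat_lit 8181630847030401803)]]]]]]]],[[[[[],[[[[Int.ofNat (nat_lit 0),Int.negSucc (nat_lit 1159715149975499567)]],[[Int.negSucc (nat_lit 127142596603226711)]]]],[[[[Int.negSucc (nat_lit 15375093309208248503)]]]]],[[[[[Int.ofNat (nat_lit 11174749969433667132)],[Int.negSucc (nat_lit 1419372300695284847)]]],[[[Int.ofNat (nat_lit 128043942167810232)]]]]],[[[[[Int.negSucc (nat_lit 9432069229046239775)]]]]]],[[[],[[[[Int.ofNat (nat_lit 5852996719941932400)]]]]]],[[],[[[[[Int.ofNat (nat_lit 1719051781617051264)]]]]]]],[[[],[[[[[Int.negSucc (nat_lit 5195055974560305179)]]]]]],[[[],[[[[Int.negSucc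 (nat_lit 1216300167826297379)]]]]]]],[[[],[[[[[Int.ofNat (nat_lit 1125760115428092864)]]]]]]]],[[[[[],[[[[Int.negSucc (nat_lit 2578488492813644603)]]]]],[[],[[[[Int.ofNat (nat_lit 766693256953858284)]]]]]],[[],[[[[[Int.negSucc (nat_lit 4415098127472088703)]]]]]]],[[[[],[[[[Int.negSucc (nat_lit 328021851393544787)]]]]]]]],[[[[],[[[[[Int.ofNat (nat_lit 4151625287121065784)]]]]]]]],[[[[[],[[[[Int.negSucc (nat_lit 200128442774872043)]]]]]]]]],[[[[[[],[[[[Int.ofNat (nat_lit 0),Int.negSucc (nat_lit 2081514304131574127)]],[[Int.ofNat (nat_lit 1034779271644441524)]]]],[[[[Int.negSucc (nat_lit 13195960120335085127)]]]]],[[[[[Int.ofNat (nat_lit 5200267625295668988)],[Int.negSucc (nat_lit 2198144995509330779)]]],[[[Int.ofNat (nat_lit 514399224488400444)]]]],[],[[[[Int.negSucc (nat_lit 2789862985951291259)]]]]],[[[[[Int.negSucc (nat_lit 7039205860679008871)]]]]],[[[[[Int.negSucc (nat_lit 2353502614494631295)]]]]]],[[[],[[[[Int.negSucc (nat_lit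 8520775699577735087)]]]]],[[],[[[[Int.ofNat (nat_lit 4486616319151878744)]]]]]],[[],[[[[[Int.negSucc (nat_lit 3257670451513708931)]]]]]]],[[[[],[],[[[[Int.ofNat (nat_lit 8794995608431653516)]]]]],[[[[[Int.negSucc (nat_lit 799193604527453171)]]]]],[[[[[Int.ofNat (nat_lit 12500657439909714264)]]]]]],[[[],[[[[Int.ofNat (nat_lit 2881754943469356156)]]]]]]],[[[],[[[[[Int.negSucc (nat_lit 1220719892709408983)]]]]]]]],[[[[[],[[[[Int.ofNat (nat_lit 536391361176503976)],[Int.ofNat (nat_lit 763593876981872112)]]],[[[Int.negSucc (nat_lit 729350438154257183)]]]]],[[[[[Int.ofNat (nat_lit 0),Int.negSucc (nat_lit 658604758652890487)]],[[Int.ofNat (nat_lit 139031389412214204)]]]],[[[[Int.negSucc (nat_lit 11697113385067372967)]]]]]],[[],[[[[[Int.ofNat (nat_lit 5503194144576948528)]]]]]],[[[],[[[[Int.negSucc (nat_lit 1148124217101200063)]]]]]]],[[[[],[[[[Int.ofNat (nat_lit 14888317119012732696)]]]]]],[[],[[[[[Int.negSucc (nat_lit 310576491188431967)]]]]]]],[[[[],[[[[Int.negSucc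 (nat_lit 1039679695402769399)]]]]]]]],[[[[[],[],[[[[Int.negSucc (nat_lit 2032645614598685807)]]]]],[[[[[Int.ofNat (nat_lit 23339768957963826996)]]]]],[[[[[Int.ofNat (nat_lit 225043543137629208)]]]]]],[[[],[[[[Int.ofNat (nat_lit 3782252591446311828)]]]]]]],[[[],[[[[[Int.negSucc (nat_lit 8779608292231598567)]]]]]]]],[[[[[],[[[[Int.ofNat (nat_lit 4465893058763394552)]]]]]]]],[[[[],[[[[[Int.negSucc (nat_lit 1212218854676639831)]]]]]]]]],[[[[[[],[[[[Int.ofNat (nat_lit 0),Int.negSucc (nat_lit 1201512205842722591)]],[[Int.negSucc (nat_lit 86514498343775735)]]]],[[[[Int.negSucc (nat_lit 8690230021875114023)]]]]],[[[[[Int.ofNat (nat_lit 8886368375685663240)],[Int.negSucc (nat_lit 1399870523106345107)]]],[[[Int.negSucc (nat_lit 166295276698821563)]]]]],[[[[[Int.negSucc (nat_lit 8281940201598524675)]]]]]],[[[],[[[[Int.negSucc (nat_lit 10281397545336073271)]]]]]],[[],[[[[[Int.ofNat (nat_lit 1370114099465022036)]]]]]]],[[[],[[[[[Int.negSucc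 (nat_lit 6676252206621192911)]]]]]],[[[],[[[[Int.negSucc (nat_lit 872245910168244647)]]]]]]],[[[],[[[[[Int.ofNat (nat_lit 877320235488655980)]]]]]]]],[[[[[],[[[[Int.ofNat (nat_lit 10573442073770218560)]]]]],[[],[[[[Int.negSucc (nat_lit 2923179197802043703)]]]]]],[[],[[[[[Int.ofNat (nat_lit 1404973655530759584)]]]]]]],[[[[],[[[[Int.ofNat (nat_lit 5230395112315251312)]]]]]]]],[[[[],[[[[[Int.ofNat (nat_lit 13480467063477941988)]]]]]]]],[[[[[],[[[[Int.ofNat (nat_lit 2469528788966404464)]]]]]]]]],[[[[[[],[],[[[[Int.ofNat (nat_lit 1787321640056109204)]]]]],[[[[[Int.ofNat (nat_lit 12055839005370229344)]]]]],[[[[[Int.ofNat (nat_lit 867633386752057692)]]]]]],[[[],[[[[Int.negSucc (nat_lit 4632523214158794407)]]]]]]],[[[],[[[[[Int.negSucc (nat_lit 5613614704532163131)]]]]]]]],[[[[[],[[[[Int.ofNat (nat_lit 12521846978066851956)]]]]]]]],[[[[],[[[[[Int.ofNat (nat_lit 950095999758040620)]]]]]]]]],[[[[[],[[[[[Int.ofNat (nat_lit 8909632104680553204)]]]]]]]],[[[[[],[[[[Int.ofNat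 (nat_lit 3418831049397321912)]]]]]]]]],[[[[[],[[[[[Int.ofNat (nat_lit 1725664263005946600)]]]]]]]]]]

/-- A coefficient. -/
noncomputable def sr7_m4_0_1 : MP 10 :=
  [[[[[[[],[[[[Int.negSucc (nat_lit 9229085703192719951)],[Int.ofNat (nat_lit 41728671562195476)]]],[[[Int.ofNat (nat_lit 1831983639780869136)]]]],[[[],[[Int.negSucc (nat_lit 112470961722486467)]]]],[[[[Int.ofNat (nat_lit 2295659398399195152)]]]]],[[[[[Int.ofNat (nat_lit 0),Int.ofNat (nat_lit 169362986117764704)]],[[Int.ofNat (nat_lit 1524639010261727424)]]]],[[[[Int.negSucc (nat_lit 1763544253615789547)]]],[[[Int.negSucc (nat_lit 696412093099354007)]]]]],[[[[],[[Int.negSucc (nat_lit 340234069429372595)]]]],[[[[Int.ofNat (nat_lit 1732395951150260376)]]]]]],[[[],[[[[Int.ofNat (nat_lit 0),Int.ofNat (nat_lit 611101494237151968)]],[[Int.ofNat (nat_lit 61013121713266476)]]]],[[[[Int.negSucc (nat_lit 13068320490724618499)]]]]],[[[[[Int.negSucc (nat_lit 18024571443245038559)],[Int.ofNat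 (nat_lit 854721214557936660)]]],[[[Int.ofNat (nat_lit 4760866720056872412)]]]]],[[[[[Int.negSucc (nat_lit 10502606415059619971)]]]]]],[[[],[[[[Int.ofNat (nat_lit 17710584996166760184)]]]]]],[[],[[[[[Int.negSucc (nat_lit 4426156030402391171)]]]]]]],[[[[],[[[[Int.ofNat (nat_lit 6332250596011160376)],[Int.ofNat (nat_lit 697466262472631892)]]],[[[Int.negSucc (nat_lit 5685764560013780531)]]]]],[[[[[Int.ofNat (nat_lit 0),Int.negSucc (nat_lit 809194544002083527)]],[[Int.negSucc (nat_lit 257355610481766671)]]]],[[[[Int.ofNat (nat_lit 2994363844640696208)]]]]]],[[],[[[[[Int.ofNat (nat_lit 11409700458134978772)]]]]]],[[[],[[[[Int.ofNat (nat_lit 6356173897925064432)]]]]]]],[[[[],[[[[Int.ofNat (nat_lit 3247945941656167752)]]]]]],[[],[[[[[Int.negSucc (nat_lit 2740454409288926735)]]]]]]],[[[[],[[[[Int.ofNat (nat_lit 5163865430913299568)]]]]]]]],[[[[[],[[[[Int.ofNat (nat_lit 0),Int.ofNat (nat_lit 3988108637750334168)]],[[Int.negSucc (nat_lit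 957784112585255207)]]]],[[[[Int.ofNat (nat_lit 48223319864343429996)]]]]],[[[[[Int.ofNat (nat_lit 5775153408392579220)],[Int.ofNat (nat_lit 4796687186214046860)]]],[[[Int.ofNat (nat_lit 3516050914429628508)]]]]],[[[[[Int.ofNat (nat_lit 25839476450920120728)]]]]]],[[[],[[[[Int.negSucc (nat_lit 47062397829611476811)]]]]],[[],[[[[Int.ofNat (nat_lit 4378893104892749544)]]]]]],[[],[[[[[Int.negSucc (nat_lit 22635634138031011799)]]]]]]],[[[[],[],[[[[Int.negSucc (nat_lit 10781598857760363671)]]]]],[[[[[Int.negSucc (nat_lit 31044923314354889651)]]]]],[[[[[Int.negSucc (nat_lit 7607533807205506535)]]]]]],[[[],[[[[Int.ofNat (nat_lit 25796990413411215072)]]]]]]],[[[],[[[[[Int.negSucc (nat_lit 2190248215064418935)]]]]]]]],[[[[[],[[[[Int.negSucc (nat_lit 9270532533363352871)]]],[[[Int.negSucc (nat_lit 1341495340684194395)]]]]],[[[[],[[Int.ofNat (nat_lit 598098928650925836)]]]],[[[[Int.negSucc (nat_lit 3977128313134005107)]]]]]],[[],[[[[[Int.ofNat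 (nat_lit 19122742609419685668)]]]]]]],[[[[],[[[[Int.negSucc (nat_lit 11374515332069054303)]]]]]]]],[[[[],[[[[[Int.ofNat (nat_lit 575889010854760284)]]]]]],[[[],[[[[Int.ofNat (nat_lit 776554447135565772)]]]]]]],[[[],[[[[[Int.negSucc (nat_lit 344624497823535167)]]]]]]]],[[[[[],[[[[Int.ofNat (nat_lit 6035039432351180652)]]]]]]]]],[[[[[[],[[[[Int.negSucc (nat_lit 35003860198266447935)],[Int.ofNat (nat_lit 113544283776906924)]]],[[[Int.negSucc (nat_lit 1214900464890527759)]]]]],[[[[[Int.ofNat (nat_lit 0),Int.negSucc (nat_lit 244919249448294479)]],[[Int.ofNat (nat_lit 4762432122372853128)]]]],[[[[Int.ofNat (nat_lit 5923107633074436888)]]]]]],[[[],[],[[[[Int.ofNat (nat_lit 4929471000396186300)]]]]],[[[[[Int.negSucc (nat_lit 36759132486144104315)]]]]],[[[[[Int.ofNat (nat_lit 2898317025699780684)]]]]]],[[[],[[[[Int.ofNat (nat_lit 6388844177705750952)]]]]]]],[[[[],[[[[Int.ofNat (nat_lit 8850392355704060472)]]]]],[[],[[[[Int.negSucc (nat_lit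 381953844753718955)]]]]]],[[],[[[[[Int.negSucc (nat_lit 1722274829633443739)]]]]]]],[[[[],[[[[Int.ofNat (nat_lit 16475156774153033436)]]]]]]]],[[[[[],[[[],[[Int.negSucc (nat_lit 265654560506876747)]]]],[[[[Int.ofNat (nat_lit 23390784555632634036)]]]]],[[[[[Int.negSucc (nat_lit 18377150044078244171)]]],[[[Int.negSucc (nat_lit 679130580816275351)]]]]],[[[[[Int.ofNat (nat_lit 11414619083002952616)]]]]]],[[[],[[[[Int.negSucc (nat_lit 42931398836274958427)]]]]]]],[[[],[[[[[Int.negSucc (nat_lit 7563849513443646671)]]]]]]]],[[[[[],[[[[Int.negSucc (nat_lit 50790086186760437279)]]]]]],[[],[[[[[Int.ofNat (nat_lit 4897737599036446416)]]]]]]],[[[[],[[[[Int.ofNat (nat_lit 177323841167531496)]]]]]]]],[[[[],[[[[[Int.ofNat (nat_lit 17004602882935962288)]]]]]]]]],[[[[[[],[[[[Int.negSucc (nat_lit 44083427552461311947)]]],[[[Int.negSucc (nat_lit 876049830600262787)]]]]],[[[[],[[Int.ofNat (nat_lit 633283307949026172)]]]],[[[[Int.ofNat (nat_lit 14651204754962949240)]]]]]],[[],[[[[[Int.negSucc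 (nat_lit 24074894512703614319)]]]]]]],[[[[],[[[[Int.ofNat (nat_lit 10351623469392891468)]]]]]]]],[[[[],[[[[[Int.negSucc (nat_lit 35853493799218164527)]]]]]],[[[],[[[[Int.negSucc (nat_lit 192350916661130111)]]]]]]],[[[],[[[[[Int.ofNat (nat_lit 4896616629495836268)]]]]]]]],[[[[[],[[[[Int.negSucc (nat_lit 23039304641512148819)]]]]]]]]],[[[[[[],[[[[Int.negSucc (nat_lit 26206701876742614167)]]]]]],[[],[[[[[Int.ofNat (nat_lit 2589001046000627172)]]]]]]],[[[[],[[[[Int.negSucc (nat_lit 693466215957101423)]]]]]]]],[[[[],[[[[[Int.negSucc (nat_lit 9169371553335067127)]]]]]]]]],[[[[[[],[[[[Int.negSucc (nat_lit 6758078363254489115)]]]]]]]]]]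

/-- A coefficient. -/
noncomputable def sr7_m4_0_2 : MP 10 :=
  [[[[[[[],[[[[Int.ofNat (nat_lit 0),Int.negSucc (nat_lit 3904519932567752903)]],[[Int.ofNat (nat_lit 3170764988131301916)]]]],[[[[Int.negSucc (nat_lit 42602654645024743079)]]]]],[[[[[Int.ofNat (nat_lit 16646375670817834968)],[Int.negSucc (nat_lit 5263910484276815603)]]],[[[Int.negSucc (nat_lit 5451001258816567451)]]]],[],[[[[Int.ofNat (nat_lit 6639393755940952464)]]]]],[[[[[Int.negSucc (nat_lit 18981502157046051539)]]]]],[[[[[Int.ofNat (nat_lit 3008872913002548372)]]]]]],[[[],[[[[Int.ofNat (nat_lit 31639937642149103448)]]],[[[Int.negSucc (nat_lit 981302442976562147)]]]]],[[[[],[[Int.ofNat (nat_lit 356132213511529116)]]]],[[[[Int.negSucc (nat_lit 18289700898384723143)]]]]]],[[],[[[[[Int.ofNat (nat_lit 40740036550544431068)]]]]]]],[[[[],[[[],[[Int.negSucc (nat_lit 2096965062955715663)]]]],[[[[Int.ofNat (nat_lit 18964710710476268580)]]]]],[[[[[Int.ofNat (nat_lit 9731768842988326140)]]],[[[Int.negSucc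 (nat_lit 2443283155501978151)]]]]],[[[[[Int.ofNat (nat_lit 5259975382271025648)]]]]]],[[[],[[[[Int.negSucc (nat_lit 44222957486074588559)]]]]]]],[[[],[[[[[Int.ofNat (nat_lit 8929587924627824232)]]]]]]]],[[[[[],[[[[Int.ofNat (nat_lit 30898257041562018792)],[Int.ofNat (nat_lit 283871515411599216)]]],[[[Int.negSucc (nat_lit 5329820817234263999)]]]]],[[[[[Int.ofNat (nat_lit 0),Int.negSucc (nat_lit 601970118812363231)]],[[Int.negSucc (nat_lit 3871472364462974723)]]]],[[[[Int.negSucc (nat_lit 8162027517600089687)]]]]]],[[],[[[[[Int.negSucc (nat_lit 57231675662594657111)]]]]]],[[[],[[[[Int.ofNat (nat_lit 21886596385314115260)]]]]]]],[[[[],[[[[Int.ofNat (nat_lit 53789447738209389948)]]]]]],[[],[[[[[Int.ofNat (nat_lit 29476215178164356208)]]]]]]],[[[[],[[[[Int.ofNat (nat_lit 3442938612104113296)]]]]]]]],[[[[[],[],[[[[Int.negSucc (nat_lit 8888913467385474203)]]]]],[[[[[Int.negSucc (nat_lit 39011343670123110551)]]]]],[[[[[Int.negSucc (nat_lit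 3215336054046676475)]]]]]],[[[],[[[[Int.negSucc (nat_lit 1675871995671364955)]]]]]]],[[[],[[[[[Int.ofNat (nat_lit 401124357350195364)]]]]]]]],[[[[[],[[[[Int.negSucc (nat_lit 17948031460164044027)]]]]]]]],[[[[],[[[[[Int.ofNat (nat_lit 1068397454674104336)]]]]]]]]],[[[[[[],[[[[Int.ofNat (nat_lit 0),Int.negSucc (nat_lit 1388105158523968079)]],[[Int.negSucc (nat_lit 179203509731803847)]]]],[[[[Int.negSucc (nat_lit 30356715466924667543)]]]]],[[[[[Int.ofNat (nat_lit 64538392581581424276)],[Int.negSucc (nat_lit 1432637565500789843)]]],[[[Int.ofNat (nat_lit 928036730864669064)]]]]],[[[[[Int.negSucc (nat_lit 16387822054014602759)]]]]]],[[[],[[[[Int.ofNat (nat_lit 26716176368153209308)]]]]]],[[],[[[[[Int.negSucc (nat_lit 1579395675950664287)]]]]]]],[[[],[[[[[Int.negSucc (nat_lit 1268178283461538727)]]]]]],[[[],[[[[Int.ofNat (nat_lit 10531903149472714008)]]]]]]],[[[],[[[[[Int.ofNat (nat_lit 17487073955313823872)]]]]]]]],[[[[[],[[[[Int.ofNat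 (nat_lit 177830355252425833956)]]]]],[[],[[[[Int.negSucc (nat_lit 8937024319134455075)]]]]]],[[],[[[[[Int.negSucc (nat_lit 35086569997320291863)]]]]]]],[[[[],[[[[Int.ofNat (nat_lit 26933681651200127016)]]]]]]]],[[[[],[[[[[Int.negSucc (nat_lit 89969132669649058127)]]]]]]]],[[[[[],[[[[Int.ofNat (nat_lit 4184907664395840480)]]]]]]]]],[[[[[[],[],[[[[Int.negSucc (nat_lit 15305856753719866187)]]]]],[[[[[Int.ofNat (nat_lit 75025292273337443352)]]]]],[[[[[Int.negSucc (nat_lit 2570641333799567291)]]]]]],[[[],[[[[Int.ofNat (nat_lit 15649952605833799980)]]]]]]],[[[],[[[[[Int.ofNat (nat_lit 11453091670900708860)]]]]]]]],[[[[[],[[[[Int.ofNat (nat_lit 114384011534420838912)]]]]]]]],[[[[],[[[[[Int.negSucc (nat_lit 6507395490690008435)]]]]]]]]],[[[[[],[[[[[Int.ofNat (nat_lit 1376101897442397180)]]]]]]]],[[[[[],[[[[Int.ofNat (nat_lit 3846747710927690148)]]]]]]]]],[[[[[],[[[[[Int.negSucc (nat_lit 10303254914178443927)]]]]]]]]]]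

/-- A coefficient. -/
noncomputable def sr7_m4_0_3 : MP 10 :=
  [[[[[[[],[[[[Int.ofNat (nat_lit 64723491969478992)],[Int.negSucc (nat_lit 301195110825040967)]]],[[[Int.ofNat (nat_lit 9882346730411402220)]]]]],[[[[[Int.ofNat (nat_lit 0),Int.ofNat (nat_lit 1179385389883885440)]],[[Int.ofNat (nat_lit 3971316560048325540)]]]],[[[[Int.ofNat (nat_lit 5069579434259300148)]]]]]],[[[],[],[[[[Int.ofNat (nat_lit 8704415268339130032)]]]]],[[[[[Int.ofNat (nat_lit 54600011144806727112)]]]]],[[[[[Int.negSucc (nat_lit 955305844342720343)]]]]]],[[[],[[[[Int.negSucc (nat_lit 46771616029884880739)]]]]]]],[[[[],[[[[Int.negSucc (nat_lit 94155240867884880287)]]]]],[[],[[[[Int.ofNat (nat_lit 4092383882327611128)]]]]]],[[],[[[[[Int.negSucc (nat_lit 55734292245209631647)]]]]]]],[[[[],[[[[Int.negSucc (nat_lit 2542975367253835463)]]]]]]]],[[[[[],[[[],[[Int.negSucc (nat_lit 3314122779987194495)]]]],[[[[Int.ofNat (nat_lit 2848092132018839664)]]]]],[[[[[Int.ofNat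 (nat_lit 17499276199914419160)]]],[[[Int.negSucc (nat_lit 3613089401641805015)]]]]],[[[[[Int.negSucc (nat_lit 4321125596673704327)]]]]]],[[[],[[[[Int.negSucc (nat_lit 16717245406709448107)]]]]]]],[[[],[[[[[Int.ofNat (nat_lit 22799530003247243400)]]]]]]]],[[[[[],[[[[Int.ofNat (nat_lit 87791589690160423596)]]]]]],[[],[[[[[Int.ofNat (nat_lit 24449306212030357248)]]]]]]],[[[[],[[[[Int.ofNat (nat_lit 1807906069226687424)]]]]]]]],[[[[],[[[[[Int.negSucc (nat_lit 27747054693842048963)]]]]]]]]],[[[[[[],[[[[Int.negSucc (nat_lit 95940526660987074743)]]],[[[Int.negSucc (nat_lit 519142529781843587)]]]]],[[[[],[[Int.negSucc (nat_lit 215857925098601363)]]]],[[[[Int.ofNat (nat_lit 7617383871317606220)]]]]]],[[],[[[[[Int.ofNat (nat_lit 76088017081291347372)]]]]]]],[[[[],[[[[Int.negSucc (nat_lit 98423889923290323299)]]]]]]]],[[[[],[[[[[Int.ofNat (nat_lit 154061534547672389196)]]]]]],[[[],[[[[Int.negSucc (nat_lit 14195010232227955055)]]]]]]],[[[],[[[[[Int.ofNat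 (nat_lit 12677739730824352992)]]]]]]]],[[[[[],[[[[Int.ofNat (nat_lit 44989466578696594524)]]]]]]]]],[[[[[[],[[[[Int.negSucc (nat_lit 109164637992631296959)]]]]]],[[],[[[[[Int.ofNat (nat_lit 14976748121798158524)]]]]]]],[[[[],[[[[Int.ofNat (nat_lit 702855542317126524)]]]]]]]],[[[[],[[[[[Int.ofNat (nat_lit 10571381334428324664)]]]]]]]]],[[[[[[],[[[[Int.negSucc (nat_lit 16898469907160870663)]]]]]]]]]]

/-- A coefficient. -/
noncomputable def sr7_m4_0_4 : MP 10 :=
  [[[[[[[],[[[[Int.ofNat (nat_lit 0),Int.ofNat (nat_lit 411974779856634216)]],[[Int.ofNat (nat_lit 3924084924260462484)]]]],[[[[Int.negSucc (nat_lit 25368223106419142159)]]]]],[[[[[Int.ofNat (nat_lit 1827999495537938268)],[Int.ofNat (nat_lit 938492919749782200)]]],[[[Int.ofNat (nat_lit 9349502139822803340)]]]]],[[[[[Int.negSucc (nat_lit 21594799542895031723)]]]]]],[[[],[[[[Int.ofNat (nat_lit 51960444534393887124)]]]]]],[[],[[[[[Int.ofNat (nat_lit 6249662692064066124)]]]]]]],[[[],[[[[[Int.ofNat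 (nat_lit 14862632489411756352)]]]]]],[[[],[[[[Int.negSucc (nat_lit 13994243053322392559)]]]]]]],[[[],[[[[[Int.ofNat (nat_lit 1645083049189643424)]]]]]]]],[[[[[],[[[[Int.negSucc (nat_lit 156649604200494482339)]]]]],[[],[[[[Int.negSucc (nat_lit 3921725577107713847)]]]]]],[[],[[[[[Int.negSucc (nat_lit 71351648210597757023)]]]]]]],[[[[],[[[[Int.ofNat (nat_lit 17119004018237958924)]]]]]]]],[[[[],[[[[[Int.ofNat (nat_lit 159178038991085766660)]]]]]]]],[[[[[],[[[[Int.ofNat (nat_lit 23469129354553674948)]]]]]]]]],[[[[[[],[],[[[[Int.ofNat (nat_lit 7992075702782364504)]]]]],[[[[[Int.negSucc (nat_lit 156400325821767633743)]]]]],[[[[[Int.ofNat (nat_lit 13173293969528589612)]]]]]],[[[],[[[[Int.ofNat (nat_lit 34499859796875270192)]]]]]]],[[[],[[[[[Int.negSucc (nat_lit 17697714630021736343)]]]]]]]],[[[[[],[[[[Int.negSucc (nat_lit 161037510099945386327)]]]]]]]],[[[[],[[[[[Int.ofNat (nat_lit 8024999500601094672)]]]]]]]]],[[[[[],[[[[[Int.negSucc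 (nat_lit 17941920077726022851)]]]]]]]],[[[[[],[[[[Int.ofNat (nat_lit 48267015016631115876)]]]]]]]]],[[[[[],[[[[[Int.ofNat (nat_lit 8244591733864936860)]]]]]]]]]]

/-- A coefficient. -/
noncomputable def sr7_m4_0_5 : MP 10 :=
  [[[[[[[],[[[[Int.ofNat (nat_lit 74887734620154638148)]]],[[[Int.negSucc (nat_lit 2638902252155531399)]]]]],[[[[],[[Int.negSucc (nat_lit 1677036891650604731)]]]],[[[[Int.ofNat (nat_lit 6797761963966395612)]]]]]],[[],[[[[[Int.ofNat (nat_lit 47591682080709157524)]]]]]]],[[[[],[[[[Int.negSucc (nat_lit 43489231421950974743)]]]]]]]],[[[[],[[[[[Int.negSucc (nat_lit 177760973687991785555)]]]]]],[[[],[[[[Int.negSucc (nat_lit 10357244727930860399)]]]]]]],[[[],[[[[[Int.negSucc (nat_lit 2676797610846971567)]]]]]]]],[[[[[],[[[[Int.negSucc (nat_lit 39809768928111677975)]]]]]]]]],[[[[[[],[[[[Int.ofNat (nat_lit 171706552793267758536)]]]]]],[[],[[[[[Int.negSucc (nat_lit 22830911951878668911)]]]]]]],[[[[],[[[[Int.ofNat (nat_lit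 25446698691888590040)]]]]]]]],[[[[],[[[[[Int.negSucc (nat_lit 942548910196089155)]]]]]]]]],[[[[[[],[[[[Int.negSucc (nat_lit 35330632431938699111)]]]]]]]]]]

/-- A coefficient. -/
noncomputable def sr7_m4_0_6 : MP 10 :=
  [[[[[[[],[],[[[[Int.negSucc (nat_lit 16742408616662077307)]]]]],[[[[[Int.ofNat (nat_lit 65103338974817058420)]]]]],[[[[[Int.negSucc (nat_lit 6159457983523737707)]]]]]],[[[],[[[[Int.negSucc (nat_lit 248199083302800407)]]]]]]],[[[],[[[[[Int.negSucc (nat_lit 11858392495662237755)]]]]]]]],[[[[[],[[[[Int.ofNat (nat_lit 29358153709449746892)]]]]]]]],[[[[],[[[[[Int.negSucc (nat_lit 39772318566911235155)]]]]]]]]],[[[[[],[[[[[Int.ofNat (nat_lit 19710237272584608036)]]]]]]]],[[[[[],[[[[Int.ofNat (nat_lit 61067929254549511788)]]]]]]]]],[[[[[],[[[[[Int.negSucc (nat_lit 2633511395622421295)]]]]]]]]]]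

/-- A coefficient. -/
noncomputable def sr7_m4_0_7 : MP 10 :=
  [[[[[[[],[[[[Int.negSucc (nat_lit 73852032564272319743)]]]]]],[[],[[[[[Int.ofNat (nat_lit 22149025499751227136)]]]]]]],[[[[],[[[[Int.ofNat (nat_lit 985804522800645636)]]]]]]]],[[[[],[[[[[Int.ofNat (nat_lit 31149481917354666480)]]]]]]]]],[[[[[[],[[[[Int.negSucc (nat_lit 84201985108055696519)]]]]]]]]]]

/-- A coefficient. -/
noncomputable def sr7_m4_0_8 : MP 10 :=
  [[[[[[],[[[[[Int.negSucc (nat_lit 26019293513415973259)]]]]]]]],[[[[[],[[[[Int.ofNat (nat_lit 1847133670357268040)]]]]]]]]],[[[[[],[[[[[Int.negSucc (nat_lit 16758016770519093251)]]]]]]]]]]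

/-- A coefficient. -/
noncomputable def sr7_m4_0_9 : MP 10 :=
  [[[[[[[],[[[[Int.negSucc (nat_lit 12998733591815835335)]]]]]]]]]]

/-- A coefficient. -/
noncomputable def sr7_m4_0_10 : MP 10 :=
  [[[[[[],[[[[[Int.ofNat (nat_lit 1317840717657551916)]]]]]]]]]]

/-- A coefficient. -/
noncomputable def sr7_m4_1_0 : MP 10 :=
  [[[[[[[],[[[[Int.ofNat (nat_lit 0),Int.ofNat (nat_lit 5790003504100974312)]],[[Int.negSucc (nat_lit 6039362226399921743)]]]],[[[[Int.ofNat (nat_lit 19190655863464570128)]]],[[[Int.ofNat (nat_lit 1394936797508847288)]]]]],[[[[[Int.negSucc (nat_lit 20224926550045925795)],[Int.ofNat (nat_lit 6929736382121704164)]]],[[[Int.negSucc (nat_lit 2261502337418453675)]]]],[[[],[[Int.ofNat (nat_lit 734513895971087844)]]]],[[[[Int.negSucc (nat_lit 13200788277935726075)]]]]],[[[[[Int.negSucc (nat_lit 7596342258555827867)]]],[[[Int.ofNat (nat_lit 1218883156020172236)]]]]],[[[[[Int.negSucc (nat_lit 1843156618652812127)]]]]]],[[[],[[[[Int.ofNat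 (nat_lit 14688410549707993608)],[Int.negSucc (nat_lit 1818925240843442879)]]],[[[Int.negSucc (nat_lit 4837778030563607639)]]]]],[[[[[Int.ofNat (nat_lit 0),Int.ofNat (nat_lit 1712708698226482680)]],[[Int.negSucc (nat_lit 902856884970485495)]]]],[[[[Int.ofNat (nat_lit 13721310523332987216)]]]]]],[[],[[[[[Int.negSucc (nat_lit 1694171909156969375)]]]]]],[[[],[[[[Int.ofNat (nat_lit 4480762342778589120)]]]]]]],[[[[],[[[[Int.ofNat (nat_lit 0),Int.negSucc (nat_lit 1368051638935343015)]],[[Int.ofNat (nat_lit 3088232773668227532)]]]],[[[[Int.ofNat (nat_lit 2813126587296760728)]]]]],[[[[[Int.ofNat (nat_lit 9299903623781559084)],[Int.negSucc (nat_lit 1574850426772575527)]]],[[[Int.negSucc (nat_lit 2279579392537177847)]]]]],[[[[[Int.ofNat (nat_lit 12315776738149002708)]]]]]],[[[],[[[[Int.negSucc (nat_lit 16275024392801924207)]]]]]],[[],[[[[[Int.ofNat (nat_lit 6079413468502320396)]]]]]]],[[[],[[[[[Int.negSucc (nat_lit 10682081458499942843)]]]]]],[[[],[[[[Int.ofNat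 (nat_lit 4533841559942173980)]]]]]]],[[[],[[[[[Int.ofNat (nat_lit 6311313490927395828)]]]]]]]],[[[[[],[[[[Int.ofNat (nat_lit 30814068642504754404)],[Int.negSucc (nat_lit 8566738799210928023)]]],[[[Int.negSucc (nat_lit 893477194692955643)]]]]],[[[[[Int.ofNat (nat_lit 0),Int.ofNat (nat_lit 9027255725081913552)]],[[Int.negSucc (nat_lit 5929259526597316487)]]]],[[[[Int.ofNat (nat_lit 76804237544536302288)]]]]]],[[[],[],[[[[Int.negSucc (nat_lit 8427687758599729583)]]]]],[[[[[Int.ofNat (nat_lit 6897201635701344612)]]]]],[[[[[Int.negSucc (nat_lit 7076948145131079815)]]]]]],[[[],[[[[Int.ofNat (nat_lit 16238090101294354284)]]]]]]],[[[[],[[[[Int.negSucc (nat_lit 30904439088572814047)]]]]],[[],[[[[Int.ofNat (nat_lit 3048322985465781996)]]]]]],[[],[[[[[Int.negSucc (nat_lit 10237628554650390155)]]]]]]],[[[[],[[[[Int.ofNat (nat_lit 21476754652286874780)]]]]]]]],[[[[[],[[[],[[Int.ofNat (nat_lit 57718629738984528)]]]],[[[[Int.ofNat (nat_lit 40748159657326447380)]]]]],[[[[[Int.negSucc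 (nat_lit 123039952308419665631)]]],[[[Int.negSucc (nat_lit 34402632376128803)]]]]],[[[[[Int.ofNat (nat_lit 16760611631813694492)]]]]]],[[[],[[[[Int.ofNat (nat_lit 4500959062461236256)]]]]]]],[[[],[[[[[Int.ofNat (nat_lit 24771351587478171816)]]]]]]]],[[[[[],[[[[Int.negSucc (nat_lit 14060660663072611451)]]]]]],[[],[[[[[Int.ofNat (nat_lit 3387674353263439992)]]]]]]],[[[[],[[[[Int.negSucc (nat_lit 5197863635883415835)]]]]]]]],[[[[],[[[[[Int.negSucc (nat_lit 2326230479842619135)]]]]]]]]],[[[[[[],[[[[Int.ofNat (nat_lit 0),Int.ofNat (nat_lit 4690335396064677432)]],[[Int.negSucc (nat_lit 3087067248100069007)]]]],[[[[Int.ofNat (nat_lit 37855999725690411012)]]]]],[[[[[Int.negSucc (nat_lit 59917019985788307131)],[Int.ofNat (nat_lit 5535630354226801812)]]],[[[Int.negSucc (nat_lit 4287675414470501675)]]]]],[[[[[Int.negSucc (nat_lit 4439081868838012619)]]]]]],[[[],[[[[Int.ofNat (nat_lit 32182201155556189764)]]]]],[[],[[[[Int.negSucc (nat_lit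 4501842416015971607)]]]]]],[[],[[[[[Int.ofNat (nat_lit 7292046771399837288)]]]]]]],[[[[],[],[[[[Int.negSucc (nat_lit 17797795262382703067)]]]]],[[[[[Int.ofNat (nat_lit 32918524866295564680)]]]]],[[[[[Int.negSucc (nat_lit 17619208314803912951)]]]]]],[[[],[[[[Int.ofNat (nat_lit 6600684288069304656)]]]]]]],[[[],[[[[[Int.ofNat (nat_lit 4356422286543856428)]]]]]]]],[[[[[],[[[[Int.negSucc (nat_lit 11815164062254517627)]]],[[[Int.ofNat (nat_lit 829114175654939184)]]]]],[[[[],[[Int.negSucc (nat_lit 320624302876475315)]]]],[[[[Int.ofNat (nat_lit 20504795410495042656)]]]]]],[[],[[[[[Int.ofNat (nat_lit 20914046615991032532)]]]]]]],[[[[],[[[[Int.negSucc (nat_lit 34948633060698314687)]]]]]]]],[[[[],[[[[[Int.negSucc (nat_lit 127236542554520297939)]]]]]],[[[],[[[[Int.ofNat (nat_lit 2762457149161046520)]]]]]]],[[[],[[[[[Int.ofNat (nat_lit 5303432690466935244)]]]]]]]],[[[[[],[[[[Int.negSucc (nat_lit 11632466202864776135)]]]]]]]]],[[[[[[],[[[],[[Int.negSucc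 (nat_lit 24360949036491083)]]]],[[[[Int.ofNat (nat_lit 34540941636549987252)]]]]],[[[[[Int.negSucc (nat_lit 87446415709126425155)]]],[[[Int.ofNat (nat_lit 142467795469984392)]]]]],[[[[[Int.ofNat (nat_lit 12104928287384972880)]]]]]],[[[],[[[[Int.ofNat (nat_lit 17110501021359358680)]]]]]]],[[[],[[[[[Int.ofNat (nat_lit 40131327918666573756)]]]]]]]],[[[[[],[[[[Int.negSucc (nat_lit 67209321000881385707)]]]]]],[[],[[[[[Int.negSucc (nat_lit 315683726083863083)]]]]]]],[[[[],[[[[Int.negSucc (nat_lit 8847800925715671131)]]]]]]]],[[[[],[[[[[Int.negSucc (nat_lit 12666595363294105055)]]]]]]]]],[[[[[],[[[[[Int.negSucc (nat_lit 46646397630135693011)]]]]]],[[[],[[[[Int.ofNat (nat_lit 8866754351964358248)]]]]]]],[[[],[[[[[Int.ofNat (nat_lit 4738947664809287124)]]]]]]]],[[[[[],[[[[Int.negSucc (nat_lit 21609712956009172079)]]]]]]]]],[[[[[],[[[[[Int.negSucc (nat_lit 3754057604709198191)]]]]]]]]]]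

/-- A coefficient. -/
noncomputable def sr7_m4_1_1 : MP 10 :=
  [[[[[[[],[[[[Int.ofNat (nat_lit 41510972434182238572)],[Int.negSucc (nat_lit 1035148045928287355)]]],[[[Int.ofNat (nat_lit 9264940173561887760)]]]],[],[[[[Int.negSucc (nat_lit 2747961194132730023)]]]]],[[[[[Int.ofNat (nat_lit 0),Int.negSucc (nat_lit 165151651787383655)]],[[Int.negSucc (nat_lit 5059615029102222311)]]]],[[[[Int.negSucc (nat_lit 14816947650330890159)]]]]],[[],[[[[Int.negSucc (nat_lit 361224638299456379)]]]]]],[[[],[[[],[[Int.negSucc (nat_lit 67217026546567631)]]]],[[[[Int.ofNat (nat_lit 22194331503711300204)]]]]],[[[[[Int.ofNat (nat_lit 64710083933749166184)]]],[[[Int.negSucc (nat_lit 4699747682569515071)]]]]],[[[[[Int.ofNat (nat_lit 15068958265295900544)]]]]]],[[[],[[[[Int.negSucc (nat_lit 77942546422511381279)]]]]]]],[[[[],[[[[Int.negSucc (nat_lit 26730523506899998427)]]],[[[Int.ofNat (nat_lit 5604022352255183112)]]]]],[[[[],[[Int.ofNat (nat_lit 118626432782322960)]]]],[[[[Int.negSucc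 (nat_lit 1708975367121415067)]]]]]],[[],[[[[[Int.negSucc (nat_lit 58386240154209222251)]]]]]]],[[[[],[[[[Int.negSucc (nat_lit 9865798899491810771)]]]]]]]],[[[[[],[[[[Int.ofNat (nat_lit 0),Int.negSucc (nat_lit 3755194574430328679)]],[[Int.ofNat (nat_lit 3555779429731314924)]]]],[[[[Int.negSucc (nat_lit 97151480933285708171)]]]]],[[[[[Int.ofNat (nat_lit 102081861992811198888)],[Int.negSucc (nat_lit 4644117610779479135)]]],[[[Int.negSucc (nat_lit 20110568264140100207)]]]]],[[[[[Int.negSucc (nat_lit 15623055705262991231)]]]]]],[[[],[[[[Int.ofNat (nat_lit 48683532213221115060)]]]]]],[[],[[[[[Int.ofNat (nat_lit 30250783654247202912)]]]]]]],[[[],[[[[[Int.ofNat (nat_lit 129104562557332256520)]]]]]],[[[],[[[[Int.negSucc (nat_lit 29435148645226982735)]]]]]]],[[[],[[[[[Int.ofNat (nat_lit 5121051775802507112)]]]]]]]],[[[[[],[[[[Int.ofNat (nat_lit 203331222357289824732)]]]]],[[],[[[[Int.ofNat (nat_lit 9116288847724160280)]]]]]],[[],[[[[[Int.negSucc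 (nat_lit 12647402949781215287)]]]]]]],[[[[],[[[[Int.ofNat (nat_lit 39596350374304999980)]]]]]]]],[[[[],[[[[[Int.negSucc (nat_lit 75636433925350462055)]]]]]]]],[[[[[],[[[[Int.negSucc (nat_lit 9985278514169811035)]]]]]]]]],[[[[[[],[[[[Int.ofNat (nat_lit 187973131078374054696)],[Int.negSucc (nat_lit 2528570448666651887)]]],[[[Int.ofNat (nat_lit 15685644474261770556)]]]]],[[[[[Int.ofNat (nat_lit 0),Int.ofNat (nat_lit 2964739894946148240)]],[[Int.negSucc (nat_lit 15339575175602024459)]]]],[[[[Int.ofNat (nat_lit 6965840007043864260)]]]]]],[[],[[[[[Int.ofNat (nat_lit 56794683387062285160)]]]]]],[[[],[[[[Int.negSucc (nat_lit 22042760335744690691)]]]]]]],[[[[],[[[[Int.negSucc (nat_lit 51881962742734525763)]]]]]],[[],[[[[[Int.ofNat (nat_lit 1011683196928664832)]]]]]]],[[[[],[[[[Int.negSucc (nat_lit 33343799994624956687)]]]]]]]],[[[[[],[],[[[[Int.negSucc (nat_lit 40001660348741264519)]]]]],[[[[[Int.ofNat (nat_lit 130224559131544401276)]]]]],[[[[[Int.negSucc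 (nat_lit 25301608982302041767)]]]]]],[[[],[[[[Int.ofNat (nat_lit 62785220494807134096)]]]]]]],[[[],[[[[[Int.ofNat (nat_lit 91552951891383077460)]]]]]]]],[[[[[],[[[[Int.ofNat (nat_lit 241658143776469075668)]]]]]]]],[[[[],[[[[[Int.negSucc (nat_lit 18377345518865296391)]]]]]]]]],[[[[[[],[[[[Int.ofNat (nat_lit 232346022983477178732)]]]]],[[],[[[[Int.negSucc (nat_lit 11168851668425160131)]]]]]],[[],[[[[[Int.ofNat (nat_lit 19323203047006097808)]]]]]]],[[[[],[[[[Int.negSucc (nat_lit 59093479979989177559)]]]]]]]],[[[[],[[[[[Int.ofNat (nat_lit 53060594908747920912)]]]]]]]],[[[[[],[[[[Int.ofNat (nat_lit 12670833885503242992)]]]]]]]]],[[[[[[],[[[[Int.ofNat (nat_lit 81644266596889299132)]]]]]]]],[[[[],[[[[[Int.ofNat (nat_lit 2512162167161041728)]]]]]]]]],[[[[[[],[[[[Int.negSucc (nat_lit 514906296838719563)]]]]]]]]]]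

/-- A coefficient. -/
noncomputable def sr7_m4_1_2 : MP 10 :=
  [[[[[[[],[[[[Int.ofNat (nat_lit 0),Int.negSucc (nat_lit 1685716404991596719)]],[[Int.negSucc (nat_lit 6250404220515411731)]]]],[[[[Int.ofNat (nat_lit 118568374585941389100)]]]]],[[[[[Int.negSucc (nat_lit 147189984808166246663)],[Int.ofNat (nat_lit 286631473500358092)]]],[[[Int.ofNat (nat_lit 28518872630557865388)]]]]],[[[[[Int.ofNat (nat_lit 19438581574707893232)]]]]]],[[[],[[[[Int.ofNat (nat_lit 16121110862765097852)]]]]],[[],[[[[Int.ofNat (nat_lit 13307724304014781728)]]]]]],[[],[[[[[Int.negSucc (nat_lit 80013491569365736103)]]]]]]],[[[[],[],[[[[Int.ofNat (nat_lit 4136405462400746892)]]]]],[[[[[Int.negSucc (nat_lit 52609996147717174859)]]]]],[[[[[Int.ofNat (nat_lit 13816251236701796796)]]]]]],[[[],[[[[Int.ofNat (nat_lit 78076228732896548640)]]]]]]],[[[],[[[[[Int.negSucc (nat_lit 25155195830000272535)]]]]]]]],[[[[[],[[[[Int.negSucc (nat_lit 477648517649083552319)]]],[[[Int.ofNat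 (nat_lit 12906389668489815348)]]]]],[[[[],[[Int.ofNat (nat_lit 2330738938673528412)]]]],[[[[Int.ofNat (nat_lit 52595883680791216440)]]]]]],[[],[[[[[Int.negSucc (nat_lit 102437997315021732971)]]]]]]],[[[[],[[[[Int.negSucc (nat_lit 31311121991858512535)]]]]]]]],[[[[],[[[[[Int.ofNat (nat_lit 341815232475925752312)]]]]]],[[[],[[[[Int.negSucc (nat_lit 33588190200658688783)]]]]]]],[[[],[[[[[Int.negSucc (nat_lit 25497850557749496467)]]]]]]]],[[[[[],[[[[Int.ofNat (nat_lit 54365891187766460856)]]]]]]]]],[[[[[[],[[[],[[Int.ofNat (nat_lit 2987768349545551356)]]]],[[[[Int.ofNat (nat_lit 13391209695939920640)]]]]],[[[[[Int.negSucc (nat_lit 261475202931010242023)]]],[[[Int.ofNat (nat_lit 651220691363205276)]]]]],[[[[[Int.negSucc (nat_lit 9322904389682846747)]]]]]],[[[],[[[[Int.ofNat (nat_lit 38713018147824324564)]]]]]]],[[[],[[[[[Int.negSucc (nat_lit 82172238503492872799)]]]]]]]],[[[[[],[[[[Int.negSucc (nat_lit 886931541425626763891)]]]]]],[[],[[[[[Int.ofNat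 (nat_lit 21267458758812593820)]]]]]]],[[[[],[[[[Int.negSucc (nat_lit 73944831032050179335)]]]]]]]],[[[[],[[[[[Int.ofNat (nat_lit 250586182673759090292)]]]]]]]]],[[[[[],[[[[[Int.negSucc (nat_lit 197430739460993090375)]]]]]],[[[],[[[[Int.negSucc (nat_lit 11655932628194514995)]]]]]]],[[[],[[[[[Int.negSucc (nat_lit 68603720634046377671)]]]]]]]],[[[[[],[[[[Int.negSucc (nat_lit 304825126141943238071)]]]]]]]]],[[[[[],[[[[[Int.ofNat (nat_lit 6684583404216814824)]]]]]]]]]]

/-- A coefficient. -/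
noncomputable def sr7_m4_1_3 : MP 10 :=
  [[[[[[[],[[[[Int.ofNat (nat_lit 202648410213469628016)],[Int.ofNat (nat_lit 3425765840127927840)]]],[[[Int.negSucc (nat_lit 22637889318730822463)]]]]],[[[[[Int.ofNat (nat_lit 0),Int.negSucc (nat_lit 3582722978785221671)]],[[Int.ofNat (nat_lit 3634538210556881616)]]]],[[[[Int.negSucc (nat_lit 37550470767790833083)]]]]]],[[],[[[[[Int.ofNat (nat_lit 88167272064599928084)]]]]]],[[[],[[[[Int.ofNat (nat_lit 22508389132079908368)]]]]]]],[[[[],[[[[Int.ofNat (nat_lit 169050221953018707360)]]]]]],[[],[[[[[Int.ofNat (nat_lit 7484007695626221288)]]]]]]],[[[[],[[[[Int.ofNat (nat_lit 14999559542406675300)]]]]]]]],[[[[[],[],[[[[Int.ofNat (nat_lit 32960825175568541976)]]]]],[[[[[Int.negSucc (nat_lit 387204819365520007031)]]]]],[[[[[Int.ofNat (nat_lit 23418609029479237356)]]]]]],[[[],[[[[Int.ofNat (nat_lit 215523723322787719932)]]]]]]],[[[],[[[[[Int.ofNat (nat_lit 79305095604038556828)]]]]]]]],[[[[[],[[[[Int.negSucc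 (nat_lit 419374112655542573507)]]]]]]]],[[[[],[[[[[Int.ofNat (nat_lit 45063790649358069396)]]]]]]]]],[[[[[[],[[[[Int.ofNat (nat_lit 448130595732967571208)]]]]],[[],[[[[Int.ofNat (nat_lit 15461082648815690508)]]]]]],[[],[[[[[Int.negSucc (nat_lit 74359797830633161583)]]]]]]],[[[[],[[[[Int.ofNat (nat_lit 239722148035655408724)]]]]]]]],[[[[],[[[[[Int.negSucc (nat_lit 614921086282606845347)]]]]]]]],[[[[[],[[[[Int.negSucc (nat_lit 122843165989446338855)]]]]]]]]],[[[[[[],[[[[Int.ofNat (nat_lit 225017535292235057328)]]]]]]]],[[[[],[[[[[Int.negSucc (nat_lit 11208714575108203271)]]]]]]]]],[[[[[[],[[[[Int.negSucc (nat_lit 13399670745912084659)]]]]]]]]]]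

/-- A coefficient. -/
noncomputable def sr7_m4_1_4 : MP 10 :=
  [[[[[[[],[[[],[[Int.negSucc (nat_lit 2191957562819830067)]]]],[[[[Int.ofNat (nat_lit 60360792691936925760)]]]]],[[[[[Int.ofNat (nat_lit 132013199050830947544)]]],[[[Int.negSucc (nat_lit 11487088995066743423)]]]]],[[[[[Int.ofNat (nat_lit 64563552996266572404)]]]]]],[[[],[[[[Int.negSucc (nat_lit 283171885521156574487)]]]]]]],[[[],[[[[[Int.negSucc (nat_lit 144265929310518547787)]]]]]]]],[[[[[],[[[[Int.ofNat (nat_lit 686242677998999618964)]]]]]],[[],[[[[[Int.ofNat (nat_lit 14150787503452293624)]]]]]]],[[[[],[[[[Int.ofNat (nat_lit 4553315705035918488)]]]]]]]],[[[[],[[[[[Int.negSucc (nat_lit 240159252068437020623)]]]]]]]]],[[[[[],[[[[[Int.ofNat (nat_lit 733199868618552518220)]]]]]],[[[],[[[[Int.ofNat (nat_lit 9395512466516477400)]]]]]]],[[[],[[[[[Int.ofNat (nat_lit 29100871199637075132)]]]]]]]],[[[[[],[[[[Int.ofNat (nat_lit 339626062995636187392)]]]]]]]]],[[[[[],[[[[[Int.ofNat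 (nat_lit 110476596051298165596)]]]]]]]]]]

/-- A coefficient. -/
noncomputable def sr7_m4_1_5 : MP 10 :=
  [[[[[[[],[[[[Int.negSucc (nat_lit 106141402551319166063)]]]]],[[],[[[[Int.negSucc (nat_lit 9664514829270823103)]]]]]],[[],[[[[[Int.negSucc (nat_lit 53752086660788560151)]]]]]]],[[[[],[[[[Int.ofNat (nat_lit 62184473937528423552)]]]]]]]],[[[[],[[[[[Int.ofNat (nat_lit 170131234008711678012)]]]]]]]],[[[[[],[[[[Int.ofNat (nat_lit 26081935576577207256)]]]]]]]]],[[[[[[],[[[[Int.negSucc (nat_lit 352835310873344475455)]]]]]]]],[[[[],[[[[[Int.ofNat (nat_lit 48636754961171615064)]]]]]]]]],[[[[[[],[[[[Int.negSucc (nat_lit 94912606870005045095)]]]]]]]]]]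

/-- A coefficient. -/
noncomputable def sr7_m4_1_6 : MP 10 :=
  [[[[[[],[[[[[Int.ofNat (nat_lit 147040203137950357032)]]]]]],[[[],[[[[Int.negSucc (nat_lit 237785178006551255)]]]]]]],[[[],[[[[[Int.ofNat (nat_lit 852496944957955680)]]]]]]]],[[[[[],[[[[Int.ofNat (nat_lit 63707864249305933656)]]]]]]]]],[[[[[],[[[[[Int.negSucc (nat_lit 122976604294636655003)]]]]]]]]]]

/-- A coefficient. -/
noncomputable def sr7_m4_1_7 : MP 10 :=
  [[[[[[[],[[[[Int.negSucc (nat_lit 11154659247171587423)]]]]]]]],[[[[],[[[[[Int.ofNat (nat_lit 98236769980104069672)]]]]]]]]],[[[[[[],[[[[Int.ofNat (nat_lit 68555542207987390536)]]]]]]]]]]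

/-- A coefficient. -/
noncomputable def sr7_m4_1_8 : MP 10 :=
  [[[[[[],[[[[[Int.negSucc (nat_lit 75973109068857256787)]]]]]]]]]]

/-- A coefficient. -/
noncomputable def sr7_m4_1_9 : MP 10 :=
  [[[[[[[],[[[[Int.ofNat (nat_lit 14665383589156179348)]]]]]]]]]]

/-- A coefficient. -/
noncomputable def sr7_m4_2_0 : MP 10 :=
  [[[[[[[],[[[[Int.ofNat (nat_lit 0),Int.negSucc (nat_lit 4621254126381850847)]],[[Int.ofNat (nat_lit 13743259142094259644)]]]],[[[[Int.negSucc (nat_lit 57756851053277320031)]]]]],[[[[[Int.ofNat (nat_lit 76879269941426655516)],[Int.negSucc (nat_lit 6417136933072147187)]]],[[[Int.ofNat (nat_lit 6287676647602305672)]]]],[],[[[[Int.ofNat (nat_lit 13424532532940907060)]]]]],[[[[[Int.ofNat (nat_lit 20408555833725805320)]]]]],[[[[[Int.ofNat (nat_lit 4697388719093341080)]]]]]],[[[],[[[[Int.negSucc (nat_lit 12010557921596724227)]]],[[[Int.ofNat (nat_lit 2507450509576781784)]]]]],[[[[],[[Int.ofNat (nat_lit 554377650708937896)]]]],[[[[Int.negSucc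 (nat_lit 18398185718593444463)]]]]]],[[],[[[[[Int.negSucc (nat_lit 7795918047801330323)]]]]]]],[[[[],[[[],[[Int.negSucc (nat_lit 2347797701662055363)]]]],[[[[Int.negSucc (nat_lit 21535069905867069251)]]]]],[[[[[Int.negSucc (nat_lit 26461267556112975647)]]],[[[Int.ofNat (nat_lit 653456071399972476)]]]]],[[[[[Int.negSucc (nat_lit 46403133538360444187)]]]]]],[[[],[[[[Int.ofNat (nat_lit 38270837319221748852)]]]]]]],[[[],[[[[[Int.ofNat (nat_lit 19873848389836882140)]]]]]]]],[[[[[],[[[[Int.negSucc (nat_lit 145028265098051996447)],[Int.ofNat (nat_lit 5428550066958074532)]]],[[[Int.ofNat (nat_lit 3686553843568698492)]]]]],[[[[[Int.ofNat (nat_lit 0),Int.negSucc (nat_lit 6011693607274664135)]],[[Int.ofNat (nat_lit 9456803806124460528)]]]],[[[[Int.negSucc (nat_lit 168077119101423095807)]]]]]],[[],[[[[[Int.negSucc (nat_lit 75447542407163345891)]]]]]],[[[],[[[[Int.negSucc (nat_lit 5550756650154714539)]]]]]]],[[[[],[[[[Int.ofNat (nat_lit 67703370811680019872)]]]]]],[[],[[[[[Int.ofNat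 (nat_lit 15650541771440956500)]]]]]]],[[[[],[[[[Int.negSucc (nat_lit 14357606259876685895)]]]]]]]],[[[[[],[],[[[[Int.negSucc (nat_lit 26445267633213175835)]]]]],[[[[[Int.ofNat (nat_lit 344916936901550168520)]]]]],[[[[[Int.negSucc (nat_lit 10441603515799159223)]]]]]],[[[],[[[[Int.negSucc (nat_lit 24119236039918369811)]]]]]]],[[[],[[[[[Int.negSucc (nat_lit 24577555681109388227)]]]]]]]],[[[[[],[[[[Int.ofNat (nat_lit 49890472764679294680)]]]]]]]],[[[[],[[[[[Int.ofNat (nat_lit 3040144665852121272)]]]]]]]]],[[[[[[],[[[[Int.ofNat (nat_lit 0),Int.negSucc (nat_lit 520638869115701663)]],[[Int.ofNat (nat_lit 2398070416519958064)]]]],[[[[Int.negSucc (nat_lit 51657799772880192683)]]]]],[[[[[Int.ofNat (nat_lit 125601585728214686532)],[Int.negSucc (nat_lit 695390792222391227)]]],[[[Int.ofNat (nat_lit 5475143674798508328)]]]]],[[[[[Int.ofNat (nat_lit 42898938962555074320)]]]]]],[[[],[[[[Int.negSucc (nat_lit 22339888163649410579)]]]]]],[[],[[[[[Int.negSucc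 (nat_lit 7739826894530159315)]]]]]]],[[[],[[[[[Int.negSucc (nat_lit 33729535577579928203)]]]]]],[[[],[[[[Int.negSucc (nat_lit 926555912307547583)]]]]]]],[[[],[[[[[Int.ofNat (nat_lit 653165786587856652)]]]]]]]],[[[[[],[[[[Int.ofNat (nat_lit 46332821077471814772)]]]]],[[],[[[[Int.negSucc (nat_lit 7310884253228750627)]]]]]],[[],[[[[[Int.negSucc (nat_lit 30620194578682331843)]]]]]]],[[[[],[[[[Int.ofNat (nat_lit 6527979479677781028)]]]]]]]],[[[[],[[[[[Int.ofNat (nat_lit 200944241890033049220)]]]]]]]],[[[[[],[[[[Int.ofNat (nat_lit 1027200665625109296)]]]]]]]]],[[[[[[],[],[[[[Int.negSucc (nat_lit 27841252704594630791)]]]]],[[[[[Int.ofNat (nat_lit 155520408894871289700)]]]]],[[[[[Int.negSucc (nat_lit 5870680509016647995)]]]]]],[[[],[[[[Int.negSucc (nat_lit 16399182628016510195)]]]]]]],[[[],[[[[[Int.negSucc (nat_lit 42896229448189945427)]]]]]]]],[[[[[],[[[[Int.ofNat (nat_lit 146936568396501470004)]]]]]]]],[[[[],[[[[[Int.ofNat (nat_lit 1647172899445523388)]]]]]]]]],[[[[[],[[[[[Int.ofNat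 (nat_lit 31476432118268463792)]]]]]]]],[[[[[],[[[[Int.negSucc (nat_lit 2778530979830223179)]]]]]]]]],[[[[[],[[[[[Int.negSucc (nat_lit 9668418007202189639)]]]]]]]]]]

/-- A coefficient. -/
noncomputable def sr7_m4_2_1 : MP 10 :=
  [[[[[[[],[[[[Int.negSucc (nat_lit 54277373669998771295)],[Int.ofNat (nat_lit 3709768257766272096)]]],[[[Int.negSucc (nat_lit 16365157680169048451)]]]]],[[[[[Int.ofNat (nat_lit 0),Int.negSucc (nat_lit 3136216867758029039)]],[[Int.ofNat (nat_lit 4014423338263735140)]]]],[[[[Int.ofNat (nat_lit 39602708882993501172)]]]]]],[[[],[],[[[[Int.negSucc (nat_lit 9304379929885936955)]]]]],[[[[[Int.negSucc (nat_lit 4014279842871510911)]]]]],[[[[[Int.negSucc (nat_lit 5842474960309720979)]]]]]],[[[],[[[[Int.ofNat (nat_lit 76198106839276880820)]]]]]]],[[[[],[[[[Int.ofNat (nat_lit 7685010058103916984)]]]]],[[],[[[[Int.negSucc (nat_lit 1994133522686028647)]]]]]],[[],[[[[[Int.ofNat (nat_lit 78425108088042856380)]]]]]]],[[[[],[[[[Int.negSucc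 (nat_lit 27127431760905992771)]]]]]]]],[[[[[],[[[],[[Int.negSucc (nat_lit 2461365148150081115)]]]],[[[[Int.ofNat (nat_lit 682496983695407508)]]]]],[[[[[Int.negSucc (nat_lit 392899054109184136763)]]],[[[Int.ofNat (nat_lit 17896536756049795116)]]]]],[[[[[Int.negSucc (nat_lit 49585951566763748795)]]]]]],[[[],[[[[Int.ofNat (nat_lit 130236151729973041848)]]]]]]],[[[],[[[[[Int.negSucc (nat_lit 196582588136769707975)]]]]]]]],[[[[[],[[[[Int.negSucc (nat_lit 480425974974435891347)]]]]]],[[],[[[[[Int.negSucc (nat_lit 16435649235570905987)]]]]]]],[[[[],[[[[Int.negSucc (nat_lit 11752169960690780159)]]]]]]]],[[[[],[[[[[Int.ofNat (nat_lit 124775133750699934680)]]]]]]]]],[[[[[[],[[[[Int.negSucc (nat_lit 364433324676214642223)]]],[[[Int.negSucc (nat_lit 15239811756945608591)]]]]],[[[[],[[Int.ofNat (nat_lit 12122413339525389636)]]]],[[[[Int.negSucc (nat_lit 58390734309990779591)]]]]]],[[],[[[[[Int.ofNat (nat_lit 80890741628563822176)]]]]]]],[[[[],[[[[Int.ofNat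 (nat_lit 45738341368177668948)]]]]]]]],[[[[],[[[[[Int.negSucc (nat_lit 141013370216300682983)]]]]]],[[[],[[[[Int.negSucc (nat_lit 7544346197759400899)]]]]]]],[[[],[[[[[Int.negSucc (nat_lit 105326579648826683963)]]]]]]]],[[[[[],[[[[Int.negSucc (nat_lit 332432092532232708659)]]]]]]]]],[[[[[[],[[[[Int.negSucc (nat_lit 440618160062519934311)]]]]]],[[],[[[[[Int.ofNat (nat_lit 15476618208631987224)]]]]]]],[[[[],[[[[Int.ofNat (nat_lit 82796859700012446348)]]]]]]]],[[[[],[[[[[Int.negSucc (nat_lit 15292423968230683415)]]]]]]]]],[[[[[[],[[[[Int.negSucc (nat_lit 78751474941132617099)]]]]]]]]]]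

/-- A coefficient. -/
noncomputable def sr7_m4_2_2 : MP 10 :=
  [[[[[[[],[[[[Int.ofNat (nat_lit 0),Int.ofNat (nat_lit 8832272526441104304)]],[[Int.negSucc (nat_lit 277387642990726955)]]]],[[[[Int.negSucc (nat_lit 112881193888638119327)]]]]],[[[[[Int.ofNat (nat_lit 250579505365013032152)],[Int.ofNat (nat_lit 8542220268827136888)]]],[[[Int.negSucc (nat_lit 13013881762458015275)]]]]],[[[[[Int.negSucc (nat_lit 46112449774873944419)]]]]]],[[[],[[[[Int.negSucc (nat_lit 268676700917788782335)]]]]]],[[],[[[[[Int.ofNat (nat_lit 33158904165681974124)]]]]]]],[[[],[[[[[Int.ofNat (nat_lit 35398305164625144924)]]]]]],[[[],[[[[Int.negSucc (nat_lit 33594574302619205711)]]]]]]],[[[],[[[[[Int.ofNat (nat_lit 7337557569307428564)]]]]]]]],[[[[[],[[[[Int.ofNat (nat_lit 873782540479131453552)]]]]],[[],[[[[Int.negSucc (nat_lit 54115771822293998183)]]]]]],[[],[[[[[Int.ofNat (nat_lit 372982213494397900476)]]]]]]],[[[[],[[[[Int.negSucc (nat_lit 188055263459238453887)]]]]]]]],[[[[],[[[[[Int.negSucc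 (nat_lit 304595820274133231435)]]]]]]]],[[[[[],[[[[Int.negSucc (nat_lit 8370890212013075843)]]]]]]]]],[[[[[[],[],[[[[Int.ofNat (nat_lit 77018659097349198000)]]]]],[[[[[Int.negSucc (nat_lit 59319767027156727311)]]]]],[[[[[Int.ofNat (nat_lit 71513465399687521032)]]]]]],[[[],[[[[Int.negSucc (nat_lit 240357183924633440063)]]]]]]],[[[],[[[[[Int.ofNat (nat_lit 46114016010976394496)]]]]]]]],[[[[[],[[[[Int.ofNat (nat_lit 936028236734087778972)]]]]]]]],[[[[],[[[[[Int.negSucc (nat_lit 169039708009657456031)]]]]]]]]],[[[[[],[[[[[Int.ofNat (nat_lit 37337924011617452904)]]]]]]]],[[[[[],[[[[Int.ofNat (nat_lit 287310981973269368160)]]]]]]]]],[[[[[],[[[[[Int.ofNat (nat_lit 78668665460229371520)]]]]]]]]]]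

/-- A coefficient. -/
noncomputable def sr7_m4_2_3 : MP 10 :=
  [[[[[[[],[[[[Int.negSucc (nat_lit 200177212994212465067)]]],[[[Int.ofNat (nat_lit 189887396504017464)]]]]],[[[[],[[Int.negSucc (nat_lit 8824447072269212447)]]]],[[[[Int.ofNat (nat_lit 46962725427491365224)]]]]]],[[],[[[[[Int.negSucc (nat_lit 220984468531975370927)]]]]]]],[[[[],[[[[Int.negSucc (nat_lit 115122035323321639583)]]]]]]]],[[[[],[[[[[Int.ofNat (nat_lit 95138394050977697772)]]]]]],[[[],[[[[Int.negSucc (nat_lit 86847545477544053291)]]]]]]],[[[],[[[[[Int.ofNat (nat_lit 18362973223132428924)]]]]]]]],[[[[[],[[[[Int.ofNat (nat_lit 219425613651343431612)]]]]]]]]],[[[[[[],[[[[Int.ofNat (nat_lit 109735194449261642220)]]]]]],[[],[[[[[Int.negSucc (nat_lit 256107872213684195)]]]]]]],[[[[],[[[[Int.negSucc (nat_lit 155053963963300602023)]]]]]]]],[[[[],[[[[[Int.ofNat (nat_lit 416721912675981067308)]]]]]]]]],[[[[[[],[[[[Int.ofNat (nat_lit 63320883683291372928)]]]]]]]]]]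

/-- A coefficient. -/
noncomputable def sr7_m4_2_4 : MP 10 :=
  [[[[[[[],[],[[[[Int.negSucc (nat_lit 77097838339716089471)]]]]],[[[[[Int.ofNat (nat_lit 160965280570137512544)]]]]],[[[[[Int.negSucc (nat_lit 83355458816756131535)]]]]]],[[[],[[[[Int.ofNat (nat_lit 127594823921800480740)]]]]]]],[[[],[[[[[Int.ofNat (nat_lit 30305633024599484940)]]]]]]]],[[[[[],[[[[Int.negSucc (nat_lit 378699970666336980275)]]]]]]]],[[[[],[[[[[Int.ofNat (nat_lit 71692660123522127256)]]]]]]]]],[[[[[],[[[[[Int.negSucc (nat_lit 708734893103538968051)]]]]]]]],[[[[[],[[[[Int.negSucc (nat_lit 202053613963405520867)]]]]]]]]],[[[[[],[[[[[Int.negSucc (nat_lit 156063178032044245043)]]]]]]]]]]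

/-- A coefficient. -/
noncomputable def sr7_m4_2_5 : MP 10 :=
  [[[[[[[],[[[[Int.negSucc (nat_lit 701577933615903270731)]]]]]],[[],[[[[[Int.ofNat (nat_lit 52980489593289218712)]]]]]]],[[[[],[[[[Int.negSucc (nat_lit 34376178145840893491)]]]]]]]],[[[[],[[[[[Int.ofNat (nat_lit 148646881495409527908)]]]]]]]]],[[[[[[],[[[[Int.negSucc (nat_lit 103780625241733228163)]]]]]]]]]]

/-- A coefficient. -/
noncomputable def sr7_m4_2_6 : MP 10 :=
  [[[[[[],[[[[[Int.negSucc (nat_lit 445935133465506041051)]]]]]]]],[[[[[],[[[[Int.negSucc (nat_lit 227450836088376224147)]]]]]]]]],[[[[[],[[[[[Int.ofNat (nat_lit 57674155809970191492)]]]]]]]]]]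

/-- A coefficient. -/
noncomputable def sr7_m4_2_7 : MP 10 :=
  [[[[[[[],[[[[Int.ofNat (nat_lit 295635285050033262948)]]]]]]]]]]

/-- A coefficient. -/
noncomputable def sr7_m4_2_8 : MP 10 :=
  [[[[[[],[[[[[Int.negSucc (nat_lit 7930473864542032187)]]]]]]]]]]

/-- A coefficient. -/
noncomputable def sr7_m4_3_0 : MP 10 :=
  [[[[[[[],[[[[Int.ofNat (nat_lit 0),Int.negSucc (nat_lit 2450921411770359551)]],[[Int.negSucc (nat_lit 15286412065609314503)]]]],[[[[Int.ofNat (nat_lit 118159092990359662908)]]]]],[[[[[Int.negSucc (nat_lit 104092877069382252179)],[Int.negSucc (nat_lit 2381567451869302643)]]],[[[Int.negSucc (nat_lit 3285825084666000635)]]]]],[[[[[Int.ofNat (nat_lit 34198875114622457904)]]]]]],[[[],[[[[Int.negSucc (nat_lit 80218003624935532271)]]]]],[[],[[[[Int.ofNat (nat_lit 6576707944587131952)]]]]]],[[],[[[[[Int.ofNat (nat_lit 7473541052028554964)]]]]]]],[[[[],[],[[[[Int.ofNat (nat_lit 24402751391156626620)]]]]],[[[[[Int.negSucc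 (nat_lit 12990727260307217783)]]]]],[[[[[Int.ofNat (nat_lit 37646172849914743092)]]]]]],[[[],[[[[Int.negSucc (nat_lit 44396608614784801103)]]]]]]],[[[],[[[[[Int.negSucc (nat_lit 19429243767217447859)]]]]]]]],[[[[[],[[[[Int.ofNat (nat_lit 288721668418254471624)]]],[[[Int.negSucc (nat_lit 1918753368248482355)]]]]],[[[[],[[Int.negSucc (nat_lit 4792391006153250587)]]]],[[[[Int.ofNat (nat_lit 145607972818595891184)]]]]]],[[],[[[[[Int.ofNat (nat_lit 128394767691031698996)]]]]]]],[[[[],[[[[Int.negSucc (nat_lit 84510208340343978383)]]]]]]]],[[[[],[[[[[Int.negSucc (nat_lit 405509948416087662695)]]]]]],[[[],[[[[Int.ofNat (nat_lit 9587836231767858900)]]]]]]],[[[],[[[[[Int.ofNat (nat_lit 10592553588894163092)]]]]]]]],[[[[[],[[[[Int.negSucc (nat_lit 45168934834389091451)]]]]]]]]],[[[[[[],[[[],[[Int.ofNat (nat_lit 618767559816824496)]]]],[[[[Int.ofNat (nat_lit 17839936069696178124)]]]]],[[[[[Int.ofNat (nat_lit 114306505482648777096)]]],[[[Int.negSucc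 (nat_lit 1051286080191251939)]]]]],[[[[[Int.negSucc (nat_lit 39963991983421757507)]]]]]],[[[],[[[[Int.negSucc (nat_lit 63751580295140438387)]]]]]]],[[[],[[[[[Int.negSucc (nat_lit 141838185019146547247)]]]]]]]],[[[[[],[[[[Int.negSucc (nat_lit 47121496425804243107)]]]]]],[[],[[[[[Int.ofNat (nat_lit 2717360433348409008)]]]]]]],[[[[],[[[[Int.ofNat (nat_lit 15573856552041300096)]]]]]]]],[[[[],[[[[[Int.negSucc (nat_lit 162190407758152911323)]]]]]]]]],[[[[[],[[[[[Int.negSucc (nat_lit 19783595349484569563)]]]]]],[[[],[[[[Int.negSucc (nat_lit 1173422384416122539)]]]]]]],[[[],[[[[[Int.ofNat (nat_lit 6612498087734208516)]]]]]]]],[[[[[],[[[[Int.negSucc (nat_lit 126264304243127158583)]]]]]]]]],[[[[[],[[[[[Int.negSucc (nat_lit 15950506686101151359)]]]]]]]]]]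

/-- A coefficient. -/
noncomputable def sr7_m4_3_1 : MP 10 :=
  [[[[[[[],[[[[Int.ofNat (nat_lit 41704945091772141468)],[Int.negSucc (nat_lit 641575907785510151)]]],[[[Int.negSucc (nat_lit 13496053941327572555)]]]]],[[[[[Int.ofNat (nat_lit 0),Int.ofNat (nat_lit 931976240591963880)]],[[Int.ofNat (nat_lit 4235756543855280024)]]]],[[[[Int.negSucc (nat_lit 11426927624649435011)]]]]]],[[],[[[[[Int.negSucc (nat_lit 140232124128905776643)]]]]]],[[[],[[[[Int.negSucc (nat_lit 15580231224528756383)]]]]]]],[[[[],[[[[Int.ofNat (nat_lit 55391118346080368136)]]]]]],[[],[[[[[Int.negSucc (nat_lit 46930164774831594923)]]]]]]],[[[[],[[[[Int.ofNat (nat_lit 52503775200247221648)]]]]]]]],[[[[[],[],[[[[Int.ofNat (nat_lit 76472806879940243508)]]]]],[[[[[Int.ofNat (nat_lit 461757099385040065164)]]]]],[[[[[Int.ofNat (nat_lit 62732353872124029828)]]]]]],[[[],[[[[Int.negSucc (nat_lit 222258755130100713803)]]]]]]],[[[],[[[[[Int.ofNat (nat_lit 37910987273007829044)]]]]]]]],[[[[[],[[[[Int.ofNat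 (nat_lit 200091448481483109324)]]]]]]]],[[[[],[[[[[Int.negSucc (nat_lit 51367477406461698875)]]]]]]]]],[[[[[[],[[[[Int.ofNat (nat_lit 171652923999695460744)]]]]],[[],[[[[Int.ofNat (nat_lit 48396686979010079316)]]]]]],[[],[[[[[Int.negSucc (nat_lit 184890887343214554371)]]]]]]],[[[[],[[[[Int.ofNat (nat_lit 152030020360346494968)]]]]]]]],[[[[],[[[[[Int.negSucc (nat_lit 60764122087703823431)]]]]]]]],[[[[[],[[[[Int.ofNat (nat_lit 141461288715647489076)]]]]]]]]],[[[[[[],[[[[Int.ofNat (nat_lit 234264014535988425516)]]]]]]]],[[[[],[[[[[Int.ofNat (nat_lit 17133589995293232648)]]]]]]]]],[[[[[[],[[[[Int.ofNat (nat_lit 9698740897904291340)]]]]]]]]]]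

/-- A coefficient. -/
noncomputable def sr7_m4_3_2 : MP 10 :=
  [[[[[[[],[[[],[[Int.ofNat (nat_lit 3102667289364863244)]]]],[[[[Int.ofNat (nat_lit 110453064102355367700)]]]]],[[[[[Int.ofNat (nat_lit 151041368623265626032)]]],[[[Int.negSucc (nat_lit 13237928674611662351)]]]]],[[[[[Int.ofNat (nat_lit 142613767422711372264)]]]]]],[[[],[[[[Int.ofNat (nat_lit 205629726494324145060)]]]]]]],[[[],[[[[[Int.ofNat (nat_lit 153328106862971806224)]]]]]]]],[[[[[],[[[[Int.ofNat (nat_lit 380210893876104911544)]]]]]],[[],[[[[[Int.negSucc (nat_lit 203878588636672959683)]]]]]]],[[[[],[[[[Int.ofNat (nat_lit 188443017526103118444)]]]]]]]],[[[[],[[[[[Int.negSucc (nat_lit 437189847561990054359)]]]]]]]]],[[[[[],[[[[[Int.ofNat (nat_lit 1176138075440119324404)]]]]]],[[[],[[[[Int.ofNat (nat_lit 148643588179885573188)]]]]]]],[[[],[[[[[Int.ofNat (nat_lit 95336987123528872620)]]]]]]]],[[[[[],[[[[Int.ofNat (nat_lit 631204377093235311564)]]]]]]]]],[[[[[],[[[[[Int.ofNat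 (nat_lit 420572913704432165688)]]]]]]]]]]

/-- A coefficient. -/
noncomputable def sr7_m4_3_3 : MP 10 :=
  [[[[[[[],[[[[Int.negSucc (nat_lit 583139940989515277519)]]]]],[[],[[[[Int.negSucc (nat_lit 5333011117250648399)]]]]]],[[],[[[[[Int.negSucc (nat_lit 172499790902183393855)]]]]]]],[[[[],[[[[Int.ofNat (nat_lit 67874192258104050936)]]]]]]]],[[[[],[[[[[Int.ofNat (nat_lit 885571247979462499128)]]]]]]]],[[[[[],[[[[Int.ofNat (nat_lit 77739196382080583352)]]]]]]]]],[[[[[[],[[[[Int.negSucc (nat_lit 1221250867083640247459)]]]]]]]],[[[[],[[[[[Int.ofNat (nat_lit 32121715294653199464)]]]]]]]]],[[[[[[],[[[[Int.negSucc (nat_lit 187684083091149295235)]]]]]]]]]]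

/-- A coefficient. -/
noncomputable def sr7_m4_3_4 : MP 10 :=
  [[[[[[],[[[[[Int.negSucc (nat_lit 520510122799956323351)]]]]]],[[[],[[[[Int.ofNat (nat_lit 41739126644190585336)]]]]]]],[[[],[[[[[Int.ofNat (nat_lit 1128872246707375512)]]]]]]]],[[[[[],[[[[Int.ofNat (nat_lit 168235582724870598624)]]]]]]]]],[[[[[],[[[[[Int.negSucc (nat_lit 24438757795306306451)]]]]]]]]]]

/-- A coefficient. -/
noncomputable def sr7_m4_3_5 : MP 10 :=
  [[[[[[[],[[[[Int.ofNat (nat_lit 560701944787873291764)]]]]]]]],[[[[],[[[[[Int.negSucc (nat_lit 96960360885108428507)]]]]]]]]],[[[[[[],[[[[Int.ofNat (nat_lit 445438086478894406592)]]]]]]]]]]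

/-- A coefficient. -/
noncomputable def sr7_m4_3_6 : MP 10 :=
  [[[[[[],[[[[[Int.negSucc (nat_lit 545720602012753619)]]]]]]]]]]

/-- A coefficient. -/
noncomputable def sr7_m4_3_7 : MP 10 :=
  [[[[[[[],[[[[Int.negSucc (nat_lit 82304736972100899947)]]]]]]]]]]

/-- A coefficient. -/
noncomputable def sr7_m4_4_0 : MP 10 :=
  [[[[[[[],[[[[Int.ofNat (nat_lit 0),Int.ofNat (nat_lit 1647501795999441528)]],[[Int.ofNat (nat_lit 9203592010966710516)]]]],[[[[Int.negSucc (nat_lit 114407496168674741015)]]]]],[[[[[Int.ofNat (nat_lit 56145238397163609456)],[Int.ofNat (nat_lit 1900349257285268400)]]],[[[Int.negSucc (nat_lit 1160977557330797855)]]]]],[[[[[Int.negSucc (nat_lit 127482579741339100967)]]]]]],[[[],[[[[Int.ofNat (nat_lit 169043645604217037088)]]]]]],[[],[[[[[Int.ofNat (nat_lit 108757341210913752)]]]]]]],[[[],[[[[[Int.ofNat (nat_lit 17146593506768073540)]]]]]],[[[],[[[[Int.ofNat (nat_lit 15739816655250174516)]]]]]]],[[[],[[[[[Int.ofNat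 (nat_lit 4311772703752076616)]]]]]]]],[[[[[],[[[[Int.negSucc (nat_lit 292116394173292140299)]]]]],[[],[[[[Int.negSucc (nat_lit 40804814498479368647)]]]]]],[[],[[[[[Int.negSucc (nat_lit 99477088492755351863)]]]]]]],[[[[],[[[[Int.ofNat (nat_lit 78683964313544968476)]]]]]]]],[[[[],[[[[[Int.ofNat (nat_lit 155419107947677773528)]]]]]]]],[[[[[],[[[[Int.ofNat (nat_lit 14250766119590327460)]]]]]]]]],[[[[[[],[],[[[[Int.ofNat (nat_lit 10085712739955039652)]]]]],[[[[[Int.negSucc (nat_lit 551326697080206991391)]]]]],[[[[[Int.ofNat (nat_lit 9669296375147887344)]]]]]],[[[],[[[[Int.ofNat (nat_lit 116767803108257525976)]]]]]]],[[[],[[[[[Int.ofNat (nat_lit 233505306798388622112)]]]]]]]],[[[[[],[[[[Int.negSucc (nat_lit 12920155842377635751)]]]]]]]],[[[[],[[[[[Int.ofNat (nat_lit 56944003444067903172)]]]]]]]]],[[[[[],[[[[[Int.negSucc (nat_lit 91369538861817052091)]]]]]]]],[[[[[],[[[[Int.ofNat (nat_lit 58618014990810048576)]]]]]]]]],[[[[[],[[[[[Int.ofNat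 (nat_lit 27301825531982068656)]]]]]]]]]]

/-- A coefficient. -/
noncomputable def sr7_m4_4_1 : MP 10 :=
  [[[[[[[],[[[[Int.negSucc (nat_lit 73246601620399087403)]]],[[[Int.ofNat (nat_lit 18834903017264567928)]]]]],[[[[],[[Int.negSucc (nat_lit 5178527025856861079)]]]],[[[[Int.ofNat (nat_lit 2978908454134332648)]]]]]],[[],[[[[[Int.ofNat (nat_lit 81676990429132196196)]]]]]]],[[[[],[[[[Int.negSucc (nat_lit 86917790844383417531)]]]]]]]],[[[[],[[[[[Int.negSucc (nat_lit 29849285561232059927)]]]]]],[[[],[[[[Int.ofNat (nat_lit 101153017669291437504)]]]]]]],[[[],[[[[[Int.ofNat (nat_lit 88162460386936934220)]]]]]]]],[[[[[],[[[[Int.ofNat (nat_lit 334419154182796659948)]]]]]]]]],[[[[[[],[[[[Int.ofNat (nat_lit 372240614280544289700)]]]]]],[[],[[[[[Int.ofNat (nat_lit 85954451686309779132)]]]]]]],[[[[],[[[[Int.negSucc (nat_lit 219002549654875336103)]]]]]]]],[[[[],[[[[[Int.ofNat (nat_lit 336474648882115515084)]]]]]]]]],[[[[[[],[[[[Int.ofNat (nat_lit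 78223264497415327188)]]]]]]]]]]

/-- A coefficient. -/
noncomputable def sr7_m4_4_2 : MP 10 :=
  [[[[[[[],[],[[[[Int.negSucc (nat_lit 131522846656033747559)]]]]],[[[[[Int.negSucc (nat_lit 461900916014676612827)]]]]],[[[[[Int.negSucc (nat_lit 143912057220190361711)]]]]]],[[[],[[[[Int.ofNat (nat_lit 207060086110126945356)]]]]]]],[[[],[[[[[Int.negSucc (nat_lit 214028410291654309247)]]]]]]]],[[[[[],[[[[Int.negSucc (nat_lit 1542618364434515275847)]]]]]]]],[[[[],[[[[[Int.ofNat (nat_lit 448925775167908129440)]]]]]]]]],[[[[[],[[[[[Int.negSucc (nat_lit 1158845216710353990563)]]]]]]]],[[[[[],[[[[Int.negSucc (nat_lit 957847617809971430051)]]]]]]]]],[[[[[],[[[[[Int.negSucc (nat_lit 413953979698019844335)]]]]]]]]]]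

/-- A coefficient. -/
noncomputable def sr7_m4_4_3 : MP 10 :=
  [[[[[[[],[[[[Int.ofNat (nat_lit 385779101167636481652)]]]]]],[[],[[[[[Int.ofNat (nat_lit 283802862318922449564)]]]]]]],[[[[],[[[[Int.negSucc (nat_lit 52632633234245515163)]]]]]]]],[[[[],[[[[[Int.negSucc (nat_lit 158630889045645594023)]]]]]]]]],[[[[[[],[[[[Int.ofNat (nat_lit 134104541983444575180)]]]]]]]]]]

/-- A coefficient. -/
noncomputable def sr7_m4_4_4 : MP 10 :=
  [[[[[[],[[[[[Int.negSucc (nat_lit 293966869677302652347)]]]]]]]],[[[[[],[[[[Int.negSucc (nat_lit 322838698455417686351)]]]]]]]]],[[[[[],[[[[[Int.ofNat (nat_lit 188623883693558189832)]]]]]]]]]]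

/-- A coefficient. -/
noncomputable def sr7_m4_4_5 : MP 10 :=
  [[[[[[[],[[[[Int.ofNat (nat_lit 661865483557877214852)]]]]]]]]]]

/-- A coefficient. -/
noncomputable def sr7_m4_4_6 : MP 10 :=
  [[[[[[],[[[[[Int.ofNat (nat_lit 137909869452194494152)]]]]]]]]]]

/-- A coefficient. -/
noncomputable def sr7_m4_5_0 : MP 10 :=
  [[[[[[[],[[[],[[Int.negSucc (nat_lit 3578337275791011875)]]]],[[[[Int.ofNat (nat_lit 50825928957814203048)]]]]],[[[[[Int.negSucc (nat_lit 132190863338277672959)]]],[[[Int.negSucc (nat_lit 167793956193480035)]]]]],[[[[[Int.ofNat (nat_lit 114985853498140343052)]]]]]],[[[],[[[[Int.negSucc (nat_lit 80790227695410418367)]]]]]]],[[[],[[[[[Int.ofNat (nat_lit 160874431616900848428)]]]]]]]],[[[[[],[[[[Int.ofNat (nat_lit 177555328465830113820)]]]]]],[[],[[[[[Int.ofNat (nat_lit 33773087313041237712)]]]]]]],[[[[],[[[[Int.negSucc (nat_lit 37495266538082665079)]]]]]]]],[[[[],[[[[[Int.ofNat (nat_lit 77882943480657398520)]]]]]]]]],[[[[[],[[[[[Int.ofNat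 (nat_lit 503350858839278655168)]]]]]],[[[],[[[[Int.negSucc (nat_lit 44553867519129462143)]]]]]]],[[[],[[[[[Int.negSucc (nat_lit 79500019737700165631)]]]]]]]],[[[[[],[[[[Int.ofNat (nat_lit 45041884846452188844)]]]]]]]]],[[[[[],[[[[[Int.ofNat (nat_lit 52919416745416841808)]]]]]]]]]]

/-- A coefficient. -/
noncomputable def sr7_m4_5_1 : MP 10 :=
  [[[[[[[],[[[[Int.ofNat (nat_lit 180329634295899012444)]]]]],[[],[[[[Int.negSucc (nat_lit 19743399140696706539)]]]]]],[[],[[[[[Int.ofNat (nat_lit 73390049955494627928)]]]]]]],[[[[],[[[[Int.negSucc (nat_lit 42172900477796593307)]]]]]]]],[[[[],[[[[[Int.negSucc (nat_lit 277386483618175284503)]]]]]]]],[[[[[],[[[[Int.negSucc (nat_lit 248772631091241662291)]]]]]]]]],[[[[[[],[[[[Int.negSucc (nat_lit 362536072180436468879)]]]]]]]],[[[[],[[[[[Int.negSucc (nat_lit 278062435351186177079)]]]]]]]]],[[[[[[],[[[[Int.negSucc (nat_lit 7967730959104966859)]]]]]]]]]]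

/-- A coefficient. -/
noncomputable def sr7_m4_5_2 : MP 10 :=
  [[[[[[],[[[[[Int.negSucc (nat_lit 123076806783778916171)]]]]]],[[[],[[[[Int.negSucc (nat_lit 207864328409772045995)]]]]]]],[[[],[[[[[Int.ofNat (nat_lit 14064051369443177136)]]]]]]]],[[[[[],[[[[Int.ofNat (nat_lit 259749749983477862892)]]]]]]]]],[[[[[],[[[[[Int.negSucc (nat_lit 379977127233916268471)]]]]]]]]]]

/-- A coefficient. -/
noncomputable def sr7_m4_5_3 : MP 10 :=
  [[[[[[[],[[[[Int.ofNat (nat_lit 588602872754040899628)]]]]]]]],[[[[],[[[[[Int.negSucc (nat_lit 485533295244806904347)]]]]]]]]],[[[[[[],[[[[Int.ofNat (nat_lit 703910974642744699788)]]]]]]]]]]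

/-- A coefficient. -/
noncomputable def sr7_m4_5_4 : MP 10 :=
  [[[[[[],[[[[[Int.ofNat (nat_lit 618508282729492109052)]]]]]]]]]]

/-- A coefficient. -/
noncomputable def sr7_m4_5_5 : MP 10 :=
  [[[[[[[],[[[[Int.negSucc (nat_lit 454599422882473315799)]]]]]]]]]]

/-- A coefficient. -/
noncomputable def sr7_m4_6_0 : MP 10 :=
  [[[[[[[],[],[[[[Int.negSucc (nat_lit 10454418595483050731)]]]]],[[[[[Int.ofNat (nat_lit 274230701585610674004)]]]]],[[[[[Int.negSucc (nat_lit 32913156047975235179)]]]]]],[[[],[[[[Int.negSucc (nat_lit 43329416531594510795)]]]]]]],[[[],[[[[[Int.negSucc (nat_lit 241669373969721381527)]]]]]]]],[[[[[],[[[[Int.negSucc (nat_lit 144845429523389923547)]]]]]]]],[[[[],[[[[[Int.negSucc (nat_lit 54989635679002690619)]]]]]]]]],[[[[[],[[[[[Int.negSucc (nat_lit 157304497177222490243)]]]]]]]],[[[[[],[[[[Int.negSucc (nat_lit 41280490399491313343)]]]]]]]]],[[[[[],[[[[[Int.negSucc (nat_lit 31830945901226808659)]]]]]]]]]]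

/-- A coefficient. -/
noncomputable def sr7_m4_6_1 : MP 10 :=
  [[[[[[[],[[[[Int.negSucc (nat_lit 196163026202139053243)]]]]]],[[],[[[[[Int.negSucc (nat_lit 60221658488503598291)]]]]]]],[[[[],[[[[Int.ofNat (nat_lit 116827721914751951772)]]]]]]]],[[[[],[[[[[Int.negSucc (nat_lit 20811883937539628819)]]]]]]]]],[[[[[[],[[[[Int.negSucc (nat_lit 10139318628780664583)]]]]]]]]]]

/-- A coefficient. -/
noncomputable def sr7_m4_6_2 : MP 10 :=
  [[[[[[],[[[[[Int.ofNat (nat_lit 341941917709156759116)]]]]]]]],[[[[[],[[[[Int.ofNat (nat_lit 527145389306696804544)]]]]]]]]],[[[[[],[[[[[Int.ofNat (nat_lit 672015371870779139448)]]]]]]]]]]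

/-- A coefficient. -/
noncomputable def sr7_m4_6_3 : MP 10 :=
  [[[[[[[],[[[[Int.ofNat (nat_lit 136197424631316988296)]]]]]]]]]]

/-- A coefficient. -/
noncomputable def sr7_m4_6_4 : MP 10 :=
  [[[[[[],[[[[[Int.negSucc (nat_lit 66858641170926085763)]]]]]]]]]]

/-- A coefficient. -/
noncomputable def sr7_m4_7_0 : MP 10 :=
  [[[[[[],[[[[[Int.negSucc (nat_lit 94980274846268267303)]]]]]],[[[],[[[[Int.ofNat (nat_lit 30331610078581491744)]]]]]]],[[[],[[[[[Int.ofNat (nat_lit 86176143540652230936)]]]]]]]],[[[[[],[[[[Int.ofNat (nat_lit 130945586559584706444)]]]]]]]]],[[[[[],[[[[[Int.ofNat (nat_lit 35725096174859445720)]]]]]]]]]]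

/-- A coefficient. -/
noncomputable def sr7_m4_7_1 : MP 10 :=
  [[[[[[[],[[[[Int.negSucc (nat_lit 74486642146964552819)]]]]]]]],[[[[],[[[[[Int.ofNat (nat_lit 151801716592974688212)]]]]]]]]],[[[[[[],[[[[Int.ofNat (nat_lit 4512704072780050152)]]]]]]]]]]

/-- A coefficient. -/
noncomputable def sr7_m4_7_2 : MP 10 :=
  [[[[[[],[[[[[Int.ofNat (nat_lit 375749094625327165404)]]]]]]]]]]

/-- A coefficient. -/
noncomputable def sr7_m4_7_3 : MP 10 :=
  [[[[[[[],[[[[Int.negSucc (nat_lit 592771242001040708231)]]]]]]]]]]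

/-- A coefficient. -/
noncomputable def sr7_m4_8_0 : MP 10 :=
  [[[[[[],[[[[[Int.negSucc (nat_lit 157839394672113969383)]]]]]]]],[[[[[],[[[[Int.negSucc (nat_lit 37605002513841150923)]]]]]]]]],[[[[[],[[[[[Int.negSucc (nat_lit 4730233381396114859)]]]]]]]]]]

/-- A coefficient. -/
noncomputable def sr7_m4_8_1 : MP 10 :=
  [[[[[[[],[[[[Int.ofNat (nat_lit 207839255347570963452)]]]]]]]]]]

/-- A coefficient. -/
noncomputable def sr7_m4_8_2 : MP 10 :=
  [[[[[[],[[[[[Int.negSucc (nat_lit 410986208783602490891)]]]]]]]]]]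

/-- A coefficient. -/
noncomputable def sr7_m4_9_0 : MP 10 :=
  [[[[[[],[[[[[Int.ofNat (nat_lit 116494206827047846704)]]]]]]]]]]

/-- A coefficient. -/
noncomputable def sr7_m4_9_1 : MP 10 :=
  [[[[[[[],[[[[Int.negSucc (nat_lit 59622428969625445643)]]]]]]]]]]

/-- A coefficient. -/
noncomputable def sr7_m4_10_0 : MP 10 :=
  [[[[[[],[[[[[Int.negSucc (nat_lit 19220779160842057643)]]]]]]]]]]

/-- An expanded part. -/
noncomputable def sr7_m4 : R12 :=
  [[sr7_m4_0_0, sr7_m4_0_1, sr7_m4_0_2, sr7_m4_0_3, sr7_m4_0_4, sr7_m4_0_5, sr7_m4_0_6, sr7_m4_0_7, sr7_m4_0_8, sr7_m4_0_9, sr7_m4_0_10],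
   [sr7_m4_1_0, sr7_m4_1_1, sr7_m4_1_2, sr7_m4_1_3, sr7_m4_1_4, sr7_m4_1_5, sr7_m4_1_6, sr7_m4_1_7, sr7_m4_1_8, sr7_m4_1_9],
   [sr7_m4_2_0, sr7_m4_2_1, sr7_m4_2_2, sr7_m4_2_3, sr7_m4_2_4, sr7_m4_2_5, sr7_m4_2_6, sr7_m4_2_7, sr7_m4_2_8],
   [sr7_m4_3_0, sr7_m4_3_1, sr7_m4_3_2, sr7_m4_3_3, sr7_m4_3_4, sr7_m4_3_5, sr7_m4_3_6, sr7_m4_3_7],
   [sr7_m4_4_0, sr7_m4_4_1, sr7_m4_4_2, sr7_m4_4_3, sr7_m4_4_4, sr7_m4_4_5, sr7_m4_4_6],
   [sr7_m4_5_0, sr7_m4_5_1, sr7_m4_5_2, sr7_m4_5_3, sr7_m4_5_4, sr7_m4_5_5],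
   [sr7_m4_6_0, sr7_m4_6_1, sr7_m4_6_2, sr7_m4_6_3, sr7_m4_6_4],
   [sr7_m4_7_0, sr7_m4_7_1, sr7_m4_7_2, sr7_m4_7_3],
   [sr7_m4_8_0, sr7_m4_8_1, sr7_m4_8_2],
   [sr7_m4_9_0, sr7_m4_9_1],
   [sr7_m4_10_0]]

set_option maxRecDepth 100000 in
theorem sr7_check4 : partOk 4 sr7_rows 4 sr7_m4 = true :=
  Fast.partOk_of_fast (by decide +kernel)

end Vale.Agent.P142K.CertB
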