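import Vale.Agent.P142K.CertB.Sr7Rows
import Vale.Agent.P142K.Fast
import Vale.Agent.P142K.CertB.Sr6Part5

/-!
# An expanded part of the certificate

Generated from a semidefinite program; only the checker is trusted.
-/

namespace Vale.Agent.P142K.CertB

open Vale.Agent.P142J (MP)

/-- A coefficient. -/
noncomputable def sr7_m5_0_0 : MP 10 :=
  [[[[[[[[[],[],[[Int.negSucc (nat_lit 580626798240728471)]]],[[[Int.ofNat (nat_lit 429639531745731408)]]],[[[Int.negSucc (nat_lit 334301329857218363)]]]],[[[],[[Int.negSucc (nat_lit 730493335787573027)]]],[[],[[Int.negSucc (nat_lit 378250377468133979)]]]],[[],[[[Int.ofNat (nat_lit 1404734419464126240)]]]]],[[[[],[],[[Int.negSucc (nat_lit 55220787709274255)]]],[[[Int.ofNat (nat_lit 1034202374414108304)]]],[[[Int.negSucc (nat_lit 385412285181303875)]]]],[[[],[[Int.negSucc (nat_lit 3537971038183373927)]]]]],[[[],[[[Int.negSucc (nat_lit 1780672104264040499)]]]]]],[[[[[],[[Int.ofNat (nat_lit 2045530046855020944)]]],[[],[[Int.ofNat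 (nat_lit 233829521265802368)]]]],[[],[[[Int.negSucc (nat_lit 3161397895799065631)]]]]],[[[[],[[Int.ofNat (nat_lit 2329059956033404452)]]]]]],[[[[],[[[Int.ofNat (nat_lit 2988759600365631480)]]]]]]],[[[[[[],[],[[Int.ofNat (nat_lit 795762240790467744)]]],[[[Int.negSucc (nat_lit 2734774525618990367)]]],[[[Int.ofNat (nat_lit 637361350786214688)]]]],[[[],[[Int.ofNat (nat_lit 5839150131239815464)]]]]],[[[],[[[Int.ofNat (nat_lit 3707536263672043644)]]]]]],[[[[[],[[Int.negSucc (nat_lit 3977485785013895255)]]]]]]],[[[[[],[[[Int.ofNat (nat_lit 893956779078588840)]]]]]]]],[[[[[[[],[[Int.negSucc (nat_lit 759471829750803815)]]],[[],[[Int.ofNat (nat_lit 182748026394154500)]]]],[[],[[[Int.negSucc (nat_lit 9875833814868126527)]]]]],[[[[],[[Int.ofNat (nat_lit 12350707760305115004)]]]]]],[[[[[[Int.negSucc (nat_lit 429639531745731407)]]],[[[Int.ofNat (nat_lit 13013663020982164920)]]]],[[[],[[Int.negSucc (nat_lit 3161598339565861535)]]]],[[[[Int.negSucc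 (nat_lit 1404734419464126239)]]]]],[[[[[Int.negSucc (nat_lit 1034202374414108303)]]],[[[Int.negSucc (nat_lit 1557594936811686719)]]]]],[[[[[Int.ofNat (nat_lit 1780672104264040500)]]]]]],[[[[[],[[Int.ofNat (nat_lit 4649793567092441376)]]]],[[[[Int.ofNat (nat_lit 3161397895799065632)]]]]]],[[[[[[Int.negSucc (nat_lit 2988759600365631479)]]]]]]],[[[[[[],[[Int.negSucc (nat_lit 5385526040595328199)]]]],[[[[Int.negSucc (nat_lit 730493335787573027)]]],[[[Int.negSucc (nat_lit 1264051075015906079)]]]]],[[[[],[[Int.ofNat (nat_lit 12006272018310288)]]]],[[[[Int.negSucc (nat_lit 3537971038183373927)]]]]]],[[[[[[Int.ofNat (nat_lit 4780304572474011312)]]],[[[Int.ofNat (nat_lit 5599601485435809732)]]]]],[[[[[Int.negSucc (nat_lit 1378476307638639191)]]]]]]],[[[[[[],[[Int.negSucc (nat_lit 2886773775602346959)]]]],[[[[Int.ofNat (nat_lit 5839150131239815464)]]]]]],[[[[[[Int.negSucc (nat_lit 4871442564092484095)]]]]]]]],[[[[[[[],[],[[Int.negSucc (nat_lit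 662798324115975971)]]],[[[Int.negSucc (nat_lit 3543320166357898511)]]],[[[Int.negSucc (nat_lit 552086459411551655)]]]],[[[],[[Int.ofNat (nat_lit 2578746008883260556)]]]]],[[[],[[[Int.ofNat (nat_lit 65358510401403756)]]]]]],[[[[[],[[Int.negSucc (nat_lit 23465103600854735)]]]],[[[[Int.ofNat (nat_lit 9875833814868126528)]]]]]],[[[[[[Int.negSucc (nat_lit 12679361691124946555)]]]]],[[[[[Int.ofNat (nat_lit 1943007221992990596)]]]]]]],[[[[[[[Int.negSucc (nat_lit 759471829750803815)]]],[[[Int.negSucc (nat_lit 2353396695310148243)]]]]],[[[[[Int.ofNat (nat_lit 12350707760305115004)]]]]]],[[[],[[[[Int.negSucc (nat_lit 2275797642018089435)]]]]]],[[[[[[Int.negSucc (nat_lit 1353339747863780675)]]]]]]],[[[[[[[Int.negSucc (nat_lit 4804899242354599727)]]]]],[[[[[Int.ofNat (nat_lit 67227059727584544)]]]]]]],[[[[[[[Int.negSucc (nat_lit 3682536016392814703)]]]]]]]],[[[[[[[],[[Int.negSucc (nat_lit 7610748018054637871)]]]]]],[[[[[[Int.ofNat (nat_lit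 3543320166357898512)]]],[[[Int.ofNat (nat_lit 757299185805769872)]]]]],[[[[[Int.negSucc (nat_lit 65358510401403755)]]]]]]],[[[[[[],[[Int.negSucc (nat_lit 2705943712422354251)]]]],[[[[Int.ofNat (nat_lit 2578746008883260556)]]]]]],[[[[[[Int.ofNat (nat_lit 2512679618103448008)]]]]]]]],[[[[[[],[[[Int.ofNat (nat_lit 2286301711007045304)]]]]]],[],[[[[[[Int.negSucc (nat_lit 205212726394218215)]]]]]]],[[[[[[[Int.negSucc (nat_lit 7610748018054637871)]]]]]]],[[[[[[[Int.negSucc (nat_lit 2043145388306378279)]]]]]]]],[[[],[[[[[[Int.negSucc (nat_lit 2286301711007045303)]]]]]]]]],[[[[[[[[],[],[[Int.negSucc (nat_lit 658389395465157683)]]],[[[Int.ofNat (nat_lit 3705158395740795516)]]],[[[Int.negSucc (nat_lit 378982413023505923)]]]],[[[],[[Int.ofNat (nat_lit 5588996787045422568)]]]]],[[[],[[[Int.ofNat (nat_lit 6357504944011339740)]]]]]],[[[[[],[[Int.negSucc (nat_lit 5228700526545189083)]]]],[[[[Int.negSucc (nat_lit 730493335787573027)]]],[[[Int.negSucc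 (nat_lit 2662976011613928119)]]]]],[[[[],[[Int.ofNat (nat_lit 193776931789021596)]]]],[[[[Int.negSucc (nat_lit 3537971038183373927)]]]]]],[[[[[[Int.ofNat (nat_lit 2045530046855020944)]]],[[[Int.ofNat (nat_lit 4232699268281776020)]]]]],[[[[[Int.ofNat (nat_lit 2329059956033404452)]]]]]]],[[[[[[[Int.ofNat (nat_lit 429639531745731408)]]],[[[Int.negSucc (nat_lit 7195037864772612995)]]]],[[[],[[Int.ofNat (nat_lit 513446332517908392)]]]],[[[[Int.ofNat (nat_lit 1404734419464126240)]]]]],[[[[[Int.ofNat (nat_lit 1034202374414108304)]]],[[[Int.negSucc (nat_lit 627326181852951119)]]]]],[[[[[Int.negSucc (nat_lit 1780672104264040499)]]]]]],[[[[[],[[Int.negSucc (nat_lit 680809872341025599)]]]],[[[[Int.ofNat (nat_lit 2677752235440749832)]]]]]],[[[[[[Int.negSucc (nat_lit 988726184648263775)]]]]]]],[[[[[[[Int.negSucc (nat_lit 2734774525618990367)]]],[[[Int.ofNat (nat_lit 505162667323337256)]]]]],[[[[[Int.ofNat (nat_lit 3707536263672043644)]]]]]]],[[[[[[[Int.ofNat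 (nat_lit 893956779078588840)]]]]]]]],[[[[[[[],[[Int.negSucc (nat_lit 17271353208605221187)]]],[[],[[Int.negSucc (nat_lit 284989910255911787)]]]],[[],[[[Int.negSucc (nat_lit 7074513346205963591)]]]]],[[[[],[[Int.ofNat (nat_lit 7472105363250043500)]]]]]],[[[[[[Int.negSucc (nat_lit 4464630225491599331)]]],[[[Int.ofNat (nat_lit 13578370802622220200)]]]]],[[[[[Int.ofNat (nat_lit 5993202816293775264)]]]]]],[[[],[[[[Int.negSucc (nat_lit 876872705420067395)]]]]]],[[[[[[Int.ofNat (nat_lit 650923820076467724)]]]]]]],[[[[[[],[[Int.ofNat (nat_lit 1105352579964129744)]]]],[[[[Int.negSucc (nat_lit 4286837027822703959)]]]]]],[[[[[[Int.ofNat (nat_lit 10087125255381280848)]]]]],[[[[[Int.negSucc (nat_lit 1384868546095462955)]]]]]]],[[[[],[[[[Int.negSucc (nat_lit 372354365029863707)]]]]]],[[[[[[Int.ofNat (nat_lit 976223868894791436)]]]]]]]],[[[[[[],[[[Int.negSucc (nat_lit 5134281952262983451)]]]]]],[[[[[],[[Int.ofNat (nat_lit 3370537610466050532)]]]],[[[[Int.ofNat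 (nat_lit 9653259355089224148)]]]]]],[[[[[[Int.negSucc (nat_lit 13040105466805414511)]]]]]]],[[[[[[[Int.negSucc (nat_lit 20814673374963119699)]]],[[[Int.negSucc (nat_lit 464008812394168487)]]]]],[[[[[Int.ofNat (nat_lit 7537463873651447256)]]]]]]],[[[[[[[Int.negSucc (nat_lit 772402746275015315)]]]]]]]],[[[[[[[],[[Int.negSucc (nat_lit 5022911821491340055)]]]]]],[[[[[[Int.negSucc (nat_lit 2476466065791654419)]]]]]]],[[],[[[[[[Int.ofNat (nat_lit 1822335715396571484)]]]]]]]],[[],[[[[[[[Int.negSucc (nat_lit 2736610110484294751)]]]]]]]]],[[[[[[[[],[],[[Int.negSucc (nat_lit 693183713198130059)]]],[[[Int.ofNat (nat_lit 2106676526385985032)]]],[[[Int.negSucc (nat_lit 746389743731984795)]]]],[[[],[[Int.ofNat (nat_lit 4743870703556911272)]]]]],[[[],[[[Int.ofNat (nat_lit 2465208663210441420)]]]]]],[[[[[],[[Int.negSucc (nat_lit 4363843936378409891)]]]],[[[[Int.ofNat (nat_lit 5588996787045422568)]]]]]],[[[[[[Int.negSucc (nat_lit 4648073728304460611)]]]]],[[[[[Int.ofNat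 (nat_lit 248997719498295852)]]]]]]],[[[[[[[Int.ofNat (nat_lit 3705158395740795516)]]],[[[Int.negSucc (nat_lit 357159460659685787)]]]]],[[[[[Int.ofNat (nat_lit 6357504944011339740)]]]]]],[[[],[[[[Int.negSucc (nat_lit 1771279301627885747)]]]]]],[[[[[[Int.ofNat (nat_lit 2522297633884480308)]]]]]]],[[[[[[[Int.negSucc (nat_lit 6860736534915394631)]]]]],[[[[[Int.negSucc (nat_lit 241913896671647243)]]]]]]],[[[[[[[Int.negSucc (nat_lit 132198683462877431)]]]]]]]],[[[[[[[],[[Int.negSucc (nat_lit 18470390434697317223)]]]]]],[[[[[[Int.negSucc (nat_lit 19378029734991206219)]]],[[[Int.ofNat (nat_lit 3039558344431448712)]]]]],[[[[[Int.ofNat (nat_lit 5006896700039602080)]]]]]]],[[[[[[],[[Int.negSucc (nat_lit 2151014075680620311)]]]],[[[[Int.negSucc (nat_lit 2330642642649052319)]]]]]],[[[[[[Int.ofNat (nat_lit 11053104845356774860)]]]]]]]],[[[[[[],[[[Int.negSucc (nat_lit 1100089250911249031)]]]]]],[],[[[[[[Int.ofNat (nat_lit 1455177423626650800)]]]]]]],[[[[[[[Int.negSucc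 (nat_lit 23604672386960300675)]]]]]]],[[[[[[[Int.negSucc (nat_lit 1084762805209195295)]]]]]]]],[[[],[[[[[[Int.negSucc (nat_lit 3922822570580091023)]]]]]]]]],[[[[[[[],[[[Int.ofNat (nat_lit 1015222941417295140)]]]]]],[[[[[],[[Int.ofNat (nat_lit 1205619287301562236)]]]],[[[[Int.ofNat (nat_lit 4743870703556911272)]]]]]],[[[[[[Int.negSucc (nat_lit 3705454540913252207)]]]]]]],[[[[[[[Int.ofNat (nat_lit 2106676526385985032)]]],[[[Int.negSucc (nat_lit 689576487470101019)]]]]],[[[[[Int.ofNat (nat_lit 2465208663210441420)]]]]]]],[[[[[[[Int.ofNat (nat_lit 21822952363820136)]]]]]]]],[[[[[[[],[[Int.negSucc (nat_lit 2581790245193440775)]]]]]],[[[[[[Int.negSucc (nat_lit 19485613376114612363)]]]]]]],[[],[[[[[[Int.ofNat (nat_lit 2962317892710693972)]]]]]]]],[[],[[[[[[[Int.negSucc (nat_lit 3681879496104689807)]]]]]]]]],[[[[[[[],[[[Int.ofNat (nat_lit 1626010781162436900)]]]]]],[],[[[[[[Int.ofNat (nat_lit 1898803000499692296)]]]]]]],[[[[[[[Int.ofNat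 (nat_lit 1015222941417295140)]]]]]]],[[[[[[[Int.ofNat (nat_lit 56813256261883776)]]]]]]]],[[[],[[[[[[Int.negSucc (nat_lit 4207801026355877675)]]]]]]]]],[[[],[[[[[[[Int.ofNat (nat_lit 1626010781162436900)]]]]]]]]]]

/-- A coefficient. -/
noncomputable def sr7_m5_0_1 : MP 10 :=
  [[[[[[[[[],[[Int.ofNat (nat_lit 1852034321694259644)]]],[[],[[Int.ofNat (nat_lit 1087549911861479772)]]]],[[],[[[Int.ofNat (nat_lit 7172271156258008496)]]]],[[[],[[Int.ofNat (nat_lit 1521713016938292000)]]]]],[[[[],[[Int.negSucc (nat_lit 6982098466159987163)]]]],[[],[[[Int.ofNat (nat_lit 1196718711913421868)]]]]],[[[[],[[Int.ofNat (nat_lit 88208902987461924)]]]]]],[[[[[],[],[[Int.ofNat (nat_lit 925866516328034700)]]],[[[Int.ofNat (nat_lit 5069987722381728768)]]],[[[Int.ofNat (nat_lit 888295908183554364)]]]],[[[],[[Int.ofNat (nat_lit 5342605962178405536)]]]]],[[[],[[[Int.ofNat (nat_lit 8651965046695865484)]]]]]],[[[[[],[[Int.negSucc (nat_lit 7865077663096969379)]]]]]]],[[[[[[],[[Int.negSucc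 (nat_lit 10159101869066971967)]]],[[],[[Int.ofNat (nat_lit 276799303981718064)]]]],[[],[[[Int.ofNat (nat_lit 8179006928019042312)]]]]],[[[[],[[Int.negSucc (nat_lit 4042738639869348407)]]]]]],[[[[],[[[Int.negSucc (nat_lit 24468048516586197071)]]]]]]],[[[[[[],[[Int.ofNat (nat_lit 12869873058416662968)]]]]]]]],[[[[[[[],[],[[Int.ofNat (nat_lit 2282923945540159548)]]],[[[Int.ofNat (nat_lit 19959576374870539548)]]],[[[Int.ofNat (nat_lit 1537426618222001832)]]]],[[[],[[Int.ofNat (nat_lit 7091683003279497852)]]]]],[[[],[[[Int.ofNat (nat_lit 10201359514188062412)]]]]]],[[[[[],[[Int.negSucc (nat_lit 19708213490995567787)]]]],[[[[Int.negSucc (nat_lit 7172271156258008495)]]]]],[[],[[[[Int.negSucc (nat_lit 1196718711913421867)]]]]]],[[[[[[Int.negSucc (nat_lit 5069987722381728767)]]],[[[Int.ofNat (nat_lit 3303713434400203068)]]]]],[[[[[Int.negSucc (nat_lit 8651965046695865483)]]]]]]],[[[[[[[Int.ofNat (nat_lit 1852034321694259644)]]],[[[Int.negSucc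 (nat_lit 35063846059769144723)]]]],[],[[[[Int.ofNat (nat_lit 1521713016938292000)]]]]],[[[[[Int.negSucc (nat_lit 6982098466159987163)]]]]],[[[[[Int.ofNat (nat_lit 88208902987461924)]]]]]],[[[[[],[[Int.negSucc (nat_lit 3031328940954407411)]]]],[[[[Int.negSucc (nat_lit 2836400965840636775)]]]]]],[[[[[[Int.ofNat (nat_lit 16602970853489227692)]]]]]]],[[[[[[[Int.negSucc (nat_lit 10159101869066971967)]]],[[[Int.negSucc (nat_lit 155504935190001527)]]]]],[[[[[Int.negSucc (nat_lit 4042738639869348407)]]]]]]],[[[[[[[Int.ofNat (nat_lit 12869873058416662968)]]]]]]]],[[[[[[[],[[Int.ofNat (nat_lit 29928442944331324236)]]]],[[],[[[Int.ofNat (nat_lit 1347968728082045604)]]]]],[[[[],[[Int.negSucc (nat_lit 2410163142860199167)]]]]]],[[[[[[Int.negSucc (nat_lit 19959576374870539547)]]],[[[Int.negSucc (nat_lit 6943697411117538467)]]]]],[[[[[Int.negSucc (nat_lit 10201359514188062411)]]]]]],[],[[[[[[Int.negSucc (nat_lit 4192009342583757431)]]]]]]],[[[[[[],[[Int.ofNat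 (nat_lit 3850360822805742612)]]]],[[[[Int.ofNat (nat_lit 7091683003279497852)]]]]]],[[[[[[Int.ofNat (nat_lit 16443182480635056708)]]]]]]],[[],[[[[[[Int.negSucc (nat_lit 3524891218110722519)]]]]]]]],[[[[[[],[[[Int.negSucc (nat_lit 13892482623675234983)]]]]]],[[[],[[[[Int.negSucc (nat_lit 1347968728082045603)]]]]]],[[[[[[Int.ofNat (nat_lit 5406270792895536636)]]]]]]],[[[[[[[Int.ofNat (nat_lit 29928442944331324236)]]]]],[[[[[Int.negSucc (nat_lit 2410163142860199167)]]]]]]],[[[[[[[Int.ofNat (nat_lit 1567436877265583064)]]]]]]]],[[[[[[[],[[Int.ofNat (nat_lit 3289661504624964036)]]]]]],[[[[[[Int.ofNat (nat_lit 13892482623675234984)]]]]]]]],[[],[[[[[[[Int.ofNat (nat_lit 3289661504624964036)]]]]]]]]],[[[[[[[[],[[Int.negSucc (nat_lit 4742738601106945379)]]],[[],[[Int.ofNat (nat_lit 1427961838394116116)]]]],[[],[[[Int.ofNat (nat_lit 11106683461303724472)]]]]],[[[[],[[Int.negSucc (nat_lit 11452435837819046411)]]]]]],[[[[[[Int.ofNat (nat_lit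 1852034321694259644)]]],[[[Int.negSucc (nat_lit 8362712027154580571)]]]],[],[[[[Int.ofNat (nat_lit 1521713016938292000)]]]]],[[[[[Int.negSucc (nat_lit 6982098466159987163)]]]]],[[[[[Int.ofNat (nat_lit 88208902987461924)]]]]]],[[[[[],[[Int.negSucc (nat_lit 5041626170300704199)]]]],[[[[Int.ofNat (nat_lit 5342605962178405536)]]]]]],[[[[[[Int.negSucc (nat_lit 7865077663096969379)]]]]]]],[[[[[[],[[Int.negSucc (nat_lit 129865272528492011)]]]],[[[[Int.ofNat (nat_lit 7172271156258008496)]]]]],[[],[[[[Int.ofNat (nat_lit 1196718711913421868)]]]]]],[[[[[[Int.negSucc (nat_lit 5089114146685243199)]]],[[[Int.negSucc (nat_lit 5734279671985529123)]]]]],[[[[[Int.ofNat (nat_lit 4609226406826517076)]]]]]]],[[[[[[],[[Int.ofNat (nat_lit 2926094749064304816)]]]],[[[[Int.ofNat (nat_lit 8179006928019042312)]]]]]],[[[[[[Int.negSucc (nat_lit 11598175458169534103)]]]]]]]],[[[[[[],[[[Int.ofNat (nat_lit 12152511001862748996)]]]],[[[],[[Int.ofNat (nat_lit 2616934078138285476)]]]]],[[[],[[[Int.ofNat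 (nat_lit 2502086394405403428)]]]]]],[[[[[],[[Int.negSucc (nat_lit 27383221182938108927)]]]],[[[[Int.negSucc (nat_lit 4015000458024226619)]]]]]],[[[[[[Int.negSucc (nat_lit 10257951551979507443)]]]]]]],[[[[[[[Int.ofNat (nat_lit 15216837773763594168)]]],[[[Int.negSucc (nat_lit 21095919831122793695)]]]]],[[[[[Int.negSucc (nat_lit 1251076323630983999)]]]]]],[],[[[[[[Int.ofNat (nat_lit 1166696082823377972)]]]]]]],[[[[[[[Int.negSucc (nat_lit 36281261244159116507)]]]]]]],[[[[[[[Int.ofNat (nat_lit 2493790509892585224)]]]]]]]],[[[[[[[],[[Int.ofNat (nat_lit 48814588091455128312)]]]]]],[[[[[[Int.ofNat (nat_lit 17775931942468575240)]]]]],[[[[[Int.negSucc (nat_lit 4912249537265602595)]]]]]]],[[[[],[[[[Int.ofNat (nat_lit 3964902806220331080)]]]]]],[[[[[[Int.negSucc (nat_lit 9443670756369310403)]]]]]]]],[[[[[[],[[[Int.negSucc (nat_lit 1437640993408066223)]]]]]]],[[[[[[[Int.ofNat (nat_lit 34922105467779893328)]]]]]]]],[[[],[[[[[[Int.ofNat (nat_lit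 4727302498033030260)]]]]]]]]],[[[[[[[[],[[Int.negSucc (nat_lit 10940837779942733171)]]]],[[],[[[Int.ofNat (nat_lit 784663261011533892)]]]]],[[[[],[[Int.ofNat (nat_lit 725365843560117768)]]]]]],[[[[[[Int.negSucc (nat_lit 4742738601106945379)]]],[[[Int.negSucc (nat_lit 16941573731819344295)]]]]],[[[[[Int.negSucc (nat_lit 11452435837819046411)]]]]]],[],[[[[[[Int.negSucc (nat_lit 5967492686628738899)]]]]]]],[[[[[[],[[Int.ofNat (nat_lit 7179341677845300336)]]]],[[[[Int.ofNat (nat_lit 11106683461303724472)]]]]]],[[[[[[Int.negSucc (nat_lit 9580127211544552355)]]]]]]],[[],[[[[[[Int.negSucc (nat_lit 3973280135086496735)]]]]]]]],[[[[[[],[[[Int.negSucc (nat_lit 2569270243629938411)]]]]]],[[[],[[[[Int.ofNat (nat_lit 1832270817126751584)]]]]]],[[[[[[Int.negSucc (nat_lit 11296609558264808063)]]]]]]],[[[[[[[Int.ofNat (nat_lit 1211673221920015824)]]]]],[[[[[Int.ofNat (nat_lit 3227452237965521196)]]]]]]],[[[[[[[Int.negSucc (nat_lit 16881966609893611307)]]]]]]]],[[[[[[[],[[Int.ofNat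 (nat_lit 6536322567984611952)]]]]]],[[[[[[Int.ofNat (nat_lit 51383858335085066724)]]]]]]]],[[],[[[[[[[Int.ofNat (nat_lit 5098681574576545728)]]]]]]]]],[[[[[[[[],[[Int.negSucc (nat_lit 6525139345924641995)]]]]]],[[[[[[Int.negSucc (nat_lit 10940837779942733171)]]]]],[[[[[Int.ofNat (nat_lit 725365843560117768)]]]]]]],[[[[],[[[[Int.ofNat (nat_lit 784663261011533892)]]]]]],[[[[[[Int.negSucc (nat_lit 11190193892368160075)]]]]]]]],[[[[[[],[[[Int.negSucc (nat_lit 3278570021238911459)]]]]]]],[[[[[[[Int.negSucc (nat_lit 9094409589554580407)]]]]]]]],[[[],[[[[[[Int.ofNat (nat_lit 9814892589223523412)]]]]]]]]],[[[[[[[[],[[Int.ofNat (nat_lit 681967655396120724)]]]]]],[[[[[[Int.negSucc (nat_lit 6525139345924641995)]]]]]]]],[[],[[[[[[[Int.negSucc (nat_lit 2596602365842790735)]]]]]]]]],[[[[],[[[[[[Int.ofNat (nat_lit 681967655396120724)]]]]]]]]]]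

/-- A coefficient. -/
noncomputable def sr7_m5_0_2 : MP 10 :=
  [[[[[[[[[],[],[[Int.negSucc (nat_lit 3166208900650475195)]]],[[[Int.negSucc (nat_lit 32257264762231128923)]]],[[[Int.negSucc (nat_lit 2149207080781550675)]]]],[[[],[[Int.negSucc (nat_lit 10913848882020087935)]]]]],[[[],[[[Int.negSucc (nat_lit 13344815421627287615)]]]]]],[[[[[],[[Int.ofNat (nat_lit 68092447028526246036)]]]],[[],[[[Int.negSucc (nat_lit 9357228024622844795)]]]]],[[[[],[[Int.ofNat (nat_lit 10065534625492497924)]]]]]],[[[[],[[[Int.ofNat (nat_lit 704788034022385980)]]]]]]],[[[[[],[[[Int.ofNat (nat_lit 87100390282725013752)]]]],[[[],[[Int.ofNat (nat_lit 4068958158710626284)]]]]],[[[],[[[Int.ofNat (nat_lit 5214985420939993896)]]]]]],[[[[[],[[Int.negSucc (nat_lit 1435950524364749975)]]]]]]],[[[[[],[[[Int.negSucc (nat_lit 6822142560273333431)]]]]]]]],[[[[[[[],[[Int.negSucc (nat_lit 70535008844879321807)]]],[[],[[Int.ofNat (nat_lit 876781032134762772)]]]],[[],[[[Int.ofNat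 (nat_lit 16459402559558965032)]]]]],[[[[],[[Int.negSucc (nat_lit 11981406268660645151)]]]]]],[[[[[[Int.ofNat (nat_lit 32257264762231128924)]]],[[[Int.negSucc (nat_lit 37192369663133433839)]]]]],[[[[[Int.ofNat (nat_lit 13344815421627287616)]]]]]],[[[],[[[[Int.ofNat (nat_lit 9357228024622844796)]]]]]],[[[[[[Int.negSucc (nat_lit 704788034022385979)]]]]]]],[[[[[[],[[Int.ofNat (nat_lit 67459589364995236968)]]]],[[[[Int.negSucc (nat_lit 10913848882020087935)]]]]]],[[[[[[Int.negSucc (nat_lit 19007943254198767715)]]]]],[[[[[Int.ofNat (nat_lit 4850549204552504028)]]]]]]],[[[[],[[[[Int.ofNat (nat_lit 4068958158710626284)]]]]]],[[[[[[Int.ofNat (nat_lit 5386192035908583456)]]]]]]]],[[[[[[],[[[Int.ofNat (nat_lit 30317172365236467840)]]]]]],[[[[[],[[Int.negSucc (nat_lit 22463043263785392599)]]]],[[[[Int.negSucc (nat_lit 16459402559558965031)]]]]]],[[[[[[Int.ofNat (nat_lit 39341576743914984516)]]]]]]],[[[[[[[Int.negSucc (nat_lit 70535008844879321807)]]],[[[Int.negSucc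 (nat_lit 7008576137463040403)]]]]],[[[[[Int.negSucc (nat_lit 11981406268660645151)]]]]]]],[[[[[[[Int.ofNat (nat_lit 70625798265645712164)]]]]]]]],[[[[[[[],[[Int.ofNat (nat_lit 10217450458394177796)]]]]]],[[[[[[Int.negSucc (nat_lit 30317172365236467839)]]]]]]],[[],[[[[[[Int.negSucc (nat_lit 14577686094187589423)]]]]]]]],[[],[[[[[[[Int.ofNat (nat_lit 10217450458394177796)]]]]]]]]],[[[[[[[[],[],[[Int.negSucc (nat_lit 712441312555460267)]]],[[[Int.negSucc (nat_lit 35902019441511286187)]]],[[[Int.negSucc (nat_lit 910797533518843787)]]]],[[[],[[Int.negSucc (nat_lit 9435615154681938443)]]]]],[[[],[[[Int.negSucc (nat_lit 11635314448680590327)]]]]]],[[[[[],[[Int.ofNat (nat_lit 74809184006826744312)]]]],[[[[Int.negSucc (nat_lit 10913848882020087935)]]]]]],[[[[[[Int.ofNat (nat_lit 68092447028526246036)]]]]],[[[[[Int.ofNat (nat_lit 10065534625492497924)]]]]]]],[[[[[[[Int.negSucc (nat_lit 32257264762231128923)]]],[[[Int.ofNat (nat_lit 85308523808004410772)]]]]],[[[[[Int.negSucc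 (nat_lit 13344815421627287615)]]]]]],[[[],[[[[Int.negSucc (nat_lit 5288269865912218511)]]]]]],[[[[[[Int.negSucc (nat_lit 731162490342363995)]]]]]]],[[[[[[[Int.ofNat (nat_lit 87100390282725013752)]]]]],[[[[[Int.ofNat (nat_lit 5214985420939993896)]]]]]]],[[[[[[[Int.negSucc (nat_lit 6822142560273333431)]]]]]]]],[[[[[[[],[[Int.negSucc (nat_lit 82037371032729420731)]]]]]],[[[[[[Int.negSucc (nat_lit 34632989403368035619)]]],[[[Int.negSucc (nat_lit 25547700842553803843)]]]]],[[[[[Int.negSucc (nat_lit 346091819980054823)]]]]]]],[[[[[[],[[Int.ofNat (nat_lit 13127348384214701508)]]]],[[[[Int.ofNat (nat_lit 7023787404877026588)]]]]]],[[[[[[Int.ofNat (nat_lit 21801883540421985708)]]]]]]]],[[[[[[],[[[Int.ofNat (nat_lit 35285085659879140956)]]]]]],[],[[[[[[Int.ofNat (nat_lit 4872236144422017804)]]]]]]],[[[[[[[Int.negSucc (nat_lit 51720198667492952891)]]]]]]],[[[[[[[Int.ofNat (nat_lit 5954432527172358600)]]]]]]]],[[[],[[[[[[Int.negSucc (nat_lit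 25067635201484963159)]]]]]]]]],[[[[[[[],[[[Int.ofNat (nat_lit 1171888309410739032)]]]]]],[[[[[],[[Int.ofNat (nat_lit 4778441396655938736)]]]],[[[[Int.negSucc (nat_lit 9435615154681938443)]]]]]],[[[[[[Int.ofNat (nat_lit 77975392907477219508)]]]]]]],[[[[[[[Int.negSucc (nat_lit 35902019441511286187)]]],[[[Int.negSucc (nat_lit 1184800779469452791)]]]]],[[[[[Int.negSucc (nat_lit 11635314448680590327)]]]]]]],[[[[[[[Int.ofNat (nat_lit 87457730888785961448)]]]]]]]],[[[[[[[],[[Int.ofNat (nat_lit 423859674455313480)]]]]]],[[[[[[Int.negSucc (nat_lit 83209259342140159763)]]]]]]],[[],[[[[[[Int.negSucc (nat_lit 7730603756275240619)]]]]]]]],[[],[[[[[[[Int.ofNat (nat_lit 35708945334334454436)]]]]]]]]],[[[[[[[],[[[Int.ofNat (nat_lit 7096582202200883784)]]]]]],[],[[[[[[Int.ofNat (nat_lit 5490882709211399004)]]]]]]],[[[[[[[Int.ofNat (nat_lit 1171888309410739032)]]]]]]],[[[[[[[Int.negSucc (nat_lit 274003245950609003)]]]]]]]],[[[],[[[[[[Int.negSucc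 (nat_lit 6672722527745570303)]]]]]]]]],[[[],[[[[[[[Int.ofNat (nat_lit 7096582202200883784)]]]]]]]]]]

/-- A coefficient. -/
noncomputable def sr7_m5_0_3 : MP 10 :=
  [[[[[[[[[],[[Int.ofNat (nat_lit 44090656716096403056)]]],[[],[[Int.negSucc (nat_lit 1823037717154314911)]]]],[[],[[[Int.negSucc (nat_lit 30239960773562372411)]]]]],[[[[],[[Int.ofNat (nat_lit 23987370416208722592)]]]]]],[[[[],[[[Int.ofNat (nat_lit 41939773312146088056)]]]]]],[[[[[],[[Int.negSucc (nat_lit 2229751530186120659)]]]]]]],[[[[[[],[[Int.negSucc (nat_lit 97001801119508479091)]]]]]],[[[[],[[[Int.negSucc (nat_lit 1900930760368711403)]]]]]]],[[[[[[],[[Int.negSucc (nat_lit 3392534781400056503)]]]]]]]],[[[[[[],[[[Int.ofNat (nat_lit 40961664018828306000)]]]],[[[],[[Int.ofNat (nat_lit 15510405049025064960)]]]]],[[[],[[[Int.ofNat (nat_lit 12003761834453637276)]]]]]],[[[[[],[[Int.ofNat (nat_lit 42600483491101852800)]]]],[[[[Int.ofNat (nat_lit 30239960773562372412)]]]]]],[[[[[[Int.negSucc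 (nat_lit 41939773312146088055)]]]]]]],[[[[[[[Int.ofNat (nat_lit 44090656716096403056)]]],[[[Int.ofNat (nat_lit 35070918531667132476)]]]]],[[[[[Int.ofNat (nat_lit 23987370416208722592)]]]]]],[],[[[[[[Int.negSucc (nat_lit 328820769817409255)]]]]]]],[[[[[[[Int.negSucc (nat_lit 97001801119508479091)]]]]]]],[[[[[[[Int.negSucc (nat_lit 3392534781400056503)]]]]]]]],[[[[[[[],[[Int.ofNat (nat_lit 3437011529559807216)]]]]]],[[[[[[Int.negSucc (nat_lit 40961664018828305999)]]]]],[[[[[Int.negSucc (nat_lit 12003761834453637275)]]]]]]],[[[[],[[[[Int.ofNat (nat_lit 15510405049025064960)]]]]]],[[[[[[Int.ofNat (nat_lit 5706527242280405412)]]]]]]]],[[[[[[],[[[Int.ofNat (nat_lit 7671184108430904000)]]]]]]],[[[[[[[Int.ofNat (nat_lit 3437011529559807216)]]]]]]]],[[[],[[[[[[Int.negSucc (nat_lit 7671184108430903999)]]]]]]]]],[[[[[[[[],[[Int.ofNat (nat_lit 30197675443707643656)]]]],[[],[[[Int.ofNat (nat_lit 3659582990662592424)]]]]],[[[[],[[Int.ofNat (nat_lit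 1780267494643523628)]]]]]],[[[[[[Int.ofNat (nat_lit 44090656716096403056)]]],[[[Int.ofNat (nat_lit 10836329760642067932)]]]]],[[[[[Int.ofNat (nat_lit 23987370416208722592)]]]]]],[],[[[[[[Int.negSucc (nat_lit 2229751530186120659)]]]]]]],[[[[[[],[[Int.negSucc (nat_lit 39116713308558421211)]]]],[[[[Int.negSucc (nat_lit 30239960773562372411)]]]]]],[[[[[[Int.negSucc (nat_lit 55062027807362391035)]]]]]]],[[],[[[[[[Int.negSucc (nat_lit 5293465541768767907)]]]]]]]],[[[[[[],[[[Int.negSucc (nat_lit 14543540005634223179)]]]]]],[[[],[[[[Int.ofNat (nat_lit 11850822058362472536)]]]]]],[[[[[[Int.ofNat (nat_lit 29941116013305469956)]]]]]]],[[[[[[[Int.ofNat (nat_lit 71159339462535949656)]]]]],[[[[[Int.ofNat (nat_lit 13784029329097160904)]]]]]]],[[[[[[[Int.negSucc (nat_lit 2222757059736973823)]]]]]]]],[[[[[[[],[[Int.ofNat (nat_lit 14002544134529684712)]]]]]],[[[[[[Int.ofNat (nat_lit 17980551535194030396)]]]]]]]],[[],[[[[[[[Int.ofNat (nat_lit 21673728242960588712)]]]]]]]]],[[[[[[[[],[[Int.negSucc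 (nat_lit 18512196458558543447)]]]]]],[[[[[[Int.ofNat (nat_lit 30197675443707643656)]]]]],[[[[[Int.ofNat (nat_lit 1780267494643523628)]]]]]]],[[[[],[[[[Int.ofNat (nat_lit 3659582990662592424)]]]]]],[[[[[[Int.negSucc (nat_lit 26457345830762038367)]]]]]]]],[[[[[[],[[[Int.ofNat (nat_lit 5722439205487203000)]]]]]]],[[[[[[[Int.negSucc (nat_lit 33055736464192766627)]]]]]]]],[[[],[[[[[[Int.ofNat (nat_lit 8280104929042481712)]]]]]]]]],[[[[[[[[],[[Int.ofNat (nat_lit 61717982379251400)]]]]]],[[[[[[Int.negSucc (nat_lit 18512196458558543447)]]]]]]]],[[],[[[[[[[Int.ofNat (nat_lit 5784157187866454400)]]]]]]]]],[[[[],[[[[[[Int.ofNat (nat_lit 61717982379251400)]]]]]]]]]]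

/-- A coefficient. -/
noncomputable def sr7_m5_0_4 : MP 10 :=
  [[[[[[[[[],[],[[Int.negSucc (nat_lit 1733631813591351059)]]],[[[Int.negSucc (nat_lit 104281549125607612643)]]],[[[Int.negSucc (nat_lit 1341072744223418783)]]]],[[[],[[Int.negSucc (nat_lit 13800076154683976663)]]]]],[[[],[[[Int.negSucc (nat_lit 9154511031220509347)]]]]]],[[[[[],[[Int.negSucc (nat_lit 44085288852113607983)]]]]]]],[[[[[],[[[Int.negSucc (nat_lit 46968963398416911563)]]]]]]]],[[[[[[[],[[Int.negSucc (nat_lit 128157836658327923579)]]]]]],[[[[[[Int.ofNat (nat_lit 104281549125607612644)]]],[[[Int.negSucc (nat_lit 19402054023242010359)]]]]],[[[[[Int.ofNat (nat_lit 9154511031220509348)]]]]]]],[[[[[[],[[Int.negSucc (nat_lit 3070021119578493119)]]]],[[[[Int.negSucc (nat_lit 13800076154683976663)]]]]]],[[[[[[Int.ofNat (nat_lit 2883674546303303580)]]]]]]]],[[[[[[],[[[Int.ofNat (nat_lit 10368334043157829236)]]]]]],[],[[[[[[Int.ofNat (nat_lit 20743126767465429144)]]]]]]],[[[[[[[Int.negSucc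 (nat_lit 128157836658327923579)]]]]]]],[[[[[[[Int.negSucc (nat_lit 1336389305987142059)]]]]]]]],[[[],[[[[[[Int.negSucc (nat_lit 10368334043157829235)]]]]]]]]],[[[[[[[],[[[Int.negSucc (nat_lit 40985260051806393287)]]]]]],[[[[[],[[Int.negSucc (nat_lit 1694697550459170539)]]]],[[[[Int.negSucc (nat_lit 13800076154683976663)]]]]]],[[[[[[Int.negSucc (nat_lit 44085288852113607983)]]]]]]],[[[[[[[Int.negSucc (nat_lit 104281549125607612643)]]],[[[Int.negSucc (nat_lit 5811637598144681675)]]]]],[[[[[Int.negSucc (nat_lit 9154511031220509347)]]]]]]],[[[[[[[Int.negSucc (nat_lit 46968963398416911563)]]]]]]]],[[[[[[[],[[Int.negSucc (nat_lit 10363451193767399171)]]]]]],[[[[[[Int.negSucc (nat_lit 87172576606521530291)]]]]]]],[[],[[[[[[Int.negSucc (nat_lit 17570016956399127791)]]]]]]]],[[],[[[[[[[Int.ofNat (nat_lit 4882849390430064)]]]]]]]]],[[[[[[[],[[[Int.ofNat (nat_lit 13528195945181088372)]]]]]],[],[[[[[[Int.ofNat (nat_lit 38934263132180520)]]]]]]],[[[[[[[Int.negSucc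 (nat_lit 40985260051806393287)]]]]]]],[[[[[[[Int.negSucc (nat_lit 4470564853921262891)]]]]]]]],[[[],[[[[[[Int.negSucc (nat_lit 23891647138948487543)]]]]]]]]],[[[],[[[[[[[Int.ofNat (nat_lit 13528195945181088372)]]]]]]]]]]

/-- A coefficient. -/
noncomputable def sr7_m5_0_5 : MP 10 :=
  [[[[[[[[[],[[Int.ofNat (nat_lit 152990948492673075300)]]]],[[],[[[Int.ofNat (nat_lit 22473166608417030336)]]]]],[[[[],[[Int.negSucc (nat_lit 17080177304702176247)]]]]]],[[[[],[[[Int.negSucc (nat_lit 4553081690673119891)]]]]]]],[[[[[[],[[Int.ofNat (nat_lit 43139098557649580184)]]]]]]]],[[[[[[],[[[Int.negSucc (nat_lit 103826325455192699735)]]]]]],[[[],[[[[Int.negSucc (nat_lit 22473166608417030335)]]]]]],[[[[[[Int.ofNat (nat_lit 4553081690673119892)]]]]]]],[[[[[[[Int.ofNat (nat_lit 152990948492673075300)]]]]],[[[[[Int.negSucc (nat_lit 17080177304702176247)]]]]]]],[[[[[[[Int.ofNat (nat_lit 43139098557649580184)]]]]]]]],[[[[[[[],[[Int.ofNat (nat_lit 19232908162865592504)]]]]]],[[[[[[Int.ofNat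 (nat_lit 103826325455192699736)]]]]]]]],[[],[[[[[[[Int.ofNat (nat_lit 19232908162865592504)]]]]]]]]],[[[[[[[[],[[Int.ofNat (nat_lit 46440603991455297036)]]]]]],[[[[[[Int.ofNat (nat_lit 152990948492673075300)]]]]],[[[[[Int.negSucc (nat_lit 17080177304702176247)]]]]]]],[[[[],[[[[Int.ofNat (nat_lit 22473166608417030336)]]]]]],[[[[[[Int.ofNat (nat_lit 38586016866976460292)]]]]]]]],[[[[[[],[[[Int.ofNat (nat_lit 41587889781638574912)]]]]]]],[[[[[[[Int.negSucc (nat_lit 57385721463737402699)]]]]]]]],[[[],[[[[[[Int.negSucc (nat_lit 22354981618772982407)]]]]]]]]],[[[[[[[[],[[Int.ofNat (nat_lit 3463375975972176648)]]]]]],[[[[[[Int.ofNat (nat_lit 46440603991455297036)]]]]]]]],[[],[[[[[[[Int.ofNat (nat_lit 45051265757610751560)]]]]]]]]],[[[[],[[[[[[Int.ofNat (nat_lit 3463375975972176648)]]]]]]]]]]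

/-- A coefficient. -/
noncomputable def sr7_m5_0_6 : MP 10 :=
  [[[[[[[[],[[[Int.ofNat (nat_lit 136513841331614545068)]]]]]],[[[[[],[[Int.ofNat (nat_lit 15268016110909840128)]]]]]]],[[[[[],[[[Int.ofNat (nat_lit 15968989541101700916)]]]]]]]],[[[[[[[],[[Int.ofNat (nat_lit 39652340408975670744)]]]]]],[[[[[[Int.negSucc (nat_lit 136513841331614545067)]]]]]]],[[],[[[[[[Int.negSucc (nat_lit 700973430191860787)]]]]]]]],[[],[[[[[[[Int.ofNat (nat_lit 39652340408975670744)]]]]]]]]],[[[[[[[],[[[Int.ofNat (nat_lit 5874974972951825940)]]]]]],[],[[[[[[Int.ofNat (nat_lit 15268016110909840128)]]]]]]],[[[[[[[Int.ofNat (nat_lit 136513841331614545068)]]]]]]],[[[[[[[Int.ofNat (nat_lit 15968989541101700916)]]]]]]]],[[[],[[[[[[Int.ofNat (nat_lit 33777365436023844804)]]]]]]]]],[[[],[[[[[[[Int.ofNat (nat_lit 5874974972951825940)]]]]]]]]]]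

/-- A coefficient. -/
noncomputable def sr7_m5_0_7 : MP 10 :=
  [[[[[[[[[],[[Int.negSucc (nat_lit 58667442518322097535)]]]]]]]],[[[[[[],[[[Int.ofNat (nat_lit 52497924901678317720)]]]]]]],[[[[[[[Int.negSucc (nat_lit 58667442518322097535)]]]]]]]],[[[],[[[[[[Int.negSucc (nat_lit 52497924901678317719)]]]]]]]]],[[[[[[[[],[[Int.negSucc (nat_lit 14580082797666134891)]]]]]],[[[[[[Int.negSucc (nat_lit 58667442518322097535)]]]]]]]],[[],[[[[[[[Int.ofNat (nat_lit 37917842104012182828)]]]]]]]]],[[[[],[[[[[[Int.negSucc (nat_lit 14580082797666134891)]]]]]]]]]]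

/-- A coefficient. -/
noncomputable def sr7_m5_0_8 : MP 10 :=
  [[[[[[[[],[[[Int.negSucc (nat_lit 67712926850504679971)]]]]]]]],[[[],[[[[[[Int.ofNat (nat_lit 67712926850504679972)]]]]]]]]],[[[],[[[[[[[Int.negSucc (nat_lit 67712926850504679971)]]]]]]]]]]

/-- A coefficient. -/
noncomputable def sr7_m5_0_9 : MP 10 :=
  [[[[[[[[[],[[Int.ofNat (nat_lit 2516800138462066320)]]]]]]]],[[],[[[[[[[Int.ofNat (nat_lit 2516800138462066320)]]]]]]]]],[[[[],[[[[[[Int.ofNat (nat_lit 2516800138462066320)]]]]]]]]]]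

/-- A coefficient. -/
noncomputable def sr7_m5_1_0 : MP 10 :=
  [[[[[[[[[],[],[[Int.ofNat (nat_lit 3685362300757966872)]]],[[[Int.ofNat (nat_lit 14851642460849160816)]]],[[[Int.ofNat (nat_lit 1843102195592908764)]]]],[[[],[[Int.negSucc (nat_lit 2820962393187764003)]]]],[[],[[[Int.negSucc (nat_lit 2728664293314729287)]]]]],[[[],[[[Int.negSucc (nat_lit 2239170825320405831)]]]],[[[],[[Int.ofNat (nat_lit 8936692503282586176)]]]]],[[[],[[[Int.ofNat (nat_lit 5075510096593066860)]]]]]],[[[[[],[[Int.negSucc (nat_lit 17038630000426697795)]]],[[],[[Int.negSucc (nat_lit 166187078900312831)]]]],[[],[[[Int.ofNat (nat_lit 6796670781148251372)]]]]],[[[[],[[Int.negSucc (nat_lit 9479614133703040883)]]]]]],[[[[],[[[Int.negSucc (nat_lit 6707329881687120263)]]]]]]],[[[[[[],[],[[Int.negSucc (nat_lit 1363065686813017955)]]],[[[Int.negSucc (nat_lit 1843418927564320247)]]],[[[Int.negSucc (nat_lit 868223127236000987)]]]],[[[],[[Int.negSucc (nat_lit 18203196925961480879)]]]]],[[[],[[[Int.negSucc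 (nat_lit 14583078759888478427)]]]]]],[[[[[],[[Int.ofNat (nat_lit 16914860964762955344)]]]]]]],[[[[[],[[[Int.negSucc (nat_lit 309997827895250171)]]]]]]]],[[[[[[[],[[Int.ofNat (nat_lit 41448319960052972856)]]],[[],[[Int.negSucc (nat_lit 2037016458362108675)]]]],[[],[[[Int.ofNat (nat_lit 32725764748703851428)]]]]],[[[[],[[Int.negSucc (nat_lit 43578021350899947911)]]]]]],[[[[[[Int.negSucc (nat_lit 14851642460849160815)]]],[[[Int.negSucc (nat_lit 58329490132142100455)]]]],[],[[[[Int.ofNat (nat_lit 2728664293314729288)]]]]],[[[[[Int.ofNat (nat_lit 2239170825320405832)]]]]],[[[[[Int.negSucc (nat_lit 5075510096593066859)]]]]]],[[[[[],[[Int.negSucc (nat_lit 4006653512253051311)]]]],[[[[Int.negSucc (nat_lit 6796670781148251371)]]]]]],[[[[[[Int.ofNat (nat_lit 6707329881687120264)]]]]]]],[[[[[[],[[Int.ofNat (nat_lit 31234724427146459580)]]]],[[[[Int.negSucc (nat_lit 2820962393187764003)]]]]],[[],[[[[Int.ofNat (nat_lit 8936692503282586176)]]]]]],[[[[[[Int.negSucc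 (nat_lit 15195211072862377547)]]],[[[Int.negSucc (nat_lit 4768146014916992015)]]]]],[[[[[Int.ofNat (nat_lit 5103464626185437544)]]]]]]],[[[[[[],[[Int.ofNat (nat_lit 2313812843587029624)]]]],[[[[Int.negSucc (nat_lit 18203196925961480879)]]]]]],[[[[[[Int.ofNat (nat_lit 17224858792658205516)]]]]]]]],[[[[[[],[[[Int.negSucc (nat_lit 25612958659649243027)]]]],[[[],[[Int.negSucc (nat_lit 6001847709528152315)]]]]],[[[],[[[Int.negSucc (nat_lit 2943805114059119879)]]]]]],[[[[[],[[Int.ofNat (nat_lit 4033914692632629420)]]]],[[[[Int.negSucc (nat_lit 32725764748703851427)]]]]]],[[[[[[Int.ofNat (nat_lit 56486387936549191692)]]]]]]],[[[[[[[Int.ofNat (nat_lit 41448319960052972856)]]],[[[Int.ofNat (nat_lit 11770261486447813872)]]]]],[[[[[Int.negSucc (nat_lit 43578021350899947911)]]]]]],[],[[[[[[Int.ofNat (nat_lit 1463528550999628860)]]]]]]],[[[[[[[Int.ofNat (nat_lit 27549362126388492708)]]]]]]],[[[[[[[Int.ofNat (nat_lit 3676878530400047580)]]]]]]]],[[[[[[[],[[Int.ofNat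 (nat_lit 21289969687386588312)]]]]]],[[[[[[Int.ofNat (nat_lit 25612958659649243028)]]]]],[[[[[Int.ofNat (nat_lit 2943805114059119880)]]]]]]],[[[[],[[[[Int.negSucc (nat_lit 6001847709528152315)]]]]]],[[[[[[Int.negSucc (nat_lit 9773363252177293127)]]]]]]]],[[[[[[],[[[Int.negSucc (nat_lit 464878802186360939)]]]]]]],[[[[[[[Int.ofNat (nat_lit 21289969687386588312)]]]]]]]],[[[],[[[[[[Int.ofNat (nat_lit 464878802186360940)]]]]]]]]],[[[[[[[[],[],[[Int.ofNat (nat_lit 982294807577268672)]]],[[[Int.ofNat (nat_lit 10926283816846940400)]]],[[[Int.negSucc (nat_lit 101572024840749839)]]]],[[[],[[Int.negSucc (nat_lit 22382665135417514435)]]]]],[[[],[[[Int.negSucc (nat_lit 20352614415025141391)]]]]]],[[[[[],[[Int.ofNat (nat_lit 9072225679299885408)]]]],[[[[Int.negSucc (nat_lit 2820962393187764003)]]]]],[[],[[[[Int.ofNat (nat_lit 8936692503282586176)]]]]]],[[[[[[Int.negSucc (nat_lit 17038630000426697795)]]],[[[Int.negSucc (nat_lit 4282186015476574163)]]]]],[[[[[Int.negSucc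 (nat_lit 9479614133703040883)]]]]]]],[[[[[[[Int.ofNat (nat_lit 14851642460849160816)]]],[[[Int.ofNat (nat_lit 10998476074909114908)]]]],[],[[[[Int.negSucc (nat_lit 2728664293314729287)]]]]],[[[[[Int.negSucc (nat_lit 2239170825320405831)]]]]],[[[[[Int.ofNat (nat_lit 5075510096593066860)]]]]]],[[[[[],[[Int.ofNat (nat_lit 1907916173465952012)]]]],[[[[Int.negSucc (nat_lit 11406526144813229507)]]]]]],[[[[[[Int.ofNat (nat_lit 10207531083075835080)]]]]]]],[[[[[[[Int.negSucc (nat_lit 1843418927564320247)]]],[[[Int.negSucc (nat_lit 203236997161072991)]]]]],[[[[[Int.negSucc (nat_lit 14583078759888478427)]]]]]]],[[[[[[[Int.negSucc (nat_lit 309997827895250171)]]]]]]]],[[[[[[[],[[Int.ofNat (nat_lit 146301859440858023172)]]]],[[],[[[Int.ofNat (nat_lit 8716663401891454644)]]]]],[[[[],[[Int.negSucc (nat_lit 7757749010849917931)]]]]]],[[[[[[Int.ofNat (nat_lit 30522036143206032456)]]],[[[Int.negSucc (nat_lit 29414483676653169515)]]]]],[[[[[Int.negSucc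 (nat_lit 23225406935874806519)]]]]]],[],[[[[[[Int.ofNat (nat_lit 109345424323210020)]]]]]]],[[[[[[],[[Int.negSucc (nat_lit 6484437583141849103)]]]],[[[[Int.ofNat (nat_lit 10343099613286336992)]]]]]],[[[[[[Int.negSucc (nat_lit 32705536310934986591)]]]]]]],[[],[[[[[[Int.ofNat (nat_lit 812692197351409380)]]]]]]]],[[[[[[],[[[Int.negSucc (nat_lit 23204232027797364563)]]]]]],[[[],[[[[Int.negSucc (nat_lit 14718511111419606959)]]]]]],[[[[[[Int.ofNat (nat_lit 31512953935764440100)]]]]]]],[[[[[[[Int.ofNat (nat_lit 120688900781208780144)]]]]],[[[[[Int.negSucc (nat_lit 10701554124909037811)]]]]]]],[[[[[[[Int.ofNat (nat_lit 6340545554090804772)]]]]]]]],[[[[[[[],[[Int.ofNat (nat_lit 4374230842165831224)]]]]]],[[[[[[Int.ofNat (nat_lit 44494201715183952876)]]]]]]]],[[],[[[[[[[Int.ofNat (nat_lit 3909352039979470284)]]]]]]]]],[[[[[[[],[[[Int.ofNat (nat_lit 7283192806772472)]]]],[[[],[[Int.negSucc (nat_lit 7328171990411760527)]]]]],[[[],[[[Int.negSucc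 (nat_lit 4631693880383159183)]]]]]],[[[[[],[[Int.ofNat (nat_lit 5498480532196816464)]]]],[[[[Int.negSucc (nat_lit 22382665135417514435)]]]]]],[[[[[[Int.ofNat (nat_lit 5386863378541918536)]]]]]]],[[[[[[[Int.ofNat (nat_lit 10926283816846940400)]]],[[[Int.ofNat (nat_lit 398236353817283184)]]]]],[[[[[Int.negSucc (nat_lit 20352614415025141391)]]]]]],[],[[[[[[Int.negSucc (nat_lit 845017076297291363)]]]]]]],[[[[[[[Int.ofNat (nat_lit 9155373879316206144)]]]]]]],[[[[[[[Int.ofNat (nat_lit 664986130074927996)]]]]]]]],[[[[[[[],[[Int.ofNat (nat_lit 84952040291562765804)]]]]]],[[[[[[Int.ofNat (nat_lit 146294576248051250700)]]]]],[[[[[Int.negSucc (nat_lit 3126055130466758747)]]]]]]],[[[[],[[[[Int.ofNat (nat_lit 1388491411479694116)]]]]]],[[[[[[Int.negSucc (nat_lit 30929394287889413687)]]]]]]]],[[[[[[],[[[Int.ofNat (nat_lit 3858328791293227536)]]]]]]],[[[[[[[Int.ofNat (nat_lit 61747808263765401240)]]]]]]]],[[[],[[[[[[Int.ofNat (nat_lit 515902050872603688)]]]]]]]]],[[[[[[[],[[[Int.negSucc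 (nat_lit 8285969940476022575)]]]]]],[[[],[[[[Int.negSucc (nat_lit 7328171990411760527)]]]]]],[[[[[[Int.ofNat (nat_lit 4516185724619547792)]]]]]]],[[[[[[[Int.ofNat (nat_lit 7283192806772472)]]]]],[[[[[Int.negSucc (nat_lit 4631693880383159183)]]]]]]],[[[[[[[Int.ofNat (nat_lit 499808378658033024)]]]]]]]],[[[[[[[],[[Int.ofNat (nat_lit 1938453783078934932)]]]]]],[[[[[[Int.ofNat (nat_lit 93238010232038788380)]]]]]]]],[[],[[[[[[[Int.ofNat (nat_lit 5796782574372162468)]]]]]]]]],[[[[[[[],[[[Int.negSucc (nat_lit 698698342736615831)]]]]]]],[[[[[[[Int.negSucc (nat_lit 8285969940476022575)]]]]]]]],[[[],[[[[[[Int.ofNat (nat_lit 2637152125815550764)]]]]]]]]],[[[],[[[[[[[Int.negSucc (nat_lit 698698342736615831)]]]]]]]]]]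

/-- A coefficient. -/
noncomputable def sr7_m5_1_1 : MP 10 :=
  [[[[[[[[[],[[Int.negSucc (nat_lit 34069082198164354259)]]],[[],[[Int.negSucc (nat_lit 1197102324162639263)]]]],[[],[[[Int.negSucc (nat_lit 32072757425714378267)]]]]],[[[[],[[Int.ofNat (nat_lit 22041515941966831284)]]]]]],[[[[],[[[Int.ofNat (nat_lit 1522013552327548164)]]]],[[[],[[Int.negSucc (nat_lit 6422602260823564391)]]]]],[[[],[[[Int.negSucc (nat_lit 12457668884663506691)]]]]]],[[[[[],[[Int.negSucc (nat_lit 770948513232908339)]]]]]]],[[[[[[],[[Int.ofNat (nat_lit 20556341391258555924)]]]],[[],[[[Int.negSucc (nat_lit 18306478080768621275)]]]]],[[[[],[[Int.ofNat (nat_lit 11230487057864940552)]]]]]],[[[[],[[[Int.ofNat (nat_lit 32083136877349568832)]]]]]]],[[[[[[],[[Int.negSucc (nat_lit 18669740508671410931)]]]]]]]],[[[[[[[],[],[[Int.negSucc (nat_lit 3399002882934965483)]]],[[[Int.ofNat (nat_lit 28304776671638548920)]]],[[[Int.negSucc (nat_lit 2304442377268640615)]]]],[[[],[[Int.negSucc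 (nat_lit 56975259695085731807)]]]]],[[[],[[[Int.negSucc (nat_lit 54054479395610914319)]]]]]],[[[[[],[[Int.ofNat (nat_lit 103585063758729663768)]]]],[[[[Int.ofNat (nat_lit 32072757425714378268)]]]]]],[[[[[[Int.negSucc (nat_lit 1522013552327548163)]]]]],[[[[[Int.ofNat (nat_lit 12457668884663506692)]]]]]]],[[[[[[[Int.negSucc (nat_lit 34069082198164354259)]]],[[[Int.ofNat (nat_lit 167821857591267130536)]]]]],[[[[[Int.ofNat (nat_lit 22041515941966831284)]]]]]],[[[],[[[[Int.ofNat (nat_lit 11883875819945056884)]]]]]],[[[[[[Int.negSucc (nat_lit 32854085390582477171)]]]]]]],[[[[[[[Int.ofNat (nat_lit 20556341391258555924)]]]]],[[[[[Int.ofNat (nat_lit 11230487057864940552)]]]]]]],[[[[[[[Int.negSucc (nat_lit 18669740508671410931)]]]]]]]],[[[[[[[],[[Int.negSucc (nat_lit 41278690705896129263)]]]]]],[[[[[[Int.negSucc (nat_lit 28304776671638548919)]]],[[[Int.negSucc (nat_lit 5255716766786682455)]]]]],[[[[[Int.ofNat (nat_lit 54054479395610914320)]]]]]]],[[[[[[],[[Int.ofNat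 (nat_lit 12961545835787394108)]]]],[[[[Int.negSucc (nat_lit 56975259695085731807)]]]]]],[[[[[[Int.negSucc (nat_lit 65433896156700106031)]]]]]]]],[[[[[[],[[[Int.ofNat (nat_lit 27818517924153569928)]]]]]],[],[[[[[[Int.ofNat (nat_lit 7560159144055323072)]]]]]]],[[[[[[[Int.negSucc (nat_lit 41278690705896129263)]]]]]]],[[[[[[[Int.ofNat (nat_lit 16360548718722359592)]]]]]]]],[[[],[[[[[[Int.negSucc (nat_lit 27818517924153569927)]]]]]]]]],[[[[[[[[],[[Int.negSucc (nat_lit 21002342218834165367)]]],[[],[[Int.negSucc (nat_lit 2329534834706324363)]]]],[[],[[[Int.negSucc (nat_lit 34322268063684900179)]]]]],[[[[],[[Int.ofNat (nat_lit 28443249953404037712)]]]]]],[[[[[[Int.negSucc (nat_lit 34069082198164354259)]]],[[[Int.ofNat (nat_lit 34625349678146818524)]]]]],[[[[[Int.ofNat (nat_lit 22041515941966831284)]]]]]],[[[],[[[[Int.negSucc (nat_lit 6422602260823564391)]]]]]],[[[[[[Int.negSucc (nat_lit 770948513232908339)]]]]]]],[[[[[[],[[Int.negSucc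 (nat_lit 25959740276526232199)]]]],[[[[Int.negSucc (nat_lit 32072757425714378267)]]]]]],[[[[[[Int.ofNat (nat_lit 22078354943586104088)]]]]],[[[[[Int.negSucc (nat_lit 1227181826798566139)]]]]]]],[[[[],[[[[Int.negSucc (nat_lit 18306478080768621275)]]]]]],[[[[[[Int.ofNat (nat_lit 13413396368678157900)]]]]]]]],[[[[[[],[[[Int.ofNat (nat_lit 144137264113277180160)]]]]]],[[[[[],[[Int.ofNat (nat_lit 46577402846210893764)]]]],[[[[Int.negSucc (nat_lit 22652991631400831627)]]]]]],[[[[[[Int.ofNat (nat_lit 67762611756420205980)]]]]]]],[[[[[[[Int.ofNat (nat_lit 7302434452804383552)]]],[[[Int.ofNat (nat_lit 29515754238129741516)]]]]],[[[[[Int.negSucc (nat_lit 25611229442206876607)]]]]]]],[[[[[[[Int.ofNat (nat_lit 143059219638903537600)]]]]]]]],[[[[[[[],[[Int.negSucc (nat_lit 90610440668841973655)]]]]]],[[[[[[Int.negSucc (nat_lit 185415954819173309423)]]]]]]],[[],[[[[[[Int.ofNat (nat_lit 24627063853708189272)]]]]]]]],[[],[[[[[[[Int.negSucc (nat_lit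 62791922744688403727)]]]]]]]]],[[[[[[[[],[[Int.ofNat (nat_lit 26236355574858258660)]]]]]],[[[[[[Int.negSucc (nat_lit 21002342218834165367)]]],[[[Int.ofNat (nat_lit 30141221984859700656)]]]]],[[[[[Int.ofNat (nat_lit 28443249953404037712)]]]]]]],[[[[[[],[[Int.negSucc (nat_lit 14121343183523816063)]]]],[[[[Int.negSucc (nat_lit 34322268063684900179)]]]]]],[[[[[[Int.ofNat (nat_lit 9862711725783225588)]]]]]]]],[[[[[[],[[[Int.ofNat (nat_lit 29434163549129462784)]]]]]],[],[[[[[[Int.ofNat (nat_lit 17505648909579834228)]]]]]]],[[[[[[[Int.ofNat (nat_lit 170373619688135438820)]]]]]]],[[[[[[[Int.ofNat (nat_lit 20028388266580890432)]]]]]]]],[[[],[[[[[[Int.negSucc (nat_lit 120044604217971436439)]]]]]]]]],[[[[[[[[],[[Int.ofNat (nat_lit 24196663552416648540)]]]]]],[[[[[[Int.ofNat (nat_lit 26236355574858258660)]]]]]]],[[],[[[[[[Int.ofNat (nat_lit 18349413636042208956)]]]]]]]],[[],[[[[[[[Int.ofNat (nat_lit 53630827101546111324)]]]]]]]]],[[[[],[[[[[[Int.ofNat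 (nat_lit 24196663552416648540)]]]]]]]]]]

/-- A coefficient. -/
noncomputable def sr7_m5_1_2 : MP 10 :=
  [[[[[[[[[],[],[[Int.ofNat (nat_lit 5797990868836578132)]]],[[[Int.ofNat (nat_lit 29953367574806066604)]]],[[[Int.ofNat (nat_lit 4506372147605033568)]]]],[[[],[[Int.ofNat (nat_lit 62124986994886595364)]]]]],[[[],[[[Int.ofNat (nat_lit 58247806631464761216)]]]]]],[[[[[],[[Int.negSucc (nat_lit 252989407736157359687)]]]]]],[[[[],[[[Int.ofNat (nat_lit 3915687636110705556)]]]]]]],[[[[[],[[[Int.negSucc (nat_lit 303759990388850489651)]]]]]],[[[[[],[[Int.negSucc (nat_lit 24241969250833464179)]]]]]]],[[[[[],[[[Int.negSucc (nat_lit 7031056503121183391)]]]]]]]],[[[[[[[],[[Int.negSucc (nat_lit 101243429117902075739)]]]],[[],[[[Int.negSucc (nat_lit 19672907935291729967)]]]]],[[[[],[[Int.ofNat (nat_lit 16768906811636412300)]]]]]],[[[[[[Int.negSucc (nat_lit 29953367574806066603)]]],[[[Int.ofNat (nat_lit 111507535371835585080)]]]]],[[[[[Int.negSucc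 (nat_lit 58247806631464761215)]]]]]],[],[[[[[[Int.negSucc (nat_lit 3915687636110705555)]]]]]]],[[[[[[],[[Int.negSucc (nat_lit 173378776601956286507)]]]],[[[[Int.ofNat (nat_lit 62124986994886595364)]]]]]],[[[[[[Int.ofNat (nat_lit 50770582652693129964)]]]]]]],[[],[[[[[[Int.negSucc (nat_lit 17210912747712280787)]]]]]]]],[[[[[[],[[[Int.ofNat (nat_lit 98000529447228721284)]]]]]],[[[],[[[[Int.ofNat (nat_lit 19672907935291729968)]]]]]],[[[[[[Int.negSucc (nat_lit 116013907519440618647)]]]]]]],[[[[[[[Int.negSucc (nat_lit 101243429117902075739)]]]]],[[[[[Int.ofNat (nat_lit 16768906811636412300)]]]]]]],[[[[[[[Int.negSucc (nat_lit 179176767470792864639)]]]]]]]],[[[[[[[],[[Int.negSucc (nat_lit 12198303877452571787)]]]]]],[[[[[[Int.negSucc (nat_lit 98000529447228721283)]]]]]]]],[[],[[[[[[[Int.negSucc (nat_lit 12198303877452571787)]]]]]]]]],[[[[[[[],[[[Int.negSucc (nat_lit 137044854827990679179)]]]],[[[],[[Int.ofNat (nat_lit 2708982743183443668)]]]]],[[[],[[[Int.ofNat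 (nat_lit 4684506998685041232)]]]]]],[[[[[],[[Int.negSucc (nat_lit 129845800853972339435)]]]],[[[[Int.ofNat (nat_lit 62124986994886595364)]]]]]],[[[[[[Int.negSucc (nat_lit 252989407736157359687)]]]]]]],[[[[[[[Int.ofNat (nat_lit 29953367574806066604)]]],[[[Int.negSucc (nat_lit 168770891921463514307)]]]]],[[[[[Int.ofNat (nat_lit 58247806631464761216)]]]]]],[],[[[[[[Int.negSucc (nat_lit 20326281614722758623)]]]]]]],[[[[[[[Int.negSucc (nat_lit 303759990388850489651)]]]]]]],[[[[[[[Int.negSucc (nat_lit 7031056503121183391)]]]]]]]],[[[[[[[],[[Int.negSucc (nat_lit 196035254012154646355)]]]]]],[[[[[[Int.ofNat (nat_lit 35801425710088603440)]]]]],[[[[[Int.ofNat (nat_lit 12084399812951371068)]]]]]]],[[[[],[[[[Int.negSucc (nat_lit 16963925192108286299)]]]]]],[[[[[[Int.negSucc (nat_lit 25529387605092615683)]]]]]]]],[[[[[[],[[[Int.negSucc (nat_lit 16325796115710979919)]]]]]]],[[[[[[[Int.negSucc (nat_lit 98034724564925925071)]]]]]]]],[[[],[[[[[[Int.ofNat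 (nat_lit 4127492238258408132)]]]]]]]]],[[[[[[[],[[[Int.negSucc (nat_lit 73691555143284584267)]]]]]],[[[],[[[[Int.ofNat (nat_lit 2708982743183443668)]]]]]],[[[[[[Int.negSucc (nat_lit 135643791722808917567)]]]]]]],[[[[[[[Int.negSucc (nat_lit 137044854827990679179)]]]]],[[[[[Int.ofNat (nat_lit 4684506998685041232)]]]]]]],[[[[[[[Int.negSucc (nat_lit 173277264069068547875)]]]]]]]],[[[[[[[],[[Int.negSucc (nat_lit 24917236194605884595)]]]]]],[[[[[[Int.negSucc (nat_lit 122343698868870062087)]]]]]]]],[[],[[[[[[[Int.negSucc (nat_lit 41243032310316864515)]]]]]]]]],[[[[[[[],[[[Int.ofNat (nat_lit 11754111610147575132)]]]]]]],[[[[[[[Int.negSucc (nat_lit 73691555143284584267)]]]]]]]],[[[],[[[[[[Int.negSucc (nat_lit 36671347804753459727)]]]]]]]]],[[[],[[[[[[[Int.ofNat (nat_lit 11754111610147575132)]]]]]]]]]]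

/-- A coefficient. -/
noncomputable def sr7_m5_1_3 : MP 10 :=
  [[[[[[[[[],[[Int.ofNat (nat_lit 217787452355930628720)]]],[[],[[Int.ofNat (nat_lit 105265604582443596)]]]],[[],[[[Int.ofNat (nat_lit 17345236404477120072)]]]]],[[[[],[[Int.negSucc (nat_lit 8612031827225750843)]]]]]],[[[[],[[[Int.negSucc (nat_lit 65622021830483315483)]]]]]]],[[[[[[],[[Int.ofNat (nat_lit 122735534851282681224)]]]]]]]],[[[[[[],[[[Int.negSucc (nat_lit 690083879993576267447)]]]]]],[[[[[],[[Int.ofNat (nat_lit 12328674789553510272)]]]],[[[[Int.negSucc (nat_lit 17345236404477120071)]]]]]],[[[[[[Int.ofNat (nat_lit 65622021830483315484)]]]]]]],[[[[[[[Int.ofNat (nat_lit 217787452355930628720)]]],[[[Int.negSucc (nat_lit 34008269190804047747)]]]]],[[[[[Int.negSucc (nat_lit 8612031827225750843)]]]]]]],[[[[[[[Int.ofNat (nat_lit 122735534851282681224)]]]]]]]],[[[[[[[],[[Int.negSucc (nat_lit 164026254948109108799)]]]]]],[[[[[[Int.ofNat (nat_lit 690083879993576267448)]]]]]]],[[],[[[[[[Int.ofNat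 (nat_lit 46442209584940001616)]]]]]]]],[[],[[[[[[[Int.negSucc (nat_lit 164026254948109108799)]]]]]]]]],[[[[[[[[],[[Int.ofNat (nat_lit 397197749381395669836)]]]]]],[[[[[[Int.ofNat (nat_lit 217787452355930628720)]]],[[[Int.ofNat (nat_lit 39963694456952723964)]]]]],[[[[[Int.negSucc (nat_lit 8612031827225750843)]]]]]]],[[[[[[],[[Int.ofNat (nat_lit 37418124664338667680)]]]],[[[[Int.ofNat (nat_lit 17345236404477120072)]]]]]],[[[[[[Int.ofNat (nat_lit 57113513020799365740)]]]]]]]],[[[[[[],[[[Int.negSucc (nat_lit 247635347170623539315)]]]]]],[],[[[[[[Int.negSucc (nat_lit 27529754062816770095)]]]]]]],[[[[[[[Int.negSucc (nat_lit 292886130612180597611)]]]]]]],[[[[[[[Int.ofNat (nat_lit 3304589868952176336)]]]]]]]],[[[],[[[[[[Int.ofNat (nat_lit 83609092222514430516)]]]]]]]]],[[[[[[[[],[[Int.ofNat (nat_lit 7553650765437934728)]]]]]],[[[[[[Int.ofNat (nat_lit 397197749381395669836)]]]]]]],[[],[[[[[[Int.ofNat (nat_lit 77276553516708948048)]]]]]]]],[[],[[[[[[[Int.negSucc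 (nat_lit 240081696405185604587)]]]]]]]]],[[[[],[[[[[[Int.ofNat (nat_lit 7553650765437934728)]]]]]]]]]]

/-- A coefficient. -/
noncomputable def sr7_m5_1_4 : MP 10 :=
  [[[[[[[[],[[[Int.ofNat (nat_lit 777950671641178247652)]]]],[[[],[[Int.negSucc (nat_lit 30890997968213431187)]]]]],[[[],[[[Int.negSucc (nat_lit 25211224410639307763)]]]]]],[[[[[],[[Int.ofNat (nat_lit 67044004413082230156)]]]]]]],[[[[[],[[[Int.ofNat (nat_lit 67948235142838125708)]]]]]]]],[[[[[[[],[[Int.ofNat (nat_lit 568343535886654735092)]]]]]],[[[[[[Int.negSucc (nat_lit 777950671641178247651)]]]]],[[[[[Int.ofNat (nat_lit 25211224410639307764)]]]]]]],[[[[],[[[[Int.negSucc (nat_lit 30890997968213431187)]]]]]],[[[[[[Int.negSucc (nat_lit 904230729755895551)]]]]]]]],[[[[[[],[[[Int.ofNat (nat_lit 20047425167550439464)]]]]]]],[[[[[[[Int.ofNat (nat_lit 568343535886654735092)]]]]]]]],[[[],[[[[[[Int.negSucc (nat_lit 20047425167550439463)]]]]]]]]],[[[[[[[],[[[Int.ofNat (nat_lit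 383289342688955456748)]]]]]],[[[],[[[[Int.negSucc (nat_lit 30890997968213431187)]]]]]],[[[[[[Int.ofNat (nat_lit 67044004413082230156)]]]]]]],[[[[[[[Int.ofNat (nat_lit 777950671641178247652)]]]]],[[[[[Int.negSucc (nat_lit 25211224410639307763)]]]]]]],[[[[[[[Int.ofNat (nat_lit 67948235142838125708)]]]]]]]],[[[[[[[],[[Int.negSucc (nat_lit 100657924639406901515)]]]]]],[[[[[[Int.ofNat (nat_lit 185054193197699278344)]]]]]]]],[[],[[[[[[[Int.negSucc (nat_lit 80610499471856462051)]]]]]]]]],[[[[[[[],[[[Int.negSucc (nat_lit 61382199077709606491)]]]]]]],[[[[[[[Int.ofNat (nat_lit 383289342688955456748)]]]]]]]],[[[],[[[[[[Int.negSucc (nat_lit 39275725561697295023)]]]]]]]]],[[[],[[[[[[[Int.negSucc (nat_lit 61382199077709606491)]]]]]]]]]]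

/-- A coefficient. -/
noncomputable def sr7_m5_1_5 : MP 10 :=
  [[[[[[[[[],[[Int.negSucc (nat_lit 684476448081590863559)]]]]]],[[[[],[[[Int.ofNat (nat_lit 51079799757206253300)]]]]]]],[[[[[[],[[Int.negSucc (nat_lit 80019164848466835491)]]]]]]]],[[[[[[],[[[Int.ofNat (nat_lit 198380100965025920724)]]]]]],[],[[[[[[Int.negSucc (nat_lit 51079799757206253299)]]]]]]],[[[[[[[Int.negSucc (nat_lit 684476448081590863559)]]]]]]],[[[[[[[Int.negSucc (nat_lit 80019164848466835491)]]]]]]]],[[[],[[[[[[Int.negSucc (nat_lit 198380100965025920723)]]]]]]]]],[[[[[[[[],[[Int.negSucc (nat_lit 258979563973425586271)]]]]]],[[[[[[Int.negSucc (nat_lit 684476448081590863559)]]]]]]],[[],[[[[[[Int.negSucc (nat_lit 28939365091260582191)]]]]]]]],[[],[[[[[[[Int.negSucc (nat_lit 60599463008399665547)]]]]]]]]],[[[[],[[[[[[Int.negSucc (nat_lit 258979563973425586271)]]]]]]]]]]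

/-- A coefficient. -/
noncomputable def sr7_m5_1_6 : MP 10 :=
  [[[[[[[[],[[[Int.negSucc (nat_lit 435990511312655661683)]]]]]]]],[[[[[[[],[[Int.negSucc (nat_lit 227795680044083132219)]]]]]],[[[[[[Int.ofNat (nat_lit 435990511312655661684)]]]]]]]],[[],[[[[[[[Int.negSucc (nat_lit 227795680044083132219)]]]]]]]]],[[[[[[[],[[[Int.negSucc (nat_lit 157133372484001147091)]]]]]]],[[[[[[[Int.negSucc (nat_lit 435990511312655661683)]]]]]]]],[[[],[[[[[[Int.negSucc (nat_lit 70662307560081985127)]]]]]]]]],[[[],[[[[[[[Int.negSucc (nat_lit 157133372484001147091)]]]]]]]]]]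

/-- A coefficient. -/
noncomputable def sr7_m5_1_7 : MP 10 :=
  [[[[[[[[[],[[Int.ofNat (nat_lit 224578533205880239632)]]]]]]]],[[],[[[[[[[Int.ofNat (nat_lit 224578533205880239632)]]]]]]]]],[[[[],[[[[[[Int.ofNat (nat_lit 224578533205880239632)]]]]]]]]]]

/-- A coefficient. -/
noncomputable def sr7_m5_1_8 : MP 10 :=
  [[[[[[[[],[[[Int.ofNat (nat_lit 36873133884553222068)]]]]]]]],[[[],[[[[[[Int.negSucc (nat_lit 36873133884553222067)]]]]]]]]],[[[],[[[[[[[Int.ofNat (nat_lit 36873133884553222068)]]]]]]]]]]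

/-- A coefficient. -/
noncomputable def sr7_m5_2_0 : MP 10 :=
  [[[[[[[[[],[],[[Int.negSucc (nat_lit 7189812514614015119)]]],[[[Int.negSucc (nat_lit 64827747409535191655)]]],[[[Int.negSucc (nat_lit 3725770592258291747)]]]],[[[],[[Int.ofNat (nat_lit 14506707336052049568)]]]]],[[[],[[[Int.ofNat (nat_lit 4239471148611782172)]]]]]],[[[[[],[[Int.ofNat (nat_lit 32768595981658961052)]]]],[[],[[[Int.negSucc (nat_lit 2540311170546486263)]]]]],[[[[],[[Int.ofNat (nat_lit 6783462268855772892)]]]]]],[[[[],[[[Int.ofNat (nat_lit 1174737790417125432)]]]]]]],[[[[[],[[[Int.ofNat (nat_lit 6672423881030966184)]]]],[[[],[[Int.ofNat (nat_lit 13140867622326020640)]]]]],[[[],[[[Int.ofNat (nat_lit 9624635110486589676)]]]]]],[[[[[],[[Int.negSucc (nat_lit 17524616327427473963)]]]]]]],[[[[[],[[[Int.ofNat (nat_lit 3405660425730124920)]]]]]]]],[[[[[[[],[[Int.negSucc (nat_lit 158149156478207847095)]]],[[],[[Int.ofNat (nat_lit 2374569771501468780)]]]],[[],[[[Int.negSucc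 (nat_lit 26200322017628611319)]]]]],[[[[],[[Int.ofNat (nat_lit 51188030498890786032)]]]]]],[[[[[[Int.ofNat (nat_lit 64827747409535191656)]]],[[[Int.ofNat (nat_lit 89524637432694059580)]]]]],[[[[[Int.negSucc (nat_lit 4239471148611782171)]]]]]],[[[],[[[[Int.ofNat (nat_lit 2540311170546486264)]]]]]],[[[[[[Int.negSucc (nat_lit 1174737790417125431)]]]]]]],[[[[[[],[[Int.negSucc (nat_lit 78739345185594624923)]]]],[[[[Int.ofNat (nat_lit 14506707336052049568)]]]]]],[[[[[[Int.ofNat (nat_lit 26096172100627994868)]]]]],[[[[[Int.negSucc (nat_lit 2841172841630816783)]]]]]]],[[[[],[[[[Int.ofNat (nat_lit 13140867622326020640)]]]]]],[[[[[[Int.negSucc (nat_lit 20930276753157598883)]]]]]]]],[[[[[[],[[[Int.ofNat (nat_lit 93600344276300619612)]]]]]],[[[[[],[[Int.negSucc (nat_lit 8189278705767365843)]]]],[[[[Int.ofNat (nat_lit 26200322017628611320)]]]]]],[[[[[[Int.negSucc (nat_lit 85798866840435767831)]]]]]]],[[[[[[[Int.negSucc (nat_lit 158149156478207847095)]]],[[[Int.negSucc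 (nat_lit 6705652906115416091)]]]]],[[[[[Int.ofNat (nat_lit 51188030498890786032)]]]]]]],[[[[[[[Int.negSucc (nat_lit 71549532670980609803)]]]]]]]],[[[[[[[],[[Int.negSucc (nat_lit 24659798652822658115)]]]]]],[[[[[[Int.negSucc (nat_lit 93600344276300619611)]]]]]]],[[],[[[[[[Int.ofNat (nat_lit 890943971849519028)]]]]]]]],[[],[[[[[[[Int.negSucc (nat_lit 24659798652822658115)]]]]]]]]],[[[[[[[[],[],[[Int.ofNat (nat_lit 682925503743493824)]]],[[[Int.negSucc (nat_lit 51323839949023246547)]]],[[[Int.ofNat (nat_lit 1245855071643176424)]]]],[[[],[[Int.ofNat (nat_lit 24675745547845159788)]]]]],[[[],[[[Int.ofNat (nat_lit 22800714140963461452)]]]]]],[[[[[],[[Int.negSucc (nat_lit 15806810570731347983)]]]],[[[[Int.ofNat (nat_lit 14506707336052049568)]]]]]],[[[[[[Int.ofNat (nat_lit 32768595981658961052)]]]]],[[[[[Int.ofNat (nat_lit 6783462268855772892)]]]]]]],[[[[[[[Int.negSucc (nat_lit 64827747409535191655)]]],[[[Int.negSucc (nat_lit 13617822053201396111)]]]]],[[[[[Int.ofNat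 (nat_lit 4239471148611782172)]]]]]],[[[],[[[[Int.ofNat (nat_lit 10600556451779534376)]]]]]],[[[[[[Int.negSucc (nat_lit 16349878537010348531)]]]]]]],[[[[[[[Int.ofNat (nat_lit 6672423881030966184)]]]]],[[[[[Int.ofNat (nat_lit 9624635110486589676)]]]]]]],[[[[[[[Int.ofNat (nat_lit 3405660425730124920)]]]]]]]],[[[[[[[],[[Int.negSucc (nat_lit 326578404104721300071)]]]]]],[[[[[[Int.negSucc (nat_lit 106825316529184600547)]]],[[[Int.ofNat (nat_lit 5041138527128256564)]]]]],[[[[[Int.ofNat (nat_lit 28387316357927324580)]]]]]]],[[[[[[],[[Int.ofNat (nat_lit 8960741113916010012)]]]],[[[[Int.negSucc (nat_lit 1524576469783451531)]]]]]],[[[[[[Int.ofNat (nat_lit 15524387574280929528)]]]]]]]],[[[[[[],[[[Int.ofNat (nat_lit 61042840251154933692)]]]]]],[],[[[[[[Int.negSucc (nat_lit 12101702533037330051)]]]]]]],[[[[[[[Int.negSucc (nat_lit 232978059828420680459)]]]]]]],[[[[[[[Int.negSucc (nat_lit 802407067444368683)]]]]]]]],[[[],[[[[[[Int.negSucc (nat_lit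 85702638903977591807)]]]]]]]]],[[[[[[[],[[[Int.negSucc (nat_lit 16208135170779290099)]]]]]],[[[[[],[[Int.negSucc (nat_lit 1649773132005198119)]]]],[[[[Int.ofNat (nat_lit 24675745547845159788)]]]]]],[[[[[[Int.negSucc (nat_lit 8616998056117332863)]]]]]]],[[[[[[[Int.negSucc (nat_lit 51323839949023246547)]]],[[[Int.ofNat (nat_lit 4224922641162586044)]]]]],[[[[[Int.ofNat (nat_lit 22800714140963461452)]]]]]]],[[[[[[[Int.negSucc (nat_lit 9892051460943104363)]]]]]]]],[[[[[[[],[[Int.negSucc (nat_lit 109037719074282662927)]]]]]],[[[[[[Int.negSucc (nat_lit 310370268933942009971)]]]]]]],[[],[[[[[[Int.ofNat (nat_lit 6878473232174378832)]]]]]]]],[[],[[[[[[[Int.negSucc (nat_lit 47994878823127729235)]]]]]]]]],[[[[[[[],[[[Int.ofNat (nat_lit 4616549717269652748)]]]]]],[],[[[[[[Int.negSucc (nat_lit 2332698635748691943)]]]]]]],[[[[[[[Int.negSucc (nat_lit 16208135170779290099)]]]]]]],[[[[[[[Int.ofNat (nat_lit 2979067569519409620)]]]]]]]],[[[],[[[[[[Int.negSucc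 (nat_lit 113654268791552315675)]]]]]]]]],[[[],[[[[[[[Int.ofNat (nat_lit 4616549717269652748)]]]]]]]]]]

/-- A coefficient. -/
noncomputable def sr7_m5_2_1 : MP 10 :=
  [[[[[[[[[],[[Int.ofNat (nat_lit 88911554901036157620)]]],[[],[[Int.negSucc (nat_lit 659635166577747719)]]]],[[],[[[Int.ofNat (nat_lit 42701441024081488956)]]]]],[[[[],[[Int.negSucc (nat_lit 23496448058218611155)]]]]]],[[[[],[[[Int.ofNat (nat_lit 12779803783300175352)]]]]]],[[[[[],[[Int.ofNat (nat_lit 15524208242331990312)]]]]]]],[[[[[[],[[Int.ofNat (nat_lit 11351047794565533936)]]]]]],[[[[],[[[Int.ofNat (nat_lit 2243118980470302492)]]]]]]],[[[[[[],[[Int.ofNat (nat_lit 1668764209262184744)]]]]]]]],[[[[[[],[[[Int.negSucc (nat_lit 321517756101321548147)]]]],[[[],[[Int.ofNat (nat_lit 80635724719748594820)]]]]],[[[],[[[Int.ofNat (nat_lit 67742049506921170188)]]]]]],[[[[[],[[Int.negSucc (nat_lit 87401991800087931023)]]]],[[[[Int.negSucc (nat_lit 42701441024081488955)]]]]]],[[[[[[Int.negSucc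 (nat_lit 12779803783300175351)]]]]]]],[[[[[[[Int.ofNat (nat_lit 88911554901036157620)]]],[[[Int.negSucc (nat_lit 211637495752303635431)]]]]],[[[[[Int.negSucc (nat_lit 23496448058218611155)]]]]]],[],[[[[[[Int.ofNat (nat_lit 13281089261861687820)]]]]]]],[[[[[[[Int.ofNat (nat_lit 11351047794565533936)]]]]]]],[[[[[[[Int.ofNat (nat_lit 1668764209262184744)]]]]]]]],[[[[[[[],[[Int.negSucc (nat_lit 199991194690730583695)]]]]]],[[[[[[Int.ofNat (nat_lit 321517756101321548148)]]]]],[[[[[Int.negSucc (nat_lit 67742049506921170187)]]]]]]],[[[[],[[[[Int.ofNat (nat_lit 80635724719748594820)]]]]]],[[[[[[Int.ofNat (nat_lit 123575868785637956688)]]]]]]]],[[[[[[],[[[Int.negSucc (nat_lit 12109016563141017503)]]]]]]],[[[[[[[Int.negSucc (nat_lit 199991194690730583695)]]]]]]]],[[[],[[[[[[Int.ofNat (nat_lit 12109016563141017504)]]]]]]]]],[[[[[[[[],[[Int.ofNat (nat_lit 91164030987389480928)]]]],[[],[[[Int.ofNat (nat_lit 29580463523880736020)]]]]],[[[[],[[Int.negSucc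 (nat_lit 23837311922562130943)]]]]]],[[[[[[Int.ofNat (nat_lit 88911554901036157620)]]],[[[Int.ofNat (nat_lit 63439954417313498280)]]]]],[[[[[Int.negSucc (nat_lit 23496448058218611155)]]]]]],[],[[[[[[Int.ofNat (nat_lit 15524208242331990312)]]]]]]],[[[[[[],[[Int.negSucc (nat_lit 515379425294511251)]]]],[[[[Int.ofNat (nat_lit 42701441024081488956)]]]]]],[[[[[[Int.ofNat (nat_lit 24130851577865709288)]]]]]]],[[],[[[[[[Int.ofNat (nat_lit 3911883189732487236)]]]]]]]],[[[[[[],[[[Int.negSucc (nat_lit 505214695755355215371)]]]]]],[[[],[[[[Int.ofNat (nat_lit 51055261195867858800)]]]]]],[[[[[[Int.negSucc (nat_lit 151501581383979177023)]]]]]]],[[[[[[[Int.negSucc (nat_lit 230353725113932067219)]]]]],[[[[[Int.ofNat (nat_lit 43904737584359039244)]]]]]]],[[[[[[[Int.negSucc (nat_lit 211493240011020398963)]]]]]]]],[[[[[[[],[[Int.ofNat (nat_lit 16906110355665072612)]]]]]],[[[[[[Int.ofNat (nat_lit 305223501064624631676)]]]]]]]],[[],[[[[[[[Int.ofNat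 (nat_lit 4797093792524055108)]]]]]]]]],[[[[[[[[],[[Int.ofNat (nat_lit 12652901462883538428)]]]]]],[[[[[[Int.ofNat (nat_lit 91164030987389480928)]]]]],[[[[[Int.negSucc (nat_lit 23837311922562130943)]]]]]]],[[[[],[[[[Int.ofNat (nat_lit 29580463523880736020)]]]]]],[[[[[[Int.ofNat (nat_lit 63584210158596734748)]]]]]]]],[[[[[[],[[[Int.negSucc (nat_lit 18255642877729095875)]]]]]]],[[[[[[[Int.negSucc (nat_lit 492561794292471676943)]]]]]]]],[[[],[[[[[[Int.ofNat (nat_lit 35161753233394168488)]]]]]]]]],[[[[[[[[],[[Int.negSucc (nat_lit 24715194271352807507)]]]]]],[[[[[[Int.ofNat (nat_lit 12652901462883538428)]]]]]]]],[[],[[[[[[[Int.negSucc (nat_lit 42970837149081903383)]]]]]]]]],[[[[],[[[[[[Int.negSucc (nat_lit 24715194271352807507)]]]]]]]]]]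

/-- A coefficient. -/
noncomputable def sr7_m5_2_2 : MP 10 :=
  [[[[[[[[[],[],[[Int.negSucc (nat_lit 451992476179693835)]]],[[[Int.ofNat (nat_lit 170814851830897134120)]]],[[[Int.negSucc (nat_lit 130128166369707539)]]]],[[[],[[Int.negSucc (nat_lit 71154314494279490651)]]]]],[[[],[[[Int.negSucc (nat_lit 61219487750299474475)]]]]]],[[[[[],[[Int.ofNat (nat_lit 221084123168596190712)]]]]]]],[[[[[],[[[Int.ofNat (nat_lit 218440587617180248536)]]]]]]]],[[[[[[[],[[Int.ofNat (nat_lit 1107336885692294914368)]]]]]],[[[[[[Int.negSucc (nat_lit 170814851830897134119)]]],[[[Int.negSucc (nat_lit 41131938098952881879)]]]]],[[[[[Int.ofNat (nat_lit 61219487750299474476)]]]]]]],[[[[[[],[[Int.ofNat (nat_lit 79946283141889266588)]]]],[[[[Int.negSucc (nat_lit 71154314494279490651)]]]]]],[[[[[[Int.ofNat (nat_lit 2643535551415942176)]]]]]]]],[[[[[[],[[[Int.negSucc (nat_lit 442178262758039856323)]]]]]],[],[[[[[[Int.ofNat (nat_lit 41262066265322589420)]]]]]]],[[[[[[[Int.ofNat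 (nat_lit 1107336885692294914368)]]]]]]],[[[[[[[Int.ofNat (nat_lit 80398275618068960424)]]]]]]]],[[[],[[[[[[Int.ofNat (nat_lit 442178262758039856324)]]]]]]]]],[[[[[[[],[[[Int.ofNat (nat_lit 596939852779235784384)]]]]]],[[[[[],[[Int.ofNat (nat_lit 46977422844747580404)]]]],[[[[Int.negSucc (nat_lit 71154314494279490651)]]]]]],[[[[[[Int.ofNat (nat_lit 221084123168596190712)]]]]]]],[[[[[[[Int.ofNat (nat_lit 170814851830897134120)]]],[[[Int.ofNat (nat_lit 103069906936855560504)]]]]],[[[[[Int.negSucc (nat_lit 61219487750299474475)]]]]]]],[[[[[[[Int.ofNat (nat_lit 218440587617180248536)]]]]]]]],[[[[[[[],[[Int.ofNat (nat_lit 778270361966753498568)]]]]]],[[[[[[Int.ofNat (nat_lit 510397032913059129984)]]]]]]],[[],[[[[[[Int.negSucc (nat_lit 16634410429551622799)]]]]]]]],[[],[[[[[[[Int.ofNat (nat_lit 336092099208713642244)]]]]]]]]],[[[[[[[],[[[Int.ofNat (nat_lit 109406121886778718660)]]]]]],[],[[[[[[Int.ofNat (nat_lit 47429415320927274240)]]]]]]],[[[[[[[Int.ofNat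 (nat_lit 596939852779235784384)]]]]]]],[[[[[[[Int.ofNat (nat_lit 103200035103225268044)]]]]]]]],[[[],[[[[[[Int.ofNat (nat_lit 668864240079974779908)]]]]]]]]],[[[],[[[[[[[Int.ofNat (nat_lit 109406121886778718660)]]]]]]]]]]

/-- A coefficient. -/
noncomputable def sr7_m5_2_3 : MP 10 :=
  [[[[[[[[[],[[Int.negSucc (nat_lit 856874410147763112059)]]]],[[],[[[Int.negSucc (nat_lit 16019359039854103919)]]]]],[[[[],[[Int.ofNat (nat_lit 1347522982197714612)]]]]]],[[[[],[[[Int.ofNat (nat_lit 47773988711437998084)]]]]]]],[[[[[[],[[Int.ofNat (nat_lit 108303893041513932024)]]]]]]]],[[[[[[],[[[Int.ofNat (nat_lit 1361376831839490984216)]]]]]],[[[],[[[[Int.ofNat (nat_lit 16019359039854103920)]]]]]],[[[[[[Int.negSucc (nat_lit 47773988711437998083)]]]]]]],[[[[[[[Int.negSucc (nat_lit 856874410147763112059)]]]]],[[[[[Int.ofNat (nat_lit 1347522982197714612)]]]]]]],[[[[[[[Int.ofNat (nat_lit 108303893041513932024)]]]]]]]],[[[[[[[],[[Int.ofNat (nat_lit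 101610276399205680300)]]]]]],[[[[[[Int.negSucc (nat_lit 1361376831839490984215)]]]]]]]],[[],[[[[[[[Int.ofNat (nat_lit 101610276399205680300)]]]]]]]]],[[[[[[[[],[[Int.negSucc (nat_lit 716037231984511468643)]]]]]],[[[[[[Int.negSucc (nat_lit 856874410147763112059)]]]]],[[[[[Int.ofNat (nat_lit 1347522982197714612)]]]]]]],[[[[],[[[[Int.negSucc (nat_lit 16019359039854103919)]]]]]],[[[[[[Int.ofNat (nat_lit 156077881752951930108)]]]]]]]],[[[[[[],[[[Int.ofNat (nat_lit 188682585608443614312)]]]]]]],[[[[[[[Int.ofNat (nat_lit 645339599854979515572)]]]]]]]],[[[],[[[[[[Int.negSucc (nat_lit 87072309209237934011)]]]]]]]]],[[[[[[[[],[[Int.ofNat (nat_lit 93315749140144700472)]]]]]],[[[[[[Int.negSucc (nat_lit 716037231984511468643)]]]]]]]],[[],[[[[[[[Int.ofNat (nat_lit 281998334748588314784)]]]]]]]]],[[[[],[[[[[[Int.ofNat (nat_lit 93315749140144700472)]]]]]]]]]]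

/-- A coefficient. -/
noncomputable def sr7_m5_2_4 : MP 10 :=
  [[[[[[[[],[[[Int.negSucc (nat_lit 985646003881263225479)]]]]]],[[[[[],[[Int.negSucc (nat_lit 114274986030440799443)]]]]]]],[[[[[],[[[Int.negSucc (nat_lit 43353163878714080699)]]]]]]]],[[[[[[[],[[Int.negSucc (nat_lit 353216101286363438219)]]]]]],[[[[[[Int.ofNat (nat_lit 985646003881263225480)]]]]]]],[[],[[[[[[Int.negSucc (nat_lit 70921822151726718743)]]]]]]]],[[],[[[[[[[Int.negSucc (nat_lit 353216101286363438219)]]]]]]]]],[[[[[[[],[[[Int.negSucc (nat_lit 400705741993528439903)]]]]]],[],[[[[[[Int.negSucc (nat_lit 114274986030440799443)]]]]]]],[[[[[[[Int.negSucc (nat_lit 985646003881263225479)]]]]]]],[[[[[[[Int.negSucc (nat_lit 43353163878714080699)]]]]]]]],[[[],[[[[[[Int.ofNat (nat_lit 47489640707165001684)]]]]]]]]],[[[],[[[[[[[Int.negSucc (nat_lit 400705741993528439903)]]]]]]]]]]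

/-- A coefficient. -/
noncomputable def sr7_m5_2_5 : MP 10 :=
  [[[[[[[[[],[[Int.ofNat (nat_lit 636484621109185681212)]]]]]]]],[[[[[[],[[[Int.negSucc (nat_lit 343396174022781977699)]]]]]]],[[[[[[[Int.ofNat (nat_lit 636484621109185681212)]]]]]]]],[[[],[[[[[[Int.ofNat (nat_lit 343396174022781977700)]]]]]]]]],[[[[[[[[],[[Int.ofNat (nat_lit 457556100408201137064)]]]]]],[[[[[[Int.ofNat (nat_lit 636484621109185681212)]]]]]]]],[[],[[[[[[[Int.ofNat (nat_lit 114159926385419159364)]]]]]]]]],[[[[],[[[[[[Int.ofNat (nat_lit 457556100408201137064)]]]]]]]]]]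

/-- A coefficient. -/
noncomputable def sr7_m5_2_6 : MP 10 :=
  [[[[[[[[],[[[Int.ofNat (nat_lit 357731084846083333680)]]]]]]]],[[[],[[[[[[Int.negSucc (nat_lit 357731084846083333679)]]]]]]]]],[[[],[[[[[[[Int.ofNat (nat_lit 357731084846083333680)]]]]]]]]]]

/-- A coefficient. -/
noncomputable def sr7_m5_2_7 : MP 10 :=
  [[[[[[[[[],[[Int.ofNat (nat_lit 65426517603054794316)]]]]]]]],[[],[[[[[[[Int.ofNat (nat_lit 65426517603054794316)]]]]]]]]],[[[[],[[[[[[Int.ofNat (nat_lit 65426517603054794316)]]]]]]]]]]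

/-- A coefficient. -/
noncomputable def sr7_m5_3_0 : MP 10 :=
  [[[[[[[[[],[],[[Int.ofNat (nat_lit 7062036182574343452)]]],[[[Int.ofNat (nat_lit 97345760006563695492)]]],[[[Int.ofNat (nat_lit 4658104204653775116)]]]],[[[],[[Int.negSucc (nat_lit 9169726265616294371)]]]]],[[[],[[[Int.ofNat (nat_lit 3055558919926528248)]]]]]],[[[[[],[[Int.negSucc (nat_lit 8902615985708662847)]]]]]],[[[[],[[[Int.ofNat (nat_lit 3019159368766467396)]]]]]]],[[[[[],[[[Int.ofNat (nat_lit 20626018618497544212)]]]]]],[[[[[],[[Int.ofNat (nat_lit 2732818172801779512)]]]]]]],[[[[[],[[[Int.negSucc (nat_lit 4037799692972185211)]]]]]]]],[[[[[[[],[[Int.ofNat (nat_lit 186743734305098503668)]]]],[[],[[[Int.negSucc (nat_lit 2676442783766414243)]]]]],[[[[],[[Int.negSucc (nat_lit 16590757404726584543)]]]]]],[[[[[[Int.negSucc (nat_lit 97345760006563695491)]]],[[[Int.negSucc (nat_lit 66895376877248629511)]]]]],[[[[[Int.negSucc (nat_lit 3055558919926528247)]]]]]],[],[[[[[[Int.negSucc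 (nat_lit 3019159368766467395)]]]]]]],[[[[[[],[[Int.ofNat (nat_lit 94580071417287762204)]]]],[[[[Int.negSucc (nat_lit 9169726265616294371)]]]]]],[[[[[[Int.negSucc (nat_lit 29528634604206207059)]]]]]]],[[],[[[[[[Int.ofNat (nat_lit 6770617865773964724)]]]]]]]],[[[[[[],[[[Int.negSucc (nat_lit 68326947210476561831)]]]]]],[[[],[[[[Int.ofNat (nat_lit 2676442783766414244)]]]]]],[[[[[[Int.ofNat (nat_lit 62237272672594854396)]]]]]]],[[[[[[[Int.ofNat (nat_lit 186743734305098503668)]]]]],[[[[[Int.negSucc (nat_lit 16590757404726584543)]]]]]]],[[[[[[[Int.ofNat (nat_lit 87518035234713418752)]]]]]]]],[[[[[[[],[[Int.ofNat (nat_lit 10682280288601700832)]]]]]],[[[[[[Int.ofNat (nat_lit 68326947210476561832)]]]]]]]],[[],[[[[[[[Int.ofNat (nat_lit 10682280288601700832)]]]]]]]]],[[[[[[[],[[[Int.ofNat (nat_lit 31515048005436018492)]]]],[[[],[[Int.ofNat (nat_lit 796471271646607308)]]]]],[[[],[[[Int.ofNat (nat_lit 951880257728565540)]]]]]],[[[[[],[[Int.ofNat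 (nat_lit 26657196857123685948)]]]],[[[[Int.negSucc (nat_lit 9169726265616294371)]]]]]],[[[[[[Int.negSucc (nat_lit 8902615985708662847)]]]]]]],[[[[[[[Int.ofNat (nat_lit 97345760006563695492)]]],[[[Int.ofNat (nat_lit 19696105317788315928)]]]]],[[[[[Int.ofNat (nat_lit 3055558919926528248)]]]]]],[],[[[[[[Int.ofNat (nat_lit 5751977541568246908)]]]]]]],[[[[[[[Int.ofNat (nat_lit 20626018618497544212)]]]]]]],[[[[[[[Int.negSucc (nat_lit 4037799692972185211)]]]]]]]],[[[[[[[],[[Int.ofNat (nat_lit 237551637812196760656)]]]]]],[[[[[[Int.ofNat (nat_lit 155228686299662485176)]]]]],[[[[[Int.negSucc (nat_lit 17542637662455150083)]]]]]]],[[[[],[[[[Int.negSucc (nat_lit 1879971512119806935)]]]]]],[[[[[[Int.ofNat (nat_lit 29837922123533366040)]]]]]]]],[[[[[[],[[[Int.negSucc (nat_lit 38356478089425240107)]]]]]]],[[[[[[[Int.ofNat (nat_lit 169224690601720198824)]]]]]]]],[[[],[[[[[[Int.ofNat (nat_lit 49038758378026940940)]]]]]]]]],[[[[[[[],[[[Int.ofNat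 (nat_lit 23439632305920188232)]]]]]],[[[],[[[[Int.ofNat (nat_lit 796471271646607308)]]]]]],[[[[[[Int.ofNat (nat_lit 19595160674549342496)]]]]]]],[[[[[[[Int.ofNat (nat_lit 31515048005436018492)]]]]],[[[[[Int.ofNat (nat_lit 951880257728565540)]]]]]]],[[[[[[[Int.ofNat (nat_lit 15038001113134540812)]]]]]]]],[[[[[[[],[[Int.ofNat (nat_lit 43203686460675216228)]]]]]],[[[[[[Int.ofNat (nat_lit 214112005506276572424)]]]]]]]],[[],[[[[[[[Int.ofNat (nat_lit 4847208371249976120)]]]]]]]]],[[[[[[[],[[[Int.negSucc (nat_lit 1541987041018939655)]]]]]]],[[[[[[[Int.ofNat (nat_lit 23439632305920188232)]]]]]]]],[[[],[[[[[[Int.ofNat (nat_lit 44745673501694155884)]]]]]]]]],[[[],[[[[[[[Int.negSucc (nat_lit 1541987041018939655)]]]]]]]]]]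

/-- A coefficient. -/
noncomputable def sr7_m5_3_1 : MP 10 :=
  [[[[[[[[[],[[Int.negSucc (nat_lit 4115167991018691095)]]],[[],[[Int.ofNat (nat_lit 471086595462877584)]]]],[[],[[[Int.ofNat (nat_lit 6050711939282302476)]]]]],[[[[],[[Int.negSucc (nat_lit 17104597700481943415)]]]]]],[[[[],[[[Int.negSucc (nat_lit 74526366039967539635)]]]]]]],[[[[[[],[[Int.negSucc (nat_lit 34047728474652453863)]]]]]]]],[[[[[[],[[[Int.ofNat (nat_lit 427572506666401466244)]]]]]],[[[[[],[[Int.negSucc (nat_lit 20041189797675244595)]]]],[[[[Int.negSucc (nat_lit 6050711939282302475)]]]]]],[[[[[[Int.ofNat (nat_lit 74526366039967539636)]]]]]]],[[[[[[[Int.negSucc (nat_lit 4115167991018691095)]]],[[[Int.ofNat (nat_lit 51487624749604835064)]]]]],[[[[[Int.negSucc (nat_lit 17104597700481943415)]]]]]]],[[[[[[[Int.negSucc (nat_lit 34047728474652453863)]]]]]]]],[[[[[[[],[[Int.ofNat (nat_lit 445507281826760360268)]]]]]],[[[[[[Int.negSucc (nat_lit 427572506666401466243)]]]]]]],[[],[[[[[[Int.negSucc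 (nat_lit 71057727951817202075)]]]]]]]],[[],[[[[[[[Int.ofNat (nat_lit 445507281826760360268)]]]]]]]]],[[[[[[[[],[[Int.negSucc (nat_lit 61852917888050749583)]]]]]],[[[[[[Int.negSucc (nat_lit 4115167991018691095)]]],[[[Int.negSucc (nat_lit 117396805986917520767)]]]]],[[[[[Int.negSucc (nat_lit 17104597700481943415)]]]]]]],[[[[[[],[[Int.ofNat (nat_lit 49428146452016059488)]]]],[[[[Int.ofNat (nat_lit 6050711939282302476)]]]]]],[[[[[[Int.negSucc (nat_lit 108574094514619993499)]]]]]]]],[[[[[[],[[[Int.ofNat (nat_lit 461792523461858581044)]]]]]],[],[[[[[[Int.ofNat (nat_lit 97826702784705153756)]]]]]]],[[[[[[[Int.ofNat (nat_lit 365719588778350716660)]]]]]]],[[[[[[[Int.ofNat (nat_lit 100444684606158016968)]]]]]]]],[[[],[[[[[[Int.negSucc (nat_lit 16285241635098220775)]]]]]]]]],[[[[[[[[],[[Int.negSucc (nat_lit 78490054043857862963)]]]]]],[[[[[[Int.negSucc (nat_lit 61852917888050749583)]]]]]]],[[],[[[[[[Int.negSucc (nat_lit 68439746130364338863)]]]]]]]],[[],[[[[[[[Int.ofNat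 (nat_lit 383302469418000718080)]]]]]]]]],[[[[],[[[[[[Int.negSucc (nat_lit 78490054043857862963)]]]]]]]]]]

/-- A coefficient. -/
noncomputable def sr7_m5_3_2 : MP 10 :=
  [[[[[[[[],[[[Int.negSucc (nat_lit 67545515455216672571)]]]],[[[],[[Int.negSucc (nat_lit 16387973032126637987)]]]]],[[[],[[[Int.negSucc (nat_lit 14674648741276249643)]]]]]],[[[[[],[[Int.ofNat (nat_lit 33408820797545520456)]]]]]]],[[[[[],[[[Int.ofNat (nat_lit 202184064408876082752)]]]]]]]],[[[[[[[],[[Int.negSucc (nat_lit 1285364043547601725343)]]]]]],[[[[[[Int.ofNat (nat_lit 67545515455216672572)]]]]],[[[[[Int.ofNat (nat_lit 14674648741276249644)]]]]]]],[[[[],[[[[Int.negSucc (nat_lit 16387973032126637987)]]]]]],[[[[[[Int.negSucc (nat_lit 168775243611330562295)]]]]]]]],[[[[[[],[[[Int.ofNat (nat_lit 287807064658857412812)]]]]]]],[[[[[[[Int.negSucc (nat_lit 1285364043547601725343)]]]]]]]],[[[],[[[[[[Int.negSucc (nat_lit 287807064658857412811)]]]]]]]]],[[[[[[[],[[[Int.negSucc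 (nat_lit 302521613987050452755)]]]]]],[[[],[[[[Int.negSucc (nat_lit 16387973032126637987)]]]]]],[[[[[[Int.ofNat (nat_lit 33408820797545520456)]]]]]]],[[[[[[[Int.negSucc (nat_lit 67545515455216672571)]]]]],[[[[[Int.negSucc (nat_lit 14674648741276249643)]]]]]]],[[[[[[[Int.ofNat (nat_lit 202184064408876082752)]]]]]]]],[[[[[[[],[[Int.negSucc (nat_lit 401642285891547098543)]]]]]],[[[[[[Int.negSucc (nat_lit 982842429560551272587)]]]]]]]],[[],[[[[[[[Int.negSucc (nat_lit 113835221232689685731)]]]]]]]]],[[[[[[[],[[[Int.negSucc (nat_lit 54145365927741858479)]]]]]]],[[[[[[[Int.negSucc (nat_lit 302521613987050452755)]]]]]]]],[[[],[[[[[[Int.negSucc (nat_lit 347496919963805240063)]]]]]]]]],[[[],[[[[[[[Int.negSucc (nat_lit 54145365927741858479)]]]]]]]]]]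

/-- A coefficient. -/
noncomputable def sr7_m5_3_3 : MP 10 :=
  [[[[[[[[[],[[Int.ofNat (nat_lit 95026650188365365984)]]]]]],[[[[],[[[Int.negSucc (nat_lit 50199465472366521275)]]]]]]],[[[[[[],[[Int.negSucc (nat_lit 153453357396690143603)]]]]]]]],[[[[[[],[[[Int.negSucc (nat_lit 314282640516231563219)]]]]]],[],[[[[[[Int.ofNat (nat_lit 50199465472366521276)]]]]]]],[[[[[[[Int.ofNat (nat_lit 95026650188365365984)]]]]]]],[[[[[[[Int.negSucc (nat_lit 153453357396690143603)]]]]]]]],[[[],[[[[[[Int.ofNat (nat_lit 314282640516231563220)]]]]]]]]],[[[[[[[[],[[Int.negSucc (nat_lit 14804143048691068775)]]]]]],[[[[[[Int.ofNat (nat_lit 95026650188365365984)]]]]]]],[[],[[[[[[Int.negSucc (nat_lit 203652822869056664879)]]]]]]]],[[],[[[[[[[Int.negSucc (nat_lit 329086783564922631995)]]]]]]]]],[[[[],[[[[[[Int.negSucc (nat_lit 14804143048691068775)]]]]]]]]]]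

/-- A coefficient. -/
noncomputable def sr7_m5_3_4 : MP 10 :=
  [[[[[[[[],[[[Int.negSucc (nat_lit 397588583788682345207)]]]]]]]],[[[[[[[],[[Int.ofNat (nat_lit 143003454945270301332)]]]]]],[[[[[[Int.ofNat (nat_lit 397588583788682345208)]]]]]]]],[[],[[[[[[[Int.ofNat (nat_lit 143003454945270301332)]]]]]]]]],[[[[[[[],[[[Int.ofNat (nat_lit 195960735586564657740)]]]]]]],[[[[[[[Int.negSucc (nat_lit 397588583788682345207)]]]]]]]],[[[],[[[[[[Int.negSucc (nat_lit 52957280641294356407)]]]]]]]]],[[[],[[[[[[[Int.ofNat (nat_lit 195960735586564657740)]]]]]]]]]]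

/-- A coefficient. -/
noncomputable def sr7_m5_3_5 : MP 10 :=
  [[[[[[[[[],[[Int.ofNat (nat_lit 91959515438918795808)]]]]]]]],[[],[[[[[[[Int.ofNat (nat_lit 91959515438918795808)]]]]]]]]],[[[[],[[[[[[Int.ofNat (nat_lit 91959515438918795808)]]]]]]]]]]

/-- A coefficient. -/
noncomputable def sr7_m5_3_6 : MP 10 :=
  [[[[[[[[],[[[Int.ofNat (nat_lit 291403127799954734772)]]]]]]]],[[[],[[[[[[Int.negSucc (nat_lit 291403127799954734771)]]]]]]]]],[[[],[[[[[[[Int.ofNat (nat_lit 291403127799954734772)]]]]]]]]]]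

/-- A coefficient. -/
noncomputable def sr7_m5_4_0 : MP 10 :=
  [[[[[[[[[],[],[[Int.negSucc (nat_lit 3286393174074191027)]]],[[[Int.negSucc (nat_lit 65576515179514613219)]]],[[[Int.negSucc (nat_lit 2449672647231851783)]]]],[[[],[[Int.negSucc (nat_lit 9592881918906646199)]]]]],[[[],[[[Int.negSucc (nat_lit 13801682435249591939)]]]]]],[[[[[],[[Int.negSucc (nat_lit 19827945871008362195)]]]]]]],[[[[[],[[[Int.negSucc (nat_lit 37871898002891509451)]]]]]]]],[[[[[[[],[[Int.negSucc (nat_lit 7380875706611147231)]]]]]],[[[[[[Int.ofNat (nat_lit 65576515179514613220)]]],[[[Int.ofNat (nat_lit 33119934206007580716)]]]]],[[[[[Int.ofNat (nat_lit 13801682435249591940)]]]]]]],[[[[[[],[[Int.negSucc (nat_lit 44233704479234645387)]]]],[[[[Int.negSucc (nat_lit 9592881918906646199)]]]]]],[[[[[[Int.ofNat (nat_lit 18043952131883147256)]]]]]]]],[[[[[[],[[[Int.negSucc (nat_lit 31398626496247328135)]]]]]],[],[[[[[[Int.negSucc (nat_lit 30670261558775728931)]]]]]]],[[[[[[[Int.negSucc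 (nat_lit 7380875706611147231)]]]]]]],[[[[[[[Int.negSucc (nat_lit 40947311305160454359)]]]]]]]],[[[],[[[[[[Int.ofNat (nat_lit 31398626496247328136)]]]]]]]]],[[[[[[[],[[[Int.ofNat (nat_lit 63448386500979989592)]]]]]],[[[[[],[[Int.negSucc (nat_lit 16454537910364907951)]]]],[[[[Int.negSucc (nat_lit 9592881918906646199)]]]]]],[[[[[[Int.negSucc (nat_lit 19827945871008362195)]]]]]]],[[[[[[[Int.negSucc (nat_lit 65576515179514613219)]]],[[[Int.negSucc (nat_lit 16944538690607344295)]]]]],[[[[[Int.negSucc (nat_lit 13801682435249591939)]]]]]]],[[[[[[[Int.negSucc (nat_lit 37871898002891509451)]]]]]]]],[[[[[[[],[[Int.ofNat (nat_lit 10600888142847072528)]]]]]],[[[[[[Int.negSucc (nat_lit 70829262207591136823)]]]]]]],[[],[[[[[[Int.negSucc (nat_lit 8950328439299949839)]]]]]]]],[[],[[[[[[[Int.negSucc (nat_lit 20797738353400255607)]]]]]]]]],[[[[[[[],[[[Int.ofNat (nat_lit 6294241607827776804)]]]]]],[],[[[[[[Int.negSucc (nat_lit 13168144736290716923)]]]]]]],[[[[[[[Int.ofNat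 (nat_lit 63448386500979989592)]]]]]]],[[[[[[[Int.negSucc (nat_lit 14494866043375492511)]]]]]]]],[[[],[[[[[[Int.ofNat (nat_lit 4306646535019295724)]]]]]]]]],[[[],[[[[[[[Int.ofNat (nat_lit 6294241607827776804)]]]]]]]]]]

/-- A coefficient. -/
noncomputable def sr7_m5_4_1 : MP 10 :=
  [[[[[[[[[],[[Int.negSucc (nat_lit 215332174345664842799)]]]],[[],[[[Int.negSucc (nat_lit 18933802706556999527)]]]]],[[[[],[[Int.ofNat (nat_lit 24122703594503560980)]]]]]],[[[[],[[[Int.ofNat (nat_lit 13662138608356195284)]]]]]]],[[[[[[],[[Int.ofNat (nat_lit 26169906237473705856)]]]]]]]],[[[[[[],[[[Int.ofNat (nat_lit 85810603343054139444)]]]]]],[[[],[[[[Int.ofNat (nat_lit 18933802706556999528)]]]]]],[[[[[[Int.negSucc (nat_lit 13662138608356195283)]]]]]]],[[[[[[[Int.negSucc (nat_lit 215332174345664842799)]]]]],[[[[[Int.ofNat (nat_lit 24122703594503560980)]]]]]]],[[[[[[[Int.ofNat (nat_lit 26169906237473705856)]]]]]]]],[[[[[[[],[[Int.negSucc (nat_lit 207878629859764560695)]]]]]],[[[[[[Int.negSucc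 (nat_lit 85810603343054139443)]]]]]]]],[[],[[[[[[[Int.negSucc (nat_lit 207878629859764560695)]]]]]]]]],[[[[[[[[],[[Int.negSucc (nat_lit 109446244416894648935)]]]]]],[[[[[[Int.negSucc (nat_lit 215332174345664842799)]]]]],[[[[[Int.ofNat (nat_lit 24122703594503560980)]]]]]]],[[[[],[[[[Int.negSucc (nat_lit 18933802706556999527)]]]]]],[[[[[[Int.ofNat (nat_lit 39832044845829901140)]]]]]]]],[[[[[[],[[[Int.negSucc (nat_lit 92279950032527145011)]]]]]]],[[[[[[[Int.negSucc (nat_lit 23635641073840509491)]]]]]]]],[[[],[[[[[[Int.negSucc (nat_lit 115598679827237415683)]]]]]]]]],[[[[[[[[],[[Int.ofNat (nat_lit 56207152023253267176)]]]]]],[[[[[[Int.negSucc (nat_lit 109446244416894648935)]]]]]]]],[[],[[[[[[[Int.negSucc (nat_lit 36072798009273877835)]]]]]]]]],[[[[],[[[[[[Int.ofNat (nat_lit 56207152023253267176)]]]]]]]]]]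

/-- A coefficient. -/
noncomputable def sr7_m5_4_2 : MP 10 :=
  [[[[[[[[],[[[Int.negSucc (nat_lit 553407490085125567559)]]]]]],[[[[[],[[Int.negSucc (nat_lit 44535160080628694519)]]]]]]],[[[[[],[[[Int.negSucc (nat_lit 183409892756380319951)]]]]]]]],[[[[[[[],[[Int.negSucc (nat_lit 220403481367139463551)]]]]]],[[[[[[Int.ofNat (nat_lit 553407490085125567560)]]]]]]],[[],[[[[[[Int.ofNat (nat_lit 138874732675751625432)]]]]]]]],[[],[[[[[[[Int.negSucc (nat_lit 220403481367139463551)]]]]]]]]],[[[[[[[],[[[Int.negSucc (nat_lit 399222850494144069047)]]]]]],[],[[[[[[Int.negSucc (nat_lit 44535160080628694519)]]]]]]],[[[[[[[Int.negSucc (nat_lit 553407490085125567559)]]]]]]],[[[[[[[Int.negSucc (nat_lit 183409892756380319951)]]]]]]]],[[[],[[[[[[Int.ofNat (nat_lit 178819369127004605496)]]]]]]]]],[[[],[[[[[[[Int.negSucc (nat_lit 399222850494144069047)]]]]]]]]]]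

/-- A coefficient. -/
noncomputable def sr7_m5_4_3 : MP 10 :=
  [[[[[[[[[],[[Int.ofNat (nat_lit 1181643117310360167528)]]]]]]]],[[[[[[],[[[Int.negSucc (nat_lit 360825293629497648587)]]]]]]],[[[[[[[Int.ofNat (nat_lit 1181643117310360167528)]]]]]]]],[[[],[[[[[[Int.ofNat (nat_lit 360825293629497648588)]]]]]]]]],[[[[[[[[],[[Int.ofNat (nat_lit 169249336787009645292)]]]]]],[[[[[[Int.ofNat (nat_lit 1181643117310360167528)]]]]]]]],[[],[[[[[[[Int.negSucc (nat_lit 191575956842488003295)]]]]]]]]],[[[[],[[[[[[Int.ofNat (nat_lit 169249336787009645292)]]]]]]]]]]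

/-- A coefficient. -/
noncomputable def sr7_m5_4_4 : MP 10 :=
  [[[[[[[[],[[[Int.ofNat (nat_lit 865755854482230000048)]]]]]]]],[[[],[[[[[[Int.negSucc (nat_lit 865755854482230000047)]]]]]]]]],[[[],[[[[[[[Int.ofNat (nat_lit 865755854482230000048)]]]]]]]]]]

/-- A coefficient. -/
noncomputable def sr7_m5_4_5 : MP 10 :=
  [[[[[[[[[],[[Int.negSucc (nat_lit 504952458369769226783)]]]]]]]],[[],[[[[[[[Int.negSucc (nat_lit 504952458369769226783)]]]]]]]]],[[[[],[[[[[[Int.negSucc (nat_lit 504952458369769226783)]]]]]]]]]]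

/-- A coefficient. -/
noncomputable def sr7_m5_5_0 : MP 10 :=
  [[[[[[[[],[[[Int.ofNat (nat_lit 32170763373067848372)]]]],[[[],[[Int.ofNat (nat_lit 1640094213000290952)]]]]],[[[],[[[Int.ofNat (nat_lit 17285888214805284)]]]]]],[[[[[],[[Int.ofNat (nat_lit 11462187998075190096)]]]]]]],[[[[[],[[[Int.ofNat (nat_lit 13251451507895951172)]]]]]]]],[[[[[[[],[[Int.negSucc (nat_lit 103177351137723532943)]]]]]],[[[[[[Int.negSucc (nat_lit 32170763373067848371)]]]]],[[[[[Int.negSucc (nat_lit 17285888214805283)]]]]]]],[[[[],[[[[Int.ofNat (nat_lit 1640094213000290952)]]]]]],[[[[[[Int.negSucc (nat_lit 1789263509820761075)]]]]]]]],[[[[[[],[[[Int.ofNat (nat_lit 35858089527318510552)]]]]]]],[[[[[[[Int.negSucc (nat_lit 103177351137723532943)]]]]]]]],[[[],[[[[[[Int.negSucc (nat_lit 35858089527318510551)]]]]]]]]],[[[[[[[],[[[Int.negSucc (nat_lit 79992457848248934227)]]]]]],[[[],[[[[Int.ofNat (nat_lit 1640094213000290952)]]]]]],[[[[[[Int.ofNat (nat_lit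 11462187998075190096)]]]]]]],[[[[[[[Int.ofNat (nat_lit 32170763373067848372)]]]]],[[[[[Int.ofNat (nat_lit 17285888214805284)]]]]]]],[[[[[[[Int.ofNat (nat_lit 13251451507895951172)]]]]]]]],[[[[[[[],[[Int.negSucc (nat_lit 46841341199601351575)]]]]]],[[[[[[Int.negSucc (nat_lit 23184893289474598715)]]]]]]]],[[],[[[[[[[Int.negSucc (nat_lit 10983251672282841023)]]]]]]]]],[[[[[[[],[[[Int.negSucc (nat_lit 5838176884408616327)]]]]]]],[[[[[[[Int.negSucc (nat_lit 79992457848248934227)]]]]]]]],[[[],[[[[[[Int.negSucc (nat_lit 41003164315192735247)]]]]]]]]],[[[],[[[[[[[Int.negSucc (nat_lit 5838176884408616327)]]]]]]]]]]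

/-- A coefficient. -/
noncomputable def sr7_m5_5_1 : MP 10 :=
  [[[[[[[[[],[[Int.ofNat (nat_lit 232836589059393727704)]]]]]],[[[[],[[[Int.ofNat (nat_lit 46903150526457309576)]]]]]]],[[[[[[],[[Int.negSucc (nat_lit 27074965520496234779)]]]]]]]],[[[[[[],[[[Int.negSucc (nat_lit 329069056392889086263)]]]]]],[],[[[[[[Int.negSucc (nat_lit 46903150526457309575)]]]]]]],[[[[[[[Int.ofNat (nat_lit 232836589059393727704)]]]]]]],[[[[[[[Int.negSucc (nat_lit 27074965520496234779)]]]]]]]],[[[],[[[[[[Int.ofNat (nat_lit 329069056392889086264)]]]]]]]]],[[[[[[[[],[[Int.ofNat (nat_lit 154006386039545650032)]]]]]],[[[[[[Int.ofNat (nat_lit 232836589059393727704)]]]]]]],[[],[[[[[[Int.ofNat (nat_lit 19828185005961074796)]]]]]]]],[[],[[[[[[[Int.negSucc (nat_lit 175062670353343436231)]]]]]]]]],[[[[],[[[[[[Int.ofNat (nat_lit 154006386039545650032)]]]]]]]]]]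

/-- A coefficient. -/
noncomputable def sr7_m5_5_2 : MP 10 :=
  [[[[[[[[],[[[Int.ofNat (nat_lit 295472205372838414080)]]]]]]]],[[[[[[[],[[Int.ofNat (nat_lit 473993239984665597828)]]]]]],[[[[[[Int.negSucc (nat_lit 295472205372838414079)]]]]]]]],[[],[[[[[[[Int.ofNat (nat_lit 473993239984665597828)]]]]]]]]],[[[[[[[],[[[Int.ofNat (nat_lit 226291787190323920728)]]]]]]],[[[[[[[Int.ofNat (nat_lit 295472205372838414080)]]]]]]]],[[[],[[[[[[Int.ofNat (nat_lit 247701452794341677100)]]]]]]]]],[[[],[[[[[[[Int.ofNat (nat_lit 226291787190323920728)]]]]]]]]]]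

/-- A coefficient. -/
noncomputable def sr7_m5_5_3 : MP 10 :=
  [[[[[[[[[],[[Int.negSucc (nat_lit 309322956409378703483)]]]]]]]],[[],[[[[[[[Int.negSucc (nat_lit 309322956409378703483)]]]]]]]]],[[[[],[[[[[[Int.negSucc (nat_lit 309322956409378703483)]]]]]]]]]]

/-- A coefficient. -/
noncomputable def sr7_m5_5_4 : MP 10 :=
  [[[[[[[[],[[[Int.negSucc (nat_lit 169333105663128601655)]]]]]]]],[[[],[[[[[[Int.ofNat (nat_lit 169333105663128601656)]]]]]]]]],[[[],[[[[[[[Int.negSucc (nat_lit 169333105663128601655)]]]]]]]]]]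

/-- A coefficient. -/
noncomputable def sr7_m5_6_0 : MP 10 :=
  [[[[[[[[],[[[Int.negSucc (nat_lit 23734256660413926539)]]]]]],[[[[[],[[Int.ofNat (nat_lit 549219340234219176)]]]]]]],[[[[[],[[[Int.ofNat (nat_lit 5410043157725777484)]]]]]]]],[[[[[[[],[[Int.ofNat (nat_lit 22100532377796022224)]]]]]],[[[[[[Int.ofNat (nat_lit 23734256660413926540)]]]]]]],[[],[[[[[[Int.negSucc (nat_lit 4860823817491558307)]]]]]]]],[[],[[[[[[[Int.ofNat (nat_lit 22100532377796022224)]]]]]]]]],[[[[[[[],[[[Int.negSucc (nat_lit 19154892336123455)]]]]]],[],[[[[[[Int.ofNat (nat_lit 549219340234219176)]]]]]]],[[[[[[[Int.negSucc (nat_lit 23734256660413926539)]]]]]]],[[[[[[[Int.ofNat (nat_lit 5410043157725777484)]]]]]]]],[[[],[[[[[[Int.ofNat (nat_lit 22119687270132145680)]]]]]]]]],[[[],[[[[[[[Int.negSucc (nat_lit 19154892336123455)]]]]]]]]]]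

/-- A coefficient. -/
noncomputable def sr7_m5_6_1 : MP 10 :=
  [[[[[[[[[],[[Int.negSucc (nat_lit 19493424796550979539)]]]]]]]],[[[[[[],[[[Int.ofNat (nat_lit 73521109282872409860)]]]]]]],[[[[[[[Int.negSucc (nat_lit 19493424796550979539)]]]]]]]],[[[],[[[[[[Int.negSucc (nat_lit 73521109282872409859)]]]]]]]]],[[[[[[[[],[[Int.negSucc (nat_lit 51052342083830594711)]]]]]],[[[[[[Int.negSucc (nat_lit 19493424796550979539)]]]]]]]],[[],[[[[[[[Int.ofNat (nat_lit 22468767199041815148)]]]]]]]]],[[[[],[[[[[[Int.negSucc (nat_lit 51052342083830594711)]]]]]]]]]]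

/-- A coefficient. -/
noncomputable def sr7_m5_6_2 : MP 10 :=
  [[[[[[[[],[[[Int.ofNat (nat_lit 400467573399457178556)]]]]]]]],[[[],[[[[[[Int.negSucc (nat_lit 400467573399457178555)]]]]]]]]],[[[],[[[[[[[Int.ofNat (nat_lit 400467573399457178556)]]]]]]]]]]

/-- A coefficient. -/
noncomputable def sr7_m5_6_3 : MP 10 :=
  [[[[[[[[[],[[Int.negSucc (nat_lit 293278184108528296415)]]]]]]]],[[],[[[[[[[Int.negSucc (nat_lit 293278184108528296415)]]]]]]]]],[[[[],[[[[[[Int.negSucc (nat_lit 293278184108528296415)]]]]]]]]]]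

/-- A coefficient. -/
noncomputable def sr7_m5_7_0 : MP 10 :=
  [[[[[[[[],[[[Int.negSucc (nat_lit 10338221088985549547)]]]]]]]],[[[[[[[],[[Int.ofNat (nat_lit 15363748368410778288)]]]]]],[[[[[[Int.ofNat (nat_lit 10338221088985549548)]]]]]]]],[[],[[[[[[[Int.ofNat (nat_lit 15363748368410778288)]]]]]]]]],[[[[[[[],[[[Int.ofNat (nat_lit 10933778457068100168)]]]]]]],[[[[[[[Int.negSucc (nat_lit 10338221088985549547)]]]]]]]],[[[],[[[[[[Int.ofNat (nat_lit 4429969911342678120)]]]]]]]]],[[[],[[[[[[[Int.ofNat (nat_lit 10933778457068100168)]]]]]]]]]]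

/-- A coefficient. -/
noncomputable def sr7_m5_7_1 : MP 10 :=
  [[[[[[[[[],[[Int.negSucc (nat_lit 60836576845265217887)]]]]]]]],[[],[[[[[[[Int.negSucc (nat_lit 60836576845265217887)]]]]]]]]],[[[[],[[[[[[Int.negSucc (nat_lit 60836576845265217887)]]]]]]]]]]

/-- A coefficient. -/
noncomputable def sr7_m5_7_2 : MP 10 :=
  [[[[[[[[],[[[Int.negSucc (nat_lit 201753588665023460267)]]]]]]]],[[[],[[[[[[Int.ofNat (nat_lit 201753588665023460268)]]]]]]]]],[[[],[[[[[[[Int.negSucc (nat_lit 201753588665023460267)]]]]]]]]]]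

/-- A coefficient. -/
noncomputable def sr7_m5_8_0 : MP 10 :=
  [[[[[[[[],[[[Int.ofNat (nat_lit 38961913258600708740)]]]]]]]],[[[],[[[[[[Int.negSucc (nat_lit 38961913258600708739)]]]]]]]]],[[[],[[[[[[[Int.ofNat (nat_lit 38961913258600708740)]]]]]]]]]]

/-- A coefficient. -/
noncomputable def sr7_m5_8_1 : MP 10 :=
  [[[[[[[[[],[[Int.ofNat (nat_lit 13964864699125850004)]]]]]]]],[[],[[[[[[[Int.ofNat (nat_lit 13964864699125850004)]]]]]]]]],[[[[],[[[[[[Int.ofNat (nat_lit 13964864699125850004)]]]]]]]]]]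

/-- A coefficient. -/
noncomputable def sr7_m5_9_0 : MP 10 :=
  [[[[[[[[],[[[Int.negSucc (nat_lit 15008103974225333243)]]]]]]]],[[[],[[[[[[Int.ofNat (nat_lit 15008103974225333244)]]]]]]]]],[[[],[[[[[[[Int.negSucc (nat_lit 15008103974225333243)]]]]]]]]]]

/-- An expanded part. -/
noncomputable def sr7_m5 : R12 :=
  [[sr7_m5_0_0, sr7_m5_0_1, sr7_m5_0_2, sr7_m5_0_3, sr7_m5_0_4, sr7_m5_0_5, sr7_m5_0_6, sr7_m5_0_7, sr7_m5_0_8, sr7_m5_0_9],
   [sr7_m5_1_0, sr7_m5_1_1, sr7_m5_1_2, sr7_m5_1_3, sr7_m5_1_4, sr7_m5_1_5, sr7_m5_1_6, sr7_m5_1_7, sr7_m5_1_8],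
   [sr7_m5_2_0, sr7_m5_2_1, sr7_m5_2_2, sr7_m5_2_3, sr7_m5_2_4, sr7_m5_2_5, sr7_m5_2_6, sr7_m5_2_7],
   [sr7_m5_3_0, sr7_m5_3_1, sr7_m5_3_2, sr7_m5_3_3, sr7_m5_3_4, sr7_m5_3_5, sr7_m5_3_6],
   [sr7_m5_4_0, sr7_m5_4_1, sr7_m5_4_2, sr7_m5_4_3, sr7_m5_4_4, sr7_m5_4_5],
   [sr7_m5_5_0, sr7_m5_5_1, sr7_m5_5_2, sr7_m5_5_3, sr7_m5_5_4],
   [sr7_m5_6_0, sr7_m5_6_1, sr7_m5_6_2, sr7_m5_6_3],
   [sr7_m5_7_0, sr7_m5_7_1, sr7_m5_7_2],
   [sr7_m5_8_0, sr7_m5_8_1],
   [sr7_m5_9_0]]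

set_option maxRecDepth 100000 in
theorem sr7_check5 : partOk 4 sr7_rows 5 sr7_m5 = true :=
  Fast.partOk_of_fast (by decide +kernel)

end Vale.Agent.P142K.CertB
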