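import Vale.Agent.P142K.CertB.Polys
import Vale.Agent.P142K.Fast
import Vale.Agent.P142K.CertB.Sr0
import Vale.Agent.P142K.CertB.Sr1
import Vale.Agent.P142K.CertB.Sr2
import Vale.Agent.P142K.CertB.Sr3
import Vale.Agent.P142K.CertB.Sr4
import Vale.Agent.P142K.CertB.Sr5
import Vale.Agent.P142K.CertB.Sr6
import Vale.Agent.P142K.CertB.Sr7
import Vale.Agent.P142K.CertB.Sp0
import Vale.Agent.P142K.CertB.Sp1
import Vale.Agent.P142K.CertB.Sp2
import Vale.Agent.P142K.CertB.Sp3
import Vale.Agent.P142K.CertB.Sp4
import Vale.Agent.P142K.CertB.Sp5

/-!
# A certificate with `t = -1875/1000` and `α = 999/1000`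

Generated from a semidefinite program; only the checker is trusted.
-/

namespace Vale.Agent.P142K.CertB

open Vale.Agent.P142J (MP)

/-- The certificate. -/
noncomputable def data : Data where
  tn := 1875
  den := 1000
  an := 999
  p := polyP
  q := polyQ
  sr := [sr0, sr1, sr2, sr3, sr4, sr5, sr6, sr7]
  sp := [sp0, sp1, sp2, sp3, sp4, sp5]
  er := 21617278211378380
  ep := 5404319552844

/-- The bounds of the slices. -/
def sliceBounds : List ℕ :=
  [441999847163612, 507224120152362, 261462350573141, 155827224225984, 115655569757046, 106538511133944, 118314405221637, 114397271153526,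
    80733345276282, 63442441802008, 25681530432841, 12647106742020, 3262357955930, 701258386674, 154076656889]

set_option maxRecDepth 100000 in
theorem rate_len : Fast.rateLen data sliceBounds = true := by decide +kernel

set_option maxRecDepth 100000 in
theorem rate_slice0 : Fast.rateSlice data 0 (sliceBounds.getD 0 0) = true := by
  decide +kernel

set_option maxRecDepth 100000 in
theorem rate_slice1 : Fast.rateSlice data 1 (sliceBounds.getD 1 0) = true := by
  decide +kernel

set_option maxRecDepth 100000 in
theorem rate_slice2 : Fast.rateSlice data 2 (sliceBounds.getD 2 0) = true := by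
  decide +kernel

set_option maxRecDepth 100000 in
theorem rate_slice3 : Fast.rateSlice data 3 (sliceBounds.getD 3 0) = true := by
  decide +kernel

set_option maxRecDepth 100000 in
theorem rate_slice4 : Fast.rateSlice data 4 (sliceBounds.getD 4 0) = true := by
  decide +kernel

set_option maxRecDepth 100000 in
theorem rate_slice5 : Fast.rateSlice data 5 (sliceBounds.getD 5 0) = true := by
  decide +kernel

set_option maxRecDepth 100000 in
theorem rate_slice6 : Fast.rateSlice data 6 (sliceBounds.getD 6 0) = true := by
  decide +kernel

set_option maxRecDepth 100000 in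
theorem rate_slice7 : Fast.rateSlice data 7 (sliceBounds.getD 7 0) = true := by
  decide +kernel

set_option maxRecDepth 100000 in
theorem rate_slice8 : Fast.rateSlice data 8 (sliceBounds.getD 8 0) = true := by
  decide +kernel

set_option maxRecDepth 100000 in
theorem rate_slice9 : Fast.rateSlice data 9 (sliceBounds.getD 9 0) = true := by
  decide +kernel

set_option maxRecDepth 100000 in
theorem rate_slice10 : Fast.rateSlice data 10 (sliceBounds.getD 10 0) = true := by
  decide +kernel

set_option maxRecDepth 100000 in
theorem rate_slice11 : Fast.rateSlice data 11 (sliceBounds.getD 11 0) = true := by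
  decide +kernel

set_option maxRecDepth 100000 in
theorem rate_slice12 : Fast.rateSlice data 12 (sliceBounds.getD 12 0) = true := by
  decide +kernel

set_option maxRecDepth 100000 in
theorem rate_slice13 : Fast.rateSlice data 13 (sliceBounds.getD 13 0) = true := by
  decide +kernel

set_option maxRecDepth 100000 in
theorem rate_slice14 : Fast.rateSlice data 14 (sliceBounds.getD 14 0) = true := by
  decide +kernel

theorem check_rate : data.checkRate = true :=
  Fast.checkRate_of_slices sliceBounds rate_len fun i hi => by
    match i, hi with
    | 0, _ => exact rate_slice0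
    | 1, _ => exact rate_slice1
    | 2, _ => exact rate_slice2
    | 3, _ => exact rate_slice3
    | 4, _ => exact rate_slice4
    | 5, _ => exact rate_slice5
    | 6, _ => exact rate_slice6
    | 7, _ => exact rate_slice7
    | 8, _ => exact rate_slice8
    | 9, _ => exact rate_slice9
    | 10, _ => exact rate_slice10
    | 11, _ => exact rate_slice11
    | 12, _ => exact rate_slice12
    | 13, _ => exact rate_slice13
    | 14, _ => exact rate_slice14
    | _ + 15, h => exact absurd h (by simp [sliceBounds])

set_option maxRecDepth 100000 in
theorem check_pos : data.checkPos = true := by decide +kernel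

theorem cert : Cert (-((1875 : ℤ) : ℝ) / (1000 : ℕ)) (((999 : ℤ) : ℝ) / (1000 : ℕ))
    (polyFun polyP) (polyFun polyQ) :=
  cert_of_check data (by decide)
    (by simp [data, sr0_ok, sr1_ok, sr2_ok, sr3_ok, sr4_ok, sr5_ok, sr6_ok, sr7_ok])
    (by simp [data, sp0_ok, sp1_ok, sp2_ok, sp3_ok, sp4_ok, sp5_ok]) check_rate check_pos

end Vale.Agent.P142K.CertB
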