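import Vale.Agent.P142K.Checker

/-!
# The polynomials of the certificate at `t = -1875/1000`

Generated from a semidefinite program; only the checker is trusted.
-/

namespace Vale.Agent.P142K.CertB

open Vale.Agent.P142J (MP)

/-- Monomials. -/
noncomputable def polyP_0 : List (List ℕ × ℤ) :=
  [([(nat_lit 0),(nat_lit 0),(nat_lit 0),(nat_lit 0),(nat_lit 0),(nat_lit 0),(nat_lit 0),(nat_lit 0),(nat_lit 0),(nat_lit 0)], Int.ofNat (nat_lit 4358056676548524)),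
   ([(nat_lit 0),(nat_lit 0),(nat_lit 0),(nat_lit 0),(nat_lit 0),(nat_lit 0),(nat_lit 0),(nat_lit 0),(nat_lit 1),(nat_lit 0)], Int.ofNat (nat_lit 1285265090713962)),
   ([(nat_lit 0),(nat_lit 0),(nat_lit 0),(nat_lit 0),(nat_lit 0),(nat_lit 0),(nat_lit 0),(nat_lit 1),(nat_lit 0),(nat_lit 1)], Int.negSucc (nat_lit 222967542038883)),
   ([(nat_lit 0),(nat_lit 0),(nat_lit 0),(nat_lit 0),(nat_lit 0),(nat_lit 0),(nat_lit 0),(nat_lit 2),(nat_lit 0),(nat_lit 0)], Int.ofNat (nat_lit 5248207688855262)),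
   ([(nat_lit 0),(nat_lit 0),(nat_lit 0),(nat_lit 0),(nat_lit 0),(nat_lit 0),(nat_lit 1),(nat_lit 0),(nat_lit 0),(nat_lit 0)], Int.negSucc (nat_lit 1123796889816334)),
   ([(nat_lit 0),(nat_lit 0),(nat_lit 0),(nat_lit 0),(nat_lit 0),(nat_lit 0),(nat_lit 1),(nat_lit 0),(nat_lit 1),(nat_lit 0)], Int.ofNat (nat_lit 3333605404282293)),
   ([(nat_lit 0),(nat_lit 0),(nat_lit 0),(nat_lit 0),(nat_lit 0),(nat_lit 0),(nat_lit 2),(nat_lit 0),(nat_lit 0),(nat_lit 0)], Int.ofNat (nat_lit 2648622756034972)),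
   ([(nat_lit 0),(nat_lit 0),(nat_lit 0),(nat_lit 0),(nat_lit 0),(nat_lit 1),(nat_lit 0),(nat_lit 0),(nat_lit 0),(nat_lit 1)], Int.ofNat (nat_lit 4286960535978986)),
   ([(nat_lit 0),(nat_lit 0),(nat_lit 0),(nat_lit 0),(nat_lit 0),(nat_lit 1),(nat_lit 0),(nat_lit 1),(nat_lit 0),(nat_lit 0)], Int.ofNat (nat_lit 4422587118526928)),
   ([(nat_lit 0),(nat_lit 0),(nat_lit 0),(nat_lit 0),(nat_lit 0),(nat_lit 2),(nat_lit 0),(nat_lit 0),(nat_lit 0),(nat_lit 0)], Int.negSucc (nat_lit 988375080838084)),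
   ([(nat_lit 0),(nat_lit 0),(nat_lit 0),(nat_lit 0),(nat_lit 0),(nat_lit 2),(nat_lit 0),(nat_lit 0),(nat_lit 1),(nat_lit 0)], Int.ofNat (nat_lit 356929552351583)),
   ([(nat_lit 0),(nat_lit 0),(nat_lit 0),(nat_lit 0),(nat_lit 0),(nat_lit 2),(nat_lit 1),(nat_lit 0),(nat_lit 0),(nat_lit 0)], Int.ofNat (nat_lit 801374683224237)),
   ([(nat_lit 0),(nat_lit 0),(nat_lit 0),(nat_lit 0),(nat_lit 0),(nat_lit 4),(nat_lit 0),(nat_lit 0),(nat_lit 0),(nat_lit 0)], Int.ofNat (nat_lit 339968377020417)),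
   ([(nat_lit 0),(nat_lit 0),(nat_lit 0),(nat_lit 0),(nat_lit 1),(nat_lit 0),(nat_lit 0),(nat_lit 0),(nat_lit 0),(nat_lit 0)], Int.negSucc (nat_lit 1997222934874377)),
   ([(nat_lit 0),(nat_lit 0),(nat_lit 0),(nat_lit 0),(nat_lit 1),(nat_lit 0),(nat_lit 0),(nat_lit 0),(nat_lit 1),(nat_lit 0)], Int.negSucc (nat_lit 7529144006697882)),
   ([(nat_lit 0),(nat_lit 0),(nat_lit 0),(nat_lit 0),(nat_lit 1),(nat_lit 0),(nat_lit 1),(nat_lit 0),(nat_lit 0),(nat_lit 0)], Int.ofNat (nat_lit 2034847782687854)),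
   ([(nat_lit 0),(nat_lit 0),(nat_lit 0),(nat_lit 0),(nat_lit 1),(nat_lit 1),(nat_lit 0),(nat_lit 0),(nat_lit 0),(nat_lit 1)], Int.negSucc (nat_lit 773127631079037)),
   ([(nat_lit 0),(nat_lit 0),(nat_lit 0),(nat_lit 0),(nat_lit 1),(nat_lit 1),(nat_lit 0),(nat_lit 1),(nat_lit 0),(nat_lit 0)], Int.negSucc (nat_lit 4977065756650383)),
   ([(nat_lit 0),(nat_lit 0),(nat_lit 0),(nat_lit 0),(nat_lit 1),(nat_lit 2),(nat_lit 0),(nat_lit 0),(nat_lit 0),(nat_lit 0)], Int.negSucc (nat_lit 986626577364641)),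
   ([(nat_lit 0),(nat_lit 0),(nat_lit 0),(nat_lit 0),(nat_lit 2),(nat_lit 0),(nat_lit 0),(nat_lit 0),(nat_lit 0),(nat_lit 0)], Int.ofNat (nat_lit 13959391600733084)),
   ([(nat_lit 0),(nat_lit 0),(nat_lit 0),(nat_lit 0),(nat_lit 2),(nat_lit 0),(nat_lit 0),(nat_lit 0),(nat_lit 1),(nat_lit 0)], Int.negSucc (nat_lit 156979407788942)),
   ([(nat_lit 0),(nat_lit 0),(nat_lit 0),(nat_lit 0),(nat_lit 2),(nat_lit 0),(nat_lit 1),(nat_lit 0),(nat_lit 0),(nat_lit 0)], Int.negSucc (nat_lit 3400054186199699)),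
   ([(nat_lit 0),(nat_lit 0),(nat_lit 0),(nat_lit 0),(nat_lit 2),(nat_lit 2),(nat_lit 0),(nat_lit 0),(nat_lit 0),(nat_lit 0)], Int.ofNat (nat_lit 1187388085968877)),
   ([(nat_lit 0),(nat_lit 0),(nat_lit 0),(nat_lit 0),(nat_lit 3),(nat_lit 0),(nat_lit 0),(nat_lit 0),(nat_lit 0),(nat_lit 0)], Int.negSucc (nat_lit 1595035180942841)),
   ([(nat_lit 0),(nat_lit 0),(nat_lit 0),(nat_lit 0),(nat_lit 4),(nat_lit 0),(nat_lit 0),(nat_lit 0),(nat_lit 0),(nat_lit 0)], Int.ofNat (nat_lit 832981854029398)),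
   ([(nat_lit 0),(nat_lit 0),(nat_lit 0),(nat_lit 1),(nat_lit 0),(nat_lit 0),(nat_lit 0),(nat_lit 0),(nat_lit 0),(nat_lit 1)], Int.negSucc (nat_lit 7566226785738811)),
   ([(nat_lit 0),(nat_lit 0),(nat_lit 0),(nat_lit 1),(nat_lit 0),(nat_lit 0),(nat_lit 0),(nat_lit 1),(nat_lit 0),(nat_lit 0)], Int.negSucc (nat_lit 11713107792149547)),
   ([(nat_lit 0),(nat_lit 0),(nat_lit 0),(nat_lit 1),(nat_lit 0),(nat_lit 0),(nat_lit 0),(nat_lit 1),(nat_lit 1),(nat_lit 0)], Int.negSucc (nat_lit 1810946607139394)),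
   ([(nat_lit 0),(nat_lit 0),(nat_lit 0),(nat_lit 1),(nat_lit 0),(nat_lit 0),(nat_lit 1),(nat_lit 0),(nat_lit 0),(nat_lit 1)], Int.ofNat (nat_lit 2427183279344896)),
   ([(nat_lit 0),(nat_lit 0),(nat_lit 0),(nat_lit 1),(nat_lit 0),(nat_lit 0),(nat_lit 1),(nat_lit 1),(nat_lit 0),(nat_lit 0)], Int.ofNat (nat_lit 3150318927452170)),
   ([(nat_lit 0),(nat_lit 0),(nat_lit 0),(nat_lit 1),(nat_lit 0),(nat_lit 1),(nat_lit 0),(nat_lit 0),(nat_lit 0),(nat_lit 0)], Int.negSucc (nat_lit 3719789231696664)),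
   ([(nat_lit 0),(nat_lit 0),(nat_lit 0),(nat_lit 1),(nat_lit 0),(nat_lit 1),(nat_lit 0),(nat_lit 0),(nat_lit 1),(nat_lit 0)], Int.negSucc (nat_lit 3022088411074709)),
   ([(nat_lit 0),(nat_lit 0),(nat_lit 0),(nat_lit 1),(nat_lit 0),(nat_lit 1),(nat_lit 1),(nat_lit 0),(nat_lit 0),(nat_lit 0)], Int.ofNat (nat_lit 1213053341770234)),
   ([(nat_lit 0),(nat_lit 0),(nat_lit 0),(nat_lit 1),(nat_lit 0),(nat_lit 2),(nat_lit 0),(nat_lit 1),(nat_lit 0),(nat_lit 0)], Int.negSucc (nat_lit 881475352243401)),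
   ([(nat_lit 0),(nat_lit 0),(nat_lit 0),(nat_lit 1),(nat_lit 0),(nat_lit 3),(nat_lit 0),(nat_lit 0),(nat_lit 0),(nat_lit 0)], Int.negSucc (nat_lit 889517984143092)),
   ([(nat_lit 0),(nat_lit 0),(nat_lit 0),(nat_lit 1),(nat_lit 1),(nat_lit 0),(nat_lit 0),(nat_lit 0),(nat_lit 0),(nat_lit 1)], Int.ofNat (nat_lit 2896158706681110)),
   ([(nat_lit 0),(nat_lit 0),(nat_lit 0),(nat_lit 1),(nat_lit 1),(nat_lit 0),(nat_lit 0),(nat_lit 1),(nat_lit 0),(nat_lit 0)], Int.negSucc (nat_lit 4377997490708783)),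
   ([(nat_lit 0),(nat_lit 0),(nat_lit 0),(nat_lit 1),(nat_lit 1),(nat_lit 1),(nat_lit 0),(nat_lit 0),(nat_lit 0),(nat_lit 0)], Int.ofNat (nat_lit 3438739128689985)),
   ([(nat_lit 0),(nat_lit 0),(nat_lit 0),(nat_lit 1),(nat_lit 1),(nat_lit 1),(nat_lit 1),(nat_lit 0),(nat_lit 0),(nat_lit 0)], Int.negSucc (nat_lit 1602693790704073)),
   ([(nat_lit 0),(nat_lit 0),(nat_lit 0),(nat_lit 1),(nat_lit 2),(nat_lit 0),(nat_lit 0),(nat_lit 1),(nat_lit 0),(nat_lit 0)], Int.ofNat (nat_lit 182956885701522)),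
   ([(nat_lit 0),(nat_lit 0),(nat_lit 0),(nat_lit 1),(nat_lit 2),(nat_lit 1),(nat_lit 0),(nat_lit 0),(nat_lit 0),(nat_lit 0)], Int.negSucc (nat_lit 1256916853806083)),
   ([(nat_lit 0),(nat_lit 0),(nat_lit 0),(nat_lit 2),(nat_lit 0),(nat_lit 0),(nat_lit 0),(nat_lit 0),(nat_lit 0),(nat_lit 0)], Int.ofNat (nat_lit 12159764829452480)),
   ([(nat_lit 0),(nat_lit 0),(nat_lit 0),(nat_lit 2),(nat_lit 0),(nat_lit 0),(nat_lit 0),(nat_lit 0),(nat_lit 1),(nat_lit 0)], Int.ofNat (nat_lit 2351433937472372)),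
   ([(nat_lit 0),(nat_lit 0),(nat_lit 0),(nat_lit 2),(nat_lit 0),(nat_lit 0),(nat_lit 0),(nat_lit 2),(nat_lit 0),(nat_lit 0)], Int.ofNat (nat_lit 1548421143556545)),
   ([(nat_lit 0),(nat_lit 0),(nat_lit 0),(nat_lit 2),(nat_lit 0),(nat_lit 0),(nat_lit 1),(nat_lit 0),(nat_lit 0),(nat_lit 0)], Int.negSucc (nat_lit 7995280942837107)),
   ([(nat_lit 0),(nat_lit 0),(nat_lit 0),(nat_lit 2),(nat_lit 0),(nat_lit 0),(nat_lit 2),(nat_lit 0),(nat_lit 0),(nat_lit 0)], Int.ofNat (nat_lit 1252794275168128)),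
   ([(nat_lit 0),(nat_lit 0),(nat_lit 0),(nat_lit 2),(nat_lit 0),(nat_lit 1),(nat_lit 0),(nat_lit 1),(nat_lit 0),(nat_lit 0)], Int.ofNat (nat_lit 278318261961854)),
   ([(nat_lit 0),(nat_lit 0),(nat_lit 0),(nat_lit 2),(nat_lit 0),(nat_lit 2),(nat_lit 0),(nat_lit 0),(nat_lit 0),(nat_lit 0)], Int.ofNat (nat_lit 2650891743297078)),
   ([(nat_lit 0),(nat_lit 0),(nat_lit 0),(nat_lit 2),(nat_lit 1),(nat_lit 0),(nat_lit 0),(nat_lit 0),(nat_lit 0),(nat_lit 0)], Int.negSucc (nat_lit 7690011279429088)),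
   ([(nat_lit 0),(nat_lit 0),(nat_lit 0),(nat_lit 2),(nat_lit 1),(nat_lit 0),(nat_lit 1),(nat_lit 0),(nat_lit 0),(nat_lit 0)], Int.negSucc (nat_lit 336646926250964)),
   ([(nat_lit 0),(nat_lit 0),(nat_lit 0),(nat_lit 2),(nat_lit 2),(nat_lit 0),(nat_lit 0),(nat_lit 0),(nat_lit 0),(nat_lit 0)], Int.ofNat (nat_lit 4952794385785296)),
   ([(nat_lit 0),(nat_lit 0),(nat_lit 0),(nat_lit 3),(nat_lit 0),(nat_lit 0),(nat_lit 0),(nat_lit 1),(nat_lit 0),(nat_lit 0)], Int.ofNat (nat_lit 1185081611401954)),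
   ([(nat_lit 0),(nat_lit 0),(nat_lit 0),(nat_lit 3),(nat_lit 0),(nat_lit 1),(nat_lit 0),(nat_lit 0),(nat_lit 0),(nat_lit 0)], Int.negSucc (nat_lit 2782627384709461)),
   ([(nat_lit 0),(nat_lit 0),(nat_lit 0),(nat_lit 4),(nat_lit 0),(nat_lit 0),(nat_lit 0),(nat_lit 0),(nat_lit 0),(nat_lit 0)], Int.ofNat (nat_lit 1564588936657374)),
   ([(nat_lit 0),(nat_lit 0),(nat_lit 1),(nat_lit 0),(nat_lit 0),(nat_lit 0),(nat_lit 0),(nat_lit 0),(nat_lit 0),(nat_lit 0)], Int.ofNat (nat_lit 4104396645493044)),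
   ([(nat_lit 0),(nat_lit 0),(nat_lit 1),(nat_lit 0),(nat_lit 0),(nat_lit 0),(nat_lit 0),(nat_lit 0),(nat_lit 1),(nat_lit 0)], Int.ofNat (nat_lit 1184174375725302)),
   ([(nat_lit 0),(nat_lit 0),(nat_lit 1),(nat_lit 0),(nat_lit 0),(nat_lit 0),(nat_lit 0),(nat_lit 1),(nat_lit 0),(nat_lit 1)], Int.ofNat (nat_lit 1322407941435576)),
   ([(nat_lit 0),(nat_lit 0),(nat_lit 1),(nat_lit 0),(nat_lit 0),(nat_lit 0),(nat_lit 0),(nat_lit 2),(nat_lit 0),(nat_lit 0)], Int.negSucc (nat_lit 916379664946097)),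
   ([(nat_lit 0),(nat_lit 0),(nat_lit 1),(nat_lit 0),(nat_lit 0),(nat_lit 0),(nat_lit 1),(nat_lit 0),(nat_lit 0),(nat_lit 0)], Int.ofNat (nat_lit 1005875926590437)),
   ([(nat_lit 0),(nat_lit 0),(nat_lit 1),(nat_lit 0),(nat_lit 0),(nat_lit 0),(nat_lit 1),(nat_lit 0),(nat_lit 1),(nat_lit 0)], Int.ofNat (nat_lit 1241054065015294)),
   ([(nat_lit 0),(nat_lit 0),(nat_lit 1),(nat_lit 0),(nat_lit 0),(nat_lit 0),(nat_lit 2),(nat_lit 0),(nat_lit 0),(nat_lit 0)], Int.ofNat (nat_lit 1787524272185776)),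
   ([(nat_lit 0),(nat_lit 0),(nat_lit 1),(nat_lit 0),(nat_lit 0),(nat_lit 1),(nat_lit 0),(nat_lit 0),(nat_lit 0),(nat_lit 1)], Int.ofNat (nat_lit 6363567329662124)),
   ([(nat_lit 0),(nat_lit 0),(nat_lit 1),(nat_lit 0),(nat_lit 0),(nat_lit 1),(nat_lit 0),(nat_lit 1),(nat_lit 0),(nat_lit 0)], Int.ofNat (nat_lit 7440275022017043)),
   ([(nat_lit 0),(nat_lit 0),(nat_lit 1),(nat_lit 0),(nat_lit 0),(nat_lit 2),(nat_lit 0),(nat_lit 0),(nat_lit 0),(nat_lit 0)], Int.negSucc (nat_lit 170280172743555)),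
   ([(nat_lit 0),(nat_lit 0),(nat_lit 1),(nat_lit 0),(nat_lit 0),(nat_lit 2),(nat_lit 1),(nat_lit 0),(nat_lit 0),(nat_lit 0)], Int.ofNat (nat_lit 100580585766653)),
   ([(nat_lit 0),(nat_lit 0),(nat_lit 1),(nat_lit 0),(nat_lit 1),(nat_lit 0),(nat_lit 0),(nat_lit 0),(nat_lit 0),(nat_lit 0)], Int.negSucc (nat_lit 23333141968309207)),
   ([(nat_lit 0),(nat_lit 0),(nat_lit 1),(nat_lit 0),(nat_lit 1),(nat_lit 0),(nat_lit 0),(nat_lit 0),(nat_lit 1),(nat_lit 0)], Int.ofNat (nat_lit 6079401117675002)),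
   ([(nat_lit 0),(nat_lit 0),(nat_lit 1),(nat_lit 0),(nat_lit 1),(nat_lit 0),(nat_lit 1),(nat_lit 0),(nat_lit 0),(nat_lit 0)], Int.ofNat (nat_lit 6307874630399431)),
   ([(nat_lit 0),(nat_lit 0),(nat_lit 1),(nat_lit 0),(nat_lit 1),(nat_lit 1),(nat_lit 0),(nat_lit 1),(nat_lit 0),(nat_lit 0)], Int.negSucc (nat_lit 444049482201356)),
   ([(nat_lit 0),(nat_lit 0),(nat_lit 1),(nat_lit 0),(nat_lit 1),(nat_lit 2),(nat_lit 0),(nat_lit 0),(nat_lit 0),(nat_lit 0)], Int.negSucc (nat_lit 2286515149295285)),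
   ([(nat_lit 0),(nat_lit 0),(nat_lit 1),(nat_lit 0),(nat_lit 2),(nat_lit 0),(nat_lit 0),(nat_lit 0),(nat_lit 0),(nat_lit 0)], Int.negSucc (nat_lit 3959436346230415)),
   ([(nat_lit 0),(nat_lit 0),(nat_lit 1),(nat_lit 0),(nat_lit 2),(nat_lit 0),(nat_lit 1),(nat_lit 0),(nat_lit 0),(nat_lit 0)], Int.negSucc (nat_lit 1054338711004961)),
   ([(nat_lit 0),(nat_lit 0),(nat_lit 1),(nat_lit 0),(nat_lit 3),(nat_lit 0),(nat_lit 0),(nat_lit 0),(nat_lit 0),(nat_lit 0)], Int.negSucc (nat_lit 2584559894966558)),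
   ([(nat_lit 0),(nat_lit 0),(nat_lit 1),(nat_lit 1),(nat_lit 0),(nat_lit 0),(nat_lit 0),(nat_lit 0),(nat_lit 0),(nat_lit 1)], Int.negSucc (nat_lit 3684323198523442)),
   ([(nat_lit 0),(nat_lit 0),(nat_lit 1),(nat_lit 1),(nat_lit 0),(nat_lit 0),(nat_lit 0),(nat_lit 1),(nat_lit 0),(nat_lit 0)], Int.ofNat (nat_lit 15698212174852490)),
   ([(nat_lit 0),(nat_lit 0),(nat_lit 1),(nat_lit 1),(nat_lit 0),(nat_lit 0),(nat_lit 1),(nat_lit 1),(nat_lit 0),(nat_lit 0)], Int.ofNat (nat_lit 537640027368630)),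
   ([(nat_lit 0),(nat_lit 0),(nat_lit 1),(nat_lit 1),(nat_lit 0),(nat_lit 1),(nat_lit 0),(nat_lit 0),(nat_lit 0),(nat_lit 0)], Int.negSucc (nat_lit 2362058743011039)),
   ([(nat_lit 0),(nat_lit 0),(nat_lit 1),(nat_lit 1),(nat_lit 0),(nat_lit 1),(nat_lit 1),(nat_lit 0),(nat_lit 0),(nat_lit 0)], Int.ofNat (nat_lit 1168727030875563)),
   ([(nat_lit 0),(nat_lit 0),(nat_lit 1),(nat_lit 1),(nat_lit 1),(nat_lit 0),(nat_lit 0),(nat_lit 1),(nat_lit 0),(nat_lit 0)], Int.ofNat (nat_lit 1387395701208242)),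
   ([(nat_lit 0),(nat_lit 0),(nat_lit 1),(nat_lit 1),(nat_lit 1),(nat_lit 1),(nat_lit 0),(nat_lit 0),(nat_lit 0),(nat_lit 0)], Int.negSucc (nat_lit 2398425388054357)),
   ([(nat_lit 0),(nat_lit 0),(nat_lit 1),(nat_lit 2),(nat_lit 0),(nat_lit 0),(nat_lit 0),(nat_lit 0),(nat_lit 0),(nat_lit 0)], Int.ofNat (nat_lit 3645034661597616)),
   ([(nat_lit 0),(nat_lit 0),(nat_lit 1),(nat_lit 2),(nat_lit 0),(nat_lit 0),(nat_lit 1),(nat_lit 0),(nat_lit 0),(nat_lit 0)], Int.ofNat (nat_lit 2600130864405792)),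
   ([(nat_lit 0),(nat_lit 0),(nat_lit 1),(nat_lit 2),(nat_lit 1),(nat_lit 0),(nat_lit 0),(nat_lit 0),(nat_lit 0),(nat_lit 0)], Int.negSucc (nat_lit 5261397176820284)),
   ([(nat_lit 0),(nat_lit 0),(nat_lit 2),(nat_lit 0),(nat_lit 0),(nat_lit 0),(nat_lit 0),(nat_lit 0),(nat_lit 0),(nat_lit 0)], Int.ofNat (nat_lit 15346040345242820)),
   ([(nat_lit 0),(nat_lit 0),(nat_lit 2),(nat_lit 0),(nat_lit 0),(nat_lit 0),(nat_lit 0),(nat_lit 0),(nat_lit 1),(nat_lit 0)], Int.negSucc (nat_lit 252819252023528)),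
   ([(nat_lit 0),(nat_lit 0),(nat_lit 2),(nat_lit 0),(nat_lit 0),(nat_lit 0),(nat_lit 0),(nat_lit 2),(nat_lit 0),(nat_lit 0)], Int.ofNat (nat_lit 781393397208555)),
   ([(nat_lit 0),(nat_lit 0),(nat_lit 2),(nat_lit 0),(nat_lit 0),(nat_lit 0),(nat_lit 1),(nat_lit 0),(nat_lit 0),(nat_lit 0)], Int.ofNat (nat_lit 6355598105095530)),
   ([(nat_lit 0),(nat_lit 0),(nat_lit 2),(nat_lit 0),(nat_lit 0),(nat_lit 0),(nat_lit 2),(nat_lit 0),(nat_lit 0),(nat_lit 0)], Int.ofNat (nat_lit 1019494174580526)),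
   ([(nat_lit 0),(nat_lit 0),(nat_lit 2),(nat_lit 0),(nat_lit 0),(nat_lit 1),(nat_lit 0),(nat_lit 1),(nat_lit 0),(nat_lit 0)], Int.ofNat (nat_lit 429979063527498)),
   ([(nat_lit 0),(nat_lit 0),(nat_lit 2),(nat_lit 0),(nat_lit 0),(nat_lit 2),(nat_lit 0),(nat_lit 0),(nat_lit 0),(nat_lit 0)], Int.ofNat (nat_lit 3888024468613185)),
   ([(nat_lit 0),(nat_lit 0),(nat_lit 2),(nat_lit 0),(nat_lit 1),(nat_lit 0),(nat_lit 0),(nat_lit 0),(nat_lit 0),(nat_lit 0)], Int.negSucc (nat_lit 2593006056902775)),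
   ([(nat_lit 0),(nat_lit 0),(nat_lit 2),(nat_lit 0),(nat_lit 1),(nat_lit 0),(nat_lit 1),(nat_lit 0),(nat_lit 0),(nat_lit 0)], Int.ofNat (nat_lit 2028708434719106)),
   ([(nat_lit 0),(nat_lit 0),(nat_lit 2),(nat_lit 0),(nat_lit 2),(nat_lit 0),(nat_lit 0),(nat_lit 0),(nat_lit 0),(nat_lit 0)], Int.ofNat (nat_lit 4528884029717352)),
   ([(nat_lit 0),(nat_lit 0),(nat_lit 2),(nat_lit 1),(nat_lit 0),(nat_lit 0),(nat_lit 0),(nat_lit 1),(nat_lit 0),(nat_lit 0)], Int.negSucc (nat_lit 1828290007431032)),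
   ([(nat_lit 0),(nat_lit 0),(nat_lit 2),(nat_lit 1),(nat_lit 0),(nat_lit 1),(nat_lit 0),(nat_lit 0),(nat_lit 0),(nat_lit 0)], Int.ofNat (nat_lit 1248775137797281)),
   ([(nat_lit 0),(nat_lit 0),(nat_lit 2),(nat_lit 2),(nat_lit 0),(nat_lit 0),(nat_lit 0),(nat_lit 0),(nat_lit 0),(nat_lit 0)], Int.ofNat (nat_lit 3305527997817748)),
   ([(nat_lit 0),(nat_lit 0),(nat_lit 3),(nat_lit 0),(nat_lit 0),(nat_lit 0),(nat_lit 0),(nat_lit 0),(nat_lit 0),(nat_lit 0)], Int.ofNat (nat_lit 8831957251109408)),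
   ([(nat_lit 0),(nat_lit 0),(nat_lit 3),(nat_lit 0),(nat_lit 0),(nat_lit 0),(nat_lit 1),(nat_lit 0),(nat_lit 0),(nat_lit 0)], Int.negSucc (nat_lit 132912332169113)),
   ([(nat_lit 0),(nat_lit 0),(nat_lit 3),(nat_lit 0),(nat_lit 1),(nat_lit 0),(nat_lit 0),(nat_lit 0),(nat_lit 0),(nat_lit 0)], Int.negSucc (nat_lit 2837323016453582)),
   ([(nat_lit 0),(nat_lit 0),(nat_lit 4),(nat_lit 0),(nat_lit 0),(nat_lit 0),(nat_lit 0),(nat_lit 0),(nat_lit 0),(nat_lit 0)], Int.ofNat (nat_lit 3447099802841320))]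

/-- Monomials. -/
noncomputable def polyP_1 : List (List ℕ × ℤ) :=
  [([(nat_lit 0),(nat_lit 1),(nat_lit 0),(nat_lit 0),(nat_lit 0),(nat_lit 0),(nat_lit 0),(nat_lit 0),(nat_lit 0),(nat_lit 1)], Int.ofNat (nat_lit 2856662759174994)),
   ([(nat_lit 0),(nat_lit 1),(nat_lit 0),(nat_lit 0),(nat_lit 0),(nat_lit 0),(nat_lit 0),(nat_lit 1),(nat_lit 0),(nat_lit 0)], Int.ofNat (nat_lit 20500209257635508)),
   ([(nat_lit 0),(nat_lit 1),(nat_lit 0),(nat_lit 0),(nat_lit 0),(nat_lit 0),(nat_lit 0),(nat_lit 1),(nat_lit 1),(nat_lit 0)], Int.ofNat (nat_lit 15846804330490524)),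
   ([(nat_lit 0),(nat_lit 1),(nat_lit 0),(nat_lit 0),(nat_lit 0),(nat_lit 0),(nat_lit 1),(nat_lit 0),(nat_lit 0),(nat_lit 1)], Int.negSucc (nat_lit 21382628444475619)),
   ([(nat_lit 0),(nat_lit 1),(nat_lit 0),(nat_lit 0),(nat_lit 0),(nat_lit 0),(nat_lit 1),(nat_lit 1),(nat_lit 0),(nat_lit 0)], Int.negSucc (nat_lit 5344410295484293)),
   ([(nat_lit 0),(nat_lit 1),(nat_lit 0),(nat_lit 0),(nat_lit 0),(nat_lit 1),(nat_lit 0),(nat_lit 0),(nat_lit 0),(nat_lit 0)], Int.ofNat (nat_lit 10530534307911610)),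
   ([(nat_lit 0),(nat_lit 1),(nat_lit 0),(nat_lit 0),(nat_lit 0),(nat_lit 1),(nat_lit 0),(nat_lit 0),(nat_lit 1),(nat_lit 0)], Int.ofNat (nat_lit 10386185048931174)),
   ([(nat_lit 0),(nat_lit 1),(nat_lit 0),(nat_lit 0),(nat_lit 0),(nat_lit 1),(nat_lit 1),(nat_lit 0),(nat_lit 0),(nat_lit 0)], Int.ofNat (nat_lit 19624239365740548)),
   ([(nat_lit 0),(nat_lit 1),(nat_lit 0),(nat_lit 0),(nat_lit 0),(nat_lit 2),(nat_lit 0),(nat_lit 0),(nat_lit 0),(nat_lit 1)], Int.negSucc (nat_lit 2130474123119587)),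
   ([(nat_lit 0),(nat_lit 1),(nat_lit 0),(nat_lit 0),(nat_lit 0),(nat_lit 2),(nat_lit 0),(nat_lit 1),(nat_lit 0),(nat_lit 0)], Int.ofNat (nat_lit 1463428876198420)),
   ([(nat_lit 0),(nat_lit 1),(nat_lit 0),(nat_lit 0),(nat_lit 0),(nat_lit 3),(nat_lit 0),(nat_lit 0),(nat_lit 0),(nat_lit 0)], Int.negSucc (nat_lit 1733320314928714)),
   ([(nat_lit 0),(nat_lit 1),(nat_lit 0),(nat_lit 0),(nat_lit 1),(nat_lit 0),(nat_lit 0),(nat_lit 0),(nat_lit 0),(nat_lit 1)], Int.negSucc (nat_lit 1905748762412748)),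
   ([(nat_lit 0),(nat_lit 1),(nat_lit 0),(nat_lit 0),(nat_lit 1),(nat_lit 0),(nat_lit 0),(nat_lit 1),(nat_lit 0),(nat_lit 0)], Int.negSucc (nat_lit 15681774153253283)),
   ([(nat_lit 0),(nat_lit 1),(nat_lit 0),(nat_lit 0),(nat_lit 1),(nat_lit 1),(nat_lit 0),(nat_lit 0),(nat_lit 0),(nat_lit 0)], Int.negSucc (nat_lit 17900292287442453)),
   ([(nat_lit 0),(nat_lit 1),(nat_lit 0),(nat_lit 0),(nat_lit 1),(nat_lit 1),(nat_lit 0),(nat_lit 0),(nat_lit 1),(nat_lit 0)], Int.negSucc (nat_lit 2734246167734925)),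
   ([(nat_lit 0),(nat_lit 1),(nat_lit 0),(nat_lit 0),(nat_lit 1),(nat_lit 1),(nat_lit 1),(nat_lit 0),(nat_lit 0),(nat_lit 0)], Int.ofNat (nat_lit 1988123475628908)),
   ([(nat_lit 0),(nat_lit 1),(nat_lit 0),(nat_lit 0),(nat_lit 2),(nat_lit 0),(nat_lit 0),(nat_lit 0),(nat_lit 0),(nat_lit 1)], Int.ofNat (nat_lit 510468668296456)),
   ([(nat_lit 0),(nat_lit 1),(nat_lit 0),(nat_lit 0),(nat_lit 2),(nat_lit 0),(nat_lit 0),(nat_lit 1),(nat_lit 0),(nat_lit 0)], Int.negSucc (nat_lit 7939759712827)),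
   ([(nat_lit 0),(nat_lit 1),(nat_lit 0),(nat_lit 0),(nat_lit 2),(nat_lit 1),(nat_lit 0),(nat_lit 0),(nat_lit 0),(nat_lit 0)], Int.negSucc (nat_lit 2955270354306794)),
   ([(nat_lit 0),(nat_lit 1),(nat_lit 0),(nat_lit 1),(nat_lit 0),(nat_lit 0),(nat_lit 0),(nat_lit 0),(nat_lit 0),(nat_lit 0)], Int.negSucc (nat_lit 45196149752975223)),
   ([(nat_lit 0),(nat_lit 1),(nat_lit 0),(nat_lit 1),(nat_lit 0),(nat_lit 0),(nat_lit 0),(nat_lit 0),(nat_lit 1),(nat_lit 0)], Int.negSucc (nat_lit 10493426370396985)),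
   ([(nat_lit 0),(nat_lit 1),(nat_lit 0),(nat_lit 1),(nat_lit 0),(nat_lit 0),(nat_lit 0),(nat_lit 1),(nat_lit 0),(nat_lit 1)], Int.ofNat (nat_lit 403304613814897)),
   ([(nat_lit 0),(nat_lit 1),(nat_lit 0),(nat_lit 1),(nat_lit 0),(nat_lit 0),(nat_lit 0),(nat_lit 2),(nat_lit 0),(nat_lit 0)], Int.negSucc (nat_lit 4525060652941616)),
   ([(nat_lit 0),(nat_lit 1),(nat_lit 0),(nat_lit 1),(nat_lit 0),(nat_lit 0),(nat_lit 1),(nat_lit 0),(nat_lit 0),(nat_lit 0)], Int.ofNat (nat_lit 27847318278571940)),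
   ([(nat_lit 0),(nat_lit 1),(nat_lit 0),(nat_lit 1),(nat_lit 0),(nat_lit 0),(nat_lit 1),(nat_lit 0),(nat_lit 1),(nat_lit 0)], Int.negSucc (nat_lit 19161126511803)),
   ([(nat_lit 0),(nat_lit 1),(nat_lit 0),(nat_lit 1),(nat_lit 0),(nat_lit 0),(nat_lit 2),(nat_lit 0),(nat_lit 0),(nat_lit 0)], Int.negSucc (nat_lit 3197595208468233)),
   ([(nat_lit 0),(nat_lit 1),(nat_lit 0),(nat_lit 1),(nat_lit 0),(nat_lit 1),(nat_lit 0),(nat_lit 0),(nat_lit 0),(nat_lit 1)], Int.ofNat (nat_lit 1072012852440959)),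
   ([(nat_lit 0),(nat_lit 1),(nat_lit 0),(nat_lit 1),(nat_lit 0),(nat_lit 1),(nat_lit 0),(nat_lit 1),(nat_lit 0),(nat_lit 0)], Int.negSucc (nat_lit 963037184792174)),
   ([(nat_lit 0),(nat_lit 1),(nat_lit 0),(nat_lit 1),(nat_lit 0),(nat_lit 2),(nat_lit 0),(nat_lit 0),(nat_lit 0),(nat_lit 0)], Int.negSucc (nat_lit 14256779556003199)),
   ([(nat_lit 0),(nat_lit 1),(nat_lit 0),(nat_lit 1),(nat_lit 1),(nat_lit 0),(nat_lit 0),(nat_lit 0),(nat_lit 0),(nat_lit 0)], Int.negSucc (nat_lit 14437114630821913)),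
   ([(nat_lit 0),(nat_lit 1),(nat_lit 0),(nat_lit 1),(nat_lit 1),(nat_lit 0),(nat_lit 0),(nat_lit 0),(nat_lit 1),(nat_lit 0)], Int.ofNat (nat_lit 1795545629947226)),
   ([(nat_lit 0),(nat_lit 1),(nat_lit 0),(nat_lit 1),(nat_lit 1),(nat_lit 0),(nat_lit 1),(nat_lit 0),(nat_lit 0),(nat_lit 0)], Int.negSucc (nat_lit 4879971508075003)),
   ([(nat_lit 0),(nat_lit 1),(nat_lit 0),(nat_lit 1),(nat_lit 2),(nat_lit 0),(nat_lit 0),(nat_lit 0),(nat_lit 0),(nat_lit 0)], Int.negSucc (nat_lit 15642450960113063)),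
   ([(nat_lit 0),(nat_lit 1),(nat_lit 0),(nat_lit 2),(nat_lit 0),(nat_lit 0),(nat_lit 0),(nat_lit 0),(nat_lit 0),(nat_lit 1)], Int.negSucc (nat_lit 1955269146299202)),
   ([(nat_lit 0),(nat_lit 1),(nat_lit 0),(nat_lit 2),(nat_lit 0),(nat_lit 0),(nat_lit 0),(nat_lit 1),(nat_lit 0),(nat_lit 0)], Int.negSucc (nat_lit 1062024974509611)),
   ([(nat_lit 0),(nat_lit 1),(nat_lit 0),(nat_lit 2),(nat_lit 0),(nat_lit 1),(nat_lit 0),(nat_lit 0),(nat_lit 0),(nat_lit 0)], Int.ofNat (nat_lit 31101558589288256)),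
   ([(nat_lit 0),(nat_lit 1),(nat_lit 0),(nat_lit 3),(nat_lit 0),(nat_lit 0),(nat_lit 0),(nat_lit 0),(nat_lit 0),(nat_lit 0)], Int.negSucc (nat_lit 15982098026296173)),
   ([(nat_lit 0),(nat_lit 1),(nat_lit 1),(nat_lit 0),(nat_lit 0),(nat_lit 0),(nat_lit 0),(nat_lit 0),(nat_lit 0),(nat_lit 1)], Int.ofNat (nat_lit 3857329369877933)),
   ([(nat_lit 0),(nat_lit 1),(nat_lit 1),(nat_lit 0),(nat_lit 0),(nat_lit 0),(nat_lit 0),(nat_lit 1),(nat_lit 0),(nat_lit 0)], Int.negSucc (nat_lit 15078292573430865)),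
   ([(nat_lit 0),(nat_lit 1),(nat_lit 1),(nat_lit 0),(nat_lit 0),(nat_lit 0),(nat_lit 0),(nat_lit 1),(nat_lit 1),(nat_lit 0)], Int.ofNat (nat_lit 1386654766395034)),
   ([(nat_lit 0),(nat_lit 1),(nat_lit 1),(nat_lit 0),(nat_lit 0),(nat_lit 0),(nat_lit 1),(nat_lit 0),(nat_lit 0),(nat_lit 1)], Int.negSucc (nat_lit 1293670825761820)),
   ([(nat_lit 0),(nat_lit 1),(nat_lit 1),(nat_lit 0),(nat_lit 0),(nat_lit 0),(nat_lit 1),(nat_lit 1),(nat_lit 0),(nat_lit 0)], Int.negSucc (nat_lit 1307110920952717)),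
   ([(nat_lit 0),(nat_lit 1),(nat_lit 1),(nat_lit 0),(nat_lit 0),(nat_lit 1),(nat_lit 0),(nat_lit 0),(nat_lit 0),(nat_lit 0)], Int.ofNat (nat_lit 18967701148798576)),
   ([(nat_lit 0),(nat_lit 1),(nat_lit 1),(nat_lit 0),(nat_lit 0),(nat_lit 1),(nat_lit 0),(nat_lit 0),(nat_lit 1),(nat_lit 0)], Int.negSucc (nat_lit 705081519269327)),
   ([(nat_lit 0),(nat_lit 1),(nat_lit 1),(nat_lit 0),(nat_lit 0),(nat_lit 1),(nat_lit 1),(nat_lit 0),(nat_lit 0),(nat_lit 0)], Int.negSucc (nat_lit 406283151560262)),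
   ([(nat_lit 0),(nat_lit 1),(nat_lit 1),(nat_lit 0),(nat_lit 1),(nat_lit 0),(nat_lit 0),(nat_lit 0),(nat_lit 0),(nat_lit 1)], Int.ofNat (nat_lit 499699985300990)),
   ([(nat_lit 0),(nat_lit 1),(nat_lit 1),(nat_lit 0),(nat_lit 1),(nat_lit 0),(nat_lit 0),(nat_lit 1),(nat_lit 0),(nat_lit 0)], Int.negSucc (nat_lit 534004883378840)),
   ([(nat_lit 0),(nat_lit 1),(nat_lit 1),(nat_lit 0),(nat_lit 1),(nat_lit 1),(nat_lit 0),(nat_lit 0),(nat_lit 0),(nat_lit 0)], Int.ofNat (nat_lit 13081097359673566)),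
   ([(nat_lit 0),(nat_lit 1),(nat_lit 1),(nat_lit 1),(nat_lit 0),(nat_lit 0),(nat_lit 0),(nat_lit 0),(nat_lit 0),(nat_lit 0)], Int.negSucc (nat_lit 1747562751118281)),
   ([(nat_lit 0),(nat_lit 1),(nat_lit 1),(nat_lit 1),(nat_lit 0),(nat_lit 0),(nat_lit 0),(nat_lit 0),(nat_lit 1),(nat_lit 0)], Int.negSucc (nat_lit 396514539210875)),
   ([(nat_lit 0),(nat_lit 1),(nat_lit 1),(nat_lit 1),(nat_lit 0),(nat_lit 0),(nat_lit 1),(nat_lit 0),(nat_lit 0),(nat_lit 0)], Int.negSucc (nat_lit 1682234354724004)),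
   ([(nat_lit 0),(nat_lit 1),(nat_lit 1),(nat_lit 1),(nat_lit 1),(nat_lit 0),(nat_lit 0),(nat_lit 0),(nat_lit 0),(nat_lit 0)], Int.ofNat (nat_lit 16516887511228340)),
   ([(nat_lit 0),(nat_lit 1),(nat_lit 2),(nat_lit 0),(nat_lit 0),(nat_lit 0),(nat_lit 0),(nat_lit 0),(nat_lit 0),(nat_lit 1)], Int.negSucc (nat_lit 3530345043251863)),
   ([(nat_lit 0),(nat_lit 1),(nat_lit 2),(nat_lit 0),(nat_lit 0),(nat_lit 0),(nat_lit 0),(nat_lit 1),(nat_lit 0),(nat_lit 0)], Int.ofNat (nat_lit 1368652196776769)),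
   ([(nat_lit 0),(nat_lit 1),(nat_lit 2),(nat_lit 0),(nat_lit 0),(nat_lit 1),(nat_lit 0),(nat_lit 0),(nat_lit 0),(nat_lit 0)], Int.negSucc (nat_lit 5320447386053601)),
   ([(nat_lit 0),(nat_lit 1),(nat_lit 2),(nat_lit 1),(nat_lit 0),(nat_lit 0),(nat_lit 0),(nat_lit 0),(nat_lit 0),(nat_lit 0)], Int.ofNat (nat_lit 2337491752202554)),
   ([(nat_lit 0),(nat_lit 2),(nat_lit 0),(nat_lit 0),(nat_lit 0),(nat_lit 0),(nat_lit 0),(nat_lit 0),(nat_lit 0),(nat_lit 0)], Int.ofNat (nat_lit 66581184124544800)),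
   ([(nat_lit 0),(nat_lit 2),(nat_lit 0),(nat_lit 0),(nat_lit 0),(nat_lit 0),(nat_lit 0),(nat_lit 0),(nat_lit 1),(nat_lit 0)], Int.ofNat (nat_lit 13148613745712526)),
   ([(nat_lit 0),(nat_lit 2),(nat_lit 0),(nat_lit 0),(nat_lit 0),(nat_lit 0),(nat_lit 0),(nat_lit 1),(nat_lit 0),(nat_lit 1)], Int.negSucc (nat_lit 743558853502336)),
   ([(nat_lit 0),(nat_lit 2),(nat_lit 0),(nat_lit 0),(nat_lit 0),(nat_lit 0),(nat_lit 0),(nat_lit 2),(nat_lit 0),(nat_lit 0)], Int.negSucc (nat_lit 2046497588126623)),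
   ([(nat_lit 0),(nat_lit 2),(nat_lit 0),(nat_lit 0),(nat_lit 0),(nat_lit 0),(nat_lit 1),(nat_lit 0),(nat_lit 0),(nat_lit 0)], Int.negSucc (nat_lit 9826163790816743)),
   ([(nat_lit 0),(nat_lit 2),(nat_lit 0),(nat_lit 0),(nat_lit 0),(nat_lit 0),(nat_lit 1),(nat_lit 0),(nat_lit 1),(nat_lit 0)], Int.ofNat (nat_lit 674721986545996)),
   ([(nat_lit 0),(nat_lit 2),(nat_lit 0),(nat_lit 0),(nat_lit 0),(nat_lit 0),(nat_lit 2),(nat_lit 0),(nat_lit 0),(nat_lit 0)], Int.negSucc (nat_lit 5762019187716352)),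
   ([(nat_lit 0),(nat_lit 2),(nat_lit 0),(nat_lit 0),(nat_lit 0),(nat_lit 1),(nat_lit 0),(nat_lit 0),(nat_lit 0),(nat_lit 1)], Int.negSucc (nat_lit 1494078380628535)),
   ([(nat_lit 0),(nat_lit 2),(nat_lit 0),(nat_lit 0),(nat_lit 0),(nat_lit 1),(nat_lit 0),(nat_lit 1),(nat_lit 0),(nat_lit 0)], Int.negSucc (nat_lit 17270207799366397)),
   ([(nat_lit 0),(nat_lit 2),(nat_lit 0),(nat_lit 0),(nat_lit 0),(nat_lit 2),(nat_lit 0),(nat_lit 0),(nat_lit 0),(nat_lit 0)], Int.ofNat (nat_lit 7854400368749262)),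
   ([(nat_lit 0),(nat_lit 2),(nat_lit 0),(nat_lit 0),(nat_lit 1),(nat_lit 0),(nat_lit 0),(nat_lit 0),(nat_lit 0),(nat_lit 0)], Int.ofNat (nat_lit 21026999720021332)),
   ([(nat_lit 0),(nat_lit 2),(nat_lit 0),(nat_lit 0),(nat_lit 1),(nat_lit 0),(nat_lit 0),(nat_lit 0),(nat_lit 1),(nat_lit 0)], Int.negSucc (nat_lit 2988265208430474)),
   ([(nat_lit 0),(nat_lit 2),(nat_lit 0),(nat_lit 0),(nat_lit 1),(nat_lit 0),(nat_lit 1),(nat_lit 0),(nat_lit 0),(nat_lit 0)], Int.negSucc (nat_lit 345238682514278)),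
   ([(nat_lit 0),(nat_lit 2),(nat_lit 0),(nat_lit 0),(nat_lit 2),(nat_lit 0),(nat_lit 0),(nat_lit 0),(nat_lit 0),(nat_lit 0)], Int.ofNat (nat_lit 1757930935841054)),
   ([(nat_lit 0),(nat_lit 2),(nat_lit 0),(nat_lit 1),(nat_lit 0),(nat_lit 0),(nat_lit 0),(nat_lit 0),(nat_lit 0),(nat_lit 1)], Int.ofNat (nat_lit 1589394312433452)),
   ([(nat_lit 0),(nat_lit 2),(nat_lit 0),(nat_lit 1),(nat_lit 0),(nat_lit 0),(nat_lit 0),(nat_lit 1),(nat_lit 0),(nat_lit 0)], Int.ofNat (nat_lit 2841600038510386)),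
   ([(nat_lit 0),(nat_lit 2),(nat_lit 0),(nat_lit 1),(nat_lit 0),(nat_lit 1),(nat_lit 0),(nat_lit 0),(nat_lit 0),(nat_lit 0)], Int.negSucc (nat_lit 99653712993646783)),
   ([(nat_lit 0),(nat_lit 2),(nat_lit 0),(nat_lit 2),(nat_lit 0),(nat_lit 0),(nat_lit 0),(nat_lit 0),(nat_lit 0),(nat_lit 0)], Int.ofNat (nat_lit 54944399949531848)),
   ([(nat_lit 0),(nat_lit 2),(nat_lit 1),(nat_lit 0),(nat_lit 0),(nat_lit 0),(nat_lit 0),(nat_lit 0),(nat_lit 0),(nat_lit 0)], Int.negSucc (nat_lit 17399532545468169)),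
   ([(nat_lit 0),(nat_lit 2),(nat_lit 1),(nat_lit 0),(nat_lit 0),(nat_lit 0),(nat_lit 0),(nat_lit 0),(nat_lit 1),(nat_lit 0)], Int.ofNat (nat_lit 2457263103138112)),
   ([(nat_lit 0),(nat_lit 2),(nat_lit 1),(nat_lit 0),(nat_lit 0),(nat_lit 0),(nat_lit 1),(nat_lit 0),(nat_lit 0),(nat_lit 0)], Int.ofNat (nat_lit 3112956986899274)),
   ([(nat_lit 0),(nat_lit 2),(nat_lit 1),(nat_lit 0),(nat_lit 1),(nat_lit 0),(nat_lit 0),(nat_lit 0),(nat_lit 0),(nat_lit 0)], Int.negSucc (nat_lit 25366330602266595)),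
   ([(nat_lit 0),(nat_lit 2),(nat_lit 2),(nat_lit 0),(nat_lit 0),(nat_lit 0),(nat_lit 0),(nat_lit 0),(nat_lit 0),(nat_lit 0)], Int.ofNat (nat_lit 18524073648133016)),
   ([(nat_lit 0),(nat_lit 3),(nat_lit 0),(nat_lit 0),(nat_lit 0),(nat_lit 0),(nat_lit 0),(nat_lit 0),(nat_lit 0),(nat_lit 1)], Int.negSucc (nat_lit 761316019854706)),
   ([(nat_lit 0),(nat_lit 3),(nat_lit 0),(nat_lit 0),(nat_lit 0),(nat_lit 0),(nat_lit 0),(nat_lit 1),(nat_lit 0),(nat_lit 0)], Int.negSucc (nat_lit 1953221641437351)),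
   ([(nat_lit 0),(nat_lit 3),(nat_lit 0),(nat_lit 0),(nat_lit 0),(nat_lit 1),(nat_lit 0),(nat_lit 0),(nat_lit 0),(nat_lit 0)], Int.ofNat (nat_lit 60697172320435832)),
   ([(nat_lit 0),(nat_lit 3),(nat_lit 0),(nat_lit 1),(nat_lit 0),(nat_lit 0),(nat_lit 0),(nat_lit 0),(nat_lit 0),(nat_lit 0)], Int.negSucc (nat_lit 72627127780677631)),
   ([(nat_lit 0),(nat_lit 4),(nat_lit 0),(nat_lit 0),(nat_lit 0),(nat_lit 0),(nat_lit 0),(nat_lit 0),(nat_lit 0),(nat_lit 0)], Int.ofNat (nat_lit 40665265706822400)),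
   ([(nat_lit 1),(nat_lit 0),(nat_lit 0),(nat_lit 0),(nat_lit 0),(nat_lit 0),(nat_lit 0),(nat_lit 0),(nat_lit 0),(nat_lit 0)], Int.negSucc (nat_lit 15026758099309343)),
   ([(nat_lit 1),(nat_lit 0),(nat_lit 0),(nat_lit 0),(nat_lit 0),(nat_lit 0),(nat_lit 0),(nat_lit 0),(nat_lit 1),(nat_lit 0)], Int.ofNat (nat_lit 2270894720496642)),
   ([(nat_lit 1),(nat_lit 0),(nat_lit 0),(nat_lit 0),(nat_lit 0),(nat_lit 0),(nat_lit 0),(nat_lit 1),(nat_lit 0),(nat_lit 1)], Int.negSucc (nat_lit 5147398634332637)),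
   ([(nat_lit 1),(nat_lit 0),(nat_lit 0),(nat_lit 0),(nat_lit 0),(nat_lit 0),(nat_lit 0),(nat_lit 2),(nat_lit 0),(nat_lit 0)], Int.negSucc (nat_lit 2565818929768557)),
   ([(nat_lit 1),(nat_lit 0),(nat_lit 0),(nat_lit 0),(nat_lit 0),(nat_lit 0),(nat_lit 1),(nat_lit 0),(nat_lit 0),(nat_lit 0)], Int.negSucc (nat_lit 8145233732834546)),
   ([(nat_lit 1),(nat_lit 0),(nat_lit 0),(nat_lit 0),(nat_lit 0),(nat_lit 0),(nat_lit 1),(nat_lit 0),(nat_lit 1),(nat_lit 0)], Int.negSucc (nat_lit 10156179670747437)),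
   ([(nat_lit 1),(nat_lit 0),(nat_lit 0),(nat_lit 0),(nat_lit 0),(nat_lit 0),(nat_lit 2),(nat_lit 0),(nat_lit 0),(nat_lit 0)], Int.negSucc (nat_lit 2678224138681460)),
   ([(nat_lit 1),(nat_lit 0),(nat_lit 0),(nat_lit 0),(nat_lit 0),(nat_lit 1),(nat_lit 0),(nat_lit 0),(nat_lit 0),(nat_lit 1)], Int.negSucc (nat_lit 19551781248001755)),
   ([(nat_lit 1),(nat_lit 0),(nat_lit 0),(nat_lit 0),(nat_lit 0),(nat_lit 1),(nat_lit 0),(nat_lit 1),(nat_lit 0),(nat_lit 0)], Int.negSucc (nat_lit 23017489104691995)),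
   ([(nat_lit 1),(nat_lit 0),(nat_lit 0),(nat_lit 0),(nat_lit 0),(nat_lit 2),(nat_lit 0),(nat_lit 0),(nat_lit 0),(nat_lit 0)], Int.ofNat (nat_lit 567712304434889)),
   ([(nat_lit 1),(nat_lit 0),(nat_lit 0),(nat_lit 0),(nat_lit 0),(nat_lit 2),(nat_lit 0),(nat_lit 0),(nat_lit 1),(nat_lit 0)], Int.negSucc (nat_lit 1601590144278127)),
   ([(nat_lit 1),(nat_lit 0),(nat_lit 0),(nat_lit 0),(nat_lit 0),(nat_lit 2),(nat_lit 1),(nat_lit 0),(nat_lit 0),(nat_lit 0)], Int.negSucc (nat_lit 2259123224184571)),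
   ([(nat_lit 1),(nat_lit 0),(nat_lit 0),(nat_lit 0),(nat_lit 1),(nat_lit 0),(nat_lit 0),(nat_lit 0),(nat_lit 0),(nat_lit 0)], Int.ofNat (nat_lit 26773753680439204)),
   ([(nat_lit 1),(nat_lit 0),(nat_lit 0),(nat_lit 0),(nat_lit 1),(nat_lit 0),(nat_lit 0),(nat_lit 0),(nat_lit 1),(nat_lit 0)], Int.negSucc (nat_lit 2625138634831433)),
   ([(nat_lit 1),(nat_lit 0),(nat_lit 0),(nat_lit 0),(nat_lit 1),(nat_lit 0),(nat_lit 1),(nat_lit 0),(nat_lit 0),(nat_lit 0)], Int.negSucc (nat_lit 21368619056992803)),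
   ([(nat_lit 1),(nat_lit 0),(nat_lit 0),(nat_lit 0),(nat_lit 1),(nat_lit 1),(nat_lit 0),(nat_lit 0),(nat_lit 0),(nat_lit 1)], Int.ofNat (nat_lit 3942956493243474))]

/-- Monomials. -/
noncomputable def polyP_2 : List (List ℕ × ℤ) :=
  [([(nat_lit 1),(nat_lit 0),(nat_lit 0),(nat_lit 0),(nat_lit 1),(nat_lit 1),(nat_lit 0),(nat_lit 1),(nat_lit 0),(nat_lit 0)], Int.ofNat (nat_lit 4104405040095932)),
   ([(nat_lit 1),(nat_lit 0),(nat_lit 0),(nat_lit 0),(nat_lit 1),(nat_lit 2),(nat_lit 0),(nat_lit 0),(nat_lit 0),(nat_lit 0)], Int.ofNat (nat_lit 6749982010143266)),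
   ([(nat_lit 1),(nat_lit 0),(nat_lit 0),(nat_lit 0),(nat_lit 2),(nat_lit 0),(nat_lit 0),(nat_lit 0),(nat_lit 0),(nat_lit 0)], Int.negSucc (nat_lit 16446037283249329)),
   ([(nat_lit 1),(nat_lit 0),(nat_lit 0),(nat_lit 0),(nat_lit 2),(nat_lit 0),(nat_lit 0),(nat_lit 0),(nat_lit 1),(nat_lit 0)], Int.ofNat (nat_lit 1625843588268982)),
   ([(nat_lit 1),(nat_lit 0),(nat_lit 0),(nat_lit 0),(nat_lit 2),(nat_lit 0),(nat_lit 1),(nat_lit 0),(nat_lit 0),(nat_lit 0)], Int.ofNat (nat_lit 1583470886039062)),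
   ([(nat_lit 1),(nat_lit 0),(nat_lit 0),(nat_lit 0),(nat_lit 3),(nat_lit 0),(nat_lit 0),(nat_lit 0),(nat_lit 0),(nat_lit 0)], Int.ofNat (nat_lit 9080647702779492)),
   ([(nat_lit 1),(nat_lit 0),(nat_lit 0),(nat_lit 1),(nat_lit 0),(nat_lit 0),(nat_lit 0),(nat_lit 0),(nat_lit 0),(nat_lit 1)], Int.ofNat (nat_lit 21478923691932164)),
   ([(nat_lit 1),(nat_lit 0),(nat_lit 0),(nat_lit 1),(nat_lit 0),(nat_lit 0),(nat_lit 0),(nat_lit 1),(nat_lit 0),(nat_lit 0)], Int.ofNat (nat_lit 1397974506774788)),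
   ([(nat_lit 1),(nat_lit 0),(nat_lit 0),(nat_lit 1),(nat_lit 0),(nat_lit 0),(nat_lit 0),(nat_lit 1),(nat_lit 1),(nat_lit 0)], Int.ofNat (nat_lit 6236283796515413)),
   ([(nat_lit 1),(nat_lit 0),(nat_lit 0),(nat_lit 1),(nat_lit 0),(nat_lit 0),(nat_lit 1),(nat_lit 0),(nat_lit 0),(nat_lit 1)], Int.negSucc (nat_lit 6463503257488724)),
   ([(nat_lit 1),(nat_lit 0),(nat_lit 0),(nat_lit 1),(nat_lit 0),(nat_lit 0),(nat_lit 1),(nat_lit 1),(nat_lit 0),(nat_lit 0)], Int.negSucc (nat_lit 2986510215486982)),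
   ([(nat_lit 1),(nat_lit 0),(nat_lit 0),(nat_lit 1),(nat_lit 0),(nat_lit 1),(nat_lit 0),(nat_lit 0),(nat_lit 0),(nat_lit 0)], Int.ofNat (nat_lit 13133150290025456)),
   ([(nat_lit 1),(nat_lit 0),(nat_lit 0),(nat_lit 1),(nat_lit 0),(nat_lit 1),(nat_lit 0),(nat_lit 0),(nat_lit 1),(nat_lit 0)], Int.ofNat (nat_lit 2593601345271950)),
   ([(nat_lit 1),(nat_lit 0),(nat_lit 0),(nat_lit 1),(nat_lit 0),(nat_lit 1),(nat_lit 1),(nat_lit 0),(nat_lit 0),(nat_lit 0)], Int.ofNat (nat_lit 6893579722811516)),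
   ([(nat_lit 1),(nat_lit 0),(nat_lit 0),(nat_lit 1),(nat_lit 1),(nat_lit 0),(nat_lit 0),(nat_lit 0),(nat_lit 0),(nat_lit 1)], Int.negSucc (nat_lit 2089461863845084)),
   ([(nat_lit 1),(nat_lit 0),(nat_lit 0),(nat_lit 1),(nat_lit 1),(nat_lit 0),(nat_lit 0),(nat_lit 1),(nat_lit 0),(nat_lit 0)], Int.negSucc (nat_lit 4705478845139488)),
   ([(nat_lit 1),(nat_lit 0),(nat_lit 0),(nat_lit 1),(nat_lit 1),(nat_lit 1),(nat_lit 0),(nat_lit 0),(nat_lit 0),(nat_lit 0)], Int.negSucc (nat_lit 9274817567548471)),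
   ([(nat_lit 1),(nat_lit 0),(nat_lit 0),(nat_lit 2),(nat_lit 0),(nat_lit 0),(nat_lit 0),(nat_lit 0),(nat_lit 0),(nat_lit 0)], Int.negSucc (nat_lit 31308297903627135)),
   ([(nat_lit 1),(nat_lit 0),(nat_lit 0),(nat_lit 2),(nat_lit 0),(nat_lit 0),(nat_lit 0),(nat_lit 0),(nat_lit 1),(nat_lit 0)], Int.negSucc (nat_lit 3691526344870373)),
   ([(nat_lit 1),(nat_lit 0),(nat_lit 0),(nat_lit 2),(nat_lit 0),(nat_lit 0),(nat_lit 1),(nat_lit 0),(nat_lit 0),(nat_lit 0)], Int.negSucc (nat_lit 3762373275616532)),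
   ([(nat_lit 1),(nat_lit 0),(nat_lit 0),(nat_lit 2),(nat_lit 1),(nat_lit 0),(nat_lit 0),(nat_lit 0),(nat_lit 0),(nat_lit 0)], Int.ofNat (nat_lit 26095581066006660)),
   ([(nat_lit 1),(nat_lit 0),(nat_lit 1),(nat_lit 0),(nat_lit 0),(nat_lit 0),(nat_lit 0),(nat_lit 0),(nat_lit 0),(nat_lit 0)], Int.negSucc (nat_lit 39306426178473703)),
   ([(nat_lit 1),(nat_lit 0),(nat_lit 1),(nat_lit 0),(nat_lit 0),(nat_lit 0),(nat_lit 0),(nat_lit 0),(nat_lit 1),(nat_lit 0)], Int.ofNat (nat_lit 9483485642685446)),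
   ([(nat_lit 1),(nat_lit 0),(nat_lit 1),(nat_lit 0),(nat_lit 0),(nat_lit 0),(nat_lit 0),(nat_lit 1),(nat_lit 0),(nat_lit 1)], Int.negSucc (nat_lit 4060387857574435)),
   ([(nat_lit 1),(nat_lit 0),(nat_lit 1),(nat_lit 0),(nat_lit 0),(nat_lit 0),(nat_lit 0),(nat_lit 2),(nat_lit 0),(nat_lit 0)], Int.negSucc (nat_lit 897793833907053)),
   ([(nat_lit 1),(nat_lit 0),(nat_lit 1),(nat_lit 0),(nat_lit 0),(nat_lit 0),(nat_lit 1),(nat_lit 0),(nat_lit 0),(nat_lit 0)], Int.negSucc (nat_lit 8867148792406751)),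
   ([(nat_lit 1),(nat_lit 0),(nat_lit 1),(nat_lit 0),(nat_lit 0),(nat_lit 0),(nat_lit 1),(nat_lit 0),(nat_lit 1),(nat_lit 0)], Int.negSucc (nat_lit 3434439432726153)),
   ([(nat_lit 1),(nat_lit 0),(nat_lit 1),(nat_lit 0),(nat_lit 0),(nat_lit 0),(nat_lit 2),(nat_lit 0),(nat_lit 0),(nat_lit 0)], Int.negSucc (nat_lit 3994309654301353)),
   ([(nat_lit 1),(nat_lit 0),(nat_lit 1),(nat_lit 0),(nat_lit 0),(nat_lit 1),(nat_lit 0),(nat_lit 0),(nat_lit 0),(nat_lit 1)], Int.negSucc (nat_lit 7382652004085726)),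
   ([(nat_lit 1),(nat_lit 0),(nat_lit 1),(nat_lit 0),(nat_lit 0),(nat_lit 1),(nat_lit 0),(nat_lit 1),(nat_lit 0),(nat_lit 0)], Int.negSucc (nat_lit 12380825647848137)),
   ([(nat_lit 1),(nat_lit 0),(nat_lit 1),(nat_lit 0),(nat_lit 0),(nat_lit 2),(nat_lit 0),(nat_lit 0),(nat_lit 0),(nat_lit 0)], Int.negSucc (nat_lit 10463237985249515)),
   ([(nat_lit 1),(nat_lit 0),(nat_lit 1),(nat_lit 0),(nat_lit 1),(nat_lit 0),(nat_lit 0),(nat_lit 0),(nat_lit 0),(nat_lit 0)], Int.ofNat (nat_lit 29898298906610252)),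
   ([(nat_lit 1),(nat_lit 0),(nat_lit 1),(nat_lit 0),(nat_lit 1),(nat_lit 0),(nat_lit 0),(nat_lit 0),(nat_lit 1),(nat_lit 0)], Int.negSucc (nat_lit 6012452721900013)),
   ([(nat_lit 1),(nat_lit 0),(nat_lit 1),(nat_lit 0),(nat_lit 1),(nat_lit 0),(nat_lit 1),(nat_lit 0),(nat_lit 0),(nat_lit 0)], Int.negSucc (nat_lit 14285693165063359)),
   ([(nat_lit 1),(nat_lit 0),(nat_lit 1),(nat_lit 0),(nat_lit 2),(nat_lit 0),(nat_lit 0),(nat_lit 0),(nat_lit 0),(nat_lit 0)], Int.negSucc (nat_lit 16695639148283047)),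
   ([(nat_lit 1),(nat_lit 0),(nat_lit 1),(nat_lit 1),(nat_lit 0),(nat_lit 0),(nat_lit 0),(nat_lit 0),(nat_lit 0),(nat_lit 1)], Int.ofNat (nat_lit 6481960797456750)),
   ([(nat_lit 1),(nat_lit 0),(nat_lit 1),(nat_lit 1),(nat_lit 0),(nat_lit 0),(nat_lit 0),(nat_lit 1),(nat_lit 0),(nat_lit 0)], Int.negSucc (nat_lit 2847107622739097)),
   ([(nat_lit 1),(nat_lit 0),(nat_lit 1),(nat_lit 1),(nat_lit 0),(nat_lit 1),(nat_lit 0),(nat_lit 0),(nat_lit 0),(nat_lit 0)], Int.ofNat (nat_lit 132043839548628)),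
   ([(nat_lit 1),(nat_lit 0),(nat_lit 1),(nat_lit 2),(nat_lit 0),(nat_lit 0),(nat_lit 0),(nat_lit 0),(nat_lit 0),(nat_lit 0)], Int.negSucc (nat_lit 19852794862129583)),
   ([(nat_lit 1),(nat_lit 0),(nat_lit 2),(nat_lit 0),(nat_lit 0),(nat_lit 0),(nat_lit 0),(nat_lit 0),(nat_lit 0),(nat_lit 0)], Int.negSucc (nat_lit 47759358100913279)),
   ([(nat_lit 1),(nat_lit 0),(nat_lit 2),(nat_lit 0),(nat_lit 0),(nat_lit 0),(nat_lit 0),(nat_lit 0),(nat_lit 1),(nat_lit 0)], Int.ofNat (nat_lit 1987933888384995)),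
   ([(nat_lit 1),(nat_lit 0),(nat_lit 2),(nat_lit 0),(nat_lit 0),(nat_lit 0),(nat_lit 1),(nat_lit 0),(nat_lit 0),(nat_lit 0)], Int.negSucc (nat_lit 1804765849715760)),
   ([(nat_lit 1),(nat_lit 0),(nat_lit 2),(nat_lit 0),(nat_lit 1),(nat_lit 0),(nat_lit 0),(nat_lit 0),(nat_lit 0),(nat_lit 0)], Int.ofNat (nat_lit 16350139422866956)),
   ([(nat_lit 1),(nat_lit 0),(nat_lit 3),(nat_lit 0),(nat_lit 0),(nat_lit 0),(nat_lit 0),(nat_lit 0),(nat_lit 0),(nat_lit 0)], Int.negSucc (nat_lit 23771542672849143)),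
   ([(nat_lit 1),(nat_lit 1),(nat_lit 0),(nat_lit 0),(nat_lit 0),(nat_lit 0),(nat_lit 0),(nat_lit 0),(nat_lit 0),(nat_lit 1)], Int.negSucc (nat_lit 29293076904264451)),
   ([(nat_lit 1),(nat_lit 1),(nat_lit 0),(nat_lit 0),(nat_lit 0),(nat_lit 0),(nat_lit 0),(nat_lit 1),(nat_lit 0),(nat_lit 0)], Int.ofNat (nat_lit 2012365446789870)),
   ([(nat_lit 1),(nat_lit 1),(nat_lit 0),(nat_lit 0),(nat_lit 0),(nat_lit 0),(nat_lit 0),(nat_lit 1),(nat_lit 1),(nat_lit 0)], Int.ofNat (nat_lit 2414991950693226)),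
   ([(nat_lit 1),(nat_lit 1),(nat_lit 0),(nat_lit 0),(nat_lit 0),(nat_lit 0),(nat_lit 1),(nat_lit 0),(nat_lit 0),(nat_lit 1)], Int.negSucc (nat_lit 2797161598747861)),
   ([(nat_lit 1),(nat_lit 1),(nat_lit 0),(nat_lit 0),(nat_lit 0),(nat_lit 0),(nat_lit 1),(nat_lit 1),(nat_lit 0),(nat_lit 0)], Int.ofNat (nat_lit 5456379288360781)),
   ([(nat_lit 1),(nat_lit 1),(nat_lit 0),(nat_lit 0),(nat_lit 0),(nat_lit 1),(nat_lit 0),(nat_lit 0),(nat_lit 0),(nat_lit 0)], Int.negSucc (nat_lit 56488129731836199)),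
   ([(nat_lit 1),(nat_lit 1),(nat_lit 0),(nat_lit 0),(nat_lit 0),(nat_lit 1),(nat_lit 0),(nat_lit 0),(nat_lit 1),(nat_lit 0)], Int.negSucc (nat_lit 6151716125087724)),
   ([(nat_lit 1),(nat_lit 1),(nat_lit 0),(nat_lit 0),(nat_lit 0),(nat_lit 1),(nat_lit 1),(nat_lit 0),(nat_lit 0),(nat_lit 0)], Int.negSucc (nat_lit 28325571203377535)),
   ([(nat_lit 1),(nat_lit 1),(nat_lit 0),(nat_lit 0),(nat_lit 1),(nat_lit 0),(nat_lit 0),(nat_lit 0),(nat_lit 0),(nat_lit 1)], Int.ofNat (nat_lit 7045336275150675)),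
   ([(nat_lit 1),(nat_lit 1),(nat_lit 0),(nat_lit 0),(nat_lit 1),(nat_lit 0),(nat_lit 0),(nat_lit 1),(nat_lit 0),(nat_lit 0)], Int.ofNat (nat_lit 6913308763979422)),
   ([(nat_lit 1),(nat_lit 1),(nat_lit 0),(nat_lit 0),(nat_lit 1),(nat_lit 1),(nat_lit 0),(nat_lit 0),(nat_lit 0),(nat_lit 0)], Int.ofNat (nat_lit 6896594589258054)),
   ([(nat_lit 1),(nat_lit 1),(nat_lit 0),(nat_lit 1),(nat_lit 0),(nat_lit 0),(nat_lit 0),(nat_lit 0),(nat_lit 0),(nat_lit 0)], Int.ofNat (nat_lit 73801052870171296)),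
   ([(nat_lit 1),(nat_lit 1),(nat_lit 0),(nat_lit 1),(nat_lit 0),(nat_lit 0),(nat_lit 0),(nat_lit 0),(nat_lit 1),(nat_lit 0)], Int.ofNat (nat_lit 9980641989909246)),
   ([(nat_lit 1),(nat_lit 1),(nat_lit 0),(nat_lit 1),(nat_lit 0),(nat_lit 0),(nat_lit 1),(nat_lit 0),(nat_lit 0),(nat_lit 0)], Int.ofNat (nat_lit 20919742246235928)),
   ([(nat_lit 1),(nat_lit 1),(nat_lit 0),(nat_lit 1),(nat_lit 1),(nat_lit 0),(nat_lit 0),(nat_lit 0),(nat_lit 0),(nat_lit 0)], Int.negSucc (nat_lit 51687364684935551)),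
   ([(nat_lit 1),(nat_lit 1),(nat_lit 1),(nat_lit 0),(nat_lit 0),(nat_lit 0),(nat_lit 0),(nat_lit 0),(nat_lit 0),(nat_lit 1)], Int.negSucc (nat_lit 9202320724923401)),
   ([(nat_lit 1),(nat_lit 1),(nat_lit 1),(nat_lit 0),(nat_lit 0),(nat_lit 0),(nat_lit 0),(nat_lit 1),(nat_lit 0),(nat_lit 0)], Int.negSucc (nat_lit 12211652227577431)),
   ([(nat_lit 1),(nat_lit 1),(nat_lit 1),(nat_lit 0),(nat_lit 0),(nat_lit 1),(nat_lit 0),(nat_lit 0),(nat_lit 0),(nat_lit 0)], Int.ofNat (nat_lit 18702438443403776)),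
   ([(nat_lit 1),(nat_lit 1),(nat_lit 1),(nat_lit 1),(nat_lit 0),(nat_lit 0),(nat_lit 0),(nat_lit 0),(nat_lit 0),(nat_lit 0)], Int.ofNat (nat_lit 34281686378440496)),
   ([(nat_lit 1),(nat_lit 2),(nat_lit 0),(nat_lit 0),(nat_lit 0),(nat_lit 0),(nat_lit 0),(nat_lit 0),(nat_lit 0),(nat_lit 0)], Int.negSucc (nat_lit 73041347419187039)),
   ([(nat_lit 1),(nat_lit 2),(nat_lit 0),(nat_lit 0),(nat_lit 0),(nat_lit 0),(nat_lit 0),(nat_lit 0),(nat_lit 1),(nat_lit 0)], Int.negSucc (nat_lit 11505310624287589)),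
   ([(nat_lit 1),(nat_lit 2),(nat_lit 0),(nat_lit 0),(nat_lit 0),(nat_lit 0),(nat_lit 1),(nat_lit 0),(nat_lit 0),(nat_lit 0)], Int.negSucc (nat_lit 20238283732144275)),
   ([(nat_lit 1),(nat_lit 2),(nat_lit 0),(nat_lit 0),(nat_lit 1),(nat_lit 0),(nat_lit 0),(nat_lit 0),(nat_lit 0),(nat_lit 0)], Int.ofNat (nat_lit 45183972955869520)),
   ([(nat_lit 1),(nat_lit 2),(nat_lit 1),(nat_lit 0),(nat_lit 0),(nat_lit 0),(nat_lit 0),(nat_lit 0),(nat_lit 0),(nat_lit 0)], Int.negSucc (nat_lit 50146879756973511)),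
   ([(nat_lit 2),(nat_lit 0),(nat_lit 0),(nat_lit 0),(nat_lit 0),(nat_lit 0),(nat_lit 0),(nat_lit 0),(nat_lit 0),(nat_lit 0)], Int.ofNat (nat_lit 40883027582204840)),
   ([(nat_lit 2),(nat_lit 0),(nat_lit 0),(nat_lit 0),(nat_lit 0),(nat_lit 0),(nat_lit 0),(nat_lit 0),(nat_lit 1),(nat_lit 0)], Int.negSucc (nat_lit 17351203641174413)),
   ([(nat_lit 2),(nat_lit 0),(nat_lit 0),(nat_lit 0),(nat_lit 0),(nat_lit 0),(nat_lit 0),(nat_lit 1),(nat_lit 0),(nat_lit 1)], Int.ofNat (nat_lit 8620175354598871)),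
   ([(nat_lit 2),(nat_lit 0),(nat_lit 0),(nat_lit 0),(nat_lit 0),(nat_lit 0),(nat_lit 0),(nat_lit 2),(nat_lit 0),(nat_lit 0)], Int.ofNat (nat_lit 4648199626931280)),
   ([(nat_lit 2),(nat_lit 0),(nat_lit 0),(nat_lit 0),(nat_lit 0),(nat_lit 0),(nat_lit 1),(nat_lit 0),(nat_lit 0),(nat_lit 0)], Int.ofNat (nat_lit 24116163394921976)),
   ([(nat_lit 2),(nat_lit 0),(nat_lit 0),(nat_lit 0),(nat_lit 0),(nat_lit 0),(nat_lit 1),(nat_lit 0),(nat_lit 1),(nat_lit 0)], Int.ofNat (nat_lit 8369133798855750)),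
   ([(nat_lit 2),(nat_lit 0),(nat_lit 0),(nat_lit 0),(nat_lit 0),(nat_lit 0),(nat_lit 2),(nat_lit 0),(nat_lit 0),(nat_lit 0)], Int.ofNat (nat_lit 7739714498965157)),
   ([(nat_lit 2),(nat_lit 0),(nat_lit 0),(nat_lit 0),(nat_lit 0),(nat_lit 1),(nat_lit 0),(nat_lit 0),(nat_lit 0),(nat_lit 1)], Int.ofNat (nat_lit 10315720977153680)),
   ([(nat_lit 2),(nat_lit 0),(nat_lit 0),(nat_lit 0),(nat_lit 0),(nat_lit 1),(nat_lit 0),(nat_lit 1),(nat_lit 0),(nat_lit 0)], Int.ofNat (nat_lit 17220920473413188)),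
   ([(nat_lit 2),(nat_lit 0),(nat_lit 0),(nat_lit 0),(nat_lit 0),(nat_lit 2),(nat_lit 0),(nat_lit 0),(nat_lit 0),(nat_lit 0)], Int.ofNat (nat_lit 13595263391124854)),
   ([(nat_lit 2),(nat_lit 0),(nat_lit 0),(nat_lit 0),(nat_lit 1),(nat_lit 0),(nat_lit 0),(nat_lit 0),(nat_lit 0),(nat_lit 0)], Int.negSucc (nat_lit 44005238199101575)),
   ([(nat_lit 2),(nat_lit 0),(nat_lit 0),(nat_lit 0),(nat_lit 1),(nat_lit 0),(nat_lit 0),(nat_lit 0),(nat_lit 1),(nat_lit 0)], Int.ofNat (nat_lit 7617693302685384)),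
   ([(nat_lit 2),(nat_lit 0),(nat_lit 0),(nat_lit 0),(nat_lit 1),(nat_lit 0),(nat_lit 1),(nat_lit 0),(nat_lit 0),(nat_lit 0)], Int.ofNat (nat_lit 14141732805910576)),
   ([(nat_lit 2),(nat_lit 0),(nat_lit 0),(nat_lit 0),(nat_lit 2),(nat_lit 0),(nat_lit 0),(nat_lit 0),(nat_lit 0),(nat_lit 0)], Int.ofNat (nat_lit 25209766479911848)),
   ([(nat_lit 2),(nat_lit 0),(nat_lit 0),(nat_lit 1),(nat_lit 0),(nat_lit 0),(nat_lit 0),(nat_lit 0),(nat_lit 0),(nat_lit 1)], Int.negSucc (nat_lit 5115974960260270)),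
   ([(nat_lit 2),(nat_lit 0),(nat_lit 0),(nat_lit 1),(nat_lit 0),(nat_lit 0),(nat_lit 0),(nat_lit 1),(nat_lit 0),(nat_lit 0)], Int.ofNat (nat_lit 2706352322781264)),
   ([(nat_lit 2),(nat_lit 0),(nat_lit 0),(nat_lit 1),(nat_lit 0),(nat_lit 1),(nat_lit 0),(nat_lit 0),(nat_lit 0),(nat_lit 0)], Int.negSucc (nat_lit 16597478368464451)),
   ([(nat_lit 2),(nat_lit 0),(nat_lit 0),(nat_lit 2),(nat_lit 0),(nat_lit 0),(nat_lit 0),(nat_lit 0),(nat_lit 0),(nat_lit 0)], Int.ofNat (nat_lit 40569381346825256)),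
   ([(nat_lit 2),(nat_lit 0),(nat_lit 1),(nat_lit 0),(nat_lit 0),(nat_lit 0),(nat_lit 0),(nat_lit 0),(nat_lit 0),(nat_lit 0)], Int.ofNat (nat_lit 92997776367642592)),
   ([(nat_lit 2),(nat_lit 0),(nat_lit 1),(nat_lit 0),(nat_lit 0),(nat_lit 0),(nat_lit 0),(nat_lit 0),(nat_lit 1),(nat_lit 0)], Int.negSucc (nat_lit 6399091772827191)),
   ([(nat_lit 2),(nat_lit 0),(nat_lit 1),(nat_lit 0),(nat_lit 0),(nat_lit 0),(nat_lit 1),(nat_lit 0),(nat_lit 0),(nat_lit 0)], Int.ofNat (nat_lit 8888626796461583)),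
   ([(nat_lit 2),(nat_lit 0),(nat_lit 1),(nat_lit 0),(nat_lit 1),(nat_lit 0),(nat_lit 0),(nat_lit 0),(nat_lit 0),(nat_lit 0)], Int.negSucc (nat_lit 34530016231535687)),
   ([(nat_lit 2),(nat_lit 0),(nat_lit 2),(nat_lit 0),(nat_lit 0),(nat_lit 0),(nat_lit 0),(nat_lit 0),(nat_lit 0),(nat_lit 0)], Int.ofNat (nat_lit 59893094336586512)),
   ([(nat_lit 2),(nat_lit 1),(nat_lit 0),(nat_lit 0),(nat_lit 0),(nat_lit 0),(nat_lit 0),(nat_lit 0),(nat_lit 0),(nat_lit 1)], Int.ofNat (nat_lit 18843344300800620)),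
   ([(nat_lit 2),(nat_lit 1),(nat_lit 0),(nat_lit 0),(nat_lit 0),(nat_lit 0),(nat_lit 0),(nat_lit 1),(nat_lit 0),(nat_lit 0)], Int.negSucc (nat_lit 2275363141103151)),
   ([(nat_lit 2),(nat_lit 1),(nat_lit 0),(nat_lit 0),(nat_lit 0),(nat_lit 1),(nat_lit 0),(nat_lit 0),(nat_lit 0),(nat_lit 0)], Int.ofNat (nat_lit 42472473447134320)),
   ([(nat_lit 2),(nat_lit 1),(nat_lit 0),(nat_lit 1),(nat_lit 0),(nat_lit 0),(nat_lit 0),(nat_lit 0),(nat_lit 0),(nat_lit 0)], Int.negSucc (nat_lit 85344884471668575)),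
   ([(nat_lit 2),(nat_lit 2),(nat_lit 0),(nat_lit 0),(nat_lit 0),(nat_lit 0),(nat_lit 0),(nat_lit 0),(nat_lit 0),(nat_lit 0)], Int.ofNat (nat_lit 97748350102805216)),
   ([(nat_lit 3),(nat_lit 0),(nat_lit 0),(nat_lit 0),(nat_lit 0),(nat_lit 0),(nat_lit 0),(nat_lit 0),(nat_lit 0),(nat_lit 0)], Int.negSucc (nat_lit 69451972568460383)),
   ([(nat_lit 3),(nat_lit 0),(nat_lit 0),(nat_lit 0),(nat_lit 0),(nat_lit 0),(nat_lit 0),(nat_lit 0),(nat_lit 1),(nat_lit 0)], Int.ofNat (nat_lit 9928068076687028)),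
   ([(nat_lit 3),(nat_lit 0),(nat_lit 0),(nat_lit 0),(nat_lit 0),(nat_lit 0),(nat_lit 1),(nat_lit 0),(nat_lit 0),(nat_lit 0)], Int.negSucc (nat_lit 21262894069764383)),
   ([(nat_lit 3),(nat_lit 0),(nat_lit 0),(nat_lit 0),(nat_lit 1),(nat_lit 0),(nat_lit 0),(nat_lit 0),(nat_lit 0),(nat_lit 0)], Int.ofNat (nat_lit 40491601090974336))]

/-- Monomials. -/
noncomputable def polyP_3 : List (List ℕ × ℤ) :=
  [([(nat_lit 3),(nat_lit 0),(nat_lit 1),(nat_lit 0),(nat_lit 0),(nat_lit 0),(nat_lit 0),(nat_lit 0),(nat_lit 0),(nat_lit 0)], Int.negSucc (nat_lit 88775714660569199)),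
   ([(nat_lit 4),(nat_lit 0),(nat_lit 0),(nat_lit 0),(nat_lit 0),(nat_lit 0),(nat_lit 0),(nat_lit 0),(nat_lit 0),(nat_lit 0)], Int.ofNat (nat_lit 55677007194885256))]

/-- Monomials. -/
noncomputable def polyP : List (List ℕ × ℤ) :=
  List.flatten [polyP_0, polyP_1, polyP_2, polyP_3]

/-- Monomials. -/
noncomputable def polyQ_0 : List (List ℕ × ℤ) :=
  [([(nat_lit 0),(nat_lit 0),(nat_lit 0),(nat_lit 0),(nat_lit 0),(nat_lit 0),(nat_lit 0),(nat_lit 0),(nat_lit 0),(nat_lit 1)], Int.negSucc (nat_lit 2797956450614243)),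
   ([(nat_lit 0),(nat_lit 0),(nat_lit 0),(nat_lit 0),(nat_lit 0),(nat_lit 0),(nat_lit 0),(nat_lit 1),(nat_lit 0),(nat_lit 0)], Int.ofNat (nat_lit 6964517460914897)),
   ([(nat_lit 0),(nat_lit 0),(nat_lit 0),(nat_lit 0),(nat_lit 0),(nat_lit 0),(nat_lit 0),(nat_lit 1),(nat_lit 1),(nat_lit 0)], Int.negSucc (nat_lit 840017046088767)),
   ([(nat_lit 0),(nat_lit 0),(nat_lit 0),(nat_lit 0),(nat_lit 0),(nat_lit 0),(nat_lit 0),(nat_lit 2),(nat_lit 0),(nat_lit 1)], Int.ofNat (nat_lit 104859119460744)),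
   ([(nat_lit 0),(nat_lit 0),(nat_lit 0),(nat_lit 0),(nat_lit 0),(nat_lit 0),(nat_lit 0),(nat_lit 3),(nat_lit 0),(nat_lit 0)], Int.negSucc (nat_lit 88181002988307)),
   ([(nat_lit 0),(nat_lit 0),(nat_lit 0),(nat_lit 0),(nat_lit 0),(nat_lit 0),(nat_lit 1),(nat_lit 0),(nat_lit 0),(nat_lit 1)], Int.negSucc (nat_lit 2857751509080111)),
   ([(nat_lit 0),(nat_lit 0),(nat_lit 0),(nat_lit 0),(nat_lit 0),(nat_lit 0),(nat_lit 1),(nat_lit 1),(nat_lit 0),(nat_lit 0)], Int.ofNat (nat_lit 11070279261969688)),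
   ([(nat_lit 0),(nat_lit 0),(nat_lit 0),(nat_lit 0),(nat_lit 0),(nat_lit 0),(nat_lit 1),(nat_lit 1),(nat_lit 1),(nat_lit 0)], Int.ofNat (nat_lit 91023835541164)),
   ([(nat_lit 0),(nat_lit 0),(nat_lit 0),(nat_lit 0),(nat_lit 0),(nat_lit 0),(nat_lit 2),(nat_lit 0),(nat_lit 0),(nat_lit 1)], Int.ofNat (nat_lit 19917785497091)),
   ([(nat_lit 0),(nat_lit 0),(nat_lit 0),(nat_lit 0),(nat_lit 0),(nat_lit 0),(nat_lit 2),(nat_lit 1),(nat_lit 0),(nat_lit 0)], Int.negSucc (nat_lit 137574359315470)),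
   ([(nat_lit 0),(nat_lit 0),(nat_lit 0),(nat_lit 0),(nat_lit 0),(nat_lit 1),(nat_lit 0),(nat_lit 0),(nat_lit 0),(nat_lit 0)], Int.negSucc (nat_lit 10270055655259607)),
   ([(nat_lit 0),(nat_lit 0),(nat_lit 0),(nat_lit 0),(nat_lit 0),(nat_lit 1),(nat_lit 0),(nat_lit 0),(nat_lit 1),(nat_lit 0)], Int.negSucc (nat_lit 1168268867297512)),
   ([(nat_lit 0),(nat_lit 0),(nat_lit 0),(nat_lit 0),(nat_lit 0),(nat_lit 1),(nat_lit 0),(nat_lit 1),(nat_lit 0),(nat_lit 1)], Int.negSucc (nat_lit 219820832768078)),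
   ([(nat_lit 0),(nat_lit 0),(nat_lit 0),(nat_lit 0),(nat_lit 0),(nat_lit 1),(nat_lit 0),(nat_lit 2),(nat_lit 0),(nat_lit 0)], Int.ofNat (nat_lit 441472979852145)),
   ([(nat_lit 0),(nat_lit 0),(nat_lit 0),(nat_lit 0),(nat_lit 0),(nat_lit 1),(nat_lit 1),(nat_lit 0),(nat_lit 0),(nat_lit 0)], Int.negSucc (nat_lit 12729118041233267)),
   ([(nat_lit 0),(nat_lit 0),(nat_lit 0),(nat_lit 0),(nat_lit 0),(nat_lit 1),(nat_lit 1),(nat_lit 0),(nat_lit 1),(nat_lit 0)], Int.negSucc (nat_lit 293789125210181)),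
   ([(nat_lit 0),(nat_lit 0),(nat_lit 0),(nat_lit 0),(nat_lit 0),(nat_lit 1),(nat_lit 2),(nat_lit 0),(nat_lit 0),(nat_lit 0)], Int.ofNat (nat_lit 248010743111734)),
   ([(nat_lit 0),(nat_lit 0),(nat_lit 0),(nat_lit 0),(nat_lit 0),(nat_lit 2),(nat_lit 0),(nat_lit 0),(nat_lit 0),(nat_lit 1)], Int.ofNat (nat_lit 745931285429297)),
   ([(nat_lit 0),(nat_lit 0),(nat_lit 0),(nat_lit 0),(nat_lit 0),(nat_lit 2),(nat_lit 0),(nat_lit 1),(nat_lit 0),(nat_lit 0)], Int.ofNat (nat_lit 3396497339189000)),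
   ([(nat_lit 0),(nat_lit 0),(nat_lit 0),(nat_lit 0),(nat_lit 0),(nat_lit 3),(nat_lit 0),(nat_lit 0),(nat_lit 0),(nat_lit 0)], Int.negSucc (nat_lit 918549723901249)),
   ([(nat_lit 0),(nat_lit 0),(nat_lit 0),(nat_lit 0),(nat_lit 0),(nat_lit 3),(nat_lit 1),(nat_lit 0),(nat_lit 0),(nat_lit 0)], Int.negSucc (nat_lit 468808686470415)),
   ([(nat_lit 0),(nat_lit 0),(nat_lit 0),(nat_lit 0),(nat_lit 1),(nat_lit 0),(nat_lit 0),(nat_lit 0),(nat_lit 0),(nat_lit 1)], Int.ofNat (nat_lit 11640084644611596)),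
   ([(nat_lit 0),(nat_lit 0),(nat_lit 0),(nat_lit 0),(nat_lit 1),(nat_lit 0),(nat_lit 0),(nat_lit 1),(nat_lit 0),(nat_lit 0)], Int.negSucc (nat_lit 20699867098615115)),
   ([(nat_lit 0),(nat_lit 0),(nat_lit 0),(nat_lit 0),(nat_lit 1),(nat_lit 0),(nat_lit 0),(nat_lit 1),(nat_lit 1),(nat_lit 0)], Int.negSucc (nat_lit 237255917516734)),
   ([(nat_lit 0),(nat_lit 0),(nat_lit 0),(nat_lit 0),(nat_lit 1),(nat_lit 0),(nat_lit 1),(nat_lit 0),(nat_lit 0),(nat_lit 1)], Int.ofNat (nat_lit 296535783970328)),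
   ([(nat_lit 0),(nat_lit 0),(nat_lit 0),(nat_lit 0),(nat_lit 1),(nat_lit 0),(nat_lit 1),(nat_lit 1),(nat_lit 0),(nat_lit 0)], Int.ofNat (nat_lit 337973051003134)),
   ([(nat_lit 0),(nat_lit 0),(nat_lit 0),(nat_lit 0),(nat_lit 1),(nat_lit 1),(nat_lit 0),(nat_lit 0),(nat_lit 0),(nat_lit 0)], Int.ofNat (nat_lit 7529262640599805)),
   ([(nat_lit 0),(nat_lit 0),(nat_lit 0),(nat_lit 0),(nat_lit 1),(nat_lit 1),(nat_lit 0),(nat_lit 0),(nat_lit 1),(nat_lit 0)], Int.ofNat (nat_lit 2485665757390492)),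
   ([(nat_lit 0),(nat_lit 0),(nat_lit 0),(nat_lit 0),(nat_lit 1),(nat_lit 1),(nat_lit 1),(nat_lit 0),(nat_lit 0),(nat_lit 0)], Int.ofNat (nat_lit 5994996799462391)),
   ([(nat_lit 0),(nat_lit 0),(nat_lit 0),(nat_lit 0),(nat_lit 1),(nat_lit 2),(nat_lit 0),(nat_lit 1),(nat_lit 0),(nat_lit 0)], Int.ofNat (nat_lit 502653118319171)),
   ([(nat_lit 0),(nat_lit 0),(nat_lit 0),(nat_lit 0),(nat_lit 1),(nat_lit 3),(nat_lit 0),(nat_lit 0),(nat_lit 0),(nat_lit 0)], Int.negSucc (nat_lit 198442272750475)),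
   ([(nat_lit 0),(nat_lit 0),(nat_lit 0),(nat_lit 0),(nat_lit 2),(nat_lit 0),(nat_lit 0),(nat_lit 0),(nat_lit 0),(nat_lit 1)], Int.negSucc (nat_lit 1737539722828689)),
   ([(nat_lit 0),(nat_lit 0),(nat_lit 0),(nat_lit 0),(nat_lit 2),(nat_lit 0),(nat_lit 0),(nat_lit 1),(nat_lit 0),(nat_lit 0)], Int.negSucc (nat_lit 3551121168908589)),
   ([(nat_lit 0),(nat_lit 0),(nat_lit 0),(nat_lit 0),(nat_lit 2),(nat_lit 1),(nat_lit 0),(nat_lit 0),(nat_lit 0),(nat_lit 0)], Int.ofNat (nat_lit 1081500546559547)),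
   ([(nat_lit 0),(nat_lit 0),(nat_lit 0),(nat_lit 0),(nat_lit 2),(nat_lit 1),(nat_lit 1),(nat_lit 0),(nat_lit 0),(nat_lit 0)], Int.negSucc (nat_lit 490425351011490)),
   ([(nat_lit 0),(nat_lit 0),(nat_lit 0),(nat_lit 0),(nat_lit 3),(nat_lit 0),(nat_lit 0),(nat_lit 1),(nat_lit 0),(nat_lit 0)], Int.ofNat (nat_lit 519544278507805)),
   ([(nat_lit 0),(nat_lit 0),(nat_lit 0),(nat_lit 0),(nat_lit 3),(nat_lit 1),(nat_lit 0),(nat_lit 0),(nat_lit 0),(nat_lit 0)], Int.negSucc (nat_lit 138955410017148)),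
   ([(nat_lit 0),(nat_lit 0),(nat_lit 0),(nat_lit 1),(nat_lit 0),(nat_lit 0),(nat_lit 0),(nat_lit 0),(nat_lit 0),(nat_lit 0)], Int.ofNat (nat_lit 8043275929343191)),
   ([(nat_lit 0),(nat_lit 0),(nat_lit 0),(nat_lit 1),(nat_lit 0),(nat_lit 0),(nat_lit 0),(nat_lit 0),(nat_lit 1),(nat_lit 0)], Int.negSucc (nat_lit 7655881310147032)),
   ([(nat_lit 0),(nat_lit 0),(nat_lit 0),(nat_lit 1),(nat_lit 0),(nat_lit 0),(nat_lit 0),(nat_lit 1),(nat_lit 0),(nat_lit 1)], Int.negSucc (nat_lit 3133019164288613)),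
   ([(nat_lit 0),(nat_lit 0),(nat_lit 0),(nat_lit 1),(nat_lit 0),(nat_lit 0),(nat_lit 0),(nat_lit 2),(nat_lit 0),(nat_lit 0)], Int.negSucc (nat_lit 1317034076531256)),
   ([(nat_lit 0),(nat_lit 0),(nat_lit 0),(nat_lit 1),(nat_lit 0),(nat_lit 0),(nat_lit 1),(nat_lit 0),(nat_lit 0),(nat_lit 0)], Int.ofNat (nat_lit 5643743217858645)),
   ([(nat_lit 0),(nat_lit 0),(nat_lit 0),(nat_lit 1),(nat_lit 0),(nat_lit 0),(nat_lit 1),(nat_lit 0),(nat_lit 1),(nat_lit 0)], Int.negSucc (nat_lit 2188836620541655)),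
   ([(nat_lit 0),(nat_lit 0),(nat_lit 0),(nat_lit 1),(nat_lit 0),(nat_lit 0),(nat_lit 2),(nat_lit 0),(nat_lit 0),(nat_lit 0)], Int.negSucc (nat_lit 2198005397451059)),
   ([(nat_lit 0),(nat_lit 0),(nat_lit 0),(nat_lit 1),(nat_lit 0),(nat_lit 1),(nat_lit 0),(nat_lit 0),(nat_lit 0),(nat_lit 1)], Int.ofNat (nat_lit 1312254886323483)),
   ([(nat_lit 0),(nat_lit 0),(nat_lit 0),(nat_lit 1),(nat_lit 0),(nat_lit 1),(nat_lit 0),(nat_lit 1),(nat_lit 0),(nat_lit 0)], Int.negSucc (nat_lit 9644004168065755)),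
   ([(nat_lit 0),(nat_lit 0),(nat_lit 0),(nat_lit 1),(nat_lit 0),(nat_lit 1),(nat_lit 1),(nat_lit 1),(nat_lit 0),(nat_lit 0)], Int.ofNat (nat_lit 183771451640500)),
   ([(nat_lit 0),(nat_lit 0),(nat_lit 0),(nat_lit 1),(nat_lit 0),(nat_lit 2),(nat_lit 0),(nat_lit 0),(nat_lit 0),(nat_lit 0)], Int.ofNat (nat_lit 16751368713306470)),
   ([(nat_lit 0),(nat_lit 0),(nat_lit 0),(nat_lit 1),(nat_lit 0),(nat_lit 2),(nat_lit 0),(nat_lit 0),(nat_lit 1),(nat_lit 0)], Int.negSucc (nat_lit 126500073884206)),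
   ([(nat_lit 0),(nat_lit 0),(nat_lit 0),(nat_lit 1),(nat_lit 0),(nat_lit 2),(nat_lit 1),(nat_lit 0),(nat_lit 0),(nat_lit 0)], Int.ofNat (nat_lit 744756638847816)),
   ([(nat_lit 0),(nat_lit 0),(nat_lit 0),(nat_lit 1),(nat_lit 1),(nat_lit 0),(nat_lit 0),(nat_lit 0),(nat_lit 0),(nat_lit 0)], Int.ofNat (nat_lit 29166892594251080)),
   ([(nat_lit 0),(nat_lit 0),(nat_lit 0),(nat_lit 1),(nat_lit 1),(nat_lit 0),(nat_lit 0),(nat_lit 0),(nat_lit 1),(nat_lit 0)], Int.ofNat (nat_lit 2010907658470980)),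
   ([(nat_lit 0),(nat_lit 0),(nat_lit 0),(nat_lit 1),(nat_lit 1),(nat_lit 0),(nat_lit 0),(nat_lit 2),(nat_lit 0),(nat_lit 0)], Int.negSucc (nat_lit 217024758066852)),
   ([(nat_lit 0),(nat_lit 0),(nat_lit 0),(nat_lit 1),(nat_lit 1),(nat_lit 0),(nat_lit 1),(nat_lit 0),(nat_lit 0),(nat_lit 0)], Int.negSucc (nat_lit 9367502836802303)),
   ([(nat_lit 0),(nat_lit 0),(nat_lit 0),(nat_lit 1),(nat_lit 1),(nat_lit 0),(nat_lit 2),(nat_lit 0),(nat_lit 0),(nat_lit 0)], Int.negSucc (nat_lit 15613694294699)),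
   ([(nat_lit 0),(nat_lit 0),(nat_lit 0),(nat_lit 1),(nat_lit 1),(nat_lit 1),(nat_lit 0),(nat_lit 0),(nat_lit 0),(nat_lit 1)], Int.negSucc (nat_lit 23627925536901)),
   ([(nat_lit 0),(nat_lit 0),(nat_lit 0),(nat_lit 1),(nat_lit 1),(nat_lit 1),(nat_lit 0),(nat_lit 1),(nat_lit 0),(nat_lit 0)], Int.ofNat (nat_lit 52993491372625)),
   ([(nat_lit 0),(nat_lit 0),(nat_lit 0),(nat_lit 1),(nat_lit 1),(nat_lit 2),(nat_lit 0),(nat_lit 0),(nat_lit 0),(nat_lit 0)], Int.negSucc (nat_lit 1714976540703255)),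
   ([(nat_lit 0),(nat_lit 0),(nat_lit 0),(nat_lit 1),(nat_lit 2),(nat_lit 0),(nat_lit 0),(nat_lit 0),(nat_lit 0),(nat_lit 0)], Int.ofNat (nat_lit 12765922266437772)),
   ([(nat_lit 0),(nat_lit 0),(nat_lit 0),(nat_lit 1),(nat_lit 2),(nat_lit 0),(nat_lit 0),(nat_lit 0),(nat_lit 1),(nat_lit 0)], Int.negSucc (nat_lit 220098275522574)),
   ([(nat_lit 0),(nat_lit 0),(nat_lit 0),(nat_lit 1),(nat_lit 2),(nat_lit 0),(nat_lit 1),(nat_lit 0),(nat_lit 0),(nat_lit 0)], Int.ofNat (nat_lit 329627894281838)),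
   ([(nat_lit 0),(nat_lit 0),(nat_lit 0),(nat_lit 1),(nat_lit 3),(nat_lit 0),(nat_lit 0),(nat_lit 0),(nat_lit 0),(nat_lit 0)], Int.negSucc (nat_lit 1402276503981585)),
   ([(nat_lit 0),(nat_lit 0),(nat_lit 0),(nat_lit 2),(nat_lit 0),(nat_lit 0),(nat_lit 0),(nat_lit 0),(nat_lit 0),(nat_lit 1)], Int.negSucc (nat_lit 3684718707235867)),
   ([(nat_lit 0),(nat_lit 0),(nat_lit 0),(nat_lit 2),(nat_lit 0),(nat_lit 0),(nat_lit 0),(nat_lit 1),(nat_lit 0),(nat_lit 0)], Int.ofNat (nat_lit 17110284112137782)),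
   ([(nat_lit 0),(nat_lit 0),(nat_lit 0),(nat_lit 2),(nat_lit 0),(nat_lit 0),(nat_lit 0),(nat_lit 1),(nat_lit 1),(nat_lit 0)], Int.negSucc (nat_lit 106768936344240)),
   ([(nat_lit 0),(nat_lit 0),(nat_lit 0),(nat_lit 2),(nat_lit 0),(nat_lit 0),(nat_lit 1),(nat_lit 0),(nat_lit 0),(nat_lit 1)], Int.ofNat (nat_lit 136075279842243)),
   ([(nat_lit 0),(nat_lit 0),(nat_lit 0),(nat_lit 2),(nat_lit 0),(nat_lit 0),(nat_lit 1),(nat_lit 1),(nat_lit 0),(nat_lit 0)], Int.negSucc (nat_lit 31667089411387)),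
   ([(nat_lit 0),(nat_lit 0),(nat_lit 0),(nat_lit 2),(nat_lit 0),(nat_lit 1),(nat_lit 0),(nat_lit 0),(nat_lit 0),(nat_lit 0)], Int.negSucc (nat_lit 29324551658777343)),
   ([(nat_lit 0),(nat_lit 0),(nat_lit 0),(nat_lit 2),(nat_lit 0),(nat_lit 1),(nat_lit 0),(nat_lit 0),(nat_lit 1),(nat_lit 0)], Int.ofNat (nat_lit 274020366184103)),
   ([(nat_lit 0),(nat_lit 0),(nat_lit 0),(nat_lit 2),(nat_lit 0),(nat_lit 1),(nat_lit 1),(nat_lit 0),(nat_lit 0),(nat_lit 0)], Int.negSucc (nat_lit 1022356053169012)),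
   ([(nat_lit 0),(nat_lit 0),(nat_lit 0),(nat_lit 2),(nat_lit 1),(nat_lit 0),(nat_lit 0),(nat_lit 0),(nat_lit 0),(nat_lit 1)], Int.ofNat (nat_lit 27616053551467)),
   ([(nat_lit 0),(nat_lit 0),(nat_lit 0),(nat_lit 2),(nat_lit 1),(nat_lit 0),(nat_lit 0),(nat_lit 1),(nat_lit 0),(nat_lit 0)], Int.ofNat (nat_lit 1337215695736660)),
   ([(nat_lit 0),(nat_lit 0),(nat_lit 0),(nat_lit 2),(nat_lit 1),(nat_lit 1),(nat_lit 0),(nat_lit 0),(nat_lit 0),(nat_lit 0)], Int.negSucc (nat_lit 1143264206463055)),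
   ([(nat_lit 0),(nat_lit 0),(nat_lit 0),(nat_lit 3),(nat_lit 0),(nat_lit 0),(nat_lit 0),(nat_lit 0),(nat_lit 0),(nat_lit 0)], Int.ofNat (nat_lit 9120990192488806)),
   ([(nat_lit 0),(nat_lit 0),(nat_lit 0),(nat_lit 3),(nat_lit 0),(nat_lit 0),(nat_lit 0),(nat_lit 0),(nat_lit 1),(nat_lit 0)], Int.negSucc (nat_lit 429472054202299)),
   ([(nat_lit 0),(nat_lit 0),(nat_lit 0),(nat_lit 3),(nat_lit 0),(nat_lit 0),(nat_lit 1),(nat_lit 0),(nat_lit 0),(nat_lit 0)], Int.negSucc (nat_lit 883661784626687)),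
   ([(nat_lit 0),(nat_lit 0),(nat_lit 0),(nat_lit 3),(nat_lit 1),(nat_lit 0),(nat_lit 0),(nat_lit 0),(nat_lit 0),(nat_lit 0)], Int.ofNat (nat_lit 435863227226354)),
   ([(nat_lit 0),(nat_lit 0),(nat_lit 1),(nat_lit 0),(nat_lit 0),(nat_lit 0),(nat_lit 0),(nat_lit 0),(nat_lit 0),(nat_lit 1)], Int.negSucc (nat_lit 1267823341051849)),
   ([(nat_lit 0),(nat_lit 0),(nat_lit 1),(nat_lit 0),(nat_lit 0),(nat_lit 0),(nat_lit 0),(nat_lit 1),(nat_lit 0),(nat_lit 0)], Int.ofNat (nat_lit 4653766714911807)),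
   ([(nat_lit 0),(nat_lit 0),(nat_lit 1),(nat_lit 0),(nat_lit 0),(nat_lit 0),(nat_lit 0),(nat_lit 1),(nat_lit 1),(nat_lit 0)], Int.negSucc (nat_lit 1585743797884720)),
   ([(nat_lit 0),(nat_lit 0),(nat_lit 1),(nat_lit 0),(nat_lit 0),(nat_lit 0),(nat_lit 1),(nat_lit 0),(nat_lit 0),(nat_lit 1)], Int.ofNat (nat_lit 1272740637682955)),
   ([(nat_lit 0),(nat_lit 0),(nat_lit 1),(nat_lit 0),(nat_lit 0),(nat_lit 0),(nat_lit 1),(nat_lit 1),(nat_lit 0),(nat_lit 0)], Int.ofNat (nat_lit 230266815145571)),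
   ([(nat_lit 0),(nat_lit 0),(nat_lit 1),(nat_lit 0),(nat_lit 0),(nat_lit 1),(nat_lit 0),(nat_lit 0),(nat_lit 0),(nat_lit 0)], Int.ofNat (nat_lit 2413308458771052)),
   ([(nat_lit 0),(nat_lit 0),(nat_lit 1),(nat_lit 0),(nat_lit 0),(nat_lit 1),(nat_lit 0),(nat_lit 0),(nat_lit 1),(nat_lit 0)], Int.ofNat (nat_lit 3459790274156247)),
   ([(nat_lit 0),(nat_lit 0),(nat_lit 1),(nat_lit 0),(nat_lit 0),(nat_lit 1),(nat_lit 0),(nat_lit 2),(nat_lit 0),(nat_lit 0)], Int.ofNat (nat_lit 271393401298255)),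
   ([(nat_lit 0),(nat_lit 0),(nat_lit 1),(nat_lit 0),(nat_lit 0),(nat_lit 1),(nat_lit 1),(nat_lit 0),(nat_lit 0),(nat_lit 0)], Int.negSucc (nat_lit 9342579199257749)),
   ([(nat_lit 0),(nat_lit 0),(nat_lit 1),(nat_lit 0),(nat_lit 0),(nat_lit 1),(nat_lit 2),(nat_lit 0),(nat_lit 0),(nat_lit 0)], Int.ofNat (nat_lit 291444435333058)),
   ([(nat_lit 0),(nat_lit 0),(nat_lit 1),(nat_lit 0),(nat_lit 0),(nat_lit 2),(nat_lit 0),(nat_lit 0),(nat_lit 0),(nat_lit 1)], Int.ofNat (nat_lit 248912284836107)),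
   ([(nat_lit 0),(nat_lit 0),(nat_lit 1),(nat_lit 0),(nat_lit 0),(nat_lit 2),(nat_lit 0),(nat_lit 1),(nat_lit 0),(nat_lit 0)], Int.negSucc (nat_lit 828361816957119)),
   ([(nat_lit 0),(nat_lit 0),(nat_lit 1),(nat_lit 0),(nat_lit 0),(nat_lit 3),(nat_lit 0),(nat_lit 0),(nat_lit 0),(nat_lit 0)], Int.ofNat (nat_lit 1478388443599106)),
   ([(nat_lit 0),(nat_lit 0),(nat_lit 1),(nat_lit 0),(nat_lit 1),(nat_lit 0),(nat_lit 0),(nat_lit 0),(nat_lit 0),(nat_lit 1)], Int.negSucc (nat_lit 4789543988106987)),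
   ([(nat_lit 0),(nat_lit 0),(nat_lit 1),(nat_lit 0),(nat_lit 1),(nat_lit 0),(nat_lit 0),(nat_lit 1),(nat_lit 0),(nat_lit 0)], Int.ofNat (nat_lit 8440878585858702)),
   ([(nat_lit 0),(nat_lit 0),(nat_lit 1),(nat_lit 0),(nat_lit 1),(nat_lit 0),(nat_lit 1),(nat_lit 1),(nat_lit 0),(nat_lit 0)], Int.negSucc (nat_lit 85430870740117)),
   ([(nat_lit 0),(nat_lit 0),(nat_lit 1),(nat_lit 0),(nat_lit 1),(nat_lit 1),(nat_lit 0),(nat_lit 0),(nat_lit 0),(nat_lit 0)], Int.ofNat (nat_lit 4046743278842094)),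
   ([(nat_lit 0),(nat_lit 0),(nat_lit 1),(nat_lit 0),(nat_lit 1),(nat_lit 1),(nat_lit 0),(nat_lit 0),(nat_lit 1),(nat_lit 0)], Int.ofNat (nat_lit 307826941372137)),
   ([(nat_lit 0),(nat_lit 0),(nat_lit 1),(nat_lit 0),(nat_lit 1),(nat_lit 1),(nat_lit 1),(nat_lit 0),(nat_lit 0),(nat_lit 0)], Int.negSucc (nat_lit 43704339441056)),
   ([(nat_lit 0),(nat_lit 0),(nat_lit 1),(nat_lit 0),(nat_lit 2),(nat_lit 0),(nat_lit 0),(nat_lit 0),(nat_lit 0),(nat_lit 1)], Int.ofNat (nat_lit 14607362355136)),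
   ([(nat_lit 0),(nat_lit 0),(nat_lit 1),(nat_lit 0),(nat_lit 2),(nat_lit 0),(nat_lit 0),(nat_lit 1),(nat_lit 0),(nat_lit 0)], Int.ofNat (nat_lit 35481528751573)),
   ([(nat_lit 0),(nat_lit 0),(nat_lit 1),(nat_lit 0),(nat_lit 2),(nat_lit 1),(nat_lit 0),(nat_lit 0),(nat_lit 0),(nat_lit 0)], Int.ofNat (nat_lit 475046566720392)),
   ([(nat_lit 0),(nat_lit 0),(nat_lit 1),(nat_lit 1),(nat_lit 0),(nat_lit 0),(nat_lit 0),(nat_lit 0),(nat_lit 0),(nat_lit 0)], Int.negSucc (nat_lit 34807222862436383))]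

/-- Monomials. -/
noncomputable def polyQ_1 : List (List ℕ × ℤ) :=
  [([(nat_lit 0),(nat_lit 0),(nat_lit 1),(nat_lit 1),(nat_lit 0),(nat_lit 0),(nat_lit 0),(nat_lit 0),(nat_lit 1),(nat_lit 0)], Int.negSucc (nat_lit 6231543906604025)),
   ([(nat_lit 0),(nat_lit 0),(nat_lit 1),(nat_lit 1),(nat_lit 0),(nat_lit 0),(nat_lit 0),(nat_lit 1),(nat_lit 0),(nat_lit 1)], Int.ofNat (nat_lit 178094351835225)),
   ([(nat_lit 0),(nat_lit 0),(nat_lit 1),(nat_lit 1),(nat_lit 0),(nat_lit 0),(nat_lit 0),(nat_lit 2),(nat_lit 0),(nat_lit 0)], Int.negSucc (nat_lit 336769131207391)),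
   ([(nat_lit 0),(nat_lit 0),(nat_lit 1),(nat_lit 1),(nat_lit 0),(nat_lit 0),(nat_lit 1),(nat_lit 0),(nat_lit 0),(nat_lit 0)], Int.ofNat (nat_lit 30226221711621756)),
   ([(nat_lit 0),(nat_lit 0),(nat_lit 1),(nat_lit 1),(nat_lit 0),(nat_lit 0),(nat_lit 1),(nat_lit 0),(nat_lit 1),(nat_lit 0)], Int.ofNat (nat_lit 263575747132272)),
   ([(nat_lit 0),(nat_lit 0),(nat_lit 1),(nat_lit 1),(nat_lit 0),(nat_lit 0),(nat_lit 2),(nat_lit 0),(nat_lit 0),(nat_lit 0)], Int.negSucc (nat_lit 620710115792259)),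
   ([(nat_lit 0),(nat_lit 0),(nat_lit 1),(nat_lit 1),(nat_lit 0),(nat_lit 1),(nat_lit 0),(nat_lit 0),(nat_lit 0),(nat_lit 1)], Int.negSucc (nat_lit 597890128607879)),
   ([(nat_lit 0),(nat_lit 0),(nat_lit 1),(nat_lit 1),(nat_lit 0),(nat_lit 1),(nat_lit 0),(nat_lit 1),(nat_lit 0),(nat_lit 0)], Int.negSucc (nat_lit 36698423373104)),
   ([(nat_lit 0),(nat_lit 0),(nat_lit 1),(nat_lit 1),(nat_lit 0),(nat_lit 2),(nat_lit 0),(nat_lit 0),(nat_lit 0),(nat_lit 0)], Int.ofNat (nat_lit 1455233955851718)),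
   ([(nat_lit 0),(nat_lit 0),(nat_lit 1),(nat_lit 1),(nat_lit 1),(nat_lit 0),(nat_lit 0),(nat_lit 0),(nat_lit 0),(nat_lit 0)], Int.negSucc (nat_lit 41588343210872039)),
   ([(nat_lit 0),(nat_lit 0),(nat_lit 1),(nat_lit 1),(nat_lit 1),(nat_lit 0),(nat_lit 0),(nat_lit 0),(nat_lit 1),(nat_lit 0)], Int.ofNat (nat_lit 212641270860060)),
   ([(nat_lit 0),(nat_lit 0),(nat_lit 1),(nat_lit 1),(nat_lit 1),(nat_lit 0),(nat_lit 1),(nat_lit 0),(nat_lit 0),(nat_lit 0)], Int.ofNat (nat_lit 1377205160858650)),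
   ([(nat_lit 0),(nat_lit 0),(nat_lit 1),(nat_lit 1),(nat_lit 2),(nat_lit 0),(nat_lit 0),(nat_lit 0),(nat_lit 0),(nat_lit 0)], Int.ofNat (nat_lit 243879506208078)),
   ([(nat_lit 0),(nat_lit 0),(nat_lit 1),(nat_lit 2),(nat_lit 0),(nat_lit 0),(nat_lit 0),(nat_lit 0),(nat_lit 0),(nat_lit 1)], Int.ofNat (nat_lit 236414488470398)),
   ([(nat_lit 0),(nat_lit 0),(nat_lit 1),(nat_lit 2),(nat_lit 0),(nat_lit 0),(nat_lit 0),(nat_lit 1),(nat_lit 0),(nat_lit 0)], Int.ofNat (nat_lit 3593785492186622)),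
   ([(nat_lit 0),(nat_lit 0),(nat_lit 1),(nat_lit 2),(nat_lit 0),(nat_lit 1),(nat_lit 0),(nat_lit 0),(nat_lit 0),(nat_lit 0)], Int.negSucc (nat_lit 2377639019313176)),
   ([(nat_lit 0),(nat_lit 0),(nat_lit 1),(nat_lit 3),(nat_lit 0),(nat_lit 0),(nat_lit 0),(nat_lit 0),(nat_lit 0),(nat_lit 0)], Int.ofNat (nat_lit 1971579339563923)),
   ([(nat_lit 0),(nat_lit 0),(nat_lit 2),(nat_lit 0),(nat_lit 0),(nat_lit 0),(nat_lit 0),(nat_lit 0),(nat_lit 0),(nat_lit 1)], Int.ofNat (nat_lit 1998906029566898)),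
   ([(nat_lit 0),(nat_lit 0),(nat_lit 2),(nat_lit 0),(nat_lit 0),(nat_lit 0),(nat_lit 0),(nat_lit 1),(nat_lit 0),(nat_lit 0)], Int.negSucc (nat_lit 9297313264664355)),
   ([(nat_lit 0),(nat_lit 0),(nat_lit 2),(nat_lit 0),(nat_lit 0),(nat_lit 0),(nat_lit 0),(nat_lit 1),(nat_lit 1),(nat_lit 0)], Int.negSucc (nat_lit 25046756325127)),
   ([(nat_lit 0),(nat_lit 0),(nat_lit 2),(nat_lit 0),(nat_lit 0),(nat_lit 0),(nat_lit 1),(nat_lit 0),(nat_lit 0),(nat_lit 1)], Int.negSucc (nat_lit 24462132509420)),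
   ([(nat_lit 0),(nat_lit 0),(nat_lit 2),(nat_lit 0),(nat_lit 0),(nat_lit 0),(nat_lit 1),(nat_lit 1),(nat_lit 0),(nat_lit 0)], Int.ofNat (nat_lit 229854745945131)),
   ([(nat_lit 0),(nat_lit 0),(nat_lit 2),(nat_lit 0),(nat_lit 0),(nat_lit 1),(nat_lit 0),(nat_lit 0),(nat_lit 0),(nat_lit 0)], Int.ofNat (nat_lit 11838724208546334)),
   ([(nat_lit 0),(nat_lit 0),(nat_lit 2),(nat_lit 0),(nat_lit 0),(nat_lit 1),(nat_lit 0),(nat_lit 0),(nat_lit 1),(nat_lit 0)], Int.negSucc (nat_lit 176963106638990)),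
   ([(nat_lit 0),(nat_lit 0),(nat_lit 2),(nat_lit 0),(nat_lit 0),(nat_lit 1),(nat_lit 1),(nat_lit 0),(nat_lit 0),(nat_lit 0)], Int.negSucc (nat_lit 1415489270384415)),
   ([(nat_lit 0),(nat_lit 0),(nat_lit 2),(nat_lit 0),(nat_lit 1),(nat_lit 0),(nat_lit 0),(nat_lit 0),(nat_lit 0),(nat_lit 1)], Int.negSucc (nat_lit 360614227650667)),
   ([(nat_lit 0),(nat_lit 0),(nat_lit 2),(nat_lit 0),(nat_lit 1),(nat_lit 0),(nat_lit 0),(nat_lit 1),(nat_lit 0),(nat_lit 0)], Int.ofNat (nat_lit 173781267695872)),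
   ([(nat_lit 0),(nat_lit 0),(nat_lit 2),(nat_lit 0),(nat_lit 1),(nat_lit 1),(nat_lit 0),(nat_lit 0),(nat_lit 0),(nat_lit 0)], Int.ofNat (nat_lit 1220590577133672)),
   ([(nat_lit 0),(nat_lit 0),(nat_lit 2),(nat_lit 1),(nat_lit 0),(nat_lit 0),(nat_lit 0),(nat_lit 0),(nat_lit 0),(nat_lit 0)], Int.ofNat (nat_lit 2091505169781582)),
   ([(nat_lit 0),(nat_lit 0),(nat_lit 2),(nat_lit 1),(nat_lit 0),(nat_lit 0),(nat_lit 0),(nat_lit 0),(nat_lit 1),(nat_lit 0)], Int.negSucc (nat_lit 807159485330063)),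
   ([(nat_lit 0),(nat_lit 0),(nat_lit 2),(nat_lit 1),(nat_lit 0),(nat_lit 0),(nat_lit 1),(nat_lit 0),(nat_lit 0),(nat_lit 0)], Int.ofNat (nat_lit 4670546203746437)),
   ([(nat_lit 0),(nat_lit 0),(nat_lit 2),(nat_lit 1),(nat_lit 1),(nat_lit 0),(nat_lit 0),(nat_lit 0),(nat_lit 0),(nat_lit 0)], Int.negSucc (nat_lit 4490386662312299)),
   ([(nat_lit 0),(nat_lit 0),(nat_lit 3),(nat_lit 0),(nat_lit 0),(nat_lit 0),(nat_lit 0),(nat_lit 0),(nat_lit 0),(nat_lit 1)], Int.ofNat (nat_lit 656666772940766)),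
   ([(nat_lit 0),(nat_lit 0),(nat_lit 3),(nat_lit 0),(nat_lit 0),(nat_lit 0),(nat_lit 0),(nat_lit 1),(nat_lit 0),(nat_lit 0)], Int.negSucc (nat_lit 2096153796161566)),
   ([(nat_lit 0),(nat_lit 0),(nat_lit 3),(nat_lit 0),(nat_lit 0),(nat_lit 1),(nat_lit 0),(nat_lit 0),(nat_lit 0),(nat_lit 0)], Int.ofNat (nat_lit 2058504282980148)),
   ([(nat_lit 0),(nat_lit 0),(nat_lit 3),(nat_lit 1),(nat_lit 0),(nat_lit 0),(nat_lit 0),(nat_lit 0),(nat_lit 0),(nat_lit 0)], Int.ofNat (nat_lit 1394645422873821)),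
   ([(nat_lit 0),(nat_lit 1),(nat_lit 0),(nat_lit 0),(nat_lit 0),(nat_lit 0),(nat_lit 0),(nat_lit 0),(nat_lit 0),(nat_lit 0)], Int.negSucc (nat_lit 834501462588205)),
   ([(nat_lit 0),(nat_lit 1),(nat_lit 0),(nat_lit 0),(nat_lit 0),(nat_lit 0),(nat_lit 0),(nat_lit 0),(nat_lit 1),(nat_lit 0)], Int.negSucc (nat_lit 3088737781657224)),
   ([(nat_lit 0),(nat_lit 1),(nat_lit 0),(nat_lit 0),(nat_lit 0),(nat_lit 0),(nat_lit 0),(nat_lit 1),(nat_lit 0),(nat_lit 1)], Int.negSucc (nat_lit 16491507364534105)),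
   ([(nat_lit 0),(nat_lit 1),(nat_lit 0),(nat_lit 0),(nat_lit 0),(nat_lit 0),(nat_lit 0),(nat_lit 2),(nat_lit 0),(nat_lit 0)], Int.ofNat (nat_lit 4534933243156933)),
   ([(nat_lit 0),(nat_lit 1),(nat_lit 0),(nat_lit 0),(nat_lit 0),(nat_lit 0),(nat_lit 1),(nat_lit 0),(nat_lit 0),(nat_lit 0)], Int.ofNat (nat_lit 25096822309614656)),
   ([(nat_lit 0),(nat_lit 1),(nat_lit 0),(nat_lit 0),(nat_lit 0),(nat_lit 0),(nat_lit 1),(nat_lit 0),(nat_lit 1),(nat_lit 0)], Int.negSucc (nat_lit 22817242287977867)),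
   ([(nat_lit 0),(nat_lit 1),(nat_lit 0),(nat_lit 0),(nat_lit 0),(nat_lit 0),(nat_lit 1),(nat_lit 2),(nat_lit 0),(nat_lit 0)], Int.ofNat (nat_lit 80117811609238)),
   ([(nat_lit 0),(nat_lit 1),(nat_lit 0),(nat_lit 0),(nat_lit 0),(nat_lit 0),(nat_lit 2),(nat_lit 0),(nat_lit 0),(nat_lit 0)], Int.ofNat (nat_lit 15005142315191330)),
   ([(nat_lit 0),(nat_lit 1),(nat_lit 0),(nat_lit 0),(nat_lit 0),(nat_lit 0),(nat_lit 3),(nat_lit 0),(nat_lit 0),(nat_lit 0)], Int.ofNat (nat_lit 57334748535029)),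
   ([(nat_lit 0),(nat_lit 1),(nat_lit 0),(nat_lit 0),(nat_lit 0),(nat_lit 1),(nat_lit 0),(nat_lit 0),(nat_lit 0),(nat_lit 1)], Int.negSucc (nat_lit 2272312754093376)),
   ([(nat_lit 0),(nat_lit 1),(nat_lit 0),(nat_lit 0),(nat_lit 0),(nat_lit 1),(nat_lit 0),(nat_lit 1),(nat_lit 0),(nat_lit 0)], Int.ofNat (nat_lit 7257268003652749)),
   ([(nat_lit 0),(nat_lit 1),(nat_lit 0),(nat_lit 0),(nat_lit 0),(nat_lit 1),(nat_lit 0),(nat_lit 1),(nat_lit 1),(nat_lit 0)], Int.negSucc (nat_lit 51876696554821)),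
   ([(nat_lit 0),(nat_lit 1),(nat_lit 0),(nat_lit 0),(nat_lit 0),(nat_lit 1),(nat_lit 1),(nat_lit 0),(nat_lit 0),(nat_lit 1)], Int.negSucc (nat_lit 29254660041534)),
   ([(nat_lit 0),(nat_lit 1),(nat_lit 0),(nat_lit 0),(nat_lit 0),(nat_lit 1),(nat_lit 1),(nat_lit 1),(nat_lit 0),(nat_lit 0)], Int.negSucc (nat_lit 45188684349961)),
   ([(nat_lit 0),(nat_lit 1),(nat_lit 0),(nat_lit 0),(nat_lit 0),(nat_lit 2),(nat_lit 0),(nat_lit 0),(nat_lit 0),(nat_lit 0)], Int.negSucc (nat_lit 22124705575106799)),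
   ([(nat_lit 0),(nat_lit 1),(nat_lit 0),(nat_lit 0),(nat_lit 0),(nat_lit 2),(nat_lit 0),(nat_lit 0),(nat_lit 1),(nat_lit 0)], Int.negSucc (nat_lit 516330227812861)),
   ([(nat_lit 0),(nat_lit 1),(nat_lit 0),(nat_lit 0),(nat_lit 0),(nat_lit 2),(nat_lit 1),(nat_lit 0),(nat_lit 0),(nat_lit 0)], Int.ofNat (nat_lit 895013124717573)),
   ([(nat_lit 0),(nat_lit 1),(nat_lit 0),(nat_lit 0),(nat_lit 1),(nat_lit 0),(nat_lit 0),(nat_lit 0),(nat_lit 0),(nat_lit 0)], Int.negSucc (nat_lit 77961966128410767)),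
   ([(nat_lit 0),(nat_lit 1),(nat_lit 0),(nat_lit 0),(nat_lit 1),(nat_lit 0),(nat_lit 0),(nat_lit 0),(nat_lit 1),(nat_lit 0)], Int.ofNat (nat_lit 6921985401763470)),
   ([(nat_lit 0),(nat_lit 1),(nat_lit 0),(nat_lit 0),(nat_lit 1),(nat_lit 0),(nat_lit 0),(nat_lit 1),(nat_lit 0),(nat_lit 1)], Int.negSucc (nat_lit 237444412283693)),
   ([(nat_lit 0),(nat_lit 1),(nat_lit 0),(nat_lit 0),(nat_lit 1),(nat_lit 0),(nat_lit 0),(nat_lit 2),(nat_lit 0),(nat_lit 0)], Int.ofNat (nat_lit 533591325996849)),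
   ([(nat_lit 0),(nat_lit 1),(nat_lit 0),(nat_lit 0),(nat_lit 1),(nat_lit 0),(nat_lit 1),(nat_lit 0),(nat_lit 0),(nat_lit 0)], Int.negSucc (nat_lit 25995760938290951)),
   ([(nat_lit 0),(nat_lit 1),(nat_lit 0),(nat_lit 0),(nat_lit 1),(nat_lit 0),(nat_lit 1),(nat_lit 0),(nat_lit 1),(nat_lit 0)], Int.negSucc (nat_lit 266430174895153)),
   ([(nat_lit 0),(nat_lit 1),(nat_lit 0),(nat_lit 0),(nat_lit 1),(nat_lit 0),(nat_lit 2),(nat_lit 0),(nat_lit 0),(nat_lit 0)], Int.ofNat (nat_lit 515972829312098)),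
   ([(nat_lit 0),(nat_lit 1),(nat_lit 0),(nat_lit 0),(nat_lit 1),(nat_lit 1),(nat_lit 0),(nat_lit 0),(nat_lit 0),(nat_lit 1)], Int.negSucc (nat_lit 631325318986054)),
   ([(nat_lit 0),(nat_lit 1),(nat_lit 0),(nat_lit 0),(nat_lit 1),(nat_lit 1),(nat_lit 0),(nat_lit 1),(nat_lit 0),(nat_lit 0)], Int.negSucc (nat_lit 2999858644701511)),
   ([(nat_lit 0),(nat_lit 1),(nat_lit 0),(nat_lit 0),(nat_lit 1),(nat_lit 2),(nat_lit 0),(nat_lit 0),(nat_lit 0),(nat_lit 0)], Int.ofNat (nat_lit 462961300593780)),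
   ([(nat_lit 0),(nat_lit 1),(nat_lit 0),(nat_lit 0),(nat_lit 2),(nat_lit 0),(nat_lit 0),(nat_lit 0),(nat_lit 0),(nat_lit 0)], Int.ofNat (nat_lit 6416726133708611)),
   ([(nat_lit 0),(nat_lit 1),(nat_lit 0),(nat_lit 0),(nat_lit 2),(nat_lit 0),(nat_lit 0),(nat_lit 0),(nat_lit 1),(nat_lit 0)], Int.negSucc (nat_lit 1094821110366051)),
   ([(nat_lit 0),(nat_lit 1),(nat_lit 0),(nat_lit 0),(nat_lit 2),(nat_lit 0),(nat_lit 1),(nat_lit 0),(nat_lit 0),(nat_lit 0)], Int.negSucc (nat_lit 2882680740925213)),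
   ([(nat_lit 0),(nat_lit 1),(nat_lit 0),(nat_lit 0),(nat_lit 3),(nat_lit 0),(nat_lit 0),(nat_lit 0),(nat_lit 0),(nat_lit 0)], Int.ofNat (nat_lit 2212167053187626)),
   ([(nat_lit 0),(nat_lit 1),(nat_lit 0),(nat_lit 1),(nat_lit 0),(nat_lit 0),(nat_lit 0),(nat_lit 0),(nat_lit 0),(nat_lit 1)], Int.ofNat (nat_lit 15460579499648346)),
   ([(nat_lit 0),(nat_lit 1),(nat_lit 0),(nat_lit 1),(nat_lit 0),(nat_lit 0),(nat_lit 0),(nat_lit 1),(nat_lit 0),(nat_lit 0)], Int.negSucc (nat_lit 65128466673443103)),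
   ([(nat_lit 0),(nat_lit 1),(nat_lit 0),(nat_lit 1),(nat_lit 0),(nat_lit 0),(nat_lit 0),(nat_lit 1),(nat_lit 1),(nat_lit 0)], Int.ofNat (nat_lit 727337912379619)),
   ([(nat_lit 0),(nat_lit 1),(nat_lit 0),(nat_lit 1),(nat_lit 0),(nat_lit 0),(nat_lit 1),(nat_lit 0),(nat_lit 0),(nat_lit 1)], Int.negSucc (nat_lit 678667844999770)),
   ([(nat_lit 0),(nat_lit 1),(nat_lit 0),(nat_lit 1),(nat_lit 0),(nat_lit 0),(nat_lit 1),(nat_lit 1),(nat_lit 0),(nat_lit 0)], Int.negSucc (nat_lit 24772044386018)),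
   ([(nat_lit 0),(nat_lit 1),(nat_lit 0),(nat_lit 1),(nat_lit 0),(nat_lit 1),(nat_lit 0),(nat_lit 0),(nat_lit 0),(nat_lit 0)], Int.ofNat (nat_lit 114277087341399008)),
   ([(nat_lit 0),(nat_lit 1),(nat_lit 0),(nat_lit 1),(nat_lit 0),(nat_lit 1),(nat_lit 0),(nat_lit 0),(nat_lit 1),(nat_lit 0)], Int.ofNat (nat_lit 1327950852645986)),
   ([(nat_lit 0),(nat_lit 1),(nat_lit 0),(nat_lit 1),(nat_lit 0),(nat_lit 1),(nat_lit 1),(nat_lit 0),(nat_lit 0),(nat_lit 0)], Int.ofNat (nat_lit 7989695526100513)),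
   ([(nat_lit 0),(nat_lit 1),(nat_lit 0),(nat_lit 1),(nat_lit 1),(nat_lit 0),(nat_lit 0),(nat_lit 0),(nat_lit 0),(nat_lit 1)], Int.negSucc (nat_lit 2899209937524593)),
   ([(nat_lit 0),(nat_lit 1),(nat_lit 0),(nat_lit 1),(nat_lit 1),(nat_lit 0),(nat_lit 0),(nat_lit 1),(nat_lit 0),(nat_lit 0)], Int.negSucc (nat_lit 4013266057919983)),
   ([(nat_lit 0),(nat_lit 1),(nat_lit 0),(nat_lit 1),(nat_lit 1),(nat_lit 1),(nat_lit 0),(nat_lit 0),(nat_lit 0),(nat_lit 0)], Int.negSucc (nat_lit 3654893350181667)),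
   ([(nat_lit 0),(nat_lit 1),(nat_lit 0),(nat_lit 2),(nat_lit 0),(nat_lit 0),(nat_lit 0),(nat_lit 0),(nat_lit 0),(nat_lit 0)], Int.negSucc (nat_lit 57800803546190735)),
   ([(nat_lit 0),(nat_lit 1),(nat_lit 0),(nat_lit 2),(nat_lit 0),(nat_lit 0),(nat_lit 0),(nat_lit 0),(nat_lit 1),(nat_lit 0)], Int.negSucc (nat_lit 2520969271277017)),
   ([(nat_lit 0),(nat_lit 1),(nat_lit 0),(nat_lit 2),(nat_lit 0),(nat_lit 0),(nat_lit 1),(nat_lit 0),(nat_lit 0),(nat_lit 0)], Int.ofNat (nat_lit 8264340923471934)),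
   ([(nat_lit 0),(nat_lit 1),(nat_lit 0),(nat_lit 2),(nat_lit 1),(nat_lit 0),(nat_lit 0),(nat_lit 0),(nat_lit 0),(nat_lit 0)], Int.ofNat (nat_lit 2399227173453659)),
   ([(nat_lit 0),(nat_lit 1),(nat_lit 1),(nat_lit 0),(nat_lit 0),(nat_lit 0),(nat_lit 0),(nat_lit 0),(nat_lit 0),(nat_lit 0)], Int.ofNat (nat_lit 104551540476935280)),
   ([(nat_lit 0),(nat_lit 1),(nat_lit 1),(nat_lit 0),(nat_lit 0),(nat_lit 0),(nat_lit 0),(nat_lit 0),(nat_lit 1),(nat_lit 0)], Int.ofNat (nat_lit 5339800366883004)),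
   ([(nat_lit 0),(nat_lit 1),(nat_lit 1),(nat_lit 0),(nat_lit 0),(nat_lit 0),(nat_lit 0),(nat_lit 1),(nat_lit 0),(nat_lit 1)], Int.negSucc (nat_lit 1733678963917699)),
   ([(nat_lit 0),(nat_lit 1),(nat_lit 1),(nat_lit 0),(nat_lit 0),(nat_lit 0),(nat_lit 0),(nat_lit 2),(nat_lit 0),(nat_lit 0)], Int.ofNat (nat_lit 338884347408984)),
   ([(nat_lit 0),(nat_lit 1),(nat_lit 1),(nat_lit 0),(nat_lit 0),(nat_lit 0),(nat_lit 1),(nat_lit 0),(nat_lit 0),(nat_lit 0)], Int.negSucc (nat_lit 27397228664485183)),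
   ([(nat_lit 0),(nat_lit 1),(nat_lit 1),(nat_lit 0),(nat_lit 0),(nat_lit 0),(nat_lit 1),(nat_lit 0),(nat_lit 1),(nat_lit 0)], Int.negSucc (nat_lit 2130378791635539)),
   ([(nat_lit 0),(nat_lit 1),(nat_lit 1),(nat_lit 0),(nat_lit 0),(nat_lit 0),(nat_lit 2),(nat_lit 0),(nat_lit 0),(nat_lit 0)], Int.ofNat (nat_lit 1002263158002278)),
   ([(nat_lit 0),(nat_lit 1),(nat_lit 1),(nat_lit 0),(nat_lit 0),(nat_lit 1),(nat_lit 0),(nat_lit 0),(nat_lit 0),(nat_lit 1)], Int.ofNat (nat_lit 1987777065057624)),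
   ([(nat_lit 0),(nat_lit 1),(nat_lit 1),(nat_lit 0),(nat_lit 0),(nat_lit 1),(nat_lit 0),(nat_lit 1),(nat_lit 0),(nat_lit 0)], Int.negSucc (nat_lit 11116214287452901)),
   ([(nat_lit 0),(nat_lit 1),(nat_lit 1),(nat_lit 0),(nat_lit 0),(nat_lit 2),(nat_lit 0),(nat_lit 0),(nat_lit 0),(nat_lit 0)], Int.negSucc (nat_lit 3832061931325104)),
   ([(nat_lit 0),(nat_lit 1),(nat_lit 1),(nat_lit 0),(nat_lit 1),(nat_lit 0),(nat_lit 0),(nat_lit 0),(nat_lit 0),(nat_lit 0)], Int.ofNat (nat_lit 35943494323602784)),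
   ([(nat_lit 0),(nat_lit 1),(nat_lit 1),(nat_lit 0),(nat_lit 1),(nat_lit 0),(nat_lit 0),(nat_lit 0),(nat_lit 1),(nat_lit 0)], Int.ofNat (nat_lit 1306752452428676)),
   ([(nat_lit 0),(nat_lit 1),(nat_lit 1),(nat_lit 0),(nat_lit 1),(nat_lit 0),(nat_lit 1),(nat_lit 0),(nat_lit 0),(nat_lit 0)], Int.negSucc (nat_lit 11836388530308269)),
   ([(nat_lit 0),(nat_lit 1),(nat_lit 1),(nat_lit 0),(nat_lit 2),(nat_lit 0),(nat_lit 0),(nat_lit 0),(nat_lit 0),(nat_lit 0)], Int.negSucc (nat_lit 5514875712243930)),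
   ([(nat_lit 0),(nat_lit 1),(nat_lit 1),(nat_lit 1),(nat_lit 0),(nat_lit 0),(nat_lit 0),(nat_lit 0),(nat_lit 0),(nat_lit 1)], Int.ofNat (nat_lit 4067452274946752)),
   ([(nat_lit 0),(nat_lit 1),(nat_lit 1),(nat_lit 1),(nat_lit 0),(nat_lit 0),(nat_lit 0),(nat_lit 1),(nat_lit 0),(nat_lit 0)], Int.negSucc (nat_lit 13288200184935305)),
   ([(nat_lit 0),(nat_lit 1),(nat_lit 1),(nat_lit 1),(nat_lit 0),(nat_lit 1),(nat_lit 0),(nat_lit 0),(nat_lit 0),(nat_lit 0)], Int.ofNat (nat_lit 8553431654675410)),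
   ([(nat_lit 0),(nat_lit 1),(nat_lit 1),(nat_lit 2),(nat_lit 0),(nat_lit 0),(nat_lit 0),(nat_lit 0),(nat_lit 0),(nat_lit 0)], Int.negSucc (nat_lit 23581947885784751))]

/-- Monomials. -/
noncomputable def polyQ_2 : List (List ℕ × ℤ) :=
  [([(nat_lit 0),(nat_lit 1),(nat_lit 2),(nat_lit 0),(nat_lit 0),(nat_lit 0),(nat_lit 0),(nat_lit 0),(nat_lit 0),(nat_lit 0)], Int.ofNat (nat_lit 10054465088778442)),
   ([(nat_lit 0),(nat_lit 1),(nat_lit 2),(nat_lit 0),(nat_lit 0),(nat_lit 0),(nat_lit 0),(nat_lit 0),(nat_lit 1),(nat_lit 0)], Int.negSucc (nat_lit 735765378008636)),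
   ([(nat_lit 0),(nat_lit 1),(nat_lit 2),(nat_lit 0),(nat_lit 0),(nat_lit 0),(nat_lit 1),(nat_lit 0),(nat_lit 0),(nat_lit 0)], Int.ofNat (nat_lit 954641433793343)),
   ([(nat_lit 0),(nat_lit 1),(nat_lit 2),(nat_lit 0),(nat_lit 1),(nat_lit 0),(nat_lit 0),(nat_lit 0),(nat_lit 0),(nat_lit 0)], Int.negSucc (nat_lit 2091629496504597)),
   ([(nat_lit 0),(nat_lit 1),(nat_lit 3),(nat_lit 0),(nat_lit 0),(nat_lit 0),(nat_lit 0),(nat_lit 0),(nat_lit 0),(nat_lit 0)], Int.negSucc (nat_lit 499521278306776)),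
   ([(nat_lit 0),(nat_lit 2),(nat_lit 0),(nat_lit 0),(nat_lit 0),(nat_lit 0),(nat_lit 0),(nat_lit 0),(nat_lit 0),(nat_lit 1)], Int.negSucc (nat_lit 12963950894513859)),
   ([(nat_lit 0),(nat_lit 2),(nat_lit 0),(nat_lit 0),(nat_lit 0),(nat_lit 0),(nat_lit 0),(nat_lit 1),(nat_lit 0),(nat_lit 0)], Int.ofNat (nat_lit 44860527750412888)),
   ([(nat_lit 0),(nat_lit 2),(nat_lit 0),(nat_lit 0),(nat_lit 0),(nat_lit 0),(nat_lit 0),(nat_lit 1),(nat_lit 1),(nat_lit 0)], Int.negSucc (nat_lit 681029226764560)),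
   ([(nat_lit 0),(nat_lit 2),(nat_lit 0),(nat_lit 0),(nat_lit 0),(nat_lit 0),(nat_lit 1),(nat_lit 0),(nat_lit 0),(nat_lit 1)], Int.negSucc (nat_lit 208316902907756)),
   ([(nat_lit 0),(nat_lit 2),(nat_lit 0),(nat_lit 0),(nat_lit 0),(nat_lit 0),(nat_lit 1),(nat_lit 1),(nat_lit 0),(nat_lit 0)], Int.ofNat (nat_lit 2160832078909356)),
   ([(nat_lit 0),(nat_lit 2),(nat_lit 0),(nat_lit 0),(nat_lit 0),(nat_lit 1),(nat_lit 0),(nat_lit 0),(nat_lit 0),(nat_lit 0)], Int.negSucc (nat_lit 65129781021467559)),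
   ([(nat_lit 0),(nat_lit 2),(nat_lit 0),(nat_lit 0),(nat_lit 0),(nat_lit 1),(nat_lit 0),(nat_lit 0),(nat_lit 1),(nat_lit 0)], Int.negSucc (nat_lit 2621254986805790)),
   ([(nat_lit 0),(nat_lit 2),(nat_lit 0),(nat_lit 0),(nat_lit 0),(nat_lit 1),(nat_lit 1),(nat_lit 0),(nat_lit 0),(nat_lit 0)], Int.negSucc (nat_lit 2605140431130117)),
   ([(nat_lit 0),(nat_lit 2),(nat_lit 0),(nat_lit 0),(nat_lit 1),(nat_lit 0),(nat_lit 0),(nat_lit 0),(nat_lit 0),(nat_lit 1)], Int.ofNat (nat_lit 3913113846479846)),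
   ([(nat_lit 0),(nat_lit 2),(nat_lit 0),(nat_lit 0),(nat_lit 1),(nat_lit 0),(nat_lit 0),(nat_lit 1),(nat_lit 0),(nat_lit 0)], Int.negSucc (nat_lit 11471572682391905)),
   ([(nat_lit 0),(nat_lit 2),(nat_lit 0),(nat_lit 0),(nat_lit 1),(nat_lit 1),(nat_lit 0),(nat_lit 0),(nat_lit 0),(nat_lit 0)], Int.ofNat (nat_lit 6498267542777504)),
   ([(nat_lit 0),(nat_lit 2),(nat_lit 0),(nat_lit 1),(nat_lit 0),(nat_lit 0),(nat_lit 0),(nat_lit 0),(nat_lit 0),(nat_lit 0)], Int.ofNat (nat_lit 55031014374817632)),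
   ([(nat_lit 0),(nat_lit 2),(nat_lit 0),(nat_lit 1),(nat_lit 0),(nat_lit 0),(nat_lit 0),(nat_lit 0),(nat_lit 1),(nat_lit 0)], Int.ofNat (nat_lit 5851983087552095)),
   ([(nat_lit 0),(nat_lit 2),(nat_lit 0),(nat_lit 1),(nat_lit 0),(nat_lit 0),(nat_lit 1),(nat_lit 0),(nat_lit 0),(nat_lit 0)], Int.negSucc (nat_lit 13983707308585625)),
   ([(nat_lit 0),(nat_lit 2),(nat_lit 0),(nat_lit 1),(nat_lit 1),(nat_lit 0),(nat_lit 0),(nat_lit 0),(nat_lit 0),(nat_lit 0)], Int.ofNat (nat_lit 4597925645090935)),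
   ([(nat_lit 0),(nat_lit 2),(nat_lit 1),(nat_lit 0),(nat_lit 0),(nat_lit 0),(nat_lit 0),(nat_lit 0),(nat_lit 0),(nat_lit 1)], Int.negSucc (nat_lit 5082957884609093)),
   ([(nat_lit 0),(nat_lit 2),(nat_lit 1),(nat_lit 0),(nat_lit 0),(nat_lit 0),(nat_lit 0),(nat_lit 1),(nat_lit 0),(nat_lit 0)], Int.ofNat (nat_lit 10336580581578380)),
   ([(nat_lit 0),(nat_lit 2),(nat_lit 1),(nat_lit 0),(nat_lit 0),(nat_lit 1),(nat_lit 0),(nat_lit 0),(nat_lit 0),(nat_lit 0)], Int.negSucc (nat_lit 16690198653228071)),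
   ([(nat_lit 0),(nat_lit 2),(nat_lit 1),(nat_lit 1),(nat_lit 0),(nat_lit 0),(nat_lit 0),(nat_lit 0),(nat_lit 0),(nat_lit 0)], Int.ofNat (nat_lit 36679985464484416)),
   ([(nat_lit 0),(nat_lit 3),(nat_lit 0),(nat_lit 0),(nat_lit 0),(nat_lit 0),(nat_lit 0),(nat_lit 0),(nat_lit 0),(nat_lit 0)], Int.ofNat (nat_lit 28064604999172396)),
   ([(nat_lit 0),(nat_lit 3),(nat_lit 0),(nat_lit 0),(nat_lit 0),(nat_lit 0),(nat_lit 0),(nat_lit 0),(nat_lit 1),(nat_lit 0)], Int.negSucc (nat_lit 4971611382624433)),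
   ([(nat_lit 0),(nat_lit 3),(nat_lit 0),(nat_lit 0),(nat_lit 0),(nat_lit 0),(nat_lit 1),(nat_lit 0),(nat_lit 0),(nat_lit 0)], Int.ofNat (nat_lit 16783690433343692)),
   ([(nat_lit 0),(nat_lit 3),(nat_lit 0),(nat_lit 0),(nat_lit 1),(nat_lit 0),(nat_lit 0),(nat_lit 0),(nat_lit 0),(nat_lit 0)], Int.negSucc (nat_lit 16663349214746593)),
   ([(nat_lit 0),(nat_lit 3),(nat_lit 1),(nat_lit 0),(nat_lit 0),(nat_lit 0),(nat_lit 0),(nat_lit 0),(nat_lit 0),(nat_lit 0)], Int.negSucc (nat_lit 13857586979205197)),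
   ([(nat_lit 1),(nat_lit 0),(nat_lit 0),(nat_lit 0),(nat_lit 0),(nat_lit 0),(nat_lit 0),(nat_lit 0),(nat_lit 0),(nat_lit 1)], Int.ofNat (nat_lit 9779628677592534)),
   ([(nat_lit 1),(nat_lit 0),(nat_lit 0),(nat_lit 0),(nat_lit 0),(nat_lit 0),(nat_lit 0),(nat_lit 1),(nat_lit 0),(nat_lit 0)], Int.negSucc (nat_lit 5551586448071975)),
   ([(nat_lit 1),(nat_lit 0),(nat_lit 0),(nat_lit 0),(nat_lit 0),(nat_lit 0),(nat_lit 0),(nat_lit 1),(nat_lit 1),(nat_lit 0)], Int.negSucc (nat_lit 3682869563482637)),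
   ([(nat_lit 1),(nat_lit 0),(nat_lit 0),(nat_lit 0),(nat_lit 0),(nat_lit 0),(nat_lit 0),(nat_lit 3),(nat_lit 0),(nat_lit 0)], Int.ofNat (nat_lit 105159672635339)),
   ([(nat_lit 1),(nat_lit 0),(nat_lit 0),(nat_lit 0),(nat_lit 0),(nat_lit 0),(nat_lit 1),(nat_lit 0),(nat_lit 0),(nat_lit 1)], Int.ofNat (nat_lit 8975775785115611)),
   ([(nat_lit 1),(nat_lit 0),(nat_lit 0),(nat_lit 0),(nat_lit 0),(nat_lit 0),(nat_lit 1),(nat_lit 1),(nat_lit 0),(nat_lit 0)], Int.negSucc (nat_lit 15204677832691167)),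
   ([(nat_lit 1),(nat_lit 0),(nat_lit 0),(nat_lit 0),(nat_lit 0),(nat_lit 0),(nat_lit 2),(nat_lit 1),(nat_lit 0),(nat_lit 0)], Int.ofNat (nat_lit 115017894826193)),
   ([(nat_lit 1),(nat_lit 0),(nat_lit 0),(nat_lit 0),(nat_lit 0),(nat_lit 1),(nat_lit 0),(nat_lit 0),(nat_lit 0),(nat_lit 0)], Int.negSucc (nat_lit 16897261867309969)),
   ([(nat_lit 1),(nat_lit 0),(nat_lit 0),(nat_lit 0),(nat_lit 0),(nat_lit 1),(nat_lit 0),(nat_lit 0),(nat_lit 1),(nat_lit 0)], Int.ofNat (nat_lit 3973788656329443)),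
   ([(nat_lit 1),(nat_lit 0),(nat_lit 0),(nat_lit 0),(nat_lit 0),(nat_lit 1),(nat_lit 0),(nat_lit 1),(nat_lit 0),(nat_lit 1)], Int.negSucc (nat_lit 1097730891195695)),
   ([(nat_lit 1),(nat_lit 0),(nat_lit 0),(nat_lit 0),(nat_lit 0),(nat_lit 1),(nat_lit 0),(nat_lit 2),(nat_lit 0),(nat_lit 0)], Int.negSucc (nat_lit 230582727660874)),
   ([(nat_lit 1),(nat_lit 0),(nat_lit 0),(nat_lit 0),(nat_lit 0),(nat_lit 1),(nat_lit 1),(nat_lit 0),(nat_lit 0),(nat_lit 0)], Int.ofNat (nat_lit 23483197160979552)),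
   ([(nat_lit 1),(nat_lit 0),(nat_lit 0),(nat_lit 0),(nat_lit 0),(nat_lit 1),(nat_lit 1),(nat_lit 0),(nat_lit 1),(nat_lit 0)], Int.negSucc (nat_lit 1004897315539559)),
   ([(nat_lit 1),(nat_lit 0),(nat_lit 0),(nat_lit 0),(nat_lit 0),(nat_lit 1),(nat_lit 2),(nat_lit 0),(nat_lit 0),(nat_lit 0)], Int.ofNat (nat_lit 682028252613169)),
   ([(nat_lit 1),(nat_lit 0),(nat_lit 0),(nat_lit 0),(nat_lit 0),(nat_lit 2),(nat_lit 0),(nat_lit 0),(nat_lit 0),(nat_lit 1)], Int.negSucc (nat_lit 960000576895116)),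
   ([(nat_lit 1),(nat_lit 0),(nat_lit 0),(nat_lit 0),(nat_lit 0),(nat_lit 2),(nat_lit 0),(nat_lit 1),(nat_lit 0),(nat_lit 0)], Int.negSucc (nat_lit 1130549130627981)),
   ([(nat_lit 1),(nat_lit 0),(nat_lit 0),(nat_lit 0),(nat_lit 0),(nat_lit 3),(nat_lit 0),(nat_lit 0),(nat_lit 0),(nat_lit 0)], Int.negSucc (nat_lit 4228237659044058)),
   ([(nat_lit 1),(nat_lit 0),(nat_lit 0),(nat_lit 0),(nat_lit 1),(nat_lit 0),(nat_lit 0),(nat_lit 0),(nat_lit 0),(nat_lit 1)], Int.negSucc (nat_lit 16288615587344327)),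
   ([(nat_lit 1),(nat_lit 0),(nat_lit 0),(nat_lit 0),(nat_lit 1),(nat_lit 0),(nat_lit 0),(nat_lit 1),(nat_lit 0),(nat_lit 0)], Int.ofNat (nat_lit 25525774179990368)),
   ([(nat_lit 1),(nat_lit 0),(nat_lit 0),(nat_lit 0),(nat_lit 1),(nat_lit 0),(nat_lit 0),(nat_lit 1),(nat_lit 1),(nat_lit 0)], Int.ofNat (nat_lit 252059408564838)),
   ([(nat_lit 1),(nat_lit 0),(nat_lit 0),(nat_lit 0),(nat_lit 1),(nat_lit 0),(nat_lit 1),(nat_lit 0),(nat_lit 0),(nat_lit 1)], Int.negSucc (nat_lit 401079311438194)),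
   ([(nat_lit 1),(nat_lit 0),(nat_lit 0),(nat_lit 0),(nat_lit 1),(nat_lit 0),(nat_lit 1),(nat_lit 1),(nat_lit 0),(nat_lit 0)], Int.negSucc (nat_lit 450818251985438)),
   ([(nat_lit 1),(nat_lit 0),(nat_lit 0),(nat_lit 0),(nat_lit 1),(nat_lit 1),(nat_lit 0),(nat_lit 0),(nat_lit 0),(nat_lit 0)], Int.negSucc (nat_lit 14376523084602975)),
   ([(nat_lit 1),(nat_lit 0),(nat_lit 0),(nat_lit 0),(nat_lit 1),(nat_lit 1),(nat_lit 0),(nat_lit 0),(nat_lit 1),(nat_lit 0)], Int.negSucc (nat_lit 3626764314327937)),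
   ([(nat_lit 1),(nat_lit 0),(nat_lit 0),(nat_lit 0),(nat_lit 1),(nat_lit 1),(nat_lit 1),(nat_lit 0),(nat_lit 0),(nat_lit 0)], Int.negSucc (nat_lit 6655503792248906)),
   ([(nat_lit 1),(nat_lit 0),(nat_lit 0),(nat_lit 0),(nat_lit 2),(nat_lit 0),(nat_lit 0),(nat_lit 0),(nat_lit 0),(nat_lit 1)], Int.ofNat (nat_lit 2817791413417393)),
   ([(nat_lit 1),(nat_lit 0),(nat_lit 0),(nat_lit 0),(nat_lit 2),(nat_lit 0),(nat_lit 0),(nat_lit 1),(nat_lit 0),(nat_lit 0)], Int.ofNat (nat_lit 4244580855186192)),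
   ([(nat_lit 1),(nat_lit 0),(nat_lit 0),(nat_lit 0),(nat_lit 2),(nat_lit 1),(nat_lit 0),(nat_lit 0),(nat_lit 0),(nat_lit 0)], Int.negSucc (nat_lit 4656939212962751)),
   ([(nat_lit 1),(nat_lit 0),(nat_lit 0),(nat_lit 1),(nat_lit 0),(nat_lit 0),(nat_lit 0),(nat_lit 0),(nat_lit 0),(nat_lit 0)], Int.ofNat (nat_lit 46019438603506832)),
   ([(nat_lit 1),(nat_lit 0),(nat_lit 0),(nat_lit 1),(nat_lit 0),(nat_lit 0),(nat_lit 0),(nat_lit 0),(nat_lit 1),(nat_lit 0)], Int.ofNat (nat_lit 21408024725295508)),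
   ([(nat_lit 1),(nat_lit 0),(nat_lit 0),(nat_lit 1),(nat_lit 0),(nat_lit 0),(nat_lit 0),(nat_lit 1),(nat_lit 0),(nat_lit 1)], Int.ofNat (nat_lit 7645985430705531)),
   ([(nat_lit 1),(nat_lit 0),(nat_lit 0),(nat_lit 1),(nat_lit 0),(nat_lit 0),(nat_lit 0),(nat_lit 2),(nat_lit 0),(nat_lit 0)], Int.ofNat (nat_lit 2836967752857536)),
   ([(nat_lit 1),(nat_lit 0),(nat_lit 0),(nat_lit 1),(nat_lit 0),(nat_lit 0),(nat_lit 1),(nat_lit 0),(nat_lit 0),(nat_lit 0)], Int.negSucc (nat_lit 51901200501801471)),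
   ([(nat_lit 1),(nat_lit 0),(nat_lit 0),(nat_lit 1),(nat_lit 0),(nat_lit 0),(nat_lit 1),(nat_lit 0),(nat_lit 1),(nat_lit 0)], Int.ofNat (nat_lit 7091470237426097)),
   ([(nat_lit 1),(nat_lit 0),(nat_lit 0),(nat_lit 1),(nat_lit 0),(nat_lit 0),(nat_lit 2),(nat_lit 0),(nat_lit 0),(nat_lit 0)], Int.ofNat (nat_lit 2716588189662632)),
   ([(nat_lit 1),(nat_lit 0),(nat_lit 0),(nat_lit 1),(nat_lit 0),(nat_lit 1),(nat_lit 0),(nat_lit 0),(nat_lit 0),(nat_lit 1)], Int.ofNat (nat_lit 2092164091687200)),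
   ([(nat_lit 1),(nat_lit 0),(nat_lit 0),(nat_lit 1),(nat_lit 0),(nat_lit 1),(nat_lit 0),(nat_lit 1),(nat_lit 0),(nat_lit 0)], Int.ofNat (nat_lit 4332859662136216)),
   ([(nat_lit 1),(nat_lit 0),(nat_lit 0),(nat_lit 1),(nat_lit 0),(nat_lit 2),(nat_lit 0),(nat_lit 0),(nat_lit 0),(nat_lit 0)], Int.ofNat (nat_lit 11135597897240516)),
   ([(nat_lit 1),(nat_lit 0),(nat_lit 0),(nat_lit 1),(nat_lit 1),(nat_lit 0),(nat_lit 0),(nat_lit 0),(nat_lit 0),(nat_lit 0)], Int.ofNat (nat_lit 2443452328922878)),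
   ([(nat_lit 1),(nat_lit 0),(nat_lit 0),(nat_lit 1),(nat_lit 1),(nat_lit 0),(nat_lit 0),(nat_lit 0),(nat_lit 1),(nat_lit 0)], Int.ofNat (nat_lit 379283681723018)),
   ([(nat_lit 1),(nat_lit 0),(nat_lit 0),(nat_lit 1),(nat_lit 1),(nat_lit 0),(nat_lit 1),(nat_lit 0),(nat_lit 0),(nat_lit 0)], Int.ofNat (nat_lit 10279970590018876)),
   ([(nat_lit 1),(nat_lit 0),(nat_lit 0),(nat_lit 1),(nat_lit 2),(nat_lit 0),(nat_lit 0),(nat_lit 0),(nat_lit 0),(nat_lit 0)], Int.negSucc (nat_lit 3767007300942341)),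
   ([(nat_lit 1),(nat_lit 0),(nat_lit 0),(nat_lit 2),(nat_lit 0),(nat_lit 0),(nat_lit 0),(nat_lit 0),(nat_lit 0),(nat_lit 1)], Int.ofNat (nat_lit 6556945849856218)),
   ([(nat_lit 1),(nat_lit 0),(nat_lit 0),(nat_lit 2),(nat_lit 0),(nat_lit 0),(nat_lit 0),(nat_lit 1),(nat_lit 0),(nat_lit 0)], Int.negSucc (nat_lit 6093117368157590)),
   ([(nat_lit 1),(nat_lit 0),(nat_lit 0),(nat_lit 2),(nat_lit 0),(nat_lit 1),(nat_lit 0),(nat_lit 0),(nat_lit 0),(nat_lit 0)], Int.negSucc (nat_lit 11511484683718779)),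
   ([(nat_lit 1),(nat_lit 0),(nat_lit 0),(nat_lit 3),(nat_lit 0),(nat_lit 0),(nat_lit 0),(nat_lit 0),(nat_lit 0),(nat_lit 0)], Int.ofNat (nat_lit 11229195427412296)),
   ([(nat_lit 1),(nat_lit 0),(nat_lit 1),(nat_lit 0),(nat_lit 0),(nat_lit 0),(nat_lit 0),(nat_lit 0),(nat_lit 0),(nat_lit 1)], Int.negSucc (nat_lit 6929147682448712)),
   ([(nat_lit 1),(nat_lit 0),(nat_lit 1),(nat_lit 0),(nat_lit 0),(nat_lit 0),(nat_lit 0),(nat_lit 1),(nat_lit 0),(nat_lit 0)], Int.ofNat (nat_lit 24160562142716692)),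
   ([(nat_lit 1),(nat_lit 0),(nat_lit 1),(nat_lit 0),(nat_lit 0),(nat_lit 0),(nat_lit 0),(nat_lit 1),(nat_lit 1),(nat_lit 0)], Int.ofNat (nat_lit 3714018035572240)),
   ([(nat_lit 1),(nat_lit 0),(nat_lit 1),(nat_lit 0),(nat_lit 0),(nat_lit 0),(nat_lit 1),(nat_lit 0),(nat_lit 0),(nat_lit 1)], Int.negSucc (nat_lit 3844529152598821)),
   ([(nat_lit 1),(nat_lit 0),(nat_lit 1),(nat_lit 0),(nat_lit 0),(nat_lit 0),(nat_lit 1),(nat_lit 1),(nat_lit 0),(nat_lit 0)], Int.ofNat (nat_lit 725941678456544)),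
   ([(nat_lit 1),(nat_lit 0),(nat_lit 1),(nat_lit 0),(nat_lit 0),(nat_lit 1),(nat_lit 0),(nat_lit 0),(nat_lit 0),(nat_lit 0)], Int.negSucc (nat_lit 22330324684402135)),
   ([(nat_lit 1),(nat_lit 0),(nat_lit 1),(nat_lit 0),(nat_lit 0),(nat_lit 1),(nat_lit 0),(nat_lit 0),(nat_lit 1),(nat_lit 0)], Int.ofNat (nat_lit 898149364370355)),
   ([(nat_lit 1),(nat_lit 0),(nat_lit 1),(nat_lit 0),(nat_lit 0),(nat_lit 1),(nat_lit 1),(nat_lit 0),(nat_lit 0),(nat_lit 0)], Int.ofNat (nat_lit 10807070626522788)),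
   ([(nat_lit 1),(nat_lit 0),(nat_lit 1),(nat_lit 0),(nat_lit 1),(nat_lit 0),(nat_lit 0),(nat_lit 0),(nat_lit 0),(nat_lit 1)], Int.ofNat (nat_lit 1790976980623452)),
   ([(nat_lit 1),(nat_lit 0),(nat_lit 1),(nat_lit 0),(nat_lit 1),(nat_lit 0),(nat_lit 0),(nat_lit 1),(nat_lit 0),(nat_lit 0)], Int.negSucc (nat_lit 13017092059506143)),
   ([(nat_lit 1),(nat_lit 0),(nat_lit 1),(nat_lit 0),(nat_lit 1),(nat_lit 1),(nat_lit 0),(nat_lit 0),(nat_lit 0),(nat_lit 0)], Int.ofNat (nat_lit 9330656125611788)),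
   ([(nat_lit 1),(nat_lit 0),(nat_lit 1),(nat_lit 1),(nat_lit 0),(nat_lit 0),(nat_lit 0),(nat_lit 0),(nat_lit 0),(nat_lit 0)], Int.ofNat (nat_lit 19686497608407356)),
   ([(nat_lit 1),(nat_lit 0),(nat_lit 1),(nat_lit 1),(nat_lit 0),(nat_lit 0),(nat_lit 0),(nat_lit 0),(nat_lit 1),(nat_lit 0)], Int.ofNat (nat_lit 11661670873275520)),
   ([(nat_lit 1),(nat_lit 0),(nat_lit 1),(nat_lit 1),(nat_lit 0),(nat_lit 0),(nat_lit 1),(nat_lit 0),(nat_lit 0),(nat_lit 0)], Int.negSucc (nat_lit 21087642396919843)),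
   ([(nat_lit 1),(nat_lit 0),(nat_lit 1),(nat_lit 1),(nat_lit 1),(nat_lit 0),(nat_lit 0),(nat_lit 0),(nat_lit 0),(nat_lit 0)], Int.ofNat (nat_lit 27588355180819040)),
   ([(nat_lit 1),(nat_lit 0),(nat_lit 2),(nat_lit 0),(nat_lit 0),(nat_lit 0),(nat_lit 0),(nat_lit 0),(nat_lit 0),(nat_lit 1)], Int.negSucc (nat_lit 5468355292057860)),
   ([(nat_lit 1),(nat_lit 0),(nat_lit 2),(nat_lit 0),(nat_lit 0),(nat_lit 0),(nat_lit 0),(nat_lit 1),(nat_lit 0),(nat_lit 0)], Int.ofNat (nat_lit 9711084436067972)),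
   ([(nat_lit 1),(nat_lit 0),(nat_lit 2),(nat_lit 0),(nat_lit 0),(nat_lit 1),(nat_lit 0),(nat_lit 0),(nat_lit 0),(nat_lit 0)], Int.negSucc (nat_lit 26729949649516423)),
   ([(nat_lit 1),(nat_lit 0),(nat_lit 2),(nat_lit 1),(nat_lit 0),(nat_lit 0),(nat_lit 0),(nat_lit 0),(nat_lit 0),(nat_lit 0)], Int.ofNat (nat_lit 6794249655223690)),
   ([(nat_lit 1),(nat_lit 1),(nat_lit 0),(nat_lit 0),(nat_lit 0),(nat_lit 0),(nat_lit 0),(nat_lit 0),(nat_lit 0),(nat_lit 0)], Int.negSucc (nat_lit 144282350880859487)),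
   ([(nat_lit 1),(nat_lit 1),(nat_lit 0),(nat_lit 0),(nat_lit 0),(nat_lit 0),(nat_lit 0),(nat_lit 0),(nat_lit 1),(nat_lit 0)], Int.negSucc (nat_lit 345226601421912)),
   ([(nat_lit 1),(nat_lit 1),(nat_lit 0),(nat_lit 0),(nat_lit 0),(nat_lit 0),(nat_lit 0),(nat_lit 1),(nat_lit 0),(nat_lit 1)], Int.negSucc (nat_lit 2267378961651249)),
   ([(nat_lit 1),(nat_lit 1),(nat_lit 0),(nat_lit 0),(nat_lit 0),(nat_lit 0),(nat_lit 0),(nat_lit 2),(nat_lit 0),(nat_lit 0)], Int.negSucc (nat_lit 5411513847014818)),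
   ([(nat_lit 1),(nat_lit 1),(nat_lit 0),(nat_lit 0),(nat_lit 0),(nat_lit 0),(nat_lit 1),(nat_lit 0),(nat_lit 0),(nat_lit 0)], Int.ofNat (nat_lit 24352910768130356)),
   ([(nat_lit 1),(nat_lit 1),(nat_lit 0),(nat_lit 0),(nat_lit 0),(nat_lit 0),(nat_lit 1),(nat_lit 0),(nat_lit 1),(nat_lit 0)], Int.negSucc (nat_lit 1844860607064170))]

/-- Monomials. -/
noncomputable def polyQ_3 : List (List ℕ × ℤ) :=
  [([(nat_lit 1),(nat_lit 1),(nat_lit 0),(nat_lit 0),(nat_lit 0),(nat_lit 0),(nat_lit 2),(nat_lit 0),(nat_lit 0),(nat_lit 0)], Int.negSucc (nat_lit 5743141529732977)),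
   ([(nat_lit 1),(nat_lit 1),(nat_lit 0),(nat_lit 0),(nat_lit 0),(nat_lit 1),(nat_lit 0),(nat_lit 0),(nat_lit 0),(nat_lit 1)], Int.negSucc (nat_lit 13611395919278773)),
   ([(nat_lit 1),(nat_lit 1),(nat_lit 0),(nat_lit 0),(nat_lit 0),(nat_lit 1),(nat_lit 0),(nat_lit 1),(nat_lit 0),(nat_lit 0)], Int.ofNat (nat_lit 9713317373681366)),
   ([(nat_lit 1),(nat_lit 1),(nat_lit 0),(nat_lit 0),(nat_lit 0),(nat_lit 2),(nat_lit 0),(nat_lit 0),(nat_lit 0),(nat_lit 0)], Int.negSucc (nat_lit 17558821429465185)),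
   ([(nat_lit 1),(nat_lit 1),(nat_lit 0),(nat_lit 0),(nat_lit 1),(nat_lit 0),(nat_lit 0),(nat_lit 0),(nat_lit 0),(nat_lit 0)], Int.negSucc (nat_lit 1089295997867778)),
   ([(nat_lit 1),(nat_lit 1),(nat_lit 0),(nat_lit 0),(nat_lit 1),(nat_lit 0),(nat_lit 0),(nat_lit 0),(nat_lit 1),(nat_lit 0)], Int.negSucc (nat_lit 14447185237119255)),
   ([(nat_lit 1),(nat_lit 1),(nat_lit 0),(nat_lit 0),(nat_lit 1),(nat_lit 0),(nat_lit 1),(nat_lit 0),(nat_lit 0),(nat_lit 0)], Int.negSucc (nat_lit 2502054120584340)),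
   ([(nat_lit 1),(nat_lit 1),(nat_lit 0),(nat_lit 0),(nat_lit 2),(nat_lit 0),(nat_lit 0),(nat_lit 0),(nat_lit 0),(nat_lit 0)], Int.ofNat (nat_lit 140534279559066)),
   ([(nat_lit 1),(nat_lit 1),(nat_lit 0),(nat_lit 1),(nat_lit 0),(nat_lit 0),(nat_lit 0),(nat_lit 0),(nat_lit 0),(nat_lit 1)], Int.negSucc (nat_lit 17282394006836413)),
   ([(nat_lit 1),(nat_lit 1),(nat_lit 0),(nat_lit 1),(nat_lit 0),(nat_lit 0),(nat_lit 0),(nat_lit 1),(nat_lit 0),(nat_lit 0)], Int.ofNat (nat_lit 19117308084453864)),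
   ([(nat_lit 1),(nat_lit 1),(nat_lit 0),(nat_lit 1),(nat_lit 0),(nat_lit 1),(nat_lit 0),(nat_lit 0),(nat_lit 0),(nat_lit 0)], Int.ofNat (nat_lit 19834872637161780)),
   ([(nat_lit 1),(nat_lit 1),(nat_lit 0),(nat_lit 2),(nat_lit 0),(nat_lit 0),(nat_lit 0),(nat_lit 0),(nat_lit 0),(nat_lit 0)], Int.negSucc (nat_lit 9283989611714295)),
   ([(nat_lit 1),(nat_lit 1),(nat_lit 1),(nat_lit 0),(nat_lit 0),(nat_lit 0),(nat_lit 0),(nat_lit 0),(nat_lit 0),(nat_lit 0)], Int.negSucc (nat_lit 43072072278809975)),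
   ([(nat_lit 1),(nat_lit 1),(nat_lit 1),(nat_lit 0),(nat_lit 0),(nat_lit 0),(nat_lit 0),(nat_lit 0),(nat_lit 1),(nat_lit 0)], Int.negSucc (nat_lit 7869459102743708)),
   ([(nat_lit 1),(nat_lit 1),(nat_lit 1),(nat_lit 0),(nat_lit 0),(nat_lit 0),(nat_lit 1),(nat_lit 0),(nat_lit 0),(nat_lit 0)], Int.ofNat (nat_lit 12565909181162674)),
   ([(nat_lit 1),(nat_lit 1),(nat_lit 1),(nat_lit 0),(nat_lit 1),(nat_lit 0),(nat_lit 0),(nat_lit 0),(nat_lit 0),(nat_lit 0)], Int.ofNat (nat_lit 5188392856897080)),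
   ([(nat_lit 1),(nat_lit 1),(nat_lit 2),(nat_lit 0),(nat_lit 0),(nat_lit 0),(nat_lit 0),(nat_lit 0),(nat_lit 0),(nat_lit 0)], Int.negSucc (nat_lit 21888457864996299)),
   ([(nat_lit 1),(nat_lit 2),(nat_lit 0),(nat_lit 0),(nat_lit 0),(nat_lit 0),(nat_lit 0),(nat_lit 0),(nat_lit 0),(nat_lit 1)], Int.ofNat (nat_lit 6627682434874256)),
   ([(nat_lit 1),(nat_lit 2),(nat_lit 0),(nat_lit 0),(nat_lit 0),(nat_lit 0),(nat_lit 0),(nat_lit 1),(nat_lit 0),(nat_lit 0)], Int.negSucc (nat_lit 12683574713433523)),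
   ([(nat_lit 1),(nat_lit 2),(nat_lit 0),(nat_lit 0),(nat_lit 0),(nat_lit 1),(nat_lit 0),(nat_lit 0),(nat_lit 0),(nat_lit 0)], Int.negSucc (nat_lit 22005012749550667)),
   ([(nat_lit 1),(nat_lit 2),(nat_lit 0),(nat_lit 1),(nat_lit 0),(nat_lit 0),(nat_lit 0),(nat_lit 0),(nat_lit 0),(nat_lit 0)], Int.ofNat (nat_lit 37718592871134832)),
   ([(nat_lit 1),(nat_lit 3),(nat_lit 0),(nat_lit 0),(nat_lit 0),(nat_lit 0),(nat_lit 0),(nat_lit 0),(nat_lit 0),(nat_lit 0)], Int.negSucc (nat_lit 31292314714486583)),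
   ([(nat_lit 2),(nat_lit 0),(nat_lit 0),(nat_lit 0),(nat_lit 0),(nat_lit 0),(nat_lit 0),(nat_lit 0),(nat_lit 0),(nat_lit 1)], Int.negSucc (nat_lit 12722261152334773)),
   ([(nat_lit 2),(nat_lit 0),(nat_lit 0),(nat_lit 0),(nat_lit 0),(nat_lit 0),(nat_lit 0),(nat_lit 1),(nat_lit 0),(nat_lit 0)], Int.negSucc (nat_lit 16391336018981001)),
   ([(nat_lit 2),(nat_lit 0),(nat_lit 0),(nat_lit 0),(nat_lit 0),(nat_lit 0),(nat_lit 0),(nat_lit 1),(nat_lit 1),(nat_lit 0)], Int.ofNat (nat_lit 9694401067628280)),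
   ([(nat_lit 2),(nat_lit 0),(nat_lit 0),(nat_lit 0),(nat_lit 0),(nat_lit 0),(nat_lit 1),(nat_lit 0),(nat_lit 0),(nat_lit 1)], Int.negSucc (nat_lit 9734102076645453)),
   ([(nat_lit 2),(nat_lit 0),(nat_lit 0),(nat_lit 0),(nat_lit 0),(nat_lit 0),(nat_lit 1),(nat_lit 1),(nat_lit 0),(nat_lit 0)], Int.ofNat (nat_lit 1145057021765634)),
   ([(nat_lit 2),(nat_lit 0),(nat_lit 0),(nat_lit 0),(nat_lit 0),(nat_lit 1),(nat_lit 0),(nat_lit 0),(nat_lit 0),(nat_lit 0)], Int.ofNat (nat_lit 53097238378205296)),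
   ([(nat_lit 2),(nat_lit 0),(nat_lit 0),(nat_lit 0),(nat_lit 0),(nat_lit 1),(nat_lit 0),(nat_lit 0),(nat_lit 1),(nat_lit 0)], Int.negSucc (nat_lit 14225567743377321)),
   ([(nat_lit 2),(nat_lit 0),(nat_lit 0),(nat_lit 0),(nat_lit 0),(nat_lit 1),(nat_lit 1),(nat_lit 0),(nat_lit 0),(nat_lit 0)], Int.ofNat (nat_lit 7245831858915896)),
   ([(nat_lit 2),(nat_lit 0),(nat_lit 0),(nat_lit 0),(nat_lit 1),(nat_lit 0),(nat_lit 0),(nat_lit 0),(nat_lit 0),(nat_lit 1)], Int.ofNat (nat_lit 13725403143563404)),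
   ([(nat_lit 2),(nat_lit 0),(nat_lit 0),(nat_lit 0),(nat_lit 1),(nat_lit 0),(nat_lit 0),(nat_lit 1),(nat_lit 0),(nat_lit 0)], Int.negSucc (nat_lit 10785321687508895)),
   ([(nat_lit 2),(nat_lit 0),(nat_lit 0),(nat_lit 0),(nat_lit 1),(nat_lit 1),(nat_lit 0),(nat_lit 0),(nat_lit 0),(nat_lit 0)], Int.negSucc (nat_lit 11070851377907709)),
   ([(nat_lit 2),(nat_lit 0),(nat_lit 0),(nat_lit 1),(nat_lit 0),(nat_lit 0),(nat_lit 0),(nat_lit 0),(nat_lit 0),(nat_lit 0)], Int.negSucc (nat_lit 48688436633282631)),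
   ([(nat_lit 2),(nat_lit 0),(nat_lit 0),(nat_lit 1),(nat_lit 0),(nat_lit 0),(nat_lit 0),(nat_lit 0),(nat_lit 1),(nat_lit 0)], Int.negSucc (nat_lit 3649925973013929)),
   ([(nat_lit 2),(nat_lit 0),(nat_lit 0),(nat_lit 1),(nat_lit 0),(nat_lit 0),(nat_lit 1),(nat_lit 0),(nat_lit 0),(nat_lit 0)], Int.ofNat (nat_lit 17219393609900420)),
   ([(nat_lit 2),(nat_lit 0),(nat_lit 0),(nat_lit 1),(nat_lit 1),(nat_lit 0),(nat_lit 0),(nat_lit 0),(nat_lit 0),(nat_lit 0)], Int.ofNat (nat_lit 4898318641962702)),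
   ([(nat_lit 2),(nat_lit 0),(nat_lit 1),(nat_lit 0),(nat_lit 0),(nat_lit 0),(nat_lit 0),(nat_lit 0),(nat_lit 0),(nat_lit 1)], Int.ofNat (nat_lit 444945404840414)),
   ([(nat_lit 2),(nat_lit 0),(nat_lit 1),(nat_lit 0),(nat_lit 0),(nat_lit 0),(nat_lit 0),(nat_lit 1),(nat_lit 0),(nat_lit 0)], Int.negSucc (nat_lit 17206075095597355)),
   ([(nat_lit 2),(nat_lit 0),(nat_lit 1),(nat_lit 0),(nat_lit 0),(nat_lit 1),(nat_lit 0),(nat_lit 0),(nat_lit 0),(nat_lit 0)], Int.ofNat (nat_lit 34046649895665056)),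
   ([(nat_lit 2),(nat_lit 0),(nat_lit 1),(nat_lit 1),(nat_lit 0),(nat_lit 0),(nat_lit 0),(nat_lit 0),(nat_lit 0),(nat_lit 0)], Int.negSucc (nat_lit 8163429332971650)),
   ([(nat_lit 2),(nat_lit 1),(nat_lit 0),(nat_lit 0),(nat_lit 0),(nat_lit 0),(nat_lit 0),(nat_lit 0),(nat_lit 0),(nat_lit 0)], Int.ofNat (nat_lit 68087295412916656)),
   ([(nat_lit 2),(nat_lit 1),(nat_lit 0),(nat_lit 0),(nat_lit 0),(nat_lit 0),(nat_lit 0),(nat_lit 0),(nat_lit 1),(nat_lit 0)], Int.negSucc (nat_lit 15989266095711969)),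
   ([(nat_lit 2),(nat_lit 1),(nat_lit 0),(nat_lit 0),(nat_lit 0),(nat_lit 0),(nat_lit 1),(nat_lit 0),(nat_lit 0),(nat_lit 0)], Int.ofNat (nat_lit 3357505923533404)),
   ([(nat_lit 2),(nat_lit 1),(nat_lit 0),(nat_lit 0),(nat_lit 1),(nat_lit 0),(nat_lit 0),(nat_lit 0),(nat_lit 0),(nat_lit 0)], Int.negSucc (nat_lit 9581769918252493)),
   ([(nat_lit 2),(nat_lit 1),(nat_lit 1),(nat_lit 0),(nat_lit 0),(nat_lit 0),(nat_lit 0),(nat_lit 0),(nat_lit 0),(nat_lit 0)], Int.ofNat (nat_lit 25045153862815804)),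
   ([(nat_lit 3),(nat_lit 0),(nat_lit 0),(nat_lit 0),(nat_lit 0),(nat_lit 0),(nat_lit 0),(nat_lit 0),(nat_lit 0),(nat_lit 1)], Int.ofNat (nat_lit 14015743408599284)),
   ([(nat_lit 3),(nat_lit 0),(nat_lit 0),(nat_lit 0),(nat_lit 0),(nat_lit 0),(nat_lit 0),(nat_lit 1),(nat_lit 0),(nat_lit 0)], Int.ofNat (nat_lit 5572662181452741)),
   ([(nat_lit 3),(nat_lit 0),(nat_lit 0),(nat_lit 0),(nat_lit 0),(nat_lit 1),(nat_lit 0),(nat_lit 0),(nat_lit 0),(nat_lit 0)], Int.negSucc (nat_lit 31999936054703807)),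
   ([(nat_lit 3),(nat_lit 0),(nat_lit 0),(nat_lit 1),(nat_lit 0),(nat_lit 0),(nat_lit 0),(nat_lit 0),(nat_lit 0),(nat_lit 0)], Int.ofNat (nat_lit 16052422617314482)),
   ([(nat_lit 3),(nat_lit 1),(nat_lit 0),(nat_lit 0),(nat_lit 0),(nat_lit 0),(nat_lit 0),(nat_lit 0),(nat_lit 0),(nat_lit 0)], Int.negSucc (nat_lit 23860926385565851))]

/-- Monomials. -/
noncomputable def polyQ : List (List ℕ × ℤ) :=
  List.flatten [polyQ_0, polyQ_1, polyQ_2, polyQ_3]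

end Vale.Agent.P142K.CertB
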