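import Vale.Agent.P142K.CertB.Sp0Rows
import Vale.Agent.P142K.Fast

/-!
# An expanded part of the certificate

Generated from a semidefinite program; only the checker is trusted.
-/

namespace Vale.Agent.P142K.CertB

open Vale.Agent.P142J (MP)

/-- A coefficient. -/
noncomputable def sp0_m0_0_0 : MP 10 :=
  [[[[[[[[[[Int.ofNat (nat_lit 367064177248561)]]],[[[Int.ofNat (nat_lit 1163108735979606)]]],[[[Int.ofNat (nat_lit 12289139492223978)]]]]],[[[[[Int.negSucc (nat_lit 893081398880085)]]],[[[Int.ofNat (nat_lit 1271533377154950)]]]]],[[[[[Int.ofNat (nat_lit 8210550568193817)]]]]]],[],[[[[[[Int.negSucc (nat_lit 196093336903385)]]],[[[Int.ofNat (nat_lit 356929506587376)]]]]],[[[[[Int.ofNat (nat_lit 801374672870694)]]]]]],[],[[[[[[Int.ofNat (nat_lit 339968364197275)]]]]]]],[[[[[[[Int.negSucc (nat_lit 1621697885652259)]]],[[[Int.negSucc (nat_lit 3068774427809447)]]]]],[[[[[Int.ofNat (nat_lit 3673648649095964)]]]]]],[],[[[[[[Int.ofNat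 (nat_lit 827121676709240)]]]]]]],[[[[[[[Int.ofNat (nat_lit 11916571516268692)]]],[[[Int.negSucc (nat_lit 156979388679911)]]]]],[[[[[Int.negSucc (nat_lit 3400054207215837)]]]]]],[],[[[[[[Int.ofNat (nat_lit 27072321497722)]]]]]]],[[[[[[[Int.negSucc (nat_lit 1595035098828809)]]]]]]],[[[[[[[Int.ofNat (nat_lit 832981868183424)]]]]]]]],[[[[[],[[[[Int.ofNat (nat_lit 600117578721336)]]],[[[Int.negSucc (nat_lit 1810946609484407)]]]]],[[],[[[[Int.negSucc (nat_lit 2415740816719335)]]]]]],[[[[[[Int.negSucc (nat_lit 70697675598653)]]],[[[Int.negSucc (nat_lit 1422828156764015)]]]]],[[[[[Int.ofNat (nat_lit 493991668755330)]]]]]],[[[],[[[[Int.negSucc (nat_lit 881475334492863)]]]]]],[[[[[[Int.negSucc (nat_lit 889517963502371)]]]]]]],[[[[],[[[[Int.negSucc (nat_lit 2954743422588679)]]]]]],[[[[[[Int.ofNat (nat_lit 357330986801574)]]]]]]],[[[[],[[[[Int.ofNat (nat_lit 182956905278000)]]]]]],[[[[[[Int.negSucc (nat_lit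 628966608324401)]]]]]]]],[[[[[[[[Int.ofNat (nat_lit 481714501355386)]]],[[[Int.ofNat (nat_lit 1712476178262108)]]]],[],[[[[Int.ofNat (nat_lit 1548421140643817)]]]]],[[[[[Int.negSucc (nat_lit 3405192922580213)]]]]]],[[[],[[[[Int.ofNat (nat_lit 278318268130278)]]]]]],[[[[[[Int.ofNat (nat_lit 1345223229702130)]]]]]]],[[[[[[[Int.negSucc (nat_lit 2076111277550659)]]]]]]],[[[[[[[Int.ofNat (nat_lit 845242719290302)]]]]]]]],[[[[[],[[[[Int.ofNat (nat_lit 1185081589031488)]]]]]],[[[[[[Int.negSucc (nat_lit 1387166492642155)]]]]]]]],[[[[[[[[Int.ofNat (nat_lit 1063906205079677)]]]]]]]]],[[[[[[[[[Int.ofNat (nat_lit 2742769079508016)]]],[[[Int.ofNat (nat_lit 609344782535808)]]]]],[[[[[Int.negSucc (nat_lit 295024032472281)]]],[[[Int.ofNat (nat_lit 1241054100227916)]]]]],[[[[[Int.ofNat (nat_lit 1787524276275686)]]]]]],[],[[[[[[Int.negSucc (nat_lit 1536307809342781)]]]]],[[[[[Int.ofNat (nat_lit 100580573658960)]]]]]]],[[[[[[[Int.negSucc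 (nat_lit 15932534633039989)]]],[[[Int.ofNat (nat_lit 2890696901010588)]]]]],[[[[[Int.ofNat (nat_lit 5206383946790866)]]]]]],[],[[[[[[Int.negSucc (nat_lit 247215264882779)]]]]]]],[[[[[[[Int.ofNat (nat_lit 5238926391158)]]]]],[[[[[Int.negSucc (nat_lit 1054338725601201)]]]]]]],[[[[[[[Int.negSucc (nat_lit 2584559951196537)]]]]]]]],[[[[[],[[[[Int.ofNat (nat_lit 4809476620302174)]]]]],[[],[[[[Int.ofNat (nat_lit 737620612171716)]]]]]],[[[[[[Int.ofNat (nat_lit 780693406870206)]]]]],[[[[[Int.negSucc (nat_lit 502383139148965)]]]]]]],[[[[],[[[[Int.ofNat (nat_lit 529192040142356)]]]]]],[[[[[[Int.ofNat (nat_lit 527327963750230)]]]]]]]],[[[[[[[[Int.ofNat (nat_lit 1405545500676460)]]]]],[[[[[Int.ofNat (nat_lit 465050714610316)]]]]]]],[[[[[[[Int.negSucc (nat_lit 509001600728021)]]]]]]]]],[[[[[[[[[Int.ofNat (nat_lit 12617941907864424)]]],[[[Int.ofNat (nat_lit 462459642644106)]]]]],[[[[[Int.ofNat (nat_lit 4999390895862200)]]]]],[[[[[Int.ofNat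 (nat_lit 1019494148814331)]]]]]],[],[[[[[[Int.negSucc (nat_lit 117931499506765)]]]]]]],[[[[[[[Int.negSucc (nat_lit 1014551626594001)]]]]],[[[[[Int.ofNat (nat_lit 2028708456473230)]]]]]]],[[[[[[[Int.ofNat (nat_lit 2476304691225421)]]]]]]]],[[[[[],[[[[Int.negSucc (nat_lit 419463493837675)]]]]]],[[[[[[Int.ofNat (nat_lit 829243234189844)]]]]]]]],[[[[[[[[Int.negSucc (nat_lit 1240620010371921)]]]]]]]]],[[[[[[[[[Int.ofNat (nat_lit 5039667879896340)]]]]],[[[[[Int.negSucc (nat_lit 132912333208459)]]]]]]],[[[[[[[Int.negSucc (nat_lit 426097610440009)]]]]]]]]],[[[[[[[[[Int.ofNat (nat_lit 1887824257887221)]]]]]]]]]]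

/-- A coefficient. -/
noncomputable def sp0_m0_0_1 : MP 10 :=
  [[[[[[[[[],[[Int.negSucc (nat_lit 1368524917821905)]]],[[],[[Int.negSucc (nat_lit 10746017235554885)]]]],[[[[Int.negSucc (nat_lit 678159557693773)]]],[[[Int.ofNat (nat_lit 5680607370378732)]]]]],[[[[],[[Int.negSucc (nat_lit 2684699228533657)]]]],[[[[Int.ofNat (nat_lit 3301545129040866)]]]]]],[[[[[[Int.ofNat (nat_lit 1582067355158056)]]],[[[Int.ofNat (nat_lit 1870316904538926)]]]]],[[[[[Int.ofNat (nat_lit 7324705957944848)]]]]]],[[[[[],[[Int.negSucc (nat_lit 2130474014273077)]]]],[[[[Int.ofNat (nat_lit 1463428873224472)]]]]]],[[[[[[Int.negSucc (nat_lit 1733320326619303)]]]]]]],[[[[[[],[[Int.ofNat (nat_lit 1859869027336038)]]]],[[[[Int.negSucc (nat_lit 278044598164359)]]]]]],[[[[[[Int.negSucc (nat_lit 5780702487600823)]]]]]]],[[[[[[],[[Int.ofNat (nat_lit 510468728083716)]]]],[[[[Int.negSucc (nat_lit 7939809267593)]]]]]],[[[[[[Int.negSucc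 (nat_lit 2971716781078999)]]]]]]]],[[[[[[[[Int.negSucc (nat_lit 1266335497155923)]]],[[[Int.negSucc (nat_lit 3926013571257281)]]]],[[[],[[Int.ofNat (nat_lit 403304530752370)]]]],[[[[Int.negSucc (nat_lit 4525060688382153)]]]]],[[[[[Int.ofNat (nat_lit 9432536860483668)]]]]]],[[[[[],[[Int.ofNat (nat_lit 1639652998815162)]]]],[[[[Int.ofNat (nat_lit 3030040765705374)]]]]]],[[[[[[Int.negSucc (nat_lit 4030619622388933)]]]]]]],[[[[[[[Int.negSucc (nat_lit 5717644305487307)]]],[[[Int.ofNat (nat_lit 68114356946658)]]]]],[[[[[Int.ofNat (nat_lit 123740919478762)]]]]]],[],[[[[[[Int.ofNat (nat_lit 57227150102840)]]]]]]],[[[[[[[Int.negSucc (nat_lit 2863603368821203)]]]]]]],[[[[[[[Int.negSucc (nat_lit 29719851)]]]]]]]],[[[[[[[],[[Int.negSucc (nat_lit 1995699881872703)]]]],[[[[Int.negSucc (nat_lit 3248156711098551)]]]]]],[[[[[[Int.ofNat (nat_lit 13127477248559866)]]]]]]],[[[[],[[[[Int.negSucc (nat_lit 41122631)]]]]]],[[[[[[Int.negSucc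 (nat_lit 132079260024613)]]]]]]]],[[[[[[[[Int.negSucc (nat_lit 8766542782499405)]]]]]]],[[[[[[[Int.ofNat (nat_lit 88892767848118)]]]]]]]]],[[[[[[[[],[[Int.negSucc (nat_lit 5541990947078971)]]]],[[[[Int.negSucc (nat_lit 5050665339337647)]]]]],[[[[],[[Int.negSucc (nat_lit 1293670769506699)]]]],[[[[Int.negSucc (nat_lit 1178436913377281)]]]]]],[[[[[[Int.ofNat (nat_lit 13461868899800600)]]],[[[Int.negSucc (nat_lit 899816399042957)]]]]],[[[[[Int.ofNat (nat_lit 6236780472239344)]]]]]],[],[[[[[[Int.ofNat (nat_lit 5433074)]]]]]]],[[[[[[],[[Int.negSucc (nat_lit 110711736426873)]]]],[[[[Int.negSucc (nat_lit 112937924827027)]]]]]],[[[[[[Int.ofNat (nat_lit 7938275851390428)]]]]]]],[[],[[[[[[Int.negSucc (nat_lit 339477774516219)]]]]]]]],[[[[[[[[Int.ofNat (nat_lit 3898457686285234)]]],[[[Int.ofNat (nat_lit 455137368067206)]]]]],[[[[[Int.negSucc (nat_lit 3121172116123961)]]]]]],[[[],[[[[Int.negSucc (nat_lit 237910197212403)]]]]]],[[[[[[Int.ofNat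 (nat_lit 128303139212106)]]]]]]],[[[[[[[Int.ofNat (nat_lit 2373287343227142)]]]]],[[[[[Int.ofNat (nat_lit 281353624110750)]]]]]]],[[[[[[[Int.negSucc (nat_lit 80088169161407)]]]]]]]],[[[[[],[[[[Int.ofNat (nat_lit 90007473368714)]]]]]],[[[[[[Int.negSucc (nat_lit 289064627311839)]]]]]]]],[[[[[[[[Int.ofNat (nat_lit 29248837816918)]]]]]]]]],[[[[[[[[],[[Int.negSucc (nat_lit 2480168103275847)]]]],[[[[Int.ofNat (nat_lit 875709946696934)]]]]]],[[[[[[Int.negSucc (nat_lit 56632607469185)]]]]],[[[[[Int.ofNat (nat_lit 24543672)]]]]]]],[[],[[[[[[Int.ofNat (nat_lit 367035781293908)]]]]]]]],[[[[[[[[Int.ofNat (nat_lit 7742995237498398)]]]]],[[[[[Int.ofNat (nat_lit 36514072386128)]]]]]]],[[[[[[[Int.ofNat (nat_lit 115592302418900)]]]]]]]]],[[[[],[[[[[[Int.ofNat (nat_lit 216774579134360)]]]]]]]],[[[[[[[[Int.ofNat (nat_lit 56926756857382)]]]]]]]]]]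

/-- A coefficient. -/
noncomputable def sp0_m0_0_2 : MP 10 :=
  [[[[[[[[[[Int.negSucc (nat_lit 6224116402357931)]],[],[[Int.ofNat (nat_lit 118432317446222583)]]],[[[Int.negSucc (nat_lit 5156210864583359)]]]],[[[],[[Int.negSucc (nat_lit 9183077475811035)]]]],[[[[Int.ofNat (nat_lit 29267406947461272)]]]]],[[[[[Int.ofNat (nat_lit 6151618916940716)]]],[[[Int.ofNat (nat_lit 1026419635320894)]]]]],[[[[[Int.negSucc (nat_lit 9027537667288223)]]]]]],[[[[[],[[Int.ofNat (nat_lit 11213606111279570)]]]],[[[[Int.negSucc (nat_lit 8763596836066111)]]]]]],[[[[[[Int.ofNat (nat_lit 48269127223772870)]]]]],[[[[[Int.negSucc (nat_lit 3760435)]]]]]]],[[[[[[[Int.ofNat (nat_lit 16741134845074346)]]],[[[Int.negSucc (nat_lit 989001622233539)]]]]],[[[[[Int.ofNat (nat_lit 1347689323178218)]]]]]],[],[[[[[[Int.negSucc (nat_lit 294112787666095)]]]]]]],[[[[[[[Int.negSucc (nat_lit 25077572928105945)]]]]],[[[[[Int.negSucc (nat_lit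 12012669)]]]]]]],[[[[[[[Int.negSucc (nat_lit 131722653)]]]]]]]],[[[[[[[],[[Int.negSucc (nat_lit 7593089915228443)]]]],[[[[Int.negSucc (nat_lit 8184713024655573)]]]]],[[],[[[[Int.negSucc (nat_lit 1138892566632973)]]]]]],[[[[[[Int.negSucc (nat_lit 41418222940023781)]]]]],[[[[[Int.ofNat (nat_lit 406086747578930)]]]]]]],[[[[[[],[[Int.ofNat (nat_lit 2006669686775332)]]]],[[[[Int.ofNat (nat_lit 132035241896464)]]]]]],[[[[[[Int.ofNat (nat_lit 99341470836982)]]]]]]]],[[[[[[[[Int.ofNat (nat_lit 65517041878825087)]]],[[[Int.negSucc (nat_lit 1667325593044637)]]]]],[[[[[Int.ofNat (nat_lit 2928402494215074)]]]]]],[],[[[[[[Int.negSucc (nat_lit 98673091520877)]]]]]]],[[[[[[[Int.negSucc (nat_lit 4357443824804013)]]]]]]],[[[[[[[Int.ofNat (nat_lit 2737708821841508)]]]]]]]],[[[[[],[[[[Int.negSucc (nat_lit 10465739)]]]]]],[[[[[[Int.ofNat (nat_lit 361267312014706)]]]]]]]],[[[[[[[[Int.negSucc (nat_lit 1111515965740303)]]]]]]]]],[[[[[[[[[Int.negSucc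 (nat_lit 33243868254817801)]]],[[[Int.ofNat (nat_lit 1222109990079516)]]]]],[[[[[Int.ofNat (nat_lit 5612076251791398)]]]]],[[[[[Int.negSucc (nat_lit 31503099)]]]]]],[[[[[],[[Int.ofNat (nat_lit 3203814282048680)]]]],[[[[Int.ofNat (nat_lit 1569765946856854)]]]]]],[[[[[[Int.ofNat (nat_lit 2654233961622428)]]]]]]],[[[[[[[Int.ofNat (nat_lit 43673698674443520)]]]]],[[[[[Int.negSucc (nat_lit 426435473498731)]]]]]]],[[[[[[[Int.negSucc (nat_lit 356032614843593)]]]]]]]],[[[[[[[],[[Int.negSucc (nat_lit 4386039533253593)]]]],[[[[Int.negSucc (nat_lit 4463664457619463)]]]]]],[[[[[[Int.negSucc (nat_lit 532939824814591)]]]]]]],[[],[[[[[[Int.negSucc (nat_lit 1626938835435629)]]]]]]]],[[[[[[[[Int.ofNat (nat_lit 1658529440796980)]]]]],[[[[[Int.negSucc (nat_lit 30492903922933)]]]]]]],[[[[[[[Int.negSucc (nat_lit 3128649419711653)]]]]]]]]],[[[[[[[[[Int.negSucc (nat_lit 57270769734160051)]]],[[[Int.negSucc (nat_lit 1524295779807671)]]]]],[[[[[Int.negSucc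 (nat_lit 5697014509653211)]]]]]],[],[[[[[[Int.ofNat (nat_lit 2334573542872324)]]]]]]],[[[[[[[Int.ofNat (nat_lit 8085608201476010)]]]]]]],[[[[[[[Int.ofNat (nat_lit 203375389632356)]]]]]]]],[[[[[],[[[[Int.negSucc (nat_lit 708958798103609)]]]]]],[[[[[[Int.negSucc (nat_lit 857443943650603)]]]]]]]],[[[[[[[[Int.ofNat (nat_lit 3630045103426119)]]]]]]]]],[[[[[[[[[Int.negSucc (nat_lit 12787568236044631)]]]]],[[[[[Int.negSucc (nat_lit 6394085)]]]]]]],[[[[[[[Int.negSucc (nat_lit 418262634101589)]]]]]]]]],[[[[[[[[[Int.negSucc (nat_lit 3708023005271061)]]]]]]]]]]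

/-- A coefficient. -/
noncomputable def sp0_m0_0_3 : MP 10 :=
  [[[[[[[[[],[[Int.negSucc (nat_lit 4586576994562455)]]]],[[[[Int.ofNat (nat_lit 18661352201525972)]]]]],[[[[],[[Int.negSucc (nat_lit 13942612770834067)]]]],[[[[Int.ofNat (nat_lit 1824666903145156)]]]]]],[[[[[[Int.ofNat (nat_lit 26920839692397660)]]],[[[Int.ofNat (nat_lit 2646931747523724)]]]]],[[[[[Int.negSucc (nat_lit 14714829191069325)]]]]]],[],[[[[[[Int.ofNat (nat_lit 25193110)]]]]]]],[[[[[[],[[Int.negSucc (nat_lit 4756428468956071)]]]],[[[[Int.negSucc (nat_lit 6495880518026675)]]]]]],[[[[[[Int.ofNat (nat_lit 4632338949453980)]]]]]]],[[],[[[[[[Int.ofNat (nat_lit 4409718824961852)]]]]]]]],[[[[[[[[Int.negSucc (nat_lit 124680177088046079)]]],[[[Int.ofNat (nat_lit 851612009244516)]]]]],[[[[[Int.ofNat (nat_lit 1071380854550400)]]]]]],[[[],[[[[Int.ofNat (nat_lit 176116649610044)]]]]]],[[[[[[Int.ofNat (nat_lit 73890315870540)]]]]]]],[[[[[[[Int.ofNat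 (nat_lit 37405711233881136)]]]]],[[[[[Int.negSucc (nat_lit 7616554661014217)]]]]]]],[[[[[[[Int.negSucc (nat_lit 9417187661007223)]]]]]]]],[[[[[[[],[[Int.ofNat (nat_lit 25323466946762)]]]],[[[[Int.negSucc (nat_lit 758179685005337)]]]]]],[[[[[[Int.ofNat (nat_lit 1010426842376768)]]]]]]]],[[[[[[[[Int.ofNat (nat_lit 6372111595405698)]]]]]]],[[[[[[[Int.negSucc (nat_lit 35185953944769)]]]]]]]]],[[[[[[[[],[[Int.ofNat (nat_lit 9184802307254370)]]]],[[[[Int.negSucc (nat_lit 2181305265355567)]]]]]],[[[[[[Int.negSucc (nat_lit 16973519016546837)]]]]],[[[[[Int.negSucc (nat_lit 4035837164515909)]]]]]]],[[],[[[[[[Int.negSucc (nat_lit 3384859138340761)]]]]]]]],[[[[[[[[Int.negSucc (nat_lit 34374770847335047)]]]]],[[[[[Int.ofNat (nat_lit 5313166984830370)]]]]]]],[[[[[[[Int.ofNat (nat_lit 9525020430433922)]]]]]]]],[[[],[[[[[[Int.ofNat (nat_lit 307517922682516)]]]]]]]],[[[[[[[[Int.negSucc (nat_lit 67547335049023)]]]]]]]]],[[[[[[[[],[[Int.negSucc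 (nat_lit 417249340851953)]]]],[[[[Int.negSucc (nat_lit 101038422617045)]]]]]],[[[[[[Int.negSucc (nat_lit 7703672487475605)]]]]]]]],[[[[[[[[Int.negSucc (nat_lit 15757400068682635)]]]]]]],[[[[[[[Int.ofNat (nat_lit 240029954063184)]]]]]]]]],[[[[],[[[[[[Int.negSucc (nat_lit 160027477803675)]]]]]]]],[[[[[[[[Int.negSucc (nat_lit 104221330431461)]]]]]]]]]]

/-- A coefficient. -/
noncomputable def sp0_m0_0_4 : MP 10 :=
  [[[[[[[[[[Int.ofNat (nat_lit 200920558963057535)]]],[[[Int.ofNat (nat_lit 25519924909125918)]]]]],[[[[[Int.negSucc (nat_lit 30253578426799523)]]]]],[[[[[Int.ofNat (nat_lit 67124114904915128)]]]]]],[[[[[],[[Int.negSucc (nat_lit 5530401669975621)]]]],[[[[Int.negSucc (nat_lit 1826348411760209)]]]]]],[[[[[[Int.negSucc (nat_lit 83052955788211905)]]]]]]],[[[[[[[Int.negSucc (nat_lit 51982095585341729)]]]]],[[[[[Int.ofNat (nat_lit 3533641219294096)]]]]]]],[[[[[[[Int.ofNat (nat_lit 50375247517676237)]]]]]]]],[[[[[[[],[[Int.ofNat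 (nat_lit 5622313186265800)]]]],[[[[Int.ofNat (nat_lit 21243602300176626)]]]]]],[[[[[[Int.ofNat (nat_lit 36545444454703202)]]]]]]],[[],[[[[[[Int.negSucc (nat_lit 581589492717303)]]]]]]]],[[[[[[[[Int.negSucc (nat_lit 98762410690912007)]]]]],[[[[[Int.negSucc (nat_lit 3468688396611995)]]]]]]],[[[[[[[Int.ofNat (nat_lit 485743787273358)]]]]]]]],[],[[[[[[[[Int.ofNat (nat_lit 883723386067598)]]]]]]]]],[[[[[[[[[Int.ofNat (nat_lit 158125494909799794)]]],[[[Int.negSucc (nat_lit 5113469395438811)]]]]],[[[[[Int.negSucc (nat_lit 11319432225233805)]]]]]],[],[[[[[[Int.negSucc (nat_lit 2463605057716129)]]]]]]],[[[[[[[Int.negSucc (nat_lit 63213182004553917)]]]]]]],[[[[[[[Int.ofNat (nat_lit 532090962021888)]]]]]]]],[[[[[],[[[[Int.ofNat (nat_lit 4635360393490390)]]]]]],[[[[[[Int.ofNat (nat_lit 1936457846912620)]]]]]]]],[[[[[[[[Int.ofNat (nat_lit 1266649862141980)]]]]]]]]],[[[[[[[[[Int.ofNat (nat_lit 302944454097296107)]]]]],[[[[[Int.ofNat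 (nat_lit 5927783660406660)]]]]]]],[[[[[[[Int.negSucc (nat_lit 8332986102823759)]]]]]]]],[],[[[[[[[[Int.negSucc (nat_lit 1485892203927033)]]]]]]]]],[[[[[[[[[Int.ofNat (nat_lit 13293476285469208)]]]]]]]]],[[[[[[[[[Int.ofNat (nat_lit 3873019846234054)]]]]]]]]]]

/-- A coefficient. -/
noncomputable def sp0_m0_0_5 : MP 10 :=
  [[[[[[[[[],[[Int.ofNat (nat_lit 16225946128130236)]]]],[[[[Int.negSucc (nat_lit 27932336979247783)]]]]]],[[[[[[Int.negSucc (nat_lit 41259651611195623)]]]]],[[[[[Int.ofNat (nat_lit 19443845155565102)]]]]]]],[[],[[[[[[Int.negSucc (nat_lit 10265905528201771)]]]]]]]],[[[[[[[[Int.ofNat (nat_lit 291321139883084536)]]]]],[[[[[Int.ofNat (nat_lit 5599240821573650)]]]]]]],[[[[[[[Int.negSucc (nat_lit 33974394776743217)]]]]]]]],[[[],[[[[[[Int.negSucc (nat_lit 1248959974250277)]]]]]]]],[[[[[[[[Int.negSucc (nat_lit 5143629572204143)]]]]]]]]],[[[[[[[[],[[Int.ofNat (nat_lit 2724941658022070)]]]],[[[[Int.ofNat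 (nat_lit 3664567413684302)]]]]]],[[[[[[Int.ofNat (nat_lit 7089424769708694)]]]]]]]],[[[[[[[[Int.ofNat (nat_lit 46995516922791402)]]]]]]],[[[[[[[Int.negSucc (nat_lit 1566312887482245)]]]]]]]]],[[[[],[[[[[[Int.ofNat (nat_lit 5971889277225536)]]]]]]]],[[[[[[[[Int.ofNat (nat_lit 10866510701480292)]]]]]]]]]]

/-- A coefficient. -/
noncomputable def sp0_m0_0_6 : MP 10 :=
  [[[[[[[[[[Int.negSucc (nat_lit 896617189857253745)]]],[[[Int.negSucc (nat_lit 18409525768367909)]]]]],[[[[[Int.ofNat (nat_lit 27264649410161730)]]]]]],[],[[[[[[Int.ofNat (nat_lit 70251091710921930)]]]]]]],[[[[[[[Int.ofNat (nat_lit 50693920381901748)]]]]]]],[[[[[[[Int.negSucc (nat_lit 2122444431396907)]]]]]]]],[[[[[],[[[[Int.negSucc (nat_lit 7292291540523331)]]]]]],[[[[[[Int.negSucc (nat_lit 36028584231536357)]]]]]]]],[[[[[[[[Int.ofNat (nat_lit 75102825667601631)]]]]]]]]],[[[[[[[[[Int.negSucc (nat_lit 353033136133967567)]]]]],[[[[[Int.ofNat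 (nat_lit 6120252680049614)]]]]]]],[[[[[[[Int.ofNat (nat_lit 12240925273477238)]]]]]]]],[],[[[[[[[[Int.negSucc (nat_lit 778335694291749)]]]]]]]]],[[[[[[[[[Int.negSucc (nat_lit 535761070771008145)]]]]]]]]],[[[[[[[[[Int.negSucc (nat_lit 370334306614333)]]]]]]]]]]

/-- A coefficient. -/
noncomputable def sp0_m0_0_7 : MP 10 :=
  [[[[[[[[[],[[Int.negSucc (nat_lit 10870716625166703)]]]],[[[[Int.ofNat (nat_lit 9334891535283868)]]]]]],[[[[[[Int.ofNat (nat_lit 51894139770164420)]]]]]]]],[[[[[[[[Int.negSucc (nat_lit 291762897389050765)]]]]]]],[[[[[[[Int.ofNat (nat_lit 5054454112975862)]]]]]]]]],[[[[],[[[[[[Int.ofNat (nat_lit 4215341053526126)]]]]]]]],[[[[[[[[Int.negSucc (nat_lit 19591742722276575)]]]]]]]]]]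

/-- A coefficient. -/
noncomputable def sp0_m0_0_8 : MP 10 :=
  [[[[[[[[[[Int.ofNat (nat_lit 1989874727441857355)]]]]],[[[[[Int.negSucc (nat_lit 7546192490598781)]]]]]]],[[[[[[[Int.negSucc (nat_lit 11254453932237147)]]]]]]]],[],[[[[[[[[Int.ofNat (nat_lit 1066796347975712)]]]]]]]]],[[[[[[[[[Int.ofNat (nat_lit 364059704390031736)]]]]]]]]],[[[[[[[[[Int.ofNat (nat_lit 315727018272970726)]]]]]]]]]]

/-- A coefficient. -/
noncomputable def sp0_m0_0_9 : MP 10 :=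
  [[[[[],[[[[[[Int.negSucc (nat_lit 9032129782335585)]]]]]]]],[[[[[[[[Int.ofNat (nat_lit 78320428760631998)]]]]]]]]]]

/-- A coefficient. -/
noncomputable def sp0_m0_0_10 : MP 10 :=
  [[[[[[[[[[Int.negSucc (nat_lit 2085996056445326743)]]]]]]]]],[[[[[[[[[Int.negSucc (nat_lit 144748832224350113)]]]]]]]]]]

/-- A coefficient. -/
noncomputable def sp0_m0_1_0 : MP 10 :=
  [[[[[[[[[[Int.negSucc (nat_lit 2077719586907561)]]],[[[Int.ofNat (nat_lit 1129583863370300)]]],[[[Int.negSucc (nat_lit 45440497842877097)]]]]],[[[[[Int.negSucc (nat_lit 5343906456391755)]]],[[[Int.negSucc (nat_lit 7887868316654465)]]]]],[[[[[Int.negSucc (nat_lit 15496538273578249)]]]]]],[],[[[[[[Int.ofNat (nat_lit 1064330512340092)]]],[[[Int.negSucc (nat_lit 1601590054586953)]]]]],[[[[[Int.negSucc (nat_lit 2259123157494501)]]]]]]],[[[[[[[Int.ofNat (nat_lit 16685144450912482)]]],[[[Int.ofNat (nat_lit 154091193208614)]]]]],[[[[[Int.negSucc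 (nat_lit 20652611282369629)]]]]]],[],[[[[[[Int.ofNat (nat_lit 1427183290008918)]]]]]]],[[[[[[[Int.negSucc (nat_lit 28480986398759141)]]],[[[Int.ofNat (nat_lit 1625843573271394)]]]]],[[[[[Int.ofNat (nat_lit 1583470911497562)]]]]]]],[[[[[[[Int.ofNat (nat_lit 9080647612120562)]]]]]]]],[[[[[],[[[[Int.negSucc (nat_lit 3230221717184823)]]],[[[Int.ofNat (nat_lit 6236283782321566)]]]]],[[],[[[[Int.ofNat (nat_lit 2123912009728642)]]]]]],[[[[[[Int.negSucc (nat_lit 1475843629367279)]]],[[[Int.ofNat (nat_lit 2593601586216752)]]]]],[[[[[Int.ofNat (nat_lit 6030968034034098)]]]]]],[],[[[[[[Int.ofNat (nat_lit 7315476)]]]]]]],[[[[],[[[[Int.negSucc (nat_lit 2906713672368693)]]]]]],[[[[[[Int.negSucc (nat_lit 3602430193166391)]]]]]]],[[],[[[[[[Int.negSucc (nat_lit 816814416548687)]]]]]]]],[[[[[[[[Int.ofNat (nat_lit 683866066337720)]]],[[[Int.negSucc (nat_lit 2389264314068443)]]]]],[[[[[Int.negSucc (nat_lit 1134598322301795)]]]]]],[[[],[[[[Int.negSucc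 (nat_lit 1890277)]]]]]],[[[[[[Int.negSucc (nat_lit 32240347)]]]]]]],[[[[[[[Int.ofNat (nat_lit 3847040760523002)]]]]]]],[[[[[[[Int.ofNat (nat_lit 487649926924774)]]]]]]]],[[[[[],[[[[Int.ofNat (nat_lit 31706938)]]]]]],[[[[[[Int.negSucc (nat_lit 227163655948681)]]]]]]]],[[[[[[[[Int.ofNat (nat_lit 183631990699720)]]]]]]]]],[[[[[[[[[Int.negSucc (nat_lit 24105960012654095)]]],[[[Int.ofNat (nat_lit 1378046339511592)]]]]],[[[[[Int.negSucc (nat_lit 5851140235263689)]]],[[[Int.negSucc (nat_lit 3434439465325073)]]]]],[[[[[Int.negSucc (nat_lit 3994309601841239)]]]]]],[],[[[[[[Int.negSucc (nat_lit 134862598021777)]]]]]]],[[[[[[[Int.ofNat (nat_lit 18625425264095530)]]],[[[Int.negSucc (nat_lit 6012452610890695)]]]]],[[[[[Int.negSucc (nat_lit 11156981617346621)]]]]]],[],[[[[[[Int.negSucc (nat_lit 215727227308221)]]]]]]],[[[[[[[Int.negSucc (nat_lit 15436443652680455)]]]]]]],[[[[[[[Int.ofNat (nat_lit 12902450)]]]]]]]],[[[[[],[[[[Int.ofNat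 (nat_lit 1082473142667194)]]]]]],[[[[[[Int.negSucc (nat_lit 170975844223519)]]]]],[[[[[Int.ofNat (nat_lit 749696353984832)]]]]]]],[[[[],[[[[Int.ofNat (nat_lit 636259537110988)]]]]]],[[[[[[Int.ofNat (nat_lit 1405028110057574)]]]]]]]],[[[[[[[[Int.ofNat (nat_lit 1427486121074884)]]]]],[[[[[Int.negSucc (nat_lit 298882320142161)]]]]]]],[[[[[[[Int.negSucc (nat_lit 653932957855331)]]]]]]]]],[[[[[[[[[Int.negSucc (nat_lit 31212850966314727)]]],[[[Int.negSucc (nat_lit 537345419513587)]]]]],[[[[[Int.negSucc (nat_lit 181421316296071)]]]]]],[],[[[[[[Int.ofNat (nat_lit 16651759052506)]]]]]]],[[[[[[[Int.ofNat (nat_lit 5103559352268016)]]]]],[[[[[Int.ofNat (nat_lit 5771516)]]]]]]],[[[[[[[Int.negSucc (nat_lit 30323477)]]]]]]]],[[[[[],[[[[Int.negSucc (nat_lit 56724504128589)]]]]]],[[[[[[Int.ofNat (nat_lit 204073043029770)]]]]]]]],[[[[[[[[Int.negSucc (nat_lit 347755287222425)]]]]]]]]],[[[[[[[[[Int.negSucc (nat_lit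 12106583651009167)]]]]],[[[[[Int.negSucc (nat_lit 21992963)]]]]]]],[[[[[[[Int.negSucc (nat_lit 257606179936827)]]]]]]]]],[[[[[[[[[Int.ofNat (nat_lit 171688769930586)]]]]]]]]]]

/-- A coefficient. -/
noncomputable def sp0_m0_1_1 : MP 10 :=
  [[[[[[[[[],[[Int.negSucc (nat_lit 3174522501905489)]]],[[],[[Int.ofNat (nat_lit 19248672092377246)]]]],[[[[Int.ofNat (nat_lit 2249605702255016)]]],[[[Int.negSucc (nat_lit 14028683066461637)]]]]],[[[[],[[Int.negSucc (nat_lit 11503950883847787)]]]],[[[[Int.negSucc (nat_lit 674024073841265)]]]]]],[[[[[[Int.negSucc (nat_lit 13832460385426223)]]],[[[Int.ofNat (nat_lit 2916562930544916)]]]]],[[[[[Int.negSucc (nat_lit 16426941541448443)]]]]]],[[[],[[[[Int.ofNat (nat_lit 25065606)]]]]]],[[[[[[Int.negSucc (nat_lit 3828581)]]]]]]],[[[[[[],[[Int.ofNat (nat_lit 10580473464773230)]]]],[[[[Int.ofNat (nat_lit 6782721932399134)]]]]]],[[[[[[Int.negSucc (nat_lit 23018689134391919)]]]]]]],[[[[],[[[[Int.ofNat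 (nat_lit 17181454)]]]]]],[[[[[[Int.ofNat (nat_lit 2094468974433842)]]]]]]]],[[[[[[[[Int.negSucc (nat_lit 11476853357447449)]]],[[[Int.ofNat (nat_lit 9634730773394412)]]]],[],[[[[Int.ofNat (nat_lit 2335660)]]]]],[[[[[Int.ofNat (nat_lit 27058499983353858)]]]]]],[[[[[],[[Int.negSucc (nat_lit 694498512897097)]]]],[[[[Int.ofNat (nat_lit 513666061165898)]]]]]],[[[[[[Int.ofNat (nat_lit 2338086824725232)]]]]]]],[[[[[[[Int.ofNat (nat_lit 4995828704985046)]]],[[[Int.negSucc (nat_lit 374611239561691)]]]]],[[[[[Int.negSucc (nat_lit 1067348178814961)]]]]]]],[[[[[[[Int.negSucc (nat_lit 8409435483111419)]]]]]]]],[[[[[[[],[[Int.negSucc (nat_lit 60328739827931)]]]],[[[[Int.ofNat (nat_lit 1973952540962654)]]]]]],[[[[[[Int.negSucc (nat_lit 63052527942943)]]]]]]],[[],[[[[[[Int.ofNat (nat_lit 49101745986472)]]]]]]]],[[[[[[[[Int.negSucc (nat_lit 986814432942029)]]]]]]],[[[[[[[Int.ofNat (nat_lit 7674744590576)]]]]]]]]],[[[[[[[[],[[Int.negSucc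 (nat_lit 1629385986936849)]]]],[[[[Int.negSucc (nat_lit 3730011812912025)]]]]],[[],[[[[Int.negSucc (nat_lit 736944952797601)]]]]]],[[[[[[Int.ofNat (nat_lit 604272383313574)]]],[[[Int.ofNat (nat_lit 1475455754524166)]]]]],[[[[[Int.negSucc (nat_lit 1598658943403089)]]]]]]],[[[[[[],[[Int.ofNat (nat_lit 888351839152162)]]]],[[[[Int.negSucc (nat_lit 1588283186991467)]]]]]],[[[[[[Int.negSucc (nat_lit 4236272268612313)]]]]]]]],[[[[[[[[Int.negSucc (nat_lit 8214611367683783)]]],[[[Int.negSucc (nat_lit 1703449718348253)]]]]],[[[[[Int.ofNat (nat_lit 10610965638688878)]]]]]],[],[[[[[[Int.ofNat (nat_lit 98381836802748)]]]]]]],[[[[[[[Int.ofNat (nat_lit 13035742190211822)]]]]]]],[[[[[[[Int.negSucc (nat_lit 285981143061957)]]]]]]]],[[[[[],[[[[Int.negSucc (nat_lit 150331245451401)]]]]]],[[[[[[Int.ofNat (nat_lit 86004787232500)]]]]]]]],[[[[[[[[Int.negSucc (nat_lit 340556942018505)]]]]]]]]],[[[[[[[[],[[Int.negSucc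 (nat_lit 1816256651764835)]]]],[[[[Int.ofNat (nat_lit 1492540396169878)]]]]]],[[[[[[Int.negSucc (nat_lit 172531433437033)]]]]]]],[[],[[[[[[Int.negSucc (nat_lit 4781543085211)]]]]]]]],[[[[[[[[Int.ofNat (nat_lit 1850506294089646)]]]]],[[[[[Int.ofNat (nat_lit 83490099149206)]]]]]]],[[[[[[[Int.ofNat (nat_lit 157839368647250)]]]]]]]]],[[[[],[[[[[[Int.ofNat (nat_lit 68203825627440)]]]]]]]],[[[[[[[[Int.ofNat (nat_lit 150761638620168)]]]]]]]]]]

/-- A coefficient. -/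
noncomputable def sp0_m0_1_2 : MP 10 :=
  [[[[[[[[[[Int.ofNat (nat_lit 21825532957321340)]]],[[[Int.negSucc (nat_lit 20408199832723069)]]]],[[[],[[Int.ofNat (nat_lit 19130134032015046)]]]],[[[[Int.negSucc (nat_lit 31961562590813215)]]]]],[[[[[Int.negSucc (nat_lit 4705657537087513)]]],[[[Int.negSucc (nat_lit 7281179992094137)]]]]],[[[[[Int.ofNat (nat_lit 19170557392510540)]]]]]],[[[[[],[[Int.negSucc (nat_lit 16739185867691089)]]]],[[[[Int.negSucc (nat_lit 4586835393163631)]]]]]],[[[[[[Int.negSucc (nat_lit 17335984427217889)]]]]]]],[[[[[[[Int.negSucc (nat_lit 59899181530306817)]]],[[[Int.ofNat (nat_lit 4868185242539750)]]]]],[[[[[Int.ofNat (nat_lit 7592196826194994)]]]]]],[],[[[[[[Int.ofNat (nat_lit 148002242587208)]]]]]]],[[[[[[[Int.ofNat (nat_lit 64989747968495374)]]]]]]],[[[[[[[Int.ofNat (nat_lit 188795906)]]]]]]]],[[[[[[[],[[Int.ofNat (nat_lit 14314777358662838)]]]],[[[[Int.ofNat (nat_lit 5584161626161322)]]]]]],[[[[[[Int.ofNat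 (nat_lit 27283861635524594)]]]]],[[[[[Int.ofNat (nat_lit 737048321039760)]]]]]]],[[[[],[[[[Int.ofNat (nat_lit 180893718345062)]]]]]],[[[[[[Int.negSucc (nat_lit 571426256205173)]]]]]]]],[[[[[[[[Int.negSucc (nat_lit 118632708415278421)]]],[[[Int.ofNat (nat_lit 4105410873194466)]]]]],[[[[[Int.negSucc (nat_lit 1403254794915201)]]]]]]],[[[[[[[Int.ofNat (nat_lit 12753846651661806)]]]]]]]],[[[],[[[[[[Int.ofNat (nat_lit 223567865269028)]]]]]]]],[[[[[[[[Int.negSucc (nat_lit 180427314054337)]]]]]]]]],[[[[[[[[[Int.ofNat (nat_lit 110910104202950466)]]],[[[Int.negSucc (nat_lit 1949431619319573)]]]]],[[[[[Int.negSucc (nat_lit 531508425765815)]]]]]],[[[],[[[[Int.negSucc (nat_lit 3145275192755927)]]]]]],[[[[[[Int.negSucc (nat_lit 4937287091484837)]]]]]]],[[[[[[[Int.negSucc (nat_lit 79530555533228351)]]]]],[[[[[Int.ofNat (nat_lit 1710596595471996)]]]]]]],[[[[[[[Int.ofNat (nat_lit 325890690576880)]]]]]]]],[[[[[[[],[[Int.ofNat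 (nat_lit 10663959549079050)]]]],[[[[Int.negSucc (nat_lit 6354895781750149)]]]]]],[[[[[[Int.ofNat (nat_lit 5000552900928198)]]]]]]]],[[[[[[[[Int.negSucc (nat_lit 14783711462637613)]]]]]]],[[[[[[[Int.ofNat (nat_lit 156638543056028)]]]]]]]]],[[[[[[[[[Int.ofNat (nat_lit 102862731694602084)]]],[[[Int.negSucc (nat_lit 1179029653274285)]]]]],[[[[[Int.ofNat (nat_lit 450555985280608)]]]]]]],[[[[[[[Int.negSucc (nat_lit 4927579252054377)]]]]]]]],[[[],[[[[[[Int.negSucc (nat_lit 100108403643003)]]]]]]]],[[[[[[[[Int.ofNat (nat_lit 290117599866714)]]]]]]]]],[[[[[[[[[Int.ofNat (nat_lit 26202406456640816)]]]]]]],[[[[[[[Int.ofNat (nat_lit 95378450242416)]]]]]]]]],[[[[[[[[[Int.negSucc (nat_lit 109985815737847)]]]]]]]]]]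

/-- A coefficient. -/
noncomputable def sp0_m0_1_3 : MP 10 :=
  [[[[[[[[[],[[Int.negSucc (nat_lit 31605466761723859)]]]],[[[[Int.ofNat (nat_lit 6040644153847504)]]]]],[[],[[[[Int.ofNat (nat_lit 1285729702822150)]]]]]],[[[[[[Int.negSucc (nat_lit 37255024803641447)]]],[[[Int.negSucc (nat_lit 3380008223438075)]]]]],[[[[[Int.ofNat (nat_lit 14510147139655300)]]]]]]],[[[[[[],[[Int.ofNat (nat_lit 3647481253324080)]]]],[[[[Int.ofNat (nat_lit 6966701379648430)]]]]]],[[[[[[Int.ofNat (nat_lit 27571345523858752)]]]]]]]],[[[[[[[[Int.ofNat (nat_lit 269196535763030450)]]],[[[Int.negSucc (nat_lit 16375451983982157)]]]]],[[[[[Int.negSucc (nat_lit 28352950740881195)]]]]]],[],[[[[[[Int.negSucc (nat_lit 1292383191549767)]]]]]]],[[[[[[[Int.negSucc (nat_lit 86913046982538491)]]]]]]],[[[[[[[Int.ofNat (nat_lit 8894389169216648)]]]]]]]],[[[[[],[[[[Int.negSucc (nat_lit 2026143368020049)]]]]]],[[[[[[Int.negSucc (nat_lit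 1725753107216537)]]]]]]]],[[[[[[[[Int.ofNat (nat_lit 2017601534967026)]]]]]]]]],[[[[[[[[],[[Int.negSucc (nat_lit 10055020793604111)]]]],[[[[Int.ofNat (nat_lit 2724126013484200)]]]]]],[[[[[[Int.ofNat (nat_lit 17158257657769528)]]]]]]],[[],[[[[[[Int.ofNat (nat_lit 334605192577860)]]]]]]]],[[[[[[[[Int.ofNat (nat_lit 95069460954065170)]]]]],[[[[[Int.negSucc (nat_lit 8723349310747651)]]]]]]],[[[[[[[Int.negSucc (nat_lit 12536125979917887)]]]]]]]],[],[[[[[[[[Int.ofNat (nat_lit 159971287804716)]]]]]]]]],[[[[[[],[[[[Int.negSucc (nat_lit 1761457992932793)]]]]]],[[[[[[Int.ofNat (nat_lit 1865564952700700)]]]]]]]],[[[[[[[[Int.negSucc (nat_lit 1750510058187441)]]]]]]]]],[[],[[[[[[[[Int.negSucc (nat_lit 101290317820737)]]]]]]]]]]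

/-- A coefficient. -/
noncomputable def sp0_m0_1_4 : MP 10 :=
  [[[[[[[[[[Int.negSucc (nat_lit 292598801679398295)]]],[[[Int.ofNat (nat_lit 2234744735312232)]]]]],[[[[[Int.ofNat (nat_lit 8245701262702258)]]]]]],[[[],[[[[Int.ofNat (nat_lit 4019067403621494)]]]]]],[[[[[[Int.ofNat (nat_lit 17750953541075314)]]]]]]],[[[[[[[Int.ofNat (nat_lit 145139882297917766)]]]]],[[[[[Int.negSucc (nat_lit 10951908283303787)]]]]]]],[[[[[[[Int.negSucc (nat_lit 83831542483598635)]]]]]]]],[[[[[[[],[[Int.negSucc (nat_lit 10564174301692363)]]]],[[[[Int.negSucc (nat_lit 11931913459519863)]]]]]],[[[[[[Int.negSucc (nat_lit 26084767049065239)]]]]]]]],[[[[[[[[Int.ofNat (nat_lit 241405702654934538)]]]]]]],[[[[[[[Int.negSucc (nat_lit 210876176699467)]]]]]]]]],[[[[[[[[[Int.negSucc (nat_lit 532189775277320637)]]],[[[Int.ofNat (nat_lit 14516876525183828)]]]]],[[[[[Int.ofNat (nat_lit 6298198172866156)]]]]]]],[[[[[[[Int.ofNat (nat_lit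 88565269073933026)]]]]]]]],[[[],[[[[[[Int.negSucc (nat_lit 3211240668633233)]]]]]]]],[[[[[[[[Int.ofNat (nat_lit 2520647045164104)]]]]]]]]],[[[[[[[[[Int.negSucc (nat_lit 142490137712668329)]]]]]]],[[[[[[[Int.ofNat (nat_lit 6813101425543820)]]]]]]]]],[[[[[[[[[Int.negSucc (nat_lit 26856737779507153)]]]]]]]]]]

/-- A coefficient. -/
noncomputable def sp0_m0_1_5 : MP 10 :=
  [[[[[[[[[],[[Int.ofNat (nat_lit 15985065977518676)]]]],[[[[Int.negSucc (nat_lit 1631244994056605)]]]]]],[[[[[[Int.ofNat (nat_lit 56869121396570984)]]]]]]],[[],[[[[[[Int.ofNat (nat_lit 2071232288389434)]]]]]]]],[[[[[[[[Int.negSucc (nat_lit 517593508988168129)]]]]],[[[[[Int.ofNat (nat_lit 9717906650920524)]]]]]]],[[[[[[[Int.ofNat (nat_lit 54710818831954068)]]]]]]]],[],[[[[[[[[Int.negSucc (nat_lit 223074996076917)]]]]]]]]],[[[[[[],[[[[Int.ofNat (nat_lit 3495746134059364)]]]]]],[[[[[[Int.negSucc (nat_lit 18431219386260879)]]]]]]]],[[[[[[[[Int.negSucc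 (nat_lit 114387945199421331)]]]]]]]]],[[],[[[[[[[[Int.ofNat (nat_lit 1002178922593760)]]]]]]]]]]

/-- A coefficient. -/
noncomputable def sp0_m0_1_6 : MP 10 :=
  [[[[[[[[[[Int.ofNat (nat_lit 752420835379105890)]]]]],[[[[[Int.ofNat (nat_lit 9270187669868054)]]]]]]],[[[[[[[Int.negSucc (nat_lit 68617038291704923)]]]]]]]],[[[],[[[[[[Int.ofNat (nat_lit 912110211327528)]]]]]]]],[[[[[[[[Int.negSucc (nat_lit 166479673227239017)]]]]]]]]],[[[[[[[[[Int.ofNat (nat_lit 854476946714874862)]]]]]]],[[[[[[[Int.ofNat (nat_lit 3292660402311004)]]]]]]]]],[[[[[[[[[Int.ofNat (nat_lit 49223713642531542)]]]]]]]]]]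

/-- A coefficient. -/
noncomputable def sp0_m0_1_7 : MP 10 :=
  [[[[[],[[[[[[Int.negSucc (nat_lit 16209915933444325)]]]]]]]],[[[[[[[[Int.ofNat (nat_lit 298462847194600126)]]]]]]]]],[[],[[[[[[[[Int.ofNat (nat_lit 47772646536671548)]]]]]]]]]]

/-- A coefficient. -/
noncomputable def sp0_m0_1_8 : MP 10 :=
  [[[[[[[[[[Int.negSucc (nat_lit 550769289790694413)]]]]]]]]],[[[[[[[[[Int.negSucc (nat_lit 448604970848634467)]]]]]]]]]]

/-- A coefficient. -/
noncomputable def sp0_m0_2_0 : MP 10 :=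
  [[[[[[[[[[Int.negSucc (nat_lit 1332414685422599)]]],[[[Int.negSucc (nat_lit 6491534335795727)]]]]],[[[[[Int.ofNat (nat_lit 8366406816612784)]]],[[[Int.negSucc (nat_lit 2718913634062919)]]]]],[[[[[Int.negSucc (nat_lit 2663019071889671)]]]]]],[],[[[[[[Int.ofNat (nat_lit 660846012390858)]]]]],[[[[[Int.negSucc (nat_lit 1577139)]]]]]]],[[[[[[[Int.negSucc (nat_lit 18332542125223811)]]],[[[Int.ofNat (nat_lit 2163005316378630)]]]]],[[[[[Int.ofNat (nat_lit 2528323672006112)]]]]]],[],[[[[[[Int.negSucc (nat_lit 624425675780273)]]]]]]],[[[[[[[Int.negSucc (nat_lit 23118643536821513)]]]]],[[[[[Int.negSucc (nat_lit 6467)]]]]]]],[[[[[[[Int.negSucc (nat_lit 105353069)]]]]]]]],[[[[[],[[[[Int.negSucc (nat_lit 463278094002469)]]]]],[[],[[[[Int.negSucc (nat_lit 498963144777155)]]]]]],[[[[[[Int.ofNat (nat_lit 160372520367596)]]]]],[[[[[Int.ofNat (nat_lit 644722734917516)]]]]]]],[[[[],[[[[Int.ofNat (nat_lit 1316848635973244)]]]]]],[[[[[[Int.ofNat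 (nat_lit 897500154359462)]]]]]]]],[[[[[[[[Int.negSucc (nat_lit 2488908593474881)]]],[[[Int.ofNat (nat_lit 529487131029030)]]]]],[[[[[Int.ofNat (nat_lit 1684163517310292)]]]]]],[],[[[[[[Int.ofNat (nat_lit 24792645331754)]]]]]]],[[[[[[[Int.ofNat (nat_lit 889384043995442)]]]]]]],[[[[[[[Int.negSucc (nat_lit 437386667799415)]]]]]]]],[[[[[],[[[[Int.negSucc (nat_lit 43651627)]]]]]],[[[[[[Int.ofNat (nat_lit 31720312179332)]]]]]]]],[[[[[[[[Int.negSucc (nat_lit 663639215142563)]]]]]]]]],[[[[[[[[[Int.ofNat (nat_lit 10482941557981424)]]],[[[Int.negSucc (nat_lit 3100125579373205)]]]]],[[[[[Int.ofNat (nat_lit 4462765555822952)]]]]],[[[[[Int.negSucc (nat_lit 28312839)]]]]]],[],[[[[[[Int.ofNat (nat_lit 1076627394255420)]]]]]]],[[[[[[[Int.ofNat (nat_lit 35313343637708162)]]]]],[[[[[Int.negSucc (nat_lit 496099844534009)]]]]]]],[[[[[[[Int.negSucc (nat_lit 973136972463265)]]]]]]]],[[[[[],[[[[Int.negSucc (nat_lit 4259823146785067)]]]]]],[[[[[[Int.ofNat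 (nat_lit 1330287475395512)]]]]]]]],[[[[[[[[Int.negSucc (nat_lit 3254884647954759)]]]]],[[[[[Int.ofNat (nat_lit 363064826377676)]]]]]]],[[[[[[[Int.ofNat (nat_lit 673572046063656)]]]]]]]]],[[[[[[[[[Int.negSucc (nat_lit 27205344881156255)]]],[[[Int.negSucc (nat_lit 2303030084927309)]]]]],[[[[[Int.negSucc (nat_lit 4166768867850167)]]]]]],[],[[[[[[Int.ofNat (nat_lit 353522867029438)]]]]]]],[[[[[[[Int.ofNat (nat_lit 9820367541301612)]]]]]]],[[[[[[[Int.ofNat (nat_lit 324374125465934)]]]]]]]],[[[[[],[[[[Int.negSucc (nat_lit 269863709965735)]]]]]],[[[[[[Int.negSucc (nat_lit 604640258371977)]]]]]]]],[[[[[[[[Int.ofNat (nat_lit 1168763197601374)]]]]]]]]],[[[[[[[[[Int.negSucc (nat_lit 12327939826074615)]]]]],[[[[[Int.negSucc (nat_lit 4240973)]]]]]]],[[[[[[[Int.negSucc (nat_lit 510068966313955)]]]]]]]]],[[[[[[[[[Int.negSucc (nat_lit 3562501925057275)]]]]]]]]]]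

/-- A coefficient. -/
noncomputable def sp0_m0_2_1 : MP 10 :=
  [[[[[[[[[],[[Int.ofNat (nat_lit 967923092182914)]]]],[[[[Int.ofNat (nat_lit 4399309761732986)]]]]],[[[[],[[Int.ofNat (nat_lit 1472079612575966)]]]],[[[[Int.negSucc (nat_lit 628581734487393)]]]]]],[[[[[[Int.negSucc (nat_lit 5605602646203309)]]],[[[Int.ofNat (nat_lit 896582188455948)]]]]],[[[[[Int.negSucc (nat_lit 12223764529662319)]]]]]],[],[[[[[[Int.ofNat (nat_lit 32589490)]]]]]]],[[[[[[],[[Int.ofNat (nat_lit 4824898780038792)]]]],[[[[Int.ofNat (nat_lit 1540331150055830)]]]]]],[[[[[[Int.ofNat (nat_lit 7606295480943048)]]]]]]],[[],[[[[[[Int.ofNat (nat_lit 1968582904416094)]]]]]]]],[[[[[[[[Int.ofNat (nat_lit 22596570569302674)]]],[[[Int.negSucc (nat_lit 1616726778570233)]]]]],[[[[[Int.negSucc (nat_lit 3285841369075251)]]]]]],[[[],[[[[Int.ofNat (nat_lit 130109256874900)]]]]]],[[[[[[Int.negSucc (nat_lit 447448709826261)]]]]]]],[[[[[[[Int.ofNat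 (nat_lit 24206523826383586)]]]]],[[[[[Int.ofNat (nat_lit 282490675361892)]]]]]]],[[[[[[[Int.ofNat (nat_lit 440073093833448)]]]]]]]],[[[[[[[],[[Int.ofNat (nat_lit 340408524778746)]]]],[[[[Int.negSucc (nat_lit 117975279455943)]]]]]],[[[[[[Int.ofNat (nat_lit 641824480136902)]]]]]]]],[[[[[[[[Int.ofNat (nat_lit 4044765012504178)]]]]]]],[[[[[[[Int.ofNat (nat_lit 40359528343980)]]]]]]]]],[[[[[[[[],[[Int.ofNat (nat_lit 16736835561340438)]]]],[[[[Int.ofNat (nat_lit 1747212326591110)]]]]]],[[[[[[Int.negSucc (nat_lit 19528675043324889)]]]]],[[[[[Int.negSucc (nat_lit 2539641023204721)]]]]]]],[[],[[[[[[Int.negSucc (nat_lit 2351356652305197)]]]]]]]],[[[[[[[[Int.negSucc (nat_lit 2495962955497261)]]]]],[[[[[Int.ofNat (nat_lit 308457487524354)]]]]]]],[[[[[[[Int.negSucc (nat_lit 675523571134255)]]]]]]]],[[[],[[[[[[Int.ofNat (nat_lit 89507277752786)]]]]]]]],[[[[[[[[Int.ofNat (nat_lit 245080569570)]]]]]]]]],[[[[[[[[],[[Int.ofNat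 (nat_lit 452679721441186)]]]],[[[[Int.negSucc (nat_lit 489868003830855)]]]]]],[[[[[[Int.negSucc (nat_lit 1974388695658905)]]]]]]]],[[[[[[[[Int.negSucc (nat_lit 11671426133993801)]]]]]]],[[[[[[[Int.ofNat (nat_lit 79819723710180)]]]]]]]]],[[[[],[[[[[[Int.negSucc (nat_lit 113435730570561)]]]]]]]],[[[[[[[[Int.negSucc (nat_lit 71827010107561)]]]]]]]]]]

/-- A coefficient. -/
noncomputable def sp0_m0_2_2 : MP 10 :=
  [[[[[[[[[[Int.ofNat (nat_lit 5125367800612684)]]],[[[Int.ofNat (nat_lit 15282280046062962)]]]]],[[[[[Int.negSucc (nat_lit 50681281856946585)]]]]],[[[[[Int.negSucc (nat_lit 8657436268270663)]]]]]],[[[[[],[[Int.negSucc (nat_lit 12506200734141797)]]]],[[[[Int.ofNat (nat_lit 7826429711337276)]]]]]],[[[[[[Int.negSucc (nat_lit 71998082934121199)]]]]]]],[[[[[[[Int.ofNat (nat_lit 34315442716080376)]]]]],[[[[[Int.negSucc (nat_lit 3376557795316585)]]]]]]],[[[[[[[Int.ofNat (nat_lit 23239606838992132)]]]]]]]],[[[[[[[],[[Int.ofNat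 (nat_lit 4892204267522198)]]]],[[[[Int.ofNat (nat_lit 18137082247431950)]]]]]],[[[[[[Int.ofNat (nat_lit 37454351044209426)]]]]]]],[[],[[[[[[Int.negSucc (nat_lit 1853041657075213)]]]]]]]],[[[[[[[[Int.negSucc (nat_lit 82781811944222493)]]]]],[[[[[Int.negSucc (nat_lit 651763176165273)]]]]]]],[[[[[[[Int.negSucc (nat_lit 979167089601729)]]]]]]]],[],[[[[[[[[Int.ofNat (nat_lit 610740966901546)]]]]]]]]],[[[[[[[[[Int.ofNat (nat_lit 15876676534627192)]]],[[[Int.ofNat (nat_lit 3059235285941214)]]]]],[[[[[Int.negSucc (nat_lit 7247524402902209)]]]]]],[],[[[[[[Int.negSucc (nat_lit 2652946091408175)]]]]]]],[[[[[[[Int.negSucc (nat_lit 49200170360261289)]]]]]]],[[[[[[[Int.negSucc (nat_lit 449659267076645)]]]]]]]],[[[[[],[[[[Int.ofNat (nat_lit 5798524237275834)]]]]]],[[[[[[Int.ofNat (nat_lit 2451858762501302)]]]]]]]],[[[[[[[[Int.ofNat (nat_lit 6208130294916768)]]]]]]]]],[[[[[[[[[Int.ofNat (nat_lit 81524089691822988)]]]]],[[[[[Int.ofNat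 (nat_lit 3901971230957382)]]]]]]],[[[[[[[Int.negSucc (nat_lit 7205941796105279)]]]]]]]],[],[[[[[[[[Int.negSucc (nat_lit 1058908796295263)]]]]]]]]],[[[[[[[[[Int.ofNat (nat_lit 14970859398598740)]]]]]]]]],[[[[[[[[[Int.ofNat (nat_lit 3433802259968976)]]]]]]]]]]

/-- A coefficient. -/
noncomputable def sp0_m0_2_3 : MP 10 :=
  [[[[[[[[[],[[Int.negSucc (nat_lit 1315084691390171)]]]],[[[[Int.negSucc (nat_lit 47641786138755135)]]]]]],[[[[[[Int.negSucc (nat_lit 6505543789874249)]]]]],[[[[[Int.ofNat (nat_lit 4907038740981736)]]]]]]],[[],[[[[[[Int.negSucc (nat_lit 8193110555954387)]]]]]]]],[[[[[[[[Int.ofNat (nat_lit 157022771197267046)]]]]],[[[[[Int.ofNat (nat_lit 5228325989528084)]]]]]]],[[[[[[[Int.negSucc (nat_lit 27323868495658167)]]]]]]]],[[[],[[[[[[Int.negSucc (nat_lit 1397650120630709)]]]]]]]],[[[[[[[[Int.negSucc (nat_lit 3474565885047981)]]]]]]]]],[[[[[[[[],[[Int.negSucc (nat_lit 26199694605053615)]]]],[[[[Int.negSucc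 (nat_lit 4385723444371121)]]]]]],[[[[[[Int.ofNat (nat_lit 8571687468089648)]]]]]]]],[[[[[[[[Int.ofNat (nat_lit 27356181681172688)]]]]]]],[[[[[[[Int.ofNat (nat_lit 724169584850008)]]]]]]]]],[[[[],[[[[[[Int.ofNat (nat_lit 2640577764483758)]]]]]]]],[[[[[[[[Int.ofNat (nat_lit 10237331459165824)]]]]]]]]]]

/-- A coefficient. -/
noncomputable def sp0_m0_2_4 : MP 10 :=
  [[[[[[[[[[Int.negSucc (nat_lit 592084971240709669)]]],[[[Int.negSucc (nat_lit 29053434520074563)]]]]],[[[[[Int.ofNat (nat_lit 96052147268762106)]]]]]],[],[[[[[[Int.ofNat (nat_lit 62460835346971418)]]]]]]],[[[[[[[Int.negSucc (nat_lit 60913448711269663)]]]]]]],[[[[[[[Int.negSucc (nat_lit 3534912600787283)]]]]]]]],[[[[[],[[[[Int.negSucc (nat_lit 12694668568238247)]]]]]],[[[[[[Int.negSucc (nat_lit 32563544743944603)]]]]]]]],[[[[[[[[Int.ofNat (nat_lit 69227014488283362)]]]]]]]]],[[[[[[[[[Int.negSucc (nat_lit 137954913690798721)]]]]],[[[[[Int.ofNat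 (nat_lit 8096728834694880)]]]]]]],[[[[[[[Int.ofNat (nat_lit 18873807577199490)]]]]]]]],[],[[[[[[[[Int.negSucc (nat_lit 3425068957760849)]]]]]]]]],[[[[[[[[[Int.negSucc (nat_lit 508555504365058625)]]]]]]]]],[[[[[[[[[Int.negSucc (nat_lit 3579438661028011)]]]]]]]]]]

/-- A coefficient. -/
noncomputable def sp0_m0_2_5 : MP 10 :=
  [[[[[[[[[],[[Int.ofNat (nat_lit 21654390827358360)]]]],[[[[Int.ofNat (nat_lit 35529981449361302)]]]]]],[[[[[[Int.ofNat (nat_lit 14055752763169154)]]]]]]]],[[[[[[[[Int.negSucc (nat_lit 283186564514856499)]]]]]]],[[[[[[[Int.ofNat (nat_lit 9322881355576812)]]]]]]]]],[[[[],[[[[[[Int.negSucc (nat_lit 5005896011796089)]]]]]]]],[[[[[[[[Int.negSucc (nat_lit 21483046005407243)]]]]]]]]]]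

/-- A coefficient. -/
noncomputable def sp0_m0_2_6 : MP 10 :=
  [[[[[[[[[[Int.ofNat (nat_lit 2057591652284961890)]]]]],[[[[[Int.negSucc (nat_lit 45633138059157131)]]]]]]],[[[[[[[Int.ofNat (nat_lit 17771160204621112)]]]]]]]],[],[[[[[[[[Int.ofNat (nat_lit 4124635670697556)]]]]]]]]],[[[[[[[[[Int.ofNat (nat_lit 268445861072541790)]]]]]]]]],[[[[[[[[[Int.ofNat (nat_lit 442181912101167260)]]]]]]]]]]

/-- A coefficient. -/
noncomputable def sp0_m0_2_7 : MP 10 :=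
  [[[[[],[[[[[[Int.ofNat (nat_lit 12300817418359752)]]]]]]]],[[[[[[[[Int.ofNat (nat_lit 60260201187914828)]]]]]]]]]]

/-- A coefficient. -/
noncomputable def sp0_m0_2_8 : MP 10 :=
  [[[[[[[[[[Int.negSucc (nat_lit 2466870938864042959)]]]]]]]]],[[[[[[[[[Int.negSucc (nat_lit 33815669917653369)]]]]]]]]]]

/-- A coefficient. -/
noncomputable def sp0_m0_3_0 : MP 10 :=
  [[[[[[[[[[Int.ofNat (nat_lit 4321983326766430)]]],[[[Int.negSucc (nat_lit 1306215080123129)]]]]],[[[[[Int.ofNat (nat_lit 7074659467959398)]]]]]],[],[[[[[[Int.negSucc (nat_lit 1503206048664373)]]]]]]],[[[[[[[Int.negSucc (nat_lit 14459839887636683)]]],[[[Int.negSucc (nat_lit 622848034759589)]]]]],[[[[[Int.negSucc (nat_lit 610257638532387)]]]]]],[],[[[[[[Int.negSucc (nat_lit 159367107156791)]]]]]]],[[[[[[[Int.ofNat (nat_lit 24312585736706724)]]]]]]],[[[[[[[Int.ofNat (nat_lit 174388556)]]]]]]]],[[[[[],[[[[Int.ofNat (nat_lit 3021652174264444)]]]]]],[[[[[[Int.ofNat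 (nat_lit 3090624593117990)]]]]]]],[[[[],[[[[Int.ofNat (nat_lit 2096336980809644)]]]]]],[[[[[[Int.negSucc (nat_lit 1010779690177433)]]]]]]]],[[[[[[[[Int.negSucc (nat_lit 1164340926339705)]]]]]]],[[[[[[[Int.ofNat (nat_lit 772310418449340)]]]]]]]]],[[[[[[[[[Int.ofNat (nat_lit 27580482553416192)]]],[[[Int.ofNat (nat_lit 5924138144612580)]]]]],[[[[[Int.ofNat (nat_lit 9734899202874372)]]]]]],[],[[[[[[Int.negSucc (nat_lit 618798876766149)]]]]]]],[[[[[[[Int.negSucc (nat_lit 27238773762001581)]]]]],[[[[[Int.ofNat (nat_lit 1990681148543994)]]]]]]],[[[[[[[Int.negSucc (nat_lit 360358537493873)]]]]]]]],[[[[[],[[[[Int.negSucc (nat_lit 1116258788733177)]]]]]],[[[[[[Int.ofNat (nat_lit 2220403092549726)]]]]]]]],[[[[[[[[Int.negSucc (nat_lit 2736846697111921)]]]]]]]]],[[[[[[[[[Int.ofNat (nat_lit 35460856975363396)]]]]],[[[[[Int.negSucc (nat_lit 1089036949025627)]]]]]]],[[[[[[[Int.negSucc (nat_lit 3410706117364831)]]]]]]]]],[[[[[[[[[Int.ofNat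 (nat_lit 13188070910657646)]]]]]]]]]]

/-- A coefficient. -/
noncomputable def sp0_m0_3_1 : MP 10 :=
  [[[[[[[[[],[[Int.ofNat (nat_lit 143481880873982)]]]],[[[[Int.ofNat (nat_lit 459545466171672)]]]]]],[[[[[[Int.ofNat (nat_lit 24449350387739650)]]]]]]],[[[[[[],[[Int.negSucc (nat_lit 20054668943345905)]]]],[[[[Int.negSucc (nat_lit 3159558331995289)]]]]]],[[[[[[Int.ofNat (nat_lit 3639234266928802)]]]]]]]],[[[[[[[[Int.ofNat (nat_lit 20346266109215366)]]],[[[Int.negSucc (nat_lit 3304125804016673)]]]]],[[[[[Int.negSucc (nat_lit 6835187579612575)]]]]]],[],[[[[[[Int.negSucc (nat_lit 39243051266405)]]]]]]],[[[[[[[Int.negSucc (nat_lit 27962888396407769)]]]]]]],[[[[[[[Int.ofNat (nat_lit 4090695501149166)]]]]]]]],[[[[[],[[[[Int.negSucc (nat_lit 3164551645361157)]]]]]],[[[[[[Int.ofNat (nat_lit 462170817744208)]]]]]]]],[[[[[[[[Int.negSucc (nat_lit 1202991215191541)]]]]]]]]],[[[[[[[[],[[Int.ofNat (nat_lit 10043301019003238)]]]],[[[[Int.ofNat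 (nat_lit 5965962093233756)]]]]]],[[[[[[Int.ofNat (nat_lit 177465768525000)]]]]]]],[[],[[[[[[Int.negSucc (nat_lit 761343525716255)]]]]]]]],[[[[[[[[Int.ofNat (nat_lit 24550366554737952)]]]]],[[[[[Int.negSucc (nat_lit 6031586676467589)]]]]]]],[[[[[[[Int.negSucc (nat_lit 7326381821940441)]]]]]]]]],[[[[],[[[[[[Int.ofNat (nat_lit 747713960894424)]]]]]]]],[[[[[[[[Int.ofNat (nat_lit 205209242840000)]]]]]]]]]]

/-- A coefficient. -/
noncomputable def sp0_m0_3_2 : MP 10 :=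
  [[[[[[[[[[Int.negSucc (nat_lit 2377981296080407)]]],[[[Int.ofNat (nat_lit 20013330725130852)]]]]],[[[[[Int.negSucc (nat_lit 12750538210209369)]]]]]],[],[[[[[[Int.negSucc (nat_lit 1387249265108587)]]]]]]],[[[[[[[Int.ofNat (nat_lit 41103022066351576)]]]]],[[[[[Int.negSucc (nat_lit 481116009465675)]]]]]]],[[[[[[[Int.negSucc (nat_lit 29155458552454133)]]]]]]]],[[[[[[[],[[Int.ofNat (nat_lit 20718291816366416)]]]],[[[[Int.ofNat (nat_lit 3669931012252340)]]]]]],[[[[[[Int.negSucc (nat_lit 6922196697068087)]]]]]]]],[[[[[[[[Int.ofNat (nat_lit 124154228432362608)]]]]]]],[[[[[[[Int.ofNat (nat_lit 1117998272922382)]]]]]]]]],[[[[[[[[[Int.negSucc (nat_lit 84380072081638237)]]]]],[[[[[Int.ofNat (nat_lit 1132498810353504)]]]]]]],[[[[[[[Int.ofNat (nat_lit 33137209333267316)]]]]]]]],[[[],[[[[[[Int.negSucc (nat_lit 986013252298111)]]]]]]]],[[[[[[[[Int.ofNat (nat_lit 719750393358230)]]]]]]]]],[[[[[[[[[Int.negSucc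 (nat_lit 69425902582361013)]]]]]]],[[[[[[[Int.ofNat (nat_lit 2918353083373690)]]]]]]]]],[[[[[[[[[Int.negSucc (nat_lit 11629168404399091)]]]]]]]]]]

/-- A coefficient. -/
noncomputable def sp0_m0_3_3 : MP 10 :=
  [[[[[[[[[],[[Int.negSucc (nat_lit 281416708545581)]]]],[[[[Int.negSucc (nat_lit 12876719603486443)]]]]]],[[[[[[Int.negSucc (nat_lit 10710375323670101)]]]]]]],[[],[[[[[[Int.ofNat (nat_lit 1430149533445214)]]]]]]]],[[[[[[[[Int.negSucc (nat_lit 268079811520758275)]]]]],[[[[[Int.negSucc (nat_lit 1207648008280755)]]]]]]],[[[[[[[Int.ofNat (nat_lit 18263257653708018)]]]]]]]],[],[[[[[[[[Int.negSucc (nat_lit 187900653620009)]]]]]]]]],[[[[],[[[[[[Int.negSucc (nat_lit 8326042988294475)]]]]]]]],[[[[[[[[Int.negSucc (nat_lit 56587423454520717)]]]]]]]]],[[],[[[[[[[[Int.ofNat (nat_lit 1432505942296604)]]]]]]]]]]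

/-- A coefficient. -/
noncomputable def sp0_m0_3_4 : MP 10 :=
  [[[[[[[[[[Int.ofNat (nat_lit 197353144231893926)]]]]],[[[[[Int.ofNat (nat_lit 427592602671238)]]]]]]],[[[[[[[Int.negSucc (nat_lit 22009213070436667)]]]]]]]],[[[],[[[[[[Int.negSucc (nat_lit 1754264705978277)]]]]]]]],[[[[[[[[Int.negSucc (nat_lit 120359187314508977)]]]]]]]]],[[[[[[[[[Int.ofNat (nat_lit 387846523834837918)]]]]]]],[[[[[[[Int.ofNat (nat_lit 4263489717089412)]]]]]]]]],[[[[[[[[[Int.ofNat (nat_lit 30652455419602796)]]]]]]]]]]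

/-- A coefficient. -/
noncomputable def sp0_m0_3_5 : MP 10 :=
  [[[[[],[[[[[[Int.ofNat (nat_lit 20485143003723866)]]]]]]]],[[[[[[[[Int.ofNat (nat_lit 238223772700567602)]]]]]]]]],[[],[[[[[[[[Int.ofNat (nat_lit 35623343023205010)]]]]]]]]]]

/-- A coefficient. -/
noncomputable def sp0_m0_3_6 : MP 10 :=
  [[[[[[[[[[Int.negSucc (nat_lit 372417381836047673)]]]]]]]]],[[[[[[[[[Int.negSucc (nat_lit 306497626264038905)]]]]]]]]]]

/-- A coefficient. -/
noncomputable def sp0_m0_4_0 : MP 10 :=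
  [[[[[[[[[[Int.ofNat (nat_lit 1160575160531046)]]],[[[Int.ofNat (nat_lit 4608879903263502)]]]]],[[[[[Int.negSucc (nat_lit 10901275188812305)]]]]]],[],[[[[[[Int.ofNat (nat_lit 1106627062490462)]]]]]]],[[[[[[[Int.ofNat (nat_lit 28560374241339162)]]]]]]],[[[[[[[Int.ofNat (nat_lit 2850881180028666)]]]]]]]],[[[[[],[[[[Int.negSucc (nat_lit 2561819762949421)]]]]]],[[[[[[Int.negSucc (nat_lit 4235425907189707)]]]]]]]],[[[[[[[[Int.ofNat (nat_lit 4036210001341558)]]]]]]]]],[[[[[[[[[Int.negSucc (nat_lit 17914033584502147)]]],[[[Int.negSucc (nat_lit 361761390611153)]]]]],[[[[[Int.negSucc (nat_lit 5611438883276649)]]]]]],[],[[[[[[Int.negSucc (nat_lit 330708530413701)]]]]]]],[[[[[[[Int.negSucc (nat_lit 8915642269032459)]]]]]]],[[[[[[[Int.ofNat (nat_lit 981629040251090)]]]]]]]],[[[[[],[[[[Int.ofNat (nat_lit 2398252841714512)]]]]]],[[[[[[Int.negSucc (nat_lit 1434159114333485)]]]]]]]],[[[[[[[[Int.ofNat (nat_lit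 3043224928646642)]]]]]]]]],[[[[[[[[[Int.ofNat (nat_lit 3975478534732298)]]]]],[[[[[Int.ofNat (nat_lit 1519176532628762)]]]]]]],[[[[[[[Int.negSucc (nat_lit 1152977070446221)]]]]]]]]],[[[[[[[[[Int.negSucc (nat_lit 288173692408625)]]]]]]]]]]

/-- A coefficient. -/
noncomputable def sp0_m0_4_1 : MP 10 :=
  [[[[[[[[[],[[Int.ofNat (nat_lit 21635423226181032)]]]],[[[[Int.negSucc (nat_lit 7069471635391049)]]]]]],[[[[[[Int.ofNat (nat_lit 2357460702422418)]]]]]]]],[[[[[[[[Int.negSucc (nat_lit 51137586608324193)]]]]]]],[[[[[[[Int.ofNat (nat_lit 3061418835014424)]]]]]]]]],[[[[[[[[],[[Int.negSucc (nat_lit 11842815182185441)]]]],[[[[Int.negSucc (nat_lit 3427974327607069)]]]]]],[[[[[[Int.ofNat (nat_lit 5584425699009298)]]]]]]]],[[[[[[[[Int.negSucc (nat_lit 13581200009649571)]]]]]]],[[[[[[[Int.ofNat (nat_lit 284288647829022)]]]]]]]]],[[[[],[[[[[[Int.negSucc (nat_lit 1085410137046059)]]]]]]]],[[[[[[[[Int.ofNat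 (nat_lit 315945657173504)]]]]]]]]]]

/-- A coefficient. -/
noncomputable def sp0_m0_4_2 : MP 10 :=
  [[[[[[[[[[Int.ofNat (nat_lit 13345537530684906)]]],[[[Int.negSucc (nat_lit 6516934576449047)]]]]],[[[[[Int.ofNat (nat_lit 20026209000776964)]]]]]],[],[[[[[[Int.ofNat (nat_lit 3142751286303058)]]]]]]],[[[[[[[Int.negSucc (nat_lit 56056946354076879)]]]]]]],[[[[[[[Int.negSucc (nat_lit 3646295827578951)]]]]]]]],[[[[[],[[[[Int.negSucc (nat_lit 2866136999817819)]]]]]],[[[[[[Int.negSucc (nat_lit 1563889899829313)]]]]]]]],[[[[[[[[Int.negSucc (nat_lit 7342684368795323)]]]]]]]]],[[[[[[[[[Int.ofNat (nat_lit 26025324766300196)]]]]],[[[[[Int.ofNat (nat_lit 2410314724696952)]]]]]]],[[[[[[[Int.ofNat (nat_lit 9790989725120890)]]]]]]]],[],[[[[[[[[Int.negSucc (nat_lit 1456256956800521)]]]]]]]]],[[[[[[[[[Int.ofNat (nat_lit 12583082913180284)]]]]]]]]],[[[[[[[[[Int.negSucc (nat_lit 274867826804109)]]]]]]]]]]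

/-- A coefficient. -/
noncomputable def sp0_m0_4_3 : MP 10 :=
  [[[[[[[[[],[[Int.negSucc (nat_lit 18062469660093791)]]]],[[[[Int.ofNat (nat_lit 28934223768167480)]]]]]],[[[[[[Int.negSucc (nat_lit 28695881574961787)]]]]]]]],[[[[[[[[Int.ofNat (nat_lit 58316151071234620)]]]]]]],[[[[[[[Int.ofNat (nat_lit 2458535797679234)]]]]]]]]],[[[[],[[[[[[Int.ofNat (nat_lit 3809939719647058)]]]]]]]],[[[[[[[[Int.ofNat (nat_lit 1504912195294036)]]]]]]]]]]

/-- A coefficient. -/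
noncomputable def sp0_m0_4_4 : MP 10 :=
  [[[[[[[[[[Int.ofNat (nat_lit 233207415243241222)]]]]],[[[[[Int.negSucc (nat_lit 21515209653913529)]]]]]]],[[[[[[[Int.ofNat (nat_lit 22286395756832756)]]]]]]]],[],[[[[[[[[Int.ofNat (nat_lit 2902958971697866)]]]]]]]]],[[[[[[[[[Int.negSucc (nat_lit 45190501149855003)]]]]]]]]],[[[[[[[[[Int.negSucc (nat_lit 15795943371199407)]]]]]]]]]]

/-- A coefficient. -/
noncomputable def sp0_m0_4_5 : MP 10 :=
  [[[[[],[[[[[[Int.ofNat (nat_lit 4628227241840728)]]]]]]]],[[[[[[[[Int.negSucc (nat_lit 12169413374772455)]]]]]]]]]]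

/-- A coefficient. -/
noncomputable def sp0_m0_4_6 : MP 10 :=
  [[[[[[[[[[Int.negSucc (nat_lit 446655760656196879)]]]]]]]]],[[[[[[[[[Int.ofNat (nat_lit 71955795731715220)]]]]]]]]]]

/-- A coefficient. -/
noncomputable def sp0_m0_5_0 : MP 10 :=
  [[[[[[[[[[Int.negSucc (nat_lit 2151584423406105)]]],[[[Int.ofNat (nat_lit 4770972308218572)]]]]],[[[[[Int.negSucc (nat_lit 3876663860388073)]]]]]],[],[[[[[[Int.ofNat (nat_lit 853873286079494)]]]]]]],[[[[[[[Int.negSucc (nat_lit 4420418264313591)]]]]]]],[[[[[[[Int.ofNat (nat_lit 3534804076123328)]]]]]]]],[[[[[],[[[[Int.negSucc (nat_lit 2332772715940961)]]]]]],[[[[[[Int.negSucc (nat_lit 1752598587728455)]]]]]]]],[[[[[[[[Int.ofNat (nat_lit 267859822355852)]]]]]]]]],[[[[[[[[[Int.negSucc (nat_lit 4063293606918403)]]]]],[[[[[Int.negSucc (nat_lit 3951703788569733)]]]]]]],[[[[[[[Int.negSucc (nat_lit 5810968528962919)]]]]]]]]],[[[[[[[[[Int.ofNat (nat_lit 676641768298484)]]]]]]]]]]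

/-- A coefficient. -/
noncomputable def sp0_m0_5_1 : MP 10 :=
  [[[[[[[[[],[[Int.ofNat (nat_lit 3654558719121030)]]]],[[[[Int.ofNat (nat_lit 2611353274572082)]]]]]],[[[[[[Int.negSucc (nat_lit 16384110772175761)]]]]]]]],[[[[[[[[Int.negSucc (nat_lit 6093304236007193)]]]]]]],[[[[[[[Int.ofNat (nat_lit 391455775633552)]]]]]]]]],[[[[],[[[[[[Int.negSucc (nat_lit 231749327352773)]]]]]]]],[[[[[[[[Int.negSucc (nat_lit 1058307250472869)]]]]]]]]]]

/-- A coefficient. -/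
noncomputable def sp0_m0_5_2 : MP 10 :=
  [[[[[[[[[[Int.negSucc (nat_lit 25499310292367983)]]]]],[[[[[Int.negSucc (nat_lit 3253165125421595)]]]]]]],[[[[[[[Int.ofNat (nat_lit 2368278503112822)]]]]]]]],[],[[[[[[[[Int.negSucc (nat_lit 219609007809337)]]]]]]]]],[[[[[[[[[Int.negSucc (nat_lit 23197799015489337)]]]]]]]]],[[[[[[[[[Int.negSucc (nat_lit 1269305008211169)]]]]]]]]]]

/-- A coefficient. -/
noncomputable def sp0_m0_5_3 : MP 10 :=
  [[[[[],[[[[[[Int.ofNat (nat_lit 14637596936129822)]]]]]]]],[[[[[[[[Int.ofNat (nat_lit 3552042117684046)]]]]]]]]]]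

/-- A coefficient. -/
noncomputable def sp0_m0_5_4 : MP 10 :=
  [[[[[[[[[[Int.ofNat (nat_lit 80279046432262896)]]]]]]]]],[[[[[[[[[Int.ofNat (nat_lit 25577649216260906)]]]]]]]]]]

/-- A coefficient. -/
noncomputable def sp0_m0_6_0 : MP 10 :=
  [[[[[[[[[[Int.negSucc (nat_lit 788736293283899)]]],[[[Int.negSucc (nat_lit 3078501648001919)]]]]],[[[[[Int.ofNat (nat_lit 3222809604226500)]]]]]],[],[[[[[[Int.negSucc (nat_lit 718881320131835)]]]]]]],[[[[[[[Int.negSucc (nat_lit 2566219749119789)]]]]]]],[[[[[[[Int.negSucc (nat_lit 1403884381532753)]]]]]]]],[[[[[],[[[[Int.ofNat (nat_lit 3037583000828712)]]]]]],[[[[[[Int.ofNat (nat_lit 1616869467579906)]]]]]]]],[[[[[[[[Int.negSucc (nat_lit 578121232198611)]]]]]]]]],[[[[[[[[[Int.negSucc (nat_lit 1880151203065449)]]]]],[[[[[Int.ofNat (nat_lit 1168152800083338)]]]]]]],[[[[[[[Int.ofNat (nat_lit 3731001428740438)]]]]]]]]],[[[[[[[[[Int.negSucc (nat_lit 983488364795193)]]]]]]]]]]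

/-- A coefficient. -/
noncomputable def sp0_m0_6_1 : MP 10 :=
  [[[[[[[[[],[[Int.negSucc (nat_lit 26200040179236577)]]]],[[[[Int.ofNat (nat_lit 1228823677865294)]]]]]],[[[[[[Int.ofNat (nat_lit 1247163173392848)]]]]]]]],[[[[[[[[Int.ofNat (nat_lit 16207050192957014)]]]]]]],[[[[[[[Int.negSucc (nat_lit 1923073643681325)]]]]]]]]],[[[[],[[[[[[Int.ofNat (nat_lit 442101599047774)]]]]]]]],[[[[[[[[Int.ofNat (nat_lit 1893736577581112)]]]]]]]]]]

/-- A coefficient. -/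
noncomputable def sp0_m0_6_2 : MP 10 :=
  [[[[[[[[[[Int.ofNat (nat_lit 9393872336387042)]]]]],[[[[[Int.ofNat (nat_lit 1100632574077900)]]]]]]],[[[[[[[Int.ofNat (nat_lit 5954851872371518)]]]]]]]],[],[[[[[[[[Int.ofNat (nat_lit 1143891092234766)]]]]]]]]],[[[[[[[[[Int.ofNat (nat_lit 4947381733188694)]]]]]]]]],[[[[[[[[[Int.ofNat (nat_lit 232569977755224)]]]]]]]]]]

/-- A coefficient. -/
noncomputable def sp0_m0_6_3 : MP 10 :=
  [[[[[],[[[[[[Int.negSucc (nat_lit 1019250571568067)]]]]]]]],[[[[[[[[Int.negSucc (nat_lit 12908243820841231)]]]]]]]]]]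

/-- A coefficient. -/
noncomputable def sp0_m0_6_4 : MP 10 :=
  [[[[[[[[[[Int.negSucc (nat_lit 17755647267496173)]]]]]]]]],[[[[[[[[[Int.negSucc (nat_lit 3837780371820289)]]]]]]]]]]

/-- An expanded part. -/
noncomputable def sp0_m0 : R12 :=
  [[sp0_m0_0_0, sp0_m0_0_1, sp0_m0_0_2, sp0_m0_0_3, sp0_m0_0_4, sp0_m0_0_5, sp0_m0_0_6, sp0_m0_0_7, sp0_m0_0_8, sp0_m0_0_9, sp0_m0_0_10],
   [sp0_m0_1_0, sp0_m0_1_1, sp0_m0_1_2, sp0_m0_1_3, sp0_m0_1_4, sp0_m0_1_5, sp0_m0_1_6, sp0_m0_1_7, sp0_m0_1_8],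
   [sp0_m0_2_0, sp0_m0_2_1, sp0_m0_2_2, sp0_m0_2_3, sp0_m0_2_4, sp0_m0_2_5, sp0_m0_2_6, sp0_m0_2_7, sp0_m0_2_8],
   [sp0_m0_3_0, sp0_m0_3_1, sp0_m0_3_2, sp0_m0_3_3, sp0_m0_3_4, sp0_m0_3_5, sp0_m0_3_6],
   [sp0_m0_4_0, sp0_m0_4_1, sp0_m0_4_2, sp0_m0_4_3, sp0_m0_4_4, sp0_m0_4_5, sp0_m0_4_6],
   [sp0_m0_5_0, sp0_m0_5_1, sp0_m0_5_2, sp0_m0_5_3, sp0_m0_5_4],
   [sp0_m0_6_0, sp0_m0_6_1, sp0_m0_6_2, sp0_m0_6_3, sp0_m0_6_4]]

set_option maxRecDepth 100000 in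
theorem sp0_check0 : partOk 0 sp0_rows 0 sp0_m0 = true :=
  Fast.partOk_of_fast (by decide +kernel)

end Vale.Agent.P142K.CertB
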