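import Vale.Agent.P142K.Checker

/-!
# A factor of the certificate

Generated from a semidefinite program; only the checker is trusted.
-/

namespace Vale.Agent.P142K.CertB

open Vale.Agent.P142J (MP)

/-- A row. -/
noncomputable def sp0_c0_0 : List ℕ × List ℤ :=
  ([(nat_lit 0),(nat_lit 0),(nat_lit 0),(nat_lit 0),(nat_lit 0),(nat_lit 0),(nat_lit 0),(nat_lit 0),(nat_lit 0),(nat_lit 0),(nat_lit 0),(nat_lit 0)], [Int.ofNat (nat_lit 19158919)])

/-- A row. -/
noncomputable def sp0_c0_1 : List ℕ × List ℤ :=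
  ([(nat_lit 0),(nat_lit 0),(nat_lit 0),(nat_lit 0),(nat_lit 0),(nat_lit 0),(nat_lit 0),(nat_lit 0),(nat_lit 1),(nat_lit 0),(nat_lit 0),(nat_lit 0)], [Int.ofNat (nat_lit 30354237),Int.ofNat (nat_lit 106619697)])

/-- A row. -/
noncomputable def sp0_c0_2 : List ℕ × List ℤ :=
  ([(nat_lit 0),(nat_lit 0),(nat_lit 0),(nat_lit 0),(nat_lit 0),(nat_lit 0),(nat_lit 1),(nat_lit 0),(nat_lit 0),(nat_lit 0),(nat_lit 0),(nat_lit 0)], [Int.negSucc (nat_lit 23307196),Int.ofNat (nat_lit 12598412),Int.ofNat (nat_lit 86652208)])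

/-- A row. -/
noncomputable def sp0_c0_3 : List ℕ × List ℤ :=
  ([(nat_lit 0),(nat_lit 0),(nat_lit 0),(nat_lit 0),(nat_lit 0),(nat_lit 2),(nat_lit 0),(nat_lit 0),(nat_lit 0),(nat_lit 0),(nat_lit 0),(nat_lit 0)], [Int.negSucc (nat_lit 5117546),Int.ofNat (nat_lit 3130791),Int.ofNat (nat_lit 2792412),Int.ofNat (nat_lit 17209871)])

/-- A row. -/
noncomputable def sp0_c0_4 : List ℕ × List ℤ :=
  ([(nat_lit 0),(nat_lit 0),(nat_lit 0),(nat_lit 0),(nat_lit 1),(nat_lit 0),(nat_lit 0),(nat_lit 0),(nat_lit 0),(nat_lit 0),(nat_lit 0),(nat_lit 0)], [Int.negSucc (nat_lit 42322269),Int.negSucc (nat_lit 2342221),Int.ofNat (nat_lit 10154607),Int.ofNat (nat_lit 10223888),Int.ofNat (nat_lit 98818061)])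

/-- A row. -/
noncomputable def sp0_c0_5 : List ℕ × List ℤ :=
  ([(nat_lit 0),(nat_lit 0),(nat_lit 0),(nat_lit 0),(nat_lit 2),(nat_lit 0),(nat_lit 0),(nat_lit 0),(nat_lit 0),(nat_lit 0),(nat_lit 0),(nat_lit 0)], [Int.ofNat (nat_lit 3843063),Int.negSucc (nat_lit 1830270),Int.negSucc (nat_lit 18319181),Int.ofNat (nat_lit 5234677),Int.negSucc (nat_lit 5127118),Int.ofNat (nat_lit 20629620)])

/-- A row. -/
noncomputable def sp0_c0_6 : List ℕ × List ℤ :=
  ([(nat_lit 0),(nat_lit 0),(nat_lit 0),(nat_lit 1),(nat_lit 0),(nat_lit 0),(nat_lit 0),(nat_lit 1),(nat_lit 0),(nat_lit 0),(nat_lit 0),(nat_lit 0)], [Int.ofNat (nat_lit 15661572),Int.negSucc (nat_lit 12951343),Int.negSucc (nat_lit 7843731),Int.negSucc (nat_lit 17323659),Int.negSucc (nat_lit 5951423),Int.negSucc (nat_lit 3680875),Int.ofNat (nat_lit 26922061)])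

/-- A row. -/
noncomputable def sp0_c0_7 : List ℕ × List ℤ :=
  ([(nat_lit 0),(nat_lit 0),(nat_lit 0),(nat_lit 1),(nat_lit 0),(nat_lit 1),(nat_lit 0),(nat_lit 0),(nat_lit 0),(nat_lit 0),(nat_lit 0),(nat_lit 0)], [Int.negSucc (nat_lit 1845032),Int.negSucc (nat_lit 6147170),Int.ofNat (nat_lit 3247902),Int.negSucc (nat_lit 25800599),Int.ofNat (nat_lit 3207741),Int.negSucc (nat_lit 5217765),Int.negSucc (nat_lit 12374956),Int.ofNat (nat_lit 21414992)])

/-- A row. -/
noncomputable def sp0_c0_8 : List ℕ × List ℤ :=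
  ([(nat_lit 0),(nat_lit 0),(nat_lit 0),(nat_lit 2),(nat_lit 0),(nat_lit 0),(nat_lit 0),(nat_lit 0),(nat_lit 0),(nat_lit 0),(nat_lit 0),(nat_lit 0)], [Int.ofNat (nat_lit 12571547),Int.ofNat (nat_lit 4451695),Int.negSucc (nat_lit 16914435),Int.ofNat (nat_lit 5049889),Int.negSucc (nat_lit 3799329),Int.ofNat (nat_lit 1293438),Int.ofNat (nat_lit 14496136),Int.negSucc (nat_lit 12116334),Int.ofNat (nat_lit 14191331)])

/-- A row. -/
noncomputable def sp0_c0_9 : List ℕ × List ℤ :=
  ([(nat_lit 0),(nat_lit 0),(nat_lit 1),(nat_lit 0),(nat_lit 0),(nat_lit 0),(nat_lit 0),(nat_lit 0),(nat_lit 0),(nat_lit 0),(nat_lit 0),(nat_lit 0)], [Int.ofNat (nat_lit 71579432),Int.negSucc (nat_lit 17520839),Int.ofNat (nat_lit 18776637),Int.negSucc (nat_lit 23208820),Int.negSucc (nat_lit 49768995),Int.negSucc (nat_lit 15400765),Int.ofNat (nat_lit 16681707),Int.ofNat (nat_lit 1898072),Int.negSucc (nat_lit 5093766),Int.ofNat (nat_lit 54347664)])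

/-- A row. -/
noncomputable def sp0_c0_10 : List ℕ × List ℤ :=
  ([(nat_lit 0),(nat_lit 0),(nat_lit 1),(nat_lit 0),(nat_lit 0),(nat_lit 0),(nat_lit 1),(nat_lit 0),(nat_lit 0),(nat_lit 0),(nat_lit 0),(nat_lit 0)], [Int.ofNat (nat_lit 5976413),Int.ofNat (nat_lit 4118541),Int.ofNat (nat_lit 11323064),Int.ofNat (nat_lit 2112852),Int.ofNat (nat_lit 2375275),Int.negSucc (nat_lit 16192811),Int.ofNat (nat_lit 15173462),Int.negSucc (nat_lit 4737311),Int.ofNat (nat_lit 5110522),Int.ofNat (nat_lit 3108286),Int.ofNat (nat_lit 16668362)])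

/-- A row. -/
noncomputable def sp0_c0_11 : List ℕ × List ℤ :=
  ([(nat_lit 0),(nat_lit 0),(nat_lit 1),(nat_lit 0),(nat_lit 1),(nat_lit 0),(nat_lit 0),(nat_lit 0),(nat_lit 0),(nat_lit 0),(nat_lit 0),(nat_lit 0)], [Int.negSucc (nat_lit 689509),Int.ofNat (nat_lit 13752412),Int.ofNat (nat_lit 26602229),Int.negSucc (nat_lit 14205599),Int.ofNat (nat_lit 1028171),Int.negSucc (nat_lit 33810372),Int.ofNat (nat_lit 11059410),Int.negSucc (nat_lit 6950139),Int.ofNat (nat_lit 1250997),Int.negSucc (nat_lit 8794493),Int.negSucc (nat_lit 2345066),Int.ofNat (nat_lit 19520326)])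

/-- A row. -/
noncomputable def sp0_c0_12 : List ℕ × List ℤ :=
  ([(nat_lit 0),(nat_lit 0),(nat_lit 2),(nat_lit 0),(nat_lit 0),(nat_lit 0),(nat_lit 0),(nat_lit 0),(nat_lit 0),(nat_lit 0),(nat_lit 0),(nat_lit 0)], [Int.ofNat (nat_lit 8364300),Int.negSucc (nat_lit 212550),Int.ofNat (nat_lit 19156246),Int.negSucc (nat_lit 4008613),Int.negSucc (nat_lit 10146982),Int.ofNat (nat_lit 4160599),Int.negSucc (nat_lit 11430937),Int.ofNat (nat_lit 8214140),Int.negSucc (nat_lit 11201157),Int.ofNat (nat_lit 21008900),Int.negSucc (nat_lit 1693714),Int.negSucc (nat_lit 12370980),Int.ofNat (nat_lit 19840032)])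

/-- A row. -/
noncomputable def sp0_c0_13 : List ℕ × List ℤ :=
  ([(nat_lit 0),(nat_lit 1),(nat_lit 0),(nat_lit 0),(nat_lit 0),(nat_lit 0),(nat_lit 0),(nat_lit 0),(nat_lit 0),(nat_lit 1),(nat_lit 0),(nat_lit 0)], [Int.negSucc (nat_lit 35715086),Int.negSucc (nat_lit 40226191),Int.negSucc (nat_lit 19249157),Int.negSucc (nat_lit 62075959),Int.ofNat (nat_lit 1561431),Int.ofNat (nat_lit 14502898),Int.negSucc (nat_lit 34308982),Int.negSucc (nat_lit 64736519),Int.negSucc (nat_lit 48039266),Int.negSucc (nat_lit 22945404),Int.ofNat (nat_lit 50591183),Int.ofNat (nat_lit 25545952),Int.negSucc (nat_lit 19619299),Int.ofNat (nat_lit 315123325)])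

/-- A row. -/
noncomputable def sp0_c0_14 : List ℕ × List ℤ :=
  ([(nat_lit 0),(nat_lit 1),(nat_lit 0),(nat_lit 0),(nat_lit 0),(nat_lit 0),(nat_lit 0),(nat_lit 1),(nat_lit 0),(nat_lit 0),(nat_lit 0),(nat_lit 0)], [Int.negSucc (nat_lit 17698272),Int.ofNat (nat_lit 31678211),Int.ofNat (nat_lit 9684465),Int.ofNat (nat_lit 29920144),Int.negSucc (nat_lit 12326674),Int.ofNat (nat_lit 3859220),Int.negSucc (nat_lit 38627776),Int.negSucc (nat_lit 26157115),Int.negSucc (nat_lit 10011085),Int.negSucc (nat_lit 1875369),Int.negSucc (nat_lit 10548385),Int.ofNat (nat_lit 1174979),Int.ofNat (nat_lit 4190862),Int.negSucc (nat_lit 15546354),Int.ofNat (nat_lit 155379807)])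

/-- A row. -/
noncomputable def sp0_c0_15 : List ℕ × List ℤ :=
  ([(nat_lit 0),(nat_lit 1),(nat_lit 0),(nat_lit 0),(nat_lit 0),(nat_lit 1),(nat_lit 0),(nat_lit 0),(nat_lit 0),(nat_lit 0),(nat_lit 0),(nat_lit 0)], [Int.ofNat (nat_lit 41288012),Int.negSucc (nat_lit 2983572),Int.ofNat (nat_lit 53804158),Int.negSucc (nat_lit 46268170),Int.negSucc (nat_lit 12378875),Int.negSucc (nat_lit 23539572),Int.ofNat (nat_lit 49562055),Int.negSucc (nat_lit 88910717),Int.ofNat (nat_lit 19427519),Int.ofNat (nat_lit 3321122),Int.ofNat (nat_lit 14303662),Int.negSucc (nat_lit 8270877),Int.negSucc (nat_lit 6368277),Int.ofNat (nat_lit 5719993),Int.negSucc (nat_lit 17307670),Int.ofNat (nat_lit 157147629)])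

/-- A row. -/
noncomputable def sp0_c0_16 : List ℕ × List ℤ :=
  ([(nat_lit 0),(nat_lit 1),(nat_lit 0),(nat_lit 1),(nat_lit 0),(nat_lit 0),(nat_lit 0),(nat_lit 0),(nat_lit 0),(nat_lit 0),(nat_lit 0),(nat_lit 0)], [Int.negSucc (nat_lit 33048197),Int.negSucc (nat_lit 9002594),Int.ofNat (nat_lit 46847346),Int.negSucc (nat_lit 67606113),Int.negSucc (nat_lit 41365062),Int.negSucc (nat_lit 23304053),Int.negSucc (nat_lit 71737345),Int.ofNat (nat_lit 103864746),Int.negSucc (nat_lit 43869781),Int.ofNat (nat_lit 880960),Int.negSucc (nat_lit 7583423),Int.ofNat (nat_lit 2854955),Int.ofNat (nat_lit 15344043),Int.negSucc (nat_lit 17276638),Int.negSucc (nat_lit 10992195),Int.negSucc (nat_lit 43642787),Int.ofNat (nat_lit 178235284)])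

/-- A row. -/
noncomputable def sp0_c0_17 : List ℕ × List ℤ :=
  ([(nat_lit 0),(nat_lit 1),(nat_lit 0),(nat_lit 1),(nat_lit 1),(nat_lit 0),(nat_lit 0),(nat_lit 0),(nat_lit 0),(nat_lit 0),(nat_lit 0),(nat_lit 0)], [Int.ofNat (nat_lit 1279471),Int.negSucc (nat_lit 44833),Int.ofNat (nat_lit 1064672),Int.ofNat (nat_lit 1878497),Int.ofNat (nat_lit 1857222),Int.ofNat (nat_lit 688022),Int.ofNat (nat_lit 1257700),Int.negSucc (nat_lit 268490),Int.ofNat (nat_lit 1533650),Int.ofNat (nat_lit 1412144),Int.ofNat (nat_lit 5479686),Int.ofNat (nat_lit 1663180),Int.ofNat (nat_lit 784647),Int.ofNat (nat_lit 3170133),Int.negSucc (nat_lit 4875209),Int.negSucc (nat_lit 2448473),Int.negSucc (nat_lit 13013846),Int.ofNat (nat_lit 54620740)])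

/-- A row. -/
noncomputable def sp0_c0_18 : List ℕ × List ℤ :=
  ([(nat_lit 0),(nat_lit 1),(nat_lit 1),(nat_lit 0),(nat_lit 0),(nat_lit 1),(nat_lit 0),(nat_lit 0),(nat_lit 0),(nat_lit 0),(nat_lit 0),(nat_lit 0)], [Int.negSucc (nat_lit 4121940),Int.negSucc (nat_lit 3046245),Int.ofNat (nat_lit 5097851),Int.negSucc (nat_lit 1498695),Int.negSucc (nat_lit 175018),Int.negSucc (nat_lit 2866613),Int.negSucc (nat_lit 3395801),Int.negSucc (nat_lit 2569777),Int.negSucc (nat_lit 2172295),Int.negSucc (nat_lit 301629),Int.negSucc (nat_lit 719189),Int.negSucc (nat_lit 666118),Int.ofNat (nat_lit 178520),Int.ofNat (nat_lit 3306194),Int.ofNat (nat_lit 4092891),Int.negSucc (nat_lit 731195),Int.ofNat (nat_lit 786968),Int.negSucc (nat_lit 14252388),Int.ofNat (nat_lit 40325872)])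

/-- A row. -/
noncomputable def sp0_c0_19 : List ℕ × List ℤ :=
  ([(nat_lit 0),(nat_lit 1),(nat_lit 1),(nat_lit 1),(nat_lit 0),(nat_lit 0),(nat_lit 0),(nat_lit 0),(nat_lit 0),(nat_lit 0),(nat_lit 0),(nat_lit 0)], [Int.ofNat (nat_lit 991359),Int.ofNat (nat_lit 1852160),Int.negSucc (nat_lit 744813),Int.negSucc (nat_lit 1013169),Int.negSucc (nat_lit 1527196),Int.negSucc (nat_lit 2923532),Int.ofNat (nat_lit 379665),Int.ofNat (nat_lit 2355353),Int.ofNat (nat_lit 524841),Int.ofNat (nat_lit 231345),Int.negSucc (nat_lit 1586146),Int.negSucc (nat_lit 1958405),Int.negSucc (nat_lit 678625),Int.negSucc (nat_lit 5720202),Int.ofNat (nat_lit 10942474),Int.ofNat (nat_lit 897766),Int.ofNat (nat_lit 9800700),Int.negSucc (nat_lit 29696483),Int.negSucc (nat_lit 16883366),Int.ofNat (nat_lit 26137949)])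

/-- A row. -/
noncomputable def sp0_c0_20 : List ℕ × List ℤ :=
  ([(nat_lit 0),(nat_lit 2),(nat_lit 0),(nat_lit 0),(nat_lit 0),(nat_lit 0),(nat_lit 0),(nat_lit 0),(nat_lit 0),(nat_lit 0),(nat_lit 0),(nat_lit 0)], [Int.negSucc (nat_lit 162433913),Int.ofNat (nat_lit 22063954),Int.negSucc (nat_lit 12118696),Int.ofNat (nat_lit 86821277),Int.ofNat (nat_lit 1331478),Int.ofNat (nat_lit 7404398),Int.ofNat (nat_lit 68008259),Int.negSucc (nat_lit 114553605),Int.ofNat (nat_lit 37791777),Int.ofNat (nat_lit 2698947),Int.ofNat (nat_lit 14830725),Int.negSucc (nat_lit 9888254),Int.negSucc (nat_lit 23327200),Int.negSucc (nat_lit 20058045),Int.ofNat (nat_lit 20803409),Int.ofNat (nat_lit 68697892),Int.negSucc (nat_lit 218704273),Int.ofNat (nat_lit 4299255),Int.negSucc (nat_lit 268842),Int.ofNat (nat_lit 86626),Int.ofNat (nat_lit 277284328)])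

/-- A row. -/
noncomputable def sp0_c0_21 : List ℕ × List ℤ :=
  ([(nat_lit 0),(nat_lit 2),(nat_lit 0),(nat_lit 0),(nat_lit 0),(nat_lit 0),(nat_lit 1),(nat_lit 0),(nat_lit 0),(nat_lit 0),(nat_lit 0),(nat_lit 0)], [Int.ofNat (nat_lit 3239812),Int.ofNat (nat_lit 3891099),Int.negSucc (nat_lit 51784941),Int.ofNat (nat_lit 8657971),Int.ofNat (nat_lit 12810687),Int.negSucc (nat_lit 45256605),Int.negSucc (nat_lit 34036526),Int.negSucc (nat_lit 3451733),Int.negSucc (nat_lit 13426483),Int.ofNat (nat_lit 1448412),Int.ofNat (nat_lit 20016168),Int.ofNat (nat_lit 6206375),Int.ofNat (nat_lit 7443881),Int.negSucc (nat_lit 30306259),Int.negSucc (nat_lit 2663169),Int.ofNat (nat_lit 25259482),Int.ofNat (nat_lit 17823447),Int.negSucc (nat_lit 63246323),Int.negSucc (nat_lit 23268469),Int.negSucc (nat_lit 13298415),Int.ofNat (nat_lit 350332),Int.ofNat (nat_lit 231694733)])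

/-- A row. -/
noncomputable def sp0_c0_22 : List ℕ × List ℤ :=
  ([(nat_lit 0),(nat_lit 2),(nat_lit 0),(nat_lit 0),(nat_lit 1),(nat_lit 0),(nat_lit 0),(nat_lit 0),(nat_lit 0),(nat_lit 0),(nat_lit 0),(nat_lit 0)], [Int.ofNat (nat_lit 34005554),Int.negSucc (nat_lit 14319243),Int.ofNat (nat_lit 11130229),Int.ofNat (nat_lit 2366026),Int.negSucc (nat_lit 115648176),Int.negSucc (nat_lit 27064206),Int.negSucc (nat_lit 15411753),Int.ofNat (nat_lit 9624944),Int.negSucc (nat_lit 5900882),Int.ofNat (nat_lit 1926024),Int.negSucc (nat_lit 8080217),Int.negSucc (nat_lit 25089184),Int.negSucc (nat_lit 6344174),Int.negSucc (nat_lit 80015),Int.negSucc (nat_lit 26526092),Int.negSucc (nat_lit 4068818),Int.ofNat (nat_lit 9346133),Int.negSucc (nat_lit 88071580),Int.ofNat (nat_lit 3735999),Int.ofNat (nat_lit 3547034),Int.negSucc (nat_lit 5029853),Int.negSucc (nat_lit 14048395),Int.ofNat (nat_lit 148253156)])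

/-- A row. -/
noncomputable def sp0_c0_23 : List ℕ × List ℤ :=
  ([(nat_lit 0),(nat_lit 2),(nat_lit 0),(nat_lit 2),(nat_lit 0),(nat_lit 0),(nat_lit 0),(nat_lit 0),(nat_lit 0),(nat_lit 0),(nat_lit 0),(nat_lit 0)], [Int.negSucc (nat_lit 4084076),Int.negSucc (nat_lit 6656309),Int.ofNat (nat_lit 14131314),Int.negSucc (nat_lit 5163195),Int.ofNat (nat_lit 88038),Int.ofNat (nat_lit 1822849),Int.ofNat (nat_lit 237178),Int.negSucc (nat_lit 1623436),Int.negSucc (nat_lit 16546559),Int.ofNat (nat_lit 596020),Int.negSucc (nat_lit 707770),Int.negSucc (nat_lit 605741),Int.ofNat (nat_lit 605154),Int.negSucc (nat_lit 4096938),Int.ofNat (nat_lit 814320),Int.ofNat (nat_lit 79646),Int.ofNat (nat_lit 6348),Int.ofNat (nat_lit 476329),Int.ofNat (nat_lit 471520),Int.negSucc (nat_lit 253668),Int.negSucc (nat_lit 16130),Int.negSucc (nat_lit 4880887),Int.negSucc (nat_lit 1237222),Int.ofNat (nat_lit 16482181)])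

/-- A row. -/
noncomputable def sp0_c0_24 : List ℕ × List ℤ :=
  ([(nat_lit 0),(nat_lit 2),(nat_lit 1),(nat_lit 0),(nat_lit 0),(nat_lit 0),(nat_lit 0),(nat_lit 0),(nat_lit 0),(nat_lit 0),(nat_lit 0),(nat_lit 0)], [Int.negSucc (nat_lit 159549818),Int.ofNat (nat_lit 51154413),Int.negSucc (nat_lit 14455674),Int.ofNat (nat_lit 17107873),Int.ofNat (nat_lit 63893266),Int.ofNat (nat_lit 19205250),Int.negSucc (nat_lit 6185055),Int.negSucc (nat_lit 24858873),Int.negSucc (nat_lit 283700),Int.negSucc (nat_lit 134912606),Int.ofNat (nat_lit 35295018),Int.negSucc (nat_lit 73535080),Int.ofNat (nat_lit 85719026),Int.negSucc (nat_lit 5708351),Int.negSucc (nat_lit 40723213),Int.ofNat (nat_lit 9372241),Int.negSucc (nat_lit 45846697),Int.ofNat (nat_lit 39494056),Int.negSucc (nat_lit 6919630),Int.negSucc (nat_lit 11790405),Int.ofNat (nat_lit 33443790),Int.negSucc (nat_lit 1220461),Int.negSucc (nat_lit 73016360),Int.negSucc (nat_lit 10038196),Int.ofNat (nat_lit 421930410)])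

/-- A row. -/
noncomputable def sp0_c0_25 : List ℕ × List ℤ :=
  ([(nat_lit 0),(nat_lit 2),(nat_lit 2),(nat_lit 0),(nat_lit 0),(nat_lit 0),(nat_lit 0),(nat_lit 0),(nat_lit 0),(nat_lit 0),(nat_lit 0),(nat_lit 0)], [Int.negSucc (nat_lit 16523672),Int.negSucc (nat_lit 2444054),Int.negSucc (nat_lit 18747038),Int.ofNat (nat_lit 9896105),Int.ofNat (nat_lit 19635029),Int.negSucc (nat_lit 6488062),Int.negSucc (nat_lit 370768),Int.negSucc (nat_lit 1176625),Int.ofNat (nat_lit 14673607),Int.negSucc (nat_lit 19104961),Int.ofNat (nat_lit 7975005),Int.ofNat (nat_lit 2104361),Int.negSucc (nat_lit 24223558),Int.negSucc (nat_lit 4236521),Int.ofNat (nat_lit 452285),Int.negSucc (nat_lit 497248),Int.negSucc (nat_lit 34542),Int.ofNat (nat_lit 1845707),Int.ofNat (nat_lit 274929),Int.ofNat (nat_lit 263844),Int.ofNat (nat_lit 582275),Int.ofNat (nat_lit 5653903),Int.negSucc (nat_lit 7950137),Int.negSucc (nat_lit 13802885),Int.ofNat (nat_lit 3293622),Int.ofNat (nat_lit 34081138)])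

/-- A row. -/
noncomputable def sp0_c0_26 : List ℕ × List ℤ :=
  ([(nat_lit 0),(nat_lit 3),(nat_lit 0),(nat_lit 0),(nat_lit 0),(nat_lit 1),(nat_lit 0),(nat_lit 0),(nat_lit 0),(nat_lit 0),(nat_lit 0),(nat_lit 0)], [Int.ofNat (nat_lit 1590384),Int.ofNat (nat_lit 11960182),Int.negSucc (nat_lit 88939546),Int.ofNat (nat_lit 12728155),Int.ofNat (nat_lit 9674067),Int.ofNat (nat_lit 27839117),Int.negSucc (nat_lit 3678101),Int.ofNat (nat_lit 10910410),Int.negSucc (nat_lit 21365740),Int.negSucc (nat_lit 5134806),Int.negSucc (nat_lit 14691887),Int.ofNat (nat_lit 13464489),Int.ofNat (nat_lit 5310724),Int.negSucc (nat_lit 11514967),Int.negSucc (nat_lit 7876655),Int.negSucc (nat_lit 181874095),Int.ofNat (nat_lit 3051037),Int.negSucc (nat_lit 10337047),Int.negSucc (nat_lit 3589023),Int.negSucc (nat_lit 5726316),Int.ofNat (nat_lit 2937518),Int.ofNat (nat_lit 39921211),Int.negSucc (nat_lit 23529316),Int.ofNat (nat_lit 32756150),Int.ofNat (nat_lit 3627957),Int.ofNat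 (nat_lit 5855303),Int.ofNat (nat_lit 133666639)])

/-- A row. -/
noncomputable def sp0_c0_27 : List ℕ × List ℤ :=
  ([(nat_lit 0),(nat_lit 3),(nat_lit 0),(nat_lit 1),(nat_lit 0),(nat_lit 0),(nat_lit 0),(nat_lit 0),(nat_lit 0),(nat_lit 0),(nat_lit 0),(nat_lit 0)], [Int.negSucc (nat_lit 2739557),Int.ofNat (nat_lit 4773632),Int.negSucc (nat_lit 25856049),Int.ofNat (nat_lit 35384391),Int.ofNat (nat_lit 64785789),Int.ofNat (nat_lit 3360378),Int.ofNat (nat_lit 10648145),Int.negSucc (nat_lit 13709507),Int.ofNat (nat_lit 51545557),Int.negSucc (nat_lit 6729257),Int.negSucc (nat_lit 2307290),Int.ofNat (nat_lit 750756),Int.negSucc (nat_lit 18791168),Int.ofNat (nat_lit 18985468),Int.ofNat (nat_lit 28667371),Int.ofNat (nat_lit 52203351),Int.negSucc (nat_lit 202921478),Int.negSucc (nat_lit 43390753),Int.negSucc (nat_lit 2395925),Int.ofNat (nat_lit 8363200),Int.negSucc (nat_lit 770413),Int.ofNat (nat_lit 8314198),Int.negSucc (nat_lit 31307259),Int.negSucc (nat_lit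 66455740),Int.negSucc (nat_lit 2075005),Int.ofNat (nat_lit 8276233),Int.negSucc (nat_lit 42644220),Int.ofNat (nat_lit 113898251)])

/-- A row. -/
noncomputable def sp0_c0_28 : List ℕ × List ℤ :=
  ([(nat_lit 0),(nat_lit 4),(nat_lit 0),(nat_lit 0),(nat_lit 0),(nat_lit 0),(nat_lit 0),(nat_lit 0),(nat_lit 0),(nat_lit 0),(nat_lit 0),(nat_lit 0)], [Int.ofNat (nat_lit 416811090),Int.ofNat (nat_lit 1012757),Int.negSucc (nat_lit 21980674),Int.negSucc (nat_lit 160690432),Int.ofNat (nat_lit 64576477),Int.ofNat (nat_lit 29582528),Int.negSucc (nat_lit 79037557),Int.ofNat (nat_lit 105783135),Int.negSucc (nat_lit 70145632),Int.negSucc (nat_lit 19418125),Int.negSucc (nat_lit 29319574),Int.ofNat (nat_lit 24407013),Int.ofNat (nat_lit 30015834),Int.ofNat (nat_lit 44052289),Int.negSucc (nat_lit 11085222),Int.negSucc (nat_lit 93934253),Int.ofNat (nat_lit 407271444),Int.ofNat (nat_lit 2313792),Int.ofNat (nat_lit 9875831),Int.negSucc (nat_lit 13976305),Int.negSucc (nat_lit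 880515322),Int.negSucc (nat_lit 2949646),Int.ofNat (nat_lit 39430421),Int.ofNat (nat_lit 42844487),Int.negSucc (nat_lit 24202550),Int.negSucc (nat_lit 20891425),Int.ofNat (nat_lit 44754791),Int.negSucc (nat_lit 107811203),Int.ofNat (nat_lit 495917486)])

/-- A row. -/
noncomputable def sp0_c0_29 : List ℕ × List ℤ :=
  ([(nat_lit 0),(nat_lit 4),(nat_lit 1),(nat_lit 0),(nat_lit 0),(nat_lit 0),(nat_lit 0),(nat_lit 0),(nat_lit 0),(nat_lit 0),(nat_lit 0),(nat_lit 0)], [Int.ofNat (nat_lit 93733714),Int.negSucc (nat_lit 50665591),Int.negSucc (nat_lit 6704683),Int.negSucc (nat_lit 4674189),Int.ofNat (nat_lit 3334652),Int.negSucc (nat_lit 12999276),Int.ofNat (nat_lit 1185227),Int.ofNat (nat_lit 20303076),Int.ofNat (nat_lit 7890553),Int.ofNat (nat_lit 90499123),Int.negSucc (nat_lit 23050662),Int.ofNat (nat_lit 74552966),Int.negSucc (nat_lit 98887595),Int.ofNat (nat_lit 11323627),Int.ofNat (nat_lit 41688459),Int.negSucc (nat_lit 8074557),Int.ofNat (nat_lit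 45445918),Int.negSucc (nat_lit 3729738),Int.ofNat (nat_lit 36362448),Int.ofNat (nat_lit 9827805),Int.negSucc (nat_lit 36086211),Int.ofNat (nat_lit 12797805),Int.ofNat (nat_lit 17769413),Int.ofNat (nat_lit 1953385),Int.negSucc (nat_lit 480658462),Int.ofNat (nat_lit 58701002),Int.ofNat (nat_lit 14880675),Int.negSucc (nat_lit 11543217),Int.ofNat (nat_lit 1071796),Int.ofNat (nat_lit 170378680)])

/-- A part of a triangular factor. -/
noncomputable def sp0_c0 : Rows :=
  [sp0_c0_0,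
   sp0_c0_1,
   sp0_c0_2,
   sp0_c0_3,
   sp0_c0_4,
   sp0_c0_5,
   sp0_c0_6,
   sp0_c0_7,
   sp0_c0_8,
   sp0_c0_9,
   sp0_c0_10,
   sp0_c0_11,
   sp0_c0_12,
   sp0_c0_13,
   sp0_c0_14,
   sp0_c0_15,
   sp0_c0_16,
   sp0_c0_17,
   sp0_c0_18,
   sp0_c0_19,
   sp0_c0_20,
   sp0_c0_21,
   sp0_c0_22,
   sp0_c0_23,
   sp0_c0_24,
   sp0_c0_25,
   sp0_c0_26,
   sp0_c0_27,
   sp0_c0_28,
   sp0_c0_29]

/-- A row. -/
noncomputable def sp0_c1_0 : List ℕ × List ℤ :=
  ([(nat_lit 0),(nat_lit 6),(nat_lit 0),(nat_lit 0),(nat_lit 0),(nat_lit 0),(nat_lit 0),(nat_lit 0),(nat_lit 0),(nat_lit 0),(nat_lit 0),(nat_lit 0)], [Int.negSucc (nat_lit 255112081),Int.negSucc (nat_lit 13703192),Int.ofNat (nat_lit 21279270),Int.ofNat (nat_lit 84310747),Int.negSucc (nat_lit 85525549),Int.negSucc (nat_lit 28886200),Int.ofNat (nat_lit 43978430),Int.negSucc (nat_lit 50828687),Int.ofNat (nat_lit 29020785),Int.ofNat (nat_lit 19603105),Int.ofNat (nat_lit 15148061),Int.negSucc (nat_lit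 16380050),Int.negSucc (nat_lit 1556784),Int.negSucc (nat_lit 29253046),Int.negSucc (nat_lit 17103964),Int.ofNat (nat_lit 13821643),Int.negSucc (nat_lit 173495283),Int.ofNat (nat_lit 8062195),Int.negSucc (nat_lit 8450050),Int.ofNat (nat_lit 6152304),Int.ofNat (nat_lit 628451042),Int.ofNat (nat_lit 3218833),Int.negSucc (nat_lit 14214865),Int.negSucc (nat_lit 7497053),Int.ofNat (nat_lit 27693277),Int.ofNat (nat_lit 727540),Int.ofNat (nat_lit 6617586),Int.ofNat (nat_lit 39198367),Int.negSucc (nat_lit 548523917),Int.negSucc (nat_lit 11059782),Int.ofNat (nat_lit 126084486)])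

/-- A row. -/
noncomputable def sp0_c1_1 : List ℕ × List ℤ :=
  ([(nat_lit 1),(nat_lit 0),(nat_lit 0),(nat_lit 0),(nat_lit 0),(nat_lit 0),(nat_lit 0),(nat_lit 0),(nat_lit 0),(nat_lit 0),(nat_lit 0),(nat_lit 0)], [Int.negSucc (nat_lit 54223298),Int.ofNat (nat_lit 27573884),Int.negSucc (nat_lit 52336875),Int.ofNat (nat_lit 18273991),Int.ofNat (nat_lit 60473905),Int.ofNat (nat_lit 25196241),Int.negSucc (nat_lit 1859583),Int.negSucc (nat_lit 4819113),Int.ofNat (nat_lit 5639547),Int.negSucc (nat_lit 31408033),Int.negSucc (nat_lit 7181851),Int.ofNat (nat_lit 6036346),Int.negSucc (nat_lit 4165378),Int.negSucc (nat_lit 10934383),Int.negSucc (nat_lit 2130938),Int.ofNat (nat_lit 34581),Int.negSucc (nat_lit 3971329),Int.ofNat (nat_lit 123284),Int.negSucc (nat_lit 117830),Int.negSucc (nat_lit 561633),Int.negSucc (nat_lit 14572762),Int.negSucc (nat_lit 1778610),Int.negSucc (nat_lit 1373235),Int.ofNat (nat_lit 1658352),Int.ofNat (nat_lit 524093),Int.negSucc (nat_lit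 1013688),Int.ofNat (nat_lit 10581),Int.negSucc (nat_lit 71132),Int.negSucc (nat_lit 672222),Int.negSucc (nat_lit 36790),Int.negSucc (nat_lit 47018),Int.ofNat (nat_lit 76825902)])

/-- A row. -/
noncomputable def sp0_c1_2 : List ℕ × List ℤ :=
  ([(nat_lit 1),(nat_lit 0),(nat_lit 0),(nat_lit 0),(nat_lit 0),(nat_lit 0),(nat_lit 0),(nat_lit 0),(nat_lit 1),(nat_lit 0),(nat_lit 0),(nat_lit 0)], [Int.negSucc (nat_lit 38061664),Int.negSucc (nat_lit 202260151),Int.negSucc (nat_lit 121274),Int.negSucc (nat_lit 21034699),Int.negSucc (nat_lit 27140469),Int.ofNat (nat_lit 27035886),Int.ofNat (nat_lit 24788171),Int.negSucc (nat_lit 3680797),Int.negSucc (nat_lit 16369159),Int.negSucc (nat_lit 3278092),Int.negSucc (nat_lit 24500098),Int.ofNat (nat_lit 14579508),Int.ofNat (nat_lit 12694882),Int.negSucc (nat_lit 2101710),Int.ofNat (nat_lit 3044842),Int.ofNat (nat_lit 1311280),Int.negSucc (nat_lit 1050457),Int.ofNat (nat_lit 593773),Int.ofNat (nat_lit 974064),Int.negSucc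 (nat_lit 2739983),Int.negSucc (nat_lit 3707757),Int.negSucc (nat_lit 460567),Int.ofNat (nat_lit 618219),Int.ofNat (nat_lit 5220996),Int.negSucc (nat_lit 1588448),Int.negSucc (nat_lit 1973168),Int.negSucc (nat_lit 1323664),Int.ofNat (nat_lit 48534),Int.ofNat (nat_lit 544402),Int.ofNat (nat_lit 985848),Int.negSucc (nat_lit 1030164),Int.ofNat (nat_lit 6706288),Int.ofNat (nat_lit 49757654)])

/-- A row. -/
noncomputable def sp0_c1_3 : List ℕ × List ℤ :=
  ([(nat_lit 1),(nat_lit 0),(nat_lit 0),(nat_lit 0),(nat_lit 0),(nat_lit 0),(nat_lit 1),(nat_lit 0),(nat_lit 0),(nat_lit 0),(nat_lit 0),(nat_lit 0)], [Int.ofNat (nat_lit 13151701),Int.negSucc (nat_lit 25057182),Int.negSucc (nat_lit 82237478),Int.negSucc (nat_lit 43821792),Int.ofNat (nat_lit 4304808),Int.negSucc (nat_lit 27132246),Int.negSucc (nat_lit 35175530),Int.ofNat (nat_lit 36088268),Int.negSucc (nat_lit 30130487),Int.negSucc (nat_lit 993453),Int.negSucc (nat_lit 32192281),Int.negSucc (nat_lit 7985709),Int.ofNat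 (nat_lit 5952061),Int.negSucc (nat_lit 27285031),Int.ofNat (nat_lit 1927814),Int.ofNat (nat_lit 11330415),Int.ofNat (nat_lit 539256),Int.ofNat (nat_lit 844657),Int.ofNat (nat_lit 6214111),Int.negSucc (nat_lit 2807137),Int.ofNat (nat_lit 2119297),Int.ofNat (nat_lit 11627534),Int.ofNat (nat_lit 2317498),Int.ofNat (nat_lit 1481964),Int.negSucc (nat_lit 1626034),Int.ofNat (nat_lit 2388548),Int.negSucc (nat_lit 1309236),Int.ofNat (nat_lit 2768135),Int.negSucc (nat_lit 594166),Int.negSucc (nat_lit 190043),Int.ofNat (nat_lit 491763),Int.negSucc (nat_lit 4496097),Int.ofNat (nat_lit 32766265),Int.ofNat (nat_lit 87811707)])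

/-- A row. -/
noncomputable def sp0_c1_4 : List ℕ × List ℤ :=
  ([(nat_lit 1),(nat_lit 0),(nat_lit 0),(nat_lit 0),(nat_lit 1),(nat_lit 0),(nat_lit 0),(nat_lit 0),(nat_lit 0),(nat_lit 0),(nat_lit 0),(nat_lit 0)], [Int.ofNat (nat_lit 25106762),Int.ofNat (nat_lit 1206262),Int.negSucc (nat_lit 96947193),Int.ofNat (nat_lit 64440729),Int.negSucc (nat_lit 140204883),Int.ofNat (nat_lit 78231102),Int.negSucc (nat_lit 75086514),Int.negSucc (nat_lit 6772711),Int.ofNat (nat_lit 6476375),Int.negSucc (nat_lit 17625888),Int.negSucc (nat_lit 15483077),Int.negSucc (nat_lit 34299160),Int.negSucc (nat_lit 12398139),Int.ofNat (nat_lit 18285646),Int.negSucc (nat_lit 14778141),Int.negSucc (nat_lit 9997682),Int.negSucc (nat_lit 3045739),Int.negSucc (nat_lit 1944492),Int.negSucc (nat_lit 1035445),Int.ofNat (nat_lit 242726),Int.ofNat (nat_lit 1861012),Int.ofNat (nat_lit 1833560),Int.ofNat (nat_lit 9919286),Int.negSucc (nat_lit 3992403),Int.negSucc (nat_lit 1253997),Int.ofNat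 (nat_lit 2757380),Int.ofNat (nat_lit 1255670),Int.ofNat (nat_lit 683042),Int.ofNat (nat_lit 1515620),Int.negSucc (nat_lit 3502494),Int.ofNat (nat_lit 1275332),Int.negSucc (nat_lit 6490356),Int.negSucc (nat_lit 30929314),Int.negSucc (nat_lit 3500939),Int.ofNat (nat_lit 107698907)])

/-- A row. -/
noncomputable def sp0_c1_5 : List ℕ × List ℤ :=
  ([(nat_lit 1),(nat_lit 0),(nat_lit 0),(nat_lit 1),(nat_lit 0),(nat_lit 1),(nat_lit 0),(nat_lit 0),(nat_lit 0),(nat_lit 0),(nat_lit 0),(nat_lit 0)], [Int.negSucc (nat_lit 486809),Int.ofNat (nat_lit 651044),Int.ofNat (nat_lit 7375887),Int.negSucc (nat_lit 1459979),Int.ofNat (nat_lit 2274224),Int.negSucc (nat_lit 12163181),Int.ofNat (nat_lit 645645),Int.negSucc (nat_lit 6557782),Int.negSucc (nat_lit 344463),Int.ofNat (nat_lit 1467562),Int.ofNat (nat_lit 2916970),Int.negSucc (nat_lit 2007597),Int.ofNat (nat_lit 1314370),Int.negSucc (nat_lit 1808805),Int.negSucc (nat_lit 153302),Int.ofNat (nat_lit 1010055),Int.ofNat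 (nat_lit 404757),Int.ofNat (nat_lit 350992),Int.ofNat (nat_lit 428512),Int.ofNat (nat_lit 400707),Int.negSucc (nat_lit 46104),Int.ofNat (nat_lit 297844),Int.ofNat (nat_lit 182335),Int.ofNat (nat_lit 63902),Int.negSucc (nat_lit 336307),Int.ofNat (nat_lit 690985),Int.ofNat (nat_lit 1065170),Int.ofNat (nat_lit 94344),Int.ofNat (nat_lit 78842),Int.ofNat (nat_lit 278108),Int.negSucc (nat_lit 200506),Int.negSucc (nat_lit 1348310),Int.negSucc (nat_lit 5549647),Int.ofNat (nat_lit 1463143),Int.negSucc (nat_lit 253426),Int.ofNat (nat_lit 31126355)])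

/-- A row. -/
noncomputable def sp0_c1_6 : List ℕ × List ℤ :=
  ([(nat_lit 1),(nat_lit 0),(nat_lit 0),(nat_lit 2),(nat_lit 0),(nat_lit 0),(nat_lit 0),(nat_lit 0),(nat_lit 0),(nat_lit 0),(nat_lit 0),(nat_lit 0)], [Int.ofNat (nat_lit 471193),Int.negSucc (nat_lit 333745),Int.negSucc (nat_lit 4032212),Int.ofNat (nat_lit 1967484),Int.negSucc (nat_lit 425951),Int.ofNat (nat_lit 7516057),Int.ofNat (nat_lit 590037),Int.ofNat (nat_lit 3398484),Int.ofNat (nat_lit 2150887),Int.negSucc (nat_lit 286284),Int.ofNat (nat_lit 622717),Int.ofNat (nat_lit 220862),Int.negSucc (nat_lit 2022338),Int.ofNat (nat_lit 538205),Int.negSucc (nat_lit 441181),Int.negSucc (nat_lit 1354771),Int.negSucc (nat_lit 199332),Int.negSucc (nat_lit 279172),Int.negSucc (nat_lit 808554),Int.ofNat (nat_lit 285069),Int.ofNat (nat_lit 96180),Int.negSucc (nat_lit 746827),Int.negSucc (nat_lit 227407),Int.ofNat (nat_lit 317681),Int.ofNat (nat_lit 396567),Int.negSucc (nat_lit 391583),Int.negSucc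 (nat_lit 427371),Int.negSucc (nat_lit 190162),Int.negSucc (nat_lit 67680),Int.negSucc (nat_lit 56816),Int.ofNat (nat_lit 183109),Int.ofNat (nat_lit 296107),Int.negSucc (nat_lit 1948871),Int.negSucc (nat_lit 4642900),Int.ofNat (nat_lit 140429),Int.negSucc (nat_lit 18103952),Int.ofNat (nat_lit 9673798)])

/-- A row. -/
noncomputable def sp0_c1_7 : List ℕ × List ℤ :=
  ([(nat_lit 1),(nat_lit 0),(nat_lit 1),(nat_lit 0),(nat_lit 0),(nat_lit 0),(nat_lit 0),(nat_lit 0),(nat_lit 0),(nat_lit 0),(nat_lit 0),(nat_lit 0)], [Int.negSucc (nat_lit 57839709),Int.negSucc (nat_lit 1000495),Int.negSucc (nat_lit 42427318),Int.negSucc (nat_lit 14051344),Int.ofNat (nat_lit 71137475),Int.negSucc (nat_lit 9122267),Int.ofNat (nat_lit 46345697),Int.negSucc (nat_lit 18932971),Int.ofNat (nat_lit 25795456),Int.negSucc (nat_lit 97131544),Int.ofNat (nat_lit 1790293),Int.ofNat (nat_lit 40629352),Int.negSucc (nat_lit 29041117),Int.negSucc (nat_lit 21933542),Int.negSucc (nat_lit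 463183),Int.ofNat (nat_lit 12022235),Int.ofNat (nat_lit 66608),Int.ofNat (nat_lit 229554),Int.ofNat (nat_lit 1135000),Int.ofNat (nat_lit 1629517),Int.negSucc (nat_lit 3948330),Int.negSucc (nat_lit 2684531),Int.negSucc (nat_lit 3488383),Int.ofNat (nat_lit 1982986),Int.ofNat (nat_lit 5104024),Int.negSucc (nat_lit 1180733),Int.negSucc (nat_lit 422281),Int.ofNat (nat_lit 611982),Int.ofNat (nat_lit 576407),Int.ofNat (nat_lit 727845),Int.negSucc (nat_lit 1677371),Int.ofNat (nat_lit 50158554),Int.ofNat (nat_lit 7410640),Int.ofNat (nat_lit 839856),Int.negSucc (nat_lit 67982074),Int.ofNat (nat_lit 3046690),Int.negSucc (nat_lit 6172413),Int.ofNat (nat_lit 125503039)])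

/-- A row. -/
noncomputable def sp0_c1_8 : List ℕ × List ℤ :=
  ([(nat_lit 1),(nat_lit 0),(nat_lit 1),(nat_lit 0),(nat_lit 1),(nat_lit 0),(nat_lit 0),(nat_lit 0),(nat_lit 0),(nat_lit 0),(nat_lit 0),(nat_lit 0)], [Int.ofNat (nat_lit 1286679),Int.negSucc (nat_lit 2754410),Int.ofNat (nat_lit 298181),Int.negSucc (nat_lit 5432238),Int.negSucc (nat_lit 103587),Int.ofNat (nat_lit 1133382),Int.ofNat (nat_lit 6466554),Int.negSucc (nat_lit 3413),Int.ofNat (nat_lit 681973),Int.negSucc (nat_lit 1809274),Int.negSucc (nat_lit 3938200),Int.negSucc (nat_lit 3843315),Int.negSucc (nat_lit 4971818),Int.ofNat (nat_lit 1410069),Int.negSucc (nat_lit 533968),Int.negSucc (nat_lit 1975313),Int.ofNat (nat_lit 469614),Int.ofNat (nat_lit 452755),Int.ofNat (nat_lit 214140),Int.negSucc (nat_lit 1531724),Int.ofNat (nat_lit 105256),Int.negSucc (nat_lit 421640),Int.ofNat (nat_lit 106479),Int.ofNat (nat_lit 1081117),Int.ofNat (nat_lit 819675),Int.ofNat (nat_lit 821113),Int.negSucc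 (nat_lit 331217),Int.ofNat (nat_lit 639262),Int.ofNat (nat_lit 311670),Int.ofNat (nat_lit 596866),Int.ofNat (nat_lit 215173),Int.negSucc (nat_lit 717848),Int.ofNat (nat_lit 16285721),Int.ofNat (nat_lit 1912543),Int.negSucc (nat_lit 6041337),Int.negSucc (nat_lit 12964302),Int.ofNat (nat_lit 2692589),Int.negSucc (nat_lit 8532570),Int.ofNat (nat_lit 31949422)])

/-- A row. -/
noncomputable def sp0_c1_9 : List ℕ × List ℤ :=
  ([(nat_lit 1),(nat_lit 0),(nat_lit 2),(nat_lit 0),(nat_lit 0),(nat_lit 0),(nat_lit 0),(nat_lit 0),(nat_lit 0),(nat_lit 0),(nat_lit 0),(nat_lit 0)], [Int.negSucc (nat_lit 508220),Int.negSucc (nat_lit 3391977),Int.negSucc (nat_lit 172079),Int.ofNat (nat_lit 977644),Int.ofNat (nat_lit 438063),Int.negSucc (nat_lit 1973058),Int.negSucc (nat_lit 1983586),Int.negSucc (nat_lit 881924),Int.negSucc (nat_lit 2789126),Int.ofNat (nat_lit 1067647),Int.ofNat (nat_lit 1245207),Int.ofNat (nat_lit 1015666),Int.ofNat (nat_lit 2762905),Int.negSucc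 (nat_lit 3956523),Int.ofNat (nat_lit 1222589),Int.ofNat (nat_lit 2512702),Int.negSucc (nat_lit 120951),Int.ofNat (nat_lit 335091),Int.ofNat (nat_lit 485114),Int.ofNat (nat_lit 592684),Int.ofNat (nat_lit 438787),Int.negSucc (nat_lit 278419),Int.negSucc (nat_lit 9547),Int.negSucc (nat_lit 230086),Int.negSucc (nat_lit 833929),Int.negSucc (nat_lit 227055),Int.ofNat (nat_lit 475192),Int.negSucc (nat_lit 231561),Int.negSucc (nat_lit 123645),Int.negSucc (nat_lit 431015),Int.negSucc (nat_lit 705284),Int.ofNat (nat_lit 2311631),Int.ofNat (nat_lit 2612015),Int.ofNat (nat_lit 4740027),Int.negSucc (nat_lit 4496420),Int.ofNat (nat_lit 11441014),Int.negSucc (nat_lit 9212527),Int.ofNat (nat_lit 10004953),Int.negSucc (nat_lit 22454836),Int.ofNat (nat_lit 22876200)])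

/-- A row. -/
noncomputable def sp0_c1_10 : List ℕ × List ℤ :=
  ([(nat_lit 1),(nat_lit 1),(nat_lit 0),(nat_lit 0),(nat_lit 0),(nat_lit 0),(nat_lit 0),(nat_lit 1),(nat_lit 0),(nat_lit 0),(nat_lit 0),(nat_lit 0)], [Int.negSucc (nat_lit 10682022),Int.negSucc (nat_lit 8517887),Int.ofNat (nat_lit 11725737),Int.negSucc (nat_lit 3529433),Int.negSucc (nat_lit 3170019),Int.ofNat (nat_lit 11754455),Int.ofNat (nat_lit 4167978),Int.ofNat (nat_lit 6145667),Int.negSucc (nat_lit 23593429),Int.ofNat (nat_lit 3983892),Int.negSucc (nat_lit 7375338),Int.ofNat (nat_lit 203719),Int.negSucc (nat_lit 7038772),Int.ofNat (nat_lit 26690139),Int.negSucc (nat_lit 99967781),Int.negSucc (nat_lit 6106835),Int.ofNat (nat_lit 9479376),Int.negSucc (nat_lit 31903100),Int.negSucc (nat_lit 45733979),Int.negSucc (nat_lit 32849913),Int.negSucc (nat_lit 3322846),Int.negSucc (nat_lit 4442910),Int.negSucc (nat_lit 5592826),Int.negSucc (nat_lit 5227646),Int.negSucc (nat_lit 11964233),Int.negSucc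 (nat_lit 5289680),Int.ofNat (nat_lit 2319217),Int.negSucc (nat_lit 8994192),Int.ofNat (nat_lit 408456),Int.ofNat (nat_lit 6323104),Int.ofNat (nat_lit 860888),Int.negSucc (nat_lit 8610068),Int.ofNat (nat_lit 36608885),Int.negSucc (nat_lit 11147781),Int.negSucc (nat_lit 34594817),Int.negSucc (nat_lit 51842015),Int.ofNat (nat_lit 11194027),Int.negSucc (nat_lit 8843277),Int.negSucc (nat_lit 16325647),Int.ofNat (nat_lit 3661713),Int.ofNat (nat_lit 284168820)])

/-- A row. -/
noncomputable def sp0_c1_11 : List ℕ × List ℤ :=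
  ([(nat_lit 1),(nat_lit 1),(nat_lit 0),(nat_lit 0),(nat_lit 0),(nat_lit 1),(nat_lit 0),(nat_lit 0),(nat_lit 0),(nat_lit 0),(nat_lit 0),(nat_lit 0)], [Int.ofNat (nat_lit 11105043),Int.ofNat (nat_lit 5689127),Int.negSucc (nat_lit 28278987),Int.ofNat (nat_lit 6855699),Int.ofNat (nat_lit 5902350),Int.ofNat (nat_lit 23815102),Int.negSucc (nat_lit 5177754),Int.ofNat (nat_lit 22429852),Int.ofNat (nat_lit 6079968),Int.ofNat (nat_lit 3429873),Int.negSucc (nat_lit 5079061),Int.negSucc (nat_lit 2564193),Int.negSucc (nat_lit 1710561),Int.negSucc (nat_lit 19939607),Int.negSucc (nat_lit 15084870),Int.negSucc (nat_lit 37917590),Int.negSucc (nat_lit 5966339),Int.ofNat (nat_lit 8746999),Int.negSucc (nat_lit 33270405),Int.ofNat (nat_lit 392965),Int.negSucc (nat_lit 1725748),Int.ofNat (nat_lit 4888400),Int.negSucc (nat_lit 616491),Int.ofNat (nat_lit 500168),Int.ofNat (nat_lit 6805245),Int.ofNat (nat_lit 869240),Int.negSucc (nat_lit 3674164),Int.ofNat (nat_lit 1063025),Int.negSucc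 (nat_lit 1205219),Int.negSucc (nat_lit 158798),Int.ofNat (nat_lit 718593),Int.ofNat (nat_lit 6411102),Int.ofNat (nat_lit 27376715),Int.ofNat (nat_lit 22752642),Int.negSucc (nat_lit 5328904),Int.negSucc (nat_lit 124226218),Int.ofNat (nat_lit 22303493),Int.ofNat (nat_lit 616659),Int.negSucc (nat_lit 38998),Int.negSucc (nat_lit 6950788),Int.negSucc (nat_lit 36257817),Int.ofNat (nat_lit 175997571)])

/-- A row. -/
noncomputable def sp0_c1_12 : List ℕ × List ℤ :=
  ([(nat_lit 1),(nat_lit 1),(nat_lit 0),(nat_lit 1),(nat_lit 0),(nat_lit 0),(nat_lit 0),(nat_lit 0),(nat_lit 0),(nat_lit 0),(nat_lit 0),(nat_lit 0)], [Int.ofNat (nat_lit 32633367),Int.ofNat (nat_lit 973364),Int.ofNat (nat_lit 80382014),Int.negSucc (nat_lit 30279668),Int.ofNat (nat_lit 52440021),Int.negSucc (nat_lit 101820147),Int.ofNat (nat_lit 53151379),Int.negSucc (nat_lit 27444754),Int.ofNat (nat_lit 8765452),Int.ofNat (nat_lit 12383556),Int.ofNat (nat_lit 57742707),Int.negSucc (nat_lit 7789161),Int.ofNat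 (nat_lit 32675744),Int.ofNat (nat_lit 25689649),Int.ofNat (nat_lit 21561167),Int.negSucc (nat_lit 17605549),Int.negSucc (nat_lit 298442292),Int.ofNat (nat_lit 61746546),Int.ofNat (nat_lit 16632704),Int.negSucc (nat_lit 25361495),Int.negSucc (nat_lit 44272333),Int.ofNat (nat_lit 6008228),Int.negSucc (nat_lit 10876028),Int.ofNat (nat_lit 4443156),Int.ofNat (nat_lit 16997066),Int.negSucc (nat_lit 2978659),Int.ofNat (nat_lit 5492255),Int.ofNat (nat_lit 15845553),Int.ofNat (nat_lit 21441536),Int.ofNat (nat_lit 7004713),Int.negSucc (nat_lit 2291036),Int.negSucc (nat_lit 46114838),Int.negSucc (nat_lit 16775096),Int.ofNat (nat_lit 28617749),Int.negSucc (nat_lit 80849988),Int.ofNat (nat_lit 137173531),Int.negSucc (nat_lit 35250407),Int.negSucc (nat_lit 29818736),Int.negSucc (nat_lit 3877003),Int.ofNat (nat_lit 43221911),Int.negSucc (nat_lit 14171636),Int.negSucc (nat_lit 63578926),Int.ofNat (nat_lit 340713693)])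

/-- A row. -/
noncomputable def sp0_c1_13 : List ℕ × List ℤ :=
  ([(nat_lit 1),(nat_lit 1),(nat_lit 1),(nat_lit 1),(nat_lit 0),(nat_lit 0),(nat_lit 0),(nat_lit 0),(nat_lit 0),(nat_lit 0),(nat_lit 0),(nat_lit 0)], [Int.negSucc (nat_lit 2797328),Int.negSucc (nat_lit 2456254),Int.ofNat (nat_lit 2514262),Int.negSucc (nat_lit 3394927),Int.ofNat (nat_lit 2506693),Int.negSucc (nat_lit 2801942),Int.negSucc (nat_lit 3627264),Int.negSucc (nat_lit 3226165),Int.negSucc (nat_lit 3168263),Int.ofNat (nat_lit 836105),Int.ofNat (nat_lit 2958004),Int.negSucc (nat_lit 863222),Int.negSucc (nat_lit 1114108),Int.ofNat (nat_lit 13936999),Int.negSucc (nat_lit 12230743),Int.negSucc (nat_lit 32082),Int.negSucc (nat_lit 542831),Int.negSucc (nat_lit 1601588),Int.negSucc (nat_lit 2655695),Int.ofNat (nat_lit 4282784),Int.negSucc (nat_lit 251727),Int.negSucc (nat_lit 946579),Int.ofNat (nat_lit 2034512),Int.ofNat (nat_lit 1034124),Int.negSucc (nat_lit 823358),Int.ofNat (nat_lit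 727113),Int.ofNat (nat_lit 359472),Int.negSucc (nat_lit 761410),Int.negSucc (nat_lit 254180),Int.ofNat (nat_lit 492799),Int.ofNat (nat_lit 250056),Int.negSucc (nat_lit 1422306),Int.negSucc (nat_lit 895741),Int.ofNat (nat_lit 373364),Int.negSucc (nat_lit 2785160),Int.ofNat (nat_lit 1036716),Int.negSucc (nat_lit 419773),Int.ofNat (nat_lit 202343),Int.negSucc (nat_lit 3502151),Int.ofNat (nat_lit 90967),Int.ofNat (nat_lit 15306543),Int.negSucc (nat_lit 3187775),Int.ofNat (nat_lit 3680330),Int.ofNat (nat_lit 56272186)])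

/-- A row. -/
noncomputable def sp0_c1_14 : List ℕ × List ℤ :=
  ([(nat_lit 1),(nat_lit 2),(nat_lit 0),(nat_lit 0),(nat_lit 0),(nat_lit 0),(nat_lit 0),(nat_lit 0),(nat_lit 0),(nat_lit 0),(nat_lit 0),(nat_lit 0)], [Int.ofNat (nat_lit 79244167),Int.negSucc (nat_lit 119529486),Int.ofNat (nat_lit 126388432),Int.ofNat (nat_lit 102455012),Int.negSucc (nat_lit 175324403),Int.ofNat (nat_lit 25966436),Int.negSucc (nat_lit 92243546),Int.ofNat (nat_lit 88705411),Int.negSucc (nat_lit 30934226),Int.ofNat (nat_lit 92433411),Int.negSucc (nat_lit 77890775),Int.ofNat (nat_lit 30065295),Int.negSucc (nat_lit 31992707),Int.negSucc (nat_lit 10577691),Int.ofNat (nat_lit 36142925),Int.negSucc (nat_lit 83084608),Int.ofNat (nat_lit 299504691),Int.negSucc (nat_lit 78515586),Int.ofNat (nat_lit 10070432),Int.ofNat (nat_lit 26025619),Int.negSucc (nat_lit 143528806),Int.negSucc (nat_lit 38949200),Int.ofNat (nat_lit 94741861),Int.negSucc (nat_lit 7205194),Int.negSucc (nat_lit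 282797851),Int.ofNat (nat_lit 2818690),Int.negSucc (nat_lit 4686440),Int.negSucc (nat_lit 12378214),Int.negSucc (nat_lit 94077637),Int.negSucc (nat_lit 4734550),Int.ofNat (nat_lit 15980728),Int.negSucc (nat_lit 353647235),Int.ofNat (nat_lit 29701477),Int.negSucc (nat_lit 11049226),Int.ofNat (nat_lit 65306306),Int.negSucc (nat_lit 135848593),Int.ofNat (nat_lit 20578128),Int.ofNat (nat_lit 47110986),Int.ofNat (nat_lit 10657027),Int.negSucc (nat_lit 33096375),Int.ofNat (nat_lit 21847382),Int.ofNat (nat_lit 77857678),Int.negSucc (nat_lit 382740862),Int.ofNat (nat_lit 1044201),Int.ofNat (nat_lit 689418908)])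

/-- A row. -/
noncomputable def sp0_c1_15 : List ℕ × List ℤ :=
  ([(nat_lit 1),(nat_lit 2),(nat_lit 0),(nat_lit 0),(nat_lit 1),(nat_lit 0),(nat_lit 0),(nat_lit 0),(nat_lit 0),(nat_lit 0),(nat_lit 0),(nat_lit 0)], [Int.negSucc (nat_lit 17741969),Int.negSucc (nat_lit 3491830),Int.negSucc (nat_lit 350447),Int.negSucc (nat_lit 283758),Int.ofNat (nat_lit 136267389),Int.ofNat (nat_lit 36622933),Int.ofNat (nat_lit 97244335),Int.negSucc (nat_lit 5035614),Int.negSucc (nat_lit 6407088),Int.ofNat (nat_lit 13117232),Int.ofNat (nat_lit 25746809),Int.ofNat (nat_lit 51661243),Int.ofNat (nat_lit 19484683),Int.ofNat (nat_lit 3315792),Int.ofNat (nat_lit 25037754),Int.ofNat (nat_lit 13749684),Int.ofNat (nat_lit 3270020),Int.ofNat (nat_lit 17901219),Int.ofNat (nat_lit 13222390),Int.ofNat (nat_lit 29193905),Int.negSucc (nat_lit 2497140),Int.negSucc (nat_lit 7388433),Int.negSucc (nat_lit 128043274),Int.ofNat (nat_lit 19121373),Int.negSucc (nat_lit 4287640),Int.ofNat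 (nat_lit 8509034),Int.negSucc (nat_lit 11841254),Int.ofNat (nat_lit 2902647),Int.ofNat (nat_lit 5860715),Int.negSucc (nat_lit 7423606),Int.ofNat (nat_lit 106508),Int.ofNat (nat_lit 8150747),Int.ofNat (nat_lit 5753648),Int.negSucc (nat_lit 12495965),Int.negSucc (nat_lit 110500640),Int.ofNat (nat_lit 24769548),Int.negSucc (nat_lit 9090540),Int.negSucc (nat_lit 4190913),Int.negSucc (nat_lit 8162971),Int.negSucc (nat_lit 33708627),Int.negSucc (nat_lit 64587445),Int.negSucc (nat_lit 40818400),Int.negSucc (nat_lit 22459340),Int.ofNat (nat_lit 14764276),Int.negSucc (nat_lit 4912878),Int.ofNat (nat_lit 318470219)])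

/-- A row. -/
noncomputable def sp0_c1_16 : List ℕ × List ℤ :=
  ([(nat_lit 1),(nat_lit 2),(nat_lit 1),(nat_lit 0),(nat_lit 0),(nat_lit 0),(nat_lit 0),(nat_lit 0),(nat_lit 0),(nat_lit 0),(nat_lit 0),(nat_lit 0)], [Int.ofNat (nat_lit 74329705),Int.ofNat (nat_lit 37264172),Int.ofNat (nat_lit 69501707),Int.negSucc (nat_lit 28585676),Int.negSucc (nat_lit 91781480),Int.negSucc (nat_lit 430334),Int.negSucc (nat_lit 73235979),Int.ofNat (nat_lit 10907814),Int.negSucc (nat_lit 33510685),Int.ofNat (nat_lit 94373185),Int.negSucc (nat_lit 44328764),Int.negSucc (nat_lit 4644035),Int.ofNat (nat_lit 42809572),Int.ofNat (nat_lit 2504904),Int.negSucc (nat_lit 2617549),Int.negSucc (nat_lit 13567225),Int.ofNat (nat_lit 2172556),Int.negSucc (nat_lit 21977746),Int.ofNat (nat_lit 4004301),Int.negSucc (nat_lit 4827590),Int.ofNat (nat_lit 2462580),Int.negSucc (nat_lit 11191364),Int.ofNat (nat_lit 65185290),Int.ofNat (nat_lit 24878253),Int.negSucc (nat_lit 28123242),Int.negSucc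 (nat_lit 125101391),Int.ofNat (nat_lit 10987961),Int.ofNat (nat_lit 10842742),Int.negSucc (nat_lit 5509384),Int.ofNat (nat_lit 11108044),Int.ofNat (nat_lit 1685804),Int.negSucc (nat_lit 54701921),Int.negSucc (nat_lit 1009979),Int.ofNat (nat_lit 19881463),Int.ofNat (nat_lit 80942360),Int.negSucc (nat_lit 20555682),Int.negSucc (nat_lit 3658747),Int.negSucc (nat_lit 132259950),Int.negSucc (nat_lit 38824414),Int.ofNat (nat_lit 48061685),Int.negSucc (nat_lit 27110864),Int.ofNat (nat_lit 25063826),Int.negSucc (nat_lit 1415548),Int.negSucc (nat_lit 14649982),Int.ofNat (nat_lit 5710569),Int.negSucc (nat_lit 91675221),Int.ofNat (nat_lit 280218163)])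

/-- A row. -/
noncomputable def sp0_c1_17 : List ℕ × List ℤ :=
  ([(nat_lit 1),(nat_lit 3),(nat_lit 0),(nat_lit 1),(nat_lit 0),(nat_lit 0),(nat_lit 0),(nat_lit 0),(nat_lit 0),(nat_lit 0),(nat_lit 0),(nat_lit 0)], [Int.negSucc (nat_lit 43057993),Int.negSucc (nat_lit 27125644),Int.negSucc (nat_lit 52764483),Int.ofNat (nat_lit 29055930),Int.negSucc (nat_lit 62855873),Int.ofNat (nat_lit 82530526),Int.negSucc (nat_lit 40254633),Int.negSucc (nat_lit 464784),Int.negSucc (nat_lit 17985308),Int.negSucc (nat_lit 9763709),Int.negSucc (nat_lit 55856658),Int.ofNat (nat_lit 12878673),Int.negSucc (nat_lit 27891495),Int.negSucc (nat_lit 27834895),Int.negSucc (nat_lit 42784360),Int.ofNat (nat_lit 38250908),Int.ofNat (nat_lit 307025163),Int.ofNat (nat_lit 65433395),Int.negSucc (nat_lit 2051620),Int.negSucc (nat_lit 24333239),Int.ofNat (nat_lit 49949993),Int.ofNat (nat_lit 11483209),Int.ofNat (nat_lit 58581171),Int.negSucc (nat_lit 380487),Int.negSucc (nat_lit 21396853),Int.ofNat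 (nat_lit 7749347),Int.negSucc (nat_lit 4610905),Int.negSucc (nat_lit 111448414),Int.negSucc (nat_lit 33784990),Int.ofNat (nat_lit 8193262),Int.ofNat (nat_lit 2217915),Int.ofNat (nat_lit 50161337),Int.ofNat (nat_lit 36731074),Int.negSucc (nat_lit 9102482),Int.ofNat (nat_lit 96044595),Int.negSucc (nat_lit 17065743),Int.ofNat (nat_lit 1435097),Int.ofNat (nat_lit 36933803),Int.ofNat (nat_lit 28688635),Int.negSucc (nat_lit 31966290),Int.ofNat (nat_lit 14496622),Int.ofNat (nat_lit 9707872),Int.negSucc (nat_lit 388556351),Int.ofNat (nat_lit 5120593),Int.negSucc (nat_lit 16282842),Int.negSucc (nat_lit 73768848),Int.negSucc (nat_lit 271741),Int.ofNat (nat_lit 314417142)])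

/-- A row. -/
noncomputable def sp0_c1_18 : List ℕ × List ℤ :=
  ([(nat_lit 1),(nat_lit 4),(nat_lit 0),(nat_lit 0),(nat_lit 0),(nat_lit 0),(nat_lit 0),(nat_lit 0),(nat_lit 0),(nat_lit 0),(nat_lit 0),(nat_lit 0)], [Int.negSucc (nat_lit 26629974),Int.ofNat (nat_lit 113256229),Int.negSucc (nat_lit 95207252),Int.negSucc (nat_lit 111435189),Int.ofNat (nat_lit 115788924),Int.negSucc (nat_lit 37486305),Int.ofNat (nat_lit 80779553),Int.negSucc (nat_lit 46748609),Int.ofNat (nat_lit 32793945),Int.negSucc (nat_lit 67582232),Int.ofNat (nat_lit 74695841),Int.negSucc (nat_lit 50241863),Int.ofNat (nat_lit 35645839),Int.ofNat (nat_lit 3756481),Int.negSucc (nat_lit 31622787),Int.ofNat (nat_lit 68775816),Int.negSucc (nat_lit 317469971),Int.negSucc (nat_lit 16430745),Int.negSucc (nat_lit 33441264),Int.ofNat (nat_lit 1516986),Int.ofNat (nat_lit 180757164),Int.ofNat (nat_lit 3898714),Int.negSucc (nat_lit 65475925),Int.negSucc (nat_lit 122465),Int.ofNat (nat_lit 324169864),Int.negSucc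 (nat_lit 14079930),Int.negSucc (nat_lit 30855510),Int.ofNat (nat_lit 105733265),Int.ofNat (nat_lit 83919136),Int.negSucc (nat_lit 112285883),Int.negSucc (nat_lit 46556365),Int.ofNat (nat_lit 300130815),Int.negSucc (nat_lit 34983249),Int.negSucc (nat_lit 1268586),Int.negSucc (nat_lit 77208844),Int.ofNat (nat_lit 51325605),Int.negSucc (nat_lit 1806458),Int.negSucc (nat_lit 57983024),Int.negSucc (nat_lit 23392364),Int.ofNat (nat_lit 13910861),Int.negSucc (nat_lit 5469457),Int.negSucc (nat_lit 14390259),Int.ofNat (nat_lit 435588983),Int.negSucc (nat_lit 10774229),Int.negSucc (nat_lit 790908927),Int.ofNat (nat_lit 64543441),Int.negSucc (nat_lit 24451873),Int.negSucc (nat_lit 210870395),Int.ofNat (nat_lit 397963584)])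

/-- A row. -/
noncomputable def sp0_c1_19 : List ℕ × List ℤ :=
  ([(nat_lit 2),(nat_lit 0),(nat_lit 0),(nat_lit 0),(nat_lit 0),(nat_lit 0),(nat_lit 0),(nat_lit 0),(nat_lit 0),(nat_lit 0),(nat_lit 0),(nat_lit 0)], [Int.negSucc (nat_lit 34772699),Int.negSucc (nat_lit 20542811),Int.ofNat (nat_lit 42014575),Int.ofNat (nat_lit 5779551),Int.negSucc (nat_lit 120443562),Int.ofNat (nat_lit 15583172),Int.negSucc (nat_lit 6792862),Int.ofNat (nat_lit 13355395),Int.negSucc (nat_lit 17104364),Int.ofNat (nat_lit 64229061),Int.negSucc (nat_lit 8596394),Int.negSucc (nat_lit 25275316),Int.ofNat (nat_lit 4483682),Int.ofNat (nat_lit 6338562),Int.ofNat (nat_lit 1063927),Int.negSucc (nat_lit 18317960),Int.ofNat (nat_lit 2021533),Int.negSucc (nat_lit 3363365),Int.negSucc (nat_lit 13508),Int.negSucc (nat_lit 416419),Int.negSucc (nat_lit 22858348),Int.ofNat (nat_lit 2171854),Int.ofNat (nat_lit 6585714),Int.negSucc (nat_lit 1430634),Int.negSucc (nat_lit 10775973),Int.ofNat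 (nat_lit 2798114),Int.negSucc (nat_lit 470785),Int.ofNat (nat_lit 436146),Int.ofNat (nat_lit 6720528),Int.ofNat (nat_lit 54931),Int.ofNat (nat_lit 425519),Int.negSucc (nat_lit 158186448),Int.ofNat (nat_lit 17064934),Int.negSucc (nat_lit 29942592),Int.ofNat (nat_lit 58522780),Int.ofNat (nat_lit 1519823),Int.ofNat (nat_lit 2951180),Int.negSucc (nat_lit 79732216),Int.negSucc (nat_lit 1532252),Int.negSucc (nat_lit 20457523),Int.negSucc (nat_lit 2800951),Int.negSucc (nat_lit 5283745),Int.negSucc (nat_lit 25038067),Int.ofNat (nat_lit 428179),Int.negSucc (nat_lit 1179369),Int.negSucc (nat_lit 259293),Int.negSucc (nat_lit 350192),Int.ofNat (nat_lit 3335081),Int.ofNat (nat_lit 1250596),Int.ofNat (nat_lit 124542689)])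

/-- A row. -/
noncomputable def sp0_c1_20 : List ℕ × List ℤ :=
  ([(nat_lit 2),(nat_lit 0),(nat_lit 0),(nat_lit 0),(nat_lit 0),(nat_lit 0),(nat_lit 1),(nat_lit 0),(nat_lit 0),(nat_lit 0),(nat_lit 0),(nat_lit 0)], [Int.negSucc (nat_lit 474955),Int.negSucc (nat_lit 12615303),Int.negSucc (nat_lit 13659739),Int.ofNat (nat_lit 4370102),Int.ofNat (nat_lit 11211276),Int.negSucc (nat_lit 11483193),Int.negSucc (nat_lit 15318681),Int.ofNat (nat_lit 5398361),Int.ofNat (nat_lit 13300903),Int.ofNat (nat_lit 8979992),Int.ofNat (nat_lit 8985949),Int.negSucc (nat_lit 3781783),Int.ofNat (nat_lit 6071594),Int.ofNat (nat_lit 2535587),Int.ofNat (nat_lit 474074),Int.negSucc (nat_lit 6863619),Int.ofNat (nat_lit 888166),Int.ofNat (nat_lit 1165265),Int.negSucc (nat_lit 3259451),Int.ofNat (nat_lit 5786968),Int.negSucc (nat_lit 2534805),Int.negSucc (nat_lit 25525113),Int.negSucc (nat_lit 4231354),Int.ofNat (nat_lit 923815),Int.ofNat (nat_lit 90360),Int.negSucc (nat_lit 1434926),Int.ofNat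 (nat_lit 1593093),Int.negSucc (nat_lit 1908538),Int.ofNat (nat_lit 378746),Int.ofNat (nat_lit 1703389),Int.negSucc (nat_lit 590319),Int.ofNat (nat_lit 4086279),Int.negSucc (nat_lit 43720313),Int.negSucc (nat_lit 118198424),Int.negSucc (nat_lit 1807897),Int.ofNat (nat_lit 51350049),Int.negSucc (nat_lit 11773732),Int.ofNat (nat_lit 3036101),Int.negSucc (nat_lit 23743751),Int.negSucc (nat_lit 8385501),Int.ofNat (nat_lit 597731),Int.ofNat (nat_lit 552239),Int.ofNat (nat_lit 4636771),Int.ofNat (nat_lit 496498),Int.ofNat (nat_lit 1047830),Int.negSucc (nat_lit 1778973),Int.ofNat (nat_lit 7995),Int.negSucc (nat_lit 2335889),Int.negSucc (nat_lit 859775),Int.negSucc (nat_lit 5749515),Int.ofNat (nat_lit 66701967)])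

/-- A row. -/
noncomputable def sp0_c1_21 : List ℕ × List ℤ :=
  ([(nat_lit 2),(nat_lit 0),(nat_lit 0),(nat_lit 0),(nat_lit 1),(nat_lit 0),(nat_lit 0),(nat_lit 0),(nat_lit 0),(nat_lit 0),(nat_lit 0),(nat_lit 0)], [Int.ofNat (nat_lit 38113940),Int.negSucc (nat_lit 707344),Int.ofNat (nat_lit 12670267),Int.negSucc (nat_lit 8735045),Int.negSucc (nat_lit 102115093),Int.negSucc (nat_lit 19074084),Int.negSucc (nat_lit 25166769),Int.ofNat (nat_lit 7695503),Int.ofNat (nat_lit 4251688),Int.ofNat (nat_lit 11848690),Int.ofNat (nat_lit 15510294),Int.negSucc (nat_lit 24346299),Int.negSucc (nat_lit 3034349),Int.ofNat (nat_lit 11968512),Int.ofNat (nat_lit 679517),Int.negSucc (nat_lit 70270),Int.ofNat (nat_lit 1292904),Int.ofNat (nat_lit 258118),Int.negSucc (nat_lit 2950686),Int.ofNat (nat_lit 2634064),Int.ofNat (nat_lit 3536415),Int.negSucc (nat_lit 670225),Int.negSucc (nat_lit 34103487),Int.negSucc (nat_lit 2345882),Int.ofNat (nat_lit 1091101),Int.ofNat (nat_lit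 3313083),Int.negSucc (nat_lit 2235036),Int.ofNat (nat_lit 366100),Int.ofNat (nat_lit 1128101),Int.negSucc (nat_lit 691766),Int.ofNat (nat_lit 1123648),Int.ofNat (nat_lit 4668914),Int.negSucc (nat_lit 12433218),Int.negSucc (nat_lit 13625549),Int.negSucc (nat_lit 43107575),Int.negSucc (nat_lit 15210569),Int.ofNat (nat_lit 11152046),Int.ofNat (nat_lit 369663),Int.negSucc (nat_lit 21015427),Int.ofNat (nat_lit 26328179),Int.negSucc (nat_lit 13075784),Int.ofNat (nat_lit 2119286),Int.negSucc (nat_lit 6267428),Int.ofNat (nat_lit 1060383),Int.ofNat (nat_lit 526392),Int.ofNat (nat_lit 9574775),Int.negSucc (nat_lit 1315408),Int.ofNat (nat_lit 548060),Int.ofNat (nat_lit 508282),Int.negSucc (nat_lit 9633150),Int.negSucc (nat_lit 975564),Int.ofNat (nat_lit 107583176)])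

/-- A row. -/
noncomputable def sp0_c1_22 : List ℕ × List ℤ :=
  ([(nat_lit 2),(nat_lit 0),(nat_lit 0),(nat_lit 2),(nat_lit 0),(nat_lit 0),(nat_lit 0),(nat_lit 0),(nat_lit 0),(nat_lit 0),(nat_lit 0),(nat_lit 0)], [Int.negSucc (nat_lit 476481),Int.ofNat (nat_lit 2618717),Int.ofNat (nat_lit 8807166),Int.negSucc (nat_lit 1326795),Int.ofNat (nat_lit 1736909),Int.negSucc (nat_lit 1690697),Int.ofNat (nat_lit 3401978),Int.negSucc (nat_lit 189217),Int.negSucc (nat_lit 15829456),Int.ofNat (nat_lit 397389),Int.ofNat (nat_lit 4338556),Int.negSucc (nat_lit 876555),Int.negSucc (nat_lit 1417079),Int.negSucc (nat_lit 1600155),Int.negSucc (nat_lit 324328),Int.negSucc (nat_lit 215020),Int.negSucc (nat_lit 33335),Int.ofNat (nat_lit 232021),Int.negSucc (nat_lit 279694),Int.ofNat (nat_lit 280309),Int.ofNat (nat_lit 367916),Int.ofNat (nat_lit 340697),Int.negSucc (nat_lit 120270),Int.negSucc (nat_lit 4372075),Int.ofNat (nat_lit 333641),Int.ofNat (nat_lit 198486),Int.ofNat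 (nat_lit 369254),Int.negSucc (nat_lit 116147),Int.negSucc (nat_lit 202785),Int.ofNat (nat_lit 34038),Int.negSucc (nat_lit 17898),Int.negSucc (nat_lit 500686),Int.negSucc (nat_lit 5051281),Int.ofNat (nat_lit 3703707),Int.ofNat (nat_lit 575686),Int.negSucc (nat_lit 1244892),Int.negSucc (nat_lit 2585408),Int.negSucc (nat_lit 155549),Int.ofNat (nat_lit 441964),Int.ofNat (nat_lit 179331),Int.ofNat (nat_lit 610134),Int.negSucc (nat_lit 235002),Int.negSucc (nat_lit 180501),Int.ofNat (nat_lit 448593),Int.negSucc (nat_lit 147082),Int.ofNat (nat_lit 406876),Int.negSucc (nat_lit 229374),Int.ofNat (nat_lit 197257),Int.ofNat (nat_lit 19072),Int.ofNat (nat_lit 122583),Int.negSucc (nat_lit 4249444),Int.ofNat (nat_lit 36041),Int.ofNat (nat_lit 12190379)])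

/-- A row. -/
noncomputable def sp0_c1_23 : List ℕ × List ℤ :=
  ([(nat_lit 2),(nat_lit 0),(nat_lit 1),(nat_lit 0),(nat_lit 0),(nat_lit 0),(nat_lit 0),(nat_lit 0),(nat_lit 0),(nat_lit 0),(nat_lit 0),(nat_lit 0)], [Int.negSucc (nat_lit 131971053),Int.ofNat (nat_lit 23033435),Int.negSucc (nat_lit 2508598),Int.negSucc (nat_lit 11746874),Int.ofNat (nat_lit 46527719),Int.ofNat (nat_lit 14257344),Int.ofNat (nat_lit 12684266),Int.ofNat (nat_lit 16363507),Int.negSucc (nat_lit 6741651),Int.negSucc (nat_lit 98310710),Int.negSucc (nat_lit 7565307),Int.negSucc (nat_lit 32466241),Int.ofNat (nat_lit 13531518),Int.ofNat (nat_lit 12430541),Int.negSucc (nat_lit 3452352),Int.negSucc (nat_lit 8078304),Int.negSucc (nat_lit 6049312),Int.negSucc (nat_lit 10633),Int.ofNat (nat_lit 3370578),Int.negSucc (nat_lit 1838918),Int.negSucc (nat_lit 18010949),Int.ofNat (nat_lit 2797788),Int.ofNat (nat_lit 15129557),Int.ofNat (nat_lit 9320633),Int.negSucc (nat_lit 41377345),Int.negSucc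 (nat_lit 9360991),Int.negSucc (nat_lit 2324280),Int.ofNat (nat_lit 37971),Int.negSucc (nat_lit 6150796),Int.ofNat (nat_lit 5310636),Int.ofNat (nat_lit 1631070),Int.negSucc (nat_lit 69733243),Int.ofNat (nat_lit 45074497),Int.negSucc (nat_lit 7370084),Int.ofNat (nat_lit 32172154),Int.negSucc (nat_lit 9749118),Int.ofNat (nat_lit 17957573),Int.negSucc (nat_lit 200576337),Int.ofNat (nat_lit 27326059),Int.negSucc (nat_lit 75933472),Int.negSucc (nat_lit 18887832),Int.ofNat (nat_lit 1800576),Int.negSucc (nat_lit 6775233),Int.ofNat (nat_lit 645971),Int.negSucc (nat_lit 14095988),Int.negSucc (nat_lit 861539),Int.ofNat (nat_lit 7738276),Int.ofNat (nat_lit 4533249),Int.negSucc (nat_lit 1237402),Int.ofNat (nat_lit 59298777),Int.negSucc (nat_lit 4497659),Int.negSucc (nat_lit 66865634),Int.negSucc (nat_lit 10469590),Int.ofNat (nat_lit 124431799)])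

/-- A row. -/
noncomputable def sp0_c1_24 : List ℕ × List ℤ :=
  ([(nat_lit 2),(nat_lit 0),(nat_lit 2),(nat_lit 0),(nat_lit 0),(nat_lit 0),(nat_lit 0),(nat_lit 0),(nat_lit 0),(nat_lit 0),(nat_lit 0),(nat_lit 0)], [Int.negSucc (nat_lit 15853274),Int.negSucc (nat_lit 6286839),Int.negSucc (nat_lit 12973671),Int.ofNat (nat_lit 8805538),Int.ofNat (nat_lit 16246502),Int.ofNat (nat_lit 540103),Int.ofNat (nat_lit 6737684),Int.negSucc (nat_lit 3119717),Int.ofNat (nat_lit 14649168),Int.negSucc (nat_lit 19619911),Int.ofNat (nat_lit 5291309),Int.ofNat (nat_lit 901886),Int.negSucc (nat_lit 25428968),Int.negSucc (nat_lit 2652794),Int.ofNat (nat_lit 917808),Int.negSucc (nat_lit 606956),Int.ofNat (nat_lit 257283),Int.ofNat (nat_lit 490118),Int.ofNat (nat_lit 88709),Int.ofNat (nat_lit 19020),Int.negSucc (nat_lit 593739),Int.negSucc (nat_lit 1656240),Int.ofNat (nat_lit 2799503),Int.ofNat (nat_lit 4126565),Int.negSucc (nat_lit 1061259),Int.negSucc (nat_lit 11084618),Int.ofNat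 (nat_lit 282514),Int.negSucc (nat_lit 489973),Int.ofNat (nat_lit 37434),Int.ofNat (nat_lit 176389),Int.negSucc (nat_lit 626840),Int.ofNat (nat_lit 695385),Int.ofNat (nat_lit 7464163),Int.negSucc (nat_lit 7057644),Int.negSucc (nat_lit 413434),Int.ofNat (nat_lit 1561933),Int.ofNat (nat_lit 1770781),Int.negSucc (nat_lit 403291),Int.negSucc (nat_lit 3031467),Int.negSucc (nat_lit 2866072),Int.negSucc (nat_lit 3958),Int.negSucc (nat_lit 31003),Int.ofNat (nat_lit 2529267),Int.ofNat (nat_lit 720020),Int.ofNat (nat_lit 1376818),Int.negSucc (nat_lit 784314),Int.ofNat (nat_lit 106184),Int.negSucc (nat_lit 667315),Int.negSucc (nat_lit 127622),Int.negSucc (nat_lit 470436),Int.ofNat (nat_lit 2629618),Int.negSucc (nat_lit 12788232),Int.negSucc (nat_lit 10180872),Int.ofNat (nat_lit 5064879),Int.ofNat (nat_lit 30415339)])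

/-- A row. -/
noncomputable def sp0_c1_25 : List ℕ × List ℤ :=
  ([(nat_lit 2),(nat_lit 1),(nat_lit 0),(nat_lit 0),(nat_lit 0),(nat_lit 1),(nat_lit 0),(nat_lit 0),(nat_lit 0),(nat_lit 0),(nat_lit 0),(nat_lit 0)], [Int.negSucc (nat_lit 5185375),Int.ofNat (nat_lit 5680838),Int.negSucc (nat_lit 41713739),Int.ofNat (nat_lit 4192945),Int.ofNat (nat_lit 9354588),Int.ofNat (nat_lit 13401528),Int.ofNat (nat_lit 2610814),Int.negSucc (nat_lit 2043476),Int.negSucc (nat_lit 23783382),Int.negSucc (nat_lit 718207),Int.negSucc (nat_lit 23777023),Int.ofNat (nat_lit 15702803),Int.ofNat (nat_lit 15115068),Int.negSucc (nat_lit 22419273),Int.ofNat (nat_lit 20018099),Int.negSucc (nat_lit 176023737),Int.ofNat (nat_lit 8685419),Int.negSucc (nat_lit 17081672),Int.negSucc (nat_lit 7738791),Int.negSucc (nat_lit 347523),Int.negSucc (nat_lit 1715024),Int.ofNat (nat_lit 9210545),Int.negSucc (nat_lit 2640368),Int.ofNat (nat_lit 1680790),Int.negSucc (nat_lit 430775),Int.negSucc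 (nat_lit 6108156),Int.negSucc (nat_lit 89935793),Int.negSucc (nat_lit 2742826),Int.negSucc (nat_lit 990751),Int.negSucc (nat_lit 11699411),Int.ofNat (nat_lit 1404421),Int.ofNat (nat_lit 4140804),Int.negSucc (nat_lit 8748336),Int.negSucc (nat_lit 23446404),Int.ofNat (nat_lit 9234397),Int.negSucc (nat_lit 9563417),Int.negSucc (nat_lit 16639855),Int.ofNat (nat_lit 4921841),Int.negSucc (nat_lit 12140906),Int.negSucc (nat_lit 9383116),Int.negSucc (nat_lit 47147420),Int.negSucc (nat_lit 153813419),Int.negSucc (nat_lit 12699412),Int.negSucc (nat_lit 2566109),Int.negSucc (nat_lit 6498025),Int.negSucc (nat_lit 24779742),Int.ofNat (nat_lit 27158079),Int.negSucc (nat_lit 19335229),Int.negSucc (nat_lit 1579111),Int.negSucc (nat_lit 5229109),Int.ofNat (nat_lit 15368213),Int.negSucc (nat_lit 12540399),Int.ofNat (nat_lit 29179368),Int.ofNat (nat_lit 8330394),Int.negSucc (nat_lit 19596000),Int.ofNat (nat_lit 212465412)])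

/-- A row. -/
noncomputable def sp0_c1_26 : List ℕ × List ℤ :=
  ([(nat_lit 2),(nat_lit 1),(nat_lit 0),(nat_lit 1),(nat_lit 0),(nat_lit 0),(nat_lit 0),(nat_lit 0),(nat_lit 0),(nat_lit 0),(nat_lit 0),(nat_lit 0)], [Int.negSucc (nat_lit 738840),Int.negSucc (nat_lit 7371399),Int.negSucc (nat_lit 23912836),Int.ofNat (nat_lit 14372718),Int.ofNat (nat_lit 57899720),Int.ofNat (nat_lit 4174182),Int.ofNat (nat_lit 8038973),Int.negSucc (nat_lit 8486948),Int.ofNat (nat_lit 50174641),Int.negSucc (nat_lit 9056567),Int.negSucc (nat_lit 11953630),Int.ofNat (nat_lit 9451197),Int.negSucc (nat_lit 12943867),Int.ofNat (nat_lit 14097477),Int.ofNat (nat_lit 26965161),Int.ofNat (nat_lit 57453224),Int.negSucc (nat_lit 195579393),Int.negSucc (nat_lit 49935812),Int.negSucc (nat_lit 11967533),Int.ofNat (nat_lit 14719),Int.ofNat (nat_lit 1540315),Int.ofNat (nat_lit 2395676),Int.ofNat (nat_lit 2517044),Int.ofNat (nat_lit 12863140),Int.negSucc (nat_lit 3796212),Int.negSucc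 (nat_lit 6622401),Int.ofNat (nat_lit 25566419),Int.negSucc (nat_lit 99071711),Int.ofNat (nat_lit 1273603),Int.negSucc (nat_lit 1348330),Int.ofNat (nat_lit 2733172),Int.ofNat (nat_lit 1533927),Int.ofNat (nat_lit 10395683),Int.negSucc (nat_lit 2040899),Int.ofNat (nat_lit 15311853),Int.ofNat (nat_lit 1275062),Int.ofNat (nat_lit 11368180),Int.ofNat (nat_lit 1118507),Int.negSucc (nat_lit 9622893),Int.negSucc (nat_lit 11965282),Int.ofNat (nat_lit 26606077),Int.ofNat (nat_lit 28320831),Int.negSucc (nat_lit 37818419),Int.negSucc (nat_lit 83366651),Int.negSucc (nat_lit 1442646),Int.ofNat (nat_lit 6591668),Int.ofNat (nat_lit 16500574),Int.ofNat (nat_lit 15334509),Int.negSucc (nat_lit 702544),Int.negSucc (nat_lit 6660451),Int.ofNat (nat_lit 25398047),Int.negSucc (nat_lit 42411693),Int.negSucc (nat_lit 48036608),Int.negSucc (nat_lit 7246550),Int.ofNat (nat_lit 21564417),Int.negSucc (nat_lit 61464341),Int.ofNat (nat_lit 212650626)])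

/-- A row. -/
noncomputable def sp0_c1_27 : List ℕ × List ℤ :=
  ([(nat_lit 2),(nat_lit 2),(nat_lit 0),(nat_lit 0),(nat_lit 0),(nat_lit 0),(nat_lit 0),(nat_lit 0),(nat_lit 0),(nat_lit 0),(nat_lit 0),(nat_lit 0)], [Int.ofNat (nat_lit 418885939),Int.negSucc (nat_lit 47588045),Int.negSucc (nat_lit 97887056),Int.negSucc (nat_lit 85785667),Int.ofNat (nat_lit 301335468),Int.ofNat (nat_lit 24355409),Int.negSucc (nat_lit 46032346),Int.ofNat (nat_lit 19771708),Int.negSucc (nat_lit 28017984),Int.negSucc (nat_lit 158605443),Int.ofNat (nat_lit 14102451),Int.negSucc (nat_lit 23152294),Int.ofNat (nat_lit 33988604),Int.negSucc (nat_lit 1219429),Int.negSucc (nat_lit 61713197),Int.ofNat (nat_lit 22343506),Int.ofNat (nat_lit 315921867),Int.ofNat (nat_lit 28070588),Int.negSucc (nat_lit 16052116),Int.ofNat (nat_lit 5872483),Int.negSucc (nat_lit 505710379),Int.ofNat (nat_lit 49997233),Int.negSucc (nat_lit 109557044),Int.negSucc (nat_lit 18259320),Int.ofNat (nat_lit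 135621221),Int.ofNat (nat_lit 62049534),Int.negSucc (nat_lit 30851656),Int.ofNat (nat_lit 87541505),Int.negSucc (nat_lit 280194024),Int.negSucc (nat_lit 39596280),Int.negSucc (nat_lit 40387822),Int.ofNat (nat_lit 639168667),Int.negSucc (nat_lit 115657633),Int.ofNat (nat_lit 60461659),Int.negSucc (nat_lit 73573859),Int.ofNat (nat_lit 19504777),Int.negSucc (nat_lit 10558165),Int.ofNat (nat_lit 17243278),Int.ofNat (nat_lit 598404),Int.ofNat (nat_lit 62099121),Int.ofNat (nat_lit 79513633),Int.negSucc (nat_lit 108003257),Int.ofNat (nat_lit 161093490),Int.ofNat (nat_lit 80702561),Int.negSucc (nat_lit 1110116033),Int.ofNat (nat_lit 96221689),Int.negSucc (nat_lit 177911373),Int.negSucc (nat_lit 27152525),Int.ofNat (nat_lit 65764654),Int.negSucc (nat_lit 489205004),Int.ofNat (nat_lit 27956265),Int.ofNat (nat_lit 17051585),Int.ofNat (nat_lit 13431726),Int.ofNat (nat_lit 78719404),Int.negSucc (nat_lit 24179253),Int.ofNat (nat_lit 42440353),Int.negSucc (nat_lit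 232020776),Int.ofNat (nat_lit 725075194)])

/-- A row. -/
noncomputable def sp0_c1_28 : List ℕ × List ℤ :=
  ([(nat_lit 2),(nat_lit 2),(nat_lit 1),(nat_lit 0),(nat_lit 0),(nat_lit 0),(nat_lit 0),(nat_lit 0),(nat_lit 0),(nat_lit 0),(nat_lit 0),(nat_lit 0)], [Int.ofNat (nat_lit 171333455),Int.negSucc (nat_lit 34431523),Int.ofNat (nat_lit 19552215),Int.negSucc (nat_lit 15914397),Int.ofNat (nat_lit 28130504),Int.negSucc (nat_lit 17478661),Int.negSucc (nat_lit 9259214),Int.negSucc (nat_lit 11219999),Int.ofNat (nat_lit 51165193),Int.ofNat (nat_lit 143981959),Int.negSucc (nat_lit 28150857),Int.ofNat (nat_lit 77615378),Int.negSucc (nat_lit 125799908),Int.negSucc (nat_lit 22456961),Int.ofNat (nat_lit 16425738),Int.negSucc (nat_lit 26574574),Int.ofNat (nat_lit 42763782),Int.ofNat (nat_lit 11051246),Int.ofNat (nat_lit 22685589),Int.ofNat (nat_lit 6989150),Int.negSucc (nat_lit 26569385),Int.ofNat (nat_lit 16985935),Int.ofNat (nat_lit 24603875),Int.negSucc (nat_lit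 13098564),Int.negSucc (nat_lit 418884721),Int.ofNat (nat_lit 39022239),Int.negSucc (nat_lit 22703516),Int.ofNat (nat_lit 2849291),Int.negSucc (nat_lit 5943695),Int.negSucc (nat_lit 225249677),Int.negSucc (nat_lit 18640815),Int.ofNat (nat_lit 67572173),Int.negSucc (nat_lit 42718124),Int.ofNat (nat_lit 3940839),Int.ofNat (nat_lit 7108602),Int.negSucc (nat_lit 38378606),Int.negSucc (nat_lit 9209796),Int.ofNat (nat_lit 195514100),Int.ofNat (nat_lit 70020979),Int.negSucc (nat_lit 24895487),Int.negSucc (nat_lit 17296851),Int.ofNat (nat_lit 27806419),Int.negSucc (nat_lit 1974042),Int.ofNat (nat_lit 4528135),Int.negSucc (nat_lit 1194651),Int.ofNat (nat_lit 11269706),Int.negSucc (nat_lit 182369115),Int.ofNat (nat_lit 20583057),Int.ofNat (nat_lit 5981951),Int.negSucc (nat_lit 68979387),Int.ofNat (nat_lit 679997),Int.ofNat (nat_lit 13372406),Int.negSucc (nat_lit 15268048),Int.negSucc (nat_lit 137535004),Int.ofNat (nat_lit 42723758),Int.ofNat (nat_lit 102176633),Int.ofNat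 (nat_lit 8786718),Int.ofNat (nat_lit 31912269),Int.ofNat (nat_lit 390329036)])

/-- A row. -/
noncomputable def sp0_c1_29 : List ℕ × List ℤ :=
  ([(nat_lit 2),(nat_lit 4),(nat_lit 0),(nat_lit 0),(nat_lit 0),(nat_lit 0),(nat_lit 0),(nat_lit 0),(nat_lit 0),(nat_lit 0),(nat_lit 0),(nat_lit 0)], [Int.negSucc (nat_lit 506285251),Int.ofNat (nat_lit 7889586),Int.ofNat (nat_lit 64193677),Int.ofNat (nat_lit 131280856),Int.negSucc (nat_lit 286627917),Int.negSucc (nat_lit 38204424),Int.ofNat (nat_lit 97146436),Int.negSucc (nat_lit 47976072),Int.ofNat (nat_lit 19337013),Int.ofNat (nat_lit 132210577),Int.ofNat (nat_lit 31454854),Int.ofNat (nat_lit 32912727),Int.negSucc (nat_lit 20448585),Int.ofNat (nat_lit 15250112),Int.ofNat (nat_lit 26865815),Int.negSucc (nat_lit 68844675),Int.negSucc (nat_lit 255440016),Int.ofNat (nat_lit 28937112),Int.ofNat (nat_lit 26044242),Int.negSucc (nat_lit 825780),Int.ofNat (nat_lit 854447973),Int.negSucc (nat_lit 24159725),Int.ofNat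 (nat_lit 20304720),Int.ofNat (nat_lit 3028262),Int.negSucc (nat_lit 102052119),Int.negSucc (nat_lit 14125970),Int.ofNat (nat_lit 38572390),Int.negSucc (nat_lit 21483041),Int.negSucc (nat_lit 244919667),Int.ofNat (nat_lit 49094406),Int.negSucc (nat_lit 313846540),Int.negSucc (nat_lit 525622854),Int.ofNat (nat_lit 100035251),Int.negSucc (nat_lit 54797750),Int.negSucc (nat_lit 6244391),Int.ofNat (nat_lit 33075435),Int.negSucc (nat_lit 2620532),Int.ofNat (nat_lit 92792771),Int.ofNat (nat_lit 17590097),Int.negSucc (nat_lit 31463975),Int.negSucc (nat_lit 93918321),Int.ofNat (nat_lit 5647210),Int.negSucc (nat_lit 129017064),Int.negSucc (nat_lit 34440184),Int.ofNat (nat_lit 1235202631),Int.ofNat (nat_lit 22287979),Int.ofNat (nat_lit 27136126),Int.ofNat (nat_lit 74987658),Int.negSucc (nat_lit 562935541),Int.ofNat (nat_lit 390919231),Int.negSucc (nat_lit 27320081),Int.ofNat (nat_lit 15215131),Int.ofNat (nat_lit 6234199),Int.negSucc (nat_lit 90342406),Int.ofNat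 (nat_lit 24327501),Int.ofNat (nat_lit 11667952),Int.ofNat (nat_lit 99969226),Int.negSucc (nat_lit 744823781),Int.ofNat (nat_lit 36051421),Int.ofNat (nat_lit 581427091)])

/-- A part of a triangular factor. -/
noncomputable def sp0_c1 : Rows :=
  [sp0_c1_0,
   sp0_c1_1,
   sp0_c1_2,
   sp0_c1_3,
   sp0_c1_4,
   sp0_c1_5,
   sp0_c1_6,
   sp0_c1_7,
   sp0_c1_8,
   sp0_c1_9,
   sp0_c1_10,
   sp0_c1_11,
   sp0_c1_12,
   sp0_c1_13,
   sp0_c1_14,
   sp0_c1_15,
   sp0_c1_16,
   sp0_c1_17,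
   sp0_c1_18,
   sp0_c1_19,
   sp0_c1_20,
   sp0_c1_21,
   sp0_c1_22,
   sp0_c1_23,
   sp0_c1_24,
   sp0_c1_25,
   sp0_c1_26,
   sp0_c1_27,
   sp0_c1_28,
   sp0_c1_29]

/-- A row. -/
noncomputable def sp0_c2_0 : List ℕ × List ℤ :=
  ([(nat_lit 3),(nat_lit 0),(nat_lit 0),(nat_lit 0),(nat_lit 0),(nat_lit 0),(nat_lit 0),(nat_lit 0),(nat_lit 0),(nat_lit 0),(nat_lit 0),(nat_lit 0)], [Int.ofNat (nat_lit 112792985),Int.negSucc (nat_lit 38237329),Int.ofNat (nat_lit 76719888),Int.negSucc (nat_lit 15624757),Int.negSucc (nat_lit 29992829),Int.negSucc (nat_lit 77817538),Int.negSucc (nat_lit 32863705),Int.ofNat (nat_lit 6983399),Int.ofNat (nat_lit 6648745),Int.negSucc (nat_lit 2295687),Int.ofNat (nat_lit 30581109),Int.ofNat (nat_lit 5073806),Int.ofNat (nat_lit 18036039),Int.ofNat (nat_lit 7973652),Int.ofNat (nat_lit 15657601),Int.ofNat (nat_lit 15734774),Int.ofNat (nat_lit 26007793),Int.negSucc (nat_lit 1765289),Int.negSucc (nat_lit 2573304),Int.ofNat (nat_lit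 2942589),Int.ofNat (nat_lit 108025078),Int.ofNat (nat_lit 8922800),Int.negSucc (nat_lit 15044105),Int.negSucc (nat_lit 12737564),Int.ofNat (nat_lit 26708423),Int.ofNat (nat_lit 14373488),Int.ofNat (nat_lit 2775984),Int.ofNat (nat_lit 2193763),Int.ofNat (nat_lit 25426860),Int.negSucc (nat_lit 4158940),Int.negSucc (nat_lit 4929057),Int.negSucc (nat_lit 184945378),Int.negSucc (nat_lit 24823300),Int.ofNat (nat_lit 39677168),Int.negSucc (nat_lit 72391779),Int.negSucc (nat_lit 13185881),Int.negSucc (nat_lit 5499898),Int.ofNat (nat_lit 188270160),Int.ofNat (nat_lit 612833),Int.ofNat (nat_lit 37000549),Int.ofNat (nat_lit 16596577),Int.ofNat (nat_lit 6193217),Int.ofNat (nat_lit 9186815),Int.ofNat (nat_lit 1174695),Int.negSucc (nat_lit 79773718),Int.ofNat (nat_lit 2411510),Int.negSucc (nat_lit 6945464),Int.negSucc (nat_lit 519658),Int.ofNat (nat_lit 3746930),Int.negSucc (nat_lit 185552840),Int.negSucc (nat_lit 26618651),Int.ofNat (nat_lit 57292490),Int.ofNat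 (nat_lit 12689034),Int.negSucc (nat_lit 26179999),Int.negSucc (nat_lit 29590384),Int.negSucc (nat_lit 11241282),Int.negSucc (nat_lit 2260622),Int.negSucc (nat_lit 68335616),Int.ofNat (nat_lit 9458394),Int.ofNat (nat_lit 12924359),Int.ofNat (nat_lit 178799252)])

/-- A row. -/
noncomputable def sp0_c2_1 : List ℕ × List ℤ :=
  ([(nat_lit 3),(nat_lit 0),(nat_lit 0),(nat_lit 0),(nat_lit 1),(nat_lit 0),(nat_lit 0),(nat_lit 0),(nat_lit 0),(nat_lit 0),(nat_lit 0),(nat_lit 0)], [Int.negSucc (nat_lit 10507185),Int.ofNat (nat_lit 70471),Int.negSucc (nat_lit 6357710),Int.negSucc (nat_lit 6735776),Int.ofNat (nat_lit 144513524),Int.ofNat (nat_lit 33943351),Int.ofNat (nat_lit 75480338),Int.negSucc (nat_lit 1394731),Int.negSucc (nat_lit 11380921),Int.ofNat (nat_lit 22668458),Int.ofNat (nat_lit 11173390),Int.ofNat (nat_lit 38232491),Int.ofNat (nat_lit 19620116),Int.negSucc (nat_lit 32820350),Int.ofNat (nat_lit 15663045),Int.ofNat (nat_lit 12046066),Int.ofNat (nat_lit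 1580726),Int.ofNat (nat_lit 2172257),Int.ofNat (nat_lit 1709039),Int.negSucc (nat_lit 358015),Int.negSucc (nat_lit 1823295),Int.negSucc (nat_lit 576532),Int.ofNat (nat_lit 23303476),Int.ofNat (nat_lit 2301391),Int.ofNat (nat_lit 1784920),Int.negSucc (nat_lit 11178139),Int.ofNat (nat_lit 1030952),Int.negSucc (nat_lit 3973801),Int.negSucc (nat_lit 3981227),Int.ofNat (nat_lit 5891205),Int.negSucc (nat_lit 2768055),Int.ofNat (nat_lit 6887478),Int.ofNat (nat_lit 14268505),Int.ofNat (nat_lit 9851874),Int.negSucc (nat_lit 74637128),Int.ofNat (nat_lit 9848414),Int.negSucc (nat_lit 8867950),Int.ofNat (nat_lit 11928275),Int.negSucc (nat_lit 31133102),Int.negSucc (nat_lit 27179841),Int.ofNat (nat_lit 5147510),Int.negSucc (nat_lit 2037056),Int.ofNat (nat_lit 7564858),Int.negSucc (nat_lit 1455841),Int.ofNat (nat_lit 2402782),Int.negSucc (nat_lit 25257089),Int.negSucc (nat_lit 1099846),Int.negSucc (nat_lit 5415721),Int.negSucc (nat_lit 607816),Int.ofNat (nat_lit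 3582217),Int.negSucc (nat_lit 5542193),Int.negSucc (nat_lit 110271718),Int.ofNat (nat_lit 12645248),Int.negSucc (nat_lit 14525538),Int.ofNat (nat_lit 7641934),Int.negSucc (nat_lit 2076028),Int.ofNat (nat_lit 1787337),Int.ofNat (nat_lit 1632022),Int.negSucc (nat_lit 8804765),Int.negSucc (nat_lit 450131),Int.ofNat (nat_lit 1230039),Int.ofNat (nat_lit 53314976)])

/-- A row. -/
noncomputable def sp0_c2_2 : List ℕ × List ℤ :=
  ([(nat_lit 3),(nat_lit 0),(nat_lit 1),(nat_lit 0),(nat_lit 0),(nat_lit 0),(nat_lit 0),(nat_lit 0),(nat_lit 0),(nat_lit 0),(nat_lit 0),(nat_lit 0)], [Int.ofNat (nat_lit 65029611),Int.ofNat (nat_lit 9267939),Int.ofNat (nat_lit 42934332),Int.negSucc (nat_lit 7293120),Int.negSucc (nat_lit 93355523),Int.negSucc (nat_lit 17148532),Int.negSucc (nat_lit 69268884),Int.ofNat (nat_lit 14584426),Int.negSucc (nat_lit 43394917),Int.ofNat (nat_lit 96435853),Int.negSucc (nat_lit 27348173),Int.ofNat (nat_lit 3544127),Int.ofNat (nat_lit 45276462),Int.ofNat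 (nat_lit 29709724),Int.negSucc (nat_lit 65475),Int.negSucc (nat_lit 8641193),Int.negSucc (nat_lit 42661),Int.negSucc (nat_lit 856967),Int.negSucc (nat_lit 742282),Int.negSucc (nat_lit 767425),Int.ofNat (nat_lit 8901668),Int.ofNat (nat_lit 8320557),Int.negSucc (nat_lit 16642056),Int.negSucc (nat_lit 12097740),Int.negSucc (nat_lit 1770581),Int.ofNat (nat_lit 42175220),Int.negSucc (nat_lit 3207849),Int.negSucc (nat_lit 325307),Int.ofNat (nat_lit 237723),Int.negSucc (nat_lit 6706831),Int.ofNat (nat_lit 3480812),Int.negSucc (nat_lit 56775843),Int.negSucc (nat_lit 18591063),Int.ofNat (nat_lit 21999235),Int.ofNat (nat_lit 58107909),Int.ofNat (nat_lit 8101176),Int.negSucc (nat_lit 9156594),Int.negSucc (nat_lit 136775434),Int.negSucc (nat_lit 19782997),Int.ofNat (nat_lit 48675826),Int.negSucc (nat_lit 8075566),Int.ofNat (nat_lit 655280),Int.negSucc (nat_lit 11499999),Int.negSucc (nat_lit 1756150),Int.negSucc (nat_lit 6303877),Int.ofNat (nat_lit 7723050),Int.negSucc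 (nat_lit 32957642),Int.ofNat (nat_lit 868040),Int.ofNat (nat_lit 447424),Int.negSucc (nat_lit 3910922),Int.ofNat (nat_lit 892590),Int.ofNat (nat_lit 78414283),Int.ofNat (nat_lit 24290380),Int.negSucc (nat_lit 31988229),Int.negSucc (nat_lit 107305269),Int.ofNat (nat_lit 7129570),Int.ofNat (nat_lit 5894210),Int.ofNat (nat_lit 1644312),Int.ofNat (nat_lit 9205303),Int.negSucc (nat_lit 305537),Int.ofNat (nat_lit 10106167),Int.negSucc (nat_lit 9427198),Int.ofNat (nat_lit 74805189)])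

/-- A row. -/
noncomputable def sp0_c2_3 : List ℕ × List ℤ :=
  ([(nat_lit 3),(nat_lit 1),(nat_lit 0),(nat_lit 1),(nat_lit 0),(nat_lit 0),(nat_lit 0),(nat_lit 0),(nat_lit 0),(nat_lit 0),(nat_lit 0),(nat_lit 0)], [Int.negSucc (nat_lit 33169979),Int.negSucc (nat_lit 6051540),Int.negSucc (nat_lit 47482381),Int.negSucc (nat_lit 2198387),Int.negSucc (nat_lit 38299241),Int.ofNat (nat_lit 34412716),Int.negSucc (nat_lit 61397478),Int.negSucc (nat_lit 10609173),Int.negSucc (nat_lit 26645449),Int.ofNat (nat_lit 6710545),Int.negSucc (nat_lit 36324163),Int.negSucc (nat_lit 15756037),Int.negSucc (nat_lit 33516400),Int.ofNat (nat_lit 16198676),Int.negSucc (nat_lit 20593112),Int.ofNat (nat_lit 28166815),Int.ofNat (nat_lit 310078928),Int.ofNat (nat_lit 83966545),Int.ofNat (nat_lit 9034358),Int.negSucc (nat_lit 17494990),Int.ofNat (nat_lit 52669415),Int.negSucc (nat_lit 12156090),Int.ofNat (nat_lit 5602067),Int.negSucc (nat_lit 9298800),Int.negSucc (nat_lit 21770866),Int.ofNat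 (nat_lit 6775448),Int.negSucc (nat_lit 3856375),Int.ofNat (nat_lit 78757616),Int.negSucc (nat_lit 18876894),Int.negSucc (nat_lit 18537952),Int.negSucc (nat_lit 1860150),Int.ofNat (nat_lit 45244277),Int.negSucc (nat_lit 765930),Int.negSucc (nat_lit 31347020),Int.ofNat (nat_lit 59241720),Int.negSucc (nat_lit 14754494),Int.negSucc (nat_lit 6083421),Int.ofNat (nat_lit 30727846),Int.negSucc (nat_lit 6276760),Int.negSucc (nat_lit 25937020),Int.ofNat (nat_lit 52204743),Int.ofNat (nat_lit 41260847),Int.negSucc (nat_lit 365043489),Int.ofNat (nat_lit 20664389),Int.ofNat (nat_lit 7862829),Int.negSucc (nat_lit 4240338),Int.negSucc (nat_lit 15570211),Int.negSucc (nat_lit 116326885),Int.ofNat (nat_lit 2876825),Int.negSucc (nat_lit 443831),Int.ofNat (nat_lit 18121673),Int.ofNat (nat_lit 44422011),Int.negSucc (nat_lit 1013857),Int.negSucc (nat_lit 6898416),Int.negSucc (nat_lit 2322308),Int.ofNat (nat_lit 1802092),Int.negSucc (nat_lit 207363068),Int.negSucc (nat_lit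 18117154),Int.ofNat (nat_lit 35741083),Int.negSucc (nat_lit 1990031),Int.negSucc (nat_lit 9164699),Int.ofNat (nat_lit 9200462),Int.ofNat (nat_lit 12750406),Int.ofNat (nat_lit 166434053)])

/-- A row. -/
noncomputable def sp0_c2_4 : List ℕ × List ℤ :=
  ([(nat_lit 3),(nat_lit 2),(nat_lit 0),(nat_lit 0),(nat_lit 0),(nat_lit 0),(nat_lit 0),(nat_lit 0),(nat_lit 0),(nat_lit 0),(nat_lit 0),(nat_lit 0)], [Int.negSucc (nat_lit 94992966),Int.ofNat (nat_lit 120897965),Int.negSucc (nat_lit 161027116),Int.negSucc (nat_lit 64416973),Int.ofNat (nat_lit 44568621),Int.ofNat (nat_lit 53413546),Int.ofNat (nat_lit 104776507),Int.negSucc (nat_lit 26332373),Int.ofNat (nat_lit 10575654),Int.negSucc (nat_lit 50451751),Int.ofNat (nat_lit 28058389),Int.negSucc (nat_lit 25058463),Int.ofNat (nat_lit 32073755),Int.negSucc (nat_lit 17524344),Int.negSucc (nat_lit 31091603),Int.ofNat (nat_lit 62396695),Int.negSucc (nat_lit 335693614),Int.negSucc (nat_lit 60141880),Int.negSucc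 (nat_lit 30722522),Int.negSucc (nat_lit 2635148),Int.ofNat (nat_lit 92157231),Int.negSucc (nat_lit 15670423),Int.ofNat (nat_lit 765677),Int.ofNat (nat_lit 30816661),Int.ofNat (nat_lit 279290368),Int.negSucc (nat_lit 59084031),Int.ofNat (nat_lit 34575652),Int.negSucc (nat_lit 75118420),Int.ofNat (nat_lit 131585544),Int.ofNat (nat_lit 172201076),Int.ofNat (nat_lit 40115652),Int.ofNat (nat_lit 428572646),Int.ofNat (nat_lit 16802979),Int.negSucc (nat_lit 17370053),Int.negSucc (nat_lit 3297840),Int.ofNat (nat_lit 51442804),Int.ofNat (nat_lit 21648448),Int.negSucc (nat_lit 267453650),Int.negSucc (nat_lit 54904801),Int.ofNat (nat_lit 6943509),Int.negSucc (nat_lit 25714898),Int.ofNat (nat_lit 8249337),Int.ofNat (nat_lit 406423014),Int.negSucc (nat_lit 21261656),Int.negSucc (nat_lit 670702937),Int.negSucc (nat_lit 32696490),Int.ofNat (nat_lit 214147007),Int.ofNat (nat_lit 60898021),Int.negSucc (nat_lit 428536084),Int.ofNat (nat_lit 210755443),Int.ofNat (nat_lit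 11316147),Int.negSucc (nat_lit 43035291),Int.negSucc (nat_lit 919681),Int.ofNat (nat_lit 37041790),Int.ofNat (nat_lit 32355435),Int.negSucc (nat_lit 105956492),Int.ofNat (nat_lit 182247390),Int.negSucc (nat_lit 52050219),Int.negSucc (nat_lit 305734629),Int.negSucc (nat_lit 54005406),Int.negSucc (nat_lit 251363953),Int.ofNat (nat_lit 8814392),Int.negSucc (nat_lit 15240783),Int.negSucc (nat_lit 133544767),Int.ofNat (nat_lit 471576565)])

/-- A row. -/
noncomputable def sp0_c2_5 : List ℕ × List ℤ :=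
  ([(nat_lit 4),(nat_lit 0),(nat_lit 0),(nat_lit 0),(nat_lit 0),(nat_lit 0),(nat_lit 0),(nat_lit 0),(nat_lit 0),(nat_lit 0),(nat_lit 0),(nat_lit 0)], [Int.ofNat (nat_lit 30288117),Int.ofNat (nat_lit 12990726),Int.negSucc (nat_lit 56644476),Int.ofNat (nat_lit 47985128),Int.ofNat (nat_lit 158645938),Int.ofNat (nat_lit 41559053),Int.negSucc (nat_lit 3822334),Int.negSucc (nat_lit 41994143),Int.ofNat (nat_lit 33447532),Int.negSucc (nat_lit 21187371),Int.ofNat (nat_lit 26530693),Int.ofNat (nat_lit 7001542),Int.negSucc (nat_lit 28592091),Int.ofNat (nat_lit 30619297),Int.negSucc (nat_lit 16641024),Int.ofNat (nat_lit 19640409),Int.negSucc (nat_lit 20341539),Int.ofNat (nat_lit 10659127),Int.negSucc (nat_lit 3061562),Int.negSucc (nat_lit 1389787),Int.negSucc (nat_lit 2594165),Int.negSucc (nat_lit 14218649),Int.ofNat (nat_lit 12694109),Int.ofNat (nat_lit 8704622),Int.ofNat (nat_lit 19381210),Int.negSucc (nat_lit 34450865),Int.ofNat (nat_lit 2142673),Int.negSucc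 (nat_lit 5446338),Int.negSucc (nat_lit 34274905),Int.ofNat (nat_lit 7260524),Int.ofNat (nat_lit 7434657),Int.ofNat (nat_lit 407994861),Int.negSucc (nat_lit 68367753),Int.ofNat (nat_lit 6673135),Int.ofNat (nat_lit 15314327),Int.negSucc (nat_lit 2698893),Int.ofNat (nat_lit 10083694),Int.negSucc (nat_lit 3878884),Int.ofNat (nat_lit 13373779),Int.ofNat (nat_lit 15833322),Int.ofNat (nat_lit 6668645),Int.ofNat (nat_lit 5968640),Int.ofNat (nat_lit 72836615),Int.negSucc (nat_lit 2290922),Int.ofNat (nat_lit 130559462),Int.negSucc (nat_lit 10799811),Int.ofNat (nat_lit 26309763),Int.negSucc (nat_lit 13876265),Int.negSucc (nat_lit 15477826),Int.negSucc (nat_lit 164663204),Int.ofNat (nat_lit 31016394),Int.negSucc (nat_lit 73522987),Int.negSucc (nat_lit 18754847),Int.negSucc (nat_lit 43106521),Int.ofNat (nat_lit 87367428),Int.ofNat (nat_lit 10963957),Int.negSucc (nat_lit 89361),Int.ofNat (nat_lit 54269885),Int.negSucc (nat_lit 22674605),Int.negSucc (nat_lit 17935039),Int.negSucc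 (nat_lit 261331866),Int.ofNat (nat_lit 12251251),Int.negSucc (nat_lit 48527839),Int.ofNat (nat_lit 1203332),Int.ofNat (nat_lit 8019061),Int.ofNat (nat_lit 67223586)])

/-- A row. -/
noncomputable def sp0_c2_6 : List ℕ × List ℤ :=
  ([(nat_lit 4),(nat_lit 0),(nat_lit 1),(nat_lit 0),(nat_lit 0),(nat_lit 0),(nat_lit 0),(nat_lit 0),(nat_lit 0),(nat_lit 0),(nat_lit 0),(nat_lit 0)], [Int.ofNat (nat_lit 66855330),Int.negSucc (nat_lit 20729970),Int.negSucc (nat_lit 12382490),Int.ofNat (nat_lit 16052372),Int.ofNat (nat_lit 10172848),Int.negSucc (nat_lit 3042463),Int.ofNat (nat_lit 4230388),Int.negSucc (nat_lit 12278213),Int.ofNat (nat_lit 22225506),Int.ofNat (nat_lit 41457025),Int.ofNat (nat_lit 6807684),Int.ofNat (nat_lit 21487256),Int.negSucc (nat_lit 24481470),Int.negSucc (nat_lit 11378373),Int.ofNat (nat_lit 112359),Int.ofNat (nat_lit 3008651),Int.ofNat (nat_lit 7557204),Int.ofNat (nat_lit 167696),Int.negSucc (nat_lit 3646778),Int.negSucc (nat_lit 519457),Int.ofNat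 (nat_lit 15622608),Int.negSucc (nat_lit 5059184),Int.negSucc (nat_lit 3199929),Int.negSucc (nat_lit 3014606),Int.ofNat (nat_lit 48245865),Int.negSucc (nat_lit 5442934),Int.ofNat (nat_lit 3798046),Int.ofNat (nat_lit 1069394),Int.ofNat (nat_lit 7918595),Int.ofNat (nat_lit 8371846),Int.ofNat (nat_lit 1155431),Int.ofNat (nat_lit 72375943),Int.negSucc (nat_lit 39761747),Int.negSucc (nat_lit 12232774),Int.negSucc (nat_lit 14779502),Int.negSucc (nat_lit 14213806),Int.ofNat (nat_lit 10038354),Int.ofNat (nat_lit 190733407),Int.ofNat (nat_lit 58866499),Int.negSucc (nat_lit 22483597),Int.ofNat (nat_lit 21752464),Int.negSucc (nat_lit 2905490),Int.ofNat (nat_lit 13425625),Int.ofNat (nat_lit 579544),Int.ofNat (nat_lit 20266015),Int.negSucc (nat_lit 9365899),Int.ofNat (nat_lit 20667877),Int.negSucc (nat_lit 12162139),Int.ofNat (nat_lit 541215),Int.negSucc (nat_lit 66588170),Int.ofNat (nat_lit 15230055),Int.ofNat (nat_lit 20194418),Int.ofNat (nat_lit 1519232),Int.negSucc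 (nat_lit 125527994),Int.ofNat (nat_lit 39435131),Int.negSucc (nat_lit 5687302),Int.negSucc (nat_lit 4173585),Int.negSucc (nat_lit 7985685),Int.negSucc (nat_lit 24098558),Int.negSucc (nat_lit 2581439),Int.negSucc (nat_lit 11681335),Int.ofNat (nat_lit 14020316),Int.negSucc (nat_lit 68337076),Int.ofNat (nat_lit 12876749),Int.negSucc (nat_lit 195135),Int.ofNat (nat_lit 19287168),Int.ofNat (nat_lit 42338225)])

/-- A row. -/
noncomputable def sp0_c2_7 : List ℕ × List ℤ :=
  ([(nat_lit 4),(nat_lit 2),(nat_lit 0),(nat_lit 0),(nat_lit 0),(nat_lit 0),(nat_lit 0),(nat_lit 0),(nat_lit 0),(nat_lit 0),(nat_lit 0),(nat_lit 0)], [Int.negSucc (nat_lit 259887838),Int.ofNat (nat_lit 43427527),Int.ofNat (nat_lit 48845835),Int.negSucc (nat_lit 1799710),Int.negSucc (nat_lit 210234784),Int.negSucc (nat_lit 44526294),Int.ofNat (nat_lit 79358426),Int.ofNat (nat_lit 10485075),Int.ofNat (nat_lit 8276718),Int.ofNat (nat_lit 56300093),Int.ofNat (nat_lit 2133635),Int.ofNat (nat_lit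 48296567),Int.ofNat (nat_lit 12757469),Int.negSucc (nat_lit 34158689),Int.ofNat (nat_lit 55106097),Int.negSucc (nat_lit 90777291),Int.negSucc (nat_lit 54049588),Int.ofNat (nat_lit 20070417),Int.ofNat (nat_lit 14157872),Int.negSucc (nat_lit 2641252),Int.ofNat (nat_lit 269447526),Int.negSucc (nat_lit 2998734),Int.ofNat (nat_lit 10451344),Int.ofNat (nat_lit 752201),Int.negSucc (nat_lit 125696875),Int.ofNat (nat_lit 49911983),Int.negSucc (nat_lit 48947231),Int.negSucc (nat_lit 7313143),Int.ofNat (nat_lit 317690826),Int.ofNat (nat_lit 6762523),Int.ofNat (nat_lit 128714478),Int.negSucc (nat_lit 766648597),Int.ofNat (nat_lit 119333870),Int.negSucc (nat_lit 62247372),Int.negSucc (nat_lit 69102243),Int.negSucc (nat_lit 13470462),Int.negSucc (nat_lit 16138465),Int.ofNat (nat_lit 171951877),Int.ofNat (nat_lit 46073703),Int.negSucc (nat_lit 118951401),Int.negSucc (nat_lit 79949778),Int.negSucc (nat_lit 12031000),Int.negSucc (nat_lit 176853395),Int.negSucc (nat_lit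 22481598),Int.ofNat (nat_lit 1104478315),Int.ofNat (nat_lit 53464003),Int.negSucc (nat_lit 111163404),Int.negSucc (nat_lit 9621131),Int.ofNat (nat_lit 420702978),Int.ofNat (nat_lit 413698362),Int.negSucc (nat_lit 71424991),Int.ofNat (nat_lit 39586321),Int.ofNat (nat_lit 27941739),Int.negSucc (nat_lit 29737200),Int.negSucc (nat_lit 103483098),Int.ofNat (nat_lit 116715938),Int.ofNat (nat_lit 49669284),Int.negSucc (nat_lit 826815513),Int.ofNat (nat_lit 32479478),Int.negSucc (nat_lit 216982288),Int.ofNat (nat_lit 311647292),Int.ofNat (nat_lit 6338051),Int.ofNat (nat_lit 19244839),Int.ofNat (nat_lit 55049998),Int.negSucc (nat_lit 544324264),Int.negSucc (nat_lit 58117847),Int.ofNat (nat_lit 31269894),Int.ofNat (nat_lit 288825947)])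

/-- A row. -/
noncomputable def sp0_c2_8 : List ℕ × List ℤ :=
  ([(nat_lit 5),(nat_lit 0),(nat_lit 0),(nat_lit 0),(nat_lit 0),(nat_lit 0),(nat_lit 0),(nat_lit 0),(nat_lit 0),(nat_lit 0),(nat_lit 0),(nat_lit 0)], [Int.negSucc (nat_lit 56150986),Int.ofNat (nat_lit 38359765),Int.negSucc (nat_lit 43049406),Int.ofNat (nat_lit 8117237),Int.negSucc (nat_lit 41921882),Int.ofNat (nat_lit 48829938),Int.negSucc (nat_lit 2116064),Int.negSucc (nat_lit 1483741),Int.negSucc (nat_lit 21831298),Int.ofNat (nat_lit 41380611),Int.negSucc (nat_lit 25776998),Int.negSucc (nat_lit 8877140),Int.negSucc (nat_lit 11823380),Int.ofNat (nat_lit 4532805),Int.negSucc (nat_lit 11825125),Int.negSucc (nat_lit 13922555),Int.negSucc (nat_lit 23718831),Int.ofNat (nat_lit 1317401),Int.ofNat (nat_lit 3129113),Int.negSucc (nat_lit 2200542),Int.negSucc (nat_lit 98965924),Int.ofNat (nat_lit 535706),Int.negSucc (nat_lit 4607668),Int.ofNat (nat_lit 6005740),Int.negSucc (nat_lit 31232717),Int.ofNat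 (nat_lit 1405952),Int.negSucc (nat_lit 5968570),Int.negSucc (nat_lit 1628355),Int.negSucc (nat_lit 31638057),Int.negSucc (nat_lit 7636516),Int.ofNat (nat_lit 2324332),Int.ofNat (nat_lit 111140197),Int.ofNat (nat_lit 30284917),Int.negSucc (nat_lit 625377),Int.ofNat (nat_lit 52493848),Int.ofNat (nat_lit 11114082),Int.negSucc (nat_lit 7921026),Int.negSucc (nat_lit 194989223),Int.negSucc (nat_lit 50242403),Int.ofNat (nat_lit 38893538),Int.negSucc (nat_lit 24664981),Int.negSucc (nat_lit 4739216),Int.negSucc (nat_lit 18870296),Int.negSucc (nat_lit 1874894),Int.ofNat (nat_lit 86161251),Int.ofNat (nat_lit 11120343),Int.negSucc (nat_lit 22662675),Int.ofNat (nat_lit 7728856),Int.ofNat (nat_lit 20789918),Int.ofNat (nat_lit 212443353),Int.ofNat (nat_lit 10230261),Int.ofNat (nat_lit 20971210),Int.negSucc (nat_lit 2846834),Int.ofNat (nat_lit 13176160),Int.negSucc (nat_lit 62095),Int.ofNat (nat_lit 19457783),Int.ofNat (nat_lit 7997588),Int.ofNat (nat_lit 95961248),Int.ofNat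 (nat_lit 8966166),Int.negSucc (nat_lit 10025169),Int.negSucc (nat_lit 183818135),Int.negSucc (nat_lit 15169601),Int.ofNat (nat_lit 70188179),Int.negSucc (nat_lit 9791526),Int.negSucc (nat_lit 39843779),Int.negSucc (nat_lit 57424608),Int.negSucc (nat_lit 21083641),Int.negSucc (nat_lit 1845826),Int.ofNat (nat_lit 65319303)])

/-- A row. -/
noncomputable def sp0_c2_9 : List ℕ × List ℤ :=
  ([(nat_lit 6),(nat_lit 0),(nat_lit 0),(nat_lit 0),(nat_lit 0),(nat_lit 0),(nat_lit 0),(nat_lit 0),(nat_lit 0),(nat_lit 0),(nat_lit 0),(nat_lit 0)], [Int.negSucc (nat_lit 20584049),Int.negSucc (nat_lit 8576629),Int.ofNat (nat_lit 14306620),Int.negSucc (nat_lit 27767717),Int.negSucc (nat_lit 20600950),Int.negSucc (nat_lit 16322009),Int.ofNat (nat_lit 43777692),Int.ofNat (nat_lit 22297899),Int.negSucc (nat_lit 2219050),Int.negSucc (nat_lit 47667366),Int.ofNat (nat_lit 1476069),Int.negSucc (nat_lit 4027322),Int.ofNat (nat_lit 20092094),Int.negSucc (nat_lit 41863336),Int.ofNat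 (nat_lit 15903382),Int.negSucc (nat_lit 4094317),Int.ofNat (nat_lit 18640883),Int.negSucc (nat_lit 7357396),Int.ofNat (nat_lit 1921432),Int.ofNat (nat_lit 2260618),Int.ofNat (nat_lit 27737549),Int.ofNat (nat_lit 3252407),Int.ofNat (nat_lit 6499998),Int.negSucc (nat_lit 2181017),Int.negSucc (nat_lit 10845303),Int.ofNat (nat_lit 2752805),Int.ofNat (nat_lit 2407245),Int.ofNat (nat_lit 3524988),Int.ofNat (nat_lit 30944157),Int.negSucc (nat_lit 1155327),Int.negSucc (nat_lit 10567620),Int.negSucc (nat_lit 254135106),Int.ofNat (nat_lit 44255987),Int.negSucc (nat_lit 18467514),Int.negSucc (nat_lit 59792617),Int.ofNat (nat_lit 1111585),Int.negSucc (nat_lit 3732941),Int.ofNat (nat_lit 105055178),Int.negSucc (nat_lit 2226262),Int.negSucc (nat_lit 45645930),Int.ofNat (nat_lit 6687063),Int.negSucc (nat_lit 2418414),Int.negSucc (nat_lit 37453265),Int.ofNat (nat_lit 2219779),Int.negSucc (nat_lit 140064160),Int.negSucc (nat_lit 3496910),Int.ofNat (nat_lit 7546373),Int.ofNat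 (nat_lit 8580826),Int.negSucc (nat_lit 10759213),Int.ofNat (nat_lit 26602500),Int.negSucc (nat_lit 27804343),Int.negSucc (nat_lit 21185545),Int.ofNat (nat_lit 5635806),Int.ofNat (nat_lit 75223821),Int.negSucc (nat_lit 22384840),Int.negSucc (nat_lit 21386923),Int.negSucc (nat_lit 7121957),Int.negSucc (nat_lit 70974857),Int.ofNat (nat_lit 14591979),Int.ofNat (nat_lit 23231443),Int.ofNat (nat_lit 276448617),Int.ofNat (nat_lit 11990718),Int.negSucc (nat_lit 30583794),Int.negSucc (nat_lit 1767204),Int.ofNat (nat_lit 34320975),Int.negSucc (nat_lit 39729442),Int.negSucc (nat_lit 13963308),Int.negSucc (nat_lit 6444170),Int.negSucc (nat_lit 73129104),Int.ofNat (nat_lit 18400241)])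

/-- A part of a triangular factor. -/
noncomputable def sp0_c2 : Rows :=
  [sp0_c2_0,
   sp0_c2_1,
   sp0_c2_2,
   sp0_c2_3,
   sp0_c2_4,
   sp0_c2_5,
   sp0_c2_6,
   sp0_c2_7,
   sp0_c2_8,
   sp0_c2_9]

/-- A triangular factor. -/
noncomputable def sp0_rows : List Rows :=
  [sp0_c0, sp0_c1, sp0_c2]

end Vale.Agent.P142K.CertB
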