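import Vale.Agent.P142K.CertB.Sp1Rows
import Vale.Agent.P142K.Fast

/-!
# An expanded part of the certificate

Generated from a semidefinite program; only the checker is trusted.
-/

namespace Vale.Agent.P142K.CertB

open Vale.Agent.P142J (MP)

/-- A coefficient. -/
noncomputable def sp1_m0_0_0 : MP 10 :=
  [[[[[[[[[[Int.ofNat (nat_lit 3742066314449761)]],[],[[Int.negSucc (nat_lit 14968265257799043)]]],[],[[[Int.negSucc (nat_lit 14968265257799043)]]]],[],[[[[Int.negSucc (nat_lit 11226198943349282)]]]]],[],[[[[[Int.negSucc (nat_lit 11226198943349282)]]]]]],[],[[[[[[Int.negSucc (nat_lit 7484132628899521)]]]]]]],[],[[[[[[[Int.negSucc (nat_lit 7484132628899521)]]]]]]]],[],[[[[[[[[Int.negSucc (nat_lit 3742066314449760)]]]]]]]]],[],[[[[[[[[[Int.negSucc (nat_lit 3742066314449760)]]]]]]]]]]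

/-- A coefficient. -/
noncomputable def sp1_m0_1_0 : MP 10 :=
  [[[[[[[[[[Int.negSucc (nat_lit 11360124541779185)]],[],[[Int.ofNat (nat_lit 45440498167116744)]]],[],[[[Int.ofNat (nat_lit 45440498167116744)]]]],[],[[[[Int.ofNat (nat_lit 34080373625337558)]]]]],[],[[[[[Int.ofNat (nat_lit 34080373625337558)]]]]]],[],[[[[[[Int.ofNat (nat_lit 22720249083558372)]]]]]]],[],[[[[[[[Int.ofNat (nat_lit 22720249083558372)]]]]]]]],[],[[[[[[[[Int.ofNat (nat_lit 11360124541779186)]]]]]]]]],[],[[[[[[[[[Int.ofNat (nat_lit 11360124541779186)]]]]]]]]]]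

/-- A coefficient. -/
noncomputable def sp1_m0_2_0 : MP 10 :=
  [[[[[[[[[[Int.ofNat (nat_lit 11516911263113365)]],[],[[Int.negSucc (nat_lit 46067645052453459)]]],[],[[[Int.negSucc (nat_lit 46067645052453459)]]]],[],[[[[Int.negSucc (nat_lit 34550733789340094)]]]]],[],[[[[[Int.negSucc (nat_lit 34550733789340094)]]]]]],[],[[[[[[Int.negSucc (nat_lit 23033822526226729)]]]]]]],[],[[[[[[[Int.negSucc (nat_lit 23033822526226729)]]]]]]]],[],[[[[[[[[Int.negSucc (nat_lit 11516911263113364)]]]]]]]]],[],[[[[[[[[[Int.negSucc (nat_lit 11516911263113364)]]]]]]]]]]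

/-- An expanded part. -/
noncomputable def sp1_m0 : R12 :=
  [[sp1_m0_0_0],
   [sp1_m0_1_0],
   [sp1_m0_2_0]]

set_option maxRecDepth 100000 in
theorem sp1_check0 : partOk 3 sp1_rows 0 sp1_m0 = true :=
  Fast.partOk_of_fast (by decide +kernel)

end Vale.Agent.P142K.CertB
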