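import Vale.Agent.P142K.Checker

/-!
# A factor of the certificate

Generated from a semidefinite program; only the checker is trusted.
-/

namespace Vale.Agent.P142K.CertB

open Vale.Agent.P142J (MP)

/-- A row. -/
noncomputable def sp1_c0_0 : List ℕ × List ℤ :=
  ([(nat_lit 0),(nat_lit 0),(nat_lit 0),(nat_lit 0),(nat_lit 0),(nat_lit 0),(nat_lit 0),(nat_lit 0),(nat_lit 0),(nat_lit 0),(nat_lit 0),(nat_lit 0)], [Int.ofNat (nat_lit 61172431)])

/-- A row. -/
noncomputable def sp1_c0_1 : List ℕ × List ℤ :=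
  ([(nat_lit 1),(nat_lit 0),(nat_lit 0),(nat_lit 0),(nat_lit 0),(nat_lit 0),(nat_lit 0),(nat_lit 0),(nat_lit 0),(nat_lit 0),(nat_lit 0),(nat_lit 0)], [Int.negSucc (nat_lit 92853302),Int.ofNat (nat_lit 53806834)])

/-- A part of a triangular factor. -/
noncomputable def sp1_c0 : Rows :=
  [sp1_c0_0,
   sp1_c0_1]

/-- A triangular factor. -/
noncomputable def sp1_rows : List Rows :=
  [sp1_c0]

end Vale.Agent.P142K.CertB
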