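import Vale.Agent.P142K.CertB.Sp2Rows
import Vale.Agent.P142K.Fast

/-!
# An expanded part of the certificate

Generated from a semidefinite program; only the checker is trusted.
-/

namespace Vale.Agent.P142K.CertB

open Vale.Agent.P142J (MP)

/-- A coefficient. -/
noncomputable def sp2_m0_0_0 : MP 10 :=
  [[[[[[[[[[Int.ofNat (nat_lit 243521892515344)]]],[[[Int.ofNat (nat_lit 122156319300840)]]],[[[Int.ofNat (nat_lit 2679125717499309)]]]]],[[[[[Int.negSucc (nat_lit 230715463772767)]]],[[[Int.ofNat (nat_lit 2062072180106796)]]]]],[[[[[Int.ofNat (nat_lit 5664271157022410)]]]]]]],[[[[[[[Int.negSucc (nat_lit 375525023023431)]]],[[[Int.negSucc (nat_lit 4460369605148333)]]]]],[[[[[Int.negSucc (nat_lit 1638800870207685)]]]]]]],[[[[[[[Int.ofNat (nat_lit 9526952745065023)]]]]]]]],[[[],[[[[[[Int.negSucc (nat_lit 119008815301991)]]],[[[Int.negSucc (nat_lit 1599260416401017)]]]]],[[[[[Int.negSucc (nat_lit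 607234575232753)]]]]]]],[[],[[[[[[Int.ofNat (nat_lit 515688695575384)]]]]]]]],[[[[[[[[Int.ofNat (nat_lit 66298859690632)]]],[[[Int.ofNat (nat_lit 638957681447970)]]]]],[[[[[Int.negSucc (nat_lit 527434786959631)]]]]]],[],[[[[[[Int.ofNat (nat_lit 1305668504582472)]]]]]]],[[[[[[[Int.negSucc (nat_lit 262451976614087)]]]]]]]],[[[],[[[[[[Int.negSucc (nat_lit 1395460888013337)]]]]]]]],[[[[[[[[Int.ofNat (nat_lit 500682704743644)]]]]]]]]],[[[[[[[[[Int.ofNat (nat_lit 1361627526692024)]]],[[[Int.ofNat (nat_lit 574829578812558)]]]]],[[[[[Int.ofNat (nat_lit 1300900008492342)]]]]]]],[[[[[[[Int.negSucc (nat_lit 7400607541762161)]]],[[[Int.ofNat (nat_lit 3188704196632668)]]]]],[[[[[Int.ofNat (nat_lit 1101490913386710)]]]]]]],[[[[[[[Int.negSucc (nat_lit 3964675261380321)]]]]]]]],[[[],[[[[[[Int.ofNat (nat_lit 213076102301628)]]]]]]],[[],[[[[[[Int.negSucc (nat_lit 1464700673167551)]]]]]]]],[[[[[[[[Int.negSucc (nat_lit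 362521426623635)]]]]]]],[[[[[[[Int.ofNat (nat_lit 813317840598960)]]]]]]]]],[[[[[[[[[Int.ofNat (nat_lit 6470164878662467)]]],[[[Int.negSucc (nat_lit 715278839064671)]]]]],[[[[[Int.ofNat (nat_lit 1356207068068422)]]]]]]],[[[[[[[Int.negSucc (nat_lit 1578454494985001)]]]]]]],[[[[[[[Int.ofNat (nat_lit 2052579397249169)]]]]]]]],[[[],[[[[[[Int.ofNat (nat_lit 861885218935812)]]]]]]]],[[[[[[[[Int.negSucc (nat_lit 791798806032945)]]]]]]]]],[[[[[[[[[Int.ofNat (nat_lit 3792289430065490)]]]]]]],[[[[[[[Int.negSucc (nat_lit 2411225440730215)]]]]]]]]],[[[[[[[[[Int.ofNat (nat_lit 1559275548955296)]]]]]]]]]]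

/-- A coefficient. -/
noncomputable def sp2_m0_0_1 : MP 10 :=
  [[[[[[[],[[[[Int.ofNat (nat_lit 75148312122424)]]],[[[Int.ofNat (nat_lit 8890160586947454)]]]]],[[],[[[[Int.negSucc (nat_lit 1054365619302475)]]]]]],[[[[[[Int.ofNat (nat_lit 577928212680432)]]],[[[Int.ofNat (nat_lit 6349136083165572)]]]]],[[[[[Int.ofNat (nat_lit 7270344158514472)]]]]]]],[[[[],[[[[Int.negSucc (nat_lit 15009026745069973)]]]]]],[[[[[[Int.negSucc (nat_lit 1921632384069657)]]]]]]]],[[[[[[[[Int.negSucc (nat_lit 1158079072287703)]]],[[[Int.negSucc (nat_lit 3841388492752145)]]]]],[[[[[Int.ofNat (nat_lit 600484888213482)]]]]]],[[[],[[[[Int.negSucc (nat_lit 4115500557722697)]]]]]],[[[[[[Int.negSucc (nat_lit 10288880356061925)]]]]]]],[[[[[[[Int.negSucc (nat_lit 12764801137326827)]]]]]]]],[[[[[],[[[[Int.ofNat (nat_lit 2144758059005240)]]]]]],[[[[[[Int.ofNat (nat_lit 17824195982251354)]]]]]]]],[[[[[[[[Int.negSucc (nat_lit 7300624777823467)]]]]]]]]],[[[[[[],[[[[Int.ofNat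 (nat_lit 2333963291506264)]]]]]],[[[[[[Int.negSucc (nat_lit 523875023101329)]]]]]]],[[[[],[[[[Int.ofNat (nat_lit 6344545576387134)]]]]]],[[[[[[Int.ofNat (nat_lit 5765439678560152)]]]]]]]],[[[[[[[[Int.ofNat (nat_lit 4896499857049220)]]],[[[Int.negSucc (nat_lit 9443753979551)]]]]],[[[[[Int.negSucc (nat_lit 537208311992561)]]]]]]],[[[[[[[Int.negSucc (nat_lit 4471484804202557)]]]]]]]],[[[],[[[[[[Int.ofNat (nat_lit 439927271840036)]]]]]]]],[[[[[[[[Int.negSucc (nat_lit 239365675617359)]]]]]]]]],[[[[[[],[[[[Int.negSucc (nat_lit 2230475173252947)]]]]]],[[[[[[Int.negSucc (nat_lit 3123318292297889)]]]]]]]],[[[[[[[[Int.ofNat (nat_lit 5305691484033520)]]]]]]],[[[[[[[Int.negSucc (nat_lit 136673368360455)]]]]]]]]],[[],[[[[[[[[Int.ofNat (nat_lit 182914692372340)]]]]]]]]]]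

/-- A coefficient. -/
noncomputable def sp2_m0_0_2 : MP 10 :=
  [[[[[[[[[[Int.negSucc (nat_lit 3119823017007583)]]],[[[Int.ofNat (nat_lit 5119310931592104)]]],[[[Int.negSucc (nat_lit 2679125717499308)]]]],[],[[[[Int.ofNat (nat_lit 70165417399582194)]]]]],[[[[[Int.ofNat (nat_lit 1801559758854186)]]],[[[Int.negSucc (nat_lit 2062072180106795)]]]]],[[[[[Int.negSucc (nat_lit 5664271157022409)]]]]]],[[[],[[[[Int.negSucc (nat_lit 1351912621584809)]]]]]],[[[[[[Int.ofNat (nat_lit 40997243821576111)]]]]]]],[[[[[[[Int.ofNat (nat_lit 9845303741505058)]]],[[[Int.ofNat (nat_lit 3346629494874240)]]]]],[[[[[Int.negSucc (nat_lit 1897424466326819)]]]]]]],[[[[[[[Int.negSucc (nat_lit 33964210353501594)]]]]]]]],[[[[[],[[[[Int.negSucc (nat_lit 16768627985397251)]]]]]],[[[[[[Int.negSucc (nat_lit 71112301737198779)]]],[[[Int.ofNat (nat_lit 1599260416401018)]]]]],[[[[[Int.ofNat (nat_lit 607234575232754)]]]]]]],[[],[[[[[[Int.ofNat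 (nat_lit 1876711924376658)]]]]]]]],[[[[[[[[Int.ofNat (nat_lit 85215292563085325)]]],[[[Int.negSucc (nat_lit 638957681447969)]]]]],[[[[[Int.ofNat (nat_lit 527434786959632)]]]]]],[],[[[[[[Int.negSucc (nat_lit 1305668504582471)]]]]]]],[[[[[[[Int.negSucc (nat_lit 995410958898205)]]]]]]]],[[[],[[[[[[Int.ofNat (nat_lit 1395460888013338)]]]]]]]],[[[[[[[[Int.negSucc (nat_lit 500682704743643)]]]]]]]]],[[[[[[[[[Int.negSucc (nat_lit 16583677865192867)]]],[[[Int.negSucc (nat_lit 659904551260043)]]]]],[[[[[Int.ofNat (nat_lit 3066967118872240)]]]]]]],[[[[[[[Int.ofNat (nat_lit 37873620183476036)]]],[[[Int.negSucc (nat_lit 3188704196632667)]]]]],[[[[[Int.negSucc (nat_lit 1101490913386709)]]]]]]],[[[[[[[Int.ofNat (nat_lit 3616391343671720)]]]]]]]],[[[[[],[[[[Int.ofNat (nat_lit 12565682406280832)]]]]]],[[[[[[Int.negSucc (nat_lit 6892166943391111)]]]]]]],[[],[[[[[[Int.ofNat (nat_lit 1464700673167552)]]]]]]]],[[[[[[[[Int.ofNat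 (nat_lit 6257227411983436)]]]]]]],[[[[[[[Int.negSucc (nat_lit 813317840598959)]]]]]]]]],[[[[[[[[[Int.negSucc (nat_lit 28888212145218046)]]],[[[Int.ofNat (nat_lit 715278839064672)]]]]],[[[[[Int.negSucc (nat_lit 1356207068068421)]]]]]]],[[[[[[[Int.ofNat (nat_lit 1731237100807772)]]]]]]],[[[[[[[Int.negSucc (nat_lit 2052579397249168)]]]]]]]],[[[],[[[[[[Int.negSucc (nat_lit 861885218935811)]]]]]]]],[[[[[[[[Int.ofNat (nat_lit 4570642758797079)]]]]]]]]],[[[[[[[[[Int.negSucc (nat_lit 3332161232342385)]]]]]]],[[[[[[[Int.ofNat (nat_lit 2411225440730216)]]]]]]]]],[[[[[[[[[Int.negSucc (nat_lit 1559275548955295)]]]]]]]]]]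

/-- A coefficient. -/
noncomputable def sp2_m0_0_3 : MP 10 :=
  [[[[[[[],[[[[Int.ofNat (nat_lit 34316419431727600)]]],[[[Int.negSucc (nat_lit 8890160586947453)]]]]],[[],[[[[Int.ofNat (nat_lit 1054365619302476)]]]]]],[[[[[[Int.ofNat (nat_lit 66429871093559862)]]],[[[Int.negSucc (nat_lit 6349136083165571)]]]]],[[[[[Int.negSucc (nat_lit 7270344158514471)]]]]]]],[[[[],[[[[Int.negSucc (nat_lit 12905317966134699)]]]]]],[[[[[[Int.negSucc (nat_lit 15634658269986007)]]]]]]]],[[[[[[[[Int.negSucc (nat_lit 153381804335818191)]]],[[[Int.ofNat (nat_lit 3842031724350534)]]]]],[[[[[Int.negSucc (nat_lit 649455202329279)]]]]]],[[[],[[[[Int.ofNat (nat_lit 4115500557722698)]]]]]],[[[[[[Int.ofNat (nat_lit 10288880356061926)]]]]]]],[[[[[[[Int.ofNat (nat_lit 54818734666172026)]]]]]]]],[[[[[],[[[[Int.negSucc (nat_lit 2144758059005239)]]]]]],[[[[[[Int.negSucc (nat_lit 22051927886792675)]]]]]]]],[[[[[[[[Int.ofNat (nat_lit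 9332891069620642)]]]]]]]]],[[[[[[],[[[[Int.negSucc (nat_lit 17648080350657725)]]]]]],[[[[[[Int.ofNat (nat_lit 16458511813916280)]]]]]]],[[[[],[[[[Int.negSucc (nat_lit 6344545576387133)]]]]]],[[[[[[Int.negSucc (nat_lit 5765439678560151)]]]]]]]],[[[[[[[[Int.negSucc (nat_lit 30067556115092769)]]],[[[Int.ofNat (nat_lit 9443753979552)]]]]],[[[[[Int.ofNat (nat_lit 537208311992562)]]]]]]],[[[[[[[Int.ofNat (nat_lit 1622074660066302)]]]]]]]],[[[],[[[[[[Int.negSucc (nat_lit 439927271840035)]]]]]]]],[[[[[[[[Int.ofNat (nat_lit 239365675617360)]]]]]]]]],[[[[[[],[[[[Int.ofNat (nat_lit 2230475173252948)]]]]]],[[[[[[Int.ofNat (nat_lit 3123318292297890)]]]]]]]],[[[[[[[[Int.negSucc (nat_lit 10633842501157609)]]]]]]],[[[[[[[Int.ofNat (nat_lit 136673368360456)]]]]]]]]],[[],[[[[[[[[Int.negSucc (nat_lit 182914692372339)]]]]]]]]]]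

/-- A coefficient. -/
noncomputable def sp2_m0_0_4 : MP 10 :=
  [[[[[[[[[[Int.ofNat (nat_lit 165912512761330853)]]],[[[Int.negSucc (nat_lit 7905800718899573)]]]],[],[[[[Int.negSucc (nat_lit 70165417399582193)]]]]],[[[[[Int.negSucc (nat_lit 3335568753201723)]]]]]],[[[],[[[[Int.ofNat (nat_lit 1351912621584810)]]]]]],[[[[[[Int.negSucc (nat_lit 40997243821576110)]]]]]]],[[[[[[[Int.negSucc (nat_lit 52086646186434719)]]],[[[Int.ofNat (nat_lit 1113740110274094)]]]]],[[[[[Int.ofNat (nat_lit 3536225336534506)]]]]]]],[[[[[[[Int.ofNat (nat_lit 152587058898876508)]]]]]]]],[[[[[],[[[[Int.ofNat (nat_lit 33009137889090808)]]]]]],[[[[[[Int.ofNat (nat_lit 91912581794927610)]]]]]]],[[],[[[[[[Int.negSucc (nat_lit 2392400619952041)]]]]]]]],[[[[[[[[Int.negSucc (nat_lit 254435750515703326)]]]]]]],[[[[[[[Int.ofNat (nat_lit 1257862935512294)]]]]]]]]],[[[[[[[[[Int.ofNat (nat_lit 61213800049117576)]]],[[[Int.ofNat (nat_lit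 85074972447486)]]]]],[[[[[Int.negSucc (nat_lit 4367867127364581)]]]]]]],[[[[[[[Int.negSucc (nat_lit 116782659102219761)]]]]]]],[[[[[[[Int.ofNat (nat_lit 348283917708602)]]]]]]]],[[[[[],[[[[Int.negSucc (nat_lit 12565682406280831)]]]]]],[[[[[[Int.ofNat (nat_lit 6679090841089484)]]]]]]]],[[[[[[[[Int.negSucc (nat_lit 7857217482922543)]]]]]]]]],[[[[[[[[[Int.ofNat (nat_lit 120647563933605242)]]]]]]],[[[[[[[Int.negSucc (nat_lit 152782605822769)]]]]]]]],[],[[[[[[[[Int.negSucc (nat_lit 3778843952764132)]]]]]]]]],[[[[[[[[[Int.negSucc (nat_lit 460128197723103)]]]]]]]]]]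

/-- A coefficient. -/
noncomputable def sp2_m0_0_5 : MP 10 :=
  [[[[[[[],[[[[Int.negSucc (nat_lit 63624094596562639)]]]]]],[[[[[[Int.negSucc (nat_lit 105569612713694371)]]]]]]],[[[[],[[[[Int.ofNat (nat_lit 27914344711204674)]]]]]],[[[[[[Int.ofNat (nat_lit 17556290654055666)]]]]]]]],[[[[[[[[Int.ofNat (nat_lit 482250454501697188)]]],[[[Int.negSucc (nat_lit 643231598387)]]]]],[[[[[Int.ofNat (nat_lit 48970314115798)]]]]]]],[[[[[[[Int.negSucc (nat_lit 123609342938037243)]]]]]]]],[[[],[[[[[[Int.ofNat (nat_lit 4227731904541322)]]]]]]]],[[[[[[[[Int.negSucc (nat_lit 2032266291797173)]]]]]]]]],[[[[[[],[[[[Int.ofNat (nat_lit 15314117059151462)]]]]]],[[[[[[Int.negSucc (nat_lit 15934636790814949)]]]]]]]],[[[[[[[[Int.ofNat (nat_lit 49766882554010134)]]]]]]],[[[[[[[Int.ofNat (nat_lit 2849410144136256)]]]]]]]]],[[],[[[[[[[[Int.ofNat (nat_lit 5328151017124090)]]]]]]]]]]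

/-- A coefficient. -/
noncomputable def sp2_m0_0_6 : MP 10 :=
  [[[[[[[[[[Int.negSucc (nat_lit 578296014910169516)]]],[[[Int.ofNat (nat_lit 2664333468006630)]]]]],[[[[[Int.ofNat (nat_lit 1764724458120306)]]]]]]],[[[[[[[Int.ofNat (nat_lit 121928250752182786)]]]]]]],[[[[[[[Int.negSucc (nat_lit 128149801290439935)]]]]]]]],[[[[[],[[[[Int.negSucc (nat_lit 16240509903693555)]]]]]],[[[[[[Int.negSucc (nat_lit 20681271242426837)]]]]]]]],[[[[[[[[Int.ofNat (nat_lit 376579588331490685)]]]]]]]]],[[[[[[[[[Int.negSucc (nat_lit 103501391929619677)]]]]]]],[[[[[[[Int.ofNat (nat_lit 86309646460505888)]]]]]]]],[],[[[[[[[[Int.ofNat (nat_lit 1962511497562744)]]]]]]]]],[[[[[[[[[Int.negSucc (nat_lit 98229516667049661)]]]]]]]]]]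

/-- A coefficient. -/
noncomputable def sp2_m0_0_7 : MP 10 :=
  [[[[[[[],[[[[Int.ofNat (nat_lit 29232526852712616)]]]]]],[[[[[[Int.ofNat (nat_lit 38561813407454078)]]]]]]]],[[[[[[[[Int.negSucc (nat_lit 672013562562438803)]]]]]]],[[[[[[[Int.ofNat (nat_lit 81555409409192046)]]]]]]]]],[[],[[[[[[[[Int.negSucc (nat_lit 24595826295966583)]]]]]]]]]]

/-- A coefficient. -/
noncomputable def sp2_m0_0_8 : MP 10 :=
  [[[[[[[[[[Int.ofNat (nat_lit 839287646347373429)]]]]]]],[[[[[[[Int.negSucc (nat_lit 79311383284229691)]]]]]]]],[],[[[[[[[[Int.negSucc (nat_lit 207425429238563314)]]]]]]]]],[[[[[[[[[Int.ofNat (nat_lit 57509642219002946)]]]]]]]]]]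

/-- A coefficient. -/
noncomputable def sp2_m0_0_9 : MP 10 :=
  [[[],[[[[[[[[Int.ofNat (nat_lit 344302991468847512)]]]]]]]]]]

/-- A coefficient. -/
noncomputable def sp2_m0_0_10 : MP 10 :=
  [[[[[[[[[[Int.negSucc (nat_lit 424027843074042524)]]]]]]]]]]

/-- A coefficient. -/
noncomputable def sp2_m0_1_0 : MP 10 :=
  [[[[[[[[[[Int.negSucc (nat_lit 1588913968874423)]]],[[[Int.ofNat (nat_lit 1141310869034034)]]]]],[[[[[Int.negSucc (nat_lit 2801327278670573)]]],[[[Int.negSucc (nat_lit 2268311371183331)]]]]],[[[[[Int.negSucc (nat_lit 21262059412429887)]]]]]]],[[[[[[[Int.ofNat (nat_lit 10088609104805368)]]],[[[Int.negSucc (nat_lit 2779229908615775)]]]]],[[[[[Int.negSucc (nat_lit 716007890264591)]]]]]]],[[[[[[[Int.negSucc (nat_lit 10685299925845027)]]]]]]]],[[[],[[[[[[Int.negSucc (nat_lit 1280010846573659)]]]]],[[[[[Int.ofNat (nat_lit 3795795455107752)]]]]]]],[[],[[[[[[Int.negSucc (nat_lit 610161037103275)]]]]]]]],[[[[[[[[Int.ofNat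 (nat_lit 971689987882594)]]],[[[Int.negSucc (nat_lit 1302261834902363)]]]]],[[[[[Int.negSucc (nat_lit 378967750457253)]]]]]]],[[[[[[[Int.ofNat (nat_lit 1800550224846354)]]]]]]]],[[[],[[[[[[Int.ofNat (nat_lit 227163687027414)]]]]]]]],[[[[[[[[Int.negSucc (nat_lit 183631964106117)]]]]]]]]],[[[[[[[[[Int.negSucc (nat_lit 15200466168350331)]]],[[[Int.ofNat (nat_lit 8105439380718864)]]]]],[[[[[Int.negSucc (nat_lit 3016008607421903)]]]]]]],[[[[[[[Int.ofNat (nat_lit 11272873900736754)]]]]],[[[[[Int.negSucc (nat_lit 3128711821648079)]]]]]]],[[[[[[[Int.negSucc (nat_lit 1259195493180209)]]]]]]]],[[[],[[[[[[Int.negSucc (nat_lit 3790340261348517)]]]]]]]],[[[[[[[[Int.ofNat (nat_lit 2634786123868314)]]]]]]],[[[[[[[Int.negSucc (nat_lit 571577148288633)]]]]]]]]],[[[[[[[[[Int.negSucc (nat_lit 27906631771579773)]]],[[[Int.ofNat (nat_lit 2525279168891274)]]]]],[[[[[Int.negSucc (nat_lit 1623344284131933)]]]]]]],[[[[[[[Int.ofNat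 (nat_lit 11246580181177796)]]]]]]]],[[[],[[[[[[Int.negSucc (nat_lit 359259032444985)]]]]]]]],[[[[[[[[Int.ofNat (nat_lit 400866141513146)]]]]]]]]],[[[[[[[[[Int.negSucc (nat_lit 11664959098712333)]]]]]]],[[[[[[[Int.ofNat (nat_lit 257606175655524)]]]]]]]]],[[[[[[[[[Int.negSucc (nat_lit 171688745082709)]]]]]]]]]]

/-- A coefficient. -/
noncomputable def sp2_m0_1_1 : MP 10 :=
  [[[[[[[],[[[[Int.negSucc (nat_lit 2450753012213361)]]]]],[[],[[[[Int.ofNat (nat_lit 3291017722626206)]]]]]],[[[[[[Int.ofNat (nat_lit 4072256258177078)]]],[[[Int.negSucc (nat_lit 1604417282552309)]]]]],[[[[[Int.negSucc (nat_lit 27509211705213473)]]]]]]],[[[[],[[[[Int.negSucc (nat_lit 7876753153695861)]]]]]],[[[[[[Int.ofNat (nat_lit 10016850038210092)]]]]]]]],[[[[[[[[Int.negSucc (nat_lit 16218883876646935)]]],[[[Int.ofNat (nat_lit 5446640183903988)]]]]],[[[[[Int.ofNat (nat_lit 13613608648570622)]]]]]],[],[[[[[[Int.negSucc (nat_lit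 1987979584815867)]]]]]]],[[[[[[[Int.negSucc (nat_lit 1990801594079301)]]]]]]]],[[[[[],[[[[Int.negSucc (nat_lit 2655532452328647)]]]]]],[[[[[[Int.ofNat (nat_lit 103853235617942)]]]]]]]],[[[[[[[[Int.ofNat (nat_lit 918653549623382)]]]]]]]]],[[[[[[],[[[[Int.ofNat (nat_lit 10462785235226820)]]]]]],[[[[[[Int.ofNat (nat_lit 16272091711117570)]]]]]]],[[],[[[[[[Int.negSucc (nat_lit 2626599012542853)]]]]]]]],[[[[[[[[Int.negSucc (nat_lit 21769871899133473)]]]]],[[[[[Int.ofNat (nat_lit 1890758253649862)]]]]]]],[[[[[[[Int.ofNat (nat_lit 1513347301245102)]]]]]]]],[],[[[[[[[[Int.negSucc (nat_lit 70058674608369)]]]]]]]]],[[[[[[],[[[[Int.ofNat (nat_lit 4380862363008836)]]]]]],[[[[[[Int.ofNat (nat_lit 2397895373358354)]]]]]]]],[[[[[[[[Int.negSucc (nat_lit 2384356837827137)]]]]]]]]],[[],[[[[[[[[Int.ofNat (nat_lit 285987338497512)]]]]]]]]]]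

/-- A coefficient. -/
noncomputable def sp2_m0_1_2 : MP 10 :=
  [[[[[[[[[[Int.ofNat (nat_lit 35159524318908744)]]],[[[Int.negSucc (nat_lit 18757174848164333)]]]]],[[[[[Int.negSucc (nat_lit 11441242696948851)]]],[[[Int.ofNat (nat_lit 2268311371183332)]]]]],[[[[[Int.ofNat (nat_lit 21262059412429888)]]]]]],[[[],[[[[Int.negSucc (nat_lit 25651731863393061)]]]]]],[[[[[[Int.negSucc (nat_lit 42886827747151489)]]]]]]],[[[[[[[Int.negSucc (nat_lit 51505719008294233)]]],[[[Int.ofNat (nat_lit 2779229908615776)]]]]],[[[[[Int.ofNat (nat_lit 10535352695117672)]]]]]]],[[[[[[[Int.ofNat (nat_lit 40523671853882598)]]]]]]]],[[[[[],[[[[Int.ofNat (nat_lit 14432539688429288)]]]]]],[[[[[[Int.ofNat (nat_lit 17257284906451156)]]]]],[[[[[Int.negSucc (nat_lit 3795795455107751)]]]]]]],[[],[[[[[[Int.ofNat (nat_lit 610161037103276)]]]]]]]],[[[[[[[[Int.negSucc (nat_lit 44928800641164489)]]],[[[Int.ofNat (nat_lit 1302261834902364)]]]]],[[[[[Int.ofNat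 (nat_lit 378967750457254)]]]]]]],[[[[[[[Int.negSucc (nat_lit 1851136448923859)]]]]]]]],[[[],[[[[[[Int.negSucc (nat_lit 227163687027413)]]]]]]]],[[[[[[[[Int.ofNat (nat_lit 183631964106118)]]]]]]]]],[[[[[[[[[Int.ofNat (nat_lit 108426522570163694)]]],[[[Int.negSucc (nat_lit 12012131999328461)]]]]],[[[[[Int.negSucc (nat_lit 6440508032847805)]]]]]]],[[[[[[[Int.negSucc (nat_lit 34853098111396371)]]]]],[[[[[Int.ofNat (nat_lit 3128711821648080)]]]]]]],[[[[[[[Int.ofNat (nat_lit 1259195493180210)]]]]]]]],[[[],[[[[[[Int.ofNat (nat_lit 225887422793490)]]]]]]]],[[[[[[[[Int.negSucc (nat_lit 12125661686764605)]]]]]]],[[[[[[[Int.ofNat (nat_lit 571577148288634)]]]]]]]]],[[[[[[[[[Int.ofNat (nat_lit 82269342619744542)]]],[[[Int.negSucc (nat_lit 2525279168891273)]]]]],[[[[[Int.ofNat (nat_lit 1623344284131934)]]]]]]],[[[[[[[Int.negSucc (nat_lit 13729309886392719)]]]]]]]],[[[],[[[[[[Int.ofNat (nat_lit 359259032444986)]]]]]]]],[[[[[[[[Int.negSucc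 (nat_lit 400866141513145)]]]]]]]]],[[[[[[[[[Int.ofNat (nat_lit 12474878557150866)]]]]]]],[[[[[[[Int.negSucc (nat_lit 257606175655523)]]]]]]]]],[[[[[[[[[Int.ofNat (nat_lit 171688745082710)]]]]]]]]]]

/-- A coefficient. -/
noncomputable def sp2_m0_1_3 : MP 10 :=
  [[[[[[[],[[[[Int.ofNat (nat_lit 9278759886872426)]]]]],[[],[[[[Int.negSucc (nat_lit 3291017722626205)]]]]]],[[[[[[Int.negSucc (nat_lit 108336304318772173)]]],[[[Int.ofNat (nat_lit 1604417282552310)]]]]],[[[[[Int.ofNat (nat_lit 27509211705213474)]]]]]]],[[[[],[[[[Int.ofNat (nat_lit 7876753153695862)]]]]]],[[[[[[Int.negSucc (nat_lit 7505968114972327)]]]]]]]],[[[[[[[[Int.ofNat (nat_lit 194289844906833848)]]],[[[Int.negSucc (nat_lit 5446640183903987)]]]]],[[[[[Int.negSucc (nat_lit 19444267184839701)]]]]]],[],[[[[[[Int.ofNat (nat_lit 1987979584815868)]]]]]]],[[[[[[[Int.negSucc (nat_lit 6690888630915323)]]]]]]]],[[[[[],[[[[Int.ofNat (nat_lit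 2655532452328648)]]]]]],[[[[[[Int.negSucc (nat_lit 103853235617941)]]]]]]]],[[[[[[[[Int.negSucc (nat_lit 689694995453849)]]]]]]]]],[[[[[[],[[[[Int.negSucc (nat_lit 38675595229984789)]]]]]],[[[[[[Int.ofNat (nat_lit 3913327799224724)]]]]]]],[[],[[[[[[Int.ofNat (nat_lit 2626599012542854)]]]]]]]],[[[[[[[[Int.ofNat (nat_lit 37189928600937416)]]]]],[[[[[Int.negSucc (nat_lit 1890758253649861)]]]]]]],[[[[[[[Int.negSucc (nat_lit 1513347301245101)]]]]]]]],[],[[[[[[[[Int.ofNat (nat_lit 70058674608370)]]]]]]]]],[[[[[[],[[[[Int.negSucc (nat_lit 4380862363008835)]]]]]],[[[[[[Int.negSucc (nat_lit 2397895373358353)]]]]]]]],[[[[[[[[Int.negSucc (nat_lit 3680032959757177)]]]]]]]]],[[],[[[[[[[[Int.negSucc (nat_lit 285987338497511)]]]]]]]]]]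

/-- A coefficient. -/
noncomputable def sp2_m0_1_4 : MP 10 :=
  [[[[[[[[[[Int.negSucc (nat_lit 508744998067430009)]]],[[[Int.ofNat (nat_lit 34858577839348572)]]]]],[[[[[Int.ofNat (nat_lit 21480785389274684)]]]]]],[[[],[[[[Int.ofNat (nat_lit 25651731863393062)]]]]]],[[[[[[Int.ofNat (nat_lit 42886827747151490)]]]]]]],[[[[[[[Int.ofNat (nat_lit 178753742218924220)]]]]],[[[[[Int.negSucc (nat_lit 9819344804853079)]]]]]]],[[[[[[[Int.negSucc (nat_lit 29838371928037569)]]]]]]]],[[[[[],[[[[Int.negSucc (nat_lit 14432539688429287)]]]]]],[[[[[[Int.negSucc (nat_lit 13048521343772373)]]]]]]]],[[[[[[[[Int.ofNat (nat_lit 105350337814162904)]]]]]]],[[[[[[[Int.ofNat (nat_lit 50586224077506)]]]]]]]]],[[[[[[[[[Int.negSucc (nat_lit 332667409412690173)]]],[[[Int.ofNat (nat_lit 3906692618609598)]]]]],[[[[[Int.ofNat (nat_lit 9456516640269710)]]]]]]],[[[[[[[Int.ofNat (nat_lit 32920025253630772)]]]]]]]],[[[],[[[[[[Int.ofNat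 (nat_lit 3564452838555028)]]]]]]]],[[[[[[[[Int.ofNat (nat_lit 9490875562896292)]]]]]]]]],[[[[[[[[[Int.negSucc (nat_lit 194150011973008071)]]]]]]],[[[[[[[Int.ofNat (nat_lit 2482729705214924)]]]]]]]]],[[[[[[[[[Int.negSucc (nat_lit 809919458438531)]]]]]]]]]]

/-- A coefficient. -/
noncomputable def sp2_m0_1_5 : MP 10 :=
  [[[[[[[],[[[[Int.negSucc (nat_lit 26805609103951457)]]]]]],[[[[[[Int.ofNat (nat_lit 166917162482215328)]]]]]]],[[],[[[[[[Int.negSucc (nat_lit 2510881923237763)]]]]]]]],[[[[[[[[Int.negSucc (nat_lit 417308186018517743)]]]]],[[[[[Int.ofNat (nat_lit 5830658536269080)]]]]]]],[[[[[[[Int.ofNat (nat_lit 8681690224994626)]]]]]]]],[],[[[[[[[[Int.negSucc (nat_lit 228958554169531)]]]]]]]]],[[[[[[],[[[[Int.ofNat (nat_lit 28212809994757970)]]]]]],[[[[[[Int.negSucc (nat_lit 20185419510342293)]]]]]]]],[[[[[[[[Int.ofNat (nat_lit 8828558907172266)]]]]]]]]],[[],[[[[[[[[Int.ofNat (nat_lit 6064389797584316)]]]]]]]]]]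

/-- A coefficient. -/
noncomputable def sp2_m0_1_6 : MP 10 :=
  [[[[[[[[[[Int.ofNat (nat_lit 1623938665578731406)]]],[[[Int.negSucc (nat_lit 17242713860218271)]]]]],[[[[[Int.negSucc (nat_lit 7238215413655257)]]]]]]],[[[[[[[Int.negSucc (nat_lit 132869106241290447)]]]]]]]],[[[],[[[[[[Int.negSucc (nat_lit 2928752716105121)]]]]]]]],[[[[[[[[Int.negSucc (nat_lit 61393227160881007)]]]]]]]]],[[[[[[[[[Int.ofNat (nat_lit 294487089975853432)]]]]]]],[[[[[[[Int.negSucc (nat_lit 9339801042971153)]]]]]]]]],[[[[[[[[[Int.ofNat (nat_lit 139787301124843304)]]]]]]]]]]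

/-- A coefficient. -/
noncomputable def sp2_m0_1_7 : MP 10 :=
  [[[[[[[],[[[[Int.ofNat (nat_lit 19977602229292394)]]]]]],[[[[[[Int.negSucc (nat_lit 62653114421620231)]]]]]]]],[[[[[[[[Int.ofNat (nat_lit 287720185604588042)]]]]]]]]],[[],[[[[[[[[Int.negSucc (nat_lit 24248615608976207)]]]]]]]]]]

/-- A coefficient. -/
noncomputable def sp2_m0_1_8 : MP 10 :=
  [[[[[[[[[[Int.negSucc (nat_lit 2148361061328093367)]]]]]]],[[[[[[[Int.negSucc (nat_lit 4467526074144905)]]]]]]]]],[[[[[[[[[Int.negSucc (nat_lit 55045736964976619)]]]]]]]]]]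

/-- A coefficient. -/
noncomputable def sp2_m0_1_9 : MP 10 :=
  [[[],[[[[[[[[Int.negSucc (nat_lit 48482960616257209)]]]]]]]]]]

/-- A coefficient. -/
noncomputable def sp2_m0_1_10 : MP 10 :=
  [[[[[[[[[[Int.ofNat (nat_lit 999596783466757652)]]]]]]]]]]

/-- A coefficient. -/
noncomputable def sp2_m0_2_0 : MP 10 :=
  [[[[[[[[[[Int.ofNat (nat_lit 12218331063858599)]]],[[[Int.negSucc (nat_lit 2745376831321505)]]],[[[Int.negSucc (nat_lit 2679125717499308)]]]]],[[[[[Int.ofNat (nat_lit 12790738412161748)]]],[[[Int.negSucc (nat_lit 2062072180106795)]]]]],[[[[[Int.ofNat (nat_lit 20236117979437855)]]]]]]],[[[[[[[Int.negSucc (nat_lit 22519349080449749)]]],[[[Int.ofNat (nat_lit 6446421103566138)]]]]],[[[[[Int.ofNat (nat_lit 4115104002265154)]]]]]]],[[[[[[[Int.ofNat (nat_lit 10369679188415479)]]]]]]]],[[[],[[[[[[Int.ofNat (nat_lit 1494469821968164)]]],[[[Int.ofNat (nat_lit 1599260416401018)]]]]],[[[[[Int.ofNat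 (nat_lit 607234575232754)]]]]]]],[[],[[[[[[Int.ofNat (nat_lit 1017199979409902)]]]]]]]],[[[[[[[[Int.negSucc (nat_lit 2101588415077677)]]],[[[Int.negSucc (nat_lit 638957681447969)]]]]],[[[[[Int.negSucc (nat_lit 1941849912344155)]]]]]],[],[[[[[[Int.negSucc (nat_lit 1305668504582471)]]]]]]],[[[[[[[Int.ofNat (nat_lit 6092466930852)]]]]]]]],[[[],[[[[[[Int.ofNat (nat_lit 1395460888013338)]]]]]]]],[[[[[[[[Int.ofNat (nat_lit 114110670849289)]]]]]]]]],[[[[[[[[[Int.ofNat (nat_lit 48781967379742536)]]],[[[Int.negSucc (nat_lit 8510205663599051)]]]]],[[[[[Int.ofNat (nat_lit 2132949218482530)]]]]]]],[[[[[[[Int.negSucc (nat_lit 29514160719755697)]]],[[[Int.negSucc (nat_lit 3188704196632667)]]]]],[[[[[Int.negSucc (nat_lit 1101490913386709)]]]]]]],[[[[[[[Int.ofNat (nat_lit 4075874773167618)]]]]]]]],[[[],[[[[[[Int.ofNat (nat_lit 1422416810542162)]]]]]]],[[],[[[[[[Int.ofNat (nat_lit 1464700673167552)]]]]]]]],[[[[[[[[Int.negSucc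 (nat_lit 3220317199452231)]]]]]]],[[[[[[[Int.negSucc (nat_lit 813317840598959)]]]]]]]]],[[[[[[[[[Int.ofNat (nat_lit 49143762344865247)]]],[[[Int.ofNat (nat_lit 715278839064672)]]]]],[[[[[Int.ofNat (nat_lit 2521428696509198)]]]]]]],[[[[[[[Int.negSucc (nat_lit 7690045145898053)]]]]]]],[[[[[[[Int.negSucc (nat_lit 2052579397249168)]]]]]]]],[[[],[[[[[[Int.negSucc (nat_lit 861885218935811)]]]]]]]],[[[[[[[[Int.negSucc (nat_lit 672636393892943)]]]]]]]]],[[[[[[[[[Int.ofNat (nat_lit 8941357668231650)]]]]]]],[[[[[[[Int.ofNat (nat_lit 2411225440730216)]]]]]]]]],[[[[[[[[[Int.ofNat (nat_lit 2097337882237371)]]]]]]]]]]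

/-- A coefficient. -/
noncomputable def sp2_m0_2_1 : MP 10 :=
  [[[[[[[],[[[[Int.negSucc (nat_lit 2659105089941463)]]],[[[Int.negSucc (nat_lit 8890160586947453)]]]]],[[],[[[[Int.ofNat (nat_lit 1054365619302476)]]]]]],[[[[[[Int.negSucc (nat_lit 2300126629129431)]]],[[[Int.negSucc (nat_lit 6349136083165571)]]]]],[[[[[Int.negSucc (nat_lit 1696512305374677)]]]]]]],[[[[],[[[[Int.ofNat (nat_lit 28765882086648914)]]]]]],[[[[[[Int.negSucc (nat_lit 8163361870942403)]]]]]]]],[[[[[[[[Int.ofNat (nat_lit 19422354650320800)]]],[[[Int.ofNat (nat_lit 665709057904026)]]]]],[[[[[Int.ofNat (nat_lit 131761496510194)]]]]]],[[[],[[[[Int.ofNat (nat_lit 4115500557722698)]]]]]],[[[[[[Int.ofNat (nat_lit 10288880356061926)]]]]]]],[[[[[[[Int.ofNat (nat_lit 18929389484767712)]]]]]]]],[[[[[],[[[[Int.negSucc (nat_lit 2144758059005239)]]]]]],[[[[[[Int.negSucc (nat_lit 19622349465912729)]]]]]]]],[[[[[[[[Int.ofNat (nat_lit 4562994781621066)]]]]]]]]],[[[[[[],[[[[Int.negSucc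 (nat_lit 22617785820042101)]]]]]],[[[[[[Int.negSucc (nat_lit 6994180623972721)]]]]]]],[[[[],[[[[Int.negSucc (nat_lit 6344545576387133)]]]]]],[[[[[[Int.negSucc (nat_lit 5765439678560151)]]]]]]]],[[[[[[[[Int.ofNat (nat_lit 21950340504618824)]]],[[[Int.ofNat (nat_lit 9443753979552)]]]]],[[[[[Int.ofNat (nat_lit 537208311992562)]]]]]]],[[[[[[[Int.ofNat (nat_lit 1901868703139618)]]]]]]]],[[[],[[[[[[Int.negSucc (nat_lit 439927271840035)]]]]]]]],[[[[[[[[Int.ofNat (nat_lit 239365675617360)]]]]]]]]],[[[[[[],[[[[Int.ofNat (nat_lit 2230475173252948)]]]]]],[[[[[[Int.ofNat (nat_lit 1319776596235146)]]]]]]]],[[[[[[[[Int.ofNat (nat_lit 6336009686503718)]]]]]]],[[[[[[[Int.ofNat (nat_lit 136673368360456)]]]]]]]]],[[],[[[[[[[[Int.negSucc (nat_lit 182914692372339)]]]]]]]]]]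

/-- A coefficient. -/
noncomputable def sp2_m0_2_2 : MP 10 :=
  [[[[[[[[[[Int.negSucc (nat_lit 143316190938230052)]]],[[[Int.ofNat (nat_lit 436480757927808)]]]],[],[[[[Int.negSucc (nat_lit 70165417399582193)]]]]],[[[[[Int.negSucc (nat_lit 10669736251631935)]]]]],[[[[[Int.negSucc (nat_lit 25900389136460264)]]]]]],[[[],[[[[Int.ofNat (nat_lit 1351912621584810)]]]]]],[[[[[[Int.ofNat (nat_lit 79327472508950460)]]]]]]],[[[[[[[Int.ofNat (nat_lit 59034493762469210)]]],[[[Int.negSucc (nat_lit 872311388143709)]]]]],[[[[[Int.ofNat (nat_lit 1059922204477038)]]]]]]],[[[[[[[Int.ofNat (nat_lit 4794752701139234)]]]]]]]],[[[[[],[[[[Int.ofNat (nat_lit 39007678809962112)]]]]]],[[[[[[Int.ofNat (nat_lit 24344660800637988)]]]]]]],[[],[[[[[[Int.negSucc (nat_lit 3925289294937327)]]]]]]]],[[[[[[[[Int.negSucc (nat_lit 74494966407833664)]]]]],[[[[[Int.ofNat (nat_lit 2469284699303788)]]]]]]],[[[[[[[Int.ofNat (nat_lit 1514222445195530)]]]]]]]],[],[[[[[[[[Int.negSucc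 (nat_lit 614793375592932)]]]]]]]]],[[[[[[[[[Int.negSucc (nat_lit 221994291003999031)]]],[[[Int.ofNat (nat_lit 8020451057233980)]]]]],[[[[[Int.negSucc (nat_lit 11817509265800629)]]]]]]],[[[[[[[Int.ofNat (nat_lit 15111494125183680)]]]]]]],[[[[[[[Int.ofNat (nat_lit 237084405921306)]]]]]]]],[[[[[],[[[[Int.negSucc (nat_lit 12565682406280831)]]]]]],[[[[[[Int.ofNat (nat_lit 5043597928245694)]]]]]]]],[[[[[[[[Int.ofNat (nat_lit 1275520432658568)]]]]]]]]],[[[[[[[[[Int.negSucc (nat_lit 142652835268188793)]]]]],[[[[[Int.negSucc (nat_lit 3877635764577619)]]]]]]],[[[[[[[Int.ofNat (nat_lit 9115717035060286)]]]]]]]],[],[[[[[[[[Int.negSucc (nat_lit 2314408752838242)]]]]]]]]],[[[[[[[[[Int.negSucc (nat_lit 14425873749691715)]]]]]]]]],[[[[[[[[[Int.negSucc (nat_lit 3656613431192666)]]]]]]]]]]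

/-- A coefficient. -/
noncomputable def sp2_m0_2_3 : MP 10 :=
  [[[[[[[],[[[[Int.negSucc (nat_lit 51096298877548347)]]]]]],[[[[[[Int.ofNat (nat_lit 10918794451901090)]]]]],[[[[[Int.negSucc (nat_lit 5573831853139793)]]]]]]],[[[[],[[[[Int.ofNat (nat_lit 14157489369625734)]]]]]],[[[[[[Int.ofNat (nat_lit 27641284909067728)]]]]]]]],[[[[[[[[Int.ofNat (nat_lit 95689011141519560)]]],[[[Int.ofNat (nat_lit 3175036203249732)]]]]],[[[[[Int.negSucc (nat_lit 683276070607877)]]]]]]],[[[[[[[Int.negSucc (nat_lit 75495794820966329)]]]]]]]],[[[],[[[[[[Int.ofNat (nat_lit 6025885388202698)]]]]]]]],[[[[[[[[Int.ofNat (nat_lit 705363704405228)]]]]]]]]],[[[[[[],[[[[Int.ofNat (nat_lit 35597939587687300)]]]]]],[[[[[[Int.ofNat (nat_lit 30562481101349110)]]]]]]]],[[[[[[[[Int.negSucc (nat_lit 17535027737312329)]]]]]]],[[[[[[[Int.ofNat (nat_lit 5419026245199196)]]]]]]]]],[[[[],[[[[[[Int.ofNat (nat_lit 1803541696062744)]]]]]]]],[[[[[[[[Int.negSucc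 (nat_lit 6313550153413147)]]]]]]]]]]

/-- A coefficient. -/
noncomputable def sp2_m0_2_4 : MP 10 :=
  [[[[[[[[[[Int.ofNat (nat_lit 972034174134461466)]]],[[[Int.negSucc (nat_lit 390394028793455)]]]]],[[[[[Int.negSucc (nat_lit 4811860221747863)]]]]]],[],[[[[[[Int.negSucc (nat_lit 120324716330526570)]]]]]]],[[[[[[[Int.negSucc (nat_lit 19232042264482409)]]]]]]],[[[[[[[Int.negSucc (nat_lit 128403928316623099)]]]]]]]],[[[[[],[[[[Int.negSucc (nat_lit 38479560728258415)]]]]]],[[[[[[Int.ofNat (nat_lit 24829917502769774)]]]]]]]],[[[[[[[[Int.ofNat (nat_lit 261973308995801762)]]]]]]]]],[[[[[[[[[Int.ofNat (nat_lit 620318079645655934)]]]]],[[[[[Int.ofNat (nat_lit 4015792911461176)]]]]]]],[[[[[[[Int.ofNat (nat_lit 77639907955126194)]]]]]]]],[],[[[[[[[[Int.negSucc (nat_lit 1624876294379755)]]]]]]]]],[[[[[[[[[Int.ofNat (nat_lit 576881369642092316)]]]]]]]]],[[[[[[[[[Int.ofNat (nat_lit 1232098453671472)]]]]]]]]]]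

/-- A coefficient. -/
noncomputable def sp2_m0_2_5 : MP 10 :=
  [[[[[[[],[[[[Int.ofNat (nat_lit 48521214764229980)]]]]]],[[[[[[Int.negSucc (nat_lit 55717581955399553)]]]]]]]],[[[[[[[[Int.negSucc (nat_lit 410811671754070149)]]]]]]],[[[[[[[Int.ofNat (nat_lit 108832682353872294)]]]]]]]]],[[[[],[[[[[[Int.negSucc (nat_lit 38979062245090007)]]]]]]]],[[[[[[[[Int.negSucc (nat_lit 8736582662278747)]]]]]]]]]]

/-- A coefficient. -/
noncomputable def sp2_m0_2_6 : MP 10 :=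
  [[[[[[[[[[Int.negSucc (nat_lit 3110764015506385304)]]]]],[[[[[Int.ofNat (nat_lit 3115453688029708)]]]]]]],[[[[[[[Int.negSucc (nat_lit 63071871929271841)]]]]]]]],[],[[[[[[[[Int.negSucc (nat_lit 308995914600992952)]]]]]]]]],[[[[[[[[[Int.negSucc (nat_lit 621697880286135755)]]]]]]]]],[[[[[[[[[Int.negSucc (nat_lit 565653930997925317)]]]]]]]]]]

/-- A coefficient. -/
noncomputable def sp2_m0_2_7 : MP 10 :=
  [[[[[],[[[[[[Int.ofNat (nat_lit 18075000021161248)]]]]]]]],[[[[[[[[Int.ofNat (nat_lit 467990688817879610)]]]]]]]]]]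

/-- A coefficient. -/
noncomputable def sp2_m0_2_8 : MP 10 :=
  [[[[[[[[[[Int.ofNat (nat_lit 4694649782268876606)]]]]]]]]],[[[[[[[[[Int.ofNat (nat_lit 199970439584931352)]]]]]]]]]]

/-- A coefficient. -/
noncomputable def sp2_m0_2_9 : MP 10 :=
  []

/-- A coefficient. -/
noncomputable def sp2_m0_2_10 : MP 10 :=
  [[[[[[[[[[Int.negSucc (nat_lit 2593993553228154650)]]]]]]]]]]

/-- A coefficient. -/
noncomputable def sp2_m0_3_0 : MP 10 :=
  [[[[[[[[[[Int.negSucc (nat_lit 30036403916795975)]]],[[[Int.negSucc (nat_lit 6045715044438425)]]]]],[[[[[Int.negSucc (nat_lit 20884411806964125)]]],[[[Int.ofNat (nat_lit 2268311371183332)]]]]],[[[[[Int.ofNat (nat_lit 21262059412429888)]]]]]]],[[[[[[[Int.ofNat (nat_lit 33066012612539104)]]],[[[Int.ofNat (nat_lit 2779229908615776)]]]]],[[[[[Int.ofNat (nat_lit 208853579255462)]]]]]]],[[[[[[[Int.negSucc (nat_lit 44180090681042791)]]]]]]]],[[[],[[[[[[Int.ofNat (nat_lit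 5284714714455400)]]]]],[[[[[Int.negSucc (nat_lit 3795795455107751)]]]]]]],[[],[[[[[[Int.ofNat (nat_lit 610161037103276)]]]]]]]],[[[[[[[[Int.negSucc (nat_lit 499253862402073)]]],[[[Int.ofNat (nat_lit 1302261834902364)]]]]],[[[[[Int.ofNat (nat_lit 378967750457254)]]]]]]],[[[[[[[Int.negSucc (nat_lit 1488456047608947)]]]]]]]],[[[],[[[[[[Int.negSucc (nat_lit 227163687027413)]]]]]]]],[[[[[[[[Int.ofNat (nat_lit 183631964106118)]]]]]]]]],[[[[[[[[[Int.negSucc (nat_lit 54878206423788971)]]],[[[Int.negSucc (nat_lit 10441237326919487)]]]]],[[[[[Int.negSucc (nat_lit 10453769345395015)]]]]]]],[[[[[[[Int.ofNat (nat_lit 55277884297264882)]]]]],[[[[[Int.ofNat (nat_lit 3128711821648080)]]]]]]],[[[[[[[Int.ofNat (nat_lit 1259195493180210)]]]]]]]],[[[],[[[[[[Int.ofNat (nat_lit 5882148955848562)]]]]]]]],[[[[[[[[Int.ofNat (nat_lit 283866953468336)]]]]]]],[[[[[[[Int.ofNat (nat_lit 571577148288634)]]]]]]]]],[[[[[[[[[Int.negSucc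 (nat_lit 13929640437355995)]]],[[[Int.negSucc (nat_lit 2525279168891273)]]]]],[[[[[Int.ofNat (nat_lit 1623344284131934)]]]]]]],[[[[[[[Int.negSucc (nat_lit 3362183926101985)]]]]]]]],[[[],[[[[[[Int.ofNat (nat_lit 359259032444986)]]]]]]]],[[[[[[[[Int.negSucc (nat_lit 400866141513145)]]]]]]]]],[[[[[[[[[Int.negSucc (nat_lit 15171302371482521)]]]]]]],[[[[[[[Int.negSucc (nat_lit 257606175655523)]]]]]]]]],[[[[[[[[[Int.ofNat (nat_lit 171688745082710)]]]]]]]]]]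

/-- A coefficient. -/
noncomputable def sp2_m0_3_1 : MP 10 :=
  [[[[[[[],[[[[Int.ofNat (nat_lit 14798435989682464)]]]]],[[],[[[[Int.negSucc (nat_lit 3291017722626205)]]]]]],[[[[[[Int.negSucc (nat_lit 31055738130312175)]]],[[[Int.ofNat (nat_lit 1604417282552310)]]]]],[[[[[Int.ofNat (nat_lit 27509211705213474)]]]]]]],[[[[],[[[[Int.ofNat (nat_lit 7876753153695862)]]]]]],[[[[[[Int.negSucc (nat_lit 10594400079600829)]]]]]]]],[[[[[[[[Int.ofNat (nat_lit 36871689485698146)]]],[[[Int.negSucc (nat_lit 5446640183903987)]]]]],[[[[[Int.negSucc (nat_lit 3914268022937195)]]]]]],[],[[[[[[Int.ofNat (nat_lit 1987979584815868)]]]]]]],[[[[[[[Int.ofNat (nat_lit 56619646470258616)]]]]]]]],[[[[[],[[[[Int.ofNat (nat_lit 2655532452328648)]]]]]],[[[[[[Int.negSucc (nat_lit 103853235617941)]]]]]]]],[[[[[[[[Int.negSucc (nat_lit 1204234487677229)]]]]]]]]],[[[[[[],[[[[Int.negSucc (nat_lit 3077297987434241)]]]]]],[[[[[[Int.negSucc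 (nat_lit 16912444113190701)]]]]]]],[[],[[[[[[Int.ofNat (nat_lit 2626599012542854)]]]]]]]],[[[[[[[[Int.negSucc (nat_lit 33685235508372783)]]]]],[[[[[Int.negSucc (nat_lit 1890758253649861)]]]]]]],[[[[[[[Int.negSucc (nat_lit 1513347301245101)]]]]]]]],[],[[[[[[[[Int.ofNat (nat_lit 70058674608370)]]]]]]]]],[[[[[[],[[[[Int.negSucc (nat_lit 4380862363008835)]]]]]],[[[[[[Int.negSucc (nat_lit 2397895373358353)]]]]]]]],[[[[[[[[Int.negSucc (nat_lit 338254826539253)]]]]]]]]],[[],[[[[[[[[Int.negSucc (nat_lit 285987338497511)]]]]]]]]]]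

/-- A coefficient. -/
noncomputable def sp2_m0_3_2 : MP 10 :=
  [[[[[[[[[[Int.ofNat (nat_lit 96162365627322256)]]],[[[Int.ofNat (nat_lit 39002689323467856)]]]]],[[[[[Int.ofNat (nat_lit 46796869992838500)]]]]]],[[[],[[[[Int.ofNat (nat_lit 25651731863393062)]]]]]],[[[[[[Int.ofNat (nat_lit 42886827747151490)]]]]]]],[[[[[[[Int.negSucc (nat_lit 46336422677560783)]]]]],[[[[[Int.negSucc (nat_lit 9312190493843949)]]]]]]],[[[[[[[Int.ofNat (nat_lit 25027018678850250)]]]]]]]],[[[[[],[[[[Int.negSucc (nat_lit 14432539688429287)]]]]]],[[[[[[Int.negSucc (nat_lit 38937505368663605)]]]]]]]],[[[[[[[[Int.negSucc (nat_lit 164607349439652987)]]]]]]],[[[[[[[Int.negSucc (nat_lit 261507953159899)]]]]]]]]],[[[[[[[[[Int.ofNat (nat_lit 144920527395023994)]]],[[[Int.ofNat (nat_lit 6242490564810222)]]]]],[[[[[Int.ofNat (nat_lit 22926294593086630)]]]]]]],[[[[[[[Int.negSucc (nat_lit 45476914214625305)]]]]]]]],[[[],[[[[[[Int.ofNat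 (nat_lit 1472644144054984)]]]]]]]],[[[[[[[[Int.ofNat (nat_lit 6572222485559642)]]]]]]]]],[[[[[[[[[Int.ofNat (nat_lit 9128852583330092)]]]]]]],[[[[[[[Int.negSucc (nat_lit 5401666549860885)]]]]]]]]],[[[[[[[[[Int.ofNat (nat_lit 26026342011756324)]]]]]]]]]]

/-- A coefficient. -/
noncomputable def sp2_m0_3_3 : MP 10 :=
  [[[[[[[],[[[[Int.negSucc (nat_lit 17708956895886587)]]]]]],[[[[[[Int.ofNat (nat_lit 121918783197139394)]]]]]]],[[],[[[[[[Int.negSucc (nat_lit 1933331881847025)]]]]]]]],[[[[[[[[Int.ofNat (nat_lit 21682731038309500)]]]]],[[[[[Int.negSucc (nat_lit 3868682089364345)]]]]]]],[[[[[[[Int.negSucc (nat_lit 45947154651184687)]]]]]]]],[],[[[[[[[[Int.ofNat (nat_lit 56622383884316)]]]]]]]]],[[[[[[],[[[[Int.ofNat (nat_lit 20827322746965392)]]]]]],[[[[[[Int.negSucc (nat_lit 19545067108269161)]]]]]]]],[[[[[[[[Int.ofNat (nat_lit 124048290108402980)]]]]]]]]],[[],[[[[[[[[Int.ofNat (nat_lit 8787001461950708)]]]]]]]]]]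

/-- A coefficient. -/
noncomputable def sp2_m0_3_4 : MP 10 :=
  [[[[[[[[[[Int.ofNat (nat_lit 403463340690867922)]]],[[[Int.negSucc (nat_lit 33725135029151435)]]]]],[[[[[Int.negSucc (nat_lit 16106776345239631)]]]]]]],[[[[[[[Int.negSucc (nat_lit 120035787076856659)]]]]]]]],[[[],[[[[[[Int.ofNat (nat_lit 16026774724799248)]]]]]]]],[[[[[[[[Int.ofNat (nat_lit 146698796806573356)]]]]]]]]],[[[[[[[[[Int.negSucc (nat_lit 811465852666924561)]]]]]]],[[[[[[[Int.negSucc (nat_lit 6833420815687865)]]]]]]]]],[[[[[[[[[Int.ofNat (nat_lit 118132009902284214)]]]]]]]]]]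

/-- A coefficient. -/
noncomputable def sp2_m0_3_5 : MP 10 :=
  [[[[[[[],[[[[Int.ofNat (nat_lit 18510869273050816)]]]]]],[[[[[[Int.negSucc (nat_lit 53324367686029431)]]]]]]]],[[[[[[[[Int.ofNat (nat_lit 98782557858061408)]]]]]]]]],[[],[[[[[[[[Int.negSucc (nat_lit 108261855011676871)]]]]]]]]]]

/-- A coefficient. -/
noncomputable def sp2_m0_3_6 : MP 10 :=
  [[[[[[[[[[Int.negSucc (nat_lit 1150137851784736221)]]]]]]],[[[[[[[Int.ofNat (nat_lit 22830539550981578)]]]]]]]]],[[[[[[[[[Int.ofNat (nat_lit 827793557508126702)]]]]]]]]]]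

/-- A coefficient. -/
noncomputable def sp2_m0_3_7 : MP 10 :=
  [[[],[[[[[[[[Int.negSucc (nat_lit 128434791163535407)]]]]]]]]]]

/-- A coefficient. -/
noncomputable def sp2_m0_3_8 : MP 10 :=
  [[[[[[[[[[Int.ofNat (nat_lit 974573746324999750)]]]]]]]]]]

/-- A coefficient. -/
noncomputable def sp2_m0_4_0 : MP 10 :=
  [[[[[[[[[[Int.ofNat (nat_lit 40042661878213124)]]],[[[Int.negSucc (nat_lit 767985251558987)]]]]],[[[[[Int.ofNat (nat_lit 5085009884977036)]]]]],[[[[[Int.negSucc (nat_lit 25900389136460264)]]]]]]],[[[[[[[Int.negSucc (nat_lit 40881384421116967)]]],[[[Int.negSucc (nat_lit 1986051498417803)]]]]],[[[[[Int.negSucc (nat_lit 2476303132057467)]]]]]]],[[[[[[[Int.negSucc (nat_lit 19896631933480501)]]]]]]]],[[[],[[[[[[Int.negSucc (nat_lit 2739729699995439)]]]]]]],[[],[[[[[[Int.negSucc (nat_lit 1532888674985285)]]]]]]]],[[[[[[[[Int.ofNat (nat_lit 2347537662732094)]]]]],[[[[[Int.ofNat (nat_lit 2469284699303788)]]]]]]],[[[[[[[Int.ofNat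 (nat_lit 256359509683236)]]]]]]]],[],[[[[[[[[Int.negSucc (nat_lit 614793375592932)]]]]]]]]],[[[[[[[[[Int.negSucc (nat_lit 22478706988333091)]]],[[[Int.ofNat (nat_lit 7935376084786494)]]]]],[[[[[Int.ofNat (nat_lit 7039876952273856)]]]]]]],[[[[[[[Int.ofNat (nat_lit 44679569687488640)]]]]]]],[[[[[[[Int.negSucc (nat_lit 111199511787295)]]]]]]]],[[[],[[[[[[Int.negSucc (nat_lit 1635492912843789)]]]]]]]],[[[[[[[[Int.ofNat (nat_lit 3568126926225270)]]]]]]]]],[[[[[[[[[Int.negSucc (nat_lit 106216842136181961)]]]]],[[[[[Int.negSucc (nat_lit 3877635764577619)]]]]]]],[[[[[[[Int.ofNat (nat_lit 9268499640883056)]]]]]]]],[],[[[[[[[[Int.ofNat (nat_lit 1464435199925890)]]]]]]]]],[[[[[[[[[Int.negSucc (nat_lit 12926816916429275)]]]]]]]]],[[[[[[[[[Int.negSucc (nat_lit 3656613431192666)]]]]]]]]]]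

/-- A coefficient. -/
noncomputable def sp2_m0_4_1 : MP 10 :=
  [[[[[[[],[[[[Int.negSucc (nat_lit 15152311289789193)]]]]]],[[[[[[Int.ofNat (nat_lit 8314118157944846)]]]]],[[[[[Int.negSucc (nat_lit 5573831853139793)]]]]]]],[[[[],[[[[Int.negSucc (nat_lit 13756855341578939)]]]]]],[[[[[[Int.ofNat (nat_lit 10084994255012062)]]]]]]]],[[[[[[[[Int.ofNat (nat_lit 10812529732682106)]]],[[[Int.ofNat (nat_lit 3175679434848120)]]]]],[[[[[Int.negSucc (nat_lit 732246384723675)]]]]]]],[[[[[[[Int.negSucc (nat_lit 6164588347440883)]]]]]]]],[[[],[[[[[[Int.ofNat (nat_lit 1798153483661376)]]]]]]]],[[[[[[[[Int.ofNat (nat_lit 2737629996202402)]]]]]]]]],[[[[[[],[[[[Int.ofNat (nat_lit 20283822528535838)]]]]]],[[[[[[Int.negSucc (nat_lit 2828252013418207)]]]]]]]],[[[[[[[[Int.negSucc (nat_lit 27623689590074473)]]]]]]],[[[[[[[Int.ofNat (nat_lit 2569616101062940)]]]]]]]]],[[[[],[[[[[[Int.ofNat (nat_lit 1803541696062744)]]]]]]]],[[[[[[[[Int.negSucc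 (nat_lit 11641701170537237)]]]]]]]]]]

/-- A coefficient. -/
noncomputable def sp2_m0_4_2 : MP 10 :=
  [[[[[[[[[[Int.ofNat (nat_lit 73903994525507829)]]],[[[Int.ofNat (nat_lit 336478266779568)]]]]],[[[[[Int.negSucc (nat_lit 32018905118158019)]]]]]],[],[[[[[[Int.negSucc (nat_lit 120324716330526570)]]]]]]],[[[[[[[Int.ofNat (nat_lit 35512348095395236)]]]]]]],[[[[[[[Int.negSucc (nat_lit 254127026183163)]]]]]]]],[[[[[],[[[[Int.negSucc (nat_lit 22239050824564859)]]]]]],[[[[[[Int.ofNat (nat_lit 46875457438525880)]]]]]]]],[[[[[[[[Int.negSucc (nat_lit 12255422765861865)]]]]]]]]],[[[[[[[[[Int.ofNat (nat_lit 277858290899445462)]]]]],[[[[[Int.negSucc (nat_lit 6457933267787551)]]]]]]],[[[[[[[Int.negSucc (nat_lit 16434539931350473)]]]]]]]],[],[[[[[[[[Int.negSucc (nat_lit 3572676092091901)]]]]]]]]],[[[[[[[[[Int.ofNat (nat_lit 176754687953392924)]]]]]]]]],[[[[[[[[[Int.ofNat (nat_lit 1425268271803608)]]]]]]]]]]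

/-- A coefficient. -/
noncomputable def sp2_m0_4_3 : MP 10 :=
  [[[[[[[],[[[[Int.ofNat (nat_lit 37024955979125598)]]]]]],[[[[[[Int.negSucc (nat_lit 3479682589681513)]]]]]]]],[[[[[[[[Int.ofNat (nat_lit 35327435949864956)]]]]]]],[[[[[[[Int.ofNat (nat_lit 27277272944680248)]]]]]]]]],[[[[],[[[[[[Int.negSucc (nat_lit 28632754584597747)]]]]]]]],[[[[[[[[Int.ofNat (nat_lit 16636092862094266)]]]]]]]]]]

/-- A coefficient. -/
noncomputable def sp2_m0_4_4 : MP 10 :=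
  [[[[[[[[[[Int.negSucc (nat_lit 3293797810101473592)]]]]],[[[[[Int.ofNat (nat_lit 14028194980983250)]]]]]]],[[[[[[[Int.negSucc (nat_lit 1105976593324889)]]]]]]]],[],[[[[[[[[Int.negSucc (nat_lit 98378646163468065)]]]]]]]]],[[[[[[[[[Int.negSucc (nat_lit 596325914921824613)]]]]]]]]],[[[[[[[[[Int.negSucc (nat_lit 582348748727447333)]]]]]]]]]]

/-- A coefficient. -/
noncomputable def sp2_m0_4_5 : MP 10 :=
  [[[[[],[[[[[[Int.negSucc (nat_lit 61241632472345467)]]]]]]]],[[[[[[[[Int.ofNat (nat_lit 99870052777005180)]]]]]]]]]]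

/-- A coefficient. -/
noncomputable def sp2_m0_4_6 : MP 10 :=
  [[[[[[[[[[Int.ofNat (nat_lit 6681553226631268790)]]]]]]]]],[[[[[[[[[Int.ofNat (nat_lit 198608839205067002)]]]]]]]]]]

/-- A coefficient. -/
noncomputable def sp2_m0_4_7 : MP 10 :=
  []

/-- A coefficient. -/
noncomputable def sp2_m0_4_8 : MP 10 :=
  [[[[[[[[[[Int.negSucc (nat_lit 4451082514561883642)]]]]]]]]]]

/-- A coefficient. -/
noncomputable def sp2_m0_5_0 : MP 10 :=
  [[[[[[[[[[Int.negSucc (nat_lit 56129611422275165)]]],[[[Int.ofNat (nat_lit 15101259273405126)]]]]],[[[[[Int.ofNat (nat_lit 25159946764054068)]]]]]]],[[[[[[[Int.negSucc (nat_lit 51728174911670521)]]]]],[[[[[Int.ofNat (nat_lit 507154311009130)]]]]]]],[[[[[[[Int.ofNat (nat_lit 54865390606887820)]]]]]]]],[[[],[[[[[[Int.negSucc (nat_lit 7489174964952681)]]]]]]]],[[[[[[[[Int.ofNat (nat_lit 1924014369866442)]]]]]]],[[[[[[[Int.negSucc (nat_lit 312094177237405)]]]]]]]]],[[[[[[[[[Int.ofNat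 (nat_lit 132614831571435242)]]],[[[Int.ofNat (nat_lit 2335797946200624)]]]]],[[[[[Int.ofNat (nat_lit 13469777952816920)]]]]]]],[[[[[[[Int.negSucc (nat_lit 62108889164845839)]]]]]]]],[[[],[[[[[[Int.negSucc (nat_lit 2091808694500043)]]]]]]]],[[[[[[[[Int.negSucc (nat_lit 2918653077336649)]]]]]]]]],[[[[[[[[[Int.ofNat (nat_lit 40208606243333000)]]]]]]],[[[[[[[Int.negSucc (nat_lit 7884396255075809)]]]]]]]]],[[[[[[[[[Int.ofNat (nat_lit 26836261470194856)]]]]]]]]]]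

/-- A coefficient. -/
noncomputable def sp2_m0_5_1 : MP 10 :=
  [[[[[[[],[[[[Int.negSucc (nat_lit 5234355423736367)]]]]]],[[[[[[Int.ofNat (nat_lit 61770383055365384)]]]]]]],[[],[[[[[[Int.ofNat (nat_lit 577550041390738)]]]]]]]],[[[[[[[[Int.negSucc (nat_lit 51546366059210183)]]]]],[[[[[Int.negSucc (nat_lit 9699340625633425)]]]]]]],[[[[[[[Int.negSucc (nat_lit 54628844876179313)]]]]]]]],[],[[[[[[[[Int.ofNat (nat_lit 285580938053848)]]]]]]]]],[[[[[[],[[[[Int.negSucc (nat_lit 7385487247792577)]]]]]],[[[[[[Int.ofNat (nat_lit 640352402073132)]]]]]]]],[[[[[[[[Int.ofNat (nat_lit 54195818155915552)]]]]]]]]],[[],[[[[[[[[Int.ofNat (nat_lit 2722611664366392)]]]]]]]]]]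

/-- A coefficient. -/
noncomputable def sp2_m0_5_2 : MP 10 :=
  [[[[[[[[[[Int.ofNat (nat_lit 104623491376363988)]]],[[[Int.negSucc (nat_lit 26679276266933897)]]]]],[[[[[Int.negSucc (nat_lit 10342768610003741)]]]]]]],[[[[[[[Int.ofNat (nat_lit 53720044443380188)]]]]]]]],[[[],[[[[[[Int.ofNat (nat_lit 22439998537975312)]]]]]]]],[[[[[[[[Int.ofNat (nat_lit 205695573472107402)]]]]]]]]],[[[[[[[[[Int.negSucc (nat_lit 225311921326509413)]]]]]]],[[[[[[[Int.negSucc (nat_lit 1935488805872507)]]]]]]]]],[[[[[[[[[Int.negSucc (nat_lit 20027625256956319)]]]]]]]]]]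

/-- A coefficient. -/
noncomputable def sp2_m0_5_3 : MP 10 :=
  [[[[[[[],[[[[Int.negSucc (nat_lit 8580060509974311)]]]]]],[[[[[[Int.negSucc (nat_lit 25458154447639485)]]]]]]]],[[[[[[[[Int.negSucc (nat_lit 157404799217754255)]]]]]]]]],[[],[[[[[[[[Int.negSucc (nat_lit 82753950151109957)]]]]]]]]]]

/-- A coefficient. -/
noncomputable def sp2_m0_5_4 : MP 10 :=
  [[[[[[[[[[Int.negSucc (nat_lit 206337441643160237)]]]]]]],[[[[[[[Int.ofNat (nat_lit 26750485239777524)]]]]]]]]],[[[[[[[[[Int.ofNat (nat_lit 877547145615618746)]]]]]]]]]]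

/-- A coefficient. -/
noncomputable def sp2_m0_5_5 : MP 10 :=
  [[[],[[[[[[[[Int.negSucc (nat_lit 112059968556912589)]]]]]]]]]]

/-- A coefficient. -/
noncomputable def sp2_m0_5_6 : MP 10 :=
  [[[[[[[[[[Int.ofNat (nat_lit 39941573276139330)]]]]]]]]]]

/-- A coefficient. -/
noncomputable def sp2_m0_6_0 : MP 10 :=
  [[[[[[[[[[Int.negSucc (nat_lit 187086695926637380)]]],[[[Int.ofNat (nat_lit 3391205763579654)]]]]],[[[[[Int.negSucc (nat_lit 24616199416461483)]]]]]]],[[[[[[[Int.ofNat (nat_lit 58202022042041094)]]]]]]]],[[[],[[[[[[Int.ofNat (nat_lit 1364268693329268)]]]]]]]],[[[[[[[[Int.negSucc (nat_lit 2139033043993739)]]]]]]]]],[[[[[[[[[Int.ofNat (nat_lit 1057531475902530)]]]]],[[[[[Int.negSucc (nat_lit 10473726179248727)]]]]]]],[[[[[[[Int.negSucc (nat_lit 7764801425970779)]]]]]]]],[],[[[[[[[[Int.ofNat (nat_lit 14711699850598)]]]]]]]]],[[[[[[[[[Int.ofNat (nat_lit 55417356008963274)]]]]]]]]],[[[[[[[[[Int.ofNat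 (nat_lit 193169818132136)]]]]]]]]]]

/-- A coefficient. -/
noncomputable def sp2_m0_6_1 : MP 10 :=
  [[[[[[[],[[[[Int.ofNat (nat_lit 17736268067608234)]]]]]],[[[[[[Int.negSucc (nat_lit 17820068871156299)]]]]]]]],[[[[[[[[Int.negSucc (nat_lit 25181830303826619)]]]]]]]]],[[[[],[[[[[[Int.ofNat (nat_lit 10346307660492260)]]]]]]]],[[[[[[[[Int.ofNat (nat_lit 776849228406430)]]]]]]]]]]

/-- A coefficient. -/
noncomputable def sp2_m0_6_2 : MP 10 :=
  [[[[[[[[[[Int.ofNat (nat_lit 82222003038532262)]]]]],[[[[[Int.ofNat (nat_lit 17883907876049010)]]]]]]],[[[[[[[Int.negSucc (nat_lit 11771251465733683)]]]]]]]],[],[[[[[[[[Int.ofNat (nat_lit 5018624135610264)]]]]]]]]],[[[[[[[[[Int.negSucc (nat_lit 168564805815266387)]]]]]]]]],[[[[[[[[[Int.negSucc (nat_lit 21509258825831041)]]]]]]]]]]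

/-- A coefficient. -/
noncomputable def sp2_m0_6_3 : MP 10 :=
  [[[[[],[[[[[[Int.negSucc (nat_lit 68088483363846261)]]]]]]]],[[[[[[[[Int.negSucc (nat_lit 27712619578915499)]]]]]]]]]]

/-- A coefficient. -/
noncomputable def sp2_m0_6_4 : MP 10 :=
  [[[[[[[[[[Int.ofNat (nat_lit 2442455514646311678)]]]]]]]]],[[[[[[[[[Int.ofNat (nat_lit 20030353659916426)]]]]]]]]]]

/-- A coefficient. -/
noncomputable def sp2_m0_6_5 : MP 10 :=
  []

/-- A coefficient. -/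
noncomputable def sp2_m0_6_6 : MP 10 :=
  [[[[[[[[[[Int.negSucc (nat_lit 1940081974997493845)]]]]]]]]]]

/-- A coefficient. -/
noncomputable def sp2_m0_7_0 : MP 10 :=
  [[[[[[[[[[Int.ofNat (nat_lit 218866127134373034)]]],[[[Int.negSucc (nat_lit 10196855098000733)]]]]],[[[[[Int.negSucc (nat_lit 1474207678419367)]]]]]]],[[[[[[[Int.ofNat (nat_lit 8573553194326050)]]]]]]]],[[[],[[[[[[Int.ofNat (nat_lit 3484471097070942)]]]]]]]],[[[[[[[[Int.negSucc (nat_lit 2396450495346961)]]]]]]]]],[[[[[[[[[Int.negSucc (nat_lit 62536158979295937)]]]]]]],[[[[[[[Int.negSucc (nat_lit 4441869033155795)]]]]]]]]],[[[[[[[[[Int.ofNat (nat_lit 1627665965602770)]]]]]]]]]]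

/-- A coefficient. -/
noncomputable def sp2_m0_7_1 : MP 10 :=
  [[[[[[[],[[[[Int.negSucc (nat_lit 7113327553732733)]]]]]],[[[[[[Int.negSucc (nat_lit 34786901183230285)]]]]]]]],[[[[[[[[Int.ofNat (nat_lit 30893560450158974)]]]]]]]]],[[],[[[[[[[[Int.ofNat (nat_lit 1259289251590706)]]]]]]]]]]

/-- A coefficient. -/
noncomputable def sp2_m0_7_2 : MP 10 :=
  [[[[[[[[[[Int.negSucc (nat_lit 246087417986532065)]]]]]]],[[[[[[[Int.negSucc (nat_lit 547580385348959)]]]]]]]]],[[[[[[[[[Int.negSucc (nat_lit 5292148857484575)]]]]]]]]]]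

/-- A coefficient. -/
noncomputable def sp2_m0_7_3 : MP 10 :=
  [[[],[[[[[[[[Int.negSucc (nat_lit 32108138009634391)]]]]]]]]]]

/-- A coefficient. -/
noncomputable def sp2_m0_7_4 : MP 10 :=
  [[[[[[[[[[Int.ofNat (nat_lit 64964610417897232)]]]]]]]]]]

/-- A coefficient. -/
noncomputable def sp2_m0_8_0 : MP 10 :=
  [[[[[[[[[[Int.ofNat (nat_lit 134582181092050314)]]]]],[[[[[Int.ofNat (nat_lit 6971166583095468)]]]]]]],[[[[[[[Int.ofNat (nat_lit 5574236482549056)]]]]]]]],[],[[[[[[[[Int.ofNat (nat_lit 1826784936648692)]]]]]]]]],[[[[[[[[[Int.negSucc (nat_lit 28722419394003997)]]]]]]]]],[[[[[[[[[Int.negSucc (nat_lit 4814441096309025)]]]]]]]]]]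

/-- A coefficient. -/
noncomputable def sp2_m0_8_1 : MP 10 :=
  [[[[[],[[[[[[Int.ofNat (nat_lit 11228149129660454)]]]]]]]],[[[[[[[[Int.negSucc (nat_lit 3894975006888581)]]]]]]]]]]

/-- A coefficient. -/
noncomputable def sp2_m0_8_2 : MP 10 :=
  [[[[[[[[[[Int.ofNat (nat_lit 59682307799771506)]]]]]]]]],[[[[[[[[[Int.ofNat (nat_lit 21391954039780776)]]]]]]]]]]

/-- A coefficient. -/
noncomputable def sp2_m0_8_3 : MP 10 :=
  []

/-- A coefficient. -/
noncomputable def sp2_m0_8_4 : MP 10 :=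
  [[[[[[[[[[Int.negSucc (nat_lit 82993013663764853)]]]]]]]]]]

/-- A coefficient. -/
noncomputable def sp2_m0_9_0 : MP 10 :=
  [[[[[[[[[[Int.negSucc (nat_lit 131111197826427467)]]]]]]]]]]

/-- An expanded part. -/
noncomputable def sp2_m0 : R12 :=
  [[sp2_m0_0_0, sp2_m0_0_1, sp2_m0_0_2, sp2_m0_0_3, sp2_m0_0_4, sp2_m0_0_5, sp2_m0_0_6, sp2_m0_0_7, sp2_m0_0_8, sp2_m0_0_9, sp2_m0_0_10],
   [sp2_m0_1_0, sp2_m0_1_1, sp2_m0_1_2, sp2_m0_1_3, sp2_m0_1_4, sp2_m0_1_5, sp2_m0_1_6, sp2_m0_1_7, sp2_m0_1_8, sp2_m0_1_9, sp2_m0_1_10],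
   [sp2_m0_2_0, sp2_m0_2_1, sp2_m0_2_2, sp2_m0_2_3, sp2_m0_2_4, sp2_m0_2_5, sp2_m0_2_6, sp2_m0_2_7, sp2_m0_2_8, sp2_m0_2_9, sp2_m0_2_10],
   [sp2_m0_3_0, sp2_m0_3_1, sp2_m0_3_2, sp2_m0_3_3, sp2_m0_3_4, sp2_m0_3_5, sp2_m0_3_6, sp2_m0_3_7, sp2_m0_3_8],
   [sp2_m0_4_0, sp2_m0_4_1, sp2_m0_4_2, sp2_m0_4_3, sp2_m0_4_4, sp2_m0_4_5, sp2_m0_4_6, sp2_m0_4_7, sp2_m0_4_8],
   [sp2_m0_5_0, sp2_m0_5_1, sp2_m0_5_2, sp2_m0_5_3, sp2_m0_5_4, sp2_m0_5_5, sp2_m0_5_6],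
   [sp2_m0_6_0, sp2_m0_6_1, sp2_m0_6_2, sp2_m0_6_3, sp2_m0_6_4, sp2_m0_6_5, sp2_m0_6_6],
   [sp2_m0_7_0, sp2_m0_7_1, sp2_m0_7_2, sp2_m0_7_3, sp2_m0_7_4],
   [sp2_m0_8_0, sp2_m0_8_1, sp2_m0_8_2, sp2_m0_8_3, sp2_m0_8_4],
   [sp2_m0_9_0]]

set_option maxRecDepth 100000 in
theorem sp2_check0 : partOk 2 sp2_rows 0 sp2_m0 = true :=
  Fast.partOk_of_fast (by decide +kernel)

end Vale.Agent.P142K.CertB
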