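import Vale.Agent.P142K.Checker

/-!
# A factor of the certificate

Generated from a semidefinite program; only the checker is trusted.
-/

namespace Vale.Agent.P142K.CertB

open Vale.Agent.P142J (MP)

/-- A row. -/
noncomputable def sp2_c0_0 : List ℕ × List ℤ :=
  ([(nat_lit 0),(nat_lit 0),(nat_lit 0),(nat_lit 0),(nat_lit 0),(nat_lit 0),(nat_lit 0),(nat_lit 0),(nat_lit 0),(nat_lit 0),(nat_lit 0),(nat_lit 0)], [Int.ofNat (nat_lit 15605188)])

/-- A row. -/
noncomputable def sp2_c0_1 : List ℕ × List ℤ :=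
  ([(nat_lit 0),(nat_lit 0),(nat_lit 0),(nat_lit 0),(nat_lit 0),(nat_lit 0),(nat_lit 0),(nat_lit 0),(nat_lit 1),(nat_lit 0),(nat_lit 0),(nat_lit 0)], [Int.ofNat (nat_lit 3913965),Int.ofNat (nat_lit 51612078)])

/-- A row. -/
noncomputable def sp2_c0_2 : List ℕ × List ℤ :=
  ([(nat_lit 0),(nat_lit 0),(nat_lit 0),(nat_lit 0),(nat_lit 0),(nat_lit 0),(nat_lit 1),(nat_lit 0),(nat_lit 0),(nat_lit 0),(nat_lit 0),(nat_lit 0)], [Int.negSucc (nat_lit 7392267),Int.ofNat (nat_lit 20537231),Int.ofNat (nat_lit 72026715)])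

/-- A row. -/
noncomputable def sp2_c0_3 : List ℕ × List ℤ :=
  ([(nat_lit 0),(nat_lit 0),(nat_lit 0),(nat_lit 0),(nat_lit 1),(nat_lit 0),(nat_lit 0),(nat_lit 0),(nat_lit 0),(nat_lit 0),(nat_lit 0),(nat_lit 0)], [Int.negSucc (nat_lit 12032056),Int.negSucc (nat_lit 42298078),Int.negSucc (nat_lit 550617),Int.ofNat (nat_lit 87136397)])

/-- A row. -/
noncomputable def sp2_c0_4 : List ℕ × List ℤ :=
  ([(nat_lit 0),(nat_lit 0),(nat_lit 0),(nat_lit 1),(nat_lit 0),(nat_lit 1),(nat_lit 0),(nat_lit 0),(nat_lit 0),(nat_lit 0),(nat_lit 0),(nat_lit 0)], [Int.negSucc (nat_lit 3813116),Int.negSucc (nat_lit 15203917),Int.negSucc (nat_lit 271544),Int.negSucc (nat_lit 4949496),Int.ofNat (nat_lit 32177605)])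

/-- A row. -/
noncomputable def sp2_c0_5 : List ℕ × List ℤ :=
  ([(nat_lit 0),(nat_lit 0),(nat_lit 0),(nat_lit 2),(nat_lit 0),(nat_lit 0),(nat_lit 0),(nat_lit 0),(nat_lit 0),(nat_lit 0),(nat_lit 0),(nat_lit 0)], [Int.ofNat (nat_lit 2124257),Int.ofNat (nat_lit 6028910),Int.negSucc (nat_lit 5162409),Int.ofNat (nat_lit 1681295),Int.negSucc (nat_lit 18368290),Int.ofNat (nat_lit 9641117)])

/-- A row. -/
noncomputable def sp2_c0_6 : List ℕ × List ℤ :=
  ([(nat_lit 0),(nat_lit 0),(nat_lit 1),(nat_lit 0),(nat_lit 0),(nat_lit 0),(nat_lit 0),(nat_lit 0),(nat_lit 0),(nat_lit 0),(nat_lit 0),(nat_lit 0)], [Int.ofNat (nat_lit 43627399),Int.ofNat (nat_lit 2260298),Int.ofNat (nat_lit 12863771),Int.negSucc (nat_lit 34291797),Int.ofNat (nat_lit 4382730),Int.negSucc (nat_lit 8608722),Int.ofNat (nat_lit 53192122)])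

/-- A row. -/
noncomputable def sp2_c0_7 : List ℕ × List ℤ :=
  ([(nat_lit 0),(nat_lit 0),(nat_lit 1),(nat_lit 0),(nat_lit 1),(nat_lit 0),(nat_lit 0),(nat_lit 0),(nat_lit 0),(nat_lit 0),(nat_lit 0),(nat_lit 0)], [Int.negSucc (nat_lit 5422773),Int.ofNat (nat_lit 31302298),Int.negSucc (nat_lit 1835480),Int.negSucc (nat_lit 8315334),Int.negSucc (nat_lit 9906441),Int.ofNat (nat_lit 5393583),Int.negSucc (nat_lit 14474762),Int.ofNat (nat_lit 25180909)])

/-- A row. -/
noncomputable def sp2_c0_8 : List ℕ × List ℤ :=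
  ([(nat_lit 0),(nat_lit 0),(nat_lit 2),(nat_lit 0),(nat_lit 0),(nat_lit 0),(nat_lit 0),(nat_lit 0),(nat_lit 0),(nat_lit 0),(nat_lit 0),(nat_lit 0)], [Int.ofNat (nat_lit 9534704),Int.negSucc (nat_lit 7652431),Int.ofNat (nat_lit 12575145),Int.negSucc (nat_lit 2607168),Int.ofNat (nat_lit 10611826),Int.negSucc (nat_lit 10973329),Int.ofNat (nat_lit 20779839),Int.negSucc (nat_lit 17786222),Int.ofNat (nat_lit 16238762)])

/-- A row. -/
noncomputable def sp2_c0_9 : List ℕ × List ℤ :=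
  ([(nat_lit 0),(nat_lit 1),(nat_lit 0),(nat_lit 0),(nat_lit 0),(nat_lit 0),(nat_lit 0),(nat_lit 1),(nat_lit 0),(nat_lit 0),(nat_lit 0),(nat_lit 0)], [Int.ofNat (nat_lit 2407799),Int.ofNat (nat_lit 85942214),Int.negSucc (nat_lit 31577155),Int.negSucc (nat_lit 44272417),Int.negSucc (nat_lit 30133115),Int.negSucc (nat_lit 9640656),Int.negSucc (nat_lit 3670229),Int.negSucc (nat_lit 9157663),Int.negSucc (nat_lit 4403219),Int.ofNat (nat_lit 242278194)])

/-- A row. -/
noncomputable def sp2_c0_10 : List ℕ × List ℤ :=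
  ([(nat_lit 0),(nat_lit 1),(nat_lit 0),(nat_lit 0),(nat_lit 0),(nat_lit 1),(nat_lit 0),(nat_lit 0),(nat_lit 0),(nat_lit 0),(nat_lit 0),(nat_lit 0)], [Int.ofNat (nat_lit 18517182),Int.ofNat (nat_lit 60104002),Int.ofNat (nat_lit 35232570),Int.ofNat (nat_lit 20928879),Int.negSucc (nat_lit 125766383),Int.ofNat (nat_lit 21842493),Int.negSucc (nat_lit 3796533),Int.negSucc (nat_lit 3106333),Int.negSucc (nat_lit 4238344),Int.negSucc (nat_lit 30902891),Int.ofNat (nat_lit 134429244)])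

/-- A row. -/
noncomputable def sp2_c0_11 : List ℕ × List ℤ :=
  ([(nat_lit 0),(nat_lit 1),(nat_lit 0),(nat_lit 1),(nat_lit 0),(nat_lit 0),(nat_lit 0),(nat_lit 0),(nat_lit 0),(nat_lit 0),(nat_lit 0),(nat_lit 0)], [Int.negSucc (nat_lit 37105578),Int.negSucc (nat_lit 34400170),Int.ofNat (nat_lit 10168898),Int.negSucc (nat_lit 95004145),Int.ofNat (nat_lit 155525316),Int.negSucc (nat_lit 30612094),Int.negSucc (nat_lit 3169372),Int.ofNat (nat_lit 9853087),Int.ofNat (nat_lit 22755626),Int.negSucc (nat_lit 19206697),Int.negSucc (nat_lit 38393972),Int.ofNat (nat_lit 196605527)])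

/-- A row. -/
noncomputable def sp2_c0_12 : List ℕ × List ℤ :=
  ([(nat_lit 0),(nat_lit 1),(nat_lit 1),(nat_lit 1),(nat_lit 0),(nat_lit 0),(nat_lit 0),(nat_lit 0),(nat_lit 0),(nat_lit 0),(nat_lit 0),(nat_lit 0)], [Int.negSucc (nat_lit 1308521),Int.ofNat (nat_lit 7743),Int.negSucc (nat_lit 3865733),Int.negSucc (nat_lit 8460288),Int.ofNat (nat_lit 5350551),Int.negSucc (nat_lit 2530999),Int.ofNat (nat_lit 461078),Int.negSucc (nat_lit 3168686),Int.negSucc (nat_lit 1228232),Int.ofNat (nat_lit 24322431),Int.negSucc (nat_lit 4398082),Int.ofNat (nat_lit 6180373),Int.ofNat (nat_lit 54723801)])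

/-- A row. -/
noncomputable def sp2_c0_13 : List ℕ × List ℤ :=
  ([(nat_lit 0),(nat_lit 2),(nat_lit 0),(nat_lit 0),(nat_lit 0),(nat_lit 0),(nat_lit 0),(nat_lit 0),(nat_lit 0),(nat_lit 0),(nat_lit 0),(nat_lit 0)], [Int.negSucc (nat_lit 92158489),Int.ofNat (nat_lit 57766299),Int.negSucc (nat_lit 15024951),Int.ofNat (nat_lit 66061372),Int.negSucc (nat_lit 169991434),Int.ofNat (nat_lit 21684842),Int.ofNat (nat_lit 9575741),Int.negSucc (nat_lit 3661933),Int.negSucc (nat_lit 41834740),Int.ofNat (nat_lit 40480152),Int.ofNat (nat_lit 75362848),Int.negSucc (nat_lit 208639757),Int.negSucc (nat_lit 1099732),Int.ofNat (nat_lit 246964700)])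

/-- A row. -/
noncomputable def sp2_c0_14 : List ℕ × List ℤ :=
  ([(nat_lit 0),(nat_lit 2),(nat_lit 0),(nat_lit 0),(nat_lit 1),(nat_lit 0),(nat_lit 0),(nat_lit 0),(nat_lit 0),(nat_lit 0),(nat_lit 0),(nat_lit 0)], [Int.ofNat (nat_lit 19532843),Int.negSucc (nat_lit 12270788),Int.negSucc (nat_lit 19044497),Int.negSucc (nat_lit 143603889),Int.ofNat (nat_lit 11442082),Int.negSucc (nat_lit 25219927),Int.negSucc (nat_lit 6941190),Int.negSucc (nat_lit 30351649),Int.negSucc (nat_lit 36486430),Int.negSucc (nat_lit 83668784),Int.negSucc (nat_lit 41634161),Int.negSucc (nat_lit 39907444),Int.ofNat (nat_lit 2047089),Int.negSucc (nat_lit 11435685),Int.ofNat (nat_lit 305129251)])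

/-- A row. -/
noncomputable def sp2_c0_15 : List ℕ × List ℤ :=
  ([(nat_lit 0),(nat_lit 2),(nat_lit 1),(nat_lit 0),(nat_lit 0),(nat_lit 0),(nat_lit 0),(nat_lit 0),(nat_lit 0),(nat_lit 0),(nat_lit 0),(nat_lit 0)], [Int.negSucc (nat_lit 53826128),Int.ofNat (nat_lit 3257689),Int.ofNat (nat_lit 23867984),Int.ofNat (nat_lit 68645231),Int.negSucc (nat_lit 23439363),Int.ofNat (nat_lit 4229900),Int.negSucc (nat_lit 47807439),Int.negSucc (nat_lit 50284096),Int.ofNat (nat_lit 64121464),Int.negSucc (nat_lit 20776883),Int.ofNat (nat_lit 20399981),Int.negSucc (nat_lit 3411704),Int.negSucc (nat_lit 15813698),Int.ofNat (nat_lit 17242859),Int.negSucc (nat_lit 98188676),Int.ofNat (nat_lit 252438431)])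

/-- A row. -/
noncomputable def sp2_c0_16 : List ℕ × List ℤ :=
  ([(nat_lit 0),(nat_lit 3),(nat_lit 0),(nat_lit 1),(nat_lit 0),(nat_lit 0),(nat_lit 0),(nat_lit 0),(nat_lit 0),(nat_lit 0),(nat_lit 0),(nat_lit 0)], [Int.ofNat (nat_lit 34438624),Int.negSucc (nat_lit 2605396),Int.ofNat (nat_lit 3937456),Int.ofNat (nat_lit 130633582),Int.negSucc (nat_lit 42716664),Int.negSucc (nat_lit 2619467),Int.ofNat (nat_lit 11152838),Int.ofNat (nat_lit 5968103),Int.negSucc (nat_lit 16051955),Int.ofNat (nat_lit 53168272),Int.negSucc (nat_lit 5406757),Int.negSucc (nat_lit 310590230),Int.ofNat (nat_lit 18325310),Int.negSucc (nat_lit 21658973),Int.negSucc (nat_lit 101625596),Int.negSucc (nat_lit 16733216),Int.ofNat (nat_lit 275984893)])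

/-- A row. -/
noncomputable def sp2_c0_17 : List ℕ × List ℤ :=
  ([(nat_lit 0),(nat_lit 4),(nat_lit 0),(nat_lit 0),(nat_lit 0),(nat_lit 0),(nat_lit 0),(nat_lit 0),(nat_lit 0),(nat_lit 0),(nat_lit 0),(nat_lit 0)], [Int.ofNat (nat_lit 113812531),Int.negSucc (nat_lit 34442034),Int.ofNat (nat_lit 9250936),Int.negSucc (nat_lit 88776298),Int.ofNat (nat_lit 109015135),Int.negSucc (nat_lit 7294002),Int.negSucc (nat_lit 32418162),Int.negSucc (nat_lit 4213001),Int.ofNat (nat_lit 34006925),Int.negSucc (nat_lit 51022652),Int.negSucc (nat_lit 40804032),Int.ofNat (nat_lit 322580851),Int.negSucc (nat_lit 18662723),Int.negSucc (nat_lit 390003848),Int.ofNat (nat_lit 86448270),Int.negSucc (nat_lit 8749296),Int.negSucc (nat_lit 202233187),Int.ofNat (nat_lit 280236909)])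

/-- A row. -/
noncomputable def sp2_c0_18 : List ℕ × List ℤ :=
  ([(nat_lit 1),(nat_lit 0),(nat_lit 0),(nat_lit 0),(nat_lit 0),(nat_lit 0),(nat_lit 0),(nat_lit 0),(nat_lit 0),(nat_lit 0),(nat_lit 0),(nat_lit 0)], [Int.negSucc (nat_lit 50909798),Int.ofNat (nat_lit 14917334),Int.negSucc (nat_lit 32315478),Int.ofNat (nat_lit 53885573),Int.negSucc (nat_lit 10858394),Int.ofNat (nat_lit 8001266),Int.negSucc (nat_lit 35064908),Int.negSucc (nat_lit 2610841),Int.negSucc (nat_lit 7370695),Int.negSucc (nat_lit 6004382),Int.negSucc (nat_lit 47991),Int.negSucc (nat_lit 11213169),Int.negSucc (nat_lit 169999),Int.negSucc (nat_lit 2630887),Int.negSucc (nat_lit 1094563),Int.ofNat (nat_lit 34894),Int.ofNat (nat_lit 533085),Int.negSucc (nat_lit 125435),Int.ofNat (nat_lit 67777962)])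

/-- A row. -/
noncomputable def sp2_c0_19 : List ℕ × List ℤ :=
  ([(nat_lit 1),(nat_lit 0),(nat_lit 0),(nat_lit 0),(nat_lit 0),(nat_lit 0),(nat_lit 1),(nat_lit 0),(nat_lit 0),(nat_lit 0),(nat_lit 0),(nat_lit 0)], [Int.ofNat (nat_lit 15649574),Int.negSucc (nat_lit 23161391),Int.negSucc (nat_lit 139388183),Int.negSucc (nat_lit 2786703),Int.ofNat (nat_lit 48287762),Int.negSucc (nat_lit 16026882),Int.ofNat (nat_lit 3590527),Int.negSucc (nat_lit 16549421),Int.negSucc (nat_lit 2884832),Int.ofNat (nat_lit 920368),Int.ofNat (nat_lit 1349190),Int.ofNat (nat_lit 1074539),Int.ofNat (nat_lit 437847),Int.ofNat (nat_lit 1640687),Int.negSucc (nat_lit 263481),Int.negSucc (nat_lit 517263),Int.negSucc (nat_lit 1030646),Int.ofNat (nat_lit 30099),Int.negSucc (nat_lit 6831873),Int.ofNat (nat_lit 52380833)])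

/-- A row. -/
noncomputable def sp2_c0_20 : List ℕ × List ℤ :=
  ([(nat_lit 1),(nat_lit 0),(nat_lit 0),(nat_lit 0),(nat_lit 1),(nat_lit 0),(nat_lit 0),(nat_lit 0),(nat_lit 0),(nat_lit 0),(nat_lit 0),(nat_lit 0)], [Int.ofNat (nat_lit 22399048),Int.negSucc (nat_lit 28622835),Int.negSucc (nat_lit 3191905),Int.negSucc (nat_lit 72135089),Int.negSucc (nat_lit 31473713),Int.ofNat (nat_lit 4170065),Int.ofNat (nat_lit 14569498),Int.negSucc (nat_lit 13552029),Int.ofNat (nat_lit 15316741),Int.negSucc (nat_lit 23684230),Int.negSucc (nat_lit 777137),Int.negSucc (nat_lit 17046747),Int.ofNat (nat_lit 756920),Int.negSucc (nat_lit 2627687),Int.ofNat (nat_lit 5567637),Int.negSucc (nat_lit 768307),Int.ofNat (nat_lit 4594072),Int.ofNat (nat_lit 1938256),Int.negSucc (nat_lit 16330937),Int.negSucc (nat_lit 1045659),Int.ofNat (nat_lit 148657310)])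

/-- A row. -/
noncomputable def sp2_c0_21 : List ℕ × List ℤ :=
  ([(nat_lit 1),(nat_lit 0),(nat_lit 0),(nat_lit 2),(nat_lit 0),(nat_lit 0),(nat_lit 0),(nat_lit 0),(nat_lit 0),(nat_lit 0),(nat_lit 0),(nat_lit 0)], [Int.negSucc (nat_lit 1919833),Int.negSucc (nat_lit 12470273),Int.ofNat (nat_lit 6739310),Int.negSucc (nat_lit 403035),Int.negSucc (nat_lit 2594988),Int.negSucc (nat_lit 2567379),Int.negSucc (nat_lit 709732),Int.ofNat (nat_lit 3218088),Int.ofNat (nat_lit 628703),Int.negSucc (nat_lit 535617),Int.negSucc (nat_lit 504909),Int.ofNat (nat_lit 24594),Int.ofNat (nat_lit 265619),Int.negSucc (nat_lit 387902),Int.negSucc (nat_lit 195157),Int.negSucc (nat_lit 237716),Int.ofNat (nat_lit 187524),Int.negSucc (nat_lit 77646),Int.ofNat (nat_lit 651386),Int.negSucc (nat_lit 7774822),Int.ofNat (nat_lit 46970),Int.ofNat (nat_lit 17990693)])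

/-- A row. -/
noncomputable def sp2_c0_22 : List ℕ × List ℤ :=
  ([(nat_lit 1),(nat_lit 0),(nat_lit 1),(nat_lit 0),(nat_lit 0),(nat_lit 0),(nat_lit 0),(nat_lit 0),(nat_lit 0),(nat_lit 0),(nat_lit 0),(nat_lit 0)], [Int.negSucc (nat_lit 74828285),Int.ofNat (nat_lit 84197249),Int.negSucc (nat_lit 45314107),Int.ofNat (nat_lit 38783972),Int.negSucc (nat_lit 22398022),Int.ofNat (nat_lit 30767476),Int.negSucc (nat_lit 122613300),Int.ofNat (nat_lit 1027812),Int.negSucc (nat_lit 41694687),Int.negSucc (nat_lit 10487387),Int.ofNat (nat_lit 4940442),Int.negSucc (nat_lit 648921),Int.ofNat (nat_lit 770065),Int.negSucc (nat_lit 4437452),Int.ofNat (nat_lit 359125),Int.ofNat (nat_lit 8270083),Int.ofNat (nat_lit 1146684),Int.negSucc (nat_lit 2778028),Int.ofNat (nat_lit 55501878),Int.negSucc (nat_lit 6638821),Int.negSucc (nat_lit 92395234),Int.negSucc (nat_lit 10152452),Int.ofNat (nat_lit 110759948)])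

/-- A row. -/
noncomputable def sp2_c0_23 : List ℕ × List ℤ :=
  ([(nat_lit 1),(nat_lit 0),(nat_lit 2),(nat_lit 0),(nat_lit 0),(nat_lit 0),(nat_lit 0),(nat_lit 0),(nat_lit 0),(nat_lit 0),(nat_lit 0),(nat_lit 0)], [Int.ofNat (nat_lit 4502569),Int.ofNat (nat_lit 24122584),Int.negSucc (nat_lit 12010801),Int.ofNat (nat_lit 8117944),Int.ofNat (nat_lit 7496374),Int.ofNat (nat_lit 590971),Int.ofNat (nat_lit 3176133),Int.negSucc (nat_lit 17448387),Int.negSucc (nat_lit 13632930),Int.ofNat (nat_lit 454040),Int.ofNat (nat_lit 370213),Int.ofNat (nat_lit 5653913),Int.ofNat (nat_lit 264573),Int.ofNat (nat_lit 1725451),Int.ofNat (nat_lit 1376273),Int.ofNat (nat_lit 689672),Int.negSucc (nat_lit 1127902),Int.negSucc (nat_lit 544749),Int.ofNat (nat_lit 459183),Int.ofNat (nat_lit 1456475),Int.negSucc (nat_lit 22038434),Int.negSucc (nat_lit 13175931),Int.ofNat (nat_lit 14011815),Int.ofNat (nat_lit 37283889)])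

/-- A row. -/
noncomputable def sp2_c0_24 : List ℕ × List ℤ :=
  ([(nat_lit 1),(nat_lit 1),(nat_lit 0),(nat_lit 0),(nat_lit 0),(nat_lit 1),(nat_lit 0),(nat_lit 0),(nat_lit 0),(nat_lit 0),(nat_lit 0),(nat_lit 0)], [Int.ofNat (nat_lit 12884859),Int.negSucc (nat_lit 16520154),Int.negSucc (nat_lit 14277119),Int.ofNat (nat_lit 31971058),Int.negSucc (nat_lit 32372378),Int.negSucc (nat_lit 27868117),Int.ofNat (nat_lit 14792695),Int.negSucc (nat_lit 17589899),Int.ofNat (nat_lit 8886103),Int.negSucc (nat_lit 48639606),Int.negSucc (nat_lit 191786733),Int.negSucc (nat_lit 14197287),Int.negSucc (nat_lit 11012242),Int.ofNat (nat_lit 3055250),Int.negSucc (nat_lit 25833913),Int.ofNat (nat_lit 16297896),Int.negSucc (nat_lit 17782725),Int.ofNat (nat_lit 179530),Int.ofNat (nat_lit 2740990),Int.ofNat (nat_lit 27113908),Int.negSucc (nat_lit 21362127),Int.ofNat (nat_lit 31249277),Int.ofNat (nat_lit 5576927),Int.negSucc (nat_lit 25976232),Int.ofNat (nat_lit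 269475789)])

/-- A row. -/
noncomputable def sp2_c0_25 : List ℕ × List ℤ :=
  ([(nat_lit 1),(nat_lit 1),(nat_lit 0),(nat_lit 1),(nat_lit 0),(nat_lit 0),(nat_lit 0),(nat_lit 0),(nat_lit 0),(nat_lit 0),(nat_lit 0),(nat_lit 0)], [Int.ofNat (nat_lit 4232946),Int.ofNat (nat_lit 52444168),Int.negSucc (nat_lit 16724843),Int.ofNat (nat_lit 23078328),Int.ofNat (nat_lit 29243748),Int.ofNat (nat_lit 18810390),Int.negSucc (nat_lit 4239128),Int.negSucc (nat_lit 15182619),Int.negSucc (nat_lit 12390226),Int.ofNat (nat_lit 16699469),Int.ofNat (nat_lit 35441099),Int.negSucc (nat_lit 78505338),Int.negSucc (nat_lit 84022600),Int.ofNat (nat_lit 95209),Int.ofNat (nat_lit 3019667),Int.ofNat (nat_lit 13992542),Int.ofNat (nat_lit 10122559),Int.ofNat (nat_lit 2585791),Int.negSucc (nat_lit 22811652),Int.ofNat (nat_lit 14076163),Int.negSucc (nat_lit 83181309),Int.negSucc (nat_lit 61002123),Int.negSucc (nat_lit 13070118),Int.ofNat (nat_lit 43261689),Int.negSucc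 (nat_lit 94086709),Int.ofNat (nat_lit 307890504)])

/-- A row. -/
noncomputable def sp2_c0_26 : List ℕ × List ℤ :=
  ([(nat_lit 1),(nat_lit 2),(nat_lit 0),(nat_lit 0),(nat_lit 0),(nat_lit 0),(nat_lit 0),(nat_lit 0),(nat_lit 0),(nat_lit 0),(nat_lit 0),(nat_lit 0)], [Int.ofNat (nat_lit 239776300),Int.negSucc (nat_lit 188839674),Int.ofNat (nat_lit 103022227),Int.negSucc (nat_lit 192925651),Int.ofNat (nat_lit 82954001),Int.negSucc (nat_lit 61421199),Int.negSucc (nat_lit 966681),Int.ofNat (nat_lit 27719867),Int.ofNat (nat_lit 74296527),Int.ofNat (nat_lit 67124493),Int.negSucc (nat_lit 169546340),Int.ofNat (nat_lit 107392056),Int.ofNat (nat_lit 87305871),Int.negSucc (nat_lit 490194155),Int.ofNat (nat_lit 86001059),Int.negSucc (nat_lit 171374011),Int.negSucc (nat_lit 27028917),Int.ofNat (nat_lit 51832899),Int.negSucc (nat_lit 356947737),Int.ofNat (nat_lit 60275346),Int.negSucc (nat_lit 10688943),Int.ofNat (nat_lit 42527723),Int.ofNat (nat_lit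 44903825),Int.negSucc (nat_lit 5761036),Int.ofNat (nat_lit 82968737),Int.negSucc (nat_lit 378439278),Int.ofNat (nat_lit 650327866)])

/-- A row. -/
noncomputable def sp2_c0_27 : List ℕ × List ℤ :=
  ([(nat_lit 1),(nat_lit 2),(nat_lit 1),(nat_lit 0),(nat_lit 0),(nat_lit 0),(nat_lit 0),(nat_lit 0),(nat_lit 0),(nat_lit 0),(nat_lit 0),(nat_lit 0)], [Int.ofNat (nat_lit 76336095),Int.negSucc (nat_lit 43635582),Int.ofNat (nat_lit 27363495),Int.ofNat (nat_lit 39429334),Int.negSucc (nat_lit 19851218),Int.negSucc (nat_lit 25210667),Int.ofNat (nat_lit 88212677),Int.ofNat (nat_lit 82613964),Int.negSucc (nat_lit 71192521),Int.negSucc (nat_lit 33039564),Int.ofNat (nat_lit 2355451),Int.negSucc (nat_lit 9362130),Int.negSucc (nat_lit 2729013),Int.negSucc (nat_lit 18322953),Int.negSucc (nat_lit 990927),Int.negSucc (nat_lit 202255007),Int.ofNat (nat_lit 8616639),Int.negSucc (nat_lit 2992498),Int.negSucc (nat_lit 97206361),Int.ofNat (nat_lit 7999204),Int.ofNat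 (nat_lit 28762006),Int.negSucc (nat_lit 25127799),Int.negSucc (nat_lit 187024535),Int.ofNat (nat_lit 98180153),Int.ofNat (nat_lit 87412806),Int.negSucc (nat_lit 21052010),Int.ofNat (nat_lit 56409848),Int.ofNat (nat_lit 647578872)])

/-- A row. -/
noncomputable def sp2_c0_28 : List ℕ × List ℤ :=
  ([(nat_lit 1),(nat_lit 4),(nat_lit 0),(nat_lit 0),(nat_lit 0),(nat_lit 0),(nat_lit 0),(nat_lit 0),(nat_lit 0),(nat_lit 0),(nat_lit 0),(nat_lit 0)], [Int.negSucc (nat_lit 240924679),Int.ofNat (nat_lit 185311812),Int.negSucc (nat_lit 118509194),Int.ofNat (nat_lit 106221985),Int.negSucc (nat_lit 67154054),Int.ofNat (nat_lit 36619185),Int.ofNat (nat_lit 100504102),Int.ofNat (nat_lit 5930519),Int.negSucc (nat_lit 111493983),Int.negSucc (nat_lit 107779270),Int.ofNat (nat_lit 91535010),Int.negSucc (nat_lit 84715184),Int.negSucc (nat_lit 51164476),Int.ofNat (nat_lit 705278547),Int.ofNat (nat_lit 66511574),Int.ofNat (nat_lit 19697009),Int.ofNat (nat_lit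 61992251),Int.negSucc (nat_lit 478800200),Int.ofNat (nat_lit 357591400),Int.negSucc (nat_lit 95297699),Int.ofNat (nat_lit 116095911),Int.negSucc (nat_lit 17027380),Int.negSucc (nat_lit 56753029),Int.negSucc (nat_lit 46552950),Int.ofNat (nat_lit 19280675),Int.ofNat (nat_lit 212154239),Int.negSucc (nat_lit 887804824),Int.negSucc (nat_lit 5075012),Int.ofNat (nat_lit 832488700)])

/-- A row. -/
noncomputable def sp2_c0_29 : List ℕ × List ℤ :=
  ([(nat_lit 2),(nat_lit 0),(nat_lit 0),(nat_lit 0),(nat_lit 0),(nat_lit 0),(nat_lit 0),(nat_lit 0),(nat_lit 0),(nat_lit 0),(nat_lit 0),(nat_lit 0)], [Int.negSucc (nat_lit 17210144),Int.negSucc (nat_lit 24107735),Int.ofNat (nat_lit 64354500),Int.negSucc (nat_lit 72551138),Int.negSucc (nat_lit 2673981),Int.negSucc (nat_lit 17711502),Int.ofNat (nat_lit 111271510),Int.ofNat (nat_lit 15476915),Int.ofNat (nat_lit 18046104),Int.ofNat (nat_lit 81351),Int.negSucc (nat_lit 5755649),Int.negSucc (nat_lit 14614283),Int.ofNat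 (nat_lit 1374870),Int.negSucc (nat_lit 44104227),Int.negSucc (nat_lit 2018854),Int.negSucc (nat_lit 10657825),Int.ofNat (nat_lit 5055987),Int.ofNat (nat_lit 6627884),Int.negSucc (nat_lit 123083332),Int.negSucc (nat_lit 27465708),Int.ofNat (nat_lit 100223034),Int.ofNat (nat_lit 4879569),Int.negSucc (nat_lit 41347952),Int.negSucc (nat_lit 41594820),Int.negSucc (nat_lit 11625808),Int.negSucc (nat_lit 7164905),Int.negSucc (nat_lit 48678238),Int.ofNat (nat_lit 6806263),Int.ofNat (nat_lit 7032508),Int.ofNat (nat_lit 154889074)])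

/-- A part of a triangular factor. -/
noncomputable def sp2_c0 : Rows :=
  [sp2_c0_0,
   sp2_c0_1,
   sp2_c0_2,
   sp2_c0_3,
   sp2_c0_4,
   sp2_c0_5,
   sp2_c0_6,
   sp2_c0_7,
   sp2_c0_8,
   sp2_c0_9,
   sp2_c0_10,
   sp2_c0_11,
   sp2_c0_12,
   sp2_c0_13,
   sp2_c0_14,
   sp2_c0_15,
   sp2_c0_16,
   sp2_c0_17,
   sp2_c0_18,
   sp2_c0_19,
   sp2_c0_20,
   sp2_c0_21,
   sp2_c0_22,
   sp2_c0_23,
   sp2_c0_24,
   sp2_c0_25,
   sp2_c0_26,
   sp2_c0_27,
   sp2_c0_28,
   sp2_c0_29]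

/-- A row. -/
noncomputable def sp2_c1_0 : List ℕ × List ℤ :=
  ([(nat_lit 2),(nat_lit 0),(nat_lit 0),(nat_lit 0),(nat_lit 1),(nat_lit 0),(nat_lit 0),(nat_lit 0),(nat_lit 0),(nat_lit 0),(nat_lit 0),(nat_lit 0)], [Int.ofNat (nat_lit 1162634),Int.ofNat (nat_lit 19152014),Int.ofNat (nat_lit 7529416),Int.negSucc (nat_lit 56824278),Int.ofNat (nat_lit 24329226),Int.negSucc (nat_lit 3227919),Int.ofNat (nat_lit 4861677),Int.negSucc (nat_lit 26507885),Int.negSucc (nat_lit 34772119),Int.ofNat (nat_lit 13520206),Int.ofNat (nat_lit 89247),Int.ofNat (nat_lit 22449676),Int.negSucc (nat_lit 2141716),Int.ofNat (nat_lit 3852630),Int.negSucc (nat_lit 26210043),Int.ofNat (nat_lit 2449715),Int.negSucc (nat_lit 7704455),Int.negSucc (nat_lit 2345861),Int.ofNat (nat_lit 13049884),Int.negSucc (nat_lit 13104878),Int.negSucc (nat_lit 195092558),Int.ofNat (nat_lit 21857451),Int.negSucc (nat_lit 36635124),Int.ofNat (nat_lit 554297),Int.negSucc (nat_lit 6689149),Int.negSucc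 (nat_lit 3287431),Int.ofNat (nat_lit 286741),Int.negSucc (nat_lit 4608697),Int.negSucc (nat_lit 571170),Int.negSucc (nat_lit 834579),Int.ofNat (nat_lit 87709119)])

/-- A row. -/
noncomputable def sp2_c1_1 : List ℕ × List ℤ :=
  ([(nat_lit 2),(nat_lit 0),(nat_lit 1),(nat_lit 0),(nat_lit 0),(nat_lit 0),(nat_lit 0),(nat_lit 0),(nat_lit 0),(nat_lit 0),(nat_lit 0),(nat_lit 0)], [Int.negSucc (nat_lit 67640526),Int.negSucc (nat_lit 71745713),Int.ofNat (nat_lit 31351916),Int.negSucc (nat_lit 7333126),Int.negSucc (nat_lit 17365262),Int.negSucc (nat_lit 8308871),Int.negSucc (nat_lit 65494524),Int.ofNat (nat_lit 17860915),Int.ofNat (nat_lit 93996450),Int.negSucc (nat_lit 14091292),Int.negSucc (nat_lit 3540732),Int.negSucc (nat_lit 32515021),Int.ofNat (nat_lit 1586069),Int.negSucc (nat_lit 12086544),Int.ofNat (nat_lit 3173110),Int.negSucc (nat_lit 49681440),Int.ofNat (nat_lit 3822807),Int.ofNat (nat_lit 2120763),Int.negSucc (nat_lit 19261453),Int.ofNat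 (nat_lit 6964200),Int.ofNat (nat_lit 130702229),Int.ofNat (nat_lit 24894117),Int.negSucc (nat_lit 91637309),Int.negSucc (nat_lit 121812011),Int.ofNat (nat_lit 15310494),Int.ofNat (nat_lit 2506091),Int.negSucc (nat_lit 2489590),Int.ofNat (nat_lit 11716034),Int.negSucc (nat_lit 688153),Int.ofNat (nat_lit 33757691),Int.negSucc (nat_lit 56378697),Int.ofNat (nat_lit 135358344)])

/-- A row. -/
noncomputable def sp2_c1_2 : List ℕ × List ℤ :=
  ([(nat_lit 2),(nat_lit 1),(nat_lit 0),(nat_lit 1),(nat_lit 0),(nat_lit 0),(nat_lit 0),(nat_lit 0),(nat_lit 0),(nat_lit 0),(nat_lit 0),(nat_lit 0)], [Int.ofNat (nat_lit 46282280),Int.negSucc (nat_lit 34274669),Int.negSucc (nat_lit 26458813),Int.ofNat (nat_lit 62436447),Int.negSucc (nat_lit 48993321),Int.negSucc (nat_lit 16699871),Int.ofNat (nat_lit 23299590),Int.negSucc (nat_lit 24459631),Int.negSucc (nat_lit 14702277),Int.ofNat (nat_lit 57957802),Int.ofNat (nat_lit 33338400),Int.negSucc (nat_lit 251252053),Int.ofNat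 (nat_lit 42877470),Int.ofNat (nat_lit 15571102),Int.ofNat (nat_lit 8792057),Int.negSucc (nat_lit 11367651),Int.negSucc (nat_lit 144261053),Int.ofNat (nat_lit 4142724),Int.ofNat (nat_lit 12262960),Int.ofNat (nat_lit 27557431),Int.ofNat (nat_lit 78450442),Int.negSucc (nat_lit 3652770),Int.negSucc (nat_lit 19582574),Int.ofNat (nat_lit 8199238),Int.negSucc (nat_lit 12156804),Int.negSucc (nat_lit 386373523),Int.negSucc (nat_lit 62168873),Int.ofNat (nat_lit 53092405),Int.ofNat (nat_lit 15194337),Int.negSucc (nat_lit 36735583),Int.negSucc (nat_lit 20702539),Int.negSucc (nat_lit 1868228),Int.ofNat (nat_lit 319999964)])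

/-- A row. -/
noncomputable def sp2_c1_3 : List ℕ × List ℤ :=
  ([(nat_lit 2),(nat_lit 2),(nat_lit 0),(nat_lit 0),(nat_lit 0),(nat_lit 0),(nat_lit 0),(nat_lit 0),(nat_lit 0),(nat_lit 0),(nat_lit 0),(nat_lit 0)], [Int.ofNat (nat_lit 129287101),Int.ofNat (nat_lit 19788751),Int.negSucc (nat_lit 16813832),Int.ofNat (nat_lit 4469421),Int.ofNat (nat_lit 109347920),Int.ofNat (nat_lit 45341901),Int.negSucc (nat_lit 181988521),Int.negSucc (nat_lit 70073896),Int.ofNat (nat_lit 70787079),Int.negSucc (nat_lit 38200853),Int.ofNat (nat_lit 18753626),Int.ofNat (nat_lit 292983133),Int.negSucc (nat_lit 24889873),Int.negSucc (nat_lit 276437176),Int.negSucc (nat_lit 38621340),Int.ofNat (nat_lit 243621376),Int.ofNat (nat_lit 97655957),Int.negSucc (nat_lit 475995816),Int.ofNat (nat_lit 195307892),Int.ofNat (nat_lit 18937959),Int.negSucc (nat_lit 120260362),Int.ofNat (nat_lit 13081755),Int.ofNat (nat_lit 112344197),Int.ofNat (nat_lit 46567620),Int.negSucc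 (nat_lit 116134242),Int.ofNat (nat_lit 370176654),Int.negSucc (nat_lit 215160821),Int.negSucc (nat_lit 456663138),Int.negSucc (nat_lit 99641256),Int.negSucc (nat_lit 352455202),Int.ofNat (nat_lit 25957998),Int.ofNat (nat_lit 2387049),Int.negSucc (nat_lit 338730207),Int.ofNat (nat_lit 809141925)])

/-- A row. -/
noncomputable def sp2_c1_4 : List ℕ × List ℤ :=
  ([(nat_lit 3),(nat_lit 0),(nat_lit 0),(nat_lit 0),(nat_lit 0),(nat_lit 0),(nat_lit 0),(nat_lit 0),(nat_lit 0),(nat_lit 0),(nat_lit 0),(nat_lit 0)], [Int.ofNat (nat_lit 122196932),Int.negSucc (nat_lit 56778891),Int.negSucc (nat_lit 11781694),Int.negSucc (nat_lit 12435148),Int.ofNat (nat_lit 47868526),Int.ofNat (nat_lit 8079903),Int.negSucc (nat_lit 33893492),Int.ofNat (nat_lit 908522),Int.negSucc (nat_lit 42712868),Int.ofNat (nat_lit 45620801),Int.ofNat (nat_lit 4716789),Int.ofNat (nat_lit 79186024),Int.negSucc (nat_lit 1375856),Int.ofNat (nat_lit 93118559),Int.ofNat (nat_lit 2363818),Int.ofNat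 (nat_lit 41828383),Int.negSucc (nat_lit 7673573),Int.negSucc (nat_lit 14718814),Int.negSucc (nat_lit 105535849),Int.ofNat (nat_lit 22248144),Int.negSucc (nat_lit 148163135),Int.negSucc (nat_lit 10341421),Int.ofNat (nat_lit 26214333),Int.ofNat (nat_lit 93888430),Int.ofNat (nat_lit 3228805),Int.ofNat (nat_lit 8853728),Int.ofNat (nat_lit 9391668),Int.negSucc (nat_lit 22878468),Int.negSucc (nat_lit 3121297),Int.negSucc (nat_lit 262866025),Int.ofNat (nat_lit 36713012),Int.negSucc (nat_lit 88464082),Int.negSucc (nat_lit 11477661),Int.ofNat (nat_lit 7706024),Int.ofNat (nat_lit 116566906)])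

/-- A row. -/
noncomputable def sp2_c1_5 : List ℕ × List ℤ :=
  ([(nat_lit 3),(nat_lit 0),(nat_lit 1),(nat_lit 0),(nat_lit 0),(nat_lit 0),(nat_lit 0),(nat_lit 0),(nat_lit 0),(nat_lit 0),(nat_lit 0),(nat_lit 0)], [Int.ofNat (nat_lit 72366208),Int.negSucc (nat_lit 28116243),Int.negSucc (nat_lit 11305726),Int.negSucc (nat_lit 9551507),Int.ofNat (nat_lit 26230135),Int.ofNat (nat_lit 3491939),Int.ofNat (nat_lit 81710934),Int.ofNat (nat_lit 74253652),Int.negSucc (nat_lit 69931420),Int.ofNat (nat_lit 27452022),Int.negSucc (nat_lit 5560601),Int.ofNat (nat_lit 22982428),Int.ofNat (nat_lit 136611),Int.ofNat (nat_lit 22145942),Int.negSucc (nat_lit 5074251),Int.ofNat (nat_lit 38209934),Int.negSucc (nat_lit 10827228),Int.ofNat (nat_lit 4870134),Int.negSucc (nat_lit 71972566),Int.ofNat (nat_lit 15469590),Int.ofNat (nat_lit 24458823),Int.negSucc (nat_lit 570825),Int.negSucc (nat_lit 106728983),Int.ofNat (nat_lit 51270340),Int.negSucc (nat_lit 10887672),Int.negSucc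 (nat_lit 4857748),Int.negSucc (nat_lit 15540721),Int.negSucc (nat_lit 47034612),Int.negSucc (nat_lit 2780536),Int.negSucc (nat_lit 43887859),Int.ofNat (nat_lit 29916702),Int.negSucc (nat_lit 154903817),Int.ofNat (nat_lit 14675336),Int.negSucc (nat_lit 4875722),Int.ofNat (nat_lit 44480977),Int.ofNat (nat_lit 92273724)])

/-- A row. -/
noncomputable def sp2_c1_6 : List ℕ × List ℤ :=
  ([(nat_lit 3),(nat_lit 2),(nat_lit 0),(nat_lit 0),(nat_lit 0),(nat_lit 0),(nat_lit 0),(nat_lit 0),(nat_lit 0),(nat_lit 0),(nat_lit 0),(nat_lit 0)], [Int.negSucc (nat_lit 333694859),Int.ofNat (nat_lit 184981519),Int.negSucc (nat_lit 136762092),Int.ofNat (nat_lit 71049356),Int.negSucc (nat_lit 165683216),Int.ofNat (nat_lit 13269543),Int.ofNat (nat_lit 145883539),Int.ofNat (nat_lit 48112010),Int.negSucc (nat_lit 144260770),Int.negSucc (nat_lit 82788021),Int.ofNat (nat_lit 38836221),Int.negSucc (nat_lit 121279103),Int.negSucc (nat_lit 39468101),Int.ofNat (nat_lit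 599335934),Int.ofNat (nat_lit 60054310),Int.negSucc (nat_lit 117944968),Int.ofNat (nat_lit 16640026),Int.ofNat (nat_lit 573991108),Int.ofNat (nat_lit 417608240),Int.negSucc (nat_lit 90673903),Int.ofNat (nat_lit 169594813),Int.negSucc (nat_lit 4144259),Int.negSucc (nat_lit 86275817),Int.negSucc (nat_lit 198291984),Int.ofNat (nat_lit 153123937),Int.ofNat (nat_lit 108089692),Int.negSucc (nat_lit 716552509),Int.ofNat (nat_lit 106357757),Int.negSucc (nat_lit 337828578),Int.ofNat (nat_lit 461894457),Int.ofNat (nat_lit 18198786),Int.ofNat (nat_lit 14673194),Int.ofNat (nat_lit 127793938),Int.negSucc (nat_lit 1127932484),Int.negSucc (nat_lit 205111142),Int.ofNat (nat_lit 83832920),Int.ofNat (nat_lit 555238406)])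

/-- A row. -/
noncomputable def sp2_c1_7 : List ℕ × List ℤ :=
  ([(nat_lit 4),(nat_lit 0),(nat_lit 0),(nat_lit 0),(nat_lit 0),(nat_lit 0),(nat_lit 0),(nat_lit 0),(nat_lit 0),(nat_lit 0),(nat_lit 0),(nat_lit 0)], [Int.ofNat (nat_lit 8605117),Int.negSucc (nat_lit 33505393),Int.ofNat (nat_lit 4779920),Int.ofNat (nat_lit 39136351),Int.negSucc (nat_lit 29950397),Int.ofNat (nat_lit 118710),Int.negSucc (nat_lit 102047251),Int.negSucc (nat_lit 60236336),Int.ofNat (nat_lit 77249290),Int.negSucc (nat_lit 23167987),Int.ofNat (nat_lit 9517910),Int.negSucc (nat_lit 7704727),Int.negSucc (nat_lit 2929570),Int.ofNat (nat_lit 48792244),Int.ofNat (nat_lit 11722796),Int.negSucc (nat_lit 37822920),Int.ofNat (nat_lit 1869481),Int.ofNat (nat_lit 25478395),Int.ofNat (nat_lit 188702733),Int.ofNat (nat_lit 25870822),Int.ofNat (nat_lit 18680855),Int.ofNat (nat_lit 4696778),Int.negSucc (nat_lit 8709187),Int.ofNat (nat_lit 23445670),Int.ofNat (nat_lit 35773534),Int.ofNat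 (nat_lit 18123249),Int.ofNat (nat_lit 128439300),Int.ofNat (nat_lit 22651092),Int.ofNat (nat_lit 119601),Int.negSucc (nat_lit 176036768),Int.negSucc (nat_lit 44784691),Int.ofNat (nat_lit 158989924),Int.negSucc (nat_lit 2048144),Int.negSucc (nat_lit 79366054),Int.negSucc (nat_lit 149145410),Int.negSucc (nat_lit 19002408),Int.negSucc (nat_lit 28449320),Int.ofNat (nat_lit 134634057)])

/-- A row. -/
noncomputable def sp2_c1_8 : List ℕ × List ℤ :=
  ([(nat_lit 5),(nat_lit 0),(nat_lit 0),(nat_lit 0),(nat_lit 0),(nat_lit 0),(nat_lit 0),(nat_lit 0),(nat_lit 0),(nat_lit 0),(nat_lit 0),(nat_lit 0)], [Int.negSucc (nat_lit 65997204),Int.ofNat (nat_lit 103788464),Int.negSucc (nat_lit 15555530),Int.negSucc (nat_lit 9542607),Int.negSucc (nat_lit 14524214),Int.negSucc (nat_lit 4210973),Int.ofNat (nat_lit 100010466),Int.negSucc (nat_lit 6640584),Int.negSucc (nat_lit 40514454),Int.negSucc (nat_lit 26697877),Int.negSucc (nat_lit 6623424),Int.negSucc (nat_lit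 45694779),Int.negSucc (nat_lit 89490),Int.negSucc (nat_lit 114190926),Int.negSucc (nat_lit 17679410),Int.ofNat (nat_lit 11206474),Int.ofNat (nat_lit 2384705),Int.negSucc (nat_lit 24630664),Int.ofNat (nat_lit 9988371),Int.negSucc (nat_lit 35378500),Int.negSucc (nat_lit 12705059),Int.ofNat (nat_lit 4423080),Int.ofNat (nat_lit 71094548),Int.negSucc (nat_lit 39647139),Int.negSucc (nat_lit 33977944),Int.negSucc (nat_lit 21150113),Int.negSucc (nat_lit 60369506),Int.ofNat (nat_lit 18126130),Int.ofNat (nat_lit 2427103),Int.ofNat (nat_lit 325988668),Int.ofNat (nat_lit 56043429),Int.negSucc (nat_lit 70906366),Int.ofNat (nat_lit 8779723),Int.ofNat (nat_lit 93406715),Int.negSucc (nat_lit 38090945),Int.negSucc (nat_lit 50937510),Int.ofNat (nat_lit 19202358),Int.negSucc (nat_lit 174657106),Int.ofNat (nat_lit 32858533)])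

/-- A part of a triangular factor. -/
noncomputable def sp2_c1 : Rows :=
  [sp2_c1_0,
   sp2_c1_1,
   sp2_c1_2,
   sp2_c1_3,
   sp2_c1_4,
   sp2_c1_5,
   sp2_c1_6,
   sp2_c1_7,
   sp2_c1_8]

/-- A triangular factor. -/
noncomputable def sp2_rows : List Rows :=
  [sp2_c0, sp2_c1]

end Vale.Agent.P142K.CertB
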