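import Vale.Agent.P142K.CertB.Sp3Rows
import Vale.Agent.P142K.Fast

/-!
# An expanded part of the certificate

Generated from a semidefinite program; only the checker is trusted.
-/

namespace Vale.Agent.P142K.CertB

open Vale.Agent.P142J (MP)

/-- A coefficient. -/
noncomputable def sp3_m0_0_0 : MP 10 :=
  [[[[[[[[[],[],[[Int.ofNat (nat_lit 12158560984198225)]]]],[[[],[[Int.negSucc (nat_lit 619270078783209)]]]],[[[[Int.ofNat (nat_lit 11776594773682418)]]]]]],[[[[[],[[Int.ofNat (nat_lit 4277896331181270)]]]],[[[[Int.ofNat (nat_lit 3753789141306064)]]]]]],[[[[[[Int.ofNat (nat_lit 4096201309549667)]]]]]]],[[],[[[[[],[[Int.negSucc (nat_lit 773127568725389)]]]],[[[[Int.negSucc (nat_lit 4977065740994989)]]]]]],[[[[[[Int.negSucc (nat_lit 1813748175607631)]]]]]]],[[],[],[[[[[[Int.ofNat (nat_lit 1160315711110254)]]]]]]]],[[[[[[[],[[Int.negSucc (nat_lit 4723081749746699)]]]],[[[[Int.negSucc (nat_lit 10965920341925729)]]]]],[[[[],[[Int.ofNat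 (nat_lit 2427183246966500)]]]],[[[[Int.ofNat (nat_lit 5566059705730172)]]]]]],[[[[[[Int.negSucc (nat_lit 3058719590846625)]]]]],[[[[[Int.ofNat (nat_lit 1326296231180416)]]]]]]],[[[[[[],[[Int.ofNat (nat_lit 889489371806050)]]]],[[[[Int.negSucc (nat_lit 541832670500591)]]]]]],[[[[[[Int.ofNat (nat_lit 3240596542136602)]]]]],[[[[[Int.negSucc (nat_lit 1602693754618751)]]]]]]],[[],[[[[[[Int.negSucc (nat_lit 627950212734163)]]]]]]]],[[[[[[[[Int.ofNat (nat_lit 8596131135800538)]]]]],[[[[[Int.negSucc (nat_lit 4062653190333691)]]]]],[[[[[Int.ofNat (nat_lit 1252794263198134)]]]]]]],[[[[[[[Int.negSucc (nat_lit 787192058541029)]]]]],[[[[[Int.negSucc (nat_lit 336646927410955)]]]]]]],[[[[[[[Int.ofNat (nat_lit 1369842855426360)]]]]]]]]],[[[[[[],[[[],[[Int.ofNat (nat_lit 1322407933421960)]]]],[[[[Int.negSucc (nat_lit 916379652829563)]]]]]],[[[[[],[[Int.ofNat (nat_lit 3159753266291050)]]]],[[[[Int.ofNat (nat_lit 5945137190756410)]]]]]],[[[[[[Int.ofNat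 (nat_lit 1783325256231362)]]]]]]],[[],[[[],[[[[Int.negSucc (nat_lit 444049448860923)]]]]]],[[[[[[Int.negSucc (nat_lit 2039299842271877)]]]]]]]],[[[[[[[],[[Int.negSucc (nat_lit 1997422258660729)]]]],[[[[Int.ofNat (nat_lit 9317177313968488)]]]]],[[],[[[[Int.negSucc (nat_lit 199980593866921)]]]]]],[[[[[[Int.negSucc (nat_lit 2606747766631729)]]]]],[[[[[Int.ofNat (nat_lit 1671110143060874)]]]]]]],[[[[],[[[[Int.ofNat (nat_lit 858203607454720)]]]]]],[[[[[[Int.negSucc (nat_lit 1099346502799201)]]]]]]]],[[[[[[[[Int.negSucc (nat_lit 1497634824002715)]]]]],[[[[[Int.ofNat (nat_lit 2135080122445948)]]]]]]],[[[[[[[Int.negSucc (nat_lit 2079515262544445)]]]]]]]]],[[[[[[],[],[[[[Int.ofNat (nat_lit 781393405925007)]]]]]],[[[],[[[[Int.ofNat (nat_lit 429979083254546)]]]]]],[[[[[[Int.ofNat (nat_lit 1671382468157716)]]]]]]]],[[[[[],[[[[Int.negSucc (nat_lit 1408826499277893)]]]]]],[[[[[[Int.ofNat (nat_lit 766650789466424)]]]]]]]],[[[[[[[[Int.ofNat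 (nat_lit 3349871138912349)]]]]]]]]]]

/-- A coefficient. -/
noncomputable def sp3_m0_0_1 : MP 10 :=
  [[[[[[[[[],[[Int.ofNat (nat_lit 2206558673108170)]]],[[],[[Int.ofNat (nat_lit 10746017211824800)]]]],[[[[Int.ofNat (nat_lit 18440000768385876)]]],[[[Int.ofNat (nat_lit 1276036570951430)]]]]],[[[[],[[Int.negSucc (nat_lit 4755316652189069)]]]],[[[[Int.negSucc (nat_lit 7801720879183219)]]]]]],[[[[[[Int.ofNat (nat_lit 6307311860087444)]]],[[[Int.ofNat (nat_lit 2166732118739584)]]]]],[[[[[Int.ofNat (nat_lit 489999645764062)]]]]]]],[[[[[[],[[Int.negSucc (nat_lit 200867577231089)]]]],[[[[Int.ofNat (nat_lit 2290161001332050)]]]]]],[[[[[[Int.negSucc (nat_lit 9701123750364821)]]],[[[Int.negSucc (nat_lit 2734246096200705)]]]]],[[[[[Int.ofNat (nat_lit 1988123459052832)]]]]]]],[[],[[[[[[Int.ofNat (nat_lit 16446392673288)]]]]]]]],[[[[[[[[Int.negSucc (nat_lit 24142945548201927)]]],[[[Int.negSucc (nat_lit 2726024376518191)]]]]],[[[[[Int.ofNat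 (nat_lit 11811850134162410)]]],[[[Int.negSucc (nat_lit 19161163726979)]]]]],[[[[[Int.negSucc (nat_lit 3197595164233005)]]]]]],[[[[[],[[Int.negSucc (nat_lit 567640072282529)]]]],[[[[Int.ofNat (nat_lit 122422411132816)]]]]]],[[[[[[Int.ofNat (nat_lit 62720488936290)]]]]]]],[[[[[[[Int.negSucc (nat_lit 7734554151855831)]]],[[[Int.ofNat (nat_lit 1727431340179350)]]]]],[[[[[Int.ofNat (nat_lit 2797925114326184)]]]]]],[],[[[[[[Int.negSucc (nat_lit 57227139583843)]]]]]]],[[[[[[[Int.negSucc (nat_lit 5576341315718623)]]]]]]]],[[[[[[[],[[Int.ofNat (nat_lit 15107085100190)]]]],[[[[Int.ofNat (nat_lit 101680197046794)]]]]]],[[[[[[Int.ofNat (nat_lit 311572498335376)]]]]],[[[[[Int.ofNat (nat_lit 14841270)]]]]]]],[[],[[[[[[Int.ofNat (nat_lit 132079266883364)]]]]]]]],[[[[[[[[Int.negSucc (nat_lit 170941871802261)]]]]],[[[[[Int.negSucc (nat_lit 16739891)]]]]]]],[[[[[[[Int.negSucc (nat_lit 53706776235449)]]]]]]]]],[[[[[[[[],[[Int.ofNat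 (nat_lit 9037398455074010)]]]],[[[[Int.negSucc (nat_lit 7893217552402755)]]],[[[Int.ofNat (nat_lit 1386654684955184)]]]]],[[],[[[[Int.negSucc (nat_lit 128673987799155)]]]]]],[[[[[[Int.ofNat (nat_lit 6116710153582614)]]],[[[Int.ofNat (nat_lit 194734795780616)]]]]],[[[[[Int.negSucc (nat_lit 2607226473030949)]]]]]]],[[[[[[],[[Int.ofNat (nat_lit 610411760252570)]]]],[[[[Int.negSucc (nat_lit 6765612351662427)]]]]]],[[[[[[Int.negSucc (nat_lit 15568267892871)]]]]]]],[[],[[[[[[Int.ofNat (nat_lit 339477764964402)]]]]]]]],[[[[[[[[Int.ofNat (nat_lit 2268092349714366)]]],[[[Int.negSucc (nat_lit 842208083149905)]]]]],[[[[[Int.negSucc (nat_lit 2399370123877483)]]]]]],[[[],[[[[Int.ofNat (nat_lit 237910221835456)]]]]]],[[[[[[Int.negSucc (nat_lit 128303161963449)]]]]]]],[[[[[[[Int.ofNat (nat_lit 8210615143084708)]]]]],[[[[[Int.negSucc (nat_lit 281353581938139)]]]]]]],[[[[[[[Int.ofNat (nat_lit 80088182204916)]]]]]]]],[[[[[],[[[[Int.negSucc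 (nat_lit 90007456476665)]]]]]],[[[[[[Int.ofNat (nat_lit 105918968974094)]]]]]]]],[[[[[[[[Int.ofNat (nat_lit 45232482989328)]]]]]]]]],[[[[[[[[],[[Int.negSucc (nat_lit 632927167758649)]]]],[[[[Int.ofNat (nat_lit 2758410050883216)]]]]]],[[[[[[Int.ofNat (nat_lit 143983148734518)]]]]]]],[[[[],[[[[Int.negSucc (nat_lit 17111391)]]]]]],[[[[[[Int.negSucc (nat_lit 367035759819263)]]]]]]]],[[[[[[[[Int.negSucc (nat_lit 5474935753819369)]]]]],[[[[[Int.negSucc (nat_lit 36514074112227)]]]]]]],[[[[[[[Int.negSucc (nat_lit 377621067866939)]]]]]]]]],[[[[[[],[[[[Int.ofNat (nat_lit 17279600)]]]]]],[[[[[[Int.negSucc (nat_lit 56747066177469)]]]]]]]],[[[[[[[[Int.ofNat (nat_lit 51579287297130)]]]]]]]]]]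

/-- A coefficient. -/
noncomputable def sp3_m0_0_2 : MP 10 :=
  [[[[[[[[[[Int.ofNat (nat_lit 25743915634250247)]]],[[[Int.ofNat (nat_lit 13185513899604702)]]],[[[Int.ofNat (nat_lit 118301738563792275)]]]],[[[],[[Int.ofNat (nat_lit 8835820765672320)]]]],[[[[Int.negSucc (nat_lit 10064550138876407)]]]]],[[[[[Int.negSucc (nat_lit 9560516563331599)]]],[[[Int.ofNat (nat_lit 1710374702968482)]]]]],[[[[[Int.ofNat (nat_lit 28522634199473951)]]]]]],[[[[[],[[Int.negSucc (nat_lit 7168218925915959)]]]],[[[[Int.negSucc (nat_lit 2042472459997689)]]]]]],[[[[[[Int.negSucc (nat_lit 9905766509539163)]]]]]]],[[[[[[[Int.ofNat (nat_lit 6232410633485912)]]],[[[Int.negSucc (nat_lit 5345892578286165)]]]]],[[[[[Int.negSucc (nat_lit 6887992136831037)]]]]]],[[[],[[[[Int.ofNat (nat_lit 17399192)]]]]]],[[[[[[Int.ofNat (nat_lit 294112690097666)]]]]]]],[[[[[[[Int.ofNat (nat_lit 75797577345073252)]]]]]]]],[[[[[[[],[[Int.ofNat (nat_lit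 2700214099015110)]]]],[[[[Int.ofNat (nat_lit 20038895575058458)]]]]],[[],[[[[Int.ofNat (nat_lit 1138892574705438)]]]]]],[[[[[[Int.ofNat (nat_lit 5079649868768244)]]],[[[Int.negSucc (nat_lit 1599260552564399)]]]]],[[[[[Int.negSucc (nat_lit 1013321339664795)]]]]]]],[[[[],[[[[Int.negSucc (nat_lit 1013456462270289)]]]]]],[[[[[[Int.negSucc (nat_lit 2716325028536655)]]]]]]]],[[[[[[[[Int.negSucc (nat_lit 38037699645093937)]]],[[[Int.ofNat (nat_lit 2306283130944470)]]]]],[[[[[Int.ofNat (nat_lit 2821400460423098)]]]]]],[],[[[[[[Int.ofNat (nat_lit 1404341645880461)]]]]]]],[[[[[[[Int.negSucc (nat_lit 347407629037333)]]]]]]]],[[[],[[[[[[Int.negSucc (nat_lit 1756728214918067)]]]]]]]],[[[[[[[[Int.ofNat (nat_lit 728475270983094)]]]]]]]]],[[[[[[[[[Int.ofNat (nat_lit 8013639924211694)]]],[[[Int.ofNat (nat_lit 1895057459689612)]]]],[],[[[[Int.negSucc (nat_lit 54812149)]]]]],[[[[[Int.negSucc (nat_lit 250147095417039)]]]]]],[[[],[[[[Int.negSucc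 (nat_lit 74628219018969)]]]]]],[[[[[[Int.negSucc (nat_lit 607926470768507)]]]]]]],[[[[[[[Int.negSucc (nat_lit 55733773850819051)]]],[[[Int.ofNat (nat_lit 3188704152481338)]]]]],[[[[[Int.ofNat (nat_lit 1527926292545392)]]]]]]],[[[[[[[Int.negSucc (nat_lit 3260358379604989)]]]]]]]],[[[[[[[],[[Int.ofNat (nat_lit 2699138345236170)]]]],[[[[Int.negSucc (nat_lit 6530459735345989)]]]]]],[[[[[[Int.ofNat (nat_lit 2476080016237900)]]]]]]],[[],[[[[[[Int.negSucc (nat_lit 199467990828615)]]]]]]]],[[[[[[[[Int.negSucc (nat_lit 383851279389549)]]]]],[[[[[Int.ofNat (nat_lit 30492951082810)]]]]]]],[[[[[[[Int.ofNat (nat_lit 455769126614938)]]]]]]]]],[[[[[[[[[Int.ofNat (nat_lit 53802243197005707)]]],[[[Int.ofNat (nat_lit 809017196580718)]]]]],[[[[[Int.ofNat (nat_lit 1125438273542716)]]]]]]],[[[[[[[Int.negSucc (nat_lit 1621181235868595)]]]]]]],[[[[[[[Int.ofNat (nat_lit 1849204001258498)]]]]]]]],[[[[[],[[[[Int.ofNat (nat_lit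 708958772373454)]]]]]],[[[[[[Int.ofNat (nat_lit 510325073037060)]]]]]]]],[[[[[[[[Int.negSucc (nat_lit 4819525706152227)]]]]]]]]],[[[[[[[[[Int.ofNat (nat_lit 3225760505927082)]]]]]]],[[[[[[[Int.negSucc (nat_lit 1992962691003763)]]]]]]]]],[[[[[[[[[Int.ofNat (nat_lit 1394278659280380)]]]]]]]]]]

/-- A coefficient. -/
noncomputable def sp3_m0_0_3 : MP 10 :=
  [[[[[[[[[],[[Int.ofNat (nat_lit 3042032546690130)]]]],[[[[Int.negSucc (nat_lit 44877441317732609)]]],[[[Int.ofNat (nat_lit 8890160471088128)]]]]],[[],[[[[Int.negSucc (nat_lit 2668901192446205)]]]]]],[[[[[[Int.negSucc (nat_lit 16850370734446221)]]],[[[Int.ofNat (nat_lit 3702204375175054)]]]]],[[[[[Int.ofNat (nat_lit 7080517706358350)]]]]]]],[[[[[[],[[Int.ofNat (nat_lit 1191678047068340)]]]],[[[[Int.ofNat (nat_lit 16716334430480120)]]]]]],[[[[[[Int.ofNat (nat_lit 20062326120189558)]]]]]]],[[],[[[[[[Int.negSucc (nat_lit 4409718681741885)]]]]]]]],[[[[[[[[Int.ofNat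 (nat_lit 110128000442411972)]]],[[[Int.negSucc (nat_lit 4693643844540239)]]]]],[[[[[Int.negSucc (nat_lit 8785377366300925)]]]]]],[[[],[[[[Int.negSucc (nat_lit 4291617106959101)]]]]]],[[[[[[Int.negSucc (nat_lit 10362770810086069)]]]]]]],[[[[[[[Int.negSucc (nat_lit 42504294730873363)]]]]],[[[[[Int.negSucc (nat_lit 185082864414441)]]]]]]],[[[[[[[Int.ofNat (nat_lit 2214681500828198)]]]]]]]],[[[[[],[[[[Int.ofNat (nat_lit 2842631105068120)]]]]]],[[[[[[Int.ofNat (nat_lit 18626751124380766)]]]]]]]],[[[[[[[[Int.negSucc (nat_lit 8702987551604509)]]]]]]]]],[[[[[[[[],[[Int.negSucc (nat_lit 11547822065124199)]]]],[[[[Int.ofNat (nat_lit 9124179650837952)]]]]]],[[[[[[Int.negSucc (nat_lit 9749523659878129)]]]]]]],[[[[],[[[[Int.ofNat (nat_lit 6344545445745856)]]]]]],[[[[[[Int.ofNat (nat_lit 8543248707243014)]]]]]]]],[[[[[[[[Int.ofNat (nat_lit 14327348413158770)]]],[[[Int.negSucc (nat_lit 9443624015741)]]]]],[[[[[Int.negSucc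 (nat_lit 1474859259046865)]]]]]]],[[[[[[[Int.ofNat (nat_lit 3970145935670254)]]]]]]]],[[[],[[[[[[Int.negSucc (nat_lit 124372323928535)]]]]]]]],[[[[[[[[Int.negSucc (nat_lit 6934020017057)]]]]]]]]],[[[[[[],[[[[Int.negSucc (nat_lit 2164429136605123)]]]]]],[[[[[[Int.negSucc (nat_lit 3676014519569999)]]]]]]]],[[[[[[[[Int.ofNat (nat_lit 9139059449797780)]]]]]]],[[[[[[[Int.ofNat (nat_lit 21998916320344)]]]]]]]]],[[],[[[[[[[[Int.negSucc (nat_lit 4284785421067)]]]]]]]]]]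

/-- A coefficient. -/
noncomputable def sp3_m0_0_4 : MP 10 :=
  [[[[[[[[[[Int.negSucc (nat_lit 152217483519842539)]]],[[[Int.negSucc (nat_lit 17614124909542749)]]]],[],[[[[Int.ofNat (nat_lit 70165417412496246)]]]]],[[[[[Int.ofNat (nat_lit 14623352718103292)]]]]]],[[[],[[[[Int.negSucc (nat_lit 3968992112962243)]]]]]],[[[[[[Int.ofNat (nat_lit 42699860071197516)]]]]]]],[[[[[[[Int.ofNat (nat_lit 44612070090495140)]]],[[[Int.negSucc (nat_lit 1113739869179167)]]]]],[[[[[Int.ofNat (nat_lit 22621680593826)]]]]]]],[[[[[[[Int.negSucc (nat_lit 160148863412364685)]]]]]]]],[[[[[[[],[[Int.negSucc (nat_lit 1983188038147879)]]]],[[[[Int.negSucc (nat_lit 47843999748186821)]]]]]],[[[[[[Int.negSucc (nat_lit 69827326119365903)]]]]]]],[[],[[[[[[Int.ofNat (nat_lit 3039384617512538)]]]]]]]],[[[[[[[[Int.ofNat (nat_lit 242386261159545559)]]]]],[[[[[Int.negSucc (nat_lit 2808549161845791)]]]]]]],[[[[[[[Int.negSucc (nat_lit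 607600457890415)]]]]]]]]],[[[[[[[[[Int.negSucc (nat_lit 60920281744757937)]]],[[[Int.ofNat (nat_lit 5028394069196322)]]]]],[[[[[Int.ofNat (nat_lit 4251107761322240)]]]]]]],[[[[[[[Int.ofNat (nat_lit 110430696212545312)]]]]]]],[[[[[[[Int.negSucc (nat_lit 880375298165903)]]]]]]]],[[[[[],[[[[Int.ofNat (nat_lit 7930322151707560)]]]]]],[[[[[[Int.negSucc (nat_lit 4415602324606169)]]]]]]]],[[[[[[[[Int.ofNat (nat_lit 3625611198378322)]]]]]]]]],[[[[[[[[[Int.negSucc (nat_lit 123983779949351063)]]]]]]],[[[[[[[Int.ofNat (nat_lit 290104473974334)]]]]]]]],[],[[[[[[[[Int.ofNat (nat_lit 3871649675639629)]]]]]]]]],[[[[[[[[[Int.ofNat (nat_lit 430955184061454)]]]]]]]]]]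

/-- A coefficient. -/
noncomputable def sp3_m0_0_5 : MP 10 :=
  [[[[[[[[[],[[Int.negSucc (nat_lit 2553372164467689)]]]],[[[[Int.ofNat (nat_lit 82991850009052966)]]]]]],[[[[[[Int.ofNat (nat_lit 66187548636920232)]]]]]]],[[[[],[[[[Int.negSucc (nat_lit 27914344612273293)]]]]]],[[[[[[Int.negSucc (nat_lit 16847225413600029)]]]]]]]],[[[[[[[[Int.negSucc (nat_lit 475376458378290381)]]],[[[Int.ofNat (nat_lit 643300000820)]]]]],[[[[[Int.ofNat (nat_lit 8717686955610246)]]]]]]],[[[[[[[Int.ofNat (nat_lit 115861474937357246)]]]]]]]],[[[],[[[[[[Int.negSucc (nat_lit 725709184092351)]]]]]]]],[[[[[[[[Int.ofNat (nat_lit 429892292718982)]]]]]]]]],[[[[[[],[[[[Int.negSucc (nat_lit 12741851880071049)]]]]]],[[[[[[Int.ofNat (nat_lit 14807399120457068)]]]]]]]],[[[[[[[[Int.negSucc (nat_lit 36873863095917133)]]]]]]],[[[[[[[Int.negSucc (nat_lit 5995868414677079)]]]]]]]]],[[],[[[[[[[[Int.negSucc (nat_lit 4178737922866713)]]]]]]]]]]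

/-- A coefficient. -/
noncomputable def sp3_m0_0_6 : MP 10 :=
  [[[[[[[[[[Int.ofNat (nat_lit 597244862568966320)]]],[[[Int.ofNat (nat_lit 15745192329187904)]]]]],[[[[[Int.negSucc (nat_lit 10736212814111011)]]]]]]],[[[[[[[Int.negSucc (nat_lit 113861039063735933)]]]]]]],[[[[[[[Int.ofNat (nat_lit 130272246091159488)]]]]]]]],[[[[[],[[[[Int.ofNat (nat_lit 23532801469019570)]]]]]],[[[[[[Int.ofNat (nat_lit 5404953954094218)]]]]]]]],[[[[[[[[Int.negSucc (nat_lit 363772487184513077)]]]]]]]]],[[[[[[[[[Int.ofNat (nat_lit 104163099905209944)]]]]]]],[[[[[[[Int.negSucc (nat_lit 80165302068883721)]]]]]]]],[],[[[[[[[[Int.negSucc (nat_lit 1651479680971555)]]]]]]]]],[[[[[[[[[Int.ofNat (nat_lit 98441796844056002)]]]]]]]]]]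

/-- A coefficient. -/
noncomputable def sp3_m0_0_7 : MP 10 :=
  [[[[[[[],[[[[Int.negSucc (nat_lit 37393169466374849)]]]]]],[[[[[[Int.negSucc (nat_lit 14522048132770229)]]]]]]]],[[[[[[[[Int.ofNat (nat_lit 670463342840231776)]]]]]]],[[[[[[[Int.negSucc (nat_lit 82827866920298443)]]]]]]]]],[[],[[[[[[[[Int.ofNat (nat_lit 21603398204130292)]]]]]]]]]]

/-- A coefficient. -/
noncomputable def sp3_m0_0_8 : MP 10 :=
  [[[[[[[[[[Int.negSucc (nat_lit 866638164204471059)]]]]]]],[[[[[[[Int.ofNat (nat_lit 79469527397718424)]]]]]]]],[],[[[[[[[[Int.ofNat (nat_lit 207173710769501650)]]]]]]]]],[[[[[[[[[Int.negSucc (nat_lit 58453725296842907)]]]]]]]]]]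

/-- A coefficient. -/
noncomputable def sp3_m0_0_9 : MP 10 :=
  [[[],[[[[[[[[Int.negSucc (nat_lit 350827375511086727)]]]]]]]]]]

/-- A coefficient. -/
noncomputable def sp3_m0_0_10 : MP 10 :=
  [[[[[[[[[[Int.ofNat (nat_lit 439189443434285051)]]]]]]]]]]

/-- A coefficient. -/
noncomputable def sp3_m0_1_0 : MP 10 :=
  [[[[[[[[[],[],[[Int.negSucc (nat_lit 45440497909639649)]]]],[[[],[[Int.negSucc (nat_lit 5137776267574267)]]]],[[[[Int.negSucc (nat_lit 19002306580875797)]]]]]],[[[[[],[[Int.negSucc (nat_lit 15216727499273275)]]]],[[[[Int.negSucc (nat_lit 18735893567555467)]]]]]],[[[[[[Int.negSucc (nat_lit 17331891440849399)]]]]]]],[[],[[[[[],[[Int.ofNat (nat_lit 3942956348150376)]]]],[[[[Int.ofNat (nat_lit 4104405029303644)]]]]]],[[[[[[Int.ofNat (nat_lit 5322798524587400)]]]]]]]],[[[[[[[],[[Int.ofNat (nat_lit 13434910743176682)]]]],[[[[Int.ofNat (nat_lit 1000112234052110)]]]]],[[[[],[[Int.negSucc (nat_lit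 6463503230915877)]]]],[[[[Int.negSucc (nat_lit 5110422286514501)]]]]]],[[[[[[Int.ofNat (nat_lit 10689869378978324)]]]]],[[[[[Int.negSucc (nat_lit 2933183944907605)]]]]]]],[[[[[[],[[Int.negSucc (nat_lit 2089461899637429)]]]],[[[[Int.negSucc (nat_lit 851226810429469)]]]]]],[[[[[[Int.negSucc (nat_lit 3510461668800705)]]]]]]],[[],[[[[[[Int.ofNat (nat_lit 816814425529726)]]]]]]]],[[[[[[[[Int.negSucc (nat_lit 13580881354267423)]]]]],[[[[[Int.negSucc (nat_lit 2248807136403905)]]]]]]],[[[[[[[Int.ofNat (nat_lit 6152547923156650)]]]]],[[[[[Int.negSucc (nat_lit 33215497)]]]]]]],[[[[[[[Int.negSucc (nat_lit 487649921319887)]]]]]]]]],[[[[[[],[[[],[[Int.negSucc (nat_lit 4060387819077297)]]]],[[[[Int.negSucc (nat_lit 897793901798623)]]]]]],[[[[[],[[Int.negSucc (nat_lit 7382652267194519)]]]],[[[[Int.negSucc (nat_lit 8918051101375093)]]]]]],[[[[[[Int.negSucc (nat_lit 5942891819774541)]]]]]]],[[],[],[[[[[[Int.ofNat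 (nat_lit 215727230324282)]]]]]]]],[[[[[[[],[[Int.ofNat (nat_lit 3838098959002658)]]]],[[[[Int.negSucc (nat_lit 1809685795614261)]]]]]],[[[[[[Int.negSucc (nat_lit 141583793390587)]]]]],[[[[[Int.negSucc (nat_lit 749696350406607)]]]]]]],[[[[],[[[[Int.negSucc (nat_lit 636259533225351)]]]]]],[[[[[[Int.negSucc (nat_lit 1405028151742379)]]]]]]]],[[[[[[[[Int.negSucc (nat_lit 11593881819310557)]]]]],[[[[[Int.ofNat (nat_lit 298882321143058)]]]]]]],[[[[[[[Int.ofNat (nat_lit 541362257343638)]]]]]]]]],[[[[],[[[],[[[[Int.ofNat (nat_lit 14688042)]]]]]],[[[[[[Int.negSucc (nat_lit 16651725610509)]]]]]]]],[[[[[],[[[[Int.ofNat (nat_lit 56724494388156)]]]]]],[[[[[[Int.negSucc (nat_lit 108943007602297)]]]]]]]],[[[[[[[[Int.ofNat (nat_lit 405466854359186)]]]]]]]]]]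

/-- A coefficient. -/
noncomputable def sp3_m0_1_1 : MP 10 :=
  [[[[[[[[[],[[Int.negSucc (nat_lit 18467638820807929)]]],[[],[[Int.negSucc (nat_lit 19248671934196401)]]]],[[[[Int.ofNat (nat_lit 6961077235637412)]]],[[[Int.ofNat (nat_lit 16443674550511606)]]]]],[[[[],[[Int.ofNat (nat_lit 8706789321202638)]]]],[[[[Int.ofNat (nat_lit 4135661292451752)]]]]]],[[[[[[Int.negSucc (nat_lit 30214210694647063)]]],[[[Int.negSucc (nat_lit 7463861420441503)]]]]],[[[[[Int.ofNat (nat_lit 4318246893320396)]]]]]]],[[[[[[],[[Int.negSucc (nat_lit 2769686128738253)]]]],[[[[Int.negSucc (nat_lit 1994020569707699)]]]]]],[[[[[[Int.ofNat (nat_lit 13815490828792564)]]]]],[[[[[Int.negSucc (nat_lit 11768275)]]]]]]],[[],[[[[[[Int.negSucc (nat_lit 2094468891123821)]]]]]]]],[[[[[[[[Int.ofNat (nat_lit 26530894838870182)]]],[[[Int.negSucc (nat_lit 5100728974491755)]]]]],[[[[[Int.ofNat (nat_lit 3995215475809236)]]]]],[[[[[Int.ofNat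 (nat_lit 11679286)]]]]]],[[[[[],[[Int.ofNat (nat_lit 694498720408516)]]]],[[[[Int.negSucc (nat_lit 513666065880883)]]]]]],[[[[[[Int.negSucc (nat_lit 350107072814859)]]]]]]],[[[[[[[Int.negSucc (nat_lit 19289021024876081)]]],[[[Int.ofNat (nat_lit 374611329124566)]]]]],[[[[[Int.ofNat (nat_lit 1067348031815944)]]]]]]],[[[[[[[Int.ofNat (nat_lit 5864693794338220)]]]]]]]],[[[[[[[],[[Int.ofNat (nat_lit 60328754984062)]]]],[[[[Int.ofNat (nat_lit 300586416918918)]]]]]],[[[[[[Int.ofNat (nat_lit 123525032817996)]]]]]]],[[],[[[[[[Int.negSucc (nat_lit 49101687692991)]]]]]]]],[[[[[[[[Int.ofNat (nat_lit 238170531268232)]]]]],[[[[[Int.ofNat (nat_lit 13084284)]]]]]]],[[[[[[[Int.negSucc (nat_lit 7674796166103)]]]]]]]]],[[[[[[[[],[[Int.negSucc (nat_lit 5839063855968929)]]]],[[[[Int.negSucc (nat_lit 18431880140997037)]]]]],[[],[[[[Int.ofNat (nat_lit 736944949195512)]]]]]],[[[[[[Int.negSucc (nat_lit 4091816228199743)]]],[[[Int.negSucc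 (nat_lit 1475455551882773)]]]]],[[[[[Int.ofNat (nat_lit 1598658849062356)]]]]]]],[[[[[[],[[Int.negSucc (nat_lit 888351711974947)]]]],[[[[Int.ofNat (nat_lit 1588283117829422)]]]]]],[[[[[[Int.ofNat (nat_lit 7262041224682288)]]]]]]]],[[[[[[[[Int.ofNat (nat_lit 27755905333090304)]]],[[[Int.ofNat (nat_lit 1703450001655044)]]]]],[[[[[Int.negSucc (nat_lit 4854552806828547)]]]]]],[],[[[[[[Int.negSucc (nat_lit 98381912718013)]]]]]]],[[[[[[[Int.negSucc (nat_lit 8128290382959963)]]]]]]],[[[[[[[Int.ofNat (nat_lit 285981162290016)]]]]]]]],[[[[[],[[[[Int.ofNat (nat_lit 150331234946688)]]]]]],[[[[[[Int.negSucc (nat_lit 86004651750837)]]]]]]]],[[[[[[[[Int.ofNat (nat_lit 155090330108248)]]]]]]]]],[[[[[[[[],[[Int.ofNat (nat_lit 1816256368359084)]]]],[[[[Int.negSucc (nat_lit 4876625070188785)]]]]]],[[[[[[Int.negSucc (nat_lit 4204210220422403)]]]]]]],[[],[[[[[[Int.ofNat (nat_lit 4781559449324)]]]]]]]],[[[[[[[[Int.negSucc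 (nat_lit 2407746386513287)]]]]],[[[[[Int.negSucc (nat_lit 83490052780525)]]]]]]],[[[[[[[Int.negSucc (nat_lit 157839324054281)]]]]]]]]],[[[[[[],[[[[Int.negSucc (nat_lit 1627833)]]]]]],[[[[[[Int.negSucc (nat_lit 68203850997945)]]]]]]]],[[[[[[[[Int.negSucc (nat_lit 125101192740487)]]]]]]]]]]

/-- A coefficient. -/
noncomputable def sp3_m0_1_2 : MP 10 :=
  [[[[[[[[[[Int.negSucc (nat_lit 49901971616587931)]]],[[[Int.ofNat (nat_lit 27660063479516646)]]]],[[[],[[Int.negSucc (nat_lit 19139756880264933)]]]],[[[[Int.ofNat (nat_lit 14317676167325504)]]]]],[[[[[Int.negSucc (nat_lit 10617836530241311)]]],[[[Int.ofNat (nat_lit 5012868364205346)]]]]],[[[[[Int.negSucc (nat_lit 40432616711322139)]]]]]],[[[[[],[[Int.ofNat (nat_lit 12404132239559394)]]]],[[[[Int.ofNat (nat_lit 18290010602367498)]]]]]],[[[[[[Int.ofNat (nat_lit 36266465340467248)]]]]]]],[[[[[[[Int.ofNat (nat_lit 81894792661750950)]]],[[[Int.negSucc (nat_lit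 7647414991905399)]]]]],[[[[[Int.negSucc (nat_lit 1672496397730013)]]]]]],[],[[[[[[Int.negSucc (nat_lit 148002157073915)]]]]]]],[[[[[[[Int.negSucc (nat_lit 20484684328614545)]]]]]]]],[[[[[[[],[[Int.negSucc (nat_lit 830645281534333)]]]],[[[[Int.negSucc (nat_lit 5386651304833585)]]]]]],[[[[[[Int.negSucc (nat_lit 23125598913083743)]]]]],[[[[[Int.ofNat (nat_lit 3058747232981788)]]]]]]],[[[[],[[[[Int.negSucc (nat_lit 1128432261795123)]]]]]],[[[[[[Int.negSucc (nat_lit 1590499562196085)]]]]]]]],[[[[[[[[Int.ofNat (nat_lit 55743047694787036)]]],[[[Int.negSucc (nat_lit 5407673095893059)]]]]],[[[[[Int.ofNat (nat_lit 1024286915404900)]]]]]]],[[[[[[[Int.ofNat (nat_lit 2705145467785108)]]]]]]]],[[[],[[[[[[Int.ofNat (nat_lit 3595818388032)]]]]]]]],[[[[[[[[Int.negSucc (nat_lit 3204652489697)]]]]]]]]],[[[[[[[[[Int.negSucc (nat_lit 120550018115076473)]]],[[[Int.ofNat (nat_lit 13961563197127560)]]]]],[[[[[Int.ofNat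 (nat_lit 6899388303470210)]]]]]],[[[],[[[[Int.negSucc (nat_lit 317499174789321)]]]]]],[[[[[[Int.ofNat (nat_lit 551803339568332)]]]]]]],[[[[[[[Int.ofNat (nat_lit 25806311074658718)]]]]],[[[[[Int.negSucc (nat_lit 4839308194355165)]]]]]]],[[[[[[[Int.negSucc (nat_lit 1585086515429983)]]]]]]]],[[[[[[[],[[Int.negSucc (nat_lit 8020097981761977)]]]],[[[[Int.ofNat (nat_lit 4235000262032358)]]]]]],[[[[[[Int.ofNat (nat_lit 2662257938082450)]]]]]]]],[[[[[[[[Int.ofNat (nat_lit 11469194832774418)]]]]]]],[[[[[[[Int.negSucc (nat_lit 44067892114253)]]]]]]]]],[[[[[[[[[Int.negSucc (nat_lit 95593844007632647)]]],[[[Int.ofNat (nat_lit 3704308477793452)]]]]],[[[[[Int.negSucc (nat_lit 2073900795792843)]]]]]]],[[[[[[[Int.ofNat (nat_lit 11804106465319004)]]]]]]]],[[[],[[[[[[Int.ofNat (nat_lit 4978240365698)]]]]]]]],[[[[[[[[Int.negSucc (nat_lit 347829160852077)]]]]]]]]],[[[[[[[[[Int.negSucc (nat_lit 10685318119262463)]]]]]]],[[[[[[[Int.ofNat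 (nat_lit 162227757784850)]]]]]]]]],[[[[[[[[[Int.negSucc (nat_lit 61703003528381)]]]]]]]]]]

/-- A coefficient. -/
noncomputable def sp3_m0_1_3 : MP 10 :=
  [[[[[[[[[],[[Int.ofNat (nat_lit 15598720906006392)]]]],[[[[Int.negSucc (nat_lit 28234066592465793)]]]]],[[],[[[[Int.ofNat (nat_lit 709012047354998)]]]]]],[[[[[[Int.ofNat (nat_lit 87444729551522868)]]],[[[Int.ofNat (nat_lit 1775590412218566)]]]]],[[[[[Int.negSucc (nat_lit 30727023590934781)]]]]]]],[[[[[[],[[Int.negSucc (nat_lit 4412932243797941)]]]],[[[[Int.negSucc (nat_lit 4842093703562511)]]]]]],[[[[[[Int.negSucc (nat_lit 14068821879274849)]]]]]]]],[[[[[[[[Int.negSucc (nat_lit 148133474751272659)]]],[[[Int.ofNat (nat_lit 21822092292389880)]]]]],[[[[[Int.negSucc (nat_lit 780764822331287)]]]]]],[],[[[[[[Int.negSucc (nat_lit 695596686381377)]]]]]]],[[[[[[[Int.negSucc (nat_lit 6829818755235709)]]]]]]],[[[[[[[Int.negSucc (nat_lit 6349647794322791)]]]]]]]],[[[[[],[[[[Int.negSucc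 (nat_lit 248395465799365)]]]]]],[[[[[[Int.ofNat (nat_lit 1665280446132852)]]]]]]]],[[[[[[[[Int.negSucc (nat_lit 1249838548364549)]]]]]]]]],[[[[[[[[],[[Int.ofNat (nat_lit 8321150309896778)]]]],[[[[Int.ofNat (nat_lit 29931228443930180)]]]]]],[[[[[[Int.negSucc (nat_lit 6912249671357777)]]]]]]],[[],[[[[[[Int.negSucc (nat_lit 3360374321484217)]]]]]]]],[[[[[[[[Int.negSucc (nat_lit 20410598187398113)]]]]],[[[[[Int.ofNat (nat_lit 2966936791938912)]]]]]]],[[[[[[[Int.ofNat (nat_lit 7628674181286890)]]]]]]]],[],[[[[[[[[Int.ofNat (nat_lit 25495274079654)]]]]]]]]],[[[[[[],[[[[Int.ofNat (nat_lit 5145542677648516)]]]]]],[[[[[[Int.ofNat (nat_lit 2511176788724214)]]]]]]]],[[[[[[[[Int.ofNat (nat_lit 9138174410655746)]]]]]]]]],[[],[[[[[[[[Int.ofNat (nat_lit 75629949502570)]]]]]]]]]]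

/-- A coefficient. -/
noncomputable def sp3_m0_1_4 : MP 10 :=
  [[[[[[[[[[Int.ofNat (nat_lit 382892144089524154)]]],[[[Int.negSucc (nat_lit 37093320576904585)]]]]],[[[[[Int.negSucc (nat_lit 2052091480795657)]]]]]],[[[],[[[[Int.negSucc (nat_lit 22003838368884253)]]]]]],[[[[[[Int.negSucc (nat_lit 42566409891519797)]]]]]]],[[[[[[[Int.negSucc (nat_lit 164472178281166537)]]]]],[[[[[Int.ofNat (nat_lit 4316200526730230)]]]]]]],[[[[[[[Int.ofNat (nat_lit 28641178939416050)]]]]]]]],[[[[[[[],[[Int.ofNat (nat_lit 5124055513835756)]]]],[[[[Int.ofNat (nat_lit 15362486944631638)]]]]]],[[[[[[Int.ofNat (nat_lit 30110177893881642)]]]]]]]],[[[[[[[[Int.negSucc (nat_lit 100813633952696837)]]]]]]],[[[[[[[Int.ofNat (nat_lit 847876939801956)]]]]]]]]],[[[[[[[[[Int.ofNat (nat_lit 311515667759451186)]]],[[[Int.negSucc (nat_lit 18423568676522293)]]]]],[[[[[Int.negSucc (nat_lit 15682087368234817)]]]]]]],[[[[[[[Int.negSucc (nat_lit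 40093465135215237)]]]]]]]],[[[],[[[[[[Int.negSucc (nat_lit 4006966435346153)]]]]]]]],[[[[[[[[Int.negSucc (nat_lit 8892529320064799)]]]]]]]]],[[[[[[[[[Int.ofNat (nat_lit 187206692660086080)]]]]]]],[[[[[[[Int.negSucc (nat_lit 2443048206518229)]]]]]]]]],[[[[[[[[[Int.negSucc (nat_lit 325309483840281)]]]]]]]]]]

/-- A coefficient. -/
noncomputable def sp3_m0_1_5 : MP 10 :=
  [[[[[[[[[],[[Int.negSucc (nat_lit 7629235474482253)]]]],[[[[Int.ofNat (nat_lit 35861602242951616)]]]]]],[[[[[[Int.negSucc (nat_lit 129222794912456757)]]]]]]],[[],[[[[[[Int.ofNat (nat_lit 526037143964832)]]]]]]]],[[[[[[[[Int.ofNat (nat_lit 308104664060241306)]]]]],[[[[[Int.ofNat (nat_lit 9281835459714282)]]]]]]],[[[[[[[Int.ofNat (nat_lit 1637874457577504)]]]]]]]],[],[[[[[[[[Int.ofNat (nat_lit 203956031963292)]]]]]]]]],[[[[[[],[[[[Int.negSucc (nat_lit 26200860797004167)]]]]]],[[[[[[Int.ofNat (nat_lit 30375192672365418)]]]]]]]],[[[[[[[[Int.negSucc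 (nat_lit 20338808773989763)]]]]]]]]],[[],[[[[[[[[Int.negSucc (nat_lit 7832602940309471)]]]]]]]]]]

/-- A coefficient. -/
noncomputable def sp3_m0_1_6 : MP 10 :=
  [[[[[[[[[[Int.negSucc (nat_lit 1406675141677542615)]]],[[[Int.negSucc (nat_lit 2101805781409745)]]]]],[[[[[Int.negSucc (nat_lit 2889900840110045)]]]]]]],[[[[[[[Int.ofNat (nat_lit 109527383289084752)]]]]]]]],[[[],[[[[[[Int.negSucc (nat_lit 6500023937007907)]]]]]]]],[[[[[[[[Int.ofNat (nat_lit 59332086086504064)]]]]]]]]],[[[[[[[[[Int.negSucc (nat_lit 278131256045024261)]]]]]]],[[[[[[[Int.ofNat (nat_lit 14600015208241994)]]]]]]]]],[[[[[[[[[Int.negSucc (nat_lit 130223619048916485)]]]]]]]]]]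

/-- A coefficient. -/
noncomputable def sp3_m0_1_7 : MP 10 :=
  [[[[[[[],[[[[Int.negSucc (nat_lit 15577427015305067)]]]]]],[[[[[[Int.ofNat (nat_lit 33295069185688110)]]]]]]]],[[[[[[[[Int.negSucc (nat_lit 205680305522567359)]]]]]]]]],[[],[[[[[[[[Int.ofNat (nat_lit 26596330473537566)]]]]]]]]]]

/-- A coefficient. -/
noncomputable def sp3_m0_1_8 : MP 10 :=
  [[[[[[[[[[Int.ofNat (nat_lit 1967761553562134212)]]]]]]],[[[[[[[Int.ofNat (nat_lit 18512622908583754)]]]]]]]]],[[[[[[[[[Int.ofNat (nat_lit 52640298813376690)]]]]]]]]]]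

/-- A coefficient. -/
noncomputable def sp3_m0_1_9 : MP 10 :=
  [[[],[[[[[[[[Int.ofNat (nat_lit 30139631792731838)]]]]]]]]]]

/-- A coefficient. -/
noncomputable def sp3_m0_1_10 : MP 10 :=
  [[[[[[[[[[Int.negSucc (nat_lit 945719512819173943)]]]]]]]]]]

/-- A coefficient. -/
noncomputable def sp3_m0_2_0 : MP 10 :=
  [[[[[[[[[],[],[[Int.ofNat (nat_lit 48877349127050707)]]]],[[[],[[Int.ofNat (nat_lit 9016478117452498)]]]],[[[[Int.ofNat (nat_lit 16310071078374025)]]]]]],[[[[[],[[Int.ofNat (nat_lit 14546808125284582)]]]],[[[[Int.ofNat (nat_lit 8356062234907936)]]]]]],[[[[[[Int.negSucc (nat_lit 7582812898765239)]]]]]]],[[],[[[],[[[[Int.ofNat (nat_lit 37663366)]]]]]],[[[[[[Int.ofNat (nat_lit 624425642283552)]]]]]]]],[[[[[[[],[[Int.negSucc (nat_lit 5942056090444167)]]]],[[[[Int.ofNat (nat_lit 9347888077973234)]]]]],[[],[[[[Int.ofNat (nat_lit 498963090153586)]]]]]],[[[[[[Int.ofNat (nat_lit 2112263124285422)]]]]],[[[[[Int.negSucc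 (nat_lit 199959372719457)]]]]]]],[[[[[[],[[Int.ofNat (nat_lit 2006669440492602)]]]],[[[[Int.negSucc (nat_lit 2198269908114275)]]]]]],[[[[[[Int.ofNat (nat_lit 610654179416228)]]]]]]]],[[[[[[[[Int.negSucc (nat_lit 17637094527539285)]]]]],[[[[[Int.ofNat (nat_lit 1182058706196918)]]]]]]],[[[[[[[Int.negSucc (nat_lit 2119463173710371)]]]]]]]]],[[[[[[],[],[[[[Int.negSucc (nat_lit 8302371)]]]]]],[[[[[],[[Int.ofNat (nat_lit 3203814246143034)]]]],[[[[Int.ofNat (nat_lit 1495137686704170)]]]]]],[[[[[[Int.negSucc (nat_lit 539533254685903)]]]]]]]],[[[[[[[],[[Int.negSucc (nat_lit 1686901016900183)]]]],[[[[Int.negSucc (nat_lit 2415836533876733)]]]]]],[[[[[[Int.negSucc (nat_lit 2679206049765029)]]]]]]],[[],[[[[[[Int.ofNat (nat_lit 562990558900056)]]]]]]]],[[[[[[[[Int.ofNat (nat_lit 1706104987839938)]]]]],[[[[[Int.negSucc (nat_lit 363064840487485)]]]]]]],[[[[[[[Int.negSucc (nat_lit 130266214779621)]]]]]]]]],[[],[[[[[],[[[[Int.ofNat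 (nat_lit 269863704517222)]]]]]],[[[[[[Int.negSucc (nat_lit 337566508776071)]]]]]]]],[[[[[[[[Int.negSucc (nat_lit 3232609635559445)]]]]]]]]]]

/-- A coefficient. -/
noncomputable def sp3_m0_2_1 : MP 10 :=
  [[[[[[[[[],[[Int.ofNat (nat_lit 22634961955820324)]]]],[[[[Int.negSucc (nat_lit 6290793704947729)]]],[[[Int.negSucc (nat_lit 272286906330957)]]]]],[[[[],[[Int.negSucc (nat_lit 15414692213931627)]]]],[[[[Int.ofNat (nat_lit 2063187825701832)]]]]]],[[[[[[Int.ofNat (nat_lit 4338417564446206)]]],[[[Int.ofNat (nat_lit 5772878267102266)]]]]],[[[[[Int.ofNat (nat_lit 51344598656726)]]]]]]],[[[[[[],[[Int.negSucc (nat_lit 8389648568923717)]]]],[[[[Int.ofNat (nat_lit 13440798543950794)]]]]]],[[[[[[Int.ofNat (nat_lit 5758086506746904)]]]]]]],[[],[[[[[[Int.negSucc (nat_lit 1968582844045053)]]]]]]]],[[[[[[[[Int.ofNat (nat_lit 56647669527635630)]]],[[[Int.ofNat (nat_lit 11781321531652082)]]]]],[[[[[Int.ofNat (nat_lit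 1520418955823174)]]]]]],[[[],[[[[Int.negSucc (nat_lit 236393171944527)]]]]]],[[[[[[Int.negSucc (nat_lit 508862128139197)]]]]]]],[[[[[[[Int.ofNat (nat_lit 22573557124227446)]]]]],[[[[[Int.negSucc (nat_lit 3430810115526559)]]]]]]],[[[[[[[Int.ofNat (nat_lit 2327492564039644)]]]]]]]],[[[[[[[],[[Int.negSucc (nat_lit 315085042069729)]]]],[[[[Int.negSucc (nat_lit 69703085744521)]]]]]],[[[[[[Int.negSucc (nat_lit 218475282970747)]]]]]]]],[[[[[[[[Int.ofNat (nat_lit 125911170898974)]]]]]]]]],[[[[[[[[],[[Int.negSucc (nat_lit 16908253904650265)]]]],[[[[Int.ofNat (nat_lit 11352095942864812)]]]]]],[[[[[[Int.ofNat (nat_lit 8562717412548946)]]]]]]],[[[[],[[[[Int.ofNat (nat_lit 3801764002496380)]]]]]],[[[[[[Int.ofNat (nat_lit 856062051845686)]]]]]]]],[[[[[[[[Int.negSucc (nat_lit 4396071340321425)]]],[[[Int.negSucc (nat_lit 558579380303579)]]]]],[[[[[Int.ofNat (nat_lit 2415221277429490)]]]]]]],[[[[[[[Int.ofNat (nat_lit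 4249971074779806)]]]]]]]],[[[],[[[[[[Int.negSucc (nat_lit 57880131983687)]]]]]]]],[[[[[[[[Int.ofNat (nat_lit 32443093555126)]]]]]]]]],[[[[[[[[],[[Int.negSucc (nat_lit 869929424461051)]]]],[[[[Int.negSucc (nat_lit 958874317361549)]]]]]],[[[[[[Int.ofNat (nat_lit 1653821366787796)]]]]]]]],[[[[[[[[Int.ofNat (nat_lit 3602462397898594)]]]]]]],[[[[[[[Int.ofNat (nat_lit 37580775035980)]]]]]]]]],[[],[[[[[[[[Int.ofNat (nat_lit 38223722755560)]]]]]]]]]]

/-- A coefficient. -/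
noncomputable def sp3_m0_2_2 : MP 10 :=
  [[[[[[[[[[Int.negSucc (nat_lit 78977720679312613)]]],[[[Int.negSucc (nat_lit 62989701721253355)]]]],[],[[[[Int.negSucc (nat_lit 5532025103902999)]]]]],[[[[[Int.ofNat (nat_lit 22879424194559842)]]]]]],[[[[[],[[Int.ofNat (nat_lit 2753775852384656)]]]],[[[[Int.negSucc (nat_lit 2624214374700181)]]]]]],[[[[[[Int.ofNat (nat_lit 4106240338850556)]]]]]]],[[[[[[[Int.negSucc (nat_lit 54999714319311405)]]],[[[Int.negSucc (nat_lit 3014226601696273)]]]]],[[[[[Int.ofNat (nat_lit 11990933221784530)]]]]]]],[[[[[[[Int.negSucc (nat_lit 154895118744444769)]]]]]]]],[[[[[[[],[[Int.negSucc (nat_lit 3270143304971711)]]]],[[[[Int.negSucc (nat_lit 37001194507658395)]]]]]],[[[[[[Int.negSucc (nat_lit 566650725301909)]]]]]]],[[],[[[[[[Int.ofNat (nat_lit 1729793620780036)]]]]]]]],[[[[[[[[Int.ofNat (nat_lit 72770720208791416)]]]]],[[[[[Int.negSucc (nat_lit 1242834101059383)]]]]]]],[[[[[[[Int.ofNat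 (nat_lit 1499394473814418)]]]]]]]]],[[[[[[[[[Int.ofNat (nat_lit 88016334890201556)]]],[[[Int.ofNat (nat_lit 3610105824786468)]]]]],[[[[[Int.ofNat (nat_lit 7022516383691870)]]]]]]],[[[[[[[Int.ofNat (nat_lit 99862744882473164)]]]]]]],[[[[[[[Int.negSucc (nat_lit 445211943433621)]]]]]]]],[[[[[],[[[[Int.ofNat (nat_lit 2763023649261028)]]]]]],[[[[[[Int.ofNat (nat_lit 916454012182150)]]]]]]]],[[[[[[[[Int.negSucc (nat_lit 2814442930762439)]]]]]]]]],[[[[[[[[[Int.negSucc (nat_lit 107848794421255195)]]]]]]],[[[[[[[Int.negSucc (nat_lit 361343674561559)]]]]]]]],[],[[[[[[[[Int.ofNat (nat_lit 2847074114716664)]]]]]]]]],[[[[[[[[[Int.ofNat (nat_lit 252279158488922)]]]]]]]]]]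

/-- A coefficient. -/
noncomputable def sp3_m0_2_3 : MP 10 :=
  [[[[[[[[[],[[Int.negSucc (nat_lit 2219323790184003)]]]],[[[[Int.ofNat (nat_lit 61225180124980868)]]]]]],[[[[[[Int.ofNat (nat_lit 526022784101280)]]]]]]],[[[[],[[[[Int.negSucc (nat_lit 15491024677519441)]]]]]],[[[[[[Int.negSucc (nat_lit 8700883972198635)]]]]]]]],[[[[[[[[Int.negSucc (nat_lit 236365604165299933)]]],[[[Int.negSucc (nat_lit 28703381414972453)]]]]],[[[[[Int.ofNat (nat_lit 208539097739608)]]]]]]],[[[[[[[Int.ofNat (nat_lit 94761899193199648)]]]]]]]],[[[],[[[[[[Int.ofNat (nat_lit 1000085287579714)]]]]]]]],[[[[[[[[Int.negSucc (nat_lit 634039565293049)]]]]]]]]],[[[[[[[[],[[Int.ofNat (nat_lit 29457976167122780)]]]],[[[[Int.negSucc (nat_lit 9185002796817485)]]]]]],[[[[[[Int.negSucc (nat_lit 7455990576565781)]]]]]]]],[[[[[[[[Int.negSucc (nat_lit 28231158977075525)]]]]]]],[[[[[[[Int.negSucc (nat_lit 11074840395479895)]]]]]]]]],[[],[[[[[[[[Int.negSucc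 (nat_lit 2114889888252621)]]]]]]]]]]

/-- A coefficient. -/
noncomputable def sp3_m0_2_4 : MP 10 :=
  [[[[[[[[[[Int.ofNat (nat_lit 237537572152132996)]]],[[[Int.ofNat (nat_lit 78586310640785542)]]]]],[[[[[Int.negSucc (nat_lit 18562216697348595)]]]]]]],[[[[[[[Int.ofNat (nat_lit 8974986754996298)]]]]]]],[[[[[[[Int.ofNat (nat_lit 146826905068408630)]]]]]]]],[[[[[],[[[[Int.ofNat (nat_lit 43776497321722628)]]]]]],[[[[[[Int.ofNat (nat_lit 873667406365886)]]]]]]]],[[[[[[[[Int.negSucc (nat_lit 369834931739439777)]]]]]]]]],[[[[[[[[[Int.negSucc (nat_lit 127510043644789223)]]]]]]],[[[[[[[Int.negSucc (nat_lit 92003190093421053)]]]]]]]],[],[[[[[[[[Int.ofNat (nat_lit 2327312235687274)]]]]]]]]],[[[[[[[[[Int.ofNat (nat_lit 105203930113006074)]]]]]]]]]]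

/-- A coefficient. -/
noncomputable def sp3_m0_2_5 : MP 10 :=
  [[[[[[[[[],[[Int.negSucc (nat_lit 28929753284275637)]]]],[[[[Int.negSucc (nat_lit 67030535471004343)]]]]]],[[[[[[Int.negSucc (nat_lit 349036590954575)]]]]]]]],[[[[[[[[Int.ofNat (nat_lit 761816969194282898)]]]]]]],[[[[[[[Int.negSucc (nat_lit 125444517705800365)]]]]]]]]],[[],[[[[[[[[Int.ofNat (nat_lit 29937904034909866)]]]]]]]]]]

/-- A coefficient. -/
noncomputable def sp3_m0_2_6 : MP 10 :=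
  [[[[[[[[[[Int.negSucc (nat_lit 754052496157643845)]]]]]]],[[[[[[[Int.ofNat (nat_lit 50888629534642350)]]]]]]]],[],[[[[[[[[Int.ofNat (nat_lit 309342685579129164)]]]]]]]]],[[[[[[[[[Int.ofNat (nat_lit 78258566266015160)]]]]]]]]]]

/-- A coefficient. -/
noncomputable def sp3_m0_2_7 : MP 10 :=
  [[[],[[[[[[[[Int.negSucc (nat_lit 584385035856812287)]]]]]]]]]]

/-- A coefficient. -/
noncomputable def sp3_m0_2_8 : MP 10 :=
  [[[[[[[[[[Int.ofNat (nat_lit 558095806541100190)]]]]]]]]]]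

/-- A coefficient. -/
noncomputable def sp3_m0_3_0 : MP 10 :=
  [[[[[[[],[[[],[[Int.negSucc (nat_lit 9622420420187)]]]],[[[[Int.negSucc (nat_lit 17643885704789565)]]]]]],[[[[[],[[Int.negSucc (nat_lit 4335053439321297)]]]],[[[[Int.ofNat (nat_lit 1922640931271548)]]]]]],[[[[[[Int.ofNat (nat_lit 15491990277344148)]]]]]]],[[],[],[[[[[[Int.ofNat (nat_lit 159367196056454)]]]]]]]],[[[[[[[],[[Int.ofNat (nat_lit 7630675592089826)]]]],[[[[Int.ofNat (nat_lit 8143681530358670)]]]]]],[[[[[[Int.negSucc (nat_lit 7140754631821539)]]]]],[[[[[Int.ofNat (nat_lit 393513104554742)]]]]]]],[[],[[[[[[Int.negSucc (nat_lit 1314699373873871)]]]]]]]],[[[[[[[[Int.ofNat (nat_lit 14391457537390892)]]]]],[[[[[Int.ofNat (nat_lit 917235535556228)]]]]]]],[[[[[[[Int.ofNat (nat_lit 239934366997594)]]]]]]]]],[[[[],[[[],[[[[Int.ofNat (nat_lit 182539489908624)]]]]]],[[[[[[Int.negSucc (nat_lit 327253108215635)]]]]]]]],[[[[[[[],[[Int.ofNat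 (nat_lit 2643861836583822)]]]],[[[[Int.negSucc (nat_lit 1407918360918989)]]]]]],[[[[[[Int.ofNat (nat_lit 1712812368505910)]]]]]]]],[[[[[[[[Int.ofNat (nat_lit 6669372344754306)]]]]]]]]]]

/-- A coefficient. -/
noncomputable def sp3_m0_3_1 : MP 10 :=
  [[[[[[[[[],[[Int.negSucc (nat_lit 12013548661889367)]]]],[[[[Int.negSucc (nat_lit 39008218359233019)]]]]]],[[[[[[Int.ofNat (nat_lit 26678666188045572)]]],[[[Int.negSucc (nat_lit 1828789422651467)]]]]],[[[[[Int.negSucc (nat_lit 1708853554577963)]]]]]]],[[[[[[],[[Int.ofNat (nat_lit 19289217961834560)]]]],[[[[Int.ofNat (nat_lit 3612839496977948)]]]]]],[[[[[[Int.ofNat (nat_lit 363416395604124)]]]]]]]],[[[[[[[[Int.negSucc (nat_lit 27578270446708813)]]],[[[Int.ofNat (nat_lit 8101478104109874)]]]]],[[[[[Int.negSucc (nat_lit 12253682627051207)]]]]]],[],[[[[[[Int.ofNat (nat_lit 145245063754030)]]]]]]],[[[[[[[Int.negSucc (nat_lit 469671933176865)]]]]]]]],[[[],[[[[[[Int.negSucc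 (nat_lit 188485523677127)]]]]]]]],[[[[[[[[Int.ofNat (nat_lit 207175436632478)]]]]]]]]],[[[[[[[[],[[Int.negSucc (nat_lit 11777171905970937)]]]],[[[[Int.ofNat (nat_lit 13583372540399158)]]]]]],[[[[[[Int.negSucc (nat_lit 5793698133525333)]]]]]]],[[],[[[[[[Int.negSucc (nat_lit 5310318641950673)]]]]]]]],[[[[[[[[Int.negSucc (nat_lit 21239006575164963)]]]]],[[[[[Int.negSucc (nat_lit 88822247369329)]]]]]]],[[[[[[[Int.ofNat (nat_lit 3901924905517080)]]]]]]]]],[[[[[[],[[[[Int.ofNat (nat_lit 3764894113899038)]]]]]],[[[[[[Int.ofNat (nat_lit 3488800950017676)]]]]]]]],[[[[[[[[Int.ofNat (nat_lit 2214721152462304)]]]]]]]]]]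

/-- A coefficient. -/
noncomputable def sp3_m0_3_2 : MP 10 :=
  [[[[[[[[[[Int.ofNat (nat_lit 116458061394181800)]]],[[[Int.negSucc (nat_lit 32548199526193523)]]]]],[[[[[Int.negSucc (nat_lit 4952426698420475)]]]]]],[[[],[[[[Int.negSucc (nat_lit 3842165982546587)]]]]]],[[[[[[Int.negSucc (nat_lit 18534474586312479)]]]]]]],[[[[[[[Int.negSucc (nat_lit 31149277024163745)]]]]]]]],[[[[[[[],[[Int.negSucc (nat_lit 25745072962504749)]]]],[[[[Int.negSucc (nat_lit 9822105740115217)]]]]]],[[[[[[Int.ofNat (nat_lit 20010260841188118)]]]]]]]],[[[[[[[[Int.negSucc (nat_lit 50778039785872971)]]]]]]]]],[[[[[[[[[Int.ofNat (nat_lit 90249916265812704)]]],[[[Int.negSucc (nat_lit 383152208606781)]]]]],[[[[[Int.negSucc (nat_lit 6017289068977075)]]]]]]],[[[[[[[Int.negSucc (nat_lit 7016512021710485)]]]]]]]],[[[],[[[[[[Int.negSucc (nat_lit 327306390822011)]]]]]]]],[[[[[[[[Int.negSucc (nat_lit 5488435811266047)]]]]]]]]],[[[[[[[[[Int.ofNat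 (nat_lit 90685683766881276)]]]]]]],[[[[[[[Int.negSucc (nat_lit 2589908200239751)]]]]]]]]],[[[[[[[[[Int.ofNat (nat_lit 1091783979031118)]]]]]]]]]]

/-- A coefficient. -/
noncomputable def sp3_m0_3_3 : MP 10 :=
  [[[[[[[[[],[[Int.ofNat (nat_lit 12856398122138364)]]]],[[[[Int.ofNat (nat_lit 75712773287555338)]]]]]],[[[[[[Int.negSucc (nat_lit 63458040826812355)]]]]]]],[[],[[[[[[Int.negSucc (nat_lit 9311605925013783)]]]]]]]],[[[[[[[[Int.ofNat (nat_lit 141435867141721834)]]]]],[[[[[Int.ofNat (nat_lit 18327403689913256)]]]]]]],[[[[[[[Int.ofNat (nat_lit 2794998279135910)]]]]]]]]],[[[[[[],[[[[Int.negSucc (nat_lit 15140917344203701)]]]]]],[[[[[[Int.ofNat (nat_lit 14686213395680476)]]]]]]]],[[[[[[[[Int.ofNat (nat_lit 13768476616254016)]]]]]]]]],[[],[[[[[[[[Int.negSucc (nat_lit 5537430971634577)]]]]]]]]]]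

/-- A coefficient. -/
noncomputable def sp3_m0_3_4 : MP 10 :=
  [[[[[[[[[[Int.negSucc (nat_lit 443193266614188351)]]],[[[Int.negSucc (nat_lit 10092015319763113)]]]]],[[[[[Int.negSucc (nat_lit 6090588430827913)]]]]]]],[[[[[[[Int.negSucc (nat_lit 19209481689008069)]]]]]]]],[[[],[[[[[[Int.negSucc (nat_lit 8199961028303403)]]]]]]]],[[[[[[[[Int.ofNat (nat_lit 34569478515828242)]]]]]]]]],[[[[[[[[[Int.negSucc (nat_lit 99571226960615021)]]]]]]],[[[[[[[Int.ofNat (nat_lit 7069802496811686)]]]]]]]]],[[[[[[[[[Int.negSucc (nat_lit 93400154397854313)]]]]]]]]]]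

/-- A coefficient. -/
noncomputable def sp3_m0_3_5 : MP 10 :=
  [[[[[[[],[[[[Int.negSucc (nat_lit 36319166325301219)]]]]]],[[[[[[Int.ofNat (nat_lit 38799498088809636)]]]]]]]],[[[[[[[[Int.negSucc (nat_lit 170265658044469869)]]]]]]]]],[[],[[[[[[[[Int.ofNat (nat_lit 7233537807356022)]]]]]]]]]]

/-- A coefficient. -/
noncomputable def sp3_m0_3_6 : MP 10 :=
  [[[[[[[[[[Int.ofNat (nat_lit 1073031184675979442)]]]]]]],[[[[[[[Int.ofNat (nat_lit 84603792035582788)]]]]]]]]],[[[[[[[[[Int.negSucc (nat_lit 12270963086665593)]]]]]]]]]]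

/-- A coefficient. -/
noncomputable def sp3_m0_3_7 : MP 10 :=
  [[[],[[[[[[[[Int.ofNat (nat_lit 35640804976141032)]]]]]]]]]]

/-- A coefficient. -/
noncomputable def sp3_m0_3_8 : MP 10 :=
  [[[[[[[[[[Int.negSucc (nat_lit 713458473932244849)]]]]]]]]]]

/-- A coefficient. -/
noncomputable def sp3_m0_4_0 : MP 10 :=
  [[[[[],[[[[[],[[Int.negSucc (nat_lit 4222023155970329)]]]],[[[[Int.ofNat (nat_lit 1796061680331734)]]]]]]]],[[[[[[[],[[Int.negSucc (nat_lit 2017063920931891)]]]],[[[[Int.negSucc (nat_lit 2185700750098291)]]]]]],[[[[[[Int.negSucc (nat_lit 829875245661557)]]]]]]],[[],[[[[[[Int.ofNat (nat_lit 525369923962088)]]]]]]]],[[[[[[[[Int.ofNat (nat_lit 6727409157094100)]]]]],[[[[[Int.negSucc (nat_lit 647543544419565)]]]]]]],[[[[[[[Int.ofNat (nat_lit 792938723021092)]]]]]]]]],[[],[[[[[],[[[[Int.ofNat (nat_lit 1700234075132702)]]]]]],[[[[[[Int.negSucc (nat_lit 357728401672371)]]]]]]]],[[[[[[[[Int.negSucc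 (nat_lit 2648206355023055)]]]]]]]]]]

/-- A coefficient. -/
noncomputable def sp3_m0_4_1 : MP 10 :=
  [[[[[[[[[],[[Int.negSucc (nat_lit 22804955086872829)]]]],[[[[Int.negSucc (nat_lit 1342408690909041)]]]]]],[[[[[[Int.negSucc (nat_lit 13067907097863619)]]]]]]],[[],[[[[[[Int.ofNat (nat_lit 6616348147937544)]]]]]]]],[[[[[[[[Int.negSucc (nat_lit 21479518517094727)]]],[[[Int.negSucc (nat_lit 10034587100402935)]]]]],[[[[[Int.negSucc (nat_lit 3400593313135455)]]]]]]],[[[[[[[Int.negSucc (nat_lit 1370021585495369)]]]]]]]],[[[],[[[[[[Int.ofNat (nat_lit 897862763080828)]]]]]]]],[[[[[[[[Int.negSucc (nat_lit 541733186985231)]]]]]]]]],[[[[[[[[],[[Int.ofNat (nat_lit 12376155324529872)]]]],[[[[Int.negSucc (nat_lit 3021361039963677)]]]]]],[[[[[[Int.negSucc (nat_lit 7293732062654891)]]]]]]]],[[[[[[[[Int.negSucc (nat_lit 2271169876215613)]]]]]]],[[[[[[[Int.ofNat (nat_lit 609009065027388)]]]]]]]]],[[],[[[[[[[[Int.negSucc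 (nat_lit 133877864090167)]]]]]]]]]]

/-- A coefficient. -/
noncomputable def sp3_m0_4_2 : MP 10 :=
  [[[[[[[[[[Int.ofNat (nat_lit 31405676948242304)]]],[[[Int.ofNat (nat_lit 33197555671477888)]]]]],[[[[[Int.negSucc (nat_lit 3290572899931255)]]]]]]],[[[[[[[Int.ofNat (nat_lit 34349767856917032)]]]]]]]],[[[[[],[[[[Int.ofNat (nat_lit 2643612151605038)]]]]]],[[[[[[Int.negSucc (nat_lit 4833365373757403)]]]]]]]],[[[[[[[[Int.ofNat (nat_lit 3559510389934908)]]]]]]]]],[[[[[[[[[Int.negSucc (nat_lit 102872712642717663)]]]]]]],[[[[[[[Int.ofNat (nat_lit 1617078726713680)]]]]]]]],[],[[[[[[[[Int.ofNat (nat_lit 1862629968528794)]]]]]]]]],[[[[[[[[[Int.negSucc (nat_lit 873103064099927)]]]]]]]]]]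

/-- A coefficient. -/
noncomputable def sp3_m0_4_3 : MP 10 :=
  [[[[[[[[[],[[Int.ofNat (nat_lit 20086443647685698)]]]],[[[[Int.negSucc (nat_lit 28737879005955089)]]]]]],[[[[[[Int.ofNat (nat_lit 14900101653079814)]]]]]]]],[[[[[[[[Int.ofNat (nat_lit 24190471670032092)]]]]]]],[[[[[[[Int.negSucc (nat_lit 4463315900370825)]]]]]]]]],[[],[[[[[[[[Int.ofNat (nat_lit 3746192542062040)]]]]]]]]]]

/-- A coefficient. -/
noncomputable def sp3_m0_4_4 : MP 10 :=
  [[[[[[[[[[Int.ofNat (nat_lit 89199808410362544)]]]]]]],[[[[[[[Int.negSucc (nat_lit 46585366529049459)]]]]]]]],[],[[[[[[[[Int.negSucc (nat_lit 5208215565003927)]]]]]]]]],[[[[[[[[[Int.ofNat (nat_lit 108541773028509616)]]]]]]]]]]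

/-- A coefficient. -/
noncomputable def sp3_m0_4_5 : MP 10 :=
  [[[],[[[[[[[[Int.negSucc (nat_lit 7368428489204891)]]]]]]]]]]

/-- A coefficient. -/
noncomputable def sp3_m0_4_6 : MP 10 :=
  [[[[[[[[[[Int.negSucc (nat_lit 125014664532760757)]]]]]]]]]]

/-- A coefficient. -/
noncomputable def sp3_m0_5_0 : MP 10 :=
  [[[],[[[[[[[],[[Int.ofNat (nat_lit 413337534337992)]]]],[[[[Int.negSucc (nat_lit 8006941559868725)]]]]]]]]]]

/-- A coefficient. -/
noncomputable def sp3_m0_5_1 : MP 10 :=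
  [[[[[[[[[],[[Int.ofNat (nat_lit 564592321883290)]]]],[[[[Int.ofNat (nat_lit 27841911367048596)]]]]]],[[[[[[Int.negSucc (nat_lit 4193974403544407)]]]]]]],[[],[[[[[[Int.negSucc (nat_lit 981169840767155)]]]]]]]],[[[[[[[[Int.ofNat (nat_lit 2708255525195830)]]]]],[[[[[Int.ofNat (nat_lit 2570133508814272)]]]]]]],[[[[[[[Int.negSucc (nat_lit 1969778168948535)]]]]]]]]],[[[[[[],[[[[Int.negSucc (nat_lit 924585768333771)]]]]]],[[[[[[Int.ofNat (nat_lit 2840963097769580)]]]]]]]],[[[[[[[[Int.ofNat (nat_lit 5116530730136826)]]]]]]]]]]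

/-- A coefficient. -/
noncomputable def sp3_m0_5_2 : MP 10 :=
  [[[[[[[[[[Int.negSucc (nat_lit 69447124963846559)]]],[[[Int.ofNat (nat_lit 10086331152136264)]]]]],[[[[[Int.ofNat (nat_lit 5377621246576056)]]]]]]],[[[[[[[Int.negSucc (nat_lit 39365275057608419)]]]]]]]],[[[],[[[[[[Int.ofNat (nat_lit 1544187955045188)]]]]]]]],[[[[[[[[Int.negSucc (nat_lit 1282523976654609)]]]]]]]]],[[[[[[[[[Int.ofNat (nat_lit 38142692097305436)]]]]]]],[[[[[[[Int.ofNat (nat_lit 432035298522508)]]]]]]]]],[[[[[[[[[Int.ofNat (nat_lit 1795665492136150)]]]]]]]]]]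

/-- A coefficient. -/
noncomputable def sp3_m0_5_3 : MP 10 :=
  [[[[[[[],[[[[Int.negSucc (nat_lit 13624785662662103)]]]]]],[[[[[[Int.ofNat (nat_lit 3206844207764080)]]]]]]]],[[[[[[[[Int.negSucc (nat_lit 6348113842492709)]]]]]]]]],[[],[[[[[[[[Int.negSucc (nat_lit 3018271026494201)]]]]]]]]]]

/-- A coefficient. -/
noncomputable def sp3_m0_5_4 : MP 10 :=
  [[[[[[[[[[Int.ofNat (nat_lit 14004169745236630)]]]]]]],[[[[[[[Int.ofNat (nat_lit 41679401231791240)]]]]]]]]],[[[[[[[[[Int.negSucc (nat_lit 37427722451321421)]]]]]]]]]]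

/-- A coefficient. -/
noncomputable def sp3_m0_5_5 : MP 10 :=
  [[[],[[[[[[[[Int.ofNat (nat_lit 22318019926148562)]]]]]]]]]]

/-- A coefficient. -/
noncomputable def sp3_m0_5_6 : MP 10 :=
  [[[[[[[[[[Int.ofNat (nat_lit 54340387527968212)]]]]]]]]]]

/-- A coefficient. -/
noncomputable def sp3_m0_6_0 : MP 10 :=
  []

/-- A coefficient. -/
noncomputable def sp3_m0_6_1 : MP 10 :=
  [[[[[[[[[],[[Int.ofNat (nat_lit 24628660003763698)]]]],[[[[Int.negSucc (nat_lit 4745083970149093)]]]]]]]]]]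

/-- An expanded part. -/
noncomputable def sp3_m0 : R12 :=
  [[sp3_m0_0_0, sp3_m0_0_1, sp3_m0_0_2, sp3_m0_0_3, sp3_m0_0_4, sp3_m0_0_5, sp3_m0_0_6, sp3_m0_0_7, sp3_m0_0_8, sp3_m0_0_9, sp3_m0_0_10],
   [sp3_m0_1_0, sp3_m0_1_1, sp3_m0_1_2, sp3_m0_1_3, sp3_m0_1_4, sp3_m0_1_5, sp3_m0_1_6, sp3_m0_1_7, sp3_m0_1_8, sp3_m0_1_9, sp3_m0_1_10],
   [sp3_m0_2_0, sp3_m0_2_1, sp3_m0_2_2, sp3_m0_2_3, sp3_m0_2_4, sp3_m0_2_5, sp3_m0_2_6, sp3_m0_2_7, sp3_m0_2_8],
   [sp3_m0_3_0, sp3_m0_3_1, sp3_m0_3_2, sp3_m0_3_3, sp3_m0_3_4, sp3_m0_3_5, sp3_m0_3_6, sp3_m0_3_7, sp3_m0_3_8],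
   [sp3_m0_4_0, sp3_m0_4_1, sp3_m0_4_2, sp3_m0_4_3, sp3_m0_4_4, sp3_m0_4_5, sp3_m0_4_6],
   [sp3_m0_5_0, sp3_m0_5_1, sp3_m0_5_2, sp3_m0_5_3, sp3_m0_5_4, sp3_m0_5_5, sp3_m0_5_6],
   [sp3_m0_6_0, sp3_m0_6_1]]

set_option maxRecDepth 100000 in
theorem sp3_check0 : partOk 0 sp3_rows 0 sp3_m0 = true :=
  Fast.partOk_of_fast (by decide +kernel)

end Vale.Agent.P142K.CertB
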