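import Vale.Agent.P142K.Checker

/-!
# A factor of the certificate

Generated from a semidefinite program; only the checker is trusted.
-/

namespace Vale.Agent.P142K.CertB

open Vale.Agent.P142J (MP)

/-- A row. -/
noncomputable def sp3_c0_0 : List ℕ × List ℤ :=
  ([(nat_lit 0),(nat_lit 0),(nat_lit 0),(nat_lit 0),(nat_lit 0),(nat_lit 0),(nat_lit 0),(nat_lit 0),(nat_lit 0),(nat_lit 1),(nat_lit 0),(nat_lit 0)], [Int.ofNat (nat_lit 110265865)])

/-- A row. -/
noncomputable def sp3_c0_1 : List ℕ × List ℤ :=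
  ([(nat_lit 0),(nat_lit 0),(nat_lit 0),(nat_lit 0),(nat_lit 0),(nat_lit 0),(nat_lit 0),(nat_lit 1),(nat_lit 0),(nat_lit 0),(nat_lit 0),(nat_lit 0)], [Int.negSucc (nat_lit 2808076),Int.ofNat (nat_lit 108483683)])

/-- A row. -/
noncomputable def sp3_c0_2 : List ℕ × List ℤ :=
  ([(nat_lit 0),(nat_lit 0),(nat_lit 0),(nat_lit 0),(nat_lit 0),(nat_lit 1),(nat_lit 0),(nat_lit 0),(nat_lit 0),(nat_lit 0),(nat_lit 0),(nat_lit 0)], [Int.ofNat (nat_lit 19398099),Int.ofNat (nat_lit 17803285),Int.ofNat (nat_lit 58334879)])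

/-- A row. -/
noncomputable def sp3_c0_3 : List ℕ × List ℤ :=
  ([(nat_lit 0),(nat_lit 0),(nat_lit 0),(nat_lit 0),(nat_lit 1),(nat_lit 1),(nat_lit 0),(nat_lit 0),(nat_lit 0),(nat_lit 0),(nat_lit 0),(nat_lit 0)], [Int.negSucc (nat_lit 3505742),Int.negSucc (nat_lit 23029981),Int.negSucc (nat_lit 7351690),Int.ofNat (nat_lit 23740220)])

/-- A row. -/
noncomputable def sp3_c0_4 : List ℕ × List ℤ :=
  ([(nat_lit 0),(nat_lit 0),(nat_lit 0),(nat_lit 1),(nat_lit 0),(nat_lit 0),(nat_lit 0),(nat_lit 0),(nat_lit 0),(nat_lit 0),(nat_lit 0),(nat_lit 0)], [Int.negSucc (nat_lit 21416789),Int.negSucc (nat_lit 51096164),Int.negSucc (nat_lit 3501081),Int.ofNat (nat_lit 660845),Int.ofNat (nat_lit 74255908)])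

/-- A row. -/
noncomputable def sp3_c0_5 : List ℕ × List ℤ :=
  ([(nat_lit 0),(nat_lit 0),(nat_lit 0),(nat_lit 1),(nat_lit 0),(nat_lit 0),(nat_lit 1),(nat_lit 0),(nat_lit 0),(nat_lit 0),(nat_lit 0),(nat_lit 0)], [Int.ofNat (nat_lit 11006050),Int.ofNat (nat_lit 25938792),Int.negSucc (nat_lit 208177),Int.negSucc (nat_lit 7031233),Int.negSucc (nat_lit 6279928),Int.ofNat (nat_lit 19233333)])

/-- A row. -/
noncomputable def sp3_c0_6 : List ℕ × List ℤ :=
  ([(nat_lit 0),(nat_lit 0),(nat_lit 0),(nat_lit 1),(nat_lit 1),(nat_lit 0),(nat_lit 0),(nat_lit 0),(nat_lit 0),(nat_lit 0),(nat_lit 0),(nat_lit 0)], [Int.ofNat (nat_lit 4033385),Int.negSucc (nat_lit 2392896),Int.ofNat (nat_lit 4995411),Int.negSucc (nat_lit 13404203),Int.negSucc (nat_lit 5428985),Int.negSucc (nat_lit 14451371),Int.ofNat (nat_lit 30081653)])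

/-- A row. -/
noncomputable def sp3_c0_7 : List ℕ × List ℤ :=
  ([(nat_lit 0),(nat_lit 0),(nat_lit 1),(nat_lit 0),(nat_lit 0),(nat_lit 0),(nat_lit 0),(nat_lit 1),(nat_lit 0),(nat_lit 0),(nat_lit 0),(nat_lit 0)], [Int.ofNat (nat_lit 5996452),Int.negSucc (nat_lit 4068365),Int.ofNat (nat_lit 8146918),Int.negSucc (nat_lit 9890534),Int.ofNat (nat_lit 7483218),Int.negSucc (nat_lit 4227640),Int.ofNat (nat_lit 6696432),Int.ofNat (nat_lit 21118137)])

/-- A row. -/
noncomputable def sp3_c0_8 : List ℕ × List ℤ :=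
  ([(nat_lit 0),(nat_lit 0),(nat_lit 1),(nat_lit 0),(nat_lit 0),(nat_lit 1),(nat_lit 0),(nat_lit 0),(nat_lit 0),(nat_lit 0),(nat_lit 0),(nat_lit 0)], [Int.ofNat (nat_lit 14327885),Int.ofNat (nat_lit 22986530),Int.ofNat (nat_lit 3505504),Int.negSucc (nat_lit 17450102),Int.ofNat (nat_lit 14056),Int.negSucc (nat_lit 2093182),Int.negSucc (nat_lit 7436845),Int.ofNat (nat_lit 2949441),Int.ofNat (nat_lit 23505988)])

/-- A row. -/
noncomputable def sp3_c0_9 : List ℕ × List ℤ :=
  ([(nat_lit 0),(nat_lit 0),(nat_lit 1),(nat_lit 1),(nat_lit 0),(nat_lit 0),(nat_lit 0),(nat_lit 0),(nat_lit 0),(nat_lit 0),(nat_lit 0),(nat_lit 0)], [Int.negSucc (nat_lit 9057300),Int.ofNat (nat_lit 37176908),Int.negSucc (nat_lit 4892588),Int.ofNat (nat_lit 7503166),Int.ofNat (nat_lit 12587738),Int.ofNat (nat_lit 17349524),Int.negSucc (nat_lit 15630390),Int.negSucc (nat_lit 14251438),Int.negSucc (nat_lit 9846723),Int.ofNat (nat_lit 28313447)])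

/-- A row. -/
noncomputable def sp3_c0_10 : List ℕ × List ℤ :=
  ([(nat_lit 0),(nat_lit 1),(nat_lit 0),(nat_lit 0),(nat_lit 0),(nat_lit 0),(nat_lit 0),(nat_lit 0),(nat_lit 0),(nat_lit 0),(nat_lit 0),(nat_lit 0)], [Int.ofNat (nat_lit 10005629),Int.ofNat (nat_lit 85248737),Int.ofNat (nat_lit 24716914),Int.negSucc (nat_lit 4035084),Int.negSucc (nat_lit 99818296),Int.negSucc (nat_lit 3808362),Int.ofNat (nat_lit 3830096),Int.ofNat (nat_lit 250667),Int.negSucc (nat_lit 6273163),Int.ofNat (nat_lit 1379691),Int.ofNat (nat_lit 87835434)])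

/-- A row. -/
noncomputable def sp3_c0_11 : List ℕ × List ℤ :=
  ([(nat_lit 0),(nat_lit 1),(nat_lit 0),(nat_lit 0),(nat_lit 0),(nat_lit 0),(nat_lit 0),(nat_lit 0),(nat_lit 1),(nat_lit 0),(nat_lit 0),(nat_lit 0)], [Int.ofNat (nat_lit 48727760),Int.ofNat (nat_lit 7142545),Int.ofNat (nat_lit 188213),Int.negSucc (nat_lit 43403964),Int.ofNat (nat_lit 1008390),Int.negSucc (nat_lit 53550851),Int.negSucc (nat_lit 22168838),Int.negSucc (nat_lit 4077882),Int.negSucc (nat_lit 76065246),Int.negSucc (nat_lit 5507635),Int.ofNat (nat_lit 54984599),Int.ofNat (nat_lit 319023556)])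

/-- A row. -/
noncomputable def sp3_c0_12 : List ℕ × List ℤ :=
  ([(nat_lit 0),(nat_lit 1),(nat_lit 0),(nat_lit 0),(nat_lit 0),(nat_lit 0),(nat_lit 1),(nat_lit 0),(nat_lit 0),(nat_lit 0),(nat_lit 0),(nat_lit 0)], [Int.negSucc (nat_lit 21562958),Int.negSucc (nat_lit 36516190),Int.ofNat (nat_lit 22514633),Int.ofNat (nat_lit 10236676),Int.ofNat (nat_lit 10128985),Int.negSucc (nat_lit 14246925),Int.negSucc (nat_lit 33445670),Int.negSucc (nat_lit 3685801),Int.negSucc (nat_lit 13758121),Int.negSucc (nat_lit 10875292),Int.negSucc (nat_lit 10840867),Int.ofNat (nat_lit 1776775),Int.ofNat (nat_lit 155712986)])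

/-- A row. -/
noncomputable def sp3_c0_13 : List ℕ × List ℤ :=
  ([(nat_lit 0),(nat_lit 1),(nat_lit 0),(nat_lit 0),(nat_lit 1),(nat_lit 0),(nat_lit 0),(nat_lit 0),(nat_lit 0),(nat_lit 0),(nat_lit 0),(nat_lit 0)], [Int.negSucc (nat_lit 910832),Int.ofNat (nat_lit 10531748),Int.negSucc (nat_lit 47047910),Int.negSucc (nat_lit 4140891),Int.negSucc (nat_lit 57055682),Int.ofNat (nat_lit 84131611),Int.negSucc (nat_lit 55639047),Int.negSucc (nat_lit 63153441),Int.negSucc (nat_lit 11758288),Int.negSucc (nat_lit 28019140),Int.negSucc (nat_lit 20575944),Int.ofNat (nat_lit 877205),Int.negSucc (nat_lit 19173949),Int.ofNat (nat_lit 233071938)])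

/-- A row. -/
noncomputable def sp3_c0_14 : List ℕ × List ℤ :=
  ([(nat_lit 0),(nat_lit 1),(nat_lit 0),(nat_lit 1),(nat_lit 0),(nat_lit 1),(nat_lit 0),(nat_lit 0),(nat_lit 0),(nat_lit 0),(nat_lit 0),(nat_lit 0)], [Int.negSucc (nat_lit 2573960),Int.ofNat (nat_lit 497617),Int.ofNat (nat_lit 1241641),Int.negSucc (nat_lit 718145),Int.ofNat (nat_lit 2180030),Int.ofNat (nat_lit 1264525),Int.ofNat (nat_lit 4260228),Int.ofNat (nat_lit 3773999),Int.negSucc (nat_lit 1379530),Int.ofNat (nat_lit 1137758),Int.negSucc (nat_lit 2170463),Int.negSucc (nat_lit 1608466),Int.ofNat (nat_lit 1600979),Int.ofNat (nat_lit 503323),Int.ofNat (nat_lit 36651808)])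

/-- A row. -/
noncomputable def sp3_c0_15 : List ℕ × List ℤ :=
  ([(nat_lit 0),(nat_lit 1),(nat_lit 0),(nat_lit 2),(nat_lit 0),(nat_lit 0),(nat_lit 0),(nat_lit 0),(nat_lit 0),(nat_lit 0),(nat_lit 0),(nat_lit 0)], [Int.ofNat (nat_lit 68503),Int.ofNat (nat_lit 470416),Int.negSucc (nat_lit 697277),Int.negSucc (nat_lit 1276908),Int.negSucc (nat_lit 829088),Int.negSucc (nat_lit 1418682),Int.negSucc (nat_lit 2148811),Int.negSucc (nat_lit 1697752),Int.ofNat (nat_lit 95375),Int.negSucc (nat_lit 348801),Int.ofNat (nat_lit 2138300),Int.ofNat (nat_lit 2661924),Int.negSucc (nat_lit 5648645),Int.negSucc (nat_lit 653259),Int.negSucc (nat_lit 22931655),Int.ofNat (nat_lit 12080938)])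

/-- A row. -/
noncomputable def sp3_c0_16 : List ℕ × List ℤ :=
  ([(nat_lit 0),(nat_lit 1),(nat_lit 1),(nat_lit 0),(nat_lit 0),(nat_lit 0),(nat_lit 0),(nat_lit 0),(nat_lit 0),(nat_lit 0),(nat_lit 0),(nat_lit 0)], [Int.ofNat (nat_lit 40980037),Int.negSucc (nat_lit 28447269),Int.ofNat (nat_lit 11631428),Int.negSucc (nat_lit 12773265),Int.negSucc (nat_lit 13937830),Int.negSucc (nat_lit 9115230),Int.ofNat (nat_lit 26080018),Int.ofNat (nat_lit 30863690),Int.ofNat (nat_lit 1567100),Int.ofNat (nat_lit 277648),Int.ofNat (nat_lit 47346564),Int.negSucc (nat_lit 11458095),Int.ofNat (nat_lit 7348258),Int.negSucc (nat_lit 94791097),Int.negSucc (nat_lit 4863743),Int.negSucc (nat_lit 6296345),Int.ofNat (nat_lit 193507892)])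

/-- A row. -/
noncomputable def sp3_c0_17 : List ℕ × List ℤ :=
  ([(nat_lit 0),(nat_lit 1),(nat_lit 1),(nat_lit 0),(nat_lit 1),(nat_lit 0),(nat_lit 0),(nat_lit 0),(nat_lit 0),(nat_lit 0),(nat_lit 0),(nat_lit 0)], [Int.ofNat (nat_lit 2767909),Int.negSucc (nat_lit 4567327),Int.negSucc (nat_lit 230971),Int.ofNat (nat_lit 3056372),Int.ofNat (nat_lit 555999),Int.negSucc (nat_lit 1442076),Int.ofNat (nat_lit 1404559),Int.negSucc (nat_lit 1076378),Int.negSucc (nat_lit 1969526),Int.negSucc (nat_lit 1244318),Int.negSucc (nat_lit 60289),Int.ofNat (nat_lit 4452382),Int.ofNat (nat_lit 3843081),Int.negSucc (nat_lit 6024021),Int.negSucc (nat_lit 6485839),Int.negSucc (nat_lit 576846),Int.negSucc (nat_lit 7084565),Int.ofNat (nat_lit 40458183)])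

/-- A row. -/
noncomputable def sp3_c0_18 : List ℕ × List ℤ :=
  ([(nat_lit 0),(nat_lit 1),(nat_lit 2),(nat_lit 0),(nat_lit 0),(nat_lit 0),(nat_lit 0),(nat_lit 0),(nat_lit 0),(nat_lit 0),(nat_lit 0),(nat_lit 0)], [Int.negSucc (nat_lit 2870004),Int.ofNat (nat_lit 257362),Int.negSucc (nat_lit 456629),Int.negSucc (nat_lit 616985),Int.negSucc (nat_lit 226566),Int.ofNat (nat_lit 41525),Int.ofNat (nat_lit 932145),Int.ofNat (nat_lit 544729),Int.ofNat (nat_lit 131100),Int.ofNat (nat_lit 649086),Int.ofNat (nat_lit 912511),Int.ofNat (nat_lit 1581503),Int.ofNat (nat_lit 3717375),Int.negSucc (nat_lit 336250),Int.ofNat (nat_lit 8614059),Int.negSucc (nat_lit 8954335),Int.ofNat (nat_lit 8228093),Int.negSucc (nat_lit 22229235),Int.ofNat (nat_lit 25499819)])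

/-- A row. -/
noncomputable def sp3_c0_19 : List ℕ × List ℤ :=
  ([(nat_lit 0),(nat_lit 2),(nat_lit 0),(nat_lit 0),(nat_lit 0),(nat_lit 0),(nat_lit 0),(nat_lit 1),(nat_lit 0),(nat_lit 0),(nat_lit 0),(nat_lit 0)], [Int.ofNat (nat_lit 40065984),Int.negSucc (nat_lit 45350291),Int.ofNat (nat_lit 3444756),Int.negSucc (nat_lit 37010211),Int.negSucc (nat_lit 12838000),Int.ofNat (nat_lit 50156558),Int.negSucc (nat_lit 21109710),Int.negSucc (nat_lit 17491934),Int.ofNat (nat_lit 12509358),Int.ofNat (nat_lit 20577484),Int.ofNat (nat_lit 2473614),Int.ofNat (nat_lit 13472507),Int.negSucc (nat_lit 8684842),Int.negSucc (nat_lit 16198729),Int.negSucc (nat_lit 51498634),Int.ofNat (nat_lit 8670355),Int.negSucc (nat_lit 5072878),Int.negSucc (nat_lit 5035229),Int.ofNat (nat_lit 12459337),Int.ofNat (nat_lit 240105819)])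

/-- A row. -/
noncomputable def sp3_c0_20 : List ℕ × List ℤ :=
  ([(nat_lit 0),(nat_lit 2),(nat_lit 0),(nat_lit 0),(nat_lit 0),(nat_lit 1),(nat_lit 0),(nat_lit 0),(nat_lit 0),(nat_lit 0),(nat_lit 0),(nat_lit 0)], [Int.negSucc (nat_lit 32504251),Int.negSucc (nat_lit 11829242),Int.negSucc (nat_lit 70485500),Int.negSucc (nat_lit 31908300),Int.negSucc (nat_lit 1098840),Int.negSucc (nat_lit 14047774),Int.negSucc (nat_lit 14470748),Int.negSucc (nat_lit 3311949),Int.negSucc (nat_lit 139801),Int.negSucc (nat_lit 9416981),Int.ofNat (nat_lit 10079931),Int.ofNat (nat_lit 1396649),Int.ofNat (nat_lit 23365177),Int.negSucc (nat_lit 5168027),Int.negSucc (nat_lit 139158578),Int.ofNat (nat_lit 26756342),Int.ofNat (nat_lit 859274),Int.ofNat (nat_lit 4314875),Int.ofNat (nat_lit 3507249),Int.negSucc (nat_lit 37378459),Int.ofNat (nat_lit 113240562)])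

/-- A row. -/
noncomputable def sp3_c0_21 : List ℕ × List ℤ :=
  ([(nat_lit 0),(nat_lit 2),(nat_lit 0),(nat_lit 1),(nat_lit 0),(nat_lit 0),(nat_lit 0),(nat_lit 0),(nat_lit 0),(nat_lit 0),(nat_lit 0),(nat_lit 0)], [Int.ofNat (nat_lit 12244107),Int.ofNat (nat_lit 88349736),Int.negSucc (nat_lit 6513038),Int.ofNat (nat_lit 56954958),Int.negSucc (nat_lit 196586091),Int.negSucc (nat_lit 51897426),Int.negSucc (nat_lit 38352530),Int.ofNat (nat_lit 85393463),Int.negSucc (nat_lit 8270925),Int.ofNat (nat_lit 25061669),Int.negSucc (nat_lit 42180050),Int.negSucc (nat_lit 7384920),Int.ofNat (nat_lit 24970574),Int.negSucc (nat_lit 111969902),Int.ofNat (nat_lit 163819284),Int.negSucc (nat_lit 46008302),Int.negSucc (nat_lit 18791339),Int.ofNat (nat_lit 4100446),Int.ofNat (nat_lit 9607834),Int.negSucc (nat_lit 12465596),Int.negSucc (nat_lit 42340216),Int.ofNat (nat_lit 314367953)])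

/-- A row. -/
noncomputable def sp3_c0_22 : List ℕ × List ℤ :=
  ([(nat_lit 0),(nat_lit 2),(nat_lit 1),(nat_lit 1),(nat_lit 0),(nat_lit 0),(nat_lit 0),(nat_lit 0),(nat_lit 0),(nat_lit 0),(nat_lit 0),(nat_lit 0)], [Int.ofNat (nat_lit 12239229),Int.negSucc (nat_lit 18686235),Int.ofNat (nat_lit 3347354),Int.negSucc (nat_lit 8915922),Int.negSucc (nat_lit 18028897),Int.ofNat (nat_lit 9880035),Int.negSucc (nat_lit 2931288),Int.ofNat (nat_lit 13539249),Int.negSucc (nat_lit 1246400),Int.negSucc (nat_lit 35609702),Int.negSucc (nat_lit 450996),Int.negSucc (nat_lit 1830283),Int.negSucc (nat_lit 1458724),Int.negSucc (nat_lit 687052),Int.negSucc (nat_lit 168843),Int.negSucc (nat_lit 648563),Int.negSucc (nat_lit 200471),Int.negSucc (nat_lit 1910686),Int.ofNat (nat_lit 442407),Int.ofNat (nat_lit 10459292),Int.negSucc (nat_lit 511145),Int.ofNat (nat_lit 995118),Int.ofNat (nat_lit 35730593)])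

/-- A row. -/
noncomputable def sp3_c0_23 : List ℕ × List ℤ :=
  ([(nat_lit 0),(nat_lit 3),(nat_lit 0),(nat_lit 0),(nat_lit 0),(nat_lit 0),(nat_lit 0),(nat_lit 0),(nat_lit 0),(nat_lit 0),(nat_lit 0),(nat_lit 0)], [Int.ofNat (nat_lit 13794081),Int.negSucc (nat_lit 187509337),Int.negSucc (nat_lit 58071359),Int.negSucc (nat_lit 40117371),Int.ofNat (nat_lit 299795661),Int.ofNat (nat_lit 55728331),Int.ofNat (nat_lit 637510),Int.negSucc (nat_lit 77285145),Int.ofNat (nat_lit 28390518),Int.negSucc (nat_lit 26250968),Int.negSucc (nat_lit 325834154),Int.ofNat (nat_lit 38998771),Int.negSucc (nat_lit 22622347),Int.ofNat (nat_lit 86305751),Int.negSucc (nat_lit 151817263),Int.ofNat (nat_lit 32827215),Int.ofNat (nat_lit 7493026),Int.negSucc (nat_lit 5582895),Int.negSucc (nat_lit 21159381),Int.ofNat (nat_lit 37669368),Int.ofNat (nat_lit 52362809),Int.negSucc (nat_lit 265280336),Int.negSucc (nat_lit 1879842),Int.ofNat (nat_lit 354096487)])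

/-- A row. -/
noncomputable def sp3_c0_24 : List ℕ × List ℤ :=
  ([(nat_lit 0),(nat_lit 3),(nat_lit 0),(nat_lit 0),(nat_lit 1),(nat_lit 0),(nat_lit 0),(nat_lit 0),(nat_lit 0),(nat_lit 0),(nat_lit 0),(nat_lit 0)], [Int.ofNat (nat_lit 5403658),Int.ofNat (nat_lit 55644406),Int.ofNat (nat_lit 60613947),Int.negSucc (nat_lit 19326308),Int.ofNat (nat_lit 71804088),Int.negSucc (nat_lit 65912016),Int.ofNat (nat_lit 3130014),Int.ofNat (nat_lit 70815499),Int.ofNat (nat_lit 22044578),Int.ofNat (nat_lit 33551435),Int.ofNat (nat_lit 21421889),Int.negSucc (nat_lit 14506800),Int.ofNat (nat_lit 3971537),Int.negSucc (nat_lit 265438914),Int.ofNat (nat_lit 9219285),Int.negSucc (nat_lit 13807380),Int.ofNat (nat_lit 1015718),Int.negSucc (nat_lit 39430200),Int.negSucc (nat_lit 34263343),Int.negSucc (nat_lit 47073953),Int.negSucc (nat_lit 22092592),Int.negSucc (nat_lit 12506880),Int.ofNat (nat_lit 6924240),Int.ofNat (nat_lit 1261763),Int.ofNat (nat_lit 172928749)])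

/-- A row. -/
noncomputable def sp3_c0_25 : List ℕ × List ℤ :=
  ([(nat_lit 0),(nat_lit 3),(nat_lit 1),(nat_lit 0),(nat_lit 0),(nat_lit 0),(nat_lit 0),(nat_lit 0),(nat_lit 0),(nat_lit 0),(nat_lit 0),(nat_lit 0)], [Int.negSucc (nat_lit 52363539),Int.ofNat (nat_lit 4753538),Int.negSucc (nat_lit 12006238),Int.ofNat (nat_lit 11813234),Int.ofNat (nat_lit 19506146),Int.negSucc (nat_lit 20150275),Int.negSucc (nat_lit 3785849),Int.negSucc (nat_lit 23145587),Int.ofNat (nat_lit 11326122),Int.negSucc (nat_lit 904769),Int.negSucc (nat_lit 51379703),Int.ofNat (nat_lit 24924147),Int.ofNat (nat_lit 1075851),Int.ofNat (nat_lit 109279829),Int.negSucc (nat_lit 4725470),Int.ofNat (nat_lit 7174057),Int.negSucc (nat_lit 222129991),Int.negSucc (nat_lit 28934581),Int.ofNat (nat_lit 55527549),Int.negSucc (nat_lit 13244279),Int.ofNat (nat_lit 15339215),Int.ofNat (nat_lit 1994278),Int.negSucc (nat_lit 5815009),Int.ofNat (nat_lit 1223844),Int.negSucc (nat_lit 49700485),Int.ofNat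 (nat_lit 144543896)])

/-- A row. -/
noncomputable def sp3_c0_26 : List ℕ × List ℤ :=
  ([(nat_lit 0),(nat_lit 4),(nat_lit 0),(nat_lit 1),(nat_lit 0),(nat_lit 0),(nat_lit 0),(nat_lit 0),(nat_lit 0),(nat_lit 0),(nat_lit 0),(nat_lit 0)], [Int.negSucc (nat_lit 8992755),Int.negSucc (nat_lit 71058981),Int.ofNat (nat_lit 11284327),Int.negSucc (nat_lit 30215537),Int.ofNat (nat_lit 143301460),Int.ofNat (nat_lit 63832094),Int.ofNat (nat_lit 37071504),Int.negSucc (nat_lit 81594971),Int.ofNat (nat_lit 3032083),Int.negSucc (nat_lit 21325736),Int.ofNat (nat_lit 37489080),Int.ofNat (nat_lit 4536276),Int.negSucc (nat_lit 10109670),Int.ofNat (nat_lit 128727215),Int.negSucc (nat_lit 15305073),Int.negSucc (nat_lit 4567197),Int.ofNat (nat_lit 21443083),Int.ofNat (nat_lit 7359389),Int.ofNat (nat_lit 3970457),Int.ofNat (nat_lit 30539314),Int.ofNat (nat_lit 7642055),Int.negSucc (nat_lit 359409843),Int.ofNat (nat_lit 5936486),Int.negSucc (nat_lit 6641971),Int.negSucc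 (nat_lit 42893783),Int.negSucc (nat_lit 8510424),Int.ofNat (nat_lit 129828318)])

/-- A row. -/
noncomputable def sp3_c0_27 : List ℕ × List ℤ :=
  ([(nat_lit 0),(nat_lit 5),(nat_lit 0),(nat_lit 0),(nat_lit 0),(nat_lit 0),(nat_lit 0),(nat_lit 0),(nat_lit 0),(nat_lit 0),(nat_lit 0),(nat_lit 0)], [Int.negSucc (nat_lit 11578252),Int.ofNat (nat_lit 144083641),Int.ofNat (nat_lit 34324762),Int.ofNat (nat_lit 15653564),Int.negSucc (nat_lit 219300713),Int.negSucc (nat_lit 55379358),Int.negSucc (nat_lit 12874343),Int.ofNat (nat_lit 74786971),Int.negSucc (nat_lit 20071051),Int.ofNat (nat_lit 24232026),Int.ofNat (nat_lit 261080746),Int.negSucc (nat_lit 32577391),Int.ofNat (nat_lit 18389924),Int.negSucc (nat_lit 97950748),Int.ofNat (nat_lit 52089579),Int.negSucc (nat_lit 6460937),Int.negSucc (nat_lit 10732298),Int.ofNat (nat_lit 2545755),Int.ofNat (nat_lit 131123),Int.negSucc (nat_lit 39252850),Int.negSucc (nat_lit 11622782),Int.ofNat (nat_lit 300170843),Int.negSucc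 (nat_lit 4522424),Int.negSucc (nat_lit 402603305),Int.ofNat (nat_lit 35094751),Int.negSucc (nat_lit 7207036),Int.negSucc (nat_lit 84521095),Int.ofNat (nat_lit 120888798)])

/-- A row. -/
noncomputable def sp3_c0_28 : List ℕ × List ℤ :=
  ([(nat_lit 1),(nat_lit 0),(nat_lit 0),(nat_lit 0),(nat_lit 0),(nat_lit 0),(nat_lit 0),(nat_lit 0),(nat_lit 0),(nat_lit 1),(nat_lit 0),(nat_lit 0)], [Int.negSucc (nat_lit 206049704),Int.negSucc (nat_lit 13497352),Int.negSucc (nat_lit 15222556),Int.ofNat (nat_lit 34808672),Int.ofNat (nat_lit 39964),Int.negSucc (nat_lit 19342634),Int.ofNat (nat_lit 2097806),Int.negSucc (nat_lit 22604559),Int.ofNat (nat_lit 22269477),Int.ofNat (nat_lit 17700950),Int.ofNat (nat_lit 1945326),Int.ofNat (nat_lit 8240904),Int.negSucc (nat_lit 10666201),Int.negSucc (nat_lit 1472650),Int.ofNat (nat_lit 385310),Int.negSucc (nat_lit 2698852),Int.negSucc (nat_lit 644247),Int.negSucc (nat_lit 1057487),Int.ofNat (nat_lit 1067023),Int.negSucc (nat_lit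 3414820),Int.ofNat (nat_lit 505470),Int.negSucc (nat_lit 1409663),Int.negSucc (nat_lit 5163651),Int.ofNat (nat_lit 618711),Int.ofNat (nat_lit 212940),Int.ofNat (nat_lit 612436),Int.ofNat (nat_lit 1659713),Int.negSucc (nat_lit 542611),Int.ofNat (nat_lit 53426620)])

/-- A row. -/
noncomputable def sp3_c0_29 : List ℕ × List ℤ :=
  ([(nat_lit 1),(nat_lit 0),(nat_lit 0),(nat_lit 0),(nat_lit 0),(nat_lit 0),(nat_lit 0),(nat_lit 1),(nat_lit 0),(nat_lit 0),(nat_lit 0),(nat_lit 0)], [Int.negSucc (nat_lit 15265367),Int.negSucc (nat_lit 87976544),Int.negSucc (nat_lit 711367),Int.negSucc (nat_lit 1374963),Int.negSucc (nat_lit 7183784),Int.negSucc (nat_lit 8325331),Int.negSucc (nat_lit 22775154),Int.negSucc (nat_lit 26139131),Int.negSucc (nat_lit 18386483),Int.ofNat (nat_lit 18859893),Int.ofNat (nat_lit 3775295),Int.ofNat (nat_lit 21886027),Int.negSucc (nat_lit 3520996),Int.negSucc (nat_lit 17539154),Int.negSucc (nat_lit 533312),Int.negSucc (nat_lit 668715),Int.negSucc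 (nat_lit 8387946),Int.negSucc (nat_lit 10213357),Int.negSucc (nat_lit 2410749),Int.ofNat (nat_lit 9400108),Int.ofNat (nat_lit 6099582),Int.ofNat (nat_lit 1568165),Int.ofNat (nat_lit 1046383),Int.negSucc (nat_lit 557640),Int.ofNat (nat_lit 4374512),Int.ofNat (nat_lit 889315),Int.negSucc (nat_lit 35445),Int.ofNat (nat_lit 919349),Int.ofNat (nat_lit 9111815),Int.ofNat (nat_lit 98993245)])

/-- A part of a triangular factor. -/
noncomputable def sp3_c0 : Rows :=
  [sp3_c0_0,
   sp3_c0_1,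
   sp3_c0_2,
   sp3_c0_3,
   sp3_c0_4,
   sp3_c0_5,
   sp3_c0_6,
   sp3_c0_7,
   sp3_c0_8,
   sp3_c0_9,
   sp3_c0_10,
   sp3_c0_11,
   sp3_c0_12,
   sp3_c0_13,
   sp3_c0_14,
   sp3_c0_15,
   sp3_c0_16,
   sp3_c0_17,
   sp3_c0_18,
   sp3_c0_19,
   sp3_c0_20,
   sp3_c0_21,
   sp3_c0_22,
   sp3_c0_23,
   sp3_c0_24,
   sp3_c0_25,
   sp3_c0_26,
   sp3_c0_27,
   sp3_c0_28,
   sp3_c0_29]

/-- A row. -/
noncomputable def sp3_c1_0 : List ℕ × List ℤ :=
  ([(nat_lit 1),(nat_lit 0),(nat_lit 0),(nat_lit 0),(nat_lit 0),(nat_lit 1),(nat_lit 0),(nat_lit 0),(nat_lit 0),(nat_lit 0),(nat_lit 0),(nat_lit 0)], [Int.negSucc (nat_lit 22519098),Int.negSucc (nat_lit 69386415),Int.negSucc (nat_lit 119890740),Int.ofNat (nat_lit 4342230),Int.negSucc (nat_lit 3066436),Int.ofNat (nat_lit 29499296),Int.negSucc (nat_lit 18238402),Int.negSucc (nat_lit 10385229),Int.negSucc (nat_lit 22131198),Int.negSucc (nat_lit 7401210),Int.negSucc (nat_lit 305560),Int.negSucc (nat_lit 7834033),Int.ofNat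 (nat_lit 11218520),Int.negSucc (nat_lit 9450094),Int.negSucc (nat_lit 240409),Int.negSucc (nat_lit 2283014),Int.ofNat (nat_lit 7157601),Int.negSucc (nat_lit 3813822),Int.negSucc (nat_lit 3343244),Int.negSucc (nat_lit 834747),Int.ofNat (nat_lit 4145947),Int.negSucc (nat_lit 8467602),Int.ofNat (nat_lit 1322568),Int.ofNat (nat_lit 2557667),Int.negSucc (nat_lit 232232),Int.ofNat (nat_lit 349046),Int.negSucc (nat_lit 1624887),Int.ofNat (nat_lit 1199836),Int.ofNat (nat_lit 3827968),Int.negSucc (nat_lit 12549768),Int.ofNat (nat_lit 91941283)])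

/-- A row. -/
noncomputable def sp3_c1_1 : List ℕ × List ℤ :=
  ([(nat_lit 1),(nat_lit 0),(nat_lit 0),(nat_lit 1),(nat_lit 0),(nat_lit 0),(nat_lit 0),(nat_lit 0),(nat_lit 0),(nat_lit 0),(nat_lit 0),(nat_lit 0)], [Int.ofNat (nat_lit 13926368),Int.negSucc (nat_lit 34578289),Int.ofNat (nat_lit 25161866),Int.negSucc (nat_lit 12304845),Int.negSucc (nat_lit 109927619),Int.negSucc (nat_lit 59915592),Int.ofNat (nat_lit 44292314),Int.ofNat (nat_lit 20053802),Int.ofNat (nat_lit 16633625),Int.negSucc (nat_lit 11481885),Int.negSucc (nat_lit 5823982),Int.negSucc (nat_lit 12640338),Int.negSucc (nat_lit 2739487),Int.negSucc (nat_lit 1579684),Int.ofNat (nat_lit 1317872),Int.ofNat (nat_lit 3024935),Int.negSucc (nat_lit 822692),Int.ofNat (nat_lit 4368581),Int.ofNat (nat_lit 2716844),Int.ofNat (nat_lit 490418),Int.negSucc (nat_lit 3884043),Int.negSucc (nat_lit 1775119),Int.negSucc (nat_lit 533902),Int.negSucc (nat_lit 1800978),Int.ofNat (nat_lit 263130),Int.ofNat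 (nat_lit 740124),Int.negSucc (nat_lit 2254237),Int.ofNat (nat_lit 93794),Int.negSucc (nat_lit 9412921),Int.negSucc (nat_lit 26627641),Int.negSucc (nat_lit 13852891),Int.ofNat (nat_lit 148305218)])

/-- A row. -/
noncomputable def sp3_c1_2 : List ℕ × List ℤ :=
  ([(nat_lit 1),(nat_lit 0),(nat_lit 0),(nat_lit 1),(nat_lit 1),(nat_lit 0),(nat_lit 0),(nat_lit 0),(nat_lit 0),(nat_lit 0),(nat_lit 0),(nat_lit 0)], [Int.negSucc (nat_lit 414829),Int.negSucc (nat_lit 597338),Int.negSucc (nat_lit 8001424),Int.ofNat (nat_lit 14084630),Int.negSucc (nat_lit 3030610),Int.ofNat (nat_lit 5115830),Int.ofNat (nat_lit 1418144),Int.negSucc (nat_lit 3730009),Int.negSucc (nat_lit 5226163),Int.negSucc (nat_lit 2762777),Int.ofNat (nat_lit 213143),Int.ofNat (nat_lit 2173496),Int.ofNat (nat_lit 240625),Int.ofNat (nat_lit 3414394),Int.ofNat (nat_lit 2117733),Int.negSucc (nat_lit 684863),Int.ofNat (nat_lit 493680),Int.ofNat (nat_lit 2784514),Int.ofNat (nat_lit 960990),Int.negSucc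 (nat_lit 363542),Int.ofNat (nat_lit 762260),Int.ofNat (nat_lit 920534),Int.negSucc (nat_lit 365051),Int.ofNat (nat_lit 550741),Int.negSucc (nat_lit 1741154),Int.negSucc (nat_lit 913794),Int.ofNat (nat_lit 231361),Int.negSucc (nat_lit 457676),Int.ofNat (nat_lit 8635848),Int.negSucc (nat_lit 6351160),Int.negSucc (nat_lit 4349170),Int.negSucc (nat_lit 14916727),Int.ofNat (nat_lit 49326614)])

/-- A row. -/
noncomputable def sp3_c1_3 : List ℕ × List ℤ :=
  ([(nat_lit 1),(nat_lit 0),(nat_lit 1),(nat_lit 0),(nat_lit 0),(nat_lit 1),(nat_lit 0),(nat_lit 0),(nat_lit 0),(nat_lit 0),(nat_lit 0),(nat_lit 0)], [Int.negSucc (nat_lit 2264681),Int.negSucc (nat_lit 5178294),Int.ofNat (nat_lit 948485),Int.negSucc (nat_lit 520586),Int.ofNat (nat_lit 3100082),Int.negSucc (nat_lit 10377757),Int.negSucc (nat_lit 4093635),Int.negSucc (nat_lit 2842225),Int.ofNat (nat_lit 3697661),Int.negSucc (nat_lit 2602586),Int.negSucc (nat_lit 745416),Int.negSucc (nat_lit 3029406),Int.ofNat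 (nat_lit 802463),Int.negSucc (nat_lit 1096857),Int.negSucc (nat_lit 508158),Int.negSucc (nat_lit 2202302),Int.negSucc (nat_lit 140623),Int.negSucc (nat_lit 1731592),Int.negSucc (nat_lit 909817),Int.negSucc (nat_lit 1727375),Int.ofNat (nat_lit 766631),Int.ofNat (nat_lit 870812),Int.negSucc (nat_lit 800934),Int.negSucc (nat_lit 449787),Int.ofNat (nat_lit 846234),Int.ofNat (nat_lit 117264),Int.ofNat (nat_lit 518013),Int.negSucc (nat_lit 28617),Int.ofNat (nat_lit 15381088),Int.ofNat (nat_lit 3735834),Int.negSucc (nat_lit 226548),Int.ofNat (nat_lit 2899208),Int.negSucc (nat_lit 13326529),Int.ofNat (nat_lit 36360025)])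

/-- A row. -/
noncomputable def sp3_c1_4 : List ℕ × List ℤ :=
  ([(nat_lit 1),(nat_lit 0),(nat_lit 1),(nat_lit 1),(nat_lit 0),(nat_lit 0),(nat_lit 0),(nat_lit 0),(nat_lit 0),(nat_lit 0),(nat_lit 0),(nat_lit 0)], [Int.negSucc (nat_lit 156320),Int.ofNat (nat_lit 2983375),Int.ofNat (nat_lit 3926835),Int.negSucc (nat_lit 7658375),Int.negSucc (nat_lit 1504689),Int.ofNat (nat_lit 587355),Int.negSucc (nat_lit 821606),Int.negSucc (nat_lit 2228182),Int.ofNat (nat_lit 2581431),Int.ofNat (nat_lit 5532759),Int.ofNat (nat_lit 618177),Int.ofNat (nat_lit 2204853),Int.negSucc (nat_lit 3342274),Int.negSucc (nat_lit 3948832),Int.negSucc (nat_lit 1708511),Int.ofNat (nat_lit 1369018),Int.negSucc (nat_lit 930765),Int.negSucc (nat_lit 2746238),Int.ofNat (nat_lit 5561),Int.ofNat (nat_lit 132812),Int.negSucc (nat_lit 68243),Int.negSucc (nat_lit 1784688),Int.ofNat (nat_lit 1116957),Int.negSucc (nat_lit 238878),Int.ofNat (nat_lit 2032180),Int.ofNat (nat_lit 552940),Int.negSucc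 (nat_lit 809020),Int.ofNat (nat_lit 350692),Int.negSucc (nat_lit 867313),Int.ofNat (nat_lit 13560827),Int.ofNat (nat_lit 1707630),Int.ofNat (nat_lit 12714339),Int.negSucc (nat_lit 27711955),Int.negSucc (nat_lit 14244303),Int.ofNat (nat_lit 21967694)])

/-- A row. -/
noncomputable def sp3_c1_5 : List ℕ × List ℤ :=
  ([(nat_lit 1),(nat_lit 1),(nat_lit 0),(nat_lit 0),(nat_lit 0),(nat_lit 0),(nat_lit 0),(nat_lit 0),(nat_lit 0),(nat_lit 0),(nat_lit 0),(nat_lit 0)], [Int.negSucc (nat_lit 51080659),Int.ofNat (nat_lit 91016463),Int.negSucc (nat_lit 117227015),Int.negSucc (nat_lit 6378046),Int.ofNat (nat_lit 105160498),Int.ofNat (nat_lit 114849074),Int.negSucc (nat_lit 71540666),Int.negSucc (nat_lit 41506521),Int.negSucc (nat_lit 11900310),Int.negSucc (nat_lit 30447727),Int.negSucc (nat_lit 206534864),Int.ofNat (nat_lit 93994790),Int.negSucc (nat_lit 38372295),Int.ofNat (nat_lit 71063895),Int.negSucc (nat_lit 817108),Int.negSucc (nat_lit 1536275),Int.negSucc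 (nat_lit 119289230),Int.negSucc (nat_lit 1669689),Int.negSucc (nat_lit 8513513),Int.negSucc (nat_lit 2106513),Int.ofNat (nat_lit 6687006),Int.negSucc (nat_lit 34222816),Int.ofNat (nat_lit 3708489),Int.ofNat (nat_lit 20297462),Int.negSucc (nat_lit 4151758),Int.negSucc (nat_lit 20820),Int.ofNat (nat_lit 6202301),Int.ofNat (nat_lit 180592),Int.negSucc (nat_lit 24775945),Int.ofNat (nat_lit 42528764),Int.negSucc (nat_lit 11922641),Int.negSucc (nat_lit 199107415),Int.negSucc (nat_lit 1918931),Int.ofNat (nat_lit 10954352),Int.negSucc (nat_lit 2682618),Int.ofNat (nat_lit 274666355)])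

/-- A row. -/
noncomputable def sp3_c1_6 : List ℕ × List ℤ :=
  ([(nat_lit 1),(nat_lit 1),(nat_lit 0),(nat_lit 0),(nat_lit 0),(nat_lit 0),(nat_lit 1),(nat_lit 0),(nat_lit 0),(nat_lit 0),(nat_lit 0),(nat_lit 0)], [Int.ofNat (nat_lit 11616990),Int.negSucc (nat_lit 16709076),Int.negSucc (nat_lit 7737797),Int.negSucc (nat_lit 16889879),Int.negSucc (nat_lit 15320517),Int.ofNat (nat_lit 4626177),Int.ofNat (nat_lit 2749149),Int.ofNat (nat_lit 11488583),Int.ofNat (nat_lit 2558660),Int.negSucc (nat_lit 14364724),Int.ofNat (nat_lit 7508104),Int.ofNat (nat_lit 4393835),Int.negSucc (nat_lit 127933468),Int.negSucc (nat_lit 8191778),Int.ofNat (nat_lit 55052928),Int.negSucc (nat_lit 21146277),Int.ofNat (nat_lit 659847),Int.negSucc (nat_lit 41887421),Int.negSucc (nat_lit 30823943),Int.ofNat (nat_lit 2083004),Int.negSucc (nat_lit 2559351),Int.ofNat (nat_lit 3832553),Int.ofNat (nat_lit 8140801),Int.negSucc (nat_lit 1652725),Int.negSucc (nat_lit 6130543),Int.negSucc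 (nat_lit 1162779),Int.negSucc (nat_lit 4499122),Int.negSucc (nat_lit 1414375),Int.negSucc (nat_lit 111908285),Int.negSucc (nat_lit 2566961),Int.ofNat (nat_lit 34299871),Int.negSucc (nat_lit 3370576),Int.negSucc (nat_lit 22505134),Int.ofNat (nat_lit 20363175),Int.ofNat (nat_lit 3619872),Int.negSucc (nat_lit 10461214),Int.ofNat (nat_lit 250407479)])

/-- A row. -/
noncomputable def sp3_c1_7 : List ℕ × List ℤ :=
  ([(nat_lit 1),(nat_lit 1),(nat_lit 0),(nat_lit 0),(nat_lit 1),(nat_lit 0),(nat_lit 0),(nat_lit 0),(nat_lit 0),(nat_lit 0),(nat_lit 0),(nat_lit 0)], [Int.negSucc (nat_lit 6840862),Int.ofNat (nat_lit 14941823),Int.ofNat (nat_lit 11861034),Int.negSucc (nat_lit 26954601),Int.ofNat (nat_lit 5427407),Int.negSucc (nat_lit 15788763),Int.ofNat (nat_lit 12521771),Int.ofNat (nat_lit 6140815),Int.ofNat (nat_lit 23232027),Int.negSucc (nat_lit 4662590),Int.ofNat (nat_lit 5573906),Int.negSucc (nat_lit 12170286),Int.negSucc (nat_lit 8441897),Int.negSucc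 (nat_lit 30595606),Int.negSucc (nat_lit 22434607),Int.ofNat (nat_lit 19999386),Int.ofNat (nat_lit 3203300),Int.negSucc (nat_lit 20407997),Int.ofNat (nat_lit 27873196),Int.negSucc (nat_lit 8522301),Int.negSucc (nat_lit 446807),Int.negSucc (nat_lit 7420150),Int.ofNat (nat_lit 8798007),Int.ofNat (nat_lit 862299),Int.ofNat (nat_lit 9868857),Int.negSucc (nat_lit 861838),Int.negSucc (nat_lit 2713867),Int.ofNat (nat_lit 865127),Int.negSucc (nat_lit 11667882),Int.negSucc (nat_lit 16629094),Int.negSucc (nat_lit 5673898),Int.ofNat (nat_lit 18261684),Int.negSucc (nat_lit 77138156),Int.ofNat (nat_lit 1421194),Int.negSucc (nat_lit 374687),Int.negSucc (nat_lit 18107628),Int.ofNat (nat_lit 8401361),Int.ofNat (nat_lit 218088805)])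

/-- A row. -/
noncomputable def sp3_c1_8 : List ℕ × List ℤ :=
  ([(nat_lit 1),(nat_lit 1),(nat_lit 0),(nat_lit 2),(nat_lit 0),(nat_lit 0),(nat_lit 0),(nat_lit 0),(nat_lit 0),(nat_lit 0),(nat_lit 0),(nat_lit 0)], [Int.negSucc (nat_lit 168977),Int.negSucc (nat_lit 134427),Int.ofNat (nat_lit 2233177),Int.negSucc (nat_lit 2704241),Int.ofNat (nat_lit 1428971),Int.negSucc (nat_lit 219864),Int.ofNat (nat_lit 717842),Int.ofNat (nat_lit 675357),Int.negSucc (nat_lit 483501),Int.ofNat (nat_lit 602510),Int.negSucc (nat_lit 1642815),Int.negSucc (nat_lit 8620411),Int.ofNat (nat_lit 2810280),Int.ofNat (nat_lit 280625),Int.negSucc (nat_lit 959117),Int.ofNat (nat_lit 1731480),Int.negSucc (nat_lit 153586),Int.ofNat (nat_lit 660490),Int.ofNat (nat_lit 551409),Int.negSucc (nat_lit 420172),Int.negSucc (nat_lit 198803),Int.ofNat (nat_lit 85443),Int.ofNat (nat_lit 458869),Int.ofNat (nat_lit 57890),Int.ofNat (nat_lit 227058),Int.negSucc (nat_lit 122251),Int.negSucc (nat_lit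 231561),Int.ofNat (nat_lit 89871),Int.ofNat (nat_lit 1024972),Int.ofNat (nat_lit 353548),Int.negSucc (nat_lit 837243),Int.ofNat (nat_lit 482899),Int.ofNat (nat_lit 808771),Int.negSucc (nat_lit 1956164),Int.negSucc (nat_lit 214124),Int.ofNat (nat_lit 220192),Int.negSucc (nat_lit 10708736),Int.negSucc (nat_lit 997177),Int.ofNat (nat_lit 25674509)])

/-- A row. -/
noncomputable def sp3_c1_9 : List ℕ × List ℤ :=
  ([(nat_lit 1),(nat_lit 1),(nat_lit 1),(nat_lit 0),(nat_lit 0),(nat_lit 0),(nat_lit 0),(nat_lit 0),(nat_lit 0),(nat_lit 0),(nat_lit 0),(nat_lit 0)], [Int.ofNat (nat_lit 56591797),Int.negSucc (nat_lit 64716763),Int.negSucc (nat_lit 53519774),Int.ofNat (nat_lit 63091205),Int.negSucc (nat_lit 45293327),Int.ofNat (nat_lit 54355139),Int.negSucc (nat_lit 38367667),Int.negSucc (nat_lit 50343483),Int.negSucc (nat_lit 12981406),Int.negSucc (nat_lit 34432411),Int.negSucc (nat_lit 60801934),Int.ofNat (nat_lit 36049328),Int.negSucc (nat_lit 2924567),Int.negSucc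 (nat_lit 33366806),Int.negSucc (nat_lit 6010319),Int.ofNat (nat_lit 4093661),Int.negSucc (nat_lit 240937745),Int.ofNat (nat_lit 57931865),Int.negSucc (nat_lit 69094190),Int.negSucc (nat_lit 14694336),Int.negSucc (nat_lit 7575196),Int.negSucc (nat_lit 3816415),Int.negSucc (nat_lit 4132423),Int.negSucc (nat_lit 18093658),Int.negSucc (nat_lit 3130937),Int.ofNat (nat_lit 10417552),Int.ofNat (nat_lit 2411284),Int.negSucc (nat_lit 1340958),Int.negSucc (nat_lit 11063287),Int.negSucc (nat_lit 111107688),Int.ofNat (nat_lit 50283575),Int.negSucc (nat_lit 86207798),Int.ofNat (nat_lit 55280432),Int.ofNat (nat_lit 7111315),Int.ofNat (nat_lit 15388541),Int.ofNat (nat_lit 105028433),Int.negSucc (nat_lit 36169280),Int.negSucc (nat_lit 114549785),Int.negSucc (nat_lit 21693258),Int.ofNat (nat_lit 431923331)])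

/-- A row. -/
noncomputable def sp3_c1_10 : List ℕ × List ℤ :=
  ([(nat_lit 1),(nat_lit 1),(nat_lit 2),(nat_lit 0),(nat_lit 0),(nat_lit 0),(nat_lit 0),(nat_lit 0),(nat_lit 0),(nat_lit 0),(nat_lit 0),(nat_lit 0)], [Int.ofNat (nat_lit 2566262),Int.negSucc (nat_lit 1951376),Int.negSucc (nat_lit 1389884),Int.negSucc (nat_lit 44283),Int.negSucc (nat_lit 13507),Int.negSucc (nat_lit 1042908),Int.ofNat (nat_lit 1110681),Int.negSucc (nat_lit 1145349),Int.negSucc (nat_lit 1581391),Int.ofNat (nat_lit 159945),Int.ofNat (nat_lit 1239611),Int.ofNat (nat_lit 4751789),Int.negSucc (nat_lit 8688154),Int.negSucc (nat_lit 508244),Int.ofNat (nat_lit 2485767),Int.negSucc (nat_lit 2550505),Int.negSucc (nat_lit 486792),Int.ofNat (nat_lit 1931759),Int.ofNat (nat_lit 88731),Int.negSucc (nat_lit 199635),Int.ofNat (nat_lit 1102057),Int.ofNat (nat_lit 468546),Int.ofNat (nat_lit 209503),Int.ofNat (nat_lit 341271),Int.negSucc (nat_lit 537430),Int.negSucc (nat_lit 676938),Int.ofNat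 (nat_lit 401128),Int.negSucc (nat_lit 56496),Int.negSucc (nat_lit 2044273),Int.negSucc (nat_lit 421723),Int.negSucc (nat_lit 482820),Int.negSucc (nat_lit 126493),Int.ofNat (nat_lit 3202592),Int.ofNat (nat_lit 1821260),Int.negSucc (nat_lit 12114),Int.ofNat (nat_lit 1240641),Int.ofNat (nat_lit 5904130),Int.negSucc (nat_lit 18028289),Int.negSucc (nat_lit 21219528),Int.ofNat (nat_lit 6907944),Int.ofNat (nat_lit 55504003)])

/-- A row. -/
noncomputable def sp3_c1_11 : List ℕ × List ℤ :=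
  ([(nat_lit 1),(nat_lit 2),(nat_lit 0),(nat_lit 0),(nat_lit 0),(nat_lit 1),(nat_lit 0),(nat_lit 0),(nat_lit 0),(nat_lit 0),(nat_lit 0),(nat_lit 0)], [Int.negSucc (nat_lit 5540630),Int.ofNat (nat_lit 34195786),Int.ofNat (nat_lit 121009989),Int.ofNat (nat_lit 66710893),Int.negSucc (nat_lit 3081664),Int.negSucc (nat_lit 30113406),Int.ofNat (nat_lit 39384375),Int.ofNat (nat_lit 1223881),Int.ofNat (nat_lit 2158931),Int.ofNat (nat_lit 6930424),Int.ofNat (nat_lit 1757532),Int.ofNat (nat_lit 9907208),Int.negSucc (nat_lit 37098057),Int.ofNat (nat_lit 17129000),Int.negSucc (nat_lit 14826333),Int.negSucc (nat_lit 4808506),Int.negSucc (nat_lit 5736490),Int.negSucc (nat_lit 2637707),Int.negSucc (nat_lit 1085723),Int.negSucc (nat_lit 24806743),Int.negSucc (nat_lit 106900562),Int.ofNat (nat_lit 2615492),Int.negSucc (nat_lit 5087219),Int.negSucc (nat_lit 3916138),Int.negSucc (nat_lit 16918386),Int.ofNat (nat_lit 17786824),Int.negSucc (nat_lit 9623801),Int.negSucc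 (nat_lit 4595514),Int.negSucc (nat_lit 20665167),Int.negSucc (nat_lit 3458262),Int.negSucc (nat_lit 112859924),Int.negSucc (nat_lit 7428690),Int.ofNat (nat_lit 9360674),Int.ofNat (nat_lit 1818856),Int.negSucc (nat_lit 10094206),Int.ofNat (nat_lit 2130803),Int.ofNat (nat_lit 42828416),Int.negSucc (nat_lit 29629423),Int.ofNat (nat_lit 54644347),Int.ofNat (nat_lit 163671),Int.ofNat (nat_lit 1769157),Int.ofNat (nat_lit 261633897)])

/-- A row. -/
noncomputable def sp3_c1_12 : List ℕ × List ℤ :=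
  ([(nat_lit 1),(nat_lit 2),(nat_lit 0),(nat_lit 1),(nat_lit 0),(nat_lit 0),(nat_lit 0),(nat_lit 0),(nat_lit 0),(nat_lit 0),(nat_lit 0),(nat_lit 0)], [Int.ofNat (nat_lit 22080799),Int.ofNat (nat_lit 26417345),Int.negSucc (nat_lit 10925092),Int.negSucc (nat_lit 23588966),Int.ofNat (nat_lit 122053442),Int.ofNat (nat_lit 24752986),Int.ofNat (nat_lit 17895795),Int.negSucc (nat_lit 17528558),Int.negSucc (nat_lit 1650477),Int.ofNat (nat_lit 14958371),Int.ofNat (nat_lit 9481517),Int.ofNat (nat_lit 30053681),Int.ofNat (nat_lit 12800847),Int.ofNat (nat_lit 5884560),Int.ofNat (nat_lit 3990216),Int.negSucc (nat_lit 3509084),Int.ofNat (nat_lit 1740972),Int.negSucc (nat_lit 16660903),Int.negSucc (nat_lit 14480678),Int.ofNat (nat_lit 18119366),Int.ofNat (nat_lit 23430858),Int.negSucc (nat_lit 22601585),Int.negSucc (nat_lit 54336263),Int.ofNat (nat_lit 2559215),Int.ofNat (nat_lit 8995044),Int.ofNat (nat_lit 8996723),Int.ofNat (nat_lit 16383151),Int.ofNat (nat_lit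 626944),Int.negSucc (nat_lit 3041092),Int.ofNat (nat_lit 50250959),Int.ofNat (nat_lit 23768522),Int.negSucc (nat_lit 166587096),Int.negSucc (nat_lit 42088038),Int.ofNat (nat_lit 7411259),Int.ofNat (nat_lit 10352967),Int.negSucc (nat_lit 5297891),Int.ofNat (nat_lit 19880000),Int.negSucc (nat_lit 60113711),Int.negSucc (nat_lit 101311763),Int.ofNat (nat_lit 191679),Int.ofNat (nat_lit 16554541),Int.negSucc (nat_lit 81497503),Int.ofNat (nat_lit 242127483)])

/-- A row. -/
noncomputable def sp3_c1_13 : List ℕ × List ℤ :=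
  ([(nat_lit 1),(nat_lit 3),(nat_lit 0),(nat_lit 0),(nat_lit 0),(nat_lit 0),(nat_lit 0),(nat_lit 0),(nat_lit 0),(nat_lit 0),(nat_lit 0),(nat_lit 0)], [Int.ofNat (nat_lit 69282669),Int.negSucc (nat_lit 244502790),Int.ofNat (nat_lit 194611623),Int.ofNat (nat_lit 116243307),Int.negSucc (nat_lit 198913886),Int.negSucc (nat_lit 240215697),Int.ofNat (nat_lit 76050424),Int.ofNat (nat_lit 27210701),Int.ofNat (nat_lit 40804232),Int.ofNat (nat_lit 103784954),Int.ofNat (nat_lit 701252141),Int.negSucc (nat_lit 190946464),Int.ofNat (nat_lit 45654734),Int.negSucc (nat_lit 17729046),Int.ofNat (nat_lit 25838321),Int.negSucc (nat_lit 16886775),Int.ofNat (nat_lit 115214463),Int.ofNat (nat_lit 3578389),Int.ofNat (nat_lit 20765907),Int.ofNat (nat_lit 36929932),Int.negSucc (nat_lit 84849707),Int.ofNat (nat_lit 133075281),Int.ofNat (nat_lit 32533649),Int.negSucc (nat_lit 647733611),Int.ofNat (nat_lit 72604732),Int.negSucc (nat_lit 94877840),Int.negSucc (nat_lit 23636996),Int.ofNat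 (nat_lit 39609819),Int.ofNat (nat_lit 190766511),Int.negSucc (nat_lit 110429948),Int.ofNat (nat_lit 82225838),Int.ofNat (nat_lit 341303529),Int.ofNat (nat_lit 50897511),Int.negSucc (nat_lit 8677209),Int.ofNat (nat_lit 2819914),Int.negSucc (nat_lit 914432352),Int.ofNat (nat_lit 37800223),Int.ofNat (nat_lit 49339049),Int.ofNat (nat_lit 66227544),Int.negSucc (nat_lit 154314),Int.negSucc (nat_lit 25649731),Int.ofNat (nat_lit 83080301),Int.negSucc (nat_lit 241015063),Int.ofNat (nat_lit 935738681)])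

/-- A row. -/
noncomputable def sp3_c1_14 : List ℕ × List ℤ :=
  ([(nat_lit 1),(nat_lit 3),(nat_lit 1),(nat_lit 0),(nat_lit 0),(nat_lit 0),(nat_lit 0),(nat_lit 0),(nat_lit 0),(nat_lit 0),(nat_lit 0),(nat_lit 0)], [Int.negSucc (nat_lit 78033538),Int.ofNat (nat_lit 59865460),Int.ofNat (nat_lit 50055579),Int.negSucc (nat_lit 51405552),Int.ofNat (nat_lit 64186279),Int.negSucc (nat_lit 66790161),Int.ofNat (nat_lit 28360476),Int.ofNat (nat_lit 64055651),Int.ofNat (nat_lit 5546232),Int.ofNat (nat_lit 40092568),Int.ofNat (nat_lit 65563876),Int.negSucc (nat_lit 43229972),Int.negSucc (nat_lit 21165471),Int.ofNat (nat_lit 56698725),Int.negSucc (nat_lit 18941156),Int.negSucc (nat_lit 4113191),Int.ofNat (nat_lit 243409346),Int.ofNat (nat_lit 47108298),Int.negSucc (nat_lit 41869759),Int.negSucc (nat_lit 6094944),Int.ofNat (nat_lit 31574935),Int.ofNat (nat_lit 5540007),Int.ofNat (nat_lit 1185363),Int.ofNat (nat_lit 16543728),Int.negSucc (nat_lit 1124407),Int.negSucc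 (nat_lit 89440277),Int.ofNat (nat_lit 6298118),Int.ofNat (nat_lit 2062537),Int.ofNat (nat_lit 30264401),Int.ofNat (nat_lit 123989862),Int.negSucc (nat_lit 49292422),Int.ofNat (nat_lit 90867592),Int.negSucc (nat_lit 37012807),Int.ofNat (nat_lit 9407971),Int.negSucc (nat_lit 32475382),Int.negSucc (nat_lit 108473929),Int.ofNat (nat_lit 37777816),Int.ofNat (nat_lit 27600312),Int.ofNat (nat_lit 44515),Int.negSucc (nat_lit 491062839),Int.ofNat (nat_lit 87207833),Int.ofNat (nat_lit 65271051),Int.negSucc (nat_lit 81480),Int.ofNat (nat_lit 15934145),Int.ofNat (nat_lit 405219099)])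

/-- A row. -/
noncomputable def sp3_c1_15 : List ℕ × List ℤ :=
  ([(nat_lit 1),(nat_lit 5),(nat_lit 0),(nat_lit 0),(nat_lit 0),(nat_lit 0),(nat_lit 0),(nat_lit 0),(nat_lit 0),(nat_lit 0),(nat_lit 0),(nat_lit 0)], [Int.negSucc (nat_lit 28210268),Int.ofNat (nat_lit 178059234),Int.negSucc (nat_lit 76969296),Int.negSucc (nat_lit 95576916),Int.ofNat (nat_lit 89126890),Int.ofNat (nat_lit 173017081),Int.negSucc (nat_lit 57988685),Int.ofNat (nat_lit 17287263),Int.negSucc (nat_lit 53414940),Int.negSucc (nat_lit 76057210),Int.negSucc (nat_lit 523550056),Int.ofNat (nat_lit 85208625),Int.negSucc (nat_lit 37770832),Int.negSucc (nat_lit 75949618),Int.ofNat (nat_lit 1983738),Int.ofNat (nat_lit 13391127),Int.ofNat (nat_lit 27738729),Int.ofNat (nat_lit 1493424),Int.negSucc (nat_lit 23236962),Int.negSucc (nat_lit 37755131),Int.ofNat (nat_lit 9915233),Int.negSucc (nat_lit 92594692),Int.negSucc (nat_lit 3675701),Int.ofNat (nat_lit 696946420),Int.negSucc (nat_lit 9932686),Int.ofNat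 (nat_lit 13065897),Int.ofNat (nat_lit 31436492),Int.negSucc (nat_lit 196390077),Int.negSucc (nat_lit 193271766),Int.ofNat (nat_lit 65254350),Int.negSucc (nat_lit 82532290),Int.negSucc (nat_lit 124550506),Int.negSucc (nat_lit 39758556),Int.negSucc (nat_lit 12616704),Int.negSucc (nat_lit 10783754),Int.ofNat (nat_lit 673657308),Int.negSucc (nat_lit 46527108),Int.ofNat (nat_lit 738048),Int.negSucc (nat_lit 7147065),Int.negSucc (nat_lit 6322724),Int.negSucc (nat_lit 5398379),Int.ofNat (nat_lit 8651660),Int.ofNat (nat_lit 88318833),Int.negSucc (nat_lit 1016294881),Int.negSucc (nat_lit 2170941),Int.ofNat (nat_lit 406670377)])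

/-- A row. -/
noncomputable def sp3_c1_16 : List ℕ × List ℤ :=
  ([(nat_lit 2),(nat_lit 0),(nat_lit 0),(nat_lit 0),(nat_lit 0),(nat_lit 0),(nat_lit 0),(nat_lit 1),(nat_lit 0),(nat_lit 0),(nat_lit 0),(nat_lit 0)], [Int.negSucc (nat_lit 10274211),Int.negSucc (nat_lit 21970799),Int.ofNat (nat_lit 2317083),Int.negSucc (nat_lit 22113163),Int.negSucc (nat_lit 353487),Int.ofNat (nat_lit 40306883),Int.negSucc (nat_lit 12181051),Int.negSucc (nat_lit 508884),Int.negSucc (nat_lit 4167132),Int.ofNat (nat_lit 8244466),Int.ofNat (nat_lit 1929996),Int.ofNat (nat_lit 3354646),Int.negSucc (nat_lit 1482836),Int.ofNat (nat_lit 8628489),Int.negSucc (nat_lit 4266181),Int.ofNat (nat_lit 4229648),Int.ofNat (nat_lit 4964534),Int.ofNat (nat_lit 2334832),Int.ofNat (nat_lit 1246109),Int.negSucc (nat_lit 28091508),Int.negSucc (nat_lit 8201463),Int.negSucc (nat_lit 3079835),Int.negSucc (nat_lit 2015351),Int.ofNat (nat_lit 839063),Int.ofNat (nat_lit 4636196),Int.ofNat (nat_lit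 2151181),Int.ofNat (nat_lit 3469663),Int.ofNat (nat_lit 714495),Int.negSucc (nat_lit 18803768),Int.negSucc (nat_lit 106327480),Int.negSucc (nat_lit 341552),Int.ofNat (nat_lit 1177934),Int.negSucc (nat_lit 39022427),Int.negSucc (nat_lit 38971620),Int.negSucc (nat_lit 8983795),Int.negSucc (nat_lit 1611728),Int.ofNat (nat_lit 5568729),Int.negSucc (nat_lit 12558436),Int.ofNat (nat_lit 2120181),Int.negSucc (nat_lit 20791926),Int.negSucc (nat_lit 837052),Int.ofNat (nat_lit 1538492),Int.negSucc (nat_lit 4920002),Int.negSucc (nat_lit 5199060),Int.ofNat (nat_lit 3882355),Int.ofNat (nat_lit 435790),Int.ofNat (nat_lit 89978067)])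

/-- A row. -/
noncomputable def sp3_c1_17 : List ℕ × List ℤ :=
  ([(nat_lit 2),(nat_lit 0),(nat_lit 0),(nat_lit 0),(nat_lit 0),(nat_lit 1),(nat_lit 0),(nat_lit 0),(nat_lit 0),(nat_lit 0),(nat_lit 0),(nat_lit 0)], [Int.ofNat (nat_lit 6118976),Int.negSucc (nat_lit 12416103),Int.negSucc (nat_lit 63239275),Int.negSucc (nat_lit 17573294),Int.ofNat (nat_lit 5735347),Int.ofNat (nat_lit 2808868),Int.negSucc (nat_lit 3905987),Int.ofNat (nat_lit 12810743),Int.negSucc (nat_lit 9275918),Int.negSucc (nat_lit 6699319),Int.ofNat (nat_lit 209460),Int.ofNat (nat_lit 4019776),Int.ofNat (nat_lit 6429034),Int.ofNat (nat_lit 3523255),Int.negSucc (nat_lit 6130249),Int.ofNat (nat_lit 4193090),Int.ofNat (nat_lit 1126790),Int.ofNat (nat_lit 2870478),Int.negSucc (nat_lit 1888877),Int.ofNat (nat_lit 4429891),Int.negSucc (nat_lit 34368532),Int.negSucc (nat_lit 2144174),Int.ofNat (nat_lit 1719993),Int.negSucc (nat_lit 56939),Int.negSucc (nat_lit 1624730),Int.negSucc (nat_lit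 1009751),Int.negSucc (nat_lit 1185589),Int.negSucc (nat_lit 103807),Int.negSucc (nat_lit 29771455),Int.negSucc (nat_lit 20796852),Int.negSucc (nat_lit 35123232),Int.negSucc (nat_lit 548051),Int.ofNat (nat_lit 2186948),Int.negSucc (nat_lit 28943462),Int.ofNat (nat_lit 724873),Int.negSucc (nat_lit 8825675),Int.ofNat (nat_lit 1781736),Int.ofNat (nat_lit 1189780),Int.negSucc (nat_lit 2438819),Int.ofNat (nat_lit 11548200),Int.negSucc (nat_lit 751187),Int.ofNat (nat_lit 2069617),Int.negSucc (nat_lit 1490731),Int.negSucc (nat_lit 624748),Int.negSucc (nat_lit 797936),Int.ofNat (nat_lit 620173),Int.negSucc (nat_lit 6091921),Int.ofNat (nat_lit 95405413)])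

/-- A row. -/
noncomputable def sp3_c1_18 : List ℕ × List ℤ :=
  ([(nat_lit 2),(nat_lit 0),(nat_lit 0),(nat_lit 1),(nat_lit 0),(nat_lit 0),(nat_lit 0),(nat_lit 0),(nat_lit 0),(nat_lit 0),(nat_lit 0),(nat_lit 0)], [Int.negSucc (nat_lit 1085784),Int.ofNat (nat_lit 40236122),Int.negSucc (nat_lit 13339942),Int.ofNat (nat_lit 56666443),Int.negSucc (nat_lit 92518452),Int.negSucc (nat_lit 32550167),Int.negSucc (nat_lit 36751311),Int.ofNat (nat_lit 1217045),Int.negSucc (nat_lit 34543260),Int.ofNat (nat_lit 2099228),Int.ofNat (nat_lit 12775241),Int.ofNat (nat_lit 7335673),Int.ofNat (nat_lit 3717419),Int.negSucc (nat_lit 558201),Int.ofNat (nat_lit 2717854),Int.negSucc (nat_lit 4344879),Int.negSucc (nat_lit 4133061),Int.negSucc (nat_lit 3053266),Int.ofNat (nat_lit 567375),Int.negSucc (nat_lit 2019850),Int.ofNat (nat_lit 9891022),Int.negSucc (nat_lit 25530096),Int.negSucc (nat_lit 9330763),Int.ofNat (nat_lit 6284474),Int.negSucc (nat_lit 7147432),Int.negSucc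 (nat_lit 443328),Int.ofNat (nat_lit 8588384),Int.negSucc (nat_lit 2468349),Int.ofNat (nat_lit 40810334),Int.ofNat (nat_lit 23235393),Int.ofNat (nat_lit 9742881),Int.negSucc (nat_lit 262070898),Int.ofNat (nat_lit 54976836),Int.negSucc (nat_lit 2801357),Int.negSucc (nat_lit 11803876),Int.negSucc (nat_lit 15588396),Int.ofNat (nat_lit 3342322),Int.negSucc (nat_lit 3421595),Int.ofNat (nat_lit 3554869),Int.ofNat (nat_lit 3604820),Int.ofNat (nat_lit 3648340),Int.negSucc (nat_lit 3242908),Int.ofNat (nat_lit 8797060),Int.ofNat (nat_lit 1951619),Int.ofNat (nat_lit 1488058),Int.ofNat (nat_lit 101078),Int.negSucc (nat_lit 15629527),Int.negSucc (nat_lit 15547622),Int.ofNat (nat_lit 121180974)])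

/-- A row. -/
noncomputable def sp3_c1_19 : List ℕ × List ℤ :=
  ([(nat_lit 2),(nat_lit 0),(nat_lit 1),(nat_lit 1),(nat_lit 0),(nat_lit 0),(nat_lit 0),(nat_lit 0),(nat_lit 0),(nat_lit 0),(nat_lit 0),(nat_lit 0)], [Int.negSucc (nat_lit 6445238),Int.negSucc (nat_lit 11761834),Int.ofNat (nat_lit 475289),Int.negSucc (nat_lit 357230),Int.negSucc (nat_lit 14915189),Int.ofNat (nat_lit 5116785),Int.negSucc (nat_lit 2708437),Int.ofNat (nat_lit 12771299),Int.ofNat (nat_lit 5919211),Int.negSucc (nat_lit 33039843),Int.ofNat (nat_lit 520015),Int.ofNat (nat_lit 1955826),Int.negSucc (nat_lit 2475975),Int.ofNat (nat_lit 662270),Int.ofNat (nat_lit 68853),Int.ofNat (nat_lit 202423),Int.ofNat (nat_lit 403055),Int.negSucc (nat_lit 95724),Int.ofNat (nat_lit 702660),Int.negSucc (nat_lit 2367434),Int.negSucc (nat_lit 439184),Int.negSucc (nat_lit 1192733),Int.negSucc (nat_lit 10229324),Int.ofNat (nat_lit 225404),Int.ofNat (nat_lit 845407),Int.ofNat (nat_lit 180324),Int.negSucc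 (nat_lit 21537),Int.ofNat (nat_lit 92615),Int.ofNat (nat_lit 11163401),Int.negSucc (nat_lit 9823143),Int.negSucc (nat_lit 1332316),Int.ofNat (nat_lit 38389),Int.negSucc (nat_lit 2846932),Int.negSucc (nat_lit 4739998),Int.negSucc (nat_lit 1561839),Int.negSucc (nat_lit 374970),Int.negSucc (nat_lit 259590),Int.negSucc (nat_lit 717076),Int.ofNat (nat_lit 1304226),Int.negSucc (nat_lit 658271),Int.ofNat (nat_lit 696742),Int.negSucc (nat_lit 357640),Int.negSucc (nat_lit 123852),Int.negSucc (nat_lit 432057),Int.negSucc (nat_lit 93533),Int.ofNat (nat_lit 43601),Int.ofNat (nat_lit 5666181),Int.negSucc (nat_lit 1676310),Int.ofNat (nat_lit 4163568),Int.ofNat (nat_lit 28456010)])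

/-- A row. -/
noncomputable def sp3_c1_20 : List ℕ × List ℤ :=
  ([(nat_lit 2),(nat_lit 1),(nat_lit 0),(nat_lit 0),(nat_lit 0),(nat_lit 0),(nat_lit 0),(nat_lit 0),(nat_lit 0),(nat_lit 0),(nat_lit 0),(nat_lit 0)], [Int.ofNat (nat_lit 29045810),Int.ofNat (nat_lit 735712),Int.ofNat (nat_lit 79020900),Int.negSucc (nat_lit 104672118),Int.ofNat (nat_lit 214235278),Int.ofNat (nat_lit 28924341),Int.ofNat (nat_lit 48035519),Int.ofNat (nat_lit 42395802),Int.ofNat (nat_lit 67115729),Int.ofNat (nat_lit 26293959),Int.negSucc (nat_lit 233764616),Int.negSucc (nat_lit 52658768),Int.ofNat (nat_lit 65241130),Int.negSucc (nat_lit 41702069),Int.negSucc (nat_lit 18752462),Int.ofNat (nat_lit 8570712),Int.ofNat (nat_lit 258215149),Int.negSucc (nat_lit 13372541),Int.ofNat (nat_lit 35398048),Int.ofNat (nat_lit 4621207),Int.negSucc (nat_lit 5077236),Int.ofNat (nat_lit 20841467),Int.ofNat (nat_lit 15641294),Int.negSucc (nat_lit 248854011),Int.ofNat (nat_lit 18867080),Int.negSucc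 (nat_lit 13936814),Int.negSucc (nat_lit 7064183),Int.ofNat (nat_lit 9727063),Int.negSucc (nat_lit 27335475),Int.ofNat (nat_lit 69719104),Int.negSucc (nat_lit 128384721),Int.ofNat (nat_lit 313626360),Int.negSucc (nat_lit 98000182),Int.ofNat (nat_lit 15367433),Int.negSucc (nat_lit 6418904),Int.negSucc (nat_lit 403479259),Int.negSucc (nat_lit 30541094),Int.ofNat (nat_lit 100680971),Int.ofNat (nat_lit 5456334),Int.negSucc (nat_lit 210447005),Int.negSucc (nat_lit 22252999),Int.ofNat (nat_lit 1111472),Int.negSucc (nat_lit 19662781),Int.negSucc (nat_lit 107897014),Int.ofNat (nat_lit 9148772),Int.ofNat (nat_lit 20616689),Int.ofNat (nat_lit 29998964),Int.negSucc (nat_lit 10107344),Int.negSucc (nat_lit 194590780),Int.ofNat (nat_lit 8175134),Int.ofNat (nat_lit 501118806)])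

/-- A row. -/
noncomputable def sp3_c1_21 : List ℕ × List ℤ :=
  ([(nat_lit 2),(nat_lit 1),(nat_lit 0),(nat_lit 0),(nat_lit 1),(nat_lit 0),(nat_lit 0),(nat_lit 0),(nat_lit 0),(nat_lit 0),(nat_lit 0),(nat_lit 0)], [Int.negSucc (nat_lit 39103249),Int.ofNat (nat_lit 39812263),Int.ofNat (nat_lit 49549461),Int.ofNat (nat_lit 6729957),Int.ofNat (nat_lit 76224157),Int.negSucc (nat_lit 92620318),Int.ofNat (nat_lit 11128058),Int.ofNat (nat_lit 45232086),Int.ofNat (nat_lit 9590305),Int.ofNat (nat_lit 28960392),Int.ofNat (nat_lit 19327883),Int.negSucc (nat_lit 13737657),Int.ofNat (nat_lit 29218549),Int.negSucc (nat_lit 248988281),Int.ofNat (nat_lit 10079421),Int.negSucc (nat_lit 585909),Int.negSucc (nat_lit 756088),Int.negSucc (nat_lit 37565116),Int.negSucc (nat_lit 35393064),Int.ofNat (nat_lit 9375394),Int.ofNat (nat_lit 7238116),Int.ofNat (nat_lit 2602502),Int.negSucc (nat_lit 4135776),Int.negSucc (nat_lit 242542),Int.negSucc (nat_lit 94922814),Int.negSucc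 (nat_lit 2996305),Int.negSucc (nat_lit 6261471),Int.negSucc (nat_lit 746132),Int.ofNat (nat_lit 22060912),Int.ofNat (nat_lit 11892771),Int.ofNat (nat_lit 9284563),Int.ofNat (nat_lit 4768751),Int.ofNat (nat_lit 27044228),Int.ofNat (nat_lit 16950496),Int.ofNat (nat_lit 3562972),Int.ofNat (nat_lit 9248541),Int.negSucc (nat_lit 12498671),Int.negSucc (nat_lit 188256845),Int.ofNat (nat_lit 34317201),Int.negSucc (nat_lit 10460884),Int.ofNat (nat_lit 20469822),Int.negSucc (nat_lit 12660129),Int.ofNat (nat_lit 8806997),Int.ofNat (nat_lit 7931270),Int.negSucc (nat_lit 10743575),Int.ofNat (nat_lit 2206934),Int.negSucc (nat_lit 71210070),Int.negSucc (nat_lit 16324622),Int.negSucc (nat_lit 4783671),Int.negSucc (nat_lit 5136881),Int.negSucc (nat_lit 5729215),Int.ofNat (nat_lit 214815993)])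

/-- A row. -/
noncomputable def sp3_c1_22 : List ℕ × List ℤ :=
  ([(nat_lit 2),(nat_lit 1),(nat_lit 1),(nat_lit 0),(nat_lit 0),(nat_lit 0),(nat_lit 0),(nat_lit 0),(nat_lit 0),(nat_lit 0),(nat_lit 0),(nat_lit 0)], [Int.ofNat (nat_lit 4255802),Int.ofNat (nat_lit 29991046),Int.negSucc (nat_lit 5531671),Int.ofNat (nat_lit 124122),Int.ofNat (nat_lit 2107085),Int.ofNat (nat_lit 5748223),Int.negSucc (nat_lit 2389776),Int.negSucc (nat_lit 25674249),Int.ofNat (nat_lit 13455992),Int.negSucc (nat_lit 13372556),Int.negSucc (nat_lit 56065658),Int.ofNat (nat_lit 17461236),Int.ofNat (nat_lit 26383960),Int.ofNat (nat_lit 106050084),Int.negSucc (nat_lit 1097483),Int.negSucc (nat_lit 3293632),Int.negSucc (nat_lit 220204322),Int.negSucc (nat_lit 37407583),Int.ofNat (nat_lit 42077184),Int.negSucc (nat_lit 7014389),Int.negSucc (nat_lit 8277446),Int.negSucc (nat_lit 5321916),Int.ofNat (nat_lit 1797582),Int.negSucc (nat_lit 4887493),Int.ofNat (nat_lit 26593093),Int.negSucc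 (nat_lit 96977171),Int.negSucc (nat_lit 5439259),Int.negSucc (nat_lit 1497358),Int.negSucc (nat_lit 11581703),Int.ofNat (nat_lit 1254791),Int.negSucc (nat_lit 9962322),Int.negSucc (nat_lit 2036873),Int.negSucc (nat_lit 20268343),Int.ofNat (nat_lit 1719934),Int.ofNat (nat_lit 7093019),Int.negSucc (nat_lit 14586521),Int.negSucc (nat_lit 8326470),Int.ofNat (nat_lit 123261319),Int.ofNat (nat_lit 36289468),Int.negSucc (nat_lit 40788249),Int.negSucc (nat_lit 202217605),Int.ofNat (nat_lit 11998254),Int.ofNat (nat_lit 11508875),Int.negSucc (nat_lit 3940875),Int.ofNat (nat_lit 16143270),Int.negSucc (nat_lit 1380212),Int.negSucc (nat_lit 14956442),Int.ofNat (nat_lit 14472660),Int.negSucc (nat_lit 10657561),Int.negSucc (nat_lit 1105929),Int.ofNat (nat_lit 10355596),Int.negSucc (nat_lit 62754728),Int.ofNat (nat_lit 212748641)])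

/-- A row. -/
noncomputable def sp3_c1_23 : List ℕ × List ℤ :=
  ([(nat_lit 2),(nat_lit 2),(nat_lit 0),(nat_lit 1),(nat_lit 0),(nat_lit 0),(nat_lit 0),(nat_lit 0),(nat_lit 0),(nat_lit 0),(nat_lit 0),(nat_lit 0)], [Int.ofNat (nat_lit 31463905),Int.negSucc (nat_lit 86409877),Int.ofNat (nat_lit 27028184),Int.negSucc (nat_lit 65339779),Int.ofNat (nat_lit 176443551),Int.ofNat (nat_lit 100238365),Int.ofNat (nat_lit 70351798),Int.negSucc (nat_lit 51456791),Int.ofNat (nat_lit 15106268),Int.negSucc (nat_lit 54988456),Int.ofNat (nat_lit 16164249),Int.negSucc (nat_lit 36397414),Int.negSucc (nat_lit 11161877),Int.ofNat (nat_lit 128398492),Int.negSucc (nat_lit 1642216),Int.ofNat (nat_lit 2819650),Int.ofNat (nat_lit 23712846),Int.ofNat (nat_lit 26108712),Int.ofNat (nat_lit 7563577),Int.ofNat (nat_lit 39078416),Int.ofNat (nat_lit 25726810),Int.negSucc (nat_lit 311225072),Int.ofNat (nat_lit 15335295),Int.negSucc (nat_lit 833406),Int.ofNat (nat_lit 8375990),Int.negSucc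 (nat_lit 3994157),Int.negSucc (nat_lit 184990758),Int.ofNat (nat_lit 5303739),Int.negSucc (nat_lit 59114328),Int.negSucc (nat_lit 49272999),Int.ofNat (nat_lit 7526778),Int.ofNat (nat_lit 263992681),Int.ofNat (nat_lit 67371270),Int.ofNat (nat_lit 8959215),Int.negSucc (nat_lit 9510969),Int.ofNat (nat_lit 25807536),Int.ofNat (nat_lit 21592346),Int.ofNat (nat_lit 85783350),Int.ofNat (nat_lit 4200161),Int.negSucc (nat_lit 7828986),Int.negSucc (nat_lit 6970137),Int.negSucc (nat_lit 2297545),Int.negSucc (nat_lit 230814353),Int.negSucc (nat_lit 22872510),Int.ofNat (nat_lit 42079693),Int.negSucc (nat_lit 2508941),Int.negSucc (nat_lit 15383958),Int.negSucc (nat_lit 29864993),Int.negSucc (nat_lit 142836636),Int.ofNat (nat_lit 25285739),Int.negSucc (nat_lit 15049598),Int.negSucc (nat_lit 37880150),Int.ofNat (nat_lit 4014388),Int.ofNat (nat_lit 315199982)])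

/-- A row. -/
noncomputable def sp3_c1_24 : List ℕ × List ℤ :=
  ([(nat_lit 2),(nat_lit 3),(nat_lit 0),(nat_lit 0),(nat_lit 0),(nat_lit 0),(nat_lit 0),(nat_lit 0),(nat_lit 0),(nat_lit 0),(nat_lit 0),(nat_lit 0)], [Int.negSucc (nat_lit 60211939),Int.ofNat (nat_lit 73642675),Int.negSucc (nat_lit 77123407),Int.ofNat (nat_lit 93041703),Int.negSucc (nat_lit 349751126),Int.negSucc (nat_lit 89745678),Int.negSucc (nat_lit 55920430),Int.negSucc (nat_lit 1693608),Int.negSucc (nat_lit 55687098),Int.ofNat (nat_lit 4584525),Int.ofNat (nat_lit 417136004),Int.ofNat (nat_lit 40459452),Int.negSucc (nat_lit 19169345),Int.negSucc (nat_lit 66775087),Int.ofNat (nat_lit 39727733),Int.negSucc (nat_lit 736261),Int.negSucc (nat_lit 291972728),Int.negSucc (nat_lit 45223157),Int.ofNat (nat_lit 21121731),Int.negSucc (nat_lit 39700300),Int.negSucc (nat_lit 1486086),Int.ofNat (nat_lit 255279807),Int.negSucc (nat_lit 14533164),Int.negSucc (nat_lit 111055423),Int.negSucc (nat_lit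 31697343),Int.ofNat (nat_lit 113924267),Int.ofNat (nat_lit 119059414),Int.negSucc (nat_lit 367422200),Int.ofNat (nat_lit 29913038),Int.negSucc (nat_lit 79562924),Int.ofNat (nat_lit 123275675),Int.negSucc (nat_lit 336543131),Int.ofNat (nat_lit 16784178),Int.negSucc (nat_lit 23920369),Int.ofNat (nat_lit 28914388),Int.ofNat (nat_lit 438043194),Int.ofNat (nat_lit 4030229),Int.negSucc (nat_lit 69642623),Int.negSucc (nat_lit 12103753),Int.ofNat (nat_lit 251691623),Int.ofNat (nat_lit 18279108),Int.negSucc (nat_lit 93717433),Int.ofNat (nat_lit 220527268),Int.ofNat (nat_lit 36416341),Int.negSucc (nat_lit 309997796),Int.negSucc (nat_lit 74384429),Int.negSucc (nat_lit 7504114),Int.ofNat (nat_lit 61281692),Int.ofNat (nat_lit 218980705),Int.negSucc (nat_lit 25539506),Int.negSucc (nat_lit 595745517),Int.ofNat (nat_lit 37971421),Int.negSucc (nat_lit 28921356),Int.negSucc (nat_lit 224008623),Int.ofNat (nat_lit 570026680)])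

/-- A row. -/
noncomputable def sp3_c1_25 : List ℕ × List ℤ :=
  ([(nat_lit 3),(nat_lit 0),(nat_lit 0),(nat_lit 0),(nat_lit 0),(nat_lit 1),(nat_lit 0),(nat_lit 0),(nat_lit 0),(nat_lit 0),(nat_lit 0),(nat_lit 0)], [Int.ofNat (nat_lit 8554902),Int.ofNat (nat_lit 25078219),Int.ofNat (nat_lit 122286559),Int.ofNat (nat_lit 66816517),Int.negSucc (nat_lit 13396572),Int.negSucc (nat_lit 7110957),Int.ofNat (nat_lit 16087624),Int.negSucc (nat_lit 10936200),Int.ofNat (nat_lit 502777),Int.ofNat (nat_lit 2577427),Int.negSucc (nat_lit 204474),Int.ofNat (nat_lit 4310492),Int.negSucc (nat_lit 16917044),Int.ofNat (nat_lit 10943260),Int.ofNat (nat_lit 411188),Int.ofNat (nat_lit 28516),Int.negSucc (nat_lit 8080234),Int.ofNat (nat_lit 1204093),Int.ofNat (nat_lit 4094215),Int.ofNat (nat_lit 4608527),Int.ofNat (nat_lit 24983975),Int.ofNat (nat_lit 13718497),Int.negSucc (nat_lit 231355),Int.negSucc (nat_lit 2529463),Int.ofNat (nat_lit 1130316),Int.negSucc (nat_lit 6601469),Int.ofNat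 (nat_lit 6520162),Int.negSucc (nat_lit 1441204),Int.negSucc (nat_lit 21368906),Int.ofNat (nat_lit 33050154),Int.negSucc (nat_lit 90402177),Int.ofNat (nat_lit 5923706),Int.negSucc (nat_lit 8092165),Int.negSucc (nat_lit 6159279),Int.ofNat (nat_lit 4665154),Int.ofNat (nat_lit 6476156),Int.negSucc (nat_lit 1313111),Int.negSucc (nat_lit 155587),Int.negSucc (nat_lit 1128829),Int.negSucc (nat_lit 1526104),Int.negSucc (nat_lit 4543712),Int.negSucc (nat_lit 32791887),Int.negSucc (nat_lit 1763488),Int.ofNat (nat_lit 3469636),Int.negSucc (nat_lit 10709050),Int.ofNat (nat_lit 1265499),Int.negSucc (nat_lit 20743309),Int.negSucc (nat_lit 89114479),Int.negSucc (nat_lit 1726420),Int.ofNat (nat_lit 901498),Int.negSucc (nat_lit 3862629),Int.negSucc (nat_lit 7967902),Int.ofNat (nat_lit 13609582),Int.negSucc (nat_lit 15601317),Int.ofNat (nat_lit 285053),Int.ofNat (nat_lit 76007126)])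

/-- A row. -/
noncomputable def sp3_c1_26 : List ℕ × List ℤ :=
  ([(nat_lit 3),(nat_lit 0),(nat_lit 0),(nat_lit 1),(nat_lit 0),(nat_lit 0),(nat_lit 0),(nat_lit 0),(nat_lit 0),(nat_lit 0),(nat_lit 0),(nat_lit 0)], [Int.negSucc (nat_lit 1722351),Int.ofNat (nat_lit 21624548),Int.negSucc (nat_lit 18489469),Int.negSucc (nat_lit 27400081),Int.ofNat (nat_lit 110659842),Int.ofNat (nat_lit 21581796),Int.ofNat (nat_lit 27139563),Int.negSucc (nat_lit 46006431),Int.negSucc (nat_lit 3678596),Int.ofNat (nat_lit 21022148),Int.ofNat (nat_lit 7052573),Int.ofNat (nat_lit 11600347),Int.ofNat (nat_lit 3000250),Int.negSucc (nat_lit 1386455),Int.negSucc (nat_lit 6884093),Int.negSucc (nat_lit 2638046),Int.negSucc (nat_lit 744984),Int.negSucc (nat_lit 9921683),Int.negSucc (nat_lit 5682320),Int.negSucc (nat_lit 1427559),Int.negSucc (nat_lit 1985667),Int.ofNat (nat_lit 6222078),Int.ofNat (nat_lit 16081815),Int.ofNat (nat_lit 756343),Int.ofNat (nat_lit 658299),Int.negSucc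 (nat_lit 2968605),Int.negSucc (nat_lit 1436140),Int.negSucc (nat_lit 204392),Int.negSucc (nat_lit 8025299),Int.ofNat (nat_lit 37900305),Int.ofNat (nat_lit 18423734),Int.negSucc (nat_lit 159884548),Int.negSucc (nat_lit 46489228),Int.negSucc (nat_lit 7637827),Int.ofNat (nat_lit 9535289),Int.ofNat (nat_lit 899199),Int.ofNat (nat_lit 4847229),Int.negSucc (nat_lit 3248573),Int.negSucc (nat_lit 1417959),Int.negSucc (nat_lit 4309137),Int.ofNat (nat_lit 61414),Int.ofNat (nat_lit 7562066),Int.negSucc (nat_lit 44847118),Int.negSucc (nat_lit 1834833),Int.ofNat (nat_lit 1637985),Int.ofNat (nat_lit 270982),Int.ofNat (nat_lit 13289538),Int.ofNat (nat_lit 18400306),Int.negSucc (nat_lit 33461338),Int.negSucc (nat_lit 43889874),Int.negSucc (nat_lit 3201672),Int.ofNat (nat_lit 4885190),Int.ofNat (nat_lit 6292372),Int.ofNat (nat_lit 5395389),Int.negSucc (nat_lit 1763657),Int.negSucc (nat_lit 11183447),Int.ofNat (nat_lit 92114367)])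

/-- A row. -/
noncomputable def sp3_c1_27 : List ℕ × List ℤ :=
  ([(nat_lit 3),(nat_lit 1),(nat_lit 0),(nat_lit 0),(nat_lit 0),(nat_lit 0),(nat_lit 0),(nat_lit 0),(nat_lit 0),(nat_lit 0),(nat_lit 0),(nat_lit 0)], [Int.ofNat (nat_lit 69969471),Int.negSucc (nat_lit 160905625),Int.ofNat (nat_lit 145104706),Int.ofNat (nat_lit 33502239),Int.negSucc (nat_lit 150049670),Int.negSucc (nat_lit 117456256),Int.negSucc (nat_lit 24551856),Int.ofNat (nat_lit 30183729),Int.negSucc (nat_lit 75843842),Int.ofNat (nat_lit 64145375),Int.ofNat (nat_lit 590783862),Int.negSucc (nat_lit 192985873),Int.negSucc (nat_lit 31563612),Int.ofNat (nat_lit 32760717),Int.ofNat (nat_lit 22955600),Int.ofNat (nat_lit 16785685),Int.negSucc (nat_lit 11706598),Int.ofNat (nat_lit 7452004),Int.negSucc (nat_lit 26302469),Int.ofNat (nat_lit 18455562),Int.ofNat (nat_lit 5310323),Int.ofNat (nat_lit 113113657),Int.negSucc (nat_lit 22933856),Int.ofNat (nat_lit 329277835),Int.negSucc (nat_lit 18233602),Int.ofNat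 (nat_lit 70228135),Int.negSucc (nat_lit 14450849),Int.negSucc (nat_lit 30867806),Int.ofNat (nat_lit 35288523),Int.negSucc (nat_lit 94070427),Int.ofNat (nat_lit 203359612),Int.ofNat (nat_lit 303270687),Int.ofNat (nat_lit 49954028),Int.negSucc (nat_lit 68553806),Int.ofNat (nat_lit 5818459),Int.negSucc (nat_lit 361956907),Int.ofNat (nat_lit 33963890),Int.negSucc (nat_lit 129580946),Int.negSucc (nat_lit 5764985),Int.ofNat (nat_lit 28608373),Int.ofNat (nat_lit 109670753),Int.negSucc (nat_lit 9159379),Int.ofNat (nat_lit 49963555),Int.negSucc (nat_lit 15460717),Int.negSucc (nat_lit 51990681),Int.negSucc (nat_lit 49016593),Int.ofNat (nat_lit 35779090),Int.negSucc (nat_lit 22457424),Int.ofNat (nat_lit 126862789),Int.ofNat (nat_lit 33525066),Int.negSucc (nat_lit 802082025),Int.ofNat (nat_lit 59934991),Int.negSucc (nat_lit 124788355),Int.negSucc (nat_lit 9566706),Int.ofNat (nat_lit 48773764),Int.negSucc (nat_lit 5371947),Int.negSucc (nat_lit 98547597),Int.ofNat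 (nat_lit 264198922)])

/-- A row. -/
noncomputable def sp3_c1_28 : List ℕ × List ℤ :=
  ([(nat_lit 3),(nat_lit 1),(nat_lit 1),(nat_lit 0),(nat_lit 0),(nat_lit 0),(nat_lit 0),(nat_lit 0),(nat_lit 0),(nat_lit 0),(nat_lit 0),(nat_lit 0)], [Int.negSucc (nat_lit 39802644),Int.ofNat (nat_lit 66088529),Int.ofNat (nat_lit 51144364),Int.negSucc (nat_lit 42388552),Int.ofNat (nat_lit 44950363),Int.negSucc (nat_lit 68927701),Int.ofNat (nat_lit 35125857),Int.ofNat (nat_lit 32724798),Int.ofNat (nat_lit 1851048),Int.ofNat (nat_lit 15063897),Int.ofNat (nat_lit 69527322),Int.negSucc (nat_lit 21932744),Int.negSucc (nat_lit 8548238),Int.ofNat (nat_lit 51513388),Int.ofNat (nat_lit 745852),Int.ofNat (nat_lit 9044980),Int.ofNat (nat_lit 249604422),Int.ofNat (nat_lit 33756503),Int.negSucc (nat_lit 33104999),Int.ofNat (nat_lit 18017099),Int.ofNat (nat_lit 3949258),Int.ofNat (nat_lit 9727185),Int.ofNat (nat_lit 1329205),Int.ofNat (nat_lit 25809072),Int.negSucc (nat_lit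 10267469),Int.ofNat (nat_lit 53382017),Int.negSucc (nat_lit 9630760),Int.negSucc (nat_lit 532163),Int.ofNat (nat_lit 9197670),Int.ofNat (nat_lit 110356685),Int.negSucc (nat_lit 85012455),Int.ofNat (nat_lit 83292547),Int.ofNat (nat_lit 3881966),Int.ofNat (nat_lit 20414630),Int.negSucc (nat_lit 13118015),Int.negSucc (nat_lit 118951171),Int.ofNat (nat_lit 55311827),Int.ofNat (nat_lit 36702502),Int.negSucc (nat_lit 6757690),Int.negSucc (nat_lit 467906290),Int.ofNat (nat_lit 75723567),Int.negSucc (nat_lit 31458162),Int.negSucc (nat_lit 12316278),Int.negSucc (nat_lit 15069252),Int.negSucc (nat_lit 147503231),Int.negSucc (nat_lit 12532326),Int.negSucc (nat_lit 26662630),Int.ofNat (nat_lit 10834819),Int.negSucc (nat_lit 7323459),Int.ofNat (nat_lit 8513704),Int.negSucc (nat_lit 17992839),Int.ofNat (nat_lit 17376398),Int.negSucc (nat_lit 150578067),Int.ofNat (nat_lit 15409363),Int.ofNat (nat_lit 3953426),Int.ofNat (nat_lit 80998012),Int.ofNat (nat_lit 6105742),Int.ofNat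 (nat_lit 53207502),Int.ofNat (nat_lit 195549526)])

/-- A row. -/
noncomputable def sp3_c1_29 : List ℕ × List ℤ :=
  ([(nat_lit 3),(nat_lit 3),(nat_lit 0),(nat_lit 0),(nat_lit 0),(nat_lit 0),(nat_lit 0),(nat_lit 0),(nat_lit 0),(nat_lit 0),(nat_lit 0),(nat_lit 0)], [Int.negSucc (nat_lit 121923246),Int.ofNat (nat_lit 289334243),Int.negSucc (nat_lit 111699881),Int.negSucc (nat_lit 71721681),Int.ofNat (nat_lit 141968097),Int.ofNat (nat_lit 174936847),Int.negSucc (nat_lit 9325743),Int.ofNat (nat_lit 23974935),Int.ofNat (nat_lit 56786462),Int.negSucc (nat_lit 87929046),Int.negSucc (nat_lit 905025668),Int.ofNat (nat_lit 183215395),Int.negSucc (nat_lit 8611079),Int.negSucc (nat_lit 195966304),Int.negSucc (nat_lit 19162822),Int.negSucc (nat_lit 15283699),Int.ofNat (nat_lit 187362993),Int.ofNat (nat_lit 34715812),Int.negSucc (nat_lit 56856185),Int.negSucc (nat_lit 43949680),Int.ofNat (nat_lit 7058129),Int.negSucc (nat_lit 177841898),Int.ofNat (nat_lit 827583),Int.ofNat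 (nat_lit 313760701),Int.negSucc (nat_lit 9650051),Int.negSucc (nat_lit 62626899),Int.negSucc (nat_lit 19646358),Int.ofNat (nat_lit 410659229),Int.negSucc (nat_lit 119604541),Int.ofNat (nat_lit 112453117),Int.negSucc (nat_lit 273820256),Int.negSucc (nat_lit 223199941),Int.negSucc (nat_lit 17197815),Int.ofNat (nat_lit 82518076),Int.negSucc (nat_lit 25738133),Int.ofNat (nat_lit 725057265),Int.negSucc (nat_lit 42789350),Int.ofNat (nat_lit 20296200),Int.negSucc (nat_lit 9307305),Int.negSucc (nat_lit 23624630),Int.negSucc (nat_lit 68729641),Int.ofNat (nat_lit 99359760),Int.ofNat (nat_lit 6554020),Int.negSucc (nat_lit 1016388360),Int.ofNat (nat_lit 67180246),Int.negSucc (nat_lit 384156031),Int.negSucc (nat_lit 60172901),Int.negSucc (nat_lit 48258344),Int.negSucc (nat_lit 116457082),Int.negSucc (nat_lit 11138747),Int.ofNat (nat_lit 891886592),Int.ofNat (nat_lit 20522301),Int.ofNat (nat_lit 24555822),Int.ofNat (nat_lit 81436578),Int.negSucc (nat_lit 719678898),Int.ofNat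 (nat_lit 301158),Int.ofNat (nat_lit 36012011),Int.negSucc (nat_lit 212608802),Int.ofNat (nat_lit 53055508),Int.ofNat (nat_lit 500053151)])

/-- A part of a triangular factor. -/
noncomputable def sp3_c1 : Rows :=
  [sp3_c1_0,
   sp3_c1_1,
   sp3_c1_2,
   sp3_c1_3,
   sp3_c1_4,
   sp3_c1_5,
   sp3_c1_6,
   sp3_c1_7,
   sp3_c1_8,
   sp3_c1_9,
   sp3_c1_10,
   sp3_c1_11,
   sp3_c1_12,
   sp3_c1_13,
   sp3_c1_14,
   sp3_c1_15,
   sp3_c1_16,
   sp3_c1_17,
   sp3_c1_18,
   sp3_c1_19,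
   sp3_c1_20,
   sp3_c1_21,
   sp3_c1_22,
   sp3_c1_23,
   sp3_c1_24,
   sp3_c1_25,
   sp3_c1_26,
   sp3_c1_27,
   sp3_c1_28,
   sp3_c1_29]

/-- A row. -/
noncomputable def sp3_c2_0 : List ℕ × List ℤ :=
  ([(nat_lit 4),(nat_lit 0),(nat_lit 0),(nat_lit 1),(nat_lit 0),(nat_lit 0),(nat_lit 0),(nat_lit 0),(nat_lit 0),(nat_lit 0),(nat_lit 0),(nat_lit 0)], [Int.negSucc (nat_lit 8541570),Int.negSucc (nat_lit 31948652),Int.ofNat (nat_lit 5477745),Int.negSucc (nat_lit 19492902),Int.ofNat (nat_lit 21282855),Int.ofNat (nat_lit 31023362),Int.ofNat (nat_lit 20932859),Int.ofNat (nat_lit 17314562),Int.ofNat (nat_lit 20752001),Int.negSucc (nat_lit 2419836),Int.negSucc (nat_lit 13910000),Int.negSucc (nat_lit 2242602),Int.negSucc (nat_lit 1419683),Int.ofNat (nat_lit 7677085),Int.ofNat (nat_lit 4853363),Int.ofNat (nat_lit 73875),Int.ofNat (nat_lit 5010657),Int.ofNat (nat_lit 10651464),Int.ofNat (nat_lit 2320876),Int.negSucc (nat_lit 3319002),Int.negSucc (nat_lit 3934330),Int.ofNat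 (nat_lit 30832824),Int.ofNat (nat_lit 2983206),Int.negSucc (nat_lit 5417913),Int.ofNat (nat_lit 3587640),Int.ofNat (nat_lit 421412),Int.ofNat (nat_lit 4741433),Int.ofNat (nat_lit 639610),Int.negSucc (nat_lit 11209017),Int.negSucc (nat_lit 47711857),Int.negSucc (nat_lit 23319079),Int.ofNat (nat_lit 248141870),Int.ofNat (nat_lit 75569109),Int.ofNat (nat_lit 25062988),Int.negSucc (nat_lit 34510269),Int.ofNat (nat_lit 17607092),Int.negSucc (nat_lit 3703863),Int.ofNat (nat_lit 3385910),Int.negSucc (nat_lit 4836660),Int.negSucc (nat_lit 9534754),Int.negSucc (nat_lit 4549471),Int.negSucc (nat_lit 1765971),Int.ofNat (nat_lit 33414261),Int.negSucc (nat_lit 1373086),Int.negSucc (nat_lit 8645828),Int.negSucc (nat_lit 682671),Int.ofNat (nat_lit 29860024),Int.ofNat (nat_lit 670187),Int.negSucc (nat_lit 108432296),Int.ofNat (nat_lit 3269812),Int.ofNat (nat_lit 4713523),Int.negSucc (nat_lit 5253611),Int.negSucc (nat_lit 3271783),Int.negSucc (nat_lit 19453194),Int.ofNat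 (nat_lit 1552524),Int.ofNat (nat_lit 10396422),Int.negSucc (nat_lit 92707323),Int.negSucc (nat_lit 1541244),Int.ofNat (nat_lit 13622322),Int.negSucc (nat_lit 1405085),Int.ofNat (nat_lit 42347138)])

/-- A row. -/
noncomputable def sp3_c2_1 : List ℕ × List ℤ :=
  ([(nat_lit 4),(nat_lit 1),(nat_lit 0),(nat_lit 0),(nat_lit 0),(nat_lit 0),(nat_lit 0),(nat_lit 0),(nat_lit 0),(nat_lit 0),(nat_lit 0),(nat_lit 0)], [Int.negSucc (nat_lit 8116670),Int.negSucc (nat_lit 62753269),Int.negSucc (nat_lit 90156888),Int.ofNat (nat_lit 49355349),Int.negSucc (nat_lit 112582922),Int.negSucc (nat_lit 16263185),Int.negSucc (nat_lit 36340727),Int.negSucc (nat_lit 42092973),Int.negSucc (nat_lit 46343898),Int.negSucc (nat_lit 20881226),Int.ofNat (nat_lit 138318845),Int.ofNat (nat_lit 20755380),Int.negSucc (nat_lit 15741869),Int.ofNat (nat_lit 23389983),Int.negSucc (nat_lit 8502892),Int.negSucc (nat_lit 2265913),Int.negSucc (nat_lit 282343894),Int.negSucc (nat_lit 40512787),Int.ofNat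 (nat_lit 38434300),Int.negSucc (nat_lit 6547564),Int.negSucc (nat_lit 13916090),Int.negSucc (nat_lit 31364236),Int.negSucc (nat_lit 7417393),Int.ofNat (nat_lit 276470675),Int.ofNat (nat_lit 4901203),Int.negSucc (nat_lit 56760744),Int.ofNat (nat_lit 3785149),Int.ofNat (nat_lit 83365207),Int.ofNat (nat_lit 14261510),Int.negSucc (nat_lit 63013587),Int.ofNat (nat_lit 145410795),Int.negSucc (nat_lit 310962896),Int.negSucc (nat_lit 50443876),Int.negSucc (nat_lit 51893242),Int.ofNat (nat_lit 28856684),Int.ofNat (nat_lit 462084794),Int.negSucc (nat_lit 20427341),Int.ofNat (nat_lit 42138878),Int.ofNat (nat_lit 16895973),Int.ofNat (nat_lit 221244851),Int.negSucc (nat_lit 42173771),Int.ofNat (nat_lit 35664739),Int.negSucc (nat_lit 5391675),Int.ofNat (nat_lit 172560558),Int.ofNat (nat_lit 106410134),Int.ofNat (nat_lit 7191080),Int.negSucc (nat_lit 12591607),Int.ofNat (nat_lit 77998963),Int.ofNat (nat_lit 200220144),Int.negSucc (nat_lit 18836523),Int.negSucc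 (nat_lit 544379879),Int.negSucc (nat_lit 29331921),Int.ofNat (nat_lit 167320104),Int.ofNat (nat_lit 4744356),Int.negSucc (nat_lit 208107767),Int.negSucc (nat_lit 77522024),Int.ofNat (nat_lit 79205524),Int.negSucc (nat_lit 144538458),Int.negSucc (nat_lit 135119500),Int.negSucc (nat_lit 5500233),Int.negSucc (nat_lit 43627274),Int.ofNat (nat_lit 236035365)])

/-- A row. -/
noncomputable def sp3_c2_2 : List ℕ × List ℤ :=
  ([(nat_lit 5),(nat_lit 1),(nat_lit 0),(nat_lit 0),(nat_lit 0),(nat_lit 0),(nat_lit 0),(nat_lit 0),(nat_lit 0),(nat_lit 0),(nat_lit 0),(nat_lit 0)], [Int.negSucc (nat_lit 62680799),Int.ofNat (nat_lit 72587162),Int.negSucc (nat_lit 37257105),Int.ofNat (nat_lit 28957213),Int.ofNat (nat_lit 48091196),Int.ofNat (nat_lit 30674330),Int.ofNat (nat_lit 23943360),Int.ofNat (nat_lit 19333223),Int.ofNat (nat_lit 62559423),Int.negSucc (nat_lit 34589321),Int.negSucc (nat_lit 386926114),Int.ofNat (nat_lit 115633218),Int.ofNat (nat_lit 9226336),Int.negSucc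 (nat_lit 118162183),Int.negSucc (nat_lit 4375309),Int.negSucc (nat_lit 9629789),Int.ofNat (nat_lit 167655127),Int.ofNat (nat_lit 14265890),Int.negSucc (nat_lit 12690221),Int.negSucc (nat_lit 6053797),Int.ofNat (nat_lit 13013915),Int.negSucc (nat_lit 76274933),Int.ofNat (nat_lit 10935781),Int.negSucc (nat_lit 393941737),Int.negSucc (nat_lit 30285927),Int.ofNat (nat_lit 26346946),Int.ofNat (nat_lit 18494904),Int.negSucc (nat_lit 65699538),Int.negSucc (nat_lit 20087541),Int.ofNat (nat_lit 51981533),Int.negSucc (nat_lit 194087610),Int.negSucc (nat_lit 89093205),Int.ofNat (nat_lit 13771148),Int.ofNat (nat_lit 64584334),Int.negSucc (nat_lit 15275023),Int.ofNat (nat_lit 63383113),Int.negSucc (nat_lit 3719868),Int.negSucc (nat_lit 25218973),Int.negSucc (nat_lit 3584741),Int.ofNat (nat_lit 3896460),Int.ofNat (nat_lit 17025238),Int.negSucc (nat_lit 36246757),Int.negSucc (nat_lit 25235889),Int.ofNat (nat_lit 2723776),Int.ofNat (nat_lit 26542600),Int.ofNat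 (nat_lit 88327945),Int.negSucc (nat_lit 55095352),Int.negSucc (nat_lit 59829404),Int.negSucc (nat_lit 107072227),Int.negSucc (nat_lit 11477701),Int.ofNat (nat_lit 886960398),Int.ofNat (nat_lit 51642517),Int.negSucc (nat_lit 94541096),Int.negSucc (nat_lit 9206770),Int.ofNat (nat_lit 172350693),Int.ofNat (nat_lit 76778715),Int.ofNat (nat_lit 20308302),Int.negSucc (nat_lit 230009827),Int.negSucc (nat_lit 10247422),Int.negSucc (nat_lit 71916046),Int.ofNat (nat_lit 23877206),Int.negSucc (nat_lit 266379014),Int.ofNat (nat_lit 104046450)])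

/-- A part of a triangular factor. -/
noncomputable def sp3_c2 : Rows :=
  [sp3_c2_0,
   sp3_c2_1,
   sp3_c2_2]

/-- A triangular factor. -/
noncomputable def sp3_rows : List Rows :=
  [sp3_c0, sp3_c1, sp3_c2]

end Vale.Agent.P142K.CertB
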