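import Vale.Agent.P142K.CertB.Sp4Rows
import Vale.Agent.P142K.Fast

/-!
# An expanded part of the certificate

Generated from a semidefinite program; only the checker is trusted.
-/

namespace Vale.Agent.P142K.CertB

open Vale.Agent.P142J (MP)

/-- A coefficient. -/
noncomputable def sp4_m0_0_0 : MP 10 :=
  []

/-- A coefficient. -/
noncomputable def sp4_m0_0_1 : MP 10 :=
  []

/-- A coefficient. -/
noncomputable def sp4_m0_0_2 : MP 10 :=
  [[[[[[[[[[Int.ofNat (nat_lit 28905653116423876)]],[],[[Int.negSucc (nat_lit 115622612465695503)]]],[],[[[Int.negSucc (nat_lit 115622612465695503)]]]],[],[[[[Int.negSucc (nat_lit 86716959349271627)]]]]],[],[[[[[Int.negSucc (nat_lit 86716959349271627)]]]]]],[],[[[[[[Int.negSucc (nat_lit 57811306232847751)]]]]]]],[],[[[[[[[Int.negSucc (nat_lit 57811306232847751)]]]]]]]],[],[[[[[[[[Int.negSucc (nat_lit 28905653116423875)]]]]]]]]],[],[[[[[[[[[Int.negSucc (nat_lit 28905653116423875)]]]]]]]]]]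

/-- An expanded part. -/
noncomputable def sp4_m0 : R12 :=
  [[sp4_m0_0_0, sp4_m0_0_1, sp4_m0_0_2]]

set_option maxRecDepth 100000 in
theorem sp4_check0 : partOk 3 sp4_rows 0 sp4_m0 = true :=
  Fast.partOk_of_fast (by decide +kernel)

end Vale.Agent.P142K.CertB
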