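import Vale.Agent.P142K.CertB.Sp5Rows
import Vale.Agent.P142K.Fast

/-!
# An expanded part of the certificate

Generated from a semidefinite program; only the checker is trusted.
-/

namespace Vale.Agent.P142K.CertB

open Vale.Agent.P142J (MP)

/-- A coefficient. -/
noncomputable def sp5_m0_0_0 : MP 10 :=
  [[[[[[[[[],[],[[Int.ofNat (nat_lit 2809704202129449)]]]],[[[],[[Int.ofNat (nat_lit 396302470176924)]]]],[[[[Int.ofNat (nat_lit 4697811846452245)]]]]]],[[[[[],[[Int.ofNat (nat_lit 9064135953000)]]]],[[[[Int.ofNat (nat_lit 668797986901166)]]]]]],[[[[[[Int.ofNat (nat_lit 2595649599170410)]]]]]]]],[[[[[[[],[[Int.negSucc (nat_lit 2843145086071931)]]]],[[[[Int.negSucc (nat_lit 1347305117650671)]]]]]],[[[[[[Int.negSucc (nat_lit 471363179578899)]]]]]]],[[[[[[],[[Int.ofNat (nat_lit 2006669303652420)]]]],[[[[Int.negSucc (nat_lit 881421389271515)]]]]]],[[[[[[Int.negSucc (nat_lit 674877070419245)]]]]]]]],[[[[[[[[Int.ofNat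 (nat_lit 6757686631842440)]]]]]]],[[[[[[[Int.negSucc (nat_lit 4564255803814235)]]]]]]],[[[[[[[Int.ofNat (nat_lit 2737708781774162)]]]]]]]]],[[[[],[[[[[],[[Int.ofNat (nat_lit 3203814158531964)]]]],[[[[Int.ofNat (nat_lit 1495137801145228)]]]]]],[[[[[[Int.negSucc (nat_lit 417297660658021)]]]]]]]],[[[[[[[],[[Int.negSucc (nat_lit 1686900899024189)]]]],[[[[Int.ofNat (nat_lit 1571558341409364)]]]]]],[[[[[[Int.negSucc (nat_lit 749080617458039)]]]]]]],[[],[[[[[[Int.negSucc (nat_lit 361706289274795)]]]]]]]],[[[[[[[[Int.ofNat (nat_lit 4099645267409508)]]]]]]],[[[[[[[Int.negSucc (nat_lit 3486198141615753)]]]]]]]]],[[[[],[],[[[[[[Int.ofNat (nat_lit 2334573556029719)]]]]]]]],[[[],[[[[[[Int.negSucc (nat_lit 1209004169787447)]]]]]]]],[[[[[[[[Int.ofNat (nat_lit 1988075658694680)]]]]]]]]]]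

/-- A coefficient. -/
noncomputable def sp5_m0_0_1 : MP 10 :=
  [[[[[[[[[],[[Int.ofNat (nat_lit 2018628980485938)]]]],[[[[Int.ofNat (nat_lit 2663219781032672)]]]]],[[[[],[[Int.negSucc (nat_lit 13942612730807027)]]]],[[[[Int.ofNat (nat_lit 210131478257272)]]]]]],[[[[[[Int.ofNat (nat_lit 2063226867460730)]]]]],[[[[[Int.ofNat (nat_lit 4539189886645480)]]]]]]],[[[[[[],[[Int.negSucc (nat_lit 3564750172446143)]]]],[[[[Int.negSucc (nat_lit 2684863835110707)]]]]]],[[[[[[Int.negSucc (nat_lit 496833619016691)]]]]]]]],[[[[[[[[Int.negSucc (nat_lit 18628789587123527)]]]]],[[[[[Int.ofNat (nat_lit 6002446443568992)]]]]]]],[[[[[[[Int.ofNat (nat_lit 11779884948026700)]]]]],[[[[[Int.negSucc (nat_lit 7801637431995383)]]]]]]],[[[[[[[Int.negSucc (nat_lit 7202506210374789)]]]]]]]],[[[[[[[],[[Int.ofNat (nat_lit 25323605653392)]]]],[[[[Int.negSucc (nat_lit 60306750449395)]]]]]],[[[[[[Int.negSucc (nat_lit 161687389405885)]]]]]]]],[[[[[[[[Int.ofNat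 (nat_lit 256011406385644)]]]]]]],[[[[[[[Int.negSucc (nat_lit 35186029752815)]]]]]]]]],[[[[[[[[],[[Int.ofNat (nat_lit 361921619434122)]]]],[[[[Int.negSucc (nat_lit 4468373112944439)]]]]]],[[[[[[Int.negSucc (nat_lit 87002789666019)]]]]],[[[[[Int.negSucc (nat_lit 4035837170762825)]]]]]]],[[],[[[[[[Int.negSucc (nat_lit 607049820845743)]]]]]]]],[[[[[[[[Int.negSucc (nat_lit 12810612253433597)]]]]],[[[[[Int.ofNat (nat_lit 4375516162730816)]]]]]]],[[[[[[[Int.ofNat (nat_lit 10404469356816742)]]]]]]]],[[[],[[[[[[Int.negSucc (nat_lit 256781580931895)]]]]]]]],[[[[[[[[Int.ofNat (nat_lit 164884329033364)]]]]]]]]],[[[[[[[[],[[Int.negSucc (nat_lit 417249635357663)]]]],[[[[Int.negSucc (nat_lit 34992581475143)]]]]]],[[[[[[Int.negSucc (nat_lit 2284479675882357)]]]]]]]],[[[[[[[[Int.negSucc (nat_lit 5236259009586785)]]]]]]],[[[[[[[Int.ofNat (nat_lit 398702237451052)]]]]]]]]],[[[[],[[[[[[Int.negSucc (nat_lit 160027528146679)]]]]]]]],[[[[[[[[Int.negSucc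 (nat_lit 291420740117619)]]]]]]]]]]

/-- A coefficient. -/
noncomputable def sp5_m0_0_2 : MP 10 :=
  [[[[[[[[[[Int.ofNat (nat_lit 21275554756792188)]],[],[[Int.negSucc (nat_lit 2809704202129448)]]]],[[[],[[Int.negSucc (nat_lit 396302470176923)]]]],[[[[Int.negSucc (nat_lit 4697811846452244)]]]]],[[[[[Int.negSucc (nat_lit 8218825807816077)]]]]],[[[[[Int.ofNat (nat_lit 67124115112540292)]]]]]],[[[[[],[[Int.negSucc (nat_lit 5539465799538731)]]]],[[[[Int.negSucc (nat_lit 5112226151679141)]]]]]],[[[[[[Int.negSucc (nat_lit 13694897688961745)]]]]]]],[[[[[[[Int.negSucc (nat_lit 11791849803542759)]]]]],[[[[[Int.ofNat (nat_lit 7092488771568328)]]]]]]],[[[[[[[Int.ofNat (nat_lit 42813442829791698)]]]]]]]],[[[[[[[],[[Int.ofNat (nat_lit 6482270469510666)]]]],[[[[Int.ofNat (nat_lit 7756045482443106)]]]]]],[[[[[[Int.ofNat (nat_lit 7797161973250868)]]]]]]],[[[[[[],[[Int.negSucc (nat_lit 2006669303652419)]]]],[[[[Int.ofNat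 (nat_lit 881421389271516)]]]]]],[[[[[[Int.ofNat (nat_lit 740271674808948)]]]]]]]],[[[[[[[[Int.negSucc (nat_lit 28844581873781031)]]]]],[[[[[Int.negSucc (nat_lit 6277237380269931)]]]]]]],[[[[[[[Int.ofNat (nat_lit 5700262106867688)]]]]]]],[[[[[[[Int.negSucc (nat_lit 2737708781774161)]]]]]]]],[],[[[[[[[[Int.ofNat (nat_lit 883723399352797)]]]]]]]]],[[[[[[[[[Int.ofNat (nat_lit 24414373578419272)]]]]],[[[[[Int.negSucc (nat_lit 5315939020978121)]]]]]],[[[[[],[[Int.negSucc (nat_lit 3203814158531963)]]]],[[[[Int.negSucc (nat_lit 1495137801145227)]]]]]],[[[[[[Int.negSucc (nat_lit 2046307463577597)]]]]]]],[[[[[[[Int.negSucc (nat_lit 51179874614000213)]]]]]]]],[[[[[[[],[[Int.ofNat (nat_lit 1686900899024190)]]]],[[[[Int.negSucc (nat_lit 1571558341409363)]]]]]],[[[[[[Int.ofNat (nat_lit 4949027633755120)]]]]]]],[[],[[[[[[Int.ofNat (nat_lit 361706289274796)]]]]]]]],[[[[[[[[Int.negSucc (nat_lit 7531905138220999)]]]]]]],[[[[[[[Int.ofNat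 (nat_lit 3486198141615754)]]]]]]]]],[[[[[[[[[Int.ofNat (nat_lit 79786465436076791)]]]]],[[[[[Int.ofNat (nat_lit 5927783482964248)]]]]]],[],[[[[[[Int.negSucc (nat_lit 2334573556029718)]]]]]]],[[[[[[[Int.negSucc (nat_lit 8195663864997701)]]]]]]]],[[[],[[[[[[Int.ofNat (nat_lit 1209004169787448)]]]]]]]],[[[[[[[[Int.negSucc (nat_lit 3381162205803307)]]]]]]]]],[[[[[[[[[Int.ofNat (nat_lit 12893968695830848)]]]]]]]]],[[[[[[[[[Int.ofNat (nat_lit 3873019824536178)]]]]]]]]]]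

/-- A coefficient. -/
noncomputable def sp5_m0_0_3 : MP 10 :=
  [[[[[[[[[],[[Int.ofNat (nat_lit 783228807300150)]]]],[[[[Int.negSucc (nat_lit 10053552013577639)]]]]],[[[[],[[Int.ofNat (nat_lit 13942612730807028)]]]],[[[[Int.negSucc (nat_lit 210131478257271)]]]]]],[[[[[[Int.negSucc (nat_lit 15803167803441531)]]]]],[[[[[Int.ofNat (nat_lit 14904654837159652)]]]]]]],[[[[[[],[[Int.ofNat (nat_lit 3564750172446144)]]]],[[[[Int.ofNat (nat_lit 2684863835110708)]]]]]],[[[[[[Int.negSucc (nat_lit 9060006662571603)]]]]]]]],[[[[[[[[Int.ofNat (nat_lit 95306853135760344)]]]]],[[[[[Int.ofNat (nat_lit 8363451127196692)]]]]]]],[[[[[[[Int.negSucc (nat_lit 49720150482435347)]]]]],[[[[[Int.ofNat (nat_lit 7801637431995384)]]]]]]],[[[[[[[Int.ofNat (nat_lit 7202506210374790)]]]]]]]],[[[[[[[],[[Int.negSucc (nat_lit 25323605653391)]]]],[[[[Int.ofNat (nat_lit 60306750449396)]]]]]],[[[[[[Int.ofNat (nat_lit 2414750517644510)]]]]]]]],[[[[[[[[Int.negSucc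 (nat_lit 7002014612719521)]]]]]]],[[[[[[[Int.ofNat (nat_lit 35186029752816)]]]]]]]]],[[[[[[[[],[[Int.ofNat (nat_lit 2363020136933814)]]]],[[[[Int.ofNat (nat_lit 10705206019828346)]]]]]],[[[[[[Int.ofNat (nat_lit 10264530732848344)]]]]],[[[[[Int.ofNat (nat_lit 4035837170762826)]]]]]]],[[],[[[[[[Int.ofNat (nat_lit 607049820845744)]]]]]]]],[[[[[[[[Int.ofNat (nat_lit 50114977607977746)]]]]],[[[[[Int.negSucc (nat_lit 4375516162730815)]]]]]]],[[[[[[[Int.negSucc (nat_lit 15117240545046399)]]]]]]]],[[[],[[[[[[Int.ofNat (nat_lit 256781580931896)]]]]]]]],[[[[[[[[Int.negSucc (nat_lit 164884329033363)]]]]]]]]],[[[[[[[[],[[Int.ofNat (nat_lit 417249635357664)]]]],[[[[Int.ofNat (nat_lit 34992581475144)]]]]]],[[[[[[Int.ofNat (nat_lit 8256368627546444)]]]]]]]],[[[[[[[[Int.ofNat (nat_lit 17252182966958230)]]]]]]],[[[[[[[Int.negSucc (nat_lit 398702237451051)]]]]]]]]],[[[[],[[[[[[Int.ofNat (nat_lit 160027528146680)]]]]]]]],[[[[[[[[Int.ofNat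 (nat_lit 291420740117620)]]]]]]]]]]

/-- A coefficient. -/
noncomputable def sp5_m0_0_4 : MP 10 :=
  [[[[[[[[[[Int.negSucc (nat_lit 173950322355608499)]]]]],[[[[[Int.ofNat (nat_lit 18965794633749094)]]]]],[[[[[Int.negSucc (nat_lit 67124115112540291)]]]]]],[[[[[],[[Int.ofNat (nat_lit 5530401663585732)]]]],[[[[Int.ofNat (nat_lit 4443428164777976)]]]]]],[[[[[[Int.ofNat (nat_lit 81350339092738397)]]]]]]],[[[[[[[Int.ofNat (nat_lit 59456672269869406)]]]]],[[[[[Int.negSucc (nat_lit 7092488771568327)]]]]]]],[[[[[[[Int.negSucc (nat_lit 42813442829791697)]]]]]]]],[[[[[[[],[[Int.negSucc (nat_lit 3639125383438733)]]]],[[[[Int.negSucc (nat_lit 6408740364792433)]]]]]],[[[[[[Int.negSucc (nat_lit 58630700781151091)]]]]]]],[[],[[[[[[Int.negSucc (nat_lit 65394604389701)]]]]]]]],[[[[[[[[Int.ofNat (nat_lit 110811899284968393)]]]]],[[[[[Int.ofNat (nat_lit 6277237380269932)]]]]]]],[[[[[[[Int.negSucc (nat_lit 1136006303053451)]]]]]]]],[],[[[[[[[[Int.negSucc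 (nat_lit 883723399352796)]]]]]]]]],[[[[[[[[[Int.negSucc (nat_lit 158419012527405513)]]]]],[[[[[Int.ofNat (nat_lit 11436191895822946)]]]]]],[],[[[[[[Int.ofNat (nat_lit 2463605124235620)]]]]]]],[[[[[[[Int.ofNat (nat_lit 69565143701211392)]]]]]]]],[[[],[[[[[[Int.negSucc (nat_lit 4199947016297079)]]]]]]]],[[[[[[[[Int.ofNat (nat_lit 2964955680152440)]]]]]]]]],[[[[[[[[[Int.negSucc (nat_lit 299608237326376780)]]]]],[[[[[Int.negSucc (nat_lit 5927783482964247)]]]]]]],[[[[[[[Int.ofNat (nat_lit 8195663864997702)]]]]]]]],[],[[[[[[[[Int.ofNat (nat_lit 1393086547108628)]]]]]]]]],[[[[[[[[[Int.negSucc (nat_lit 13264302943886373)]]]]]]]]],[[[[[[[[[Int.negSucc (nat_lit 3873019824536177)]]]]]]]]]]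

/-- A coefficient. -/
noncomputable def sp5_m0_0_5 : MP 10 :=
  [[[[[[[[[],[[Int.negSucc (nat_lit 13672574416548395)]]]],[[[[Int.ofNat (nat_lit 8564581361445416)]]]]]],[[[[[[Int.ofNat (nat_lit 80641715425628510)]]]]],[[[[[Int.negSucc (nat_lit 19443844723805131)]]]]]]],[[],[[[[[[Int.ofNat (nat_lit 9556840281588296)]]]]]]]],[[[[[[[[Int.negSucc (nat_lit 298195135474208833)]]]]],[[[[[Int.negSucc (nat_lit 14365897570765683)]]]]]]],[[[[[[[Int.ofNat (nat_lit 41722262350270576)]]]]]]]],[[[],[[[[[[Int.negSucc (nat_lit 2253063128238623)]]]]]]]],[[[[[[[[Int.ofNat (nat_lit 6746003206333878)]]]]]]]]],[[[[[[[[],[[Int.negSucc (nat_lit 2724941756367935)]]]],[[[[Int.negSucc (nat_lit 6236832906883905)]]]]]],[[[[[[Int.negSucc (nat_lit 5962186773569571)]]]]]]]],[[[[[[[[Int.negSucc (nat_lit 59888534899838533)]]]]]]],[[[[[[[Int.ofNat (nat_lit 4712771188229658)]]]]]]]]],[[[[],[[[[[[Int.negSucc (nat_lit 5971888951664085)]]]]]]]],[[[[[[[[Int.negSucc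 (nat_lit 12015923957371443)]]]]]]]]]]

/-- A coefficient. -/
noncomputable def sp5_m0_0_6 : MP 10 :=
  [[[[[[[[[[Int.ofNat (nat_lit 877668341011701883)]]]]],[[[[[Int.negSucc (nat_lit 18293162279789097)]]]]]],[],[[[[[[Int.negSucc (nat_lit 70251091002947060)]]]]]]],[[[[[[[Int.negSucc (nat_lit 58761133320252695)]]]]]]]],[[[],[[[[[[Int.ofNat (nat_lit 51304901987479124)]]]]]]]],[[[[[[[[Int.negSucc (nat_lit 87909926205725336)]]]]]]]]],[[[[[[[[[Int.ofNat (nat_lit 352371427478920290)]]]]],[[[[[Int.negSucc (nat_lit 6120252874844823)]]]]]]],[[[[[[[Int.negSucc (nat_lit 18385269087211177)]]]]]]]],[],[[[[[[[[Int.ofNat (nat_lit 467304190659052)]]]]]]]]],[[[[[[[[[Int.ofNat (nat_lit 535548788706797809)]]]]]]]]],[[[[[[[[[Int.ofNat (nat_lit 370334248055526)]]]]]]]]]]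

/-- A coefficient. -/
noncomputable def sp5_m0_0_7 : MP 10 :=
  [[[[[[[[[],[[Int.ofNat (nat_lit 10870716628762308)]]]],[[[[Int.negSucc (nat_lit 1174249128900447)]]]]]],[[[[[[Int.negSucc (nat_lit 75933904154652057)]]]]]]]],[[[[[[[[Int.ofNat (nat_lit 293313116834001706)]]]]]]],[[[[[[[Int.negSucc (nat_lit 3781996815861927)]]]]]]]]],[[[[],[[[[[[Int.negSucc (nat_lit 4215341169612751)]]]]]]]],[[[[[[[[Int.ofNat (nat_lit 22584169545294386)]]]]]]]]]]

/-- A coefficient. -/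
noncomputable def sp5_m0_0_8 : MP 10 :=
  [[[[[[[[[[Int.negSucc (nat_lit 1962524207811432602)]]]]],[[[[[Int.ofNat (nat_lit 7546193453856082)]]]]]]],[[[[[[[Int.ofNat (nat_lit 11096310853926050)]]]]]]]],[],[[[[[[[[Int.negSucc (nat_lit 815077837304463)]]]]]]]]],[[[[[[[[[Int.negSucc (nat_lit 363115620416944411)]]]]]]]]],[[[[[[[[[Int.negSucc (nat_lit 315727016816497818)]]]]]]]]]]

/-- A coefficient. -/
noncomputable def sp5_m0_0_9 : MP 10 :=
  [[[[[],[[[[[[Int.ofNat (nat_lit 9032129665004350)]]]]]]]],[[[[[[[[Int.negSucc (nat_lit 71796044908429687)]]]]]]]]]]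

/-- A coefficient. -/
noncomputable def sp5_m0_0_10 : MP 10 :=
  [[[[[[[[[[Int.ofNat (nat_lit 2070834454440632520)]]]]]]]]],[[[[[[[[[Int.ofNat (nat_lit 144748831887010364)]]]]]]]]]]

/-- A coefficient. -/
noncomputable def sp5_m0_0_11 : MP 10 :=
  []

/-- A coefficient. -/
noncomputable def sp5_m0_0_12 : MP 10 :=
  [[[[[[[[[[Int.negSucc (nat_lit 833303820042085487)]]]]]]]]]]

/-- A coefficient. -/
noncomputable def sp5_m0_1_0 : MP 10 :=
  [[[[[[[],[[[],[[Int.negSucc (nat_lit 9622507930361)]]]],[[[[Int.negSucc (nat_lit 17643885913316045)]]]]]],[[[[[],[[Int.negSucc (nat_lit 4335053627890601)]]]],[[[[Int.negSucc (nat_lit 4281595667255083)]]]]]],[[[[[[Int.negSucc (nat_lit 5884975699211047)]]]]]]]],[[[[[[[],[[Int.ofNat (nat_lit 8044013143216116)]]]],[[[[Int.ofNat (nat_lit 3628084187576580)]]]]]],[[[[[[Int.ofNat (nat_lit 5199135712475242)]]]]]]],[[[[],[[[[Int.negSucc (nat_lit 947538358866335)]]]]]],[[[[[[Int.negSucc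 (nat_lit 1551764514259417)]]]]]]]],[[[[[[[[Int.negSucc (nat_lit 30743097043695547)]]]]]]],[[[[[[[Int.ofNat (nat_lit 14295441979821046)]]]]]]]]],[[[[],[[[],[[[[Int.negSucc (nat_lit 3462774710932703)]]]]]],[[[[[[Int.negSucc (nat_lit 4385483614248035)]]]]]]]],[[[[[[[],[[Int.ofNat (nat_lit 2643861735102276)]]]],[[[[Int.negSucc (nat_lit 2119895098356345)]]]]]],[[[[[[Int.ofNat (nat_lit 4234943855335828)]]]]]]]],[[[[[[[[Int.negSucc (nat_lit 12321185219748867)]]]]]]],[[[[[[[Int.ofNat (nat_lit 684147921153006)]]]]]]]]],[[],[[[],[[[[[[Int.ofNat (nat_lit 264128942891698)]]]]]]]],[[[[[[[[Int.negSucc (nat_lit 458577831867161)]]]]]]]]]]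

/-- A coefficient. -/
noncomputable def sp5_m0_1_1 : MP 10 :=
  [[[[[[[[[],[[Int.negSucc (nat_lit 7650915454674971)]]]],[[[[Int.negSucc (nat_lit 4747564326246733)]]]]],[[],[[[[Int.negSucc (nat_lit 1296275738680279)]]]]]],[[[[[[Int.negSucc (nat_lit 16513714948372481)]]]]],[[[[[Int.ofNat (nat_lit 11292335615926784)]]]]]]],[[[[[[],[[Int.negSucc (nat_lit 765450909304379)]]]],[[[[Int.ofNat (nat_lit 10001361015427200)]]]]]],[[[[[[Int.ofNat (nat_lit 6082942796339034)]]]]]]]],[[[[[[[[Int.ofNat (nat_lit 74965895419969824)]]]]],[[[[[Int.negSucc (nat_lit 23747582285127097)]]]]]]],[[[[[[[Int.negSucc (nat_lit 35403370015696967)]]]]]]],[[[[[[[Int.ofNat (nat_lit 2544741376592114)]]]]]]]],[[[[[],[[[[Int.ofNat (nat_lit 380993713734456)]]]]]],[[[[[[Int.negSucc (nat_lit 164325544098491)]]]]]]]],[[[[[[[[Int.negSucc (nat_lit 170009626611509)]]]]]]]]],[[[[[[[[],[[Int.negSucc (nat_lit 1733870615452919)]]]],[[[[Int.negSucc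 (nat_lit 512545079742861)]]]]]],[[[[[[Int.ofNat (nat_lit 5917890191395560)]]]]]]],[[],[[[[[[Int.negSucc (nat_lit 399170176513527)]]]]]]]],[[[[[[[[Int.ofNat (nat_lit 36510263972878710)]]]]],[[[[[Int.negSucc (nat_lit 7647170815678025)]]]]]]],[[[[[[[Int.negSucc (nat_lit 6420799220891743)]]]]]]]],[],[[[[[[[[Int.ofNat (nat_lit 255525321664534)]]]]]]]]],[[[[[[],[[[[Int.negSucc (nat_lit 996777572015591)]]]]]],[[[[[[Int.ofNat (nat_lit 1978846114897364)]]]]]]]],[[[[[[[[Int.ofNat (nat_lit 2941596622084932)]]]]]]]]],[[],[[[[[[[[Int.negSucc (nat_lit 311647770831381)]]]]]]]]]]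

/-- A coefficient. -/
noncomputable def sp5_m0_1_2 : MP 10 :=
  [[[[[[[[[[Int.negSucc (nat_lit 80124433825104691)]]]],[[[],[[Int.ofNat (nat_lit 9622507930362)]]]],[[[[Int.ofNat (nat_lit 17643885913316046)]]]]],[[[[[Int.ofNat (nat_lit 6526452905979554)]]]]]],[[[[[],[[Int.ofNat (nat_lit 4335053627890602)]]]],[[[[Int.ofNat (nat_lit 11948556156651722)]]]]]],[[[[[[Int.ofNat (nat_lit 23956347351665746)]]]]]]],[[[[[[[Int.ofNat (nat_lit 74694080533806554)]]]]],[[[[[Int.negSucc (nat_lit 16455052835606333)]]]]]]],[[[[[[[Int.negSucc (nat_lit 85028735380528875)]]]]]]]],[[[[[[[],[[Int.negSucc (nat_lit 13484132090218385)]]]],[[[[Int.negSucc (nat_lit 14630050145657727)]]]]]],[[[[[[Int.negSucc (nat_lit 21415548421917937)]]]]]]],[[[[],[[[[Int.ofNat (nat_lit 947538358866336)]]]]]],[[[[[[Int.ofNat (nat_lit 1551764514259418)]]]]]]]],[[[[[[[[Int.ofNat (nat_lit 107818460984530874)]]]]]]],[[[[[[[Int.negSucc (nat_lit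 13607855691886431)]]]]]]]]],[[[[[[[[[Int.negSucc (nat_lit 148933489566853221)]]]]],[[[[[Int.ofNat (nat_lit 72627471541866)]]]]]],[[[],[[[[Int.ofNat (nat_lit 3462774710932704)]]]]]],[[[[[[Int.ofNat (nat_lit 4385483614248036)]]]]]]],[[[[[[[Int.ofNat (nat_lit 88577342051158682)]]]]]]]],[[[[[[[],[[Int.negSucc (nat_lit 2643861735102275)]]]],[[[[Int.ofNat (nat_lit 2119895098356346)]]]]]],[[[[[[Int.negSucc (nat_lit 7888698759133547)]]]]]]]],[[[[[[[[Int.ofNat (nat_lit 15440178291757888)]]]]]]],[[[[[[[Int.negSucc (nat_lit 684147921153005)]]]]]]]]],[[[[[[[[[Int.negSucc (nat_lit 89538230253181705)]]]]]]],[[[[[[[Int.ofNat (nat_lit 6852782430106278)]]]]]]]],[[[],[[[[[[Int.negSucc (nat_lit 264128942891697)]]]]]]]],[[[[[[[[Int.ofNat (nat_lit 458577831867162)]]]]]]]]],[[[[[[[[[Int.negSucc (nat_lit 27991966235894971)]]]]]]]]]]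

/-- A coefficient. -/
noncomputable def sp5_m0_1_3 : MP 10 :=
  [[[[[[[[[],[[Int.ofNat (nat_lit 16006745263976316)]]]],[[[[Int.ofNat (nat_lit 12914662437383882)]]]]],[[],[[[[Int.ofNat (nat_lit 1296275738680280)]]]]]],[[[[[[Int.ofNat (nat_lit 58146599164185636)]]]]],[[[[[Int.negSucc (nat_lit 11292335615926783)]]]]]]],[[[[[[],[[Int.ofNat (nat_lit 765450909304380)]]]],[[[[Int.negSucc (nat_lit 10001361015427199)]]]]]],[[[[[[Int.negSucc (nat_lit 5996555751645315)]]]]]]]],[[[[[[[[Int.negSucc (nat_lit 315352906560619537)]]]]],[[[[[Int.ofNat (nat_lit 48577983080753930)]]]]]]],[[[[[[[Int.ofNat (nat_lit 100433753742133270)]]]]]]],[[[[[[[Int.negSucc (nat_lit 2544741376592113)]]]]]]]],[[[[[],[[[[Int.negSucc (nat_lit 380993713734455)]]]]]],[[[[[[Int.ofNat (nat_lit 164325544098492)]]]]]]]],[[[[[[[[Int.negSucc (nat_lit 78068321459267)]]]]]]]]],[[[[[[[[],[[Int.ofNat (nat_lit 1733870615452920)]]]],[[[[Int.ofNat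 (nat_lit 6020239088216298)]]]]]],[[[[[[Int.negSucc (nat_lit 14159334593649175)]]]]]]],[[],[[[[[[Int.ofNat (nat_lit 399170176513528)]]]]]]]],[[[[[[[[Int.negSucc (nat_lit 111848792355248523)]]]]],[[[[[Int.ofNat (nat_lit 7647170815678026)]]]]]]],[[[[[[[Int.ofNat (nat_lit 6420799220891744)]]]]]]]],[],[[[[[[[[Int.negSucc (nat_lit 255525321664533)]]]]]]]]],[[[[[[],[[[[Int.ofNat (nat_lit 996777572015592)]]]]]],[[[[[[Int.negSucc (nat_lit 1978846114897363)]]]]]]]],[[[[[[[[Int.negSucc (nat_lit 3707629703626937)]]]]]]]]],[[],[[[[[[[[Int.ofNat (nat_lit 311647770831382)]]]]]]]]]]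

/-- A coefficient. -/
noncomputable def sp5_m0_1_4 : MP 10 :=
  [[[[[[[[[[Int.ofNat (nat_lit 418451658055831296)]]]]],[[[[[Int.negSucc (nat_lit 27674395511135339)]]]]]],[[[],[[[[Int.negSucc (nat_lit 7666960489396637)]]]]]],[[[[[[Int.negSucc (nat_lit 18071371652454697)]]]]]]],[[[[[[[Int.negSucc (nat_lit 159421447477410391)]]]]],[[[[[Int.ofNat (nat_lit 16455052835606334)]]]]]]],[[[[[[[Int.ofNat (nat_lit 85028735380528876)]]]]]]]],[[[[[[[],[[Int.ofNat (nat_lit 5440118947002270)]]]],[[[[Int.ofNat (nat_lit 11001965958081148)]]]]]],[[[[[[Int.ofNat (nat_lit 9023110696491640)]]]]]]]],[[[[[[[[Int.negSucc (nat_lit 245942405048439437)]]]]]]],[[[[[[[Int.negSucc (nat_lit 687586287934613)]]]]]]]]],[[[[[[[[[Int.ofNat (nat_lit 553341518217551910)]]]]],[[[[[Int.negSucc (nat_lit 72627471541865)]]]]]]],[[[[[[[Int.negSucc (nat_lit 81391829935523011)]]]]]]]],[[[],[[[[[[Int.ofNat (nat_lit 3653754903797720)]]]]]]]],[[[[[[[[Int.negSucc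 (nat_lit 3118993072009019)]]]]]]]]],[[[[[[[[[Int.ofNat (nat_lit 149433456803056122)]]]]]]],[[[[[[[Int.negSucc (nat_lit 6852782430106277)]]]]]]]]],[[[[[[[[[Int.ofNat (nat_lit 27991966235894972)]]]]]]]]]]

/-- A coefficient. -/
noncomputable def sp5_m0_1_5 : MP 10 :=
  [[[[[[[[[],[[Int.negSucc (nat_lit 8355829809301343)]]]],[[[[Int.negSucc (nat_lit 7424749510375333)]]]]]],[[[[[[Int.negSucc (nat_lit 94563487409067871)]]]]]]],[[],[[[[[[Int.negSucc (nat_lit 86387044693717)]]]]]]]],[[[[[[[[Int.ofNat (nat_lit 626797030237373674)]]]]],[[[[[Int.negSucc (nat_lit 24830400795626831)]]]]]]],[[[[[[[Int.negSucc (nat_lit 65030383726436301)]]]]]]]],[],[[[[[[[[Int.ofNat (nat_lit 248077948070778)]]]]]]]]],[[[[[[],[[[[Int.negSucc (nat_lit 5507694008473435)]]]]]],[[[[[[Int.ofNat (nat_lit 8241444402253616)]]]]]]]],[[[[[[[[Int.ofNat (nat_lit 125898197358452558)]]]]]]]]],[[],[[[[[[[[Int.ofNat (nat_lit 766033081542006)]]]]]]]]]]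

/-- A coefficient. -/
noncomputable def sp5_m0_1_6 : MP 10 :=
  [[[[[[[[[[Int.negSucc (nat_lit 969192224709470457)]]]]],[[[[[Int.ofNat (nat_lit 21147942605155786)]]]]]]],[[[[[[[Int.ofNat (nat_lit 83061815030276000)]]]]]]]],[[[],[[[[[[Int.ofNat (nat_lit 7193302012951056)]]]]]]]],[[[[[[[[Int.ofNat (nat_lit 168867041107604112)]]]]]]]]],[[[[[[[[[Int.negSucc (nat_lit 883013386105758965)]]]]]]],[[[[[[[Int.negSucc (nat_lit 7185512115635669)]]]]]]]]],[[[[[[[[[Int.negSucc (nat_lit 59895226549874415)]]]]]]]]]]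

/-- A coefficient. -/
noncomputable def sp5_m0_1_7 : MP 10 :=
  [[[[[[[],[[[[Int.negSucc (nat_lit 742348600761813)]]]]]],[[[[[[Int.ofNat (nat_lit 52930603193254718)]]]]]]]],[[[[[[[[Int.negSucc (nat_lit 393279510018843629)]]]]]]]]],[[],[[[[[[[[Int.negSucc (nat_lit 50559668976082743)]]]]]]]]]]

/-- A coefficient. -/
noncomputable def sp5_m0_1_8 : MP 10 :=
  [[[[[[[[[[Int.ofNat (nat_lit 936471208413301210)]]]]]]],[[[[[[[Int.ofNat (nat_lit 1665551913327838)]]]]]]]]],[[[[[[[[[Int.ofNat (nat_lit 478605357455060278)]]]]]]]]]]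

/-- A coefficient. -/
noncomputable def sp5_m0_1_9 : MP 10 :=
  [[[],[[[[[[[[Int.ofNat (nat_lit 6869490922119670)]]]]]]]]]]

/-- A coefficient. -/
noncomputable def sp5_m0_1_10 : MP 10 :=
  [[[[[[[[[[Int.negSucc (nat_lit 305606207934557355)]]]]]]]]]]

/-- A coefficient. -/
noncomputable def sp5_m0_2_0 : MP 10 :=
  [[[[[[[[[],[],[[Int.negSucc (nat_lit 2809704202129448)]]]],[[[],[[Int.negSucc (nat_lit 396302470176923)]]]],[[[[Int.ofNat (nat_lit 22888862276905145)]]]]]],[[[[[],[[Int.negSucc (nat_lit 4231087458443261)]]]],[[[[Int.ofNat (nat_lit 8864858511951634)]]]]]],[[[[[[Int.ofNat (nat_lit 12885820982517371)]]]]]]]],[[[[[[[],[[Int.ofNat (nat_lit 826080861687354)]]]],[[[[Int.negSucc (nat_lit 6178257479729737)]]]]]],[[[[[[Int.negSucc (nat_lit 9712708380920391)]]]]]]],[[[[[[],[[Int.negSucc (nat_lit 2006669303652419)]]]],[[[[Int.ofNat (nat_lit 881421389271516)]]]]]],[[[[[[Int.negSucc (nat_lit 579099691339075)]]]]]]]],[[[[[[[[Int.ofNat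 (nat_lit 29630600055381798)]]]]]]],[[[[[[[Int.ofNat (nat_lit 3704013829750022)]]]]]]],[[[[[[[Int.negSucc (nat_lit 2737708781774161)]]]]]]]]],[[[[],[[[[[],[[Int.negSucc (nat_lit 3203814158531963)]]]],[[[[Int.negSucc (nat_lit 1495137801145227)]]]]]],[[[[[[Int.negSucc (nat_lit 662252459862561)]]]]]]]],[[[[[[[],[[Int.ofNat (nat_lit 1686900899024190)]]]],[[[[Int.ofNat (nat_lit 6675659360751836)]]]]]],[[[[[[Int.ofNat (nat_lit 508055532067480)]]]]]]],[[],[[[[[[Int.ofNat (nat_lit 361706289274796)]]]]]]]],[[[[[[[[Int.ofNat (nat_lit 1593792469098232)]]]]]]],[[[[[[[Int.ofNat (nat_lit 3486198141615754)]]]]]]]]],[[[[],[],[[[[[[Int.negSucc (nat_lit 2334573556029718)]]]]]]]],[[[],[[[[[[Int.ofNat (nat_lit 1209004169787448)]]]]]]]],[[[[[[[[Int.ofNat (nat_lit 1463463150216804)]]]]]]]]]]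

/-- A coefficient. -/
noncomputable def sp5_m0_2_1 : MP 10 :=
  [[[[[[[[[],[[Int.negSucc (nat_lit 4759541214336629)]]]],[[[[Int.ofNat (nat_lit 4565441610413106)]]]]],[[[[],[[Int.ofNat (nat_lit 13942612730807028)]]]],[[[[Int.negSucc (nat_lit 210131478257271)]]]]]],[[[[[[Int.ofNat (nat_lit 20103314098097174)]]]]],[[[[[Int.negSucc (nat_lit 3404106401384363)]]]]]]],[[[[[[],[[Int.ofNat (nat_lit 3564750172446144)]]]],[[[[Int.negSucc (nat_lit 36950628921221249)]]]]]],[[[[[[Int.negSucc (nat_lit 5067334118088613)]]]]]]]],[[[[[[[[Int.negSucc (nat_lit 47918280406571845)]]]]],[[[[[Int.ofNat (nat_lit 6484685172599732)]]]]]]],[[[[[[[Int.negSucc (nat_lit 11200072739749317)]]]]],[[[[[Int.ofNat (nat_lit 7801637431995384)]]]]]]],[[[[[[[Int.ofNat (nat_lit 7202506210374790)]]]]]]]],[[[[[[[],[[Int.negSucc (nat_lit 25323605653391)]]]],[[[[Int.ofNat (nat_lit 60306750449396)]]]]]],[[[[[[Int.ofNat (nat_lit 696442719868980)]]]]]]]],[[[[[[[[Int.negSucc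 (nat_lit 779058418308731)]]]]]]],[[[[[[[Int.ofNat (nat_lit 35186029752816)]]]]]]]]],[[[[[[[[],[[Int.ofNat (nat_lit 171418182797700)]]]],[[[[Int.ofNat (nat_lit 11072301629287022)]]]]]],[[[[[[Int.negSucc (nat_lit 14743302743196467)]]]]],[[[[[Int.ofNat (nat_lit 4035837170762826)]]]]]]],[[],[[[[[[Int.ofNat (nat_lit 607049820845744)]]]]]]]],[[[[[[[[Int.ofNat (nat_lit 9974176229985048)]]]]],[[[[[Int.negSucc (nat_lit 4375516162730815)]]]]]]],[[[[[[[Int.negSucc (nat_lit 19548984759295263)]]]]]]]],[[[],[[[[[[Int.ofNat (nat_lit 256781580931896)]]]]]]]],[[[[[[[[Int.negSucc (nat_lit 164884329033363)]]]]]]]]],[[[[[[[[],[[Int.ofNat (nat_lit 417249635357664)]]]],[[[[Int.ofNat (nat_lit 34992581475144)]]]]]],[[[[[[Int.ofNat (nat_lit 5463203288195662)]]]]]]]],[[[[[[[[Int.ofNat (nat_lit 4323666112880842)]]]]]]],[[[[[[[Int.negSucc (nat_lit 398702237451051)]]]]]]]]],[[[[],[[[[[[Int.ofNat (nat_lit 160027528146680)]]]]]]]],[[[[[[[[Int.ofNat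 (nat_lit 291420740117620)]]]]]]]]]]

/-- A coefficient. -/
noncomputable def sp5_m0_2_2 : MP 10 :=
  [[[[[[[[[[Int.ofNat (nat_lit 168597345461647593)]]]],[],[[[[Int.negSucc (nat_lit 27586674123357389)]]]]],[[[[[Int.ofNat (nat_lit 39988032199029426)]]]]],[[[[[Int.negSucc (nat_lit 67124115112540291)]]]]]],[[[[[],[[Int.ofNat (nat_lit 9752424986075994)]]]],[[[[Int.negSucc (nat_lit 5090228334074823)]]]]]],[[[[[[Int.negSucc (nat_lit 7236800569054024)]]]]]]],[[[[[[[Int.negSucc (nat_lit 101260371138824113)]]]]],[[[[[Int.negSucc (nat_lit 7092488771568327)]]]]]]],[[[[[[[Int.ofNat (nat_lit 147444050461165085)]]]]]]]],[[[[[[[],[[Int.negSucc (nat_lit 1622061159054155)]]]],[[[[Int.ofNat (nat_lit 12689595716302916)]]]]]],[[[[[[Int.negSucc (nat_lit 992130787402581)]]]]]]],[[],[[[[[[Int.ofNat (nat_lit 1188582157368620)]]]]]]]],[[[[[[[[Int.negSucc (nat_lit 116022892224261511)]]]]],[[[[[Int.ofNat (nat_lit 6277237380269932)]]]]]]],[[[[[[[Int.negSucc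 (nat_lit 275764328989237)]]]]]]]],[],[[[[[[[[Int.negSucc (nat_lit 883723399352796)]]]]]]]]],[[[[[[[[[Int.ofNat (nat_lit 93939185389262098)]]]]],[[[[[Int.ofNat (nat_lit 20089943471650482)]]]]]],[],[[[[[[Int.ofNat (nat_lit 3543155244756204)]]]]]]],[[[[[[[Int.negSucc (nat_lit 73768853595323041)]]]]]]]],[[[[[],[[[[Int.negSucc (nat_lit 8247217702161199)]]]]]],[[[[[[Int.negSucc (nat_lit 3958921930906519)]]]]]]]],[[[[[[[[Int.negSucc (nat_lit 7559296211117721)]]]]]]]]],[[[[[[[[[Int.negSucc (nat_lit 54988534413608557)]]]]],[[[[[Int.negSucc (nat_lit 5927783482964247)]]]]]]],[[[[[[[Int.ofNat (nat_lit 8195663864997702)]]]]]]]],[],[[[[[[[[Int.negSucc (nat_lit 2058452261802855)]]]]]]]]],[[[[[[[[[Int.negSucc (nat_lit 13777749922088493)]]]]]]]]],[[[[[[[[[Int.negSucc (nat_lit 3873019824536177)]]]]]]]]]]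

/-- A coefficient. -/
noncomputable def sp5_m0_2_3 : MP 10 :=
  [[[[[[[[[],[[Int.ofNat (nat_lit 3534409594046088)]]]],[[[[Int.negSucc (nat_lit 8879033998555281)]]]]]],[[[[[[Int.negSucc (nat_lit 19785381622102369)]]]]],[[[[[Int.negSucc (nat_lit 20578928209066247)]]]]]]],[[[[],[[[[Int.ofNat (nat_lit 39635492756331958)]]]]]],[[[[[[Int.ofNat (nat_lit 15121008018693602)]]]]]]]],[[[[[[[[Int.ofNat (nat_lit 174540953559750084)]]]]],[[[[[Int.negSucc (nat_lit 26853029186934407)]]]]]]],[[[[[[[Int.negSucc (nat_lit 62206162903811649)]]]]]]]],[[[],[[[[[[Int.negSucc (nat_lit 2787818458701717)]]]]]]]],[[[[[[[[Int.ofNat (nat_lit 7269050218256966)]]]]]]]]],[[[[[[[[],[[Int.negSucc (nat_lit 3258281558599757)]]]],[[[[Int.negSucc (nat_lit 12840761423226487)]]]]]],[[[[[[Int.negSucc (nat_lit 3625294976686691)]]]]]]]],[[[[[[[[Int.negSucc (nat_lit 8752303060598433)]]]]]]],[[[[[[[Int.ofNat (nat_lit 13857286590708180)]]]]]]]]],[[[[],[[[[[[Int.negSucc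 (nat_lit 9150612563977389)]]]]]]]],[[[[[[[[Int.negSucc (nat_lit 11103331060665499)]]]]]]]]]]

/-- A coefficient. -/
noncomputable def sp5_m0_2_4 : MP 10 :=
  [[[[[[[[[[Int.negSucc (nat_lit 537612765504873628)]]]]],[[[[[Int.negSucc (nat_lit 80431862952082739)]]]]]],[],[[[[[[Int.negSucc (nat_lit 67396512925789480)]]]]]]],[[[[[[[Int.ofNat (nat_lit 175054240627245538)]]]]]]],[[[[[[[Int.negSucc (nat_lit 190257493290956782)]]]]]]]],[[[[[],[[[[Int.negSucc (nat_lit 11572773483714939)]]]]]],[[[[[[Int.ofNat (nat_lit 55155305541709030)]]]]]]]],[[[[[[[[Int.ofNat (nat_lit 437150582766799340)]]]]]]]]],[[[[[[[[[Int.negSucc (nat_lit 68282515965221021)]]]]],[[[[[Int.negSucc (nat_lit 20894257325517183)]]]]]]],[[[[[[[Int.ofNat (nat_lit 106563459122112078)]]]]]]]],[],[[[[[[[[Int.ofNat (nat_lit 5765422536080526)]]]]]]]]],[[[[[[[[[Int.ofNat (nat_lit 336770381154157293)]]]]]]]]],[[[[[[[[[Int.ofNat (nat_lit 1254115474313172)]]]]]]]]]]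

/-- A coefficient. -/
noncomputable def sp5_m0_2_5 : MP 10 :=
  [[[[[[[[[],[[Int.ofNat (nat_lit 7275361480780824)]]]],[[[[Int.ofNat (nat_lit 7866455710754024)]]]]]],[[[[[[Int.negSucc (nat_lit 38752433439686605)]]]]]]]],[[[[[[[[Int.negSucc (nat_lit 625337400272098873)]]]]]]],[[[[[[[Int.ofNat (nat_lit 95784619414080988)]]]]]]]]],[[[[],[[[[[[Int.ofNat (nat_lit 4062731396754104)]]]]]]]],[[[[[[[[Int.negSucc (nat_lit 3131456725202777)]]]]]]]]]]

/-- A coefficient. -/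
noncomputable def sp5_m0_2_6 : MP 10 :=
  [[[[[[[[[[Int.ofNat (nat_lit 103569899027700004)]]]]],[[[[[Int.ofNat (nat_lit 45461881188792458)]]]]]]],[[[[[[[Int.negSucc (nat_lit 98570531297279259)]]]]]]]],[],[[[[[[[[Int.negSucc (nat_lit 424969163868157738)]]]]]]]]],[[[[[[[[[Int.negSucc (nat_lit 197703607724597997)]]]]]]]]],[[[[[[[[[Int.negSucc (nat_lit 457473557102823354)]]]]]]]]]]

/-- A coefficient. -/
noncomputable def sp5_m0_2_7 : MP 10 :=
  [[[[[],[[[[[[Int.negSucc (nat_lit 7758429792431483)]]]]]]]],[[[[[[[[Int.ofNat (nat_lit 590386480174549678)]]]]]]]]]]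

/-- A coefficient. -/
noncomputable def sp5_m0_2_8 : MP 10 :=
  [[[[[[[[[[Int.ofNat (nat_lit 1827160741803317015)]]]]]]]]],[[[[[[[[[Int.ofNat (nat_lit 208019247028200208)]]]]]]]]]]

/-- A coefficient. -/
noncomputable def sp5_m0_2_9 : MP 10 :=
  []

/-- A coefficient. -/
noncomputable def sp5_m0_2_10 : MP 10 :=
  [[[[[[[[[[Int.negSucc (nat_lit 1751082767002190885)]]]]]]]]]]

/-- A coefficient. -/
noncomputable def sp5_m0_3_0 : MP 10 :=
  [[[[[[[],[[[],[[Int.ofNat (nat_lit 9622507930362)]]]],[[[[Int.ofNat (nat_lit 17643885913316046)]]]]]],[[[[[],[[Int.ofNat (nat_lit 4335053627890602)]]]],[[[[Int.negSucc (nat_lit 9843589115068711)]]]]]],[[[[[[Int.negSucc (nat_lit 24556462114104265)]]]]]]]],[[[[[[[],[[Int.negSucc (nat_lit 7630675504125137)]]]],[[[[Int.negSucc (nat_lit 13198278975366433)]]]]]],[[[[[[Int.negSucc (nat_lit 2073764662049805)]]]]]]],[[[[],[[[[Int.ofNat (nat_lit 947538358866336)]]]]]],[[[[[[Int.ofNat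 (nat_lit 1551764514259418)]]]]]]]],[[[[[[[[Int.ofNat (nat_lit 53642773913653380)]]]]]]],[[[[[[[Int.negSucc (nat_lit 13080084005320201)]]]]]]]]],[[[[],[[[],[[[[Int.ofNat (nat_lit 3462774710932704)]]]]]],[[[[[[Int.ofNat (nat_lit 4385483614248036)]]]]]]]],[[[[[[[],[[Int.negSucc (nat_lit 2643861735102275)]]]],[[[[Int.ofNat (nat_lit 2119895098356346)]]]]]],[[[[[[Int.negSucc (nat_lit 8115066123961259)]]]]]]]],[[[[[[[[Int.ofNat (nat_lit 1428308741444936)]]]]]]],[[[[[[[Int.negSucc (nat_lit 684147921153005)]]]]]]]]],[[],[[[],[[[[[[Int.negSucc (nat_lit 264128942891697)]]]]]]]],[[[[[[[[Int.ofNat (nat_lit 458577831867162)]]]]]]]]]]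

/-- A coefficient. -/
noncomputable def sp5_m0_3_1 : MP 10 :=
  [[[[[[[[[],[[Int.ofNat (nat_lit 11870067195287352)]]]],[[[[Int.ofNat (nat_lit 20515929874313122)]]]]],[[],[[[[Int.ofNat (nat_lit 1296275738680280)]]]]]],[[[[[[Int.ofNat (nat_lit 16024737164888528)]]]]],[[[[[Int.negSucc (nat_lit 11292335615926783)]]]]]]],[[[[[[],[[Int.ofNat (nat_lit 765450909304380)]]]],[[[[Int.negSucc (nat_lit 10001361015427199)]]]]]],[[[[[[Int.ofNat (nat_lit 7700277353950504)]]]]]]]],[[[[[[[[Int.negSucc (nat_lit 166382952342708281)]]]]],[[[[[Int.ofNat (nat_lit 19748611929356636)]]]]]]],[[[[[[[Int.ofNat (nat_lit 37777090391186640)]]]]]]],[[[[[[[Int.negSucc (nat_lit 2544741376592113)]]]]]]]],[[[[[],[[[[Int.negSucc (nat_lit 380993713734455)]]]]]],[[[[[[Int.ofNat (nat_lit 164325544098492)]]]]]]]],[[[[[[[[Int.negSucc (nat_lit 118447527854677)]]]]]]]]],[[[[[[[[],[[Int.ofNat (nat_lit 1733870615452920)]]]],[[[[Int.negSucc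 (nat_lit 20600201108153759)]]]]]],[[[[[[Int.ofNat (nat_lit 1667247826942372)]]]]]]],[[],[[[[[[Int.ofNat (nat_lit 399170176513528)]]]]]]]],[[[[[[[[Int.negSucc (nat_lit 43702144417548367)]]]]],[[[[[Int.ofNat (nat_lit 7647170815678026)]]]]]]],[[[[[[[Int.ofNat (nat_lit 6420799220891744)]]]]]]]],[],[[[[[[[[Int.negSucc (nat_lit 255525321664533)]]]]]]]]],[[[[[[],[[[[Int.ofNat (nat_lit 996777572015592)]]]]]],[[[[[[Int.negSucc (nat_lit 1978846114897363)]]]]]]]],[[[[[[[[Int.negSucc (nat_lit 6670837349845935)]]]]]]]]],[[],[[[[[[[[Int.ofNat (nat_lit 311647770831382)]]]]]]]]]]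

/-- A coefficient. -/
noncomputable def sp5_m0_3_2 : MP 10 :=
  [[[[[[[[[[Int.negSucc (nat_lit 230363897849257227)]]]]],[[[[[Int.negSucc (nat_lit 22078858851896167)]]]]]],[[[],[[[[Int.ofNat (nat_lit 6458224292927158)]]]]]],[[[[[[Int.ofNat (nat_lit 12370066160860616)]]]]]]],[[[[[[[Int.ofNat (nat_lit 60114219307190640)]]]]],[[[[[Int.ofNat (nat_lit 16455052835606334)]]]]]]],[[[[[[[Int.ofNat (nat_lit 85028735380528876)]]]]]]]],[[[[[[[],[[Int.ofNat (nat_lit 5026781307911292)]]]],[[[[Int.ofNat (nat_lit 20572160745871002)]]]]]],[[[[[[Int.ofNat (nat_lit 10707831168216838)]]]]]]]],[[[[[[[[Int.negSucc (nat_lit 102974771143948667)]]]]]]],[[[[[[[Int.negSucc (nat_lit 1902944262435457)]]]]]]]]],[[[[[[[[[Int.ofNat (nat_lit 102669974278047128)]]]]],[[[[[Int.negSucc (nat_lit 72627471541865)]]]]]]],[[[[[[[Int.negSucc (nat_lit 68415379262777053)]]]]]]]],[[[],[[[[[[Int.ofNat (nat_lit 7533877172423152)]]]]]]]],[[[[[[[[Int.ofNat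 (nat_lit 7773883406294912)]]]]]]]]],[[[[[[[[[Int.negSucc (nat_lit 83144625108019045)]]]]]]],[[[[[[[Int.negSucc (nat_lit 6852782430106277)]]]]]]]]],[[[[[[[[[Int.ofNat (nat_lit 27991966235894972)]]]]]]]]]]

/-- A coefficient. -/
noncomputable def sp5_m0_3_3 : MP 10 :=
  [[[[[[[[[],[[Int.negSucc (nat_lit 12574981549913723)]]]],[[[[Int.negSucc (nat_lit 69393464330460957)]]]]]],[[[[[[Int.negSucc (nat_lit 49738804011358435)]]]]]]],[[],[[[[[[Int.negSucc (nat_lit 13869607194983255)]]]]]]]],[[[[[[[[Int.ofNat (nat_lit 450132460533082178)]]]]],[[[[[Int.negSucc (nat_lit 20831430439856369)]]]]]]],[[[[[[[Int.negSucc (nat_lit 67404104101925973)]]]]]]]],[],[[[[[[[[Int.ofNat (nat_lit 536535102536966)]]]]]]]]],[[[[[[],[[[[Int.ofNat (nat_lit 15605052179423186)]]]]]],[[[[[[Int.ofNat (nat_lit 656306383915684)]]]]]]]],[[[[[[[[Int.ofNat (nat_lit 116849518152740638)]]]]]]]]],[[],[[[[[[[[Int.ofNat (nat_lit 4495273809303010)]]]]]]]]]]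

/-- A coefficient. -/
noncomputable def sp5_m0_3_4 : MP 10 :=
  [[[[[[[[[[Int.ofNat (nat_lit 1158543945557164794)]]]]],[[[[[Int.ofNat (nat_lit 36700348551072400)]]]]]]],[[[[[[[Int.negSucc (nat_lit 3171035383763805)]]]]]]]],[[[],[[[[[[Int.ofNat (nat_lit 9576512503751478)]]]]]]]],[[[[[[[[Int.ofNat (nat_lit 171866771440759622)]]]]]]]]],[[[[[[[[[Int.negSucc (nat_lit 445905392587995171)]]]]]]],[[[[[[[Int.negSucc (nat_lit 27347474904017297)]]]]]]]]],[[[[[[[[[Int.ofNat (nat_lit 112787628811326336)]]]]]]]]]]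

/-- A coefficient. -/
noncomputable def sp5_m0_3_5 : MP 10 :=
  [[[[[[[],[[[[Int.ofNat (nat_lit 44715652070495608)]]]]]],[[[[[[Int.ofNat (nat_lit 61525500772283954)]]]]]]]],[[[[[[[[Int.negSucc (nat_lit 497968579207086781)]]]]]]]]],[[],[[[[[[[[Int.negSucc (nat_lit 84878778301783909)]]]]]]]]]]

/-- A coefficient. -/
noncomputable def sp5_m0_3_6 : MP 10 :=
  [[[[[[[[[[Int.negSucc (nat_lit 3057542024252858615)]]]]]]],[[[[[[[Int.negSucc (nat_lit 45244345600301711)]]]]]]]]],[[[[[[[[[Int.ofNat (nat_lit 566366236681162856)]]]]]]]]]]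

/-- A coefficient. -/
noncomputable def sp5_m0_3_7 : MP 10 :=
  [[[],[[[[[[[[Int.ofNat (nat_lit 99658562788486)]]]]]]]]]]

/-- A coefficient. -/
noncomputable def sp5_m0_3_8 : MP 10 :=
  [[[[[[[[[[Int.ofNat (nat_lit 2196417978683515636)]]]]]]]]]]

/-- A coefficient. -/
noncomputable def sp5_m0_4_0 : MP 10 :=
  [[[[[[[],[],[[[[Int.negSucc (nat_lit 27586674123357389)]]]]]],[[[[[],[[Int.ofNat (nat_lit 4222023322490262)]]]],[[[[Int.negSucc (nat_lit 9533656498852799)]]]]]],[[[[[[Int.ofNat (nat_lit 31789424062928181)]]]]]]]],[[[[[[[],[[Int.ofNat (nat_lit 2017064224384578)]]]],[[[[Int.ofNat (nat_lit 24140131907077672)]]]]]],[[[[[[Int.negSucc (nat_lit 1430933291903545)]]]]]]],[[],[[[[[[Int.ofNat (nat_lit 1253976761758322)]]]]]]]],[[[[[[[[Int.negSucc (nat_lit 40937446143733898)]]]]]]],[[[[[[[Int.ofNat (nat_lit 860241974064214)]]]]]]]]],[[[[],[],[[[[[[Int.ofNat (nat_lit 1079550120520584)]]]]]]]],[[[[[],[[[[Int.negSucc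 (nat_lit 8247217702161199)]]]]]],[[[[[[Int.ofNat (nat_lit 241025085390560)]]]]]]]],[[[[[[[[Int.negSucc (nat_lit 5446195451602061)]]]]]]]]],[[],[],[[[[[[[[Int.negSucc (nat_lit 3451538808911483)]]]]]]]]]]

/-- A coefficient. -/
noncomputable def sp5_m0_4_1 : MP 10 :=
  [[[[[[[[[],[[Int.ofNat (nat_lit 1169532210354840)]]]],[[[[Int.ofNat (nat_lit 3990240853031616)]]]]]],[[[[[[Int.negSucc (nat_lit 723550105490347)]]]]],[[[[[Int.negSucc (nat_lit 1135083485261115)]]]]]]],[[[[],[[[[Int.ofNat (nat_lit 39635492756331958)]]]]]],[[[[[[Int.ofNat (nat_lit 5564167737105306)]]]]]]]],[[[[[[[[Int.ofNat (nat_lit 78967498750011630)]]]]],[[[[[Int.negSucc (nat_lit 12487131616168723)]]]]]]],[[[[[[[Int.ofNat (nat_lit 1165771310064158)]]]]]]]],[[[],[[[[[[Int.negSucc (nat_lit 534755330463093)]]]]]]]],[[[[[[[[Int.ofNat (nat_lit 523047011923088)]]]]]]]]],[[[[[[[[],[[Int.negSucc (nat_lit 533339802231821)]]]],[[[[Int.negSucc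 (nat_lit 6603928516342581)]]]]]],[[[[[[Int.ofNat (nat_lit 64187451962096126)]]]]]]]],[[[[[[[[Int.negSucc (nat_lit 15038616346495655)]]]]]]],[[[[[[[Int.ofNat (nat_lit 9144515402478522)]]]]]]]]],[[[[],[[[[[[Int.negSucc (nat_lit 3178723612313303)]]]]]]]],[[[[[[[[Int.ofNat (nat_lit 912592896705944)]]]]]]]]]]

/-- A coefficient. -/
noncomputable def sp5_m0_4_2 : MP 10 :=
  [[[[[[[[[[Int.ofNat (nat_lit 9887275201478530)]]]]],[[[[[Int.negSucc (nat_lit 54672376202737787)]]]]]],[],[[[[[[Int.negSucc (nat_lit 44416316567458381)]]]]]]],[[[[[[[Int.ofNat (nat_lit 55946394270316926)]]]]]]],[[[[[[[Int.negSucc (nat_lit 190257493290956782)]]]]]]]],[[[[[],[[[[Int.negSucc (nat_lit 28187342793412201)]]]]]],[[[[[[Int.ofNat (nat_lit 15465408406632744)]]]]]]]],[[[[[[[[Int.ofNat (nat_lit 156991792539352047)]]]]]]]]],[[[[[[[[[Int.ofNat (nat_lit 349088541546353432)]]]]],[[[[[Int.negSucc (nat_lit 14774004450672359)]]]]]]],[[[[[[[Int.ofNat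 (nat_lit 124948728209323256)]]]]]]]],[],[[[[[[[[Int.ofNat (nat_lit 5050876060515796)]]]]]]]]],[[[[[[[[[Int.negSucc (nat_lit 22621773981025784)]]]]]]]]],[[[[[[[[[Int.ofNat (nat_lit 883781226257646)]]]]]]]]]]

/-- A coefficient. -/
noncomputable def sp5_m0_4_3 : MP 10 :=
  [[[[[[[[[],[[Int.negSucc (nat_lit 2023975124485631)]]]],[[[[Int.negSucc (nat_lit 2178197404822921)]]]]]],[[[[[[Int.negSucc (nat_lit 26881132433868939)]]]]]]]],[[[[[[[[Int.negSucc (nat_lit 227396367692138843)]]]]]]],[[[[[[[Int.ofNat (nat_lit 97821032711601376)]]]]]]]]],[[[[],[[[[[[Int.negSucc (nat_lit 41079073862866781)]]]]]]]],[[[[[[[[Int.negSucc (nat_lit 7840573900552957)]]]]]]]]]]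

/-- A coefficient. -/
noncomputable def sp5_m0_4_4 : MP 10 :=
  [[[[[[[[[[Int.negSucc (nat_lit 1302067736217887842)]]]]],[[[[[Int.ofNat (nat_lit 60818857546460816)]]]]]]],[[[[[[[Int.negSucc (nat_lit 52561015479155361)]]]]]]]],[],[[[[[[[[Int.negSucc (nat_lit 474875218334719794)]]]]]]]]],[[[[[[[[[Int.negSucc (nat_lit 344196282023309041)]]]]]]]]],[[[[[[[[[Int.negSucc (nat_lit 143922697327767983)]]]]]]]]]]

/-- A coefficient. -/
noncomputable def sp5_m0_4_5 : MP 10 :=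
  [[[[[],[[[[[[Int.ofNat (nat_lit 6363708890818)]]]]]]]],[[[[[[[[Int.ofNat (nat_lit 692486516904110428)]]]]]]]]]]

/-- A coefficient. -/
noncomputable def sp5_m0_4_6 : MP 10 :=
  [[[[[[[[[[Int.ofNat (nat_lit 1288564660047463097)]]]]]]]]],[[[[[[[[[Int.ofNat (nat_lit 23958192596989978)]]]]]]]]]]

/-- A coefficient. -/
noncomputable def sp5_m0_4_7 : MP 10 :=
  []

/-- A coefficient. -/
noncomputable def sp5_m0_4_8 : MP 10 :=
  [[[[[[[[[[Int.negSucc (nat_lit 931770252879684217)]]]]]]]]]]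

/-- A coefficient. -/
noncomputable def sp5_m0_5_0 : MP 10 :=
  [[[[[],[[[],[[[[Int.ofNat (nat_lit 14125184782323796)]]]]]],[[[[[[Int.ofNat (nat_lit 30441437813315314)]]]]]]]],[[[[[[[],[[Int.negSucc (nat_lit 413337639090977)]]]],[[[[Int.ofNat (nat_lit 9570194787789854)]]]]]],[[[[[[Int.ofNat (nat_lit 2526368925145174)]]]]]]]],[[[[[[[[Int.negSucc (nat_lit 126671953444939159)]]]]]]],[[[[[[[Int.negSucc (nat_lit 1215357974500843)]]]]]]]]],[[],[[[],[[[[[[Int.ofNat (nat_lit 3880122268625432)]]]]]]]],[[[[[[[[Int.ofNat (nat_lit 10892876478303932)]]]]]]]]]]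

/-- A coefficient. -/
noncomputable def sp5_m0_5_1 : MP 10 :=
  [[[[[[[[[],[[Int.negSucc (nat_lit 4219151740612379)]]]],[[[[Int.negSucc (nat_lit 42803371739997341)]]]]]],[[[[[[Int.negSucc (nat_lit 80521223244803221)]]]]]]],[[],[[[[[[Int.negSucc (nat_lit 13783220150289537)]]]]]]]],[[[[[[[[Int.ofNat (nat_lit 345454375590349040)]]]]],[[[[[Int.ofNat (nat_lit 3998970355770462)]]]]]]],[[[[[[[Int.negSucc (nat_lit 2373720375489671)]]]]]]]],[],[[[[[[[[Int.ofNat (nat_lit 288457154466188)]]]]]]]]],[[[[[[],[[[[Int.ofNat (nat_lit 21112746187896622)]]]]]],[[[[[[Int.negSucc (nat_lit 7585138018337931)]]]]]]]],[[[[[[[[Int.negSucc (nat_lit 5940813723341987)]]]]]]]]],[[],[[[[[[[[Int.ofNat (nat_lit 3729240727761004)]]]]]]]]]]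

/-- A coefficient. -/
noncomputable def sp5_m0_5_2 : MP 10 :=
  [[[[[[[[[[Int.ofNat (nat_lit 723426889644727986)]]]]],[[[[[Int.ofNat (nat_lit 15552405945916614)]]]]]]],[[[[[[[Int.negSucc (nat_lit 30022809011586201)]]]]]]]],[[[],[[[[[[Int.negSucc (nat_lit 3268529484770187)]]]]]]]],[[[[[[[[Int.ofNat (nat_lit 106772006908136838)]]]]]]]]],[[[[[[[[[Int.negSucc (nat_lit 56704054819558761)]]]]]]],[[[[[[[Int.negSucc (nat_lit 20161962788381627)]]]]]]]]],[[[[[[[[[Int.ofNat (nat_lit 172682855361200752)]]]]]]]]]]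

/-- A coefficient. -/
noncomputable def sp5_m0_5_3 : MP 10 :=
  [[[[[[[],[[[[Int.ofNat (nat_lit 72493006863188376)]]]]]],[[[[[[Int.ofNat (nat_lit 89605098607316412)]]]]]]]],[[[[[[[[Int.negSucc (nat_lit 445713643528393839)]]]]]]]]],[[],[[[[[[[[Int.negSucc (nat_lit 21186415157689519)]]]]]]]]]]

/-- A coefficient. -/
noncomputable def sp5_m0_5_4 : MP 10 :=
  [[[[[[[[[[Int.negSucc (nat_lit 2028746513540746931)]]]]]]],[[[[[[[Int.negSucc (nat_lit 151695388343040541)]]]]]]]]],[[[[[[[[[Int.ofNat (nat_lit 190728449334467434)]]]]]]]]]]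

/-- A coefficient. -/
noncomputable def sp5_m0_5_5 : MP 10 :=
  [[[],[[[[[[[[Int.ofNat (nat_lit 66578100031758068)]]]]]]]]]]

/-- A coefficient. -/
noncomputable def sp5_m0_5_6 : MP 10 :=
  [[[[[[[[[[Int.ofNat (nat_lit 2931449304074924380)]]]]]]]]]]

/-- A coefficient. -/
noncomputable def sp5_m0_6_0 : MP 10 :=
  [[[[[],[],[[[[[[Int.negSucc (nat_lit 47270894644615961)]]]]]]]],[[[[[],[[[[Int.negSucc (nat_lit 16614569309697261)]]]]]],[[[[[[Int.ofNat (nat_lit 11615004852402838)]]]]]]]],[[[[[[[[Int.ofNat (nat_lit 4549159456509661)]]]]]]]]],[[],[],[[[[[[[[Int.negSucc (nat_lit 247242284905677)]]]]]]]]]]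

/-- A coefficient. -/
noncomputable def sp5_m0_6_1 : MP 10 :=
  [[[[[[[[[],[[Int.ofNat (nat_lit 1571380023495852)]]]],[[[[Int.negSucc (nat_lit 11218902244477393)]]]]]],[[[[[[Int.ofNat (nat_lit 34022636955895642)]]]]]]]],[[[[[[[[Int.ofNat (nat_lit 26761430471015186)]]]]]]],[[[[[[[Int.negSucc (nat_lit 1745583518341539)]]]]]]]]],[[[[],[[[[[[Int.negSucc (nat_lit 49357146429233637)]]]]]]]],[[[[[[[[Int.ofNat (nat_lit 17875052369944206)]]]]]]]]]]

/-- A coefficient. -/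
noncomputable def sp5_m0_6_2 : MP 10 :=
  [[[[[[[[[[Int.negSucc (nat_lit 1392248176324234742)]]]]],[[[[[Int.ofNat (nat_lit 22903169811524440)]]]]]]],[[[[[[[Int.ofNat (nat_lit 57105826672049948)]]]]]]]],[],[[[[[[[[Int.negSucc (nat_lit 50721132303866519)]]]]]]]]],[[[[[[[[[Int.negSucc (nat_lit 467442100514034801)]]]]]]]]],[[[[[[[[[Int.negSucc (nat_lit 2176157041442447)]]]]]]]]]]

/-- A coefficient. -/
noncomputable def sp5_m0_6_3 : MP 10 :=
  [[[[[],[[[[[[Int.negSucc (nat_lit 38668704649636545)]]]]]]]],[[[[[[[[Int.negSucc (nat_lit 8877867406200379)]]]]]]]]]]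

/-- A coefficient. -/
noncomputable def sp5_m0_6_4 : MP 10 :=
  [[[[[[[[[[Int.ofNat (nat_lit 2795210194587536124)]]]]]]]]],[[[[[[[[[Int.negSucc (nat_lit 39312222544199865)]]]]]]]]]]

/-- A coefficient. -/
noncomputable def sp5_m0_6_5 : MP 10 :=
  []

/-- A coefficient. -/
noncomputable def sp5_m0_6_6 : MP 10 :=
  [[[[[[[[[[Int.negSucc (nat_lit 13991305919578819)]]]]]]]]]]

/-- A coefficient. -/
noncomputable def sp5_m0_7_0 : MP 10 :=
  [[[],[[[],[[[[[[Int.negSucc (nat_lit 5651739975570609)]]]]]]]],[[[[[[[[Int.ofNat (nat_lit 103772276574981328)]]]]]]]]]]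

/-- A coefficient. -/
noncomputable def sp5_m0_7_1 : MP 10 :=
  [[[[[[[],[[[[Int.ofNat (nat_lit 27035006191930954)]]]]]],[[[[[[Int.ofNat (nat_lit 81010201028287176)]]]]]]]],[[[[[[[[Int.negSucc (nat_lit 254037318667610581)]]]]]]]]],[[],[[[[[[[[Int.ofNat (nat_lit 13132694168011646)]]]]]]]]]]

/-- A coefficient. -/
noncomputable def sp5_m0_7_2 : MP 10 :=
  [[[[[[[[[[Int.negSucc (nat_lit 412938557970366065)]]]]]]],[[[[[[[Int.negSucc (nat_lit 104785490829410991)]]]]]]]]],[[[[[[[[[Int.ofNat (nat_lit 102967570108364856)]]]]]]]]]]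

/-- A coefficient. -/
noncomputable def sp5_m0_7_3 : MP 10 :=
  [[[],[[[[[[[[Int.ofNat (nat_lit 73347932391089252)]]]]]]]]]]

/-- A coefficient. -/
noncomputable def sp5_m0_7_4 : MP 10 :=
  [[[[[[[[[[Int.ofNat (nat_lit 429425117456851388)]]]]]]]]]]

/-- A coefficient. -/
noncomputable def sp5_m0_8_0 : MP 10 :=
  []

/-- A coefficient. -/
noncomputable def sp5_m0_8_1 : MP 10 :=
  [[[[[],[[[[[[Int.negSucc (nat_lit 55465627815963197)]]]]]]]],[[[[[[[[Int.negSucc (nat_lit 39181859227331441)]]]]]]]]]]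

/-- A coefficient. -/
noncomputable def sp5_m0_8_2 : MP 10 :=
  [[[[[[[[[[Int.ofNat (nat_lit 1192488000904316432)]]]]]]]]]]

/-- An expanded part. -/
noncomputable def sp5_m0 : R12 :=
  [[sp5_m0_0_0, sp5_m0_0_1, sp5_m0_0_2, sp5_m0_0_3, sp5_m0_0_4, sp5_m0_0_5, sp5_m0_0_6, sp5_m0_0_7, sp5_m0_0_8, sp5_m0_0_9, sp5_m0_0_10, sp5_m0_0_11, sp5_m0_0_12],
   [sp5_m0_1_0, sp5_m0_1_1, sp5_m0_1_2, sp5_m0_1_3, sp5_m0_1_4, sp5_m0_1_5, sp5_m0_1_6, sp5_m0_1_7, sp5_m0_1_8, sp5_m0_1_9, sp5_m0_1_10],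
   [sp5_m0_2_0, sp5_m0_2_1, sp5_m0_2_2, sp5_m0_2_3, sp5_m0_2_4, sp5_m0_2_5, sp5_m0_2_6, sp5_m0_2_7, sp5_m0_2_8, sp5_m0_2_9, sp5_m0_2_10],
   [sp5_m0_3_0, sp5_m0_3_1, sp5_m0_3_2, sp5_m0_3_3, sp5_m0_3_4, sp5_m0_3_5, sp5_m0_3_6, sp5_m0_3_7, sp5_m0_3_8],
   [sp5_m0_4_0, sp5_m0_4_1, sp5_m0_4_2, sp5_m0_4_3, sp5_m0_4_4, sp5_m0_4_5, sp5_m0_4_6, sp5_m0_4_7, sp5_m0_4_8],
   [sp5_m0_5_0, sp5_m0_5_1, sp5_m0_5_2, sp5_m0_5_3, sp5_m0_5_4, sp5_m0_5_5, sp5_m0_5_6],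
   [sp5_m0_6_0, sp5_m0_6_1, sp5_m0_6_2, sp5_m0_6_3, sp5_m0_6_4, sp5_m0_6_5, sp5_m0_6_6],
   [sp5_m0_7_0, sp5_m0_7_1, sp5_m0_7_2, sp5_m0_7_3, sp5_m0_7_4],
   [sp5_m0_8_0, sp5_m0_8_1, sp5_m0_8_2]]

set_option maxRecDepth 100000 in
theorem sp5_check0 : partOk 2 sp5_rows 0 sp5_m0 = true :=
  Fast.partOk_of_fast (by decide +kernel)

end Vale.Agent.P142K.CertB
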