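import Vale.Agent.P142K.Checker

/-!
# A factor of the certificate

Generated from a semidefinite program; only the checker is trusted.
-/

namespace Vale.Agent.P142K.CertB

open Vale.Agent.P142J (MP)

/-- A row. -/
noncomputable def sp5_c0_0 : List ℕ × List ℤ :=
  ([(nat_lit 0),(nat_lit 0),(nat_lit 0),(nat_lit 0),(nat_lit 0),(nat_lit 0),(nat_lit 0),(nat_lit 0),(nat_lit 0),(nat_lit 1),(nat_lit 0),(nat_lit 0)], [Int.ofNat (nat_lit 53006643)])

/-- A row. -/
noncomputable def sp5_c0_1 : List ℕ × List ℤ :=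
  ([(nat_lit 0),(nat_lit 0),(nat_lit 0),(nat_lit 0),(nat_lit 0),(nat_lit 0),(nat_lit 0),(nat_lit 1),(nat_lit 0),(nat_lit 0),(nat_lit 0),(nat_lit 0)], [Int.ofNat (nat_lit 3738234),Int.ofNat (nat_lit 68438567)])

/-- A row. -/
noncomputable def sp5_c0_2 : List ℕ × List ℤ :=
  ([(nat_lit 0),(nat_lit 0),(nat_lit 0),(nat_lit 0),(nat_lit 0),(nat_lit 1),(nat_lit 0),(nat_lit 0),(nat_lit 0),(nat_lit 0),(nat_lit 0),(nat_lit 0)], [Int.ofNat (nat_lit 85500),Int.ofNat (nat_lit 4881449),Int.ofNat (nat_lit 50713053)])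

/-- A row. -/
noncomputable def sp5_c0_3 : List ℕ × List ℤ :=
  ([(nat_lit 0),(nat_lit 0),(nat_lit 0),(nat_lit 1),(nat_lit 0),(nat_lit 0),(nat_lit 0),(nat_lit 0),(nat_lit 0),(nat_lit 0),(nat_lit 0),(nat_lit 0)], [Int.negSucc (nat_lit 26818761),Int.negSucc (nat_lit 8378283),Int.negSucc (nat_lit 3795677),Int.ofNat (nat_lit 77161116)])

/-- A row. -/
noncomputable def sp5_c0_4 : List ℕ × List ℤ :=
  ([(nat_lit 0),(nat_lit 0),(nat_lit 0),(nat_lit 1),(nat_lit 1),(nat_lit 0),(nat_lit 0),(nat_lit 0),(nat_lit 0),(nat_lit 0),(nat_lit 0),(nat_lit 0)], [Int.ofNat (nat_lit 18928470),Int.negSucc (nat_lit 7473413),Int.negSucc (nat_lit 5966428),Int.negSucc (nat_lit 24102175),Int.ofNat (nat_lit 41316543)])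

/-- A row. -/
noncomputable def sp5_c0_5 : List ℕ × List ℤ :=
  ([(nat_lit 0),(nat_lit 0),(nat_lit 1),(nat_lit 0),(nat_lit 0),(nat_lit 1),(nat_lit 0),(nat_lit 0),(nat_lit 0),(nat_lit 0),(nat_lit 0),(nat_lit 0)], [Int.ofNat (nat_lit 30220874),Int.ofNat (nat_lit 9272494),Int.negSucc (nat_lit 5057788),Int.ofNat (nat_lit 1633561),Int.negSucc (nat_lit 16322648),Int.ofNat (nat_lit 32258558)])

/-- A row. -/
noncomputable def sp5_c0_6 : List ℕ × List ℤ :=
  ([(nat_lit 0),(nat_lit 0),(nat_lit 1),(nat_lit 1),(nat_lit 0),(nat_lit 0),(nat_lit 0),(nat_lit 0),(nat_lit 0),(nat_lit 0),(nat_lit 0),(nat_lit 0)], [Int.negSucc (nat_lit 15912164),Int.ofNat (nat_lit 12350676),Int.ofNat (nat_lit 6102174),Int.ofNat (nat_lit 22676155),Int.negSucc (nat_lit 18555558),Int.negSucc (nat_lit 16962920),Int.ofNat (nat_lit 19971116)])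

/-- A row. -/
noncomputable def sp5_c0_7 : List ℕ × List ℤ :=
  ([(nat_lit 0),(nat_lit 1),(nat_lit 0),(nat_lit 0),(nat_lit 0),(nat_lit 0),(nat_lit 0),(nat_lit 0),(nat_lit 0),(nat_lit 0),(nat_lit 0),(nat_lit 0)], [Int.ofNat (nat_lit 19041283),Int.ofNat (nat_lit 18416942),Int.ofNat (nat_lit 18537319),Int.negSucc (nat_lit 111183812),Int.ofNat (nat_lit 5465401),Int.negSucc (nat_lit 3377439),Int.negSucc (nat_lit 1867699),Int.ofNat (nat_lit 88450902)])

/-- A row. -/
noncomputable def sp5_c0_8 : List ℕ × List ℤ :=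
  ([(nat_lit 0),(nat_lit 1),(nat_lit 0),(nat_lit 0),(nat_lit 0),(nat_lit 0),(nat_lit 1),(nat_lit 0),(nat_lit 0),(nat_lit 0),(nat_lit 0),(nat_lit 0)], [Int.negSucc (nat_lit 131517597),Int.ofNat (nat_lit 8718904),Int.ofNat (nat_lit 44136148),Int.negSucc (nat_lit 3697974),Int.negSucc (nat_lit 28366987),Int.ofNat (nat_lit 50903081),Int.ofNat (nat_lit 6958701),Int.negSucc (nat_lit 30017665),Int.ofNat (nat_lit 208432841)])

/-- A row. -/
noncomputable def sp5_c0_9 : List ℕ × List ℤ :=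
  ([(nat_lit 0),(nat_lit 1),(nat_lit 0),(nat_lit 0),(nat_lit 1),(nat_lit 0),(nat_lit 0),(nat_lit 0),(nat_lit 0),(nat_lit 0),(nat_lit 0),(nat_lit 0)], [Int.negSucc (nat_lit 33625503),Int.negSucc (nat_lit 17778453),Int.negSucc (nat_lit 3130499),Int.ofNat (nat_lit 23451529),Int.negSucc (nat_lit 61744868),Int.negSucc (nat_lit 5718324),Int.negSucc (nat_lit 12688530),Int.negSucc (nat_lit 22253216),Int.negSucc (nat_lit 12168574),Int.ofNat (nat_lit 190151292)])

/-- A row. -/
noncomputable def sp5_c0_10 : List ℕ × List ℤ :=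
  ([(nat_lit 0),(nat_lit 1),(nat_lit 0),(nat_lit 2),(nat_lit 0),(nat_lit 0),(nat_lit 0),(nat_lit 0),(nat_lit 0),(nat_lit 0),(nat_lit 0),(nat_lit 0)], [Int.ofNat (nat_lit 238872),Int.negSucc (nat_lit 453637),Int.negSucc (nat_lit 1550876),Int.ofNat (nat_lit 1616418),Int.ofNat (nat_lit 101685),Int.negSucc (nat_lit 4347004),Int.negSucc (nat_lit 360301),Int.ofNat (nat_lit 2141586),Int.negSucc (nat_lit 13135488),Int.negSucc (nat_lit 2038376),Int.ofNat (nat_lit 26040804)])

/-- A row. -/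
noncomputable def sp5_c0_11 : List ℕ × List ℤ :=
  ([(nat_lit 0),(nat_lit 1),(nat_lit 1),(nat_lit 0),(nat_lit 0),(nat_lit 0),(nat_lit 0),(nat_lit 0),(nat_lit 0),(nat_lit 0),(nat_lit 0),(nat_lit 0)], [Int.ofNat (nat_lit 3413927),Int.negSucc (nat_lit 32831613),Int.negSucc (nat_lit 3080036),Int.negSucc (nat_lit 52299140),Int.ofNat (nat_lit 43466315),Int.negSucc (nat_lit 3524847),Int.negSucc (nat_lit 5813823),Int.ofNat (nat_lit 76073759),Int.ofNat (nat_lit 8426048),Int.negSucc (nat_lit 107581015),Int.negSucc (nat_lit 17641024),Int.ofNat (nat_lit 235452043)])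

/-- A row. -/
noncomputable def sp5_c0_12 : List ℕ × List ℤ :=
  ([(nat_lit 0),(nat_lit 1),(nat_lit 2),(nat_lit 0),(nat_lit 0),(nat_lit 0),(nat_lit 0),(nat_lit 0),(nat_lit 0),(nat_lit 0),(nat_lit 0),(nat_lit 0)], [Int.negSucc (nat_lit 3935823),Int.negSucc (nat_lit 40667),Int.negSucc (nat_lit 934633),Int.negSucc (nat_lit 2594041),Int.ofNat (nat_lit 4972532),Int.ofNat (nat_lit 3719404),Int.ofNat (nat_lit 603406),Int.ofNat (nat_lit 2363637),Int.ofNat (nat_lit 11978694),Int.negSucc (nat_lit 19135683),Int.negSucc (nat_lit 21647550),Int.ofNat (nat_lit 14439274),Int.ofNat (nat_lit 51172662)])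

/-- A row. -/
noncomputable def sp5_c0_13 : List ℕ × List ℤ :=
  ([(nat_lit 0),(nat_lit 2),(nat_lit 0),(nat_lit 0),(nat_lit 0),(nat_lit 1),(nat_lit 0),(nat_lit 0),(nat_lit 0),(nat_lit 0),(nat_lit 0),(nat_lit 0)], [Int.negSucc (nat_lit 52167061),Int.negSucc (nat_lit 29613439),Int.negSucc (nat_lit 106493435),Int.ofNat (nat_lit 160269),Int.ofNat (nat_lit 4049317),Int.ofNat (nat_lit 4542501),Int.negSucc (nat_lit 1393214),Int.ofNat (nat_lit 5479321),Int.ofNat (nat_lit 37795609),Int.negSucc (nat_lit 34477850),Int.ofNat (nat_lit 53509285),Int.negSucc (nat_lit 4688853),Int.negSucc (nat_lit 212989),Int.ofNat (nat_lit 223025459)])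

/-- A row. -/
noncomputable def sp5_c0_14 : List ℕ × List ℤ :=
  ([(nat_lit 0),(nat_lit 2),(nat_lit 0),(nat_lit 1),(nat_lit 0),(nat_lit 0),(nat_lit 0),(nat_lit 0),(nat_lit 0),(nat_lit 0),(nat_lit 0),(nat_lit 0)], [Int.ofNat (nat_lit 34327069),Int.ofNat (nat_lit 44946113),Int.ofNat (nat_lit 27149127),Int.negSucc (nat_lit 124885159),Int.negSucc (nat_lit 57710651),Int.ofNat (nat_lit 12617615),Int.ofNat (nat_lit 15746226),Int.negSucc (nat_lit 11737095),Int.ofNat (nat_lit 33125083),Int.negSucc (nat_lit 63392039),Int.negSucc (nat_lit 104429060),Int.ofNat (nat_lit 405490),Int.ofNat (nat_lit 12155432),Int.negSucc (nat_lit 77130420),Int.ofNat (nat_lit 200449540)])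

/-- A row. -/
noncomputable def sp5_c0_15 : List ℕ × List ℤ :=
  ([(nat_lit 0),(nat_lit 3),(nat_lit 0),(nat_lit 0),(nat_lit 0),(nat_lit 0),(nat_lit 0),(nat_lit 0),(nat_lit 0),(nat_lit 0),(nat_lit 0),(nat_lit 0)], [Int.ofNat (nat_lit 26429308),Int.negSucc (nat_lit 55436067),Int.negSucc (nat_lit 70297976),Int.ofNat (nat_lit 309381954),Int.ofNat (nat_lit 24791933),Int.ofNat (nat_lit 13596202),Int.negSucc (nat_lit 5751778),Int.negSucc (nat_lit 454699575),Int.negSucc (nat_lit 87784),Int.ofNat (nat_lit 40367534),Int.ofNat (nat_lit 75978762),Int.ofNat (nat_lit 2778676),Int.negSucc (nat_lit 33813670),Int.ofNat (nat_lit 105440137),Int.negSucc (nat_lit 208857665),Int.ofNat (nat_lit 479263113)])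

/-- A row. -/
noncomputable def sp5_c0_16 : List ℕ × List ℤ :=
  ([(nat_lit 0),(nat_lit 3),(nat_lit 1),(nat_lit 0),(nat_lit 0),(nat_lit 0),(nat_lit 0),(nat_lit 0),(nat_lit 0),(nat_lit 0),(nat_lit 0),(nat_lit 0)], [Int.ofNat (nat_lit 25703776),Int.ofNat (nat_lit 44161207),Int.ofNat (nat_lit 257409),Int.ofNat (nat_lit 57646842),Int.negSucc (nat_lit 27154585),Int.ofNat (nat_lit 32029731),Int.ofNat (nat_lit 10038672),Int.negSucc (nat_lit 101913064),Int.ofNat (nat_lit 3491049),Int.ofNat (nat_lit 31024863),Int.ofNat (nat_lit 6160454),Int.negSucc (nat_lit 370182346),Int.ofNat (nat_lit 124063973),Int.ofNat (nat_lit 37013532),Int.negSucc (nat_lit 22291429),Int.ofNat (nat_lit 10380788),Int.ofNat (nat_lit 374090569)])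

/-- A row. -/
noncomputable def sp5_c0_17 : List ℕ × List ℤ :=
  ([(nat_lit 0),(nat_lit 5),(nat_lit 0),(nat_lit 0),(nat_lit 0),(nat_lit 0),(nat_lit 0),(nat_lit 0),(nat_lit 0),(nat_lit 0),(nat_lit 0),(nat_lit 0)], [Int.negSucc (nat_lit 102541077),Int.ofNat (nat_lit 14179828),Int.ofNat (nat_lit 34162256),Int.negSucc (nat_lit 184196273),Int.negSucc (nat_lit 7207487),Int.negSucc (nat_lit 22362640),Int.negSucc (nat_lit 9230231),Int.ofNat (nat_lit 458124658),Int.negSucc (nat_lit 23133077),Int.ofNat (nat_lit 25799479),Int.negSucc (nat_lit 20852144),Int.negSucc (nat_lit 15796691),Int.negSucc (nat_lit 3270149),Int.negSucc (nat_lit 24056837),Int.ofNat (nat_lit 93056933),Int.negSucc (nat_lit 677489077),Int.negSucc (nat_lit 22691741),Int.ofNat (nat_lit 326093290)])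

/-- A row. -/
noncomputable def sp5_c0_18 : List ℕ × List ℤ :=
  ([(nat_lit 1),(nat_lit 0),(nat_lit 0),(nat_lit 0),(nat_lit 0),(nat_lit 0),(nat_lit 0),(nat_lit 1),(nat_lit 0),(nat_lit 0),(nat_lit 0),(nat_lit 0)], [Int.negSucc (nat_lit 90766),Int.negSucc (nat_lit 128898134),Int.ofNat (nat_lit 11919615),Int.ofNat (nat_lit 12190800),Int.negSucc (nat_lit 25907730),Int.negSucc (nat_lit 28393935),Int.ofNat (nat_lit 11605353),Int.ofNat (nat_lit 873038),Int.ofNat (nat_lit 3063977),Int.negSucc (nat_lit 10212526),Int.ofNat (nat_lit 1220136),Int.negSucc (nat_lit 16749453),Int.negSucc (nat_lit 3902827),Int.ofNat (nat_lit 4088061),Int.ofNat (nat_lit 638480),Int.negSucc (nat_lit 4212310),Int.ofNat (nat_lit 6442770),Int.ofNat (nat_lit 1003304),Int.ofNat (nat_lit 92628523)])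

/-- A row. -/
noncomputable def sp5_c0_19 : List ℕ × List ℤ :=
  ([(nat_lit 1),(nat_lit 0),(nat_lit 0),(nat_lit 0),(nat_lit 0),(nat_lit 1),(nat_lit 0),(nat_lit 0),(nat_lit 0),(nat_lit 0),(nat_lit 0),(nat_lit 0)], [Int.negSucc (nat_lit 40891606),Int.negSucc (nat_lit 28685551),Int.negSucc (nat_lit 55192191),Int.ofNat (nat_lit 13658853),Int.negSucc (nat_lit 5236108),Int.negSucc (nat_lit 33414552),Int.negSucc (nat_lit 3780379),Int.negSucc (nat_lit 4899925),Int.ofNat (nat_lit 21284470),Int.negSucc (nat_lit 1414697),Int.negSucc (nat_lit 1995848),Int.ofNat (nat_lit 10071615),Int.ofNat (nat_lit 686307),Int.negSucc (nat_lit 1485394),Int.negSucc (nat_lit 1415703),Int.ofNat (nat_lit 112394),Int.ofNat (nat_lit 2377644),Int.ofNat (nat_lit 818513),Int.negSucc (nat_lit 7726165),Int.ofNat (nat_lit 111169882)])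

/-- A row. -/
noncomputable def sp5_c0_20 : List ℕ × List ℤ :=
  ([(nat_lit 1),(nat_lit 0),(nat_lit 0),(nat_lit 1),(nat_lit 0),(nat_lit 0),(nat_lit 0),(nat_lit 0),(nat_lit 0),(nat_lit 0),(nat_lit 0),(nat_lit 0)], [Int.ofNat (nat_lit 75877406),Int.negSucc (nat_lit 6537213),Int.ofNat (nat_lit 484477),Int.negSucc (nat_lit 173527066),Int.ofNat (nat_lit 35896836),Int.negSucc (nat_lit 7404688),Int.negSucc (nat_lit 7796722),Int.negSucc (nat_lit 8301163),Int.negSucc (nat_lit 6238849),Int.negSucc (nat_lit 3220494),Int.ofNat (nat_lit 2525401),Int.ofNat (nat_lit 2656031),Int.ofNat (nat_lit 5744190),Int.negSucc (nat_lit 2252217),Int.ofNat (nat_lit 9677864),Int.ofNat (nat_lit 4200246),Int.ofNat (nat_lit 445251),Int.negSucc (nat_lit 441631),Int.negSucc (nat_lit 34532922),Int.negSucc (nat_lit 17280325),Int.ofNat (nat_lit 108325307)])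

/-- A row. -/
noncomputable def sp5_c0_21 : List ℕ × List ℤ :=
  ([(nat_lit 1),(nat_lit 0),(nat_lit 1),(nat_lit 1),(nat_lit 0),(nat_lit 0),(nat_lit 0),(nat_lit 0),(nat_lit 0),(nat_lit 0),(nat_lit 0),(nat_lit 0)], [Int.ofNat (nat_lit 24938966),Int.negSucc (nat_lit 16159964),Int.ofNat (nat_lit 4233171),Int.ofNat (nat_lit 3955200),Int.negSucc (nat_lit 3150475),Int.negSucc (nat_lit 15755334),Int.negSucc (nat_lit 3710613),Int.negSucc (nat_lit 1264341),Int.ofNat (nat_lit 602156),Int.negSucc (nat_lit 2716092),Int.ofNat (nat_lit 1928601),Int.negSucc (nat_lit 1937718),Int.ofNat (nat_lit 897469),Int.ofNat (nat_lit 1527924),Int.negSucc (nat_lit 201941),Int.negSucc (nat_lit 849073),Int.ofNat (nat_lit 762500),Int.ofNat (nat_lit 6698),Int.ofNat (nat_lit 14940267),Int.negSucc (nat_lit 3604471),Int.ofNat (nat_lit 16183310),Int.ofNat (nat_lit 41755900)])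

/-- A row. -/
noncomputable def sp5_c0_22 : List ℕ × List ℤ :=
  ([(nat_lit 1),(nat_lit 1),(nat_lit 0),(nat_lit 0),(nat_lit 0),(nat_lit 0),(nat_lit 0),(nat_lit 0),(nat_lit 0),(nat_lit 0),(nat_lit 0),(nat_lit 0)], [Int.negSucc (nat_lit 72169401),Int.ofNat (nat_lit 20401586),Int.negSucc (nat_lit 82020003),Int.ofNat (nat_lit 198011093),Int.negSucc (nat_lit 71179436),Int.ofNat (nat_lit 38998464),Int.negSucc (nat_lit 8669513),Int.negSucc (nat_lit 169847304),Int.negSucc (nat_lit 53236771),Int.ofNat (nat_lit 98844133),Int.ofNat (nat_lit 3866574),Int.negSucc (nat_lit 134450650),Int.negSucc (nat_lit 16882322),Int.ofNat (nat_lit 1064781),Int.negSucc (nat_lit 21611400),Int.negSucc (nat_lit 66197072),Int.ofNat (nat_lit 5733455),Int.ofNat (nat_lit 12525688),Int.ofNat (nat_lit 61843992),Int.ofNat (nat_lit 25736627),Int.negSucc (nat_lit 156517776),Int.negSucc (nat_lit 453650),Int.ofNat (nat_lit 324715918)])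

/-- A row. -/
noncomputable def sp5_c0_23 : List ℕ × List ℤ :=
  ([(nat_lit 1),(nat_lit 1),(nat_lit 0),(nat_lit 0),(nat_lit 1),(nat_lit 0),(nat_lit 0),(nat_lit 0),(nat_lit 0),(nat_lit 0),(nat_lit 0),(nat_lit 0)], [Int.negSucc (nat_lit 7220329),Int.ofNat (nat_lit 41910413),Int.ofNat (nat_lit 6231985),Int.ofNat (nat_lit 2010189),Int.ofNat (nat_lit 43756976),Int.ofNat (nat_lit 11546443),Int.negSucc (nat_lit 11463553),Int.ofNat (nat_lit 24079569),Int.negSucc (nat_lit 40080410),Int.negSucc (nat_lit 207041556),Int.ofNat (nat_lit 25913456),Int.negSucc (nat_lit 32082481),Int.ofNat (nat_lit 12558064),Int.negSucc (nat_lit 26743187),Int.negSucc (nat_lit 3993566),Int.ofNat (nat_lit 13782106),Int.negSucc (nat_lit 2874604),Int.ofNat (nat_lit 2807583),Int.negSucc (nat_lit 164824538),Int.negSucc (nat_lit 28271244),Int.negSucc (nat_lit 37458474),Int.negSucc (nat_lit 4956670),Int.negSucc (nat_lit 18703263),Int.ofNat (nat_lit 329597443)])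

/-- A row. -/
noncomputable def sp5_c0_24 : List ℕ × List ℤ :=
  ([(nat_lit 1),(nat_lit 1),(nat_lit 1),(nat_lit 0),(nat_lit 0),(nat_lit 0),(nat_lit 0),(nat_lit 0),(nat_lit 0),(nat_lit 0),(nat_lit 0),(nat_lit 0)], [Int.negSucc (nat_lit 16355219),Int.ofNat (nat_lit 1685252),Int.negSucc (nat_lit 14780956),Int.ofNat (nat_lit 9447008),Int.negSucc (nat_lit 38540725),Int.ofNat (nat_lit 7096540),Int.negSucc (nat_lit 5924530),Int.negSucc (nat_lit 30638092),Int.negSucc (nat_lit 18111573),Int.ofNat (nat_lit 126344808),Int.ofNat (nat_lit 34697267),Int.negSucc (nat_lit 83534438),Int.negSucc (nat_lit 180104320),Int.ofNat (nat_lit 15349150),Int.ofNat (nat_lit 12239125),Int.negSucc (nat_lit 11218081),Int.ofNat (nat_lit 17893498),Int.negSucc (nat_lit 1122706),Int.negSucc (nat_lit 18381877),Int.ofNat (nat_lit 3667269),Int.negSucc (nat_lit 29176755),Int.ofNat (nat_lit 3313725),Int.ofNat (nat_lit 33166781),Int.negSucc (nat_lit 145348088),Int.ofNat (nat_lit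 325349097)])

/-- A row. -/
noncomputable def sp5_c0_25 : List ℕ × List ℤ :=
  ([(nat_lit 1),(nat_lit 2),(nat_lit 0),(nat_lit 1),(nat_lit 0),(nat_lit 0),(nat_lit 0),(nat_lit 0),(nat_lit 0),(nat_lit 0),(nat_lit 0),(nat_lit 0)], [Int.negSucc (nat_lit 51315444),Int.negSucc (nat_lit 44032),Int.ofNat (nat_lit 26448838),Int.ofNat (nat_lit 169214152),Int.ofNat (nat_lit 95480069),Int.ofNat (nat_lit 59816687),Int.negSucc (nat_lit 41086401),Int.ofNat (nat_lit 21190554),Int.ofNat (nat_lit 27398405),Int.ofNat (nat_lit 93193378),Int.ofNat (nat_lit 15194665),Int.negSucc (nat_lit 4730244),Int.ofNat (nat_lit 1634298),Int.negSucc (nat_lit 13336775),Int.negSucc (nat_lit 252591486),Int.negSucc (nat_lit 45591870),Int.ofNat (nat_lit 36147205),Int.ofNat (nat_lit 15644019),Int.ofNat (nat_lit 92627293),Int.negSucc (nat_lit 23685418),Int.negSucc (nat_lit 171111238),Int.ofNat (nat_lit 31552565),Int.negSucc (nat_lit 51012073),Int.negSucc (nat_lit 117253014),Int.negSucc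 (nat_lit 10949466),Int.ofNat (nat_lit 493902922)])

/-- A row. -/
noncomputable def sp5_c0_26 : List ℕ × List ℤ :=
  ([(nat_lit 1),(nat_lit 3),(nat_lit 0),(nat_lit 0),(nat_lit 0),(nat_lit 0),(nat_lit 0),(nat_lit 0),(nat_lit 0),(nat_lit 0),(nat_lit 0),(nat_lit 0)], [Int.ofNat (nat_lit 78818704),Int.negSucc (nat_lit 41503103),Int.ofNat (nat_lit 82596021),Int.negSucc (nat_lit 243689583),Int.negSucc (nat_lit 16537814),Int.negSucc (nat_lit 110590140),Int.ofNat (nat_lit 38557768),Int.ofNat (nat_lit 250661031),Int.ofNat (nat_lit 38494446),Int.negSucc (nat_lit 80695793),Int.negSucc (nat_lit 23384488),Int.ofNat (nat_lit 224758638),Int.negSucc (nat_lit 4513225),Int.negSucc (nat_lit 66284800),Int.ofNat (nat_lit 264574308),Int.ofNat (nat_lit 2152862),Int.negSucc (nat_lit 269102477),Int.negSucc (nat_lit 86317224),Int.negSucc (nat_lit 133725811),Int.ofNat (nat_lit 7214453),Int.ofNat (nat_lit 243823763),Int.negSucc (nat_lit 36457728),Int.negSucc (nat_lit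 555045831),Int.ofNat (nat_lit 100727212),Int.negSucc (nat_lit 28537104),Int.negSucc (nat_lit 399325970),Int.ofNat (nat_lit 745398591)])

/-- A row. -/
noncomputable def sp5_c0_27 : List ℕ × List ℤ :=
  ([(nat_lit 2),(nat_lit 0),(nat_lit 0),(nat_lit 0),(nat_lit 0),(nat_lit 1),(nat_lit 0),(nat_lit 0),(nat_lit 0),(nat_lit 0),(nat_lit 0),(nat_lit 0)], [Int.negSucc (nat_lit 39825416),Int.ofNat (nat_lit 21489037),Int.negSucc (nat_lit 45564162),Int.ofNat (nat_lit 1308603),Int.ofNat (nat_lit 1140636),Int.ofNat (nat_lit 7767039),Int.negSucc (nat_lit 6596269),Int.ofNat (nat_lit 2171984),Int.negSucc (nat_lit 14842223),Int.ofNat (nat_lit 3433489),Int.ofNat (nat_lit 2016740),Int.negSucc (nat_lit 8440396),Int.negSucc (nat_lit 5865976),Int.negSucc (nat_lit 32513662),Int.ofNat (nat_lit 169493),Int.ofNat (nat_lit 7015703),Int.negSucc (nat_lit 15359774),Int.negSucc (nat_lit 348098),Int.negSucc (nat_lit 35290719),Int.negSucc (nat_lit 165378821),Int.negSucc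 (nat_lit 2902496),Int.negSucc (nat_lit 8407735),Int.negSucc (nat_lit 4229240),Int.negSucc (nat_lit 18648757),Int.ofNat (nat_lit 11284421),Int.negSucc (nat_lit 19267390),Int.ofNat (nat_lit 657353),Int.ofNat (nat_lit 108682070)])

/-- A row. -/
noncomputable def sp5_c0_28 : List ℕ × List ℤ :=
  ([(nat_lit 2),(nat_lit 0),(nat_lit 0),(nat_lit 1),(nat_lit 0),(nat_lit 0),(nat_lit 0),(nat_lit 0),(nat_lit 0),(nat_lit 0),(nat_lit 0),(nat_lit 0)], [Int.negSucc (nat_lit 19026522),Int.ofNat (nat_lit 24355033),Int.ofNat (nat_lit 11383661),Int.negSucc (nat_lit 96945363),Int.negSucc (nat_lit 52197909),Int.negSucc (nat_lit 2428542),Int.ofNat (nat_lit 35299495),Int.ofNat (nat_lit 5309851),Int.ofNat (nat_lit 5875442),Int.negSucc (nat_lit 1203487),Int.negSucc (nat_lit 28795),Int.negSucc (nat_lit 2248899),Int.ofNat (nat_lit 1199225),Int.ofNat (nat_lit 6064521),Int.negSucc (nat_lit 59660532),Int.negSucc (nat_lit 1307718),Int.ofNat (nat_lit 2931933),Int.ofNat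 (nat_lit 2262161),Int.negSucc (nat_lit 1272697),Int.ofNat (nat_lit 35794161),Int.negSucc (nat_lit 119795771),Int.negSucc (nat_lit 36888510),Int.negSucc (nat_lit 9176465),Int.negSucc (nat_lit 6575644),Int.ofNat (nat_lit 164216),Int.ofNat (nat_lit 473142),Int.negSucc (nat_lit 2462210),Int.negSucc (nat_lit 15578847),Int.ofNat (nat_lit 158310881)])

/-- A row. -/
noncomputable def sp5_c0_29 : List ℕ × List ℤ :=
  ([(nat_lit 2),(nat_lit 1),(nat_lit 0),(nat_lit 0),(nat_lit 0),(nat_lit 0),(nat_lit 0),(nat_lit 0),(nat_lit 0),(nat_lit 0),(nat_lit 0),(nat_lit 0)], [Int.negSucc (nat_lit 25854421),Int.negSucc (nat_lit 40728940),Int.ofNat (nat_lit 61881701),Int.ofNat (nat_lit 214591619),Int.ofNat (nat_lit 57416004),Int.negSucc (nat_lit 10431277),Int.ofNat (nat_lit 6492313),Int.negSucc (nat_lit 115373962),Int.ofNat (nat_lit 45832538),Int.negSucc (nat_lit 157317626),Int.negSucc (nat_lit 14035347),Int.ofNat (nat_lit 79527377),Int.ofNat (nat_lit 82248217),Int.negSucc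 (nat_lit 10363335),Int.ofNat (nat_lit 69865457),Int.negSucc (nat_lit 60931227),Int.negSucc (nat_lit 50821800),Int.negSucc (nat_lit 29572431),Int.ofNat (nat_lit 25344648),Int.negSucc (nat_lit 114280421),Int.ofNat (nat_lit 177654358),Int.ofNat (nat_lit 31958672),Int.negSucc (nat_lit 615900931),Int.ofNat (nat_lit 106637408),Int.negSucc (nat_lit 191044065),Int.negSucc (nat_lit 36004345),Int.ofNat (nat_lit 56751512),Int.negSucc (nat_lit 32838702),Int.negSucc (nat_lit 200171074),Int.ofNat (nat_lit 344797023)])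

/-- A part of a triangular factor. -/
noncomputable def sp5_c0 : Rows :=
  [sp5_c0_0,
   sp5_c0_1,
   sp5_c0_2,
   sp5_c0_3,
   sp5_c0_4,
   sp5_c0_5,
   sp5_c0_6,
   sp5_c0_7,
   sp5_c0_8,
   sp5_c0_9,
   sp5_c0_10,
   sp5_c0_11,
   sp5_c0_12,
   sp5_c0_13,
   sp5_c0_14,
   sp5_c0_15,
   sp5_c0_16,
   sp5_c0_17,
   sp5_c0_18,
   sp5_c0_19,
   sp5_c0_20,
   sp5_c0_21,
   sp5_c0_22,
   sp5_c0_23,
   sp5_c0_24,
   sp5_c0_25,
   sp5_c0_26,
   sp5_c0_27,
   sp5_c0_28,
   sp5_c0_29]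

/-- A row. -/
noncomputable def sp5_c1_0 : List ℕ × List ℤ :=
  ([(nat_lit 2),(nat_lit 1),(nat_lit 1),(nat_lit 0),(nat_lit 0),(nat_lit 0),(nat_lit 0),(nat_lit 0),(nat_lit 0),(nat_lit 0),(nat_lit 0),(nat_lit 0)], [Int.ofNat (nat_lit 5030877),Int.ofNat (nat_lit 51586611),Int.negSucc (nat_lit 56497564),Int.ofNat (nat_lit 56523838),Int.ofNat (nat_lit 10651645),Int.ofNat (nat_lit 38228199),Int.negSucc (nat_lit 2641189),Int.negSucc (nat_lit 108698761),Int.ofNat (nat_lit 25970951),Int.ofNat (nat_lit 38475286),Int.negSucc (nat_lit 11209268),Int.negSucc (nat_lit 319567176),Int.ofNat (nat_lit 88602243),Int.negSucc (nat_lit 34673949),Int.negSucc (nat_lit 10802376),Int.negSucc (nat_lit 22605170),Int.negSucc (nat_lit 200128179),Int.negSucc (nat_lit 14625189),Int.negSucc (nat_lit 62156290),Int.negSucc (nat_lit 14389181),Int.negSucc (nat_lit 23002563),Int.ofNat (nat_lit 13128305),Int.negSucc (nat_lit 62682257),Int.negSucc (nat_lit 18228630),Int.negSucc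 (nat_lit 315121587),Int.ofNat (nat_lit 5079039),Int.negSucc (nat_lit 12550643),Int.ofNat (nat_lit 120533732),Int.negSucc (nat_lit 39384157),Int.ofNat (nat_lit 118496251),Int.ofNat (nat_lit 384930422)])

/-- A row. -/
noncomputable def sp5_c1_1 : List ℕ × List ℤ :=
  ([(nat_lit 2),(nat_lit 3),(nat_lit 0),(nat_lit 0),(nat_lit 0),(nat_lit 0),(nat_lit 0),(nat_lit 0),(nat_lit 0),(nat_lit 0),(nat_lit 0),(nat_lit 0)], [Int.ofNat (nat_lit 33914194),Int.ofNat (nat_lit 71794435),Int.negSucc (nat_lit 54668673),Int.negSucc (nat_lit 279273439),Int.ofNat (nat_lit 36719865),Int.ofNat (nat_lit 86320776),Int.negSucc (nat_lit 43321911),Int.ofNat (nat_lit 432203169),Int.negSucc (nat_lit 18329873),Int.ofNat (nat_lit 46760174),Int.negSucc (nat_lit 8058826),Int.negSucc (nat_lit 82535264),Int.negSucc (nat_lit 22151985),Int.ofNat (nat_lit 25115807),Int.negSucc (nat_lit 37467379),Int.negSucc (nat_lit 525150100),Int.ofNat (nat_lit 107530100),Int.negSucc (nat_lit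 419694479),Int.negSucc (nat_lit 101218346),Int.ofNat (nat_lit 54253672),Int.negSucc (nat_lit 155349464),Int.negSucc (nat_lit 7646004),Int.ofNat (nat_lit 896967789),Int.ofNat (nat_lit 60340966),Int.ofNat (nat_lit 18858797),Int.ofNat (nat_lit 118227501),Int.negSucc (nat_lit 1137842974),Int.ofNat (nat_lit 46391894),Int.ofNat (nat_lit 78850650),Int.negSucc (nat_lit 426256937),Int.ofNat (nat_lit 32357963),Int.ofNat (nat_lit 895252928)])

/-- A row. -/
noncomputable def sp5_c1_2 : List ℕ × List ℤ :=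
  ([(nat_lit 3),(nat_lit 0),(nat_lit 0),(nat_lit 1),(nat_lit 0),(nat_lit 0),(nat_lit 0),(nat_lit 0),(nat_lit 0),(nat_lit 0),(nat_lit 0),(nat_lit 0)], [Int.ofNat (nat_lit 3898923),Int.negSucc (nat_lit 35217534),Int.negSucc (nat_lit 24874354),Int.ofNat (nat_lit 159333954),Int.ofNat (nat_lit 95907517),Int.ofNat (nat_lit 45888798),Int.negSucc (nat_lit 56292016),Int.ofNat (nat_lit 9131550),Int.ofNat (nat_lit 7474708),Int.ofNat (nat_lit 6756536),Int.negSucc (nat_lit 7504322),Int.negSucc (nat_lit 12094097),Int.negSucc (nat_lit 10447624),Int.negSucc (nat_lit 960169),Int.ofNat (nat_lit 57180146),Int.negSucc (nat_lit 3162046),Int.negSucc (nat_lit 11104607),Int.negSucc (nat_lit 3990469),Int.ofNat (nat_lit 69058971),Int.negSucc (nat_lit 8717648),Int.negSucc (nat_lit 64796086),Int.negSucc (nat_lit 5299656),Int.ofNat (nat_lit 15714260),Int.ofNat (nat_lit 9365995),Int.ofNat (nat_lit 390961),Int.negSucc (nat_lit 35251729),Int.ofNat (nat_lit 4452670),Int.ofNat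 (nat_lit 14770542),Int.negSucc (nat_lit 201240500),Int.negSucc (nat_lit 9119672),Int.ofNat (nat_lit 22875828),Int.ofNat (nat_lit 1194829),Int.ofNat (nat_lit 89334500)])

/-- A row. -/
noncomputable def sp5_c1_3 : List ℕ × List ℤ :=
  ([(nat_lit 3),(nat_lit 1),(nat_lit 0),(nat_lit 0),(nat_lit 0),(nat_lit 0),(nat_lit 0),(nat_lit 0),(nat_lit 0),(nat_lit 0),(nat_lit 0),(nat_lit 0)], [Int.ofNat (nat_lit 39798330),Int.negSucc (nat_lit 28932099),Int.ofNat (nat_lit 137533207),Int.negSucc (nat_lit 191060976),Int.negSucc (nat_lit 93692020),Int.negSucc (nat_lit 132663337),Int.ofNat (nat_lit 61936881),Int.ofNat (nat_lit 281318066),Int.ofNat (nat_lit 14595747),Int.ofNat (nat_lit 42085910),Int.ofNat (nat_lit 23029293),Int.ofNat (nat_lit 161966065),Int.negSucc (nat_lit 52766719),Int.ofNat (nat_lit 40588661),Int.negSucc (nat_lit 20698601),Int.ofNat (nat_lit 205663295),Int.ofNat (nat_lit 144713140),Int.ofNat (nat_lit 27718894),Int.negSucc (nat_lit 34735286),Int.ofNat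 (nat_lit 112576671),Int.ofNat (nat_lit 157961108),Int.ofNat (nat_lit 12662547),Int.negSucc (nat_lit 415368767),Int.negSucc (nat_lit 47710962),Int.ofNat (nat_lit 342016770),Int.ofNat (nat_lit 41297019),Int.negSucc (nat_lit 354007014),Int.negSucc (nat_lit 129223342),Int.ofNat (nat_lit 217006077),Int.negSucc (nat_lit 384880625),Int.negSucc (nat_lit 197100906),Int.negSucc (nat_lit 36058782),Int.negSucc (nat_lit 133253404),Int.ofNat (nat_lit 452811294)])

/-- A row. -/
noncomputable def sp5_c1_4 : List ℕ × List ℤ :=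
  ([(nat_lit 4),(nat_lit 1),(nat_lit 0),(nat_lit 0),(nat_lit 0),(nat_lit 0),(nat_lit 0),(nat_lit 0),(nat_lit 0),(nat_lit 0),(nat_lit 0),(nat_lit 0)], [Int.negSucc (nat_lit 14822481),Int.ofNat (nat_lit 19071796),Int.negSucc (nat_lit 100281356),Int.negSucc (nat_lit 107967530),Int.ofNat (nat_lit 38575286),Int.ofNat (nat_lit 33533089),Int.negSucc (nat_lit 47647633),Int.negSucc (nat_lit 28867142),Int.negSucc (nat_lit 51278613),Int.negSucc (nat_lit 3871444),Int.ofNat (nat_lit 6310389),Int.negSucc (nat_lit 36638057),Int.ofNat (nat_lit 32106179),Int.negSucc (nat_lit 45255803),Int.negSucc (nat_lit 38494142),Int.ofNat (nat_lit 21469155),Int.ofNat (nat_lit 16741622),Int.ofNat (nat_lit 56875479),Int.negSucc (nat_lit 67610785),Int.negSucc (nat_lit 31779045),Int.negSucc (nat_lit 99345732),Int.negSucc (nat_lit 50824765),Int.ofNat (nat_lit 858724504),Int.ofNat (nat_lit 133730042),Int.negSucc (nat_lit 189963627),Int.ofNat (nat_lit 29508458),Int.ofNat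 (nat_lit 392357002),Int.ofNat (nat_lit 181734537),Int.ofNat (nat_lit 71395512),Int.negSucc (nat_lit 198524578),Int.negSucc (nat_lit 30538862),Int.negSucc (nat_lit 82507582),Int.ofNat (nat_lit 69954548),Int.negSucc (nat_lit 630240037),Int.ofNat (nat_lit 184630974)])

/-- A part of a triangular factor. -/
noncomputable def sp5_c1 : Rows :=
  [sp5_c1_0,
   sp5_c1_1,
   sp5_c1_2,
   sp5_c1_3,
   sp5_c1_4]

/-- A triangular factor. -/
noncomputable def sp5_rows : List Rows :=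
  [sp5_c0, sp5_c1]

end Vale.Agent.P142K.CertB
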