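import Vale.Agent.P142K.CertB.Sr0Rows
import Vale.Agent.P142K.Fast

/-!
# An expanded part of the certificate

Generated from a semidefinite program; only the checker is trusted.
-/

namespace Vale.Agent.P142K.CertB

open Vale.Agent.P142J (MP)

/-- A coefficient. -/
noncomputable def sr0_m0_0_0 : MP 10 :=
  [[[[[[[[[[Int.ofNat (nat_lit 18106169757764823289)],[Int.ofNat (nat_lit 24247157574518681624)],[Int.ofNat (nat_lit 46598425169171482721)]]],[[[Int.negSucc (nat_lit 3453302959845919935)],[Int.ofNat (nat_lit 484407590438404052)]]],[[[Int.ofNat (nat_lit 4832200903083294440)]]]]],[[[[[Int.ofNat (nat_lit 25424559116396600880)],[Int.negSucc (nat_lit 9386981343752820869)]]],[[[Int.negSucc (nat_lit 11937929049158800771)]]]]],[[[[[Int.ofNat (nat_lit 26429789574830624926)]]]]]],[[[],[[[[Int.negSucc (nat_lit 9500167341503177331)],[Int.negSucc (nat_lit 7582561187711358225)]]],[[[Int.negSucc (nat_lit 1230000061699123679)]]]]],[[],[[[[Int.negSucc (nat_lit 9669967994738192097)]]]]]],[[[[[[Int.negSucc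 (nat_lit 3203315934539428435)],[Int.negSucc (nat_lit 11851933069292228897)]]],[[[Int.ofNat (nat_lit 4590681398066905820)]]]],[],[[[[Int.ofNat (nat_lit 5771163300612575763)]]]]],[[[[[Int.negSucc (nat_lit 3359320125478971255)]]]]]],[[[],[[[[Int.negSucc (nat_lit 5336713047765647547)]]]]]],[[[[[[Int.ofNat (nat_lit 14749421124612387347)]]]]]]],[[[[[[[Int.negSucc (nat_lit 56865364768502578553)],[Int.negSucc (nat_lit 56098313791832667641)]]],[[[Int.negSucc (nat_lit 6201975912304673283)]]]]],[[[[[Int.negSucc (nat_lit 33735710188430755841)],[Int.negSucc (nat_lit 6978266154927711883)]]],[[[Int.negSucc (nat_lit 4899399162165569515)]]]]],[[[[[Int.negSucc (nat_lit 8233340558373056809)]]]]]],[[[],[[[[Int.ofNat (nat_lit 26568977683403588872)]]]]],[[],[[[[Int.ofNat (nat_lit 13119048329730606590)]]]]]],[[[[[[Int.ofNat (nat_lit 2462829110065187656)]]]]],[[[[[Int.negSucc (nat_lit 10100544810364325773)]]]]]]],[[[[[[[Int.ofNat (nat_lit 93022084917115395179)],[Int.ofNat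 (nat_lit 26229505746962397354)]]],[[[Int.ofNat (nat_lit 12674331775078492036)]]]]],[[[[[Int.ofNat (nat_lit 29314358954780521802)]]]]],[[[[[Int.ofNat (nat_lit 9698640897370685663)]]]]]],[[[],[[[[Int.negSucc (nat_lit 14401848033156854737)]]]]]],[[[[[[Int.negSucc (nat_lit 2999281157406813841)]]]]]]],[[[[[[[Int.negSucc (nat_lit 86795410439438519797)]]]]],[[[[[Int.negSucc (nat_lit 22733757889197599709)]]]]]]],[[[[[[[Int.ofNat (nat_lit 38418859679100973292)]]]]]]]],[[[[[[[],[[Int.negSucc (nat_lit 3494152217168043799)],[Int.negSucc (nat_lit 279579221469309049)]]],[[],[[Int.ofNat (nat_lit 4621562945579941900)]]]],[[[[Int.ofNat (nat_lit 18666600610665634194)],[Int.ofNat (nat_lit 60511505455989583302)]]],[[[Int.negSucc (nat_lit 8668427777196369447)]]]]],[[[[],[[Int.negSucc (nat_lit 7863577073754619199)]]]],[[[[Int.ofNat (nat_lit 13612374577444595026)]]]]]],[[[[[[Int.ofNat (nat_lit 2247986858978770178)],[Int.ofNat (nat_lit 16328085326275891774)]]],[[[Int.negSucc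 (nat_lit 4642982393342190435)]]]],[[[],[[Int.negSucc (nat_lit 974136682813116809)]]]],[[[[Int.negSucc (nat_lit 13285121800976783205)]]]]],[[[[[Int.negSucc (nat_lit 851908571841556427)]]]]]],[[[[[],[[Int.ofNat (nat_lit 3085557603024670916)]]]],[[[[Int.ofNat (nat_lit 8068901444907831366)]]]]]],[[[[[[Int.negSucc (nat_lit 9789518986054359571)]]]]]]],[[[[[[],[[Int.ofNat (nat_lit 207321678099883878)]]]],[[[[Int.negSucc (nat_lit 46759141485251649385)]]]]],[[[[],[[Int.negSucc (nat_lit 2262519376564014029)]]]],[[[[Int.negSucc (nat_lit 12193874008988289975)]]]]]],[[[[[[Int.ofNat (nat_lit 29900822632184852764)]]]]],[[[[[Int.ofNat (nat_lit 13086017892006189560)]]]]]]],[[[[[[],[[Int.ofNat (nat_lit 3671912670223945444)]]]],[[[[Int.ofNat (nat_lit 13336342649923741576)]]]]]],[[[[[[Int.negSucc (nat_lit 27865095649439763753)]]]]]]]],[[[[[[[[Int.negSucc (nat_lit 7876937220895856621)],[Int.ofNat (nat_lit 11076248602559222164)]],[],[[Int.ofNat (nat_lit 2843951378657646208)]]],[[[Int.negSucc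 (nat_lit 3127276526398758747)]]]],[[[],[[Int.negSucc (nat_lit 8553846412086046553)]]]],[[[[Int.ofNat (nat_lit 48273720508486806981)]]]]],[[[[[Int.negSucc (nat_lit 4590897519139254781)]]]]]],[[[[[],[[Int.ofNat (nat_lit 923179847977963206)]]]],[[[[Int.negSucc (nat_lit 9182444562646834459)]]]]]],[[[[[[Int.ofNat (nat_lit 28748672769908561033)]]]]]]],[[[[[[[Int.negSucc (nat_lit 5055249984160755855)],[Int.ofNat (nat_lit 4044594333652889942)]]],[[[Int.ofNat (nat_lit 10187121499868347216)]]]]],[[[[[Int.negSucc (nat_lit 12197032050364457155)]]]]]],[[[],[[[[Int.negSucc (nat_lit 2456441578393069103)]]]]]],[[[[[[Int.ofNat (nat_lit 5307855388372944862)]]]]]]],[[[[[[[Int.negSucc (nat_lit 9294507428175295585)]]]]],[[[[[Int.negSucc (nat_lit 7269320731012671885)]]]]]]],[[[[[[[Int.ofNat (nat_lit 25220123985198149008)]]]]]]]],[[[[[[[],[[Int.negSucc (nat_lit 872645584113884925)]]]],[[[[Int.ofNat (nat_lit 15343593303568868496)]]]]]],[[[[[[Int.negSucc (nat_lit 22153198773031346363)]]]]]]],[[[[[[],[[Int.ofNat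 (nat_lit 4054976549684999250)]]]],[[[[Int.negSucc (nat_lit 7655898812648363159)]]]]]],[[[[[[Int.negSucc (nat_lit 17363698630498594263)]]]]]]]],[[[[[[[[Int.ofNat (nat_lit 27871363375954758592)]]]]]]],[[[[[[[Int.negSucc (nat_lit 8035572292497320329)]]]]]]],[[[[[[[Int.ofNat (nat_lit 14257102944066922948)]]]]]]]]],[[[[[[[[[Int.ofNat (nat_lit 55340894864778823030)],[Int.ofNat (nat_lit 16798652019283027030)]]],[[[Int.ofNat (nat_lit 1274347046338887824)],[Int.ofNat (nat_lit 297948423325457168)]]],[[[Int.ofNat (nat_lit 5171654531801130520)]]]]],[[[[[Int.ofNat (nat_lit 50275540839831226432)],[Int.negSucc (nat_lit 34342760450969459657)]]],[[[Int.negSucc (nat_lit 15883124743644081169)]]]]],[[[[[Int.ofNat (nat_lit 51688781591229626148)]]]]]],[[[],[[[[Int.negSucc (nat_lit 13256986972637885825)]]],[[[Int.negSucc (nat_lit 1632265891714951497)]]]]],[[],[[[[Int.negSucc (nat_lit 8745674840487724033)]]]]]],[[[[[[Int.ofNat (nat_lit 9283812665476029820)]]],[[[Int.ofNat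 (nat_lit 3388534490234383288)]]]]],[[[[[Int.ofNat (nat_lit 9037720007349690904)]]]]]]],[[[[[[[Int.negSucc (nat_lit 123220845237938144111)],[Int.negSucc (nat_lit 22153186867660997893)]]],[[[Int.negSucc (nat_lit 15142958635889288321)]]]]],[[[[[Int.negSucc (nat_lit 51326176175810145891)]]],[[[Int.negSucc (nat_lit 3434791070316016367)]]]]],[[[[[Int.negSucc (nat_lit 10739325084936407925)]]]]]],[[[],[[[[Int.ofNat (nat_lit 25566963365538787424)]]]]]],[[[[[[Int.negSucc (nat_lit 7695018440486884279)]]]]]]],[[[[[[[Int.ofNat (nat_lit 157031505098215842876)]]],[[[Int.ofNat (nat_lit 6409222186625653536)]]]]],[[[[[Int.ofNat (nat_lit 28733287503351044132)]]]]]]],[[[[[[[Int.negSucc (nat_lit 77112501323185535831)]]]]]]]],[[[[[[[],[[Int.ofNat (nat_lit 1078098402984429730)]]],[[],[[Int.ofNat (nat_lit 3338018773197160346)]]]],[[[[Int.negSucc (nat_lit 8617848952437606097)]]],[[[Int.negSucc (nat_lit 1021012442734572629)]]]]],[[[[],[[Int.negSucc (nat_lit 5969411237154942407)]]]],[[[[Int.negSucc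 (nat_lit 7625629626817183489)]]]]]],[[[[[[Int.ofNat (nat_lit 10540596465370715870)],[Int.negSucc (nat_lit 8283848393870949897)]]],[[[Int.negSucc (nat_lit 11852535593861133633)]]]]],[[[[[Int.ofNat (nat_lit 5921857374721269602)]]]]]],[[[],[[[[Int.ofNat (nat_lit 2986404335837685712)]]]]]],[[[[[[Int.negSucc (nat_lit 4310901740726249359)]]]]]]],[[[[[[],[[Int.negSucc (nat_lit 4529954217567637031)]]]],[[[[Int.negSucc (nat_lit 14991127726830218395)]]]]]],[[[[[[Int.ofNat (nat_lit 55528424586344040372)]]]]],[[[[[Int.ofNat (nat_lit 9891778348515330572)]]]]]]],[[],[[[[[[Int.negSucc (nat_lit 19121543095334801409)]]]]]]]],[[[[[[[[Int.negSucc (nat_lit 39637988293544617701)],[Int.ofNat (nat_lit 6924967894892072362)]]],[[[Int.negSucc (nat_lit 6318083251038552423)]]]]],[[[[[Int.negSucc (nat_lit 17982697023220078067)]]]]]],[[[[[],[[Int.negSucc (nat_lit 364118557132722037)]]]],[[[[Int.ofNat (nat_lit 13248969184012761192)]]]]]],[[[[[[Int.ofNat (nat_lit 12420551993085842882)]]]]]]],[[[[[[[Int.ofNat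 (nat_lit 22720391178778581342)]]],[[[Int.ofNat (nat_lit 6050185338762100382)]]]]],[[[[[Int.negSucc (nat_lit 10653355289349130837)]]]]]]],[[[[[[[Int.negSucc (nat_lit 30239051836309227267)]]]]]]]],[[[[[[[],[[Int.negSucc (nat_lit 1134840614973632245)]]]],[[[[Int.ofNat (nat_lit 11050058709750353026)]]]]]],[[[[[[Int.ofNat (nat_lit 11784058407777101624)]]]]]]],[[],[[[[[[Int.negSucc (nat_lit 21760377081005807601)]]]]]]]],[[[[[[[[Int.ofNat (nat_lit 34032619597903805000)]]]]]]],[[[[[[[Int.negSucc (nat_lit 9439302963285223075)]]]]]]]]],[[[[[[[[[Int.ofNat (nat_lit 70876777768382232094)],[Int.negSucc (nat_lit 3726284410881419735)]]],[[[Int.ofNat (nat_lit 6668664479044682924)]]],[[[Int.ofNat (nat_lit 2113758173010519732)]]]]],[[[[[Int.ofNat (nat_lit 33894648465392036892)]]],[[[Int.negSucc (nat_lit 7036653885929290533)]]]]],[[[[[Int.ofNat (nat_lit 34141853820307449498)]]]]]],[[[],[[[[Int.ofNat (nat_lit 155184536073660526)]]]]]],[[[[[[Int.ofNat (nat_lit 15768924534980869908)]]]]]]],[[[[[[[Int.negSucc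 (nat_lit 76184785012141180917)],[Int.ofNat (nat_lit 798939436912435888)]]],[[[Int.negSucc (nat_lit 6931704839757027677)]]]]],[[[[[Int.negSucc (nat_lit 23327676091384779369)]]]]]],[[[],[[[[Int.ofNat (nat_lit 1690143643929626514)]]]]]],[[[[[[Int.negSucc (nat_lit 2400223373891885035)]]]]]]],[[[[[[[Int.ofNat (nat_lit 71912207741326919334)]]]]],[[[[[Int.ofNat (nat_lit 3027729948648362858)]]]]]]],[[[[[[[Int.negSucc (nat_lit 1513171475845017749)]]]]]]]],[[[[[[[],[[Int.ofNat (nat_lit 9364631374787549370)]]]],[[[[Int.negSucc (nat_lit 28722972178861772231)]]]]]],[[[[[[Int.ofNat (nat_lit 6404729418461842902)]]],[[[Int.negSucc (nat_lit 2270194243130076811)]]]]],[[[[[Int.ofNat (nat_lit 3177025236944443074)]]]]]]],[[[[[[],[[Int.negSucc (nat_lit 3780336632156206843)]]]],[[[[Int.ofNat (nat_lit 3250765387940867436)]]]]]],[[[[[[Int.ofNat (nat_lit 24529565308170795948)]]]]]]]],[[[[[[[[Int.negSucc (nat_lit 32589846030881694071)]]],[[[Int.negSucc (nat_lit 2154246809388883749)]]]]],[[[[[Int.negSucc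 (nat_lit 5627761208277196859)]]]]]],[],[[[[[[Int.ofNat (nat_lit 20302874308701038578)]]]]]]],[[[[[[[Int.ofNat (nat_lit 10547159477488324646)]]]]]]],[[[[[[[Int.ofNat (nat_lit 1363428455095367450)]]]]]]]],[[[],[[[[[[Int.negSucc (nat_lit 7480076983077329515)]]]]]]]],[[[[[[[[Int.ofNat (nat_lit 27860165558405266328)]]]]]]]]],[[[[[[[[[Int.ofNat (nat_lit 54531135660100726724)],[Int.negSucc (nat_lit 195678700307190477)]]],[[[Int.ofNat (nat_lit 5673351226215409944)]]]]],[[[[[Int.negSucc (nat_lit 1730931042085223867)]]]]]],[[[],[[[[Int.ofNat (nat_lit 4002206093415018430)]]]]]],[[[[[[Int.ofNat (nat_lit 4456420527600605334)]]]]]]],[[[[[[[Int.ofNat (nat_lit 9279744396862252712)]]],[[[Int.negSucc (nat_lit 1791025004790348649)]]]]],[[[[[Int.ofNat (nat_lit 6018825722617986212)]]]]]]],[[[[[[[Int.ofNat (nat_lit 2825802911039065888)]]]]]]]],[[[[[[[],[[Int.ofNat (nat_lit 5055573341273111202)]]]],[[[[Int.negSucc (nat_lit 5127010705343549575)]]]]]],[[[[[[Int.negSucc (nat_lit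 148130735600525051)]]]]]]],[[],[[[[[[Int.ofNat (nat_lit 4043141743329968908)]]]]]]]],[[[[[[[[Int.ofNat (nat_lit 18407255371566739036)]]]]]]],[[[[[[[Int.negSucc (nat_lit 16224594391380230003)]]]]]]]]],[[[[[[[[[Int.ofNat (nat_lit 51306476156736634041)]]],[[[Int.ofNat (nat_lit 3142307778723427132)]]]]],[[[[[Int.negSucc (nat_lit 9102855277399849251)]]]]]]],[[[[[[[Int.ofNat (nat_lit 3529838221547549896)]]]]]]],[[[[[[[Int.ofNat (nat_lit 7920690069223023437)]]]]]]]],[[[],[[[[[[Int.ofNat (nat_lit 2364685955744838796)]]]]]]]],[[[[[[[[Int.ofNat (nat_lit 19084679968166507024)]]]]]]]]],[[[[[[[[[Int.ofNat (nat_lit 50518591348172448506)]]]]]]],[[[[[[[Int.negSucc (nat_lit 12724533301924194545)]]]]]]]]],[[[[[[[[[Int.ofNat (nat_lit 20326691738631580751)]]]]]]]]]]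

/-- A coefficient. -/
noncomputable def sr0_m0_0_1 : MP 10 :=
  [[[[[[[[[[Int.ofNat (nat_lit 0),Int.negSucc (nat_lit 7325978803790895239)],[Int.ofNat (nat_lit 0),Int.negSucc (nat_lit 11019842121539055469)]],[[Int.ofNat (nat_lit 1888324107438172140)],[Int.ofNat (nat_lit 165891979684896330)]]],[[[Int.ofNat (nat_lit 0),Int.negSucc (nat_lit 686087114853121099)]],[[Int.negSucc (nat_lit 11839141972115135747)]]]],[[[[Int.negSucc (nat_lit 24262583764744775927)],[Int.negSucc (nat_lit 16616962828052805873)]]],[[[Int.ofNat (nat_lit 18328639081246676756)]]]]],[[[[[Int.ofNat (nat_lit 0),Int.negSucc (nat_lit 4764902550351262053)]],[[Int.ofNat (nat_lit 14955270853859479674)]]]],[[[[Int.negSucc (nat_lit 55712972246590888687)]]]]]],[[[[[[Int.negSucc (nat_lit 6669414313655231289)],[Int.negSucc (nat_lit 82600929059731347259)]]],[[[Int.negSucc (nat_lit 19640833484847882047)]]]],[[[[Int.ofNat (nat_lit 0),Int.ofNat (nat_lit 2267340657912702756)]],[[Int.ofNat (nat_lit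 5741700691918377336)]]]],[[[[Int.ofNat (nat_lit 16933446085353806750)]]]]],[[[[[Int.ofNat (nat_lit 53302220872905192764)]]]]]],[[[[[[Int.ofNat (nat_lit 0),Int.ofNat (nat_lit 21759152722871866836)]],[[Int.negSucc (nat_lit 9111906774278727591)]]]],[[[[Int.ofNat (nat_lit 5540349522045410144)]]]]]],[[[[[[Int.ofNat (nat_lit 13390770356953751368)]]]]]]],[[[[[[[Int.ofNat (nat_lit 0),Int.ofNat (nat_lit 33064892519494325380)]],[[Int.ofNat (nat_lit 16110767400316559176)]]]],[[[[Int.ofNat (nat_lit 41584936713629001186)]]]]],[[[[[Int.ofNat (nat_lit 0),Int.ofNat (nat_lit 1092968438317416518)]],[[Int.ofNat (nat_lit 10967449569662031832)]]]],[[[[Int.ofNat (nat_lit 13896072298099757350)]]]]]],[[[[[[Int.negSucc (nat_lit 20189764028357129295)],[Int.negSucc (nat_lit 41774168005525868895)]]],[[[Int.ofNat (nat_lit 3628005403796822356)]]]]],[[[[[Int.negSucc (nat_lit 6146163449078860595)]]]]]],[[[],[[[[Int.ofNat (nat_lit 4340057411591915950)]]]]]],[[[[[[Int.ofNat (nat_lit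 11584794837285715706)]]]]]]],[[[[[[[Int.ofNat (nat_lit 0),Int.negSucc (nat_lit 30166370497153898649)]],[[Int.negSucc (nat_lit 19559608760338572247)]]]],[[[[Int.negSucc (nat_lit 4074355127710793669)]]]]]],[[[[[[Int.ofNat (nat_lit 25170182186852415850)]]]]],[[[[[Int.ofNat (nat_lit 4552609030906965930)]]]]]]],[[],[[[[[[Int.negSucc (nat_lit 15238277802504231135)]]]]]]]],[[[[[[[[Int.ofNat (nat_lit 13666810583280295348)],[Int.ofNat (nat_lit 45361966998166196954)]],[[Int.ofNat (nat_lit 0),Int.ofNat (nat_lit 508902068498267752)]],[[Int.negSucc (nat_lit 12798526717971292229)]]],[[[Int.ofNat (nat_lit 29574327987799717388)]]]],[[[[Int.ofNat (nat_lit 0),Int.negSucc (nat_lit 3202791114789205241)]],[[Int.ofNat (nat_lit 45444572222247146934)]]]],[[[[Int.negSucc (nat_lit 91066260368330762951)]]]]],[[[[[Int.negSucc (nat_lit 48691787600056176897)],[Int.negSucc (nat_lit 13670865889278552153)]]],[[[Int.negSucc (nat_lit 1483628685568602775)]]]]],[[[[[Int.ofNat (nat_lit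 3646090186267613786)]]]]]],[[[[[[Int.ofNat (nat_lit 0),Int.ofNat (nat_lit 16730883378816971854)]],[[Int.negSucc (nat_lit 21546372966873325583)]]]],[[[[Int.ofNat (nat_lit 61703922819948686938)]]]]],[[],[[[[Int.negSucc (nat_lit 3168307903458958517)]]]]]],[[[[[[Int.negSucc (nat_lit 82670009492350783375)]]]]],[[[[[Int.ofNat (nat_lit 23844653131437786220)]]]]]]],[[[[[[[Int.ofNat (nat_lit 37600053157981192998)],[Int.negSucc (nat_lit 16791665252958328195)]]],[[[Int.negSucc (nat_lit 21654245718819686139)]]]]],[[[[[Int.ofNat (nat_lit 68706489411674376988)]]]]],[[[[[Int.negSucc (nat_lit 4486655763528198939)]]]]]],[[[[[],[[Int.ofNat (nat_lit 2895168029351513416)]]]],[[[[Int.negSucc (nat_lit 23652634330725031795)]]]]]],[[[[[[Int.negSucc (nat_lit 24698054202244551053)]]]]]]],[[[[[[[Int.negSucc (nat_lit 7969930611079618671)]]]]],[[[[[Int.negSucc (nat_lit 24187876253849083579)]]]]]]],[[[[[[[Int.negSucc (nat_lit 33597630483893983367)]]]]]]]],[[[[[[[[Int.ofNat (nat_lit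 0),Int.negSucc (nat_lit 22553198935534973995)]],[[Int.ofNat (nat_lit 27932034916881593078)]]]],[[[[Int.negSucc (nat_lit 58020400169218384007)]]]]],[[[[],[[Int.negSucc (nat_lit 2731784082505804723)]]]],[[[[Int.ofNat (nat_lit 21826464154258121522)]]]]]],[[[[[[Int.ofNat (nat_lit 111867635288839325496)]]]]],[[[[[Int.ofNat (nat_lit 2853640485466662682)]]]]]]],[[[[[[[Int.ofNat (nat_lit 0),Int.negSucc (nat_lit 2800940728995496503)]],[[Int.negSucc (nat_lit 28425993356540715123)]]]],[[[[Int.ofNat (nat_lit 13409474516955369056)]]]]]],[[[[[[Int.ofNat (nat_lit 66020971604821948786)]]]]]]],[[],[[[[[[Int.ofNat (nat_lit 1394718930595987704)]]]]]]]],[[[[[[[[Int.negSucc (nat_lit 91602982117750887771)],[Int.ofNat (nat_lit 8693529631567560928)]]],[[[Int.negSucc (nat_lit 2843604551792371779)]]]]],[[[[[Int.negSucc (nat_lit 1246275830794070155)]]]]]],[[[],[[[[Int.negSucc (nat_lit 6780873602333967403)]]]]]],[[[[[[Int.negSucc (nat_lit 8095307902986976193)]]]]]]],[[[[[[[Int.negSucc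 (nat_lit 9642064111608385913)]]]]],[[[[[Int.negSucc (nat_lit 7453508048297630415)]]]]]]],[[[[[[[Int.negSucc (nat_lit 55250648686956373755)]]]]]]]],[[[[[[[],[[Int.negSucc (nat_lit 1720536511956932581)]]]],[[[[Int.ofNat (nat_lit 5552858209513645562)]]]]]],[[[[[[Int.negSucc (nat_lit 5182557688165611121)]]]]]]]],[[[[[[[[Int.negSucc (nat_lit 72596750747649237)]]]]]]],[[[[[[[Int.ofNat (nat_lit 2957588659033467616)]]]]]]]]],[[[[[[[[[Int.ofNat (nat_lit 0),Int.ofNat (nat_lit 1449901377043559136)]],[[Int.negSucc (nat_lit 17532404640158479697)]]],[[[Int.ofNat (nat_lit 0),Int.negSucc (nat_lit 334357581697526849)]],[[Int.negSucc (nat_lit 6743866582635417505)]]]],[[[[Int.ofNat (nat_lit 3507247475394271496)],[Int.negSucc (nat_lit 8195779902178990689)]]],[[[Int.ofNat (nat_lit 10342242427802966802)]]]]],[[[[[Int.ofNat (nat_lit 0),Int.ofNat (nat_lit 6495797142385202996)]],[[Int.ofNat (nat_lit 7419957104830787134)]]]],[[[[Int.negSucc (nat_lit 46025612761059796773)]]]]]],[[[[[[Int.negSucc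 (nat_lit 45911813800311461117)],[Int.negSucc (nat_lit 10481022659120638747)]]],[[[Int.negSucc (nat_lit 25746664232680871769)]]]],[],[[[[Int.negSucc (nat_lit 39995119601868863)]]]]],[[[[[Int.ofNat (nat_lit 91090875136063678534)]]]]]],[[[],[[[[Int.ofNat (nat_lit 20864142966925564964)]]]]]],[[[[[[Int.ofNat (nat_lit 5573693034764425532)]]]]]]],[[[[[[[Int.ofNat (nat_lit 0),Int.ofNat (nat_lit 25309590048398952082)]],[[Int.ofNat (nat_lit 32863204682131895156)]]]],[[[[Int.ofNat (nat_lit 29410810869836038808)]]]]],[[],[[[[Int.negSucc (nat_lit 961601561499053627)]]]]]],[[[[[[Int.negSucc (nat_lit 3161356733593717071)]]],[[[Int.ofNat (nat_lit 4779363177893079076)]]]]],[[[[[Int.ofNat (nat_lit 14710319843054628054)]]]]]]],[[[[],[[[[Int.negSucc (nat_lit 12298155229211232829)]]]]]],[[[[[[Int.negSucc (nat_lit 26851823474711518581)]]]]]]]],[[[[[[[[Int.ofNat (nat_lit 124791154266314022258)],[Int.ofNat (nat_lit 75719135431390288534)]]],[[[Int.ofNat (nat_lit 35891346359333370668)]]]],[[[],[[Int.ofNat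 (nat_lit 4155180808821522554)]]]],[[[[Int.negSucc (nat_lit 2627249692339827943)]]]]],[[[[[Int.negSucc (nat_lit 40760538390270675941)]]],[[[Int.ofNat (nat_lit 1988111307386972770)]]]]],[[[[[Int.ofNat (nat_lit 12139972826303090628)]]]]]],[[[[[[Int.ofNat (nat_lit 0),Int.ofNat (nat_lit 1094707169331537192)]],[[Int.negSucc (nat_lit 8240028202531364813)]]]],[[[[Int.negSucc (nat_lit 26875693909666100059)]]]]]],[[[[[[Int.ofNat (nat_lit 13955959945583598626)]]]]]]],[[[[[[[Int.negSucc (nat_lit 29363955008724027925)]]],[[[Int.negSucc (nat_lit 20480598759557806531)]]]]],[[[[[Int.ofNat (nat_lit 70315847662515575894)]]]]]],[],[[[[[[Int.ofNat (nat_lit 9575457052436842376)]]]]]]],[[[[[[[Int.ofNat (nat_lit 52276190703512626542)]]]]]]]],[[[[[[[[Int.ofNat (nat_lit 0),Int.ofNat (nat_lit 1968666616707551858)]],[[Int.ofNat (nat_lit 19625658415557291660)]]]],[[[[Int.ofNat (nat_lit 28139324440864397244)]]]]]],[[[[[[Int.negSucc (nat_lit 64414965287313424613)]]]]],[[[[[Int.ofNat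 (nat_lit 6630265800179239536)]]]]]]],[[[[],[[[[Int.negSucc (nat_lit 5526913375449495901)]]]]]],[[[[[[Int.ofNat (nat_lit 41310332431568690964)]]]]]]]],[[[[[[[[Int.negSucc (nat_lit 54368332462909286355)]]],[[[Int.negSucc (nat_lit 1967082489294492241)]]]]],[[[[[Int.ofNat (nat_lit 13921548489533110578)]]]]]]],[[[[[[[Int.negSucc (nat_lit 9524476529216823479)]]]]]]]],[[[],[[[[[[Int.negSucc (nat_lit 670041745749678017)]]]]]]]],[[[[[[[[Int.negSucc (nat_lit 7801762202971571673)]]]]]]]]],[[[[[[[[[Int.ofNat (nat_lit 0),Int.ofNat (nat_lit 12237822603122955016)]],[[Int.negSucc (nat_lit 24967982610697722889)]]]],[[[[Int.ofNat (nat_lit 46775348752558408356)]]],[[[Int.ofNat (nat_lit 3456009970930850852)]]]]],[[],[[[[Int.negSucc (nat_lit 6312716280472792827)]]]]]],[[[[[[Int.negSucc (nat_lit 50887416789980840865)]]],[[[Int.negSucc (nat_lit 14430926932654029327)]]]]],[[[[[Int.ofNat (nat_lit 40734608270940949982)]]]]]]],[[[[[[[Int.ofNat (nat_lit 0),Int.ofNat (nat_lit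 1302534429334866710)]],[[Int.ofNat (nat_lit 12810649968345739616)]]]],[[[[Int.negSucc (nat_lit 2846242011547812803)]]]]]],[[[[[[Int.ofNat (nat_lit 24209616157835837382)]]]]]]],[[],[[[[[[Int.negSucc (nat_lit 7992715200398310713)]]]]]]]],[[[[[[[[Int.ofNat (nat_lit 161544761505210664544)],[Int.ofNat (nat_lit 32711891384613969968)]]],[[[Int.ofNat (nat_lit 8653319795098150580)]]]]],[[[[[Int.negSucc (nat_lit 11254914499833041767)]]]]]],[[[],[[[[Int.ofNat (nat_lit 1635092252438964790)]]]]]],[[[[[[Int.negSucc (nat_lit 68550270073261359541)]]]]]]],[[[[[[[Int.negSucc (nat_lit 101214096217484615905)]]]]],[[[[[Int.ofNat (nat_lit 107022258076543454)]]]]]]],[[[[[[[Int.ofNat (nat_lit 34128117708919923616)]]]]]]]],[[[[[[[],[[Int.negSucc (nat_lit 6370266837421106653)]]]],[[[[Int.ofNat (nat_lit 29700227127040735684)]]]]]],[[[[[[Int.ofNat (nat_lit 80391005968613801464)]]]]]]]],[[[[[[[[Int.negSucc (nat_lit 79644429441264732293)]]]]]]],[[[[[[[Int.negSucc (nat_lit 9309242893546962901)]]]]]]]]],[[[[[[[[[Int.ofNat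 (nat_lit 0),Int.ofNat (nat_lit 4237759441731388318)]],[[Int.negSucc (nat_lit 6570663925892556917)]]]],[[[[Int.ofNat (nat_lit 19912864350639246112)]]]]]],[[[[[[Int.negSucc (nat_lit 865484542568369073)]]]]]]],[[[[],[[[[Int.ofNat (nat_lit 2540054655189571862)]]]]]],[[[[[[Int.negSucc (nat_lit 8211883367556923447)]]]]]]]],[[[[[[[[Int.ofNat (nat_lit 27556992227633764534)]]],[[[Int.negSucc (nat_lit 4046778376012160525)]]]]],[[[[[Int.ofNat (nat_lit 6694663491139038444)]]]]]]],[[[[[[[Int.negSucc (nat_lit 43950185332730089627)]]]]]]]],[[[],[[[[[[Int.ofNat (nat_lit 20993666178921738078)]]]]]]]],[[[[[[[[Int.negSucc (nat_lit 4587577232340128635)]]]]]]]]],[[[[[[],[[[[Int.negSucc (nat_lit 468417726425437245)]]]]]],[[[[[[Int.ofNat (nat_lit 8437784263781344808)]]]]]]]],[[[[[[[[Int.negSucc (nat_lit 42692777305408158227)]]]]]]],[[[[[[[Int.negSucc (nat_lit 2369282648097538205)]]]]]]]]],[[],[[[[[[[[Int.negSucc (nat_lit 19330535105925264725)]]]]]]]]]]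

/-- A coefficient. -/
noncomputable def sr0_m0_0_2 : MP 10 :=
  [[[[[[[[[[Int.negSucc (nat_lit 42602785150765251639),Int.ofNat (nat_lit 0),Int.ofNat (nat_lit 18217206789231089153)],[Int.negSucc (nat_lit 106245890651598509849)]],[[Int.ofNat (nat_lit 0),Int.ofNat (nat_lit 1349980183761127214)]],[[Int.ofNat (nat_lit 21904022892365016023)]]],[[[Int.negSucc (nat_lit 33928598108887192747)],[Int.ofNat (nat_lit 746472600054874744)]]],[[[Int.negSucc (nat_lit 2113789253858243499)]]]],[[[[Int.ofNat (nat_lit 0),Int.ofNat (nat_lit 5911974573611250190)]],[[Int.negSucc (nat_lit 52450818393447921579)]]]],[[[[Int.ofNat (nat_lit 95045008183136998145)]]]]],[[[[[Int.ofNat (nat_lit 53588184420529186390)],[Int.ofNat (nat_lit 12513365382469655060)]]],[[[Int.ofNat (nat_lit 1209195321193451474)]]]]],[[[[[Int.negSucc (nat_lit 22318699090640843445)]]]]]],[[[[[[Int.ofNat (nat_lit 0),Int.negSucc (nat_lit 12114992370572025645)]],[[Int.ofNat (nat_lit 63037404098479241284)]]]],[[[[Int.negSucc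 (nat_lit 172525230658343258271)]]],[[[Int.ofNat (nat_lit 4342377725417541970)]]]]],[[],[[[[Int.ofNat (nat_lit 1268748434281575284)]]]]]],[[[[[[Int.ofNat (nat_lit 248620026364843291689)]]],[[[Int.negSucc (nat_lit 2683730728159058729)]]]]],[[[[[Int.negSucc (nat_lit 21116043255610666331)]]]]]]],[[[[[[[Int.negSucc (nat_lit 1523689738808325513)],[Int.ofNat (nat_lit 22045341728922901972)]]],[[[Int.ofNat (nat_lit 46285541923089658564)]]]]],[[[[[Int.negSucc (nat_lit 85771410907784756329)]]],[[[Int.ofNat (nat_lit 6291750293747836758)]]]]],[[[[[Int.ofNat (nat_lit 2145849114979354758)]]]]]],[[[[[[Int.ofNat (nat_lit 0),Int.ofNat (nat_lit 8645305912450610210)]],[[Int.negSucc (nat_lit 5688095423553905711)]]]],[[[[Int.ofNat (nat_lit 12359386462040024422)]]]]]],[[[[[[Int.ofNat (nat_lit 54855335147846000504)]]]]]]],[[[[[[[Int.ofNat (nat_lit 5459360043950053344)]]],[[[Int.negSucc (nat_lit 7835884243737016553)]]]]],[[[[[Int.ofNat (nat_lit 24236371982503356830)]]]]]],[],[[[[[[Int.ofNat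 (nat_lit 32542226884187778765)]]]]]]],[[[[[[[Int.ofNat (nat_lit 8591615828705826790)]]]]]]]],[[[[[[[[Int.ofNat (nat_lit 0),Int.ofNat (nat_lit 40248305824957653006)]],[[Int.negSucc (nat_lit 81613246262259076301)]]],[[],[[Int.negSucc (nat_lit 1789450020583738811)]]]],[[[[Int.ofNat (nat_lit 219872906686680264410)]]],[[[Int.negSucc (nat_lit 3144116987664118641)]]]]],[[[[[Int.ofNat (nat_lit 0),Int.ofNat (nat_lit 34589833398374959110)]],[[Int.ofNat (nat_lit 22862947011491871006)]]]],[[[[Int.negSucc (nat_lit 54329614803964234437)]]]]]],[[[[[[Int.negSucc (nat_lit 460995818974508410447)],[Int.ofNat (nat_lit 23385257857181134362)]]],[[[Int.ofNat (nat_lit 7524053590577617074)]]]]],[[[[[Int.negSucc (nat_lit 19162034260251889995)]]]]]],[[[],[[[[Int.ofNat (nat_lit 21463533679422617060)]]]]]],[[[[[[Int.negSucc (nat_lit 8290037323189768401)]]]]]]],[[[[[[[Int.ofNat (nat_lit 0),Int.ofNat (nat_lit 9552271064574671254)]],[[Int.ofNat (nat_lit 53358645129249039942)]]]],[[[[Int.negSucc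 (nat_lit 61936641069972512709)]]]]]],[[[[[[Int.negSucc (nat_lit 77281895896323025981)]]]]],[[[[[Int.ofNat (nat_lit 35583782428607106212)]]]]]]],[[],[[[[[[Int.negSucc (nat_lit 57264556998758221503)]]]]]]]],[[[[[[[[Int.ofNat (nat_lit 387055035298022554191)],[Int.ofNat (nat_lit 14545230710045838664)]]],[[[Int.ofNat (nat_lit 16794231340669431534)]]]]],[[[[[Int.negSucc (nat_lit 13340421063633221549)]]]]],[[[[[Int.ofNat (nat_lit 42844012337763703959)]]]]]],[[[[[],[[Int.ofNat (nat_lit 8472480069179701546)]]]],[[[[Int.ofNat (nat_lit 24202654746807472750)]]]]]],[[[[[[Int.negSucc (nat_lit 4104611305080980307)]]]]]]],[[[[[[[Int.negSucc (nat_lit 182370834583906607821)]]],[[[Int.negSucc (nat_lit 2411799751264845265)]]]]],[[[[[Int.ofNat (nat_lit 1656291413172676120)]]]]]]],[[[[[[[Int.ofNat (nat_lit 73593689721562994848)]]]]]]]],[[[[[[[[Int.ofNat (nat_lit 0),Int.negSucc (nat_lit 14983046571412694537)]],[[Int.ofNat (nat_lit 13605026779957987142)]]]],[[[[Int.negSucc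 (nat_lit 57283047237876073301)]]]]]],[[[[[[Int.ofNat (nat_lit 69518234365665426750)]]]]]]],[[],[[[[[[Int.negSucc (nat_lit 8915534899824120165)]]]]]]]],[[[[[[[[Int.negSucc (nat_lit 106272870476450841685)]]]]],[[[[[Int.negSucc (nat_lit 26505197738343696259)]]]]]]],[[[[[[[Int.ofNat (nat_lit 20856635276565946776)]]]]]]]]],[[[[[[[[[Int.negSucc (nat_lit 250512762645756622719)],[Int.negSucc (nat_lit 119566506224528265841)]]],[[[Int.negSucc (nat_lit 27729588119724465757)]]],[[[Int.negSucc (nat_lit 975779998457418995)]]]],[[[[Int.ofNat (nat_lit 0),Int.ofNat (nat_lit 6030154115703900662)]],[[Int.negSucc (nat_lit 4079545116976911837)]]]],[[[[Int.ofNat (nat_lit 33631121013284169994)]]]]],[[[[[Int.ofNat (nat_lit 38752378783408391324)]]],[[[Int.negSucc (nat_lit 447395320394472131)]]]]],[[[[[Int.negSucc (nat_lit 26047988433896705121)]]]]]],[[[[[[Int.ofNat (nat_lit 0),Int.ofNat (nat_lit 26258199497025324698)]],[[Int.ofNat (nat_lit 39925261126599556252)]]]],[[[[Int.negSucc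 (nat_lit 108357623844672777625)]]]]]],[[[[[[Int.ofNat (nat_lit 283389670852966163858)]]]]]]],[[[[[[[Int.ofNat (nat_lit 115647162719962211700)],[Int.ofNat (nat_lit 12399413769131702310)]]],[[[Int.ofNat (nat_lit 55457527512560155682)]]]]],[[[[[Int.negSucc (nat_lit 86444403923402918731)]]]]]],[[[],[[[[Int.ofNat (nat_lit 19948221001239224686)]]]]]],[[[[[[Int.ofNat (nat_lit 5077329005797962358)]]]]]]],[[[[[[[Int.negSucc (nat_lit 32653643493046453709)]]]]],[[[[[Int.negSucc (nat_lit 4685646408002450363)]]]]]]],[[[[[[[Int.negSucc (nat_lit 20569302522015328459)]]]]]]]],[[[[[[[[Int.ofNat (nat_lit 0),Int.negSucc (nat_lit 53449957524156883487)]],[[Int.negSucc (nat_lit 33483016864301950833)]]]],[[[[Int.ofNat (nat_lit 60189081840197465236)]]]]],[[],[[[[Int.negSucc (nat_lit 10822397689119357419)]]]]]],[[[[[[Int.negSucc (nat_lit 253416768961976941367)]]],[[[Int.ofNat (nat_lit 9560973988742407838)]]]]],[[[[[Int.negSucc (nat_lit 12897713494667765627)]]]]]]],[[[[[[],[[Int.ofNat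 (nat_lit 7940970335625930498)]]]],[[[[Int.negSucc (nat_lit 20221073586433030315)]]]]]],[[[[[[Int.negSucc (nat_lit 10341531420534786315)]]]]]]]],[[[[[[[[Int.ofNat (nat_lit 312971117990532957568)]]],[[[Int.ofNat (nat_lit 11077618982824778828)]]]]],[[[[[Int.negSucc (nat_lit 105913520011955799619)]]]]]],[],[[[[[[Int.ofNat (nat_lit 27241494502774994546)]]]]]]],[[[[[[[Int.ofNat (nat_lit 3953769963398031080)]]]]]]],[[[[[[[Int.negSucc (nat_lit 818655839734671331)]]]]]]]],[[[],[[[[[[Int.ofNat (nat_lit 21241405668006951814)]]]]]]]],[[[[[[[[Int.negSucc (nat_lit 34154553022954122841)]]]]]]]]],[[[[[[[[[Int.negSucc (nat_lit 426904938811419380377)],[Int.negSucc (nat_lit 38165207482123069311)]]],[[[Int.ofNat (nat_lit 2380841121314336076)]]]]],[[[[[Int.negSucc (nat_lit 9618884550252635357)]]]]]],[[[],[[[[Int.ofNat (nat_lit 6593061375254749962)]]]]]],[[[[[[Int.ofNat (nat_lit 41606774265505021712)]]]]]]],[[[[[[[Int.ofNat (nat_lit 245788799493196153560)]]],[[[Int.ofNat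 (nat_lit 7479773023477686512)]]]]],[[[[[Int.ofNat (nat_lit 12815902425650669434)]]]]]]],[[[[[[[Int.negSucc (nat_lit 55126113717841534781)]]]]]]]],[[[[[[[[Int.ofNat (nat_lit 0),Int.negSucc (nat_lit 35469166823471240309)]],[[Int.ofNat (nat_lit 23749412645322071222)]]]],[[[[Int.negSucc (nat_lit 82889797124889514461)]]]]]],[[[[[[Int.ofNat (nat_lit 17624771828961746258)]]]]]]],[[],[[[[[[Int.negSucc (nat_lit 24165542757211954553)]]]]]]]],[[[[[[[[Int.negSucc (nat_lit 133548976759029410149)]]]]],[[[[[Int.negSucc (nat_lit 16053146862163926021)]]]]]]],[[[[[[[Int.ofNat (nat_lit 23610249108177259896)]]]]]]]]],[[[[[[[[[Int.negSucc (nat_lit 340495686387070195557)]]],[[[Int.ofNat (nat_lit 12409790236695219702)]]]]],[[[[[Int.negSucc (nat_lit 24732809137737459245)]]]]]]],[[[[[[[Int.ofNat (nat_lit 189179778128548634954)]]]]]]],[[[[[[[Int.negSucc (nat_lit 12236443229044106649)]]]]]]]],[[[],[[[[[[Int.ofNat (nat_lit 37374173346166983026)]]]]]]]],[[[[[[[[Int.negSucc (nat_lit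 2608971492818837)]]]]]]]]],[[[[[[[[[Int.negSucc (nat_lit 132269264981431288625)]]]]]]],[[[[[[[Int.ofNat (nat_lit 51051237408323769818)]]]]]]]]],[[[[[[[[[Int.negSucc (nat_lit 11130409893656785657)]]]]]]]]]]

/-- A coefficient. -/
noncomputable def sr0_m0_0_3 : MP 10 :=
  [[[[[[[[[[Int.ofNat (nat_lit 0),Int.negSucc (nat_lit 2081240833249652171)]],[[Int.ofNat (nat_lit 72775944356194841966)]]],[[[Int.ofNat (nat_lit 0),Int.negSucc (nat_lit 14348150170172785)]],[[Int.ofNat (nat_lit 6427719077106175412)]]]],[[[[Int.negSucc (nat_lit 249557284442603390255)],[Int.negSucc (nat_lit 21242890210845359187)]]],[[[Int.ofNat (nat_lit 2070128707054774564)]]]]],[[[[[Int.ofNat (nat_lit 0),Int.negSucc (nat_lit 42542889659583060083)]],[[Int.negSucc (nat_lit 11957920129737571693)]]]],[[[[Int.ofNat (nat_lit 70315530722667953810)]]]]]],[[[[[[Int.ofNat (nat_lit 530630497295181509608)],[Int.ofNat (nat_lit 15701939930615452010)]]],[[[Int.negSucc (nat_lit 2102437609855594251)]]]],[],[[[[Int.negSucc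 (nat_lit 8490884256468331267)]]]]],[[[[[Int.negSucc (nat_lit 16725399164914373713)]]]]]],[[[],[[[[Int.negSucc (nat_lit 7449735701196757923)]]]]]],[[[[[[Int.negSucc (nat_lit 20062993137001181925)]]]]]]],[[[[[[[Int.ofNat (nat_lit 0),Int.ofNat (nat_lit 3874158987144675666)]],[[Int.negSucc (nat_lit 56169620477673133209)]]]],[[[[Int.ofNat (nat_lit 89332802719495668746)]]]]],[[],[[[[Int.negSucc (nat_lit 4488501347563560655)]]]]]],[[[[[[Int.negSucc (nat_lit 45771506664911979013)]]],[[[Int.ofNat (nat_lit 5948591215479160228)]]]]],[[[[[Int.negSucc (nat_lit 19317885274207297745)]]]]]]],[[[[],[[[[Int.negSucc (nat_lit 5926548451062202937)]]]]]],[[[[[[Int.ofNat (nat_lit 74150923941996518902)]]]]]]]],[[[[[[[[Int.negSucc (nat_lit 714086301078073668871)],[Int.negSucc (nat_lit 39731492457443984113)]]],[[[Int.negSucc (nat_lit 25247308582504170087)]]]],[[[],[[Int.negSucc (nat_lit 5467496517225176071)]]]],[[[[Int.ofNat (nat_lit 20895323083432681630)]]]]],[[[[[Int.ofNat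 (nat_lit 139786927886922581894)]]],[[[Int.negSucc (nat_lit 3659259676274148339)]]]]],[[[[[Int.negSucc (nat_lit 78801939617228678373)]]]]]],[[[[[[Int.ofNat (nat_lit 0),Int.ofNat (nat_lit 14983454345605501450)]],[[Int.ofNat (nat_lit 5118009628030309830)]]]],[[[[Int.negSucc (nat_lit 22338002750678367723)]]]]]],[[[[[[Int.ofNat (nat_lit 34911884989446309556)]]]]]]],[[[[[[[Int.ofNat (nat_lit 312676689830475825646)]]]]],[[[[[Int.negSucc (nat_lit 21226462760061691609)]]]]]],[],[[[[[[Int.ofNat (nat_lit 23012763551852204338)]]]]]]],[[[[[[[Int.negSucc (nat_lit 28596943297012246629)]]]]]]]],[[[[[[[[Int.ofNat (nat_lit 0),Int.negSucc (nat_lit 11187219118271596905)]],[[Int.negSucc (nat_lit 61396729915874319931)]]]],[[[[Int.ofNat (nat_lit 228893598024635903620)]]]]]],[[[[[[Int.negSucc (nat_lit 254891696216218441113)]]]]],[[[[[Int.ofNat (nat_lit 51429445791365262866)]]]]]]],[[[[],[[[[Int.negSucc (nat_lit 14630156702225518597)]]]]]],[[[[[[Int.ofNat (nat_lit 710580313088278898)]]]]]]]],[[[[[[[[Int.ofNat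 (nat_lit 346642654686026390276)]]]]],[[[[[Int.negSucc (nat_lit 64602001596144856699)]]]]]]],[[[[[[[Int.negSucc (nat_lit 29586922711752667391)]]]]]]]]],[[[[[[[[[Int.ofNat (nat_lit 0),Int.ofNat (nat_lit 99648841821691068462)]],[[Int.negSucc (nat_lit 1489002051458076479)]]]],[[[[Int.negSucc (nat_lit 89871592633419444665)]]],[[[Int.negSucc (nat_lit 3161361058631178119)]]]]],[[],[[[[Int.ofNat (nat_lit 24859858895934919738)]]]]]],[[[[[[Int.ofNat (nat_lit 276102061089901786866)]]],[[[Int.negSucc (nat_lit 6323728375504587857)]]]]],[[[[[Int.ofNat (nat_lit 8495403910025263306)]]]]]]],[[[[[[[Int.ofNat (nat_lit 0),Int.ofNat (nat_lit 8149803130597549512)]],[[Int.negSucc (nat_lit 20071296754838737883)]]]],[[[[Int.ofNat (nat_lit 36825963931861861104)]]]]]],[[[[[[Int.ofNat (nat_lit 25830498893227730198)]]]]]]],[[],[[[[[[Int.negSucc (nat_lit 14758983235282325363)]]]]]]]],[[[[[[[[Int.negSucc (nat_lit 528761376139567543019)],[Int.negSucc (nat_lit 46351446057770321001)]]],[[[Int.negSucc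 (nat_lit 17173531551298676401)]]]]],[[[[[Int.ofNat (nat_lit 135902817370540633138)]]]]]],[[[],[[[[Int.ofNat (nat_lit 37544954855743547086)]]]]]],[[[[[[Int.negSucc (nat_lit 23860668359072824123)]]]]]]],[[[[[[[Int.ofNat (nat_lit 213035324553979215326)]]]]],[[[[[Int.negSucc (nat_lit 414011742933830353)]]]]]]],[[[[[[[Int.negSucc (nat_lit 23429955850368045271)]]]]]]]],[[[[[[[],[[Int.negSucc (nat_lit 3515240967088766861)]]]],[[[[Int.negSucc (nat_lit 54208383320579636029)]]]]]],[[[[[[Int.ofNat (nat_lit 15373531509250504642)]]]]]]]],[[[[[[[[Int.ofNat (nat_lit 113007254949660210374)]]]]]]],[[[[[[[Int.ofNat (nat_lit 7304851507239002114)]]]]]]]]],[[[[[[[[[Int.ofNat (nat_lit 0),Int.ofNat (nat_lit 56553538902225670532)]],[[Int.negSucc (nat_lit 33666343721634920019)]]]],[[[[Int.ofNat (nat_lit 54636817605168762946)]]]]]],[[[[[[Int.negSucc (nat_lit 39648310183831105477)]]]]]]],[[[[],[[[[Int.ofNat (nat_lit 2525975360800899470)]]]]]],[[[[[[Int.ofNat (nat_lit 39905115206050441564)]]]]]]]],[[[[[[[[Int.negSucc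 (nat_lit 33380948332041691633)]]],[[[Int.negSucc (nat_lit 8219075602595788765)]]]]],[[[[[Int.ofNat (nat_lit 12110464832958416570)]]]]]]],[[[[[[[Int.negSucc (nat_lit 4926194797307052667)]]]]]]]],[[[],[[[[[[Int.negSucc (nat_lit 35224754283290723839)]]]]]]]],[[[[[[[[Int.ofNat (nat_lit 61310862833860664826)]]]]]]]]],[[[[[[],[[[[Int.negSucc (nat_lit 13344457074101113335)]]]]]],[[[[[[Int.negSucc (nat_lit 14528643893003068067)]]]]]]]],[[[[[[[[Int.negSucc (nat_lit 28521455270322144161)]]]]]]],[[[[[[[Int.negSucc (nat_lit 20629096831683315423)]]]]]]]]],[[],[[[[[[[[Int.negSucc (nat_lit 673553622582272699)]]]]]]]]]]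

/-- A coefficient. -/
noncomputable def sr0_m0_0_4 : MP 10 :=
  [[[[[[[[[[Int.ofNat (nat_lit 19413221423009801762)],[Int.ofNat (nat_lit 18869644052471294736)]]],[[[Int.ofNat (nat_lit 2470126437322901364)]]]],[[[[Int.ofNat (nat_lit 0),Int.negSucc (nat_lit 3476932424397061645)]],[[Int.ofNat (nat_lit 12461202945098199300)]]]],[[[[Int.negSucc (nat_lit 73455292667614806387)]]]]],[[[[[Int.negSucc (nat_lit 38685721615093783797)]]]]]],[[[[[[Int.ofNat (nat_lit 0),Int.negSucc (nat_lit 21088250584044505107)]],[[Int.negSucc (nat_lit 8437844736117528259)]]]],[[[[Int.ofNat (nat_lit 152630773257835994786)]]]]]],[[[[[[Int.negSucc (nat_lit 284467842091452577941)]]]]]]],[[[[[[[Int.ofNat (nat_lit 106375183402281649516)],[Int.ofNat (nat_lit 3934545330018855206)]]],[[[Int.negSucc (nat_lit 16088113557369792819)]]]]],[[[[[Int.ofNat (nat_lit 101005208428933278134)]]]]]],[[[],[[[[Int.ofNat (nat_lit 18833424921380562964)]]]]]],[[[[[[Int.negSucc (nat_lit 28386204025203834879)]]]]]]],[[[[[[[Int.negSucc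 (nat_lit 75622493880721874817)]]]]],[[[[[Int.ofNat (nat_lit 3436372215251948426)]]]]]]],[[[[[[[Int.ofNat (nat_lit 12973167937932097046)]]]]]]]],[[[[[[[[Int.ofNat (nat_lit 0),Int.ofNat (nat_lit 40616488944816212582)]],[[Int.ofNat (nat_lit 32681703827340438988)]]]],[[[[Int.negSucc (nat_lit 476230296510338545377)]]]]],[[],[[[[Int.ofNat (nat_lit 6816338021540310546)]]]]]],[[[[[[Int.ofNat (nat_lit 684348193379463959110)]]]]],[[[[[Int.negSucc (nat_lit 58335423142134100467)]]]]]]],[[[[[[],[[Int.negSucc (nat_lit 11571084886535787587)]]]],[[[[Int.ofNat (nat_lit 21739239701624147626)]]]]]],[[[[[[Int.ofNat (nat_lit 86096268452343379882)]]]]]]]],[[[[[[[[Int.negSucc (nat_lit 835908186815389985921)]]]]],[[[[[Int.ofNat (nat_lit 166026148228877054714)]]]]]]],[[[[[[[Int.negSucc (nat_lit 17342739878301700029)]]]]]]],[[[[[[[Int.negSucc (nat_lit 35933346603688792219)]]]]]]]]],[[[[[[[[[Int.ofNat (nat_lit 125887804699829103656)],[Int.ofNat (nat_lit 58648668155426831670)]]],[[[Int.negSucc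 (nat_lit 14364279259928642269)]]]]],[[[[[Int.negSucc (nat_lit 46433707388074530421)]]]]]],[[[],[[[[Int.ofNat (nat_lit 5499040306925458936)]]]]]],[[[[[[Int.negSucc (nat_lit 55496277063164094389)]]]]]]],[[[[[[[Int.ofNat (nat_lit 126894966718353908180)]]],[[[Int.negSucc (nat_lit 15084306437388702475)]]]]],[[[[[Int.ofNat (nat_lit 57123859951900355762)]]]]]]],[[[[[[[Int.negSucc (nat_lit 40213627397999544365)]]]]]]]],[[[[[[[[Int.ofNat (nat_lit 0),Int.ofNat (nat_lit 16025425041533150802)]],[[Int.negSucc (nat_lit 3563479428819092385)]]]],[[[[Int.ofNat (nat_lit 14140788008557742610)]]]]]],[[[[[[Int.ofNat (nat_lit 78623448007313967324)]]]]]]],[[],[[[[[[Int.ofNat (nat_lit 48829854590902023660)]]]]]]]],[[[[[[[[Int.negSucc (nat_lit 209791396390566168255)]]]]],[[[[[Int.ofNat (nat_lit 3349080180553095078)]]]]]]],[[[[[[[Int.negSucc (nat_lit 17307046628284622085)]]]]]]]]],[[[[[[[[[Int.ofNat (nat_lit 160156906577542013602)]]],[[[Int.ofNat (nat_lit 2762868701437964496)]]]]],[[[[[Int.negSucc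 (nat_lit 41116532313000395091)]]]]]]],[[[[[[[Int.ofNat (nat_lit 58580892150132874478)]]]]]]],[[[[[[[Int.negSucc (nat_lit 2796805772553116269)]]]]]]]],[[[],[[[[[[Int.ofNat (nat_lit 33527032123883464310)]]]]]]]],[[[[[[[[Int.negSucc (nat_lit 41794123370603717777)]]]]]]]]],[[[[[[[[[Int.ofNat (nat_lit 96033491389933090692)]]]]]]],[[[[[[[Int.ofNat (nat_lit 6680577136693723436)]]]]]]]]],[[[[[[[[[Int.ofNat (nat_lit 41309489276326847534)]]]]]]]]]]

/-- A coefficient. -/
noncomputable def sr0_m0_0_5 : MP 10 :=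
  [[[[[[[[[[Int.ofNat (nat_lit 0),Int.negSucc (nat_lit 66353714603824205529)]],[[Int.ofNat (nat_lit 37953453980160119246)]]]],[[[[Int.ofNat (nat_lit 233114901196107780036)]]]]]],[[[[[[Int.negSucc (nat_lit 439542362909981313425)]]]]]]],[[[[[[[Int.ofNat (nat_lit 0),Int.negSucc (nat_lit 4772316713610871151)]],[[Int.ofNat (nat_lit 22491068703308535780)]]]],[[[[Int.negSucc (nat_lit 18777061491169581769)]]]]]],[[[[[[Int.ofNat (nat_lit 7833688327572288846)]]]]]]],[[],[[[[[[Int.negSucc (nat_lit 36850698013038555789)]]]]]]]],[[[[[[[[Int.ofNat (nat_lit 470647199687748511360)],[Int.negSucc (nat_lit 24547884530493064523)]]],[[[Int.ofNat (nat_lit 10040515874938373748)]]]]],[[[[[Int.negSucc (nat_lit 172556058507651796533)]]]]]],[[[],[[[[Int.ofNat (nat_lit 21545512751206978784)]]]]]],[[[[[[Int.negSucc (nat_lit 25359068551369856405)]]]]]]],[[[[[[[Int.negSucc (nat_lit 41814669566691705845)]]]]],[[[[[Int.ofNat (nat_lit 490687484534351188)]]]]]]],[[[[[[[Int.negSucc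 (nat_lit 4011822823127237753)]]]]]]]],[[[[[[[],[[Int.ofNat (nat_lit 7361836292526340144)]]]],[[[[Int.negSucc (nat_lit 85622444343010440841)]]]]]],[[[[[[Int.ofNat (nat_lit 44288467141213323132)]]]]]]]],[[[[[[[[Int.negSucc (nat_lit 45135223591211482049)]]]]]]],[[[[[[[Int.ofNat (nat_lit 5931671455341666582)]]]]]]]]],[[[[[[[[[Int.ofNat (nat_lit 0),Int.negSucc (nat_lit 65653086632172873969)]],[[Int.ofNat (nat_lit 26870583097439802618)]]]],[[[[Int.ofNat (nat_lit 47681182697791700328)]]]]]],[[[[[[Int.negSucc (nat_lit 119797621438092869759)]]]]]]],[[],[[[[[[Int.negSucc (nat_lit 51195994860479554861)]]]]]]]],[[[[[[[[Int.ofNat (nat_lit 251562812420037209824)]]],[[[Int.ofNat (nat_lit 2460388271193293692)]]]]],[[[[[Int.negSucc (nat_lit 82119159289293275077)]]]]]]],[[[[[[[Int.ofNat (nat_lit 44897908415428580274)]]]]]]]],[[[],[[[[[[Int.ofNat (nat_lit 2051018005304572222)]]]]]]]],[[[[[[[[Int.negSucc (nat_lit 45688178645235209023)]]]]]]]]],[[],[[[[[[[[Int.ofNat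 (nat_lit 32754587506146527802)]]]]]]],[[[[[[[Int.ofNat (nat_lit 12240853025327056874)]]]]]]]]],[[],[[[[[[[[Int.ofNat (nat_lit 7581356186571188172)]]]]]]]]]]

/-- A coefficient. -/
noncomputable def sr0_m0_0_6 : MP 10 :=
  [[[[[[[[[[Int.ofNat (nat_lit 13876993948448987326)],[Int.ofNat (nat_lit 49121471510832877788)]]],[[[Int.ofNat (nat_lit 12490999095281458724)]]]]],[[[[[Int.ofNat (nat_lit 9069738509634236240)]]]]]],[[[],[[[[Int.negSucc (nat_lit 44958263588317578919)]]]]]],[[[[[[Int.ofNat (nat_lit 66591972040183171874)]]]]]]],[[[[[[[Int.negSucc (nat_lit 81518987560099902039)]]]]],[[[[[Int.negSucc (nat_lit 59747473411071057187)]]]]]]],[[[[[[[Int.ofNat (nat_lit 37527791403562922410)]]]]]]]],[[[[[[[[Int.ofNat (nat_lit 0),Int.negSucc (nat_lit 28109573048483699275)]],[[Int.ofNat (nat_lit 14169826330792448548)]]]],[[[[Int.ofNat (nat_lit 222024881735935455986)]]]]]],[[[[[[Int.negSucc (nat_lit 213315018153543578517)]]]]]]],[[],[[[[[[Int.negSucc (nat_lit 6086314345210001461)]]]]]]]],[[[[[[[[Int.ofNat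 (nat_lit 282353261397070303146)]]]]],[[[[[Int.negSucc (nat_lit 97635054262325422193)]]]]]]],[[[[[[[Int.ofNat (nat_lit 30079607322198612260)]]]]]]]]],[[[[[[[[[Int.ofNat (nat_lit 21647380259239432680)]]],[[[Int.ofNat (nat_lit 15928935574073555648)]]]]],[[[[[Int.ofNat (nat_lit 8336242685690779162)]]]]]]],[[[[[[[Int.negSucc (nat_lit 81662497998764708861)]]]]]]]],[[[],[[[[[[Int.negSucc (nat_lit 28679772122238899973)]]]]]]]],[[[[[[[[Int.negSucc (nat_lit 2086597792763896873)]]]]]]]]],[[[[[[[[[Int.ofNat (nat_lit 19648362577030728158)]]]]]]],[[[[[[[Int.negSucc (nat_lit 14527610194987385577)]]]]]]]]],[[[[[[[[[Int.ofNat (nat_lit 12373401872051224900)]]]]]]]]]]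

/-- A coefficient. -/
noncomputable def sr0_m0_0_7 : MP 10 :=
  [[[[[[[[[[Int.ofNat (nat_lit 0),Int.ofNat (nat_lit 41724737210795837706)]],[[Int.negSucc (nat_lit 59222061326172725461)]]]],[[[[Int.negSucc (nat_lit 75309103204114388929)]]]]]],[[[[[[Int.ofNat (nat_lit 82453649165540309982)]]]]]]],[[],[[[[[[Int.negSucc (nat_lit 15947590476295269695)]]]]]]]],[[[[[[[[Int.negSucc (nat_lit 16429607652411593769)]]]]],[[[[[Int.ofNat (nat_lit 74377466992039338108)]]]]]]]]]]

/-- A coefficient. -/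
noncomputable def sr0_m0_1_0 : MP 10 :=
  [[[[[[[[[[Int.negSucc (nat_lit 145553396271074591997)],[Int.negSucc (nat_lit 184902414325490598377)],[Int.negSucc (nat_lit 229606139099697023901)]]],[[[Int.ofNat (nat_lit 6473039526450227012)],[Int.negSucc (nat_lit 1324263268670012203)]]],[[[Int.negSucc (nat_lit 11155244033875264455)]]]]],[[[[[Int.negSucc (nat_lit 129053662999394498367)],[Int.ofNat (nat_lit 11500292980945743578)]]],[[[Int.ofNat (nat_lit 27228073345650150362)]]]]],[[[[[Int.negSucc (nat_lit 98886099681352857985)]]]]]],[[[],[[[[Int.ofNat (nat_lit 32475937205027054900)],[Int.ofNat (nat_lit 20490015157550936766)]]],[[[Int.negSucc (nat_lit 3724358847513564019)]]]]],[[],[[[[Int.ofNat (nat_lit 27567296043081524632)]]]]]],[[[[[[Int.ofNat (nat_lit 27780294795904786978)],[Int.ofNat (nat_lit 29541033947972901646)]]],[[[Int.ofNat (nat_lit 2526174082206376354)]]]]],[[[[[Int.ofNat (nat_lit 10695495140828930882)]]]]]],[[[],[[[[Int.negSucc (nat_lit 6654249642972408749)]]]]]],[[[[[[Int.negSucc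 (nat_lit 30507287376501032281)]]]]]]],[[[[[[[Int.ofNat (nat_lit 375421526563177603066)],[Int.ofNat (nat_lit 244900635682628748210)]]],[[[Int.ofNat (nat_lit 10649376799407218628)]]]]],[[[[[Int.ofNat (nat_lit 155781078250029872342)],[Int.ofNat (nat_lit 20584237857221041664)]]],[[[Int.negSucc (nat_lit 1786192087611956391)]]]]],[[[[[Int.ofNat (nat_lit 30461138175252935878)]]]]]],[[[],[[[[Int.negSucc (nat_lit 45017066348986521103)]]]]]],[[[[[[Int.negSucc (nat_lit 37608443341204563677)]]]]],[[[[[Int.negSucc (nat_lit 4639759080588707523)]]]]]]],[[[[[[[Int.negSucc (nat_lit 450911300541982661017)],[Int.negSucc (nat_lit 73825501862867931997)]]],[[[Int.negSucc (nat_lit 13187686978215457269)]]]]],[[[[[Int.negSucc (nat_lit 63400924879608732743)]]]]]],[[[],[[[[Int.negSucc (nat_lit 3555095893879102147)]]]]]],[[[[[[Int.ofNat (nat_lit 51051960995377827486)]]]]]]],[[[[[[[Int.ofNat (nat_lit 241718469895270493578)]]]]],[[[[[Int.negSucc (nat_lit 4666166462663423233)]]]]]]],[[[[[[[Int.negSucc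 (nat_lit 58517114348608634255)]]]]]]]],[[[[[[[],[[Int.ofNat (nat_lit 3928434498483453210)],[Int.ofNat (nat_lit 406138441964844624)]]],[[],[[Int.negSucc (nat_lit 5099878365674624917)]]]],[[[[Int.negSucc (nat_lit 26508552598218180061)],[Int.negSucc (nat_lit 128519909557687985415)]]],[[[Int.ofNat (nat_lit 26860038445598722082)]]]]],[[[[],[[Int.ofNat (nat_lit 9750534524159263650)]]]],[[[[Int.negSucc (nat_lit 37957484433599225633)]]]]]],[[[[[[Int.negSucc (nat_lit 37669394375648184859)],[Int.negSucc (nat_lit 38380754746596926073)]]],[[[Int.ofNat (nat_lit 1983979362008253588)]]]],[],[[[[Int.ofNat (nat_lit 9617171328995273104)]]]]],[[[[[Int.negSucc (nat_lit 28006796601150365383)]]]]]],[[[[[],[[Int.ofNat (nat_lit 909972915792280844)]]]],[[[[Int.negSucc (nat_lit 7816433245107649851)]]]]]],[[[[[[Int.negSucc (nat_lit 19963498527404477319)]]]]]]],[[[[[[],[[Int.ofNat (nat_lit 3397087031451426160)]]]],[[[[Int.ofNat (nat_lit 68738001831483113616)]]]]],[[],[[[[Int.ofNat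 (nat_lit 11916097696789895950)]]]]]],[[[[[[Int.negSucc (nat_lit 67492153273926204837)]]]]],[[[[[Int.ofNat (nat_lit 13514013869201908720)]]]]]]],[[[[[[],[[Int.ofNat (nat_lit 3352392393117190356)]]]],[[[[Int.negSucc (nat_lit 254812062975857821)]]]]]],[[[[[[Int.ofNat (nat_lit 39955515646414067410)]]]]]]]],[[[[[[[[Int.ofNat (nat_lit 97100742883548242478)],[Int.negSucc (nat_lit 15361401532469612775)]]],[[[Int.ofNat (nat_lit 10857337045421190560)]]]],[[[],[[Int.ofNat (nat_lit 1331462308856515106)]]]],[[[[Int.negSucc (nat_lit 67399176090263679685)]]]]],[[[[[Int.ofNat (nat_lit 80313724572272067298)]]]]]],[[[[[],[[Int.ofNat (nat_lit 10036958769935592072)]]]],[[[[Int.negSucc (nat_lit 57515935543461292945)]]]]]],[[[[[[Int.negSucc (nat_lit 50118378321599141279)]]]]]]],[[[[[[[Int.negSucc (nat_lit 130260705490190882691)],[Int.negSucc (nat_lit 10756900732574202047)]]],[[[Int.negSucc (nat_lit 9222278989423727533)]]]]],[[[[[Int.negSucc (nat_lit 45590214438667668889)]]]]]],[],[[[[[[Int.ofNat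 (nat_lit 1637206712207748532)]]]]]]],[[[[[[[Int.ofNat (nat_lit 78644481930004724182)]]]]]]],[[[[[[[Int.negSucc (nat_lit 12571683741402828195)]]]]]]]],[[[[[[[],[[Int.negSucc (nat_lit 12371867088103412285)]]]],[[[[Int.ofNat (nat_lit 47808647662529993166)]]]]]],[[[[[[Int.ofNat (nat_lit 14478169210060360788)]]]]]]],[[[[],[[[[Int.ofNat (nat_lit 7152376192940632922)]]]]]],[[[[[[Int.ofNat (nat_lit 14287942275542324164)]]]]]]]],[[[[[[[[Int.negSucc (nat_lit 112041768420658391517)]]]]]]],[[[[[[[Int.ofNat (nat_lit 29221580018815883382)]]]]]]]]],[[[[[[[[[Int.negSucc (nat_lit 373021967799599125625)],[Int.negSucc (nat_lit 107436243960234477127)]]],[[[Int.negSucc (nat_lit 6260153404181842203)],[Int.negSucc (nat_lit 119743708957570633)]]],[[[Int.negSucc (nat_lit 3392388972050732909)]]]]],[[[[[Int.negSucc (nat_lit 220209885285685406891)],[Int.ofNat (nat_lit 76435420082692805946)]]],[[[Int.ofNat (nat_lit 31870031791695485600)]]]]],[[[[[Int.negSucc (nat_lit 160182896491087632705)]]]]]],[[[],[[[[Int.ofNat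 (nat_lit 12194296593043336888)]]]]],[[],[[[[Int.ofNat (nat_lit 14592298954461141300)]]]]]],[[[[[[Int.ofNat (nat_lit 26070309091097408790)]]],[[[Int.ofNat (nat_lit 97202670707450996)]]]]],[[[[[Int.negSucc (nat_lit 3758898259306931417)]]]]]]],[[[[[[[Int.ofNat (nat_lit 597985478094063418506)],[Int.ofNat (nat_lit 38986268040570354098)]]],[[[Int.ofNat (nat_lit 2728876688991603750)]]]]],[[[[[Int.ofNat (nat_lit 169821970888686225862)]]]]],[[[[[Int.ofNat (nat_lit 17009049862291843054)]]]]]],[[[],[[[[Int.negSucc (nat_lit 2648597467275707037)]]]]]],[[[[[[Int.negSucc (nat_lit 43320985693951508047)]]]]]]],[[[[[[[Int.negSucc (nat_lit 454015422148331991717)]]],[[[Int.negSucc (nat_lit 131589426787090981)]]]]],[[[[[Int.ofNat (nat_lit 27410600676604676696)]]]]]]],[[[[[[[Int.ofNat (nat_lit 39078911811083594350)]]]]]]]],[[[[[[[],[[Int.negSucc (nat_lit 6375565422746325739)]]]],[[[[Int.ofNat (nat_lit 119572189683053451604)]]],[[[Int.negSucc (nat_lit 6313862862230975657)]]]]],[[[[],[[Int.ofNat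 (nat_lit 6716588733182807380)]]]],[[[[Int.negSucc (nat_lit 18138715501282848993)]]]]]],[[[[[[Int.negSucc (nat_lit 50862269856068924311)],[Int.ofNat (nat_lit 26173728218389269650)]]],[[[Int.ofNat (nat_lit 6820612532687599516)]]]]],[[[[[Int.negSucc (nat_lit 47787575037077278211)]]]]]],[],[[[[[[Int.negSucc (nat_lit 2286101358479827627)]]]]]]],[[[[[[],[[Int.negSucc (nat_lit 6043291073427903819)]]]],[[[[Int.negSucc (nat_lit 1330223534004625711)]]]]]],[[[[[[Int.negSucc (nat_lit 84842744135846264195)]]]]]]],[[],[[[[[[Int.negSucc (nat_lit 705592011576961387)]]]]]]]],[[[[[[[[Int.ofNat (nat_lit 236563118746086294488)],[Int.negSucc (nat_lit 19181926763348256903)]]],[[[Int.ofNat (nat_lit 16276684882662031902)]]]]],[[[[[Int.ofNat (nat_lit 126677204526399545326)]]]]]],[[[],[[[[Int.negSucc (nat_lit 36804739001328463797)]]]]]],[[[[[[Int.negSucc (nat_lit 9664087608793981037)]]]]]]],[[[[[[[Int.negSucc (nat_lit 191465175000765580683)]]]]],[[[[[Int.ofNat (nat_lit 6875590356810088428)]]]]]]],[[[[[[[Int.ofNat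 (nat_lit 10775279035082307936)]]]]]]]],[[[[[[[],[[Int.negSucc (nat_lit 2231081878058995609)]]]],[[[[Int.negSucc (nat_lit 19418904184568383749)]]]]]],[[[[[[Int.negSucc (nat_lit 87995634976626650081)]]]]]]]],[[[[[[[[Int.negSucc (nat_lit 110524128690867859439)]]]]]]],[[[[[[[Int.ofNat (nat_lit 2860850195439496200)]]]]]]]]],[[[[[[[[[Int.negSucc (nat_lit 337383241199503774191)],[Int.ofNat (nat_lit 4234342461283267968)]]],[[[Int.ofNat (nat_lit 5859389695060505270)]]]]],[[[[[Int.negSucc (nat_lit 102323181875070490861)]]],[[[Int.ofNat (nat_lit 9074704476959223186)]]]]],[[[[[Int.negSucc (nat_lit 78155700808888470109)]]]]]],[[[],[[[[Int.negSucc (nat_lit 25148491174747147379)]]]]]],[[[[[[Int.ofNat (nat_lit 7816057357126982170)]]]]]]],[[[[[[[Int.ofNat (nat_lit 131140811018473472092)],[Int.negSucc (nat_lit 3247883313343674407)]]],[[[Int.negSucc (nat_lit 6265300769940817769)]]]]],[[[[[Int.ofNat (nat_lit 13132610047310639042)]]]]]],[],[[[[[[Int.negSucc (nat_lit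 6301155026623942587)]]]]]]],[[[[[[[Int.negSucc (nat_lit 63872509565224346569)]]]]]]],[[[[[[[Int.negSucc (nat_lit 10059878915031051051)]]]]]]]],[[[[[[[],[[Int.negSucc (nat_lit 9323724274792802501)]]]],[[[[Int.ofNat (nat_lit 71198433994489626894)]]]]]],[[[[[[Int.negSucc (nat_lit 43231538284530842087)]]]]],[[[[[Int.ofNat (nat_lit 4412497959949978562)]]]]]]],[[[[],[[[[Int.ofNat (nat_lit 9086534768331632704)]]]]]],[[[[[[Int.ofNat (nat_lit 29434818036298048140)]]]]]]]],[[[[[[[[Int.ofNat (nat_lit 89592721860547385410)]]],[[[Int.ofNat (nat_lit 382380221559717410)]]]]],[[[[[Int.ofNat (nat_lit 18733599159008948632)]]]]]]],[[[[[[[Int.negSucc (nat_lit 33145395894120716141)]]]]]]]],[[[],[[[[[[Int.ofNat (nat_lit 4881996028076911542)]]]]]]]],[[[[[[[[Int.negSucc (nat_lit 70227059218739616017)]]]]]]]]],[[[[[[[[[Int.negSucc (nat_lit 115047495320283988503)],[Int.ofNat (nat_lit 5379552570978567354)]]],[[[Int.negSucc (nat_lit 444873674790614811)]]]]],[[[[[Int.ofNat (nat_lit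 43674650616466803866)]]]]]],[[[],[[[[Int.negSucc (nat_lit 12190807910709253769)]]]]]],[[[[[[Int.negSucc (nat_lit 12957277901129444165)]]]]]]],[[[[[[[Int.negSucc (nat_lit 253787918191324185597)]]]]],[[[[[Int.negSucc (nat_lit 11669703778144736743)]]]]]]],[[[[[[[Int.ofNat (nat_lit 24765840851562359408)]]]]]]]],[[[[[[[],[[Int.negSucc (nat_lit 5255793890822955017)]]]],[[[[Int.ofNat (nat_lit 11374291724016877940)]]]]]],[[[[[[Int.negSucc (nat_lit 46184407231326645053)]]]]]]]],[[[[[[[[Int.negSucc (nat_lit 91175238020021016269)]]]]]]],[[[[[[[Int.ofNat (nat_lit 13748755061456034504)]]]]]]]]],[[[[[[[[[Int.negSucc (nat_lit 127009276423484294339)]]],[[[Int.negSucc (nat_lit 3065863025655608423)]]]]],[[[[[Int.ofNat (nat_lit 19086025077071603840)]]]]]]],[[[[[[[Int.negSucc (nat_lit 96698133184747655947)]]]]]]]],[[[],[[[[[[Int.ofNat (nat_lit 561728094251562744)]]]]]]]],[[[[[[[[Int.negSucc (nat_lit 52207261593164473407)]]]]]]]]],[[[[[[[[[Int.negSucc (nat_lit 164329400349364816179)]]]]]]],[[[[[[[Int.ofNat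 (nat_lit 5635721074238759046)]]]]]]]]],[[[[[[[[[Int.negSucc (nat_lit 49735413072890818817)]]]]]]]]]]

/-- A coefficient. -/
noncomputable def sr0_m0_1_1 : MP 10 :=
  [[[[[[[[[[Int.ofNat (nat_lit 0),Int.ofNat (nat_lit 39956123079906541882)],[Int.ofNat (nat_lit 0),Int.ofNat (nat_lit 22599030980316441798)]],[[Int.ofNat (nat_lit 32298141718177678464)],[Int.ofNat (nat_lit 2305552781706647540)]]],[[[Int.ofNat (nat_lit 0),Int.ofNat (nat_lit 3647497999243905946)]],[[Int.ofNat (nat_lit 12764886187082044392)]]]],[[[[Int.ofNat (nat_lit 31352019806196780716)],[Int.ofNat (nat_lit 42596542962009631550)]]],[[[Int.negSucc (nat_lit 25847372136663937769)]]]]],[[[[[Int.ofNat (nat_lit 0),Int.ofNat (nat_lit 5396091574430661936)]],[[Int.negSucc (nat_lit 3463615555764904579)]]]],[[[[Int.ofNat (nat_lit 133447536437772230776)]]]]]],[[[[[[Int.ofNat (nat_lit 162020356822741907288)],[Int.ofNat (nat_lit 195658180828190898586)]]],[[[Int.ofNat (nat_lit 49689583821687488634)]]]],[[[],[[Int.negSucc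 (nat_lit 3025716171025069317)]]]],[[[[Int.negSucc (nat_lit 29637202358353030075)]]]]],[[[[[Int.negSucc (nat_lit 31093134566238125853)]]]]]],[[[[[[Int.ofNat (nat_lit 0),Int.negSucc (nat_lit 30679170030689962617)]],[[Int.negSucc (nat_lit 6728093984324526667)]]]],[[[[Int.negSucc (nat_lit 44890218785814059595)]]]]]],[[[[[[Int.ofNat (nat_lit 32817734957629588196)]]]]]]],[[[[[[[Int.ofNat (nat_lit 0),Int.negSucc (nat_lit 79994283182700609635)]],[[Int.negSucc (nat_lit 63961020296057167073)]]]],[[[[Int.negSucc (nat_lit 76070916871138110307)]]]]],[[[[],[[Int.negSucc (nat_lit 4636884016602645393)]]]],[[[[Int.negSucc (nat_lit 48858629925682208215)]]]]]],[[[[[[Int.ofNat (nat_lit 24214590677164429000)],[Int.ofNat (nat_lit 109957278555935375158)]]],[[[Int.negSucc (nat_lit 593786069146095633)]]]]],[[[[[Int.negSucc (nat_lit 39438691169673458545)]]]]]],[],[[[[[[Int.negSucc (nat_lit 11095863076821495675)]]]]]]],[[[[[[[Int.ofNat (nat_lit 0),Int.ofNat (nat_lit 42419496796347899478)]],[[Int.ofNat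 (nat_lit 1783216127361874422)]]]],[[[[Int.ofNat (nat_lit 14863803355738992068)]]]]]],[[[[[[Int.negSucc (nat_lit 7234169964756398389)]]]]]]],[[],[[[[[[Int.ofNat (nat_lit 6982177376164768266)]]]]]]]],[[[[[[[[Int.negSucc (nat_lit 192406744547745537545)],[Int.negSucc (nat_lit 135428689888106957319)]],[],[[Int.negSucc (nat_lit 1420196437431874567)]]],[[[Int.negSucc (nat_lit 80160547363709673939)]]]],[[[[Int.ofNat (nat_lit 0),Int.negSucc (nat_lit 7331952782897917637)]],[[Int.negSucc (nat_lit 11500827755683688853)]]]],[[[[Int.ofNat (nat_lit 104612897756139132402)]]]]],[[[[[Int.ofNat (nat_lit 25685858105466311008)],[Int.ofNat (nat_lit 34671170756563764526)]]],[[[Int.ofNat (nat_lit 15384174223049241766)]]]]],[[[[[Int.negSucc (nat_lit 13620419523545322125)]]]]]],[[[[[[Int.ofNat (nat_lit 0),Int.negSucc (nat_lit 44103287688191710577)]],[[Int.negSucc (nat_lit 32308549133230562389)]]]],[[[[Int.ofNat (nat_lit 83930654103428449502)]]]]]],[[[[[[Int.negSucc (nat_lit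 92782647266496839061)]]]]],[[[[[Int.negSucc (nat_lit 14439553222750992711)]]]]]]],[[[[[[[Int.ofNat (nat_lit 237703768181937300548)],[Int.negSucc (nat_lit 3543908425755350421)]]],[[[Int.ofNat (nat_lit 2181487418568368344)]]]]],[[[[[Int.ofNat (nat_lit 6217691962593840312)]]]]]],[[[],[[[[Int.negSucc (nat_lit 20136673105749955865)]]]]]],[[[[[[Int.ofNat (nat_lit 15036083892404610502)]]]]]]],[[[[[[[Int.negSucc (nat_lit 155347609114429550209)]]]]],[[[[[Int.ofNat (nat_lit 72659846067663210692)]]]]]]],[[[[[[[Int.negSucc (nat_lit 19443160970831089021)]]]]]]]],[[[[[[[[Int.ofNat (nat_lit 0),Int.ofNat (nat_lit 18476281786311772410)]],[[Int.ofNat (nat_lit 2650758314562284196)]]]],[[[[Int.negSucc (nat_lit 135550123318693013355)]]]]],[[],[[[[Int.negSucc (nat_lit 50031071315162401997)]]]]]],[[[[[[Int.ofNat (nat_lit 220689274360894852156)]]]]],[[[[[Int.negSucc (nat_lit 110573709422242040223)]]]]]]],[[[[[[],[[Int.ofNat (nat_lit 21613080473208375762)]]]],[[[[Int.ofNat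 (nat_lit 49180371727540918796)]]]]]],[[[[[[Int.negSucc (nat_lit 58041654416981435913)]]]]]]]],[[[[[[[[Int.ofNat (nat_lit 176622482670292094552)]]]]],[[[[[Int.ofNat (nat_lit 63722167955077358942)]]]]]]],[[[[[[[Int.negSucc (nat_lit 50816403022630710099)]]]]]]],[[[[[[[Int.ofNat (nat_lit 13017673988411060782)]]]]]]]]],[[[[[[[[[Int.ofNat (nat_lit 0),Int.ofNat (nat_lit 36431882795489973632)]],[[Int.ofNat (nat_lit 65837218105371195798)]]],[[],[[Int.negSucc (nat_lit 2524374566780523009)]]]],[[[[Int.negSucc (nat_lit 85065706870755189023)]]],[[[Int.ofNat (nat_lit 6573627750802562224)]]]]],[[[[[Int.ofNat (nat_lit 0),Int.negSucc (nat_lit 4204936156735937793)]],[[Int.ofNat (nat_lit 2945732105015887542)]]]],[[[[Int.ofNat (nat_lit 88505187973891743168)]]]]]],[[[[[[Int.ofNat (nat_lit 290313523690235696196)],[Int.negSucc (nat_lit 949267574304678479)]]],[[[Int.ofNat (nat_lit 23700919339155782956)]]]]],[[[[[Int.negSucc (nat_lit 30080176823729111243)]]]]]],[[[],[[[[Int.negSucc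 (nat_lit 1443504672734341727)]]]]]],[[[[[[Int.ofNat (nat_lit 3634454188808034658)]]]]]]],[[[[[[[Int.ofNat (nat_lit 0),Int.negSucc (nat_lit 33098442810700154781)]],[[Int.negSucc (nat_lit 19037461735785872959)]]]],[[[[Int.negSucc (nat_lit 69758724581918832305)]]]]]],[[[[[[Int.ofNat (nat_lit 53488330332276435204)]]]]],[[[[[Int.ofNat (nat_lit 10858423046556159114)]]]]]]],[[],[[[[[[Int.ofNat (nat_lit 74859672391661559740)]]]]]]]],[[[[[[[[Int.negSucc (nat_lit 396280217958629100617)],[Int.ofNat (nat_lit 19357284501530475786)]]],[[[Int.negSucc (nat_lit 82567034266544426899)]]]]],[[[[[Int.ofNat (nat_lit 53582339915920211442)]]]]],[[[[[Int.negSucc (nat_lit 1516431768084307063)]]]]]],[[[[[],[[Int.ofNat (nat_lit 460529807921569514)]]]],[[[[Int.negSucc (nat_lit 100991069091839355739)]]]]]],[[[[[[Int.negSucc (nat_lit 10812743001514193347)]]]]]]],[[[[[[[Int.ofNat (nat_lit 140627935104588999434)]]],[[[Int.ofNat (nat_lit 14069555243654713578)]]]]],[[[[[Int.negSucc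 (nat_lit 109972140219652481687)]]]]]]],[[[[[[[Int.negSucc (nat_lit 39088027103737893203)]]]]]]]],[[[[[[[[Int.ofNat (nat_lit 0),Int.negSucc (nat_lit 16139235781722022777)]],[[Int.negSucc (nat_lit 45946213998216484799)]]]],[[[[Int.ofNat (nat_lit 102731211860636270610)]]]]]],[[[[[[Int.ofNat (nat_lit 105883053650983492802)]]]]]]],[[],[[[[[[Int.ofNat (nat_lit 31057518340766494910)]]]]]]]],[[[[[[[[Int.ofNat (nat_lit 28716982189986003416)]]]]],[[[[[Int.negSucc (nat_lit 24593463662335310491)]]]]]]],[[[[[[[Int.ofNat (nat_lit 9008668661456053802)]]]]]]]]],[[[[[[[[[Int.ofNat (nat_lit 0),Int.ofNat (nat_lit 7037373430210144290)]],[[Int.ofNat (nat_lit 4159676044170628024)]]]],[[[[Int.negSucc (nat_lit 89276620898211699227)]]]]]],[[[[[[Int.ofNat (nat_lit 71140528204649097336)]]],[[[Int.ofNat (nat_lit 1974711960119777046)]]]]],[[[[[Int.negSucc (nat_lit 38184815152465685389)]]]]]]],[[[[[[],[[Int.negSucc (nat_lit 1895147133299314609)]]]],[[[[Int.negSucc (nat_lit 21011303734171226857)]]]]]],[[[[[[Int.ofNat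 (nat_lit 28656563116857911108)]]]]]]]],[[[[[[[[Int.negSucc (nat_lit 273786197271948682559)]]],[[[Int.negSucc (nat_lit 31084553670801620371)]]]]],[[[[[Int.ofNat (nat_lit 85428057246322879292)]]]]]],[],[[[[[[Int.negSucc (nat_lit 26731510543205039667)]]]]]]],[[[[[[[Int.ofNat (nat_lit 164401338189303547756)]]]]]]],[[[[[[[Int.negSucc (nat_lit 16879464991603829925)]]]]]]]],[[[],[[[[[[Int.ofNat (nat_lit 13494310280719126670)]]]]]]]],[[[[[[[[Int.negSucc (nat_lit 33208658158685628147)]]]]]]]]],[[[[[[[[[Int.ofNat (nat_lit 0),Int.negSucc (nat_lit 12322656778157787235)]],[[Int.negSucc (nat_lit 3209610254674625319)]]]],[[[[Int.negSucc (nat_lit 46602879191044191453)]]]]]],[[[[[[Int.negSucc (nat_lit 59222773028125071875)]]]]]]],[[],[[[[[[Int.ofNat (nat_lit 34035852419417685346)]]]]]]]],[[[[[[[[Int.negSucc (nat_lit 227172699376370725665)]]]]],[[[[[Int.negSucc (nat_lit 10122478249226361135)]]]]]]],[[[[[[[Int.ofNat (nat_lit 146987594487866783080)]]]]]]]]],[[[[],[[[[[[Int.negSucc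 (nat_lit 36033206040059225579)]]]]]]]],[[[[[[[[Int.negSucc (nat_lit 86797119726715421037)]]]]]]]]]]

/-- A coefficient. -/
noncomputable def sr0_m0_1_2 : MP 10 :=
  [[[[[[[[[[Int.ofNat (nat_lit 228394741872124943774)],[Int.ofNat (nat_lit 60952371101076689632)]],[[Int.ofNat (nat_lit 0),Int.negSucc (nat_lit 3307372129030715939)]],[[Int.negSucc (nat_lit 13925989980156059219)]]],[[[Int.ofNat (nat_lit 157956725032176840)]]]],[[[[Int.ofNat (nat_lit 0),Int.ofNat (nat_lit 30723760636069724676)]],[[Int.negSucc (nat_lit 39353880676521416381)]]]],[[[[Int.negSucc (nat_lit 132227559527389615009)]]]]],[[[[[Int.ofNat (nat_lit 184565298892245543750)],[Int.negSucc (nat_lit 5380958282551278313)]]],[[[Int.negSucc (nat_lit 11748480704043810943)]]]]],[[[[[Int.ofNat (nat_lit 53800539984711238872)]]]]]],[[[[[[Int.ofNat (nat_lit 0),Int.ofNat (nat_lit 24483259685479285840)]],[[Int.negSucc (nat_lit 33408457787882979701)]]]],[[[[Int.negSucc (nat_lit 57736660348270719127)]]]]],[[],[[[[Int.negSucc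 (nat_lit 7045503415571377255)]]]]]],[[[[[[Int.negSucc (nat_lit 411989535403222377115)]]]]],[[[[[Int.ofNat (nat_lit 15154500313323043388)]]]]]]],[[[[[[[Int.negSucc (nat_lit 419774140812053327667)],[Int.ofNat (nat_lit 17780688056229073064)]]],[[[Int.negSucc (nat_lit 29722832028637778323)]]]]],[[[[[Int.negSucc (nat_lit 64157221123386768969)]]]]],[[[[[Int.negSucc (nat_lit 6497658845181512157)]]]]]],[[[[[],[[Int.negSucc (nat_lit 8255331997694153009)]]]],[[[[Int.ofNat (nat_lit 35069697668530387770)]]]]]],[[[[[[Int.negSucc (nat_lit 82059676444390483417)]]]]]]],[[[[[[[Int.ofNat (nat_lit 364157918571671745340)]]]]],[[[[[Int.ofNat (nat_lit 26489601798513061030)]]]]]]],[[[[[[[Int.negSucc (nat_lit 73501491766690798695)]]]]]]]],[[[[[[[[Int.ofNat (nat_lit 0),Int.ofNat (nat_lit 116225759180360799326)]],[[Int.ofNat (nat_lit 4587007568730157160)]]]],[[[[Int.ofNat (nat_lit 221607707606481472542)]]]]],[[[[],[[Int.negSucc (nat_lit 19368397814537149511)]]]],[[[[Int.ofNat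 (nat_lit 54068888586418262324)]]]]]],[[[[[[Int.negSucc (nat_lit 186096292850942658889)]]]]],[[[[[Int.ofNat (nat_lit 89941055516226701238)]]]]]]],[[[[[[[Int.ofNat (nat_lit 0),Int.ofNat (nat_lit 8980308872283594628)]],[[Int.negSucc (nat_lit 68063517831223271325)]]]],[[[[Int.ofNat (nat_lit 58003064532100141464)]]]]]],[[[[[[Int.ofNat (nat_lit 252934755471100946776)]]]]]]],[[],[[[[[[Int.negSucc (nat_lit 2816034611540054031)]]]]]]]],[[[[[[[[Int.negSucc (nat_lit 940458393858906936573)],[Int.negSucc (nat_lit 32014305028846629623)]]],[[[Int.negSucc (nat_lit 36952494526534874055)]]]]],[[[[[Int.negSucc (nat_lit 30361732948840330057)]]]]]],[[[],[[[[Int.ofNat (nat_lit 36867448543362794562)]]]]]],[[[[[[Int.negSucc (nat_lit 21602300009537870797)]]]]]]],[[[[[[[Int.ofNat (nat_lit 270367234715311536250)]]]]],[[[[[Int.ofNat (nat_lit 65814849987983060006)]]]]]]],[[[[[[[Int.negSucc (nat_lit 120062064090988989321)]]]]]]]],[[[[[[[],[[Int.negSucc (nat_lit 20076769847082698705)]]]],[[[[Int.ofNat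 (nat_lit 15435189934438353430)]]]]]],[[[[[[Int.ofNat (nat_lit 40460381712917351402)]]]]]]]],[[[[[[[[Int.ofNat (nat_lit 106504011755174157870)]]]]]]],[[[[[[[Int.negSucc (nat_lit 96609499161042047347)]]]]]]]]],[[[[[[[[[Int.ofNat (nat_lit 540388022465493155866)],[Int.ofNat (nat_lit 80245446365762339718)]]],[[[Int.ofNat (nat_lit 4086027330426969474)]]]]],[[[[[Int.ofNat (nat_lit 172388735244816292542)]]],[[[Int.negSucc (nat_lit 12999547616853653395)]]]]],[[[[[Int.ofNat (nat_lit 49973643835524273424)]]]]]],[[[[[[Int.ofNat (nat_lit 0),Int.ofNat (nat_lit 13138348720028199886)]],[[Int.negSucc (nat_lit 48358182811614981969)]]]],[[[[Int.ofNat (nat_lit 134952422190196282424)]]]]]],[[[[[[Int.negSucc (nat_lit 394943720767321932317)]]]]]]],[[[[[[[Int.negSucc (nat_lit 532952295582566345127)]]],[[[Int.negSucc (nat_lit 28640557118530063159)]]]]],[[[[[Int.negSucc (nat_lit 13588154620063875715)]]]]]],[],[[[[[[Int.negSucc (nat_lit 48906792621110443281)]]]]]]],[[[[[[[Int.ofNat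 (nat_lit 248988261696807884664)]]]]]]]],[[[[[[[[Int.ofNat (nat_lit 0),Int.ofNat (nat_lit 75574551487230489360)]],[[Int.ofNat (nat_lit 145219845525366566834)]]]],[[[[Int.negSucc (nat_lit 379268602549002951839)]]]]]],[[[[[[Int.ofNat (nat_lit 266569394147016703858)]]]]],[[[[[Int.negSucc (nat_lit 61404857621883478629)]]]]]]],[[],[[[[[[Int.ofNat (nat_lit 1682420982218055340)]]]]]]]],[[[[[[[[Int.negSucc (nat_lit 530231876860891078277)]]],[[[Int.negSucc (nat_lit 28419735977196230045)]]]]],[[[[[Int.ofNat (nat_lit 187322553815079993632)]]]]]]],[[[[[[[Int.ofNat (nat_lit 111713040746593583514)]]]]]]]],[[[],[[[[[[Int.ofNat (nat_lit 56714907392128963470)]]]]]]]],[[[[[[[[Int.ofNat (nat_lit 86388515573931248770)]]]]]]]]],[[[[[[[[[Int.ofNat (nat_lit 554071601695246531946)],[Int.ofNat (nat_lit 22619935088648006736)]]],[[[Int.negSucc (nat_lit 15961801242864129649)]]]]],[[[[[Int.negSucc (nat_lit 55229197663814560699)]]]]]],[[[],[[[[Int.ofNat (nat_lit 31221181396111612168)]]]]]],[[[[[[Int.negSucc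 (nat_lit 28664651950534028967)]]]]]]],[[[[[[[Int.negSucc (nat_lit 149597704282053403323)]]]]],[[[[[Int.ofNat (nat_lit 40102527253744055544)]]]]]]],[[[[[[[Int.ofNat (nat_lit 11485197618198864710)]]]]]]]],[[[[[[[],[[Int.negSucc (nat_lit 6489959689610730933)]]]],[[[[Int.negSucc (nat_lit 1139696173387773599)]]]]]],[[[[[[Int.negSucc (nat_lit 103157588425792410541)]]]]]]]],[[[[[[[[Int.ofNat (nat_lit 98177713665934172134)]]]]]]],[[[[[[[Int.negSucc (nat_lit 40024803572267687285)]]]]]]]]],[[[[[[[[[Int.ofNat (nat_lit 386935698078284154488)]]],[[[Int.negSucc (nat_lit 6535849532051885989)]]]]],[[[[[Int.negSucc (nat_lit 70958717461046782511)]]]]]]],[[[[[[[Int.negSucc (nat_lit 34496794392229419577)]]]]]]]],[[[],[[[[[[Int.negSucc (nat_lit 1120852531549263973)]]]]]]]],[[[[[[[[Int.ofNat (nat_lit 55059074070644746356)]]]]]]]]],[[[[[[[[[Int.ofNat (nat_lit 203849761046347870042)]]]]]]],[[[[[[[Int.negSucc (nat_lit 18173657246514886961)]]]]]]]]],[[[[[[[[[Int.ofNat (nat_lit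 55209997063517385852)]]]]]]]]]]

/-- A coefficient. -/
noncomputable def sr0_m0_1_3 : MP 10 :=
  [[[[[[[[[[Int.ofNat (nat_lit 0),Int.negSucc (nat_lit 158841581561757200445)]],[[Int.ofNat (nat_lit 36870378718483994318)]]]],[[[[Int.negSucc (nat_lit 103965398643558640541)]]]]],[[[[[Int.ofNat (nat_lit 0),Int.ofNat (nat_lit 50097587914188986912)]],[[Int.ofNat (nat_lit 9662879316830524062)]]]],[[[[Int.negSucc (nat_lit 48831014799771378281)]]]]]],[[[[[[Int.ofNat (nat_lit 64152663113057686120)],[Int.negSucc (nat_lit 8707395718017473407)]]],[[[Int.ofNat (nat_lit 4629347600481864288)]]]]],[[[[[Int.negSucc (nat_lit 35443625597030144827)]]]]]],[[[],[[[[Int.ofNat (nat_lit 20272431408632603742)]]]]]],[[[[[[Int.ofNat (nat_lit 35531945787475782180)]]]]]]],[[[[[[[Int.ofNat (nat_lit 0),Int.negSucc (nat_lit 38394312485718812897)]],[[Int.ofNat (nat_lit 130683946410595541090)]]]],[[[[Int.negSucc (nat_lit 124116408549767341659)]]]]]],[[[[[[Int.negSucc (nat_lit 73964428531063622697)]]]]],[[[[[Int.negSucc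 (nat_lit 14116965357875848261)]]]]]]],[[],[[[[[[Int.negSucc (nat_lit 33116605514893701897)]]]]]]]],[[[[[[[[Int.ofNat (nat_lit 593610637992666834890)],[Int.negSucc (nat_lit 7934139401658608981)]]],[[[Int.ofNat (nat_lit 25922096376986757948)]]]]],[[[[[Int.negSucc (nat_lit 62595976789050283141)]]]]],[[[[[Int.ofNat (nat_lit 40431093430001232764)]]]]]],[[[[[],[[Int.negSucc (nat_lit 4489231007298563553)]]]],[[[[Int.negSucc (nat_lit 90421307648870969441)]]]]]],[[[[[[Int.ofNat (nat_lit 45853323104487833412)]]]]]]],[[[[[[[Int.negSucc (nat_lit 461328540342423754809)]]]]],[[[[[Int.negSucc (nat_lit 115428667309730737711)]]]]]]],[[[[[[[Int.ofNat (nat_lit 164089066449632891840)]]]]]]]],[[[[[[[[Int.ofNat (nat_lit 0),Int.ofNat (nat_lit 10278135615689314716)]],[[Int.ofNat (nat_lit 52193969757409625294)]]]],[[[[Int.ofNat (nat_lit 30504566592605867474)]]]]]],[[[[[[Int.negSucc (nat_lit 78009207019236733779)]]]]]]],[[],[[[[[[Int.ofNat (nat_lit 10112961457921155910)]]]]]]]],[[[[[[[[Int.negSucc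 (nat_lit 211335341585932938331)]]]]],[[[[[Int.ofNat (nat_lit 31897137597720281698)]]]]]]],[[[[[[[Int.ofNat (nat_lit 91660358918208601818)]]]]]]]]],[[[[[[[[[Int.ofNat (nat_lit 0),Int.negSucc (nat_lit 98559441586674483149)]],[[Int.negSucc (nat_lit 46730946267902176405)]]]],[[[[Int.ofNat (nat_lit 259515284848913150742)]]]]]],[[[[[[Int.negSucc (nat_lit 330528916530781741591)]]],[[[Int.negSucc (nat_lit 1023746484898433469)]]]]],[[[[[Int.ofNat (nat_lit 7763438490416307506)]]]]]]],[[],[[[[[[Int.negSucc (nat_lit 170243007840895388939)]]]]]]]],[[[[[[[[Int.ofNat (nat_lit 650015526265306405152)]]],[[[Int.ofNat (nat_lit 24365846959322466866)]]]]],[[[[[Int.negSucc (nat_lit 120468675814216332881)]]]]]],[],[[[[[[Int.negSucc (nat_lit 35864921573101896285)]]]]]]],[[[[[[[Int.negSucc (nat_lit 204892373164839255727)]]]]]]]],[[[],[[[[[[Int.negSucc (nat_lit 135082223653227230441)]]]]]]]],[[[[[[[[Int.ofNat (nat_lit 5901418324051427786)]]]]]]]]],[[[[[[[[[Int.ofNat (nat_lit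 0),Int.negSucc (nat_lit 17836759393408792791)]],[[Int.ofNat (nat_lit 34831925410739062004)]]]],[[[[Int.ofNat (nat_lit 8378441984392437720)]]]]]],[[[[[[Int.negSucc (nat_lit 1162515640097534623)]]]]]]],[[],[[[[[[Int.negSucc (nat_lit 16423336299815891479)]]]]]]]],[[[[[[[[Int.ofNat (nat_lit 58682970723668041310)]]]]],[[[[[Int.negSucc (nat_lit 21110457652444860487)]]]]]]],[[[[[[[Int.ofNat (nat_lit 2726867399748583450)]]]]]]]]],[[[[],[[[[[[Int.negSucc (nat_lit 4301784938054702665)]]]]]]]],[[[[[[[[Int.negSucc (nat_lit 3944094792252982161)]]]]]]]]]]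

/-- A coefficient. -/
noncomputable def sr0_m0_1_4 : MP 10 :=
  [[[[[[[[[[Int.negSucc (nat_lit 179104365179400166665)],[Int.ofNat (nat_lit 22724552251677942882)]]],[[[Int.ofNat (nat_lit 63751119135229672524)]]]]],[[[[[Int.negSucc (nat_lit 165558543661363847115)]]]]]],[[[[[[Int.ofNat (nat_lit 0),Int.ofNat (nat_lit 24392630434022358352)]],[[Int.ofNat (nat_lit 4155485153074242108)]]]],[[[[Int.negSucc (nat_lit 3234155669946388271)]]]]]],[[[[[[Int.ofNat (nat_lit 398936320041641808118)]]]]]]],[[[[[[[Int.ofNat (nat_lit 228274656461763323810)]]]]],[[[[[Int.negSucc (nat_lit 39426235884371319775)]]]]]],[],[[[[[[Int.negSucc (nat_lit 11613771176505299117)]]]]]]],[[[[[[[Int.negSucc (nat_lit 112683039798062745235)]]]]]]]],[[[[[[[[Int.ofNat (nat_lit 0),Int.negSucc (nat_lit 46235101693435594857)]],[[Int.ofNat (nat_lit 107062357029253853740)]]]],[[[[Int.negSucc (nat_lit 287884716614148726509)]]]]]],[[[[[[Int.ofNat (nat_lit 324475494862291804764)]]]]],[[[[[Int.negSucc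 (nat_lit 2937711705936888893)]]]]]]],[[],[[[[[[Int.negSucc (nat_lit 77387403478229401183)]]]]]]]],[[[[[[[[Int.ofNat (nat_lit 558660175136554640070)]]]]],[[[[[Int.ofNat (nat_lit 118947866839638176580)]]]]]]],[[[[[[[Int.ofNat (nat_lit 45722630694954643698)]]]]]]]]],[[[[[[[[[Int.negSucc (nat_lit 231298590939969727489)],[Int.ofNat (nat_lit 41000540071953449378)]]],[[[Int.ofNat (nat_lit 82253555498787674012)]]]]],[[[[[Int.negSucc (nat_lit 124819007197621332317)]]]]]],[[[],[[[[Int.negSucc (nat_lit 37381867669602052489)]]]]]],[[[[[[Int.ofNat (nat_lit 70166134274568614750)]]]]]]],[[[[[[[Int.ofNat (nat_lit 64956596613386079238)]]]]],[[[[[Int.negSucc (nat_lit 59165119020324944843)]]]]]]],[[[[[[[Int.ofNat (nat_lit 37838126056467700702)]]]]]]]],[[[[[[[],[[Int.ofNat (nat_lit 9061860180633790390)]]]],[[[[Int.ofNat (nat_lit 135500832984469771536)]]]]]],[[[[[[Int.ofNat (nat_lit 78058758372114239018)]]]]]]]],[[[[[[[[Int.negSucc (nat_lit 83574642264900034711)]]]]]]],[[[[[[[Int.ofNat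 (nat_lit 5746296733105331514)]]]]]]]]],[[[[[[[[[Int.negSucc (nat_lit 22993682247764819449)]]],[[[Int.ofNat (nat_lit 18731275326057321454)]]]]],[[[[[Int.ofNat (nat_lit 27024749765810875876)]]]]]]],[[[[[[[Int.negSucc (nat_lit 144023875282242536987)]]]]]]]],[[[],[[[[[[Int.ofNat (nat_lit 40998363798364096830)]]]]]]]],[[[[[[[[Int.negSucc (nat_lit 14381349312924634057)]]]]]]]]],[[[[[[[[[Int.negSucc (nat_lit 2634427789404270349)]]]]]]],[[[[[[[Int.negSucc (nat_lit 10236275781027710247)]]]]]]]]],[[[[[[[[[Int.negSucc (nat_lit 38549917538811100547)]]]]]]]]]]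

/-- A coefficient. -/
noncomputable def sr0_m0_1_5 : MP 10 :=
  [[[[[[[[[[Int.ofNat (nat_lit 0),Int.ofNat (nat_lit 166023358040994241762)]],[[Int.negSucc (nat_lit 250013352218351642093)]]]],[[[[Int.ofNat (nat_lit 356958866280235896562)]]]]]],[[[[[[Int.negSucc (nat_lit 533326717299251510245)]]]]]]],[[],[[[[[[Int.ofNat (nat_lit 119576875717934956548)]]]]]]]],[[[[[[[[Int.ofNat (nat_lit 257636049743068146696)]]]]],[[[[[Int.ofNat (nat_lit 45347015508658117106)]]]]]]]]],[[[[[[[[[Int.ofNat (nat_lit 0),Int.ofNat (nat_lit 60966092627209201138)]],[[Int.negSucc (nat_lit 45990460951991350613)]]]],[[[[Int.negSucc (nat_lit 103615901233282824073)]]]]]],[[[[[[Int.ofNat (nat_lit 5414817998089185008)]]]]]]],[[],[[[[[[Int.ofNat (nat_lit 69385249529464608370)]]]]]]]],[[[[[[[[Int.negSucc (nat_lit 83868100211657918969)]]]]],[[[[[Int.ofNat (nat_lit 97653503363293123370)]]]]]]]]]]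

/-- A coefficient. -/
noncomputable def sr0_m0_1_6 : MP 10 :=
  [[[[[[[[[[Int.ofNat (nat_lit 59845512931058994056)],[Int.ofNat (nat_lit 29140421175797449398)]]],[[[Int.negSucc (nat_lit 47443346833736356271)]]]]],[[[[[Int.ofNat (nat_lit 39582774991598535344)]]]]]],[[[],[[[[Int.ofNat (nat_lit 50492984229816002528)]]]]]],[[[[[[Int.negSucc (nat_lit 103267206605775643931)]]]]]]],[[[[[[[Int.negSucc (nat_lit 78655620658401351337)]]]]],[[[[[Int.ofNat (nat_lit 67258344172266752910)]]]]]]],[[[[[[[Int.ofNat (nat_lit 30172603080254223124)]]]]]]]],[[[[[[[],[[Int.negSucc (nat_lit 64160063184691309871)]]]],[[[[Int.ofNat (nat_lit 76162399977167458060)]]]]]],[[[[[[Int.ofNat (nat_lit 33010406139335317964)]]]]]]]],[[[[[[[[Int.ofNat (nat_lit 99079512705141701356)]]]]]]],[[[[[[[Int.negSucc (nat_lit 50581336077783166639)]]]]]]]]],[[[[[[[[[Int.ofNat (nat_lit 5402613550573951096)]]],[[[Int.negSucc (nat_lit 47970760758134045895)]]]]],[[[[[Int.ofNat (nat_lit 20920829526807156752)]]]]]]],[[[[[[[Int.negSucc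 (nat_lit 24961008813162530485)]]]]]]]],[[[],[[[[[[Int.ofNat (nat_lit 7562730466235000064)]]]]]]]],[[[[[[[[Int.ofNat (nat_lit 62079705514662471740)]]]]]]]]],[[[[[[[[[Int.negSucc (nat_lit 126856446988778707763)]]]]]]],[[[[[[[Int.ofNat (nat_lit 23872247000817190392)]]]]]]]]],[[[[[[[[[Int.negSucc (nat_lit 79457287476764432737)]]]]]]]]]]

/-- A coefficient. -/
noncomputable def sr0_m0_1_7 : MP 10 :=
  [[[[[[[[[[Int.ofNat (nat_lit 0),Int.negSucc (nat_lit 47870070944895399563)]],[[Int.ofNat (nat_lit 155232203576025921236)]]]],[[[[Int.negSucc (nat_lit 194814534098683347003)]]]]]],[[[[[[Int.ofNat (nat_lit 242702029051243400068)]]]]]]],[[],[[[[[[Int.negSucc (nat_lit 45086600795056073147)]]]]]]]],[[[[[[[[Int.negSucc (nat_lit 572944965467553704425)]]]]],[[[[[Int.negSucc (nat_lit 17427357426976058919)]]]]]]]]]]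

/-- A coefficient. -/
noncomputable def sr0_m0_2_0 : MP 10 :=
  [[[[[[[[[[Int.ofNat (nat_lit 115417653983252699690)],[Int.ofNat (nat_lit 141089877784385421630)]]],[[[Int.negSucc (nat_lit 12137365659995209009)],[Int.ofNat (nat_lit 73340341424748264)]]],[[[Int.negSucc (nat_lit 1763310311049603875)]]]]],[[[[[Int.ofNat (nat_lit 15449684465442667674)],[Int.negSucc (nat_lit 5473790689471376603)]]],[[[Int.ofNat (nat_lit 10647825266955469264)]]]]],[[[[[Int.negSucc (nat_lit 22506814954569420991)]]]]]],[[[],[[[[Int.negSucc (nat_lit 343732603928663643)]]],[[[Int.ofNat (nat_lit 2861570018454573720)]]]]],[[],[[[[Int.ofNat (nat_lit 16390159730529060176)]]]]]],[[[[[[Int.negSucc (nat_lit 82527899523033895953)]]],[[[Int.negSucc (nat_lit 7383067785734260341)]]]]],[[[[[Int.ofNat (nat_lit 9224868485047575678)]]]]]]],[[[[[[[Int.negSucc (nat_lit 157553847591091095187)],[Int.ofNat (nat_lit 15335765216867357132)]]],[[[Int.ofNat (nat_lit 29790268666902469352)]]]]],[[[[[Int.ofNat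 (nat_lit 65750464391223608550)]]],[[[Int.ofNat (nat_lit 5209456402423402154)]]]]],[[[[[Int.ofNat (nat_lit 17493608195804193250)]]]]]],[[[],[[[[Int.negSucc (nat_lit 28860326985291485269)]]]]]],[[[[[[Int.ofNat (nat_lit 11166377009872165836)]]]]]]],[[[[[[[Int.ofNat (nat_lit 21878405287074763356)]]],[[[Int.negSucc (nat_lit 4253598047226096873)]]]]],[[[[[Int.negSucc (nat_lit 73084273546678958123)]]]]]]],[[[[[[[Int.ofNat (nat_lit 63667942912795799310)]]]]]]]],[[[[[[[],[[Int.negSucc (nat_lit 7888567555873905139)]]],[[],[[Int.negSucc (nat_lit 902183681963273431)]]]],[[[[Int.negSucc (nat_lit 6474459857987038037)]]],[[[Int.negSucc (nat_lit 6495295257110613917)]]]]],[[[[],[[Int.ofNat (nat_lit 1503481104618478246)]]]],[[[[Int.negSucc (nat_lit 27224473414685612939)]]]]]],[[[[[[Int.ofNat (nat_lit 77663679020823239902)],[Int.ofNat (nat_lit 10236001704386830634)]]],[[[Int.ofNat (nat_lit 12661000006343152436)]]]]],[[[[[Int.ofNat (nat_lit 17611549370655198012)]]]]]],[[[],[[[[Int.negSucc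 (nat_lit 3803479575597730901)]]]]]],[[[[[[Int.ofNat (nat_lit 29440459870343799862)]]]]]]],[[[[[[],[[Int.ofNat (nat_lit 13315459666296159538)]]]],[[[[Int.ofNat (nat_lit 7906842959344420464)]]]]]],[[[[[[Int.negSucc (nat_lit 7008945858759593169)]]]]],[[[[[Int.negSucc (nat_lit 10006095757916510011)]]]]]]],[[],[[[[[[Int.negSucc (nat_lit 735761321153657163)]]]]]]]],[[[[[[[[Int.negSucc (nat_lit 72257824928705090389)],[Int.negSucc (nat_lit 19021526865799997175)]]],[[[Int.ofNat (nat_lit 20119066004288480984)]]]]],[[[[[Int.negSucc (nat_lit 85176105684724352235)]]]]]],[[[[[],[[Int.negSucc (nat_lit 8177382534370638205)]]]],[[[[Int.ofNat (nat_lit 70438091964749635180)]]]]]],[[[[[[Int.ofNat (nat_lit 51358345263956186990)]]]]]]],[[[[[[[Int.ofNat (nat_lit 51518561032571360840)]]],[[[Int.negSucc (nat_lit 4095088558012093889)]]]]],[[[[[Int.ofNat (nat_lit 16872315369071772450)]]]]]]],[[[[[[[Int.ofNat (nat_lit 2601562305435831690)]]]]]]]],[[[[[[[],[[Int.ofNat (nat_lit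 28115738645313940750)]]]],[[[[Int.negSucc (nat_lit 113144165716318279681)]]]]]],[[[[[[Int.ofNat (nat_lit 64670720328448817366)]]]]]]],[[],[[[[[[Int.ofNat (nat_lit 16449909166752427014)]]]]]]]],[[[[[[[[Int.negSucc (nat_lit 31270059970746030615)]]]]]]],[[[[[[[Int.ofNat (nat_lit 27170273202915442528)]]]]]]]]],[[[[[[[[[Int.ofNat (nat_lit 165213798941859150108)],[Int.negSucc (nat_lit 5429333015399899939)]]],[[[Int.negSucc (nat_lit 48497899137309472569)]]],[[[Int.negSucc (nat_lit 3554167050697000213)]]]]],[[[[[Int.negSucc (nat_lit 4181518987691023723)]]],[[[Int.ofNat (nat_lit 104900211252074614)]]]]],[[[[[Int.negSucc (nat_lit 23474417904325148121)]]]]]],[[[],[[[[Int.ofNat (nat_lit 12980563147707226298)]]]]]],[[[[[[Int.negSucc (nat_lit 128754219894017983113)]]]]]]],[[[[[[[Int.negSucc (nat_lit 72108195276473717509)],[Int.ofNat (nat_lit 20266598755277885370)]]],[[[Int.ofNat (nat_lit 32972028800718866136)]]]]],[[[[[Int.ofNat (nat_lit 69210677998601512772)]]]]]],[[[],[[[[Int.ofNat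 (nat_lit 10955347125869412708)]]]]]],[[[[[[Int.negSucc (nat_lit 11149988157826809037)]]]]]]],[[[[[[[Int.negSucc (nat_lit 15437764651178152973)]]]]],[[[[[Int.ofNat (nat_lit 7046750132951400508)]]]]]]],[[[[[[[Int.ofNat (nat_lit 42284754611396791530)]]]]]]]],[[[[[[[],[[Int.negSucc (nat_lit 15139216148298849329)]]]],[[[[Int.negSucc (nat_lit 69180438879683253843)]]]]]],[[[[[[Int.negSucc (nat_lit 3736677774142670691)]]],[[[Int.ofNat (nat_lit 10187980689267995356)]]]]],[[[[[Int.negSucc (nat_lit 4112923985991920397)]]]]]]],[[[[[[],[[Int.ofNat (nat_lit 10165493820233642842)]]]],[[[[Int.negSucc (nat_lit 21037860657127376783)]]]]]],[[[[[[Int.negSucc (nat_lit 572883843230457719)]]]]]]]],[[[[[[[[Int.negSucc (nat_lit 59931450817335851377)]]],[[[Int.ofNat (nat_lit 7831141704432609358)]]]]],[[[[[Int.negSucc (nat_lit 50464593487731532487)]]]]]],[],[[[[[[Int.negSucc (nat_lit 28153064750585284521)]]]]]]],[[[[[[[Int.ofNat (nat_lit 1584952834992213152)]]]]]]],[[[[[[[Int.ofNat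 (nat_lit 26921997566257066060)]]]]]]]],[[[],[[[[[[Int.ofNat (nat_lit 31103492118726882902)]]]]]]]],[[[[[[[[Int.negSucc (nat_lit 7607043025433307669)]]]]]]]]],[[[[[[[[[Int.negSucc (nat_lit 125480795273888158555)],[Int.negSucc (nat_lit 12402949300853780653)]]],[[[Int.negSucc (nat_lit 33254900698526958985)]]]]],[[[[[Int.negSucc (nat_lit 1995824200635067439)]]]]]],[[[],[[[[Int.negSucc (nat_lit 28625266639228841633)]]]]]],[[[[[[Int.negSucc (nat_lit 26098911912465880645)]]]]]]],[[[[[[[Int.ofNat (nat_lit 86704423019208259944)]]],[[[Int.ofNat (nat_lit 7544491224579641658)]]]]],[[[[[Int.negSucc (nat_lit 42834629295826101719)]]]]]]],[[[[[[[Int.ofNat (nat_lit 105882217104064571750)]]]]]]]],[[[[[[[],[[Int.ofNat (nat_lit 3359508069703596014)]]]],[[[[Int.ofNat (nat_lit 10753829029178597228)]]]]]],[[[[[[Int.ofNat (nat_lit 6326306458524763404)]]]]]]],[[],[[[[[[Int.negSucc (nat_lit 36402245746941189545)]]]]]]]],[[[[[[[[Int.negSucc (nat_lit 7120506015819681753)]]]]]]],[[[[[[[Int.ofNat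 (nat_lit 38004663583304205690)]]]]]]]]],[[[[[[[[[Int.negSucc (nat_lit 346174962493531190565)]]],[[[Int.negSucc (nat_lit 3930072211327010359)]]]]],[[[[[Int.ofNat (nat_lit 8442432246216099554)]]]]]]],[[[[[[[Int.ofNat (nat_lit 159120092584477283150)]]]]]]],[[[[[[[Int.negSucc (nat_lit 18242071720629545783)]]]]]]]],[[[],[[[[[[Int.ofNat (nat_lit 7898872062185780028)]]]]]]]],[[[[[[[[Int.ofNat (nat_lit 6038041954548209100)]]]]]]]]],[[[[[[[[[Int.negSucc (nat_lit 198815323417945367129)]]]]]]],[[[[[[[Int.ofNat (nat_lit 83828711491244041898)]]]]]]]]],[[[[[[[[[Int.negSucc (nat_lit 33752169779311793049)]]]]]]]]]]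

/-- A coefficient. -/
noncomputable def sr0_m0_2_1 : MP 10 :=
  [[[[[[[[[[Int.ofNat (nat_lit 0),Int.negSucc (nat_lit 64183179008247433307)]],[[Int.negSucc (nat_lit 5815546273794715537)]]],[[[Int.ofNat (nat_lit 0),Int.negSucc (nat_lit 2171724264397690269)]],[[Int.ofNat (nat_lit 349212938288975690)]]]],[[[[Int.ofNat (nat_lit 84613853632435900096)],[Int.ofNat (nat_lit 21910958193633338152)]]],[[[Int.negSucc (nat_lit 2557462179120599217)]]]]],[[[[[Int.ofNat (nat_lit 0),Int.ofNat (nat_lit 35225808041566783728)]],[[Int.negSucc (nat_lit 2921408419235129617)]]]],[[[[Int.ofNat (nat_lit 28439262396443226772)]]]]]],[[[[[[Int.negSucc (nat_lit 305720679501982750963)],[Int.negSucc (nat_lit 868519832394722673)]]],[[[Int.negSucc (nat_lit 25792155652147885449)]]]],[],[[[[Int.ofNat (nat_lit 7520749436887676364)]]]]],[[[[[Int.negSucc (nat_lit 15347983053514012153)]]]]]],[[[],[[[[Int.ofNat (nat_lit 5257134473216723036)]]]]]],[[[[[[Int.negSucc (nat_lit 69528251987281575987)]]]]]]],[[[[[[[Int.ofNat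 (nat_lit 0),Int.negSucc (nat_lit 294788963512396095)]],[[Int.negSucc (nat_lit 32101234833557119159)]]]],[[[[Int.negSucc (nat_lit 58128655062504805559)]]]]],[[],[[[[Int.ofNat (nat_lit 19367361984380922128)]]]]]],[[[[[[Int.negSucc (nat_lit 64635988559125788305)]]],[[[Int.negSucc (nat_lit 5253369505819614471)]]]]],[[[[[Int.ofNat (nat_lit 54025608226171605568)]]]]]]],[[[[],[[[[Int.ofNat (nat_lit 2260588319530910678)]]]]]],[[[[[[Int.negSucc (nat_lit 124222593179276479633)]]]]]]]],[[[[[[[[Int.negSucc (nat_lit 43448327928414042221)],[Int.negSucc (nat_lit 116572914242703503887)]]],[[[Int.ofNat (nat_lit 10618539655453776906)]]]],[[[],[[Int.negSucc (nat_lit 9079027440830136733)]]]],[[[[Int.ofNat (nat_lit 73140862641323808736)]]]]],[[[[[Int.negSucc (nat_lit 260124631908482849707)]]],[[[Int.negSucc (nat_lit 9787009074315835029)]]]]],[[[[[Int.ofNat (nat_lit 19456079066017361662)]]]]]],[[[[[[Int.ofNat (nat_lit 0),Int.ofNat (nat_lit 29714563227262191340)]],[[Int.ofNat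 (nat_lit 26645412505723320032)]]]],[[[[Int.negSucc (nat_lit 161495940727558342097)]]]]]],[[[[[[Int.ofNat (nat_lit 193313121358715754638)]]]]]]],[[[[[[[Int.ofNat (nat_lit 87458623266339413596)]]]]],[[[[[Int.ofNat (nat_lit 109631035736219838172)]]]]]],[],[[[[[[Int.negSucc (nat_lit 514876294184164707)]]]]]]],[[[[[[[Int.ofNat (nat_lit 168201742283650177314)]]]]]]]],[[[[[[[[Int.ofNat (nat_lit 0),Int.ofNat (nat_lit 55441468152092290894)]],[[Int.negSucc (nat_lit 42848137067402550435)]]]],[[[[Int.ofNat (nat_lit 131235511453843564216)]]]]]],[[[[[[Int.negSucc (nat_lit 557909214674375178247)]]]]],[[[[[Int.ofNat (nat_lit 98966098338701929226)]]]]]]],[[[[],[[[[Int.negSucc (nat_lit 27883933443058143965)]]]]]],[[[[[[Int.negSucc (nat_lit 12207553800688834387)]]]]]]]],[[[[[[[[Int.ofNat (nat_lit 436173368405765288538)]]]]],[[[[[Int.negSucc (nat_lit 13500465664049980143)]]]]]]],[[[[[[[Int.ofNat (nat_lit 42637404111919337968)]]]]]]]]],[[[[[[[[[Int.ofNat (nat_lit 0),Int.negSucc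 (nat_lit 115222301691343628215)]],[[Int.ofNat (nat_lit 31794761575919665618)]]]],[[[[Int.ofNat (nat_lit 2204099107469923058)]]],[[[Int.ofNat (nat_lit 1974060167313845530)]]]]],[[],[[[[Int.negSucc (nat_lit 23660206466527979005)]]]]]],[[[[[[Int.negSucc (nat_lit 65863084624078621445)]]],[[[Int.negSucc (nat_lit 23047740157387445785)]]]]],[[[[[Int.ofNat (nat_lit 47085582508660989750)]]]]]]],[[[[[[[Int.ofNat (nat_lit 0),Int.negSucc (nat_lit 10449932580097112565)]],[[Int.negSucc (nat_lit 19300440449063221673)]]]],[[[[Int.ofNat (nat_lit 69155401557055050204)]]]]]],[[[[[[Int.negSucc (nat_lit 14595187086959315015)]]]]]]],[[],[[[[[[Int.negSucc (nat_lit 55607440420266513411)]]]]]]]],[[[[[[[[Int.negSucc (nat_lit 424003929572249110063)],[Int.negSucc (nat_lit 91597709166478412569)]]],[[[Int.ofNat (nat_lit 57751506009541373580)]]]]],[[[[[Int.negSucc (nat_lit 363521883671966795421)]]]]]],[[[],[[[[Int.ofNat (nat_lit 89240755986824482262)]]]]]],[[[[[[Int.ofNat (nat_lit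 84791792897661710876)]]]]]]],[[[[[[[Int.ofNat (nat_lit 102021156356230058694)]]]]],[[[[[Int.ofNat (nat_lit 52477740701794588688)]]]]]]],[[[[[[[Int.negSucc (nat_lit 34944910070365482965)]]]]]]]],[[[[[[[],[[Int.ofNat (nat_lit 30895231674782780382)]]]],[[[[Int.negSucc (nat_lit 150500677781643651337)]]]]]],[[[[[[Int.negSucc (nat_lit 4940058782465129405)]]]]]]]],[[[[[[[[Int.ofNat (nat_lit 227677614060456121216)]]]]]]],[[[[[[[Int.ofNat (nat_lit 26616187905257856268)]]]]]]]]],[[[[[[[[[Int.ofNat (nat_lit 0),Int.negSucc (nat_lit 55330685634528875841)]],[[Int.negSucc (nat_lit 17975653708734400865)]]]],[[[[Int.negSucc (nat_lit 95360508424126081805)]]]]]],[[[[[[Int.ofNat (nat_lit 132200230267336025540)]]]]]]],[[[[],[[[[Int.ofNat (nat_lit 9868006807463300558)]]]]]],[[[[[[Int.negSucc (nat_lit 17682185003364385657)]]]]]]]],[[[[[[[[Int.negSucc (nat_lit 3832312884587374025)]]],[[[Int.ofNat (nat_lit 12249918077393890896)]]]]],[[[[[Int.negSucc (nat_lit 28091595367021377319)]]]]]]],[[[[[[[Int.negSucc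 (nat_lit 70667321041834772357)]]]]]]]],[[[],[[[[[[Int.negSucc (nat_lit 57620121061918488773)]]]]]]]],[[[[[[[[Int.ofNat (nat_lit 126551881491083477472)]]]]]]]]],[[[[[[],[[[[Int.ofNat (nat_lit 15180897407742751682)]]]]]],[[[[[[Int.ofNat (nat_lit 7225873545912437910)]]]]]]]],[[[[[[[[Int.ofNat (nat_lit 342838304412462356802)]]]]]]],[[[[[[[Int.negSucc (nat_lit 72382631743323382177)]]]]]]]]],[[],[[[[[[[[Int.ofNat (nat_lit 107714974860060162038)]]]]]]]]]]

/-- A coefficient. -/
noncomputable def sr0_m0_2_2 : MP 10 :=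
  [[[[[[[[[[Int.negSucc (nat_lit 128326008531553512703)],[Int.negSucc (nat_lit 35948181090284666661)]]],[[[Int.ofNat (nat_lit 96181208025160860532)]]]],[[[[Int.ofNat (nat_lit 0),Int.negSucc (nat_lit 20569699411645477725)]],[[Int.ofNat (nat_lit 52548591157644099582)]]]],[[[[Int.negSucc (nat_lit 12224602732865823953)]]]]],[[[[[Int.negSucc (nat_lit 176567271133429607297)]]]]]],[[[[[[Int.ofNat (nat_lit 0),Int.negSucc (nat_lit 18930823601539963991)]],[[Int.ofNat (nat_lit 4154377944087923526)]]]],[[[[Int.ofNat (nat_lit 188419033092887792350)]]]]]],[[[[[[Int.negSucc (nat_lit 74014813807310596957)]]]]]]],[[[[[[[Int.ofNat (nat_lit 200225260621352906084)],[Int.negSucc (nat_lit 20658983572981996229)]]],[[[Int.negSucc (nat_lit 21304993294537639035)]]]]],[[[[[Int.ofNat (nat_lit 39872071836844050840)]]]]]],[[[],[[[[Int.negSucc (nat_lit 46228546426514812739)]]]]]],[[[[[[Int.negSucc (nat_lit 50020841995599233937)]]]]]]],[[[[[[[Int.negSucc (nat_lit 207338246735367456353)]]]]],[[[[[Int.negSucc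 (nat_lit 68451699332255330787)]]]]]]],[[[[[[[Int.ofNat (nat_lit 142815622331640289662)]]]]]]]],[[[[[[[[Int.ofNat (nat_lit 0),Int.negSucc (nat_lit 221652753574064282553)]],[[Int.negSucc (nat_lit 48598398604180725357)]]]],[[[[Int.negSucc (nat_lit 95353526799610079145)]]]]],[[],[[[[Int.ofNat (nat_lit 6266472780530950028)]]]]]],[[[[[[Int.ofNat (nat_lit 741687531773564725622)]]]]],[[[[[Int.negSucc (nat_lit 61435465317846140677)]]]]]]],[[[[[[],[[Int.ofNat (nat_lit 5716208784926222024)]]]],[[[[Int.ofNat (nat_lit 61385090908671322882)]]]]]],[[[[[[Int.ofNat (nat_lit 12359984183174674378)]]]]]]]],[[[[[[[[Int.negSucc (nat_lit 226083282969989308835)]]]]],[[[[[Int.negSucc (nat_lit 131575494797125508895)]]]]]]],[[[[[[[Int.ofNat (nat_lit 71056588442964457692)]]]]]]],[[[[[[[Int.negSucc (nat_lit 17904127781107728097)]]]]]]]]],[[[[[[[[[Int.negSucc (nat_lit 96207758530454929001)],[Int.ofNat (nat_lit 45324902389554480416)]]],[[[Int.ofNat (nat_lit 60452656705141235568)]]]]],[[[[[Int.negSucc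 (nat_lit 156869031797996870309)]]]]]],[[[],[[[[Int.ofNat (nat_lit 13359535005567521988)]]]]]],[[[[[[Int.ofNat (nat_lit 19593177130815320320)]]]]]]],[[[[[[[Int.ofNat (nat_lit 147201221840525377816)]]],[[[Int.negSucc (nat_lit 4734310139189370319)]]]]],[[[[[Int.ofNat (nat_lit 74641862147743453974)]]]]]]],[[[[[[[Int.negSucc (nat_lit 211721855212280706351)]]]]]]]],[[[[[[[[Int.ofNat (nat_lit 0),Int.ofNat (nat_lit 54937023681388574114)]],[[Int.negSucc (nat_lit 66102803493976534133)]]]],[[[[Int.ofNat (nat_lit 318333669516513884020)]]]]]],[[[[[[Int.negSucc (nat_lit 205051923932330562115)]]]]]]],[[],[[[[[[Int.ofNat (nat_lit 117796588744032941798)]]]]]]]],[[[[[[[[Int.ofNat (nat_lit 374921073463025868458)]]]]],[[[[[Int.ofNat (nat_lit 616958727593890916)]]]]]]],[[[[[[[Int.ofNat (nat_lit 2581490579935812488)]]]]]]]]],[[[[[[[[[Int.ofNat (nat_lit 102684391263493689130)]]],[[[Int.ofNat (nat_lit 28179581082058998084)]]]]],[[[[[Int.negSucc (nat_lit 70285735240318728203)]]]]]]],[[[[[[[Int.ofNat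 (nat_lit 47894192249422380662)]]]]]]],[[[[[[[Int.negSucc (nat_lit 41722001821271412309)]]]]]]]],[[[],[[[[[[Int.negSucc (nat_lit 15049881513113055521)]]]]]]]],[[[[[[[[Int.ofNat (nat_lit 46362155997115178492)]]]]]]]]],[[[[[[[[[Int.ofNat (nat_lit 235257107818406232900)]]]]]]],[[[[[[[Int.negSucc (nat_lit 76465657925784027507)]]]]]]]]],[[[[[[[[[Int.ofNat (nat_lit 143003646465966248120)]]]]]]]]]]

/-- A coefficient. -/
noncomputable def sr0_m0_2_3 : MP 10 :=
  [[[[[[[[[[Int.ofNat (nat_lit 0),Int.ofNat (nat_lit 66734484468725445708)]],[[Int.negSucc (nat_lit 6349536905066834135)]]]],[[[[Int.ofNat (nat_lit 207821197119709062438)]]]]]],[[[[[[Int.negSucc (nat_lit 389398344723792685633)]]]]]]],[[[[[[[Int.ofNat (nat_lit 0),Int.negSucc (nat_lit 56249487411179890291)]],[[Int.negSucc (nat_lit 44138430433750828291)]]]],[[[[Int.negSucc (nat_lit 80980794306096828615)]]]]]],[[[[[[Int.negSucc (nat_lit 7862960466503387607)]]]]]]],[[],[[[[[[Int.ofNat (nat_lit 62941830144034815802)]]]]]]]],[[[[[[[[Int.ofNat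 (nat_lit 917502749215525699556)],[Int.ofNat (nat_lit 77174069605166076654)]]],[[[Int.ofNat (nat_lit 10782836547454232016)]]]]],[[[[[Int.ofNat (nat_lit 42027834224527897420)]]]]]],[[[],[[[[Int.negSucc (nat_lit 10625745919953152303)]]]]]],[[[[[[Int.ofNat (nat_lit 11354777920977418966)]]]]]]],[[[[[[[Int.negSucc (nat_lit 288186403171510833319)]]]]],[[[[[Int.negSucc (nat_lit 25539062939839452615)]]]]]]],[[[[[[[Int.negSucc (nat_lit 95631208972683297263)]]]]]]]],[[[[[[[],[[Int.ofNat (nat_lit 370051066227680892)]]]],[[[[Int.negSucc (nat_lit 36856133852268244487)]]]]]],[[[[[[Int.ofNat (nat_lit 253384680047926958254)]]]]]]]],[[[[[[[[Int.negSucc (nat_lit 310611519765013818449)]]]]]]],[[[[[[[Int.ofNat (nat_lit 14024401513928077224)]]]]]]]]],[[[[[[[[[Int.ofNat (nat_lit 0),Int.negSucc (nat_lit 4157383872163591243)]],[[Int.ofNat (nat_lit 27734404857177066550)]]]],[[[[Int.negSucc (nat_lit 56874791787533081527)]]]]]],[[[[[[Int.ofNat (nat_lit 132598276496893062064)]]]]]]],[[],[[[[[[Int.negSucc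 (nat_lit 42031413418715927107)]]]]]]]],[[[[[[[[Int.ofNat (nat_lit 255128288916288961376)]]],[[[Int.ofNat (nat_lit 1957829913753828936)]]]]],[[[[[Int.ofNat (nat_lit 27282035799798625770)]]]]]]],[[[[[[[Int.ofNat (nat_lit 150270763973565059422)]]]]]]]],[[[],[[[[[[Int.ofNat (nat_lit 101887523590684629692)]]]]]]]],[[[[[[[[Int.negSucc (nat_lit 249714439111132893169)]]]]]]]]],[[],[[[[[[[[Int.negSucc (nat_lit 55116793482284335031)]]]]]]],[[[[[[[Int.ofNat (nat_lit 91217410204759679074)]]]]]]]]],[[],[[[[[[[[Int.negSucc (nat_lit 87576573179941562387)]]]]]]]]]]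

/-- A coefficient. -/
noncomputable def sr0_m0_2_4 : MP 10 :=
  [[[[[[[[[[Int.ofNat (nat_lit 49323109119260611826)],[Int.ofNat (nat_lit 7087138018842125018)]]],[[[Int.negSucc (nat_lit 80261268706482068099)]]]]],[[[[[Int.ofNat (nat_lit 158309786261133355520)]]]]]],[[[],[[[[Int.negSucc (nat_lit 814033273460258217)]]]]]],[[[[[[Int.negSucc (nat_lit 25438831350701667287)]]]]]]],[[[[[[[Int.ofNat (nat_lit 11044193256458270372)]]]]],[[[[[Int.ofNat (nat_lit 18038016171727704744)]]]]]]],[[[[[[[Int.negSucc (nat_lit 112248458858422420525)]]]]]]]],[[[[[[[[Int.ofNat (nat_lit 0),Int.ofNat (nat_lit 140437083281064608120)]],[[Int.ofNat (nat_lit 10862226935027789584)]]]],[[[[Int.ofNat (nat_lit 306120306684880665180)]]]]]],[[[[[[Int.negSucc (nat_lit 898223021077193904659)]]]]]]],[[],[[[[[[Int.ofNat (nat_lit 69097327534917245508)]]]]]]]],[[[[[[[[Int.ofNat (nat_lit 426632227716272440824)]]]]],[[[[[Int.negSucc (nat_lit 40097168244389578253)]]]]]]],[[[[[[[Int.negSucc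 (nat_lit 71385701418912734781)]]]]]]]]],[[[[[[[[[Int.negSucc (nat_lit 23532954260507230317)]]],[[[Int.negSucc (nat_lit 26751132024825385173)]]]]],[[[[[Int.ofNat (nat_lit 108981561833317847950)]]]]]]],[[[[[[[Int.ofNat (nat_lit 46091117609504561012)]]]]]]]],[[[],[[[[[[Int.ofNat (nat_lit 10024212906034642320)]]]]]]]],[[[[[[[[Int.ofNat (nat_lit 136518013375756852526)]]]]]]]]],[[[[[[[[[Int.negSucc (nat_lit 23420117992263835197)]]]]]]],[[[[[[[Int.negSucc (nat_lit 54006003314877336225)]]]]]]]]],[[[[[[[[[Int.ofNat (nat_lit 36715816331542977458)]]]]]]]]]]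

/-- A coefficient. -/
noncomputable def sr0_m0_2_5 : MP 10 :=
  [[[[[[[[[[Int.ofNat (nat_lit 0),Int.negSucc (nat_lit 7769432359998152791)]],[[Int.ofNat (nat_lit 21467600505834417692)]]]],[[[[Int.negSucc (nat_lit 294576028927041360657)]]]]]],[[[[[[Int.ofNat (nat_lit 662163515996378089572)]]]]]]],[[],[[[[[[Int.negSucc (nat_lit 14609622530465922455)]]]]]]]],[[[[[[[[Int.negSucc (nat_lit 709021995467029723001)]]]]],[[[[[Int.ofNat (nat_lit 90220184867194898834)]]]]]]]]]]

/-- A coefficient. -/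
noncomputable def sr0_m0_3_0 : MP 10 :=
  [[[[[[[[[[Int.ofNat (nat_lit 91921016600818757332)],[Int.ofNat (nat_lit 8540946817586060996)]]],[[[Int.ofNat (nat_lit 19002360990024471304)]]]]],[[[[[Int.ofNat (nat_lit 36111150295783013314)],[Int.negSucc (nat_lit 3981034075992951597)]]],[[[Int.negSucc (nat_lit 8909702990857137195)]]]]],[[[[[Int.ofNat (nat_lit 69093403682817833702)]]]]]],[[[],[[[[Int.ofNat (nat_lit 12626161158467894788)]]]]],[[],[[[[Int.negSucc (nat_lit 24579124848495510607)]]]]]],[[[[[[Int.ofNat (nat_lit 33358806334383207784)]]]]],[[[[[Int.negSucc (nat_lit 9300411659267128695)]]]]]]],[[[[[[[Int.negSucc (nat_lit 224603841355808139459)],[Int.ofNat (nat_lit 1020586041091267096)]]],[[[Int.negSucc (nat_lit 15863813553570144427)]]]]],[[[[[Int.negSucc (nat_lit 81932382430846740565)]]]]],[[[[[Int.negSucc (nat_lit 26968055473083938329)]]]]]],[[[],[[[[Int.negSucc (nat_lit 1740719093566027381)]]]]]],[[[[[[Int.ofNat (nat_lit 35425803381629465332)]]]]]]],[[[[[[[Int.ofNat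 (nat_lit 276911424795981369404)]]]]],[[[[[Int.ofNat (nat_lit 38051199590609594380)]]]]]]],[[[[[[[Int.negSucc (nat_lit 131388788135283732061)]]]]]]]],[[[[[[[],[[Int.ofNat (nat_lit 18578338038242708240)]]]],[[[[Int.negSucc (nat_lit 77572222661529279663)]]]]],[[[[],[[Int.negSucc (nat_lit 3016183537061741119)]]]],[[[[Int.ofNat (nat_lit 11031532083364547990)]]]]]],[[[[[[Int.ofNat (nat_lit 44351256012610973272)]]]]],[[[[[Int.negSucc (nat_lit 20316764981526338359)]]]]]]],[[[[[[],[[Int.negSucc (nat_lit 11192480302267306343)]]]],[[[[Int.ofNat (nat_lit 76372879124366402328)]]]]]],[[[[[[Int.ofNat (nat_lit 760561250598865848)]]]]]]]],[[[[[[[[Int.negSucc (nat_lit 9244261866437068625)],[Int.ofNat (nat_lit 15693130628455660400)]]],[[[Int.negSucc (nat_lit 18355863093757054403)]]]]],[[[[[Int.ofNat (nat_lit 8318359112572151484)]]]]]],[[[],[[[[Int.ofNat (nat_lit 25442204578716962764)]]]]]],[[[[[[Int.negSucc (nat_lit 45953493906667075215)]]]]]]],[[[[[[[Int.ofNat (nat_lit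 54482768570886850628)]]]]],[[[[[Int.ofNat (nat_lit 28881511055544267718)]]]]]]],[[[[[[[Int.negSucc (nat_lit 44040457328273694485)]]]]]]]],[[[[[[[],[[Int.negSucc (nat_lit 10965082076949624213)]]]],[[[[Int.ofNat (nat_lit 29486065536456515292)]]]]]],[[[[[[Int.negSucc (nat_lit 7693959573486031791)]]]]]]]],[[[[[[[[Int.ofNat (nat_lit 78556978859609081494)]]]]]]],[[[[[[[Int.negSucc (nat_lit 34416120418063494135)]]]]]]]]],[[[[[[[[[Int.ofNat (nat_lit 330127104028177238066)],[Int.ofNat (nat_lit 1342244535785632576)]]],[[[Int.ofNat (nat_lit 17378542462165398574)]]]]],[[[[[Int.ofNat (nat_lit 17036816757157498198)]]],[[[Int.negSucc (nat_lit 3550457287870013025)]]]]],[[[[[Int.ofNat (nat_lit 74250443690042032934)]]]]]],[[[],[[[[Int.ofNat (nat_lit 93339019967290922696)]]]]]],[[[[[[Int.ofNat (nat_lit 27573511526426722398)]]]]]]],[[[[[[[Int.negSucc (nat_lit 195551981953087560535)]]],[[[Int.ofNat (nat_lit 486763409265250982)]]]]],[[[[[Int.ofNat (nat_lit 17821377841539618178)]]]]]]],[[[[[[[Int.ofNat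 (nat_lit 63035592695730019464)]]]]]]]],[[[[[[[],[[Int.ofNat (nat_lit 18129763361589044410)]]]],[[[[Int.negSucc (nat_lit 185169160033095424877)]]]]]],[[[[[[Int.ofNat (nat_lit 166504991954298563960)]]]]],[[[[[Int.negSucc (nat_lit 9143435245131934177)]]]]]]],[[],[[[[[[Int.ofNat (nat_lit 13683215900636994734)]]]]]]]],[[[[[[[[Int.negSucc (nat_lit 121732994894548494627)]]],[[[Int.negSucc (nat_lit 9061843417657222197)]]]]],[[[[[Int.negSucc (nat_lit 23896870118094549937)]]]]]]],[[[[[[[Int.ofNat (nat_lit 102867572418831867516)]]]]]]]],[[[],[[[[[[Int.ofNat (nat_lit 31717326618372350130)]]]]]]]],[[[[[[[[Int.ofNat (nat_lit 58660114350820120622)]]]]]]]]],[[[[[[[[[Int.ofNat (nat_lit 566668927385077354690)],[Int.negSucc (nat_lit 1630954012100823459)]]],[[[Int.negSucc (nat_lit 10570701637304650035)]]]]],[[[[[Int.negSucc (nat_lit 63984273366053444801)]]]]]],[[[],[[[[Int.ofNat (nat_lit 47348821106744117710)]]]]]],[[[[[[Int.ofNat (nat_lit 14747812363214796828)]]]]]]],[[[[[[[Int.ofNat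 (nat_lit 97693425414112989210)]]]]],[[[[[Int.ofNat (nat_lit 51259052971913641076)]]]]]]],[[[[[[[Int.negSucc (nat_lit 90243616571642846573)]]]]]]]],[[[[[[[],[[Int.ofNat (nat_lit 2868032787805596764)]]]],[[[[Int.negSucc (nat_lit 36675253320590615705)]]]]]],[[[[[[Int.ofNat (nat_lit 80870411837469042904)]]]]]]]],[[[[[[[[Int.negSucc (nat_lit 53560507053152746961)]]]]]]],[[[[[[[Int.negSucc (nat_lit 17319787075371513245)]]]]]]]]],[[[[[[[[[Int.ofNat (nat_lit 515518411470500569870)]]],[[[Int.negSucc (nat_lit 537736732374666455)]]]]],[[[[[Int.negSucc (nat_lit 41713840491084981421)]]]]]]],[[[[[[[Int.ofNat (nat_lit 123536351840288819412)]]]]]]]],[[[],[[[[[[Int.ofNat (nat_lit 29540284105626335948)]]]]]]]],[[[[[[[[Int.ofNat (nat_lit 38293592038393732032)]]]]]]]]],[[[[[[[[[Int.ofNat (nat_lit 284117173321060859092)]]]]]]],[[[[[[[Int.ofNat (nat_lit 506280539227893868)]]]]]]]]],[[[[[[[[[Int.ofNat (nat_lit 92425990020470309726)]]]]]]]]]]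

/-- A coefficient. -/
noncomputable def sr0_m0_3_1 : MP 10 :=
  [[[[[[[[[[Int.ofNat (nat_lit 0),Int.negSucc (nat_lit 4781351887768525451)]],[[Int.negSucc (nat_lit 71001891173775960545)]]]],[[[[Int.ofNat (nat_lit 136567282417737075630)]]]]],[[[[[Int.ofNat (nat_lit 0),Int.negSucc (nat_lit 39241261849957287645)]],[[Int.negSucc (nat_lit 1686975952395723485)]]]],[[[[Int.negSucc (nat_lit 56554284948243766307)]]]]]],[[[[[[Int.negSucc (nat_lit 68145617673129575691)],[Int.ofNat (nat_lit 18023645661756375084)]]],[[[Int.ofNat (nat_lit 17908068984348974592)]]]]],[[[[[Int.ofNat (nat_lit 5511927147275684396)]]]]]],[[[],[[[[Int.ofNat (nat_lit 25563596841182154862)]]]]]],[[[[[[Int.negSucc (nat_lit 11510539301277183651)]]]]]]],[[[[[[[Int.ofNat (nat_lit 0),Int.ofNat (nat_lit 76094565863967248688)]],[[Int.ofNat (nat_lit 55314043576204483700)]]]],[[[[Int.negSucc (nat_lit 94801346263561429289)]]]]]],[[[[[[Int.negSucc (nat_lit 29499897156946924437)]]]]],[[[[[Int.negSucc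 (nat_lit 2344151108096985505)]]]]]]],[[],[[[[[[Int.ofNat (nat_lit 74511738556755071704)]]]]]]]],[[[[[[[[Int.ofNat (nat_lit 270336354510627994596)],[Int.negSucc (nat_lit 23241096709759852553)]]],[[[Int.ofNat (nat_lit 66967622311622663596)]]]]],[[[[[Int.ofNat (nat_lit 54835589619453881548)]]]]],[[[[[Int.negSucc (nat_lit 22993906764402517839)]]]]]],[[[[[],[[Int.ofNat (nat_lit 15983799749860142198)]]]],[[[[Int.negSucc (nat_lit 79214117948479736539)]]]]]],[[[[[[Int.negSucc (nat_lit 54472330995991501075)]]]]]]],[[[[[[[Int.negSucc (nat_lit 270513847296399151561)]]]]],[[[[[Int.negSucc (nat_lit 46478661977073828369)]]]]]]],[[[[[[[Int.ofNat (nat_lit 311190874120985781092)]]]]]]]],[[[[[[[[Int.ofNat (nat_lit 0),Int.negSucc (nat_lit 41123859739851928027)]],[[Int.ofNat (nat_lit 56057660218624819288)]]]],[[[[Int.ofNat (nat_lit 41923246949129710744)]]]]]],[[[[[[Int.negSucc (nat_lit 107800235445692384579)]]]]]]],[[],[[[[[[Int.ofNat (nat_lit 9471940879371664470)]]]]]]]],[[[[[[[[Int.negSucc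 (nat_lit 145934332566438383465)]]]]],[[[[[Int.negSucc (nat_lit 22960197621508371567)]]]]]]],[[[[[[[Int.ofNat (nat_lit 121632448822614556830)]]]]]]]]],[[[[[[[[[Int.ofNat (nat_lit 0),Int.ofNat (nat_lit 85656114757953657276)]],[[Int.negSucc (nat_lit 39267099932650826487)]]]],[[[[Int.ofNat (nat_lit 398106243447002809148)]]]]]],[[[[[[Int.negSucc (nat_lit 428309468030107763847)]]],[[[Int.ofNat (nat_lit 23963786608263070966)]]]]],[[[[[Int.negSucc (nat_lit 91470188369497239133)]]]]]]],[[],[[[[[[Int.ofNat (nat_lit 5981030506229695342)]]]]]]]],[[[[[[[[Int.ofNat (nat_lit 645463907772842199444)]]],[[[Int.ofNat (nat_lit 48072484509105220368)]]]]],[[[[[Int.ofNat (nat_lit 3876174608494376076)]]]]]],[],[[[[[[Int.ofNat (nat_lit 14548414986619636516)]]]]]]],[[[[[[[Int.negSucc (nat_lit 347205283932019608475)]]]]]]]],[[[],[[[[[[Int.negSucc (nat_lit 149245079943571846657)]]]]]]]],[[[[[[[[Int.negSucc (nat_lit 73909199748030365239)]]]]]]]]],[[[[[[[[[Int.ofNat (nat_lit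 0),Int.ofNat (nat_lit 56628945178776582628)]],[[Int.ofNat (nat_lit 25583937444376228160)]]]],[[[[Int.ofNat (nat_lit 124615247584267914076)]]]]]],[[[[[[Int.negSucc (nat_lit 104784857144205779459)]]]]]]],[[],[[[[[[Int.negSucc (nat_lit 17681629179437887871)]]]]]]]],[[[[[[[[Int.ofNat (nat_lit 249788903378919099706)]]]]],[[[[[Int.ofNat (nat_lit 9503848372721338426)]]]]]]],[[[[[[[Int.negSucc (nat_lit 3430152367444479105)]]]]]]]]],[[[[],[[[[[[Int.ofNat (nat_lit 36581737309859607088)]]]]]]]],[[[[[[[[Int.negSucc (nat_lit 5123034390227632841)]]]]]]]]]]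

/-- A coefficient. -/
noncomputable def sr0_m0_3_2 : MP 10 :=
  [[[[[[[[[[Int.negSucc (nat_lit 8983197279417550319)],[Int.ofNat (nat_lit 75681841841263468410)]]],[[[Int.negSucc (nat_lit 87529889325504714115)]]]]],[[[[[Int.ofNat (nat_lit 196249957334005081328)]]]]]],[[[[[[Int.ofNat (nat_lit 0),Int.negSucc (nat_lit 36869636451763883145)]],[[Int.negSucc (nat_lit 24531986087284087515)]]]],[[[[Int.negSucc (nat_lit 97087834226960846573)]]]]]],[[[[[[Int.ofNat (nat_lit 276030916405081923778)]]]]]]],[[[[[[[Int.ofNat (nat_lit 136277794276126754208)]]]]],[[[[[Int.negSucc (nat_lit 98125490994618922759)]]]]]],[],[[[[[[Int.ofNat (nat_lit 106959237365825084562)]]]]]]],[[[[[[[Int.negSucc (nat_lit 342769378760489405985)]]]]]]]],[[[[[[[[Int.ofNat (nat_lit 0),Int.negSucc (nat_lit 169140642509249667603)]],[[Int.negSucc (nat_lit 11219056478029316107)]]]],[[[[Int.ofNat (nat_lit 37129524032646003990)]]]]]],[[[[[[Int.ofNat (nat_lit 390195076557667709402)]]]]],[[[[[Int.negSucc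 (nat_lit 26890611547411663537)]]]]]]],[[],[[[[[[Int.negSucc (nat_lit 90613320265971925783)]]]]]]]],[[[[[[[[Int.ofNat (nat_lit 525929977723224705210)]]]]],[[[[[Int.negSucc (nat_lit 43892099348585618349)]]]]]]],[[[[[[[Int.negSucc (nat_lit 167006790323366119053)]]]]]]]]],[[[[[[[[[Int.negSucc (nat_lit 131625654086340767015)],[Int.negSucc (nat_lit 53023528101837311373)]]],[[[Int.negSucc (nat_lit 2473133063860674351)]]]]],[[[[[Int.ofNat (nat_lit 298861495537005788592)]]]]]],[[[],[[[[Int.negSucc (nat_lit 106190109662796427495)]]]]]],[[[[[[Int.ofNat (nat_lit 29075422150970966482)]]]]]]],[[[[[[[Int.negSucc (nat_lit 181000006422682717507)]]]]],[[[[[Int.negSucc (nat_lit 134924840214182608787)]]]]]]],[[[[[[[Int.ofNat (nat_lit 75355098864261977864)]]]]]]]],[[[[[[[],[[Int.ofNat (nat_lit 8476228922467546668)]]]],[[[[Int.ofNat (nat_lit 3651365420413189288)]]]]]],[[[[[[Int.ofNat (nat_lit 113766702222446141830)]]]]]]]],[[[[[[[[Int.negSucc (nat_lit 148846142253594692007)]]]]]]],[[[[[[[Int.negSucc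 (nat_lit 11848131012910020523)]]]]]]]]],[[[[[[[[[Int.negSucc (nat_lit 384239664444841241591)]]],[[[Int.ofNat (nat_lit 4043552755335399526)]]]]],[[[[[Int.ofNat (nat_lit 162315143352162778494)]]]]]]],[[[[[[[Int.negSucc (nat_lit 334382296195507251681)]]]]]]]],[[[],[[[[[[Int.ofNat (nat_lit 9627784274502428238)]]]]]]]],[[[[[[[[Int.negSucc (nat_lit 154560265589332146591)]]]]]]]]],[[[[[[[[[Int.negSucc (nat_lit 480261638049442077237)]]]]]]],[[[[[[[Int.ofNat (nat_lit 29977126200491932584)]]]]]]]]],[[[[[[[[[Int.negSucc (nat_lit 202135823415662754359)]]]]]]]]]]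

/-- A coefficient. -/
noncomputable def sr0_m0_3_3 : MP 10 :=
  [[[[[[[[[[Int.ofNat (nat_lit 0),Int.ofNat (nat_lit 282659151427695590466)]],[[Int.negSucc (nat_lit 148857525194308441443)]]]],[[[[Int.negSucc (nat_lit 301024966913858201093)]]]]]],[[[[[[Int.negSucc (nat_lit 461359419436012761907)]]]]]]],[[],[[[[[[Int.ofNat (nat_lit 271534535243990272530)]]]]]]]],[[[[[[[[Int.negSucc (nat_lit 968599482913829934083)]]]]],[[[[[Int.ofNat (nat_lit 243429684669357929146)]]]]]]]]],[[[[[[[[[Int.ofNat (nat_lit 0),Int.negSucc (nat_lit 14805214882404870117)]],[[Int.negSucc (nat_lit 97584435289841841669)]]]],[[[[Int.negSucc (nat_lit 165985113636546452347)]]]]]],[[[[[[Int.negSucc (nat_lit 39947208934922764143)]]]]]]],[[],[[[[[[Int.ofNat (nat_lit 30218374082121223668)]]]]]]]],[[[[[[[[Int.negSucc (nat_lit 208122936642703081523)]]]]],[[[[[Int.negSucc (nat_lit 12491804382017761507)]]]]]]]]]]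

/-- A coefficient. -/
noncomputable def sr0_m0_3_4 : MP 10 :=
  [[[[[[[[[[Int.ofNat (nat_lit 26840807673333353364)],[Int.negSucc (nat_lit 77283305498507686997)]]],[[[Int.ofNat (nat_lit 48288027036932341260)]]]]],[[[[[Int.negSucc (nat_lit 135714201827612451509)]]]]]],[[[],[[[[Int.ofNat (nat_lit 128090160752251853688)]]]]]],[[[[[[Int.negSucc (nat_lit 129288119096268676411)]]]]]]],[[[[[[[Int.negSucc (nat_lit 170731106705499519839)]]]]],[[[[[Int.ofNat (nat_lit 115430077257594090598)]]]]]]],[[[[[[[Int.ofNat (nat_lit 281091155807033549740)]]]]]]]],[[[[[[[],[[Int.negSucc (nat_lit 57037012846965037503)]]]],[[[[Int.negSucc (nat_lit 207563568251256465097)]]]]]],[[[[[[Int.negSucc (nat_lit 234810872920798637769)]]]]]]]],[[[[[[[[Int.ofNat (nat_lit 178894381941045433628)]]]]]]],[[[[[[[Int.ofNat (nat_lit 66375043786208297624)]]]]]]]]],[[[[[[[[[Int.ofNat (nat_lit 57384189908763455526)]]],[[[Int.negSucc (nat_lit 23308335737846960559)]]]]],[[[[[Int.negSucc (nat_lit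 109015610472442840107)]]]]]]],[[[[[[[Int.negSucc (nat_lit 101753177308895364541)]]]]]]]],[[[],[[[[[[Int.negSucc (nat_lit 112895187551645997907)]]]]]]]],[[[[[[[[Int.negSucc (nat_lit 54567527983363820311)]]]]]]]]],[[[[[[[[[Int.negSucc (nat_lit 51002524816654947267)]]]]]]],[[[[[[[Int.ofNat (nat_lit 113187259672578851318)]]]]]]]]],[[[[[[[[[Int.negSucc (nat_lit 69389901025778444887)]]]]]]]]]]

/-- A coefficient. -/
noncomputable def sr0_m0_3_5 : MP 10 :=
  [[[[[[[[[[Int.ofNat (nat_lit 0),Int.negSucc (nat_lit 252723180767603763871)]],[[Int.ofNat (nat_lit 157003752509002490550)]]]],[[[[Int.ofNat (nat_lit 236636231283889574934)]]]]]],[[[[[[Int.ofNat (nat_lit 337924710071472247474)]]]]]]],[[],[[[[[[Int.negSucc (nat_lit 182212936551920064495)]]]]]]]],[[[[[[[[Int.ofNat (nat_lit 77085016486657928846)]]]]],[[[[[Int.negSucc (nat_lit 391891241548664970425)]]]]]]]]]]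

/-- A coefficient. -/
noncomputable def sr0_m0_4_0 : MP 10 :=
  [[[[[[[[[[Int.negSucc (nat_lit 92532782643287069717)],[Int.negSucc (nat_lit 49586972976977549233)]]],[[[Int.ofNat (nat_lit 15205075258886451848)]]]]],[[[[[Int.ofNat (nat_lit 47396645283473882110)]]]]]],[[[],[[[[Int.negSucc (nat_lit 79065899879889645323)]]]]]],[[[[[[Int.ofNat (nat_lit 148324662288010514738)]]]]]]],[[[[[[[Int.ofNat (nat_lit 5563924581159976076)],[Int.negSucc (nat_lit 15371456503813011439)]]],[[[Int.negSucc (nat_lit 9089231857081084827)]]]]],[[[[[Int.negSucc (nat_lit 116371259613648424063)]]]]]],[[[],[[[[Int.ofNat (nat_lit 11410310486479378004)]]]]]],[[[[[[Int.negSucc (nat_lit 8805496932735642265)]]]]]]],[[[[[[[Int.ofNat (nat_lit 15402038361676752320)]]]]],[[[[[Int.ofNat (nat_lit 16815762145571619844)]]]]]]],[[[[[[[Int.negSucc (nat_lit 4242433923223764283)]]]]]]]],[[[[[[[],[[Int.negSucc (nat_lit 19073410075180613529)]]]],[[[[Int.ofNat (nat_lit 269092977133316195758)]]]]]],[[[[[[Int.negSucc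 (nat_lit 229203038792491933197)]]]]]]],[[[[[[],[[Int.negSucc (nat_lit 2252058827170153893)]]]],[[[[Int.negSucc (nat_lit 42930476651277052577)]]]]]],[[[[[[Int.ofNat (nat_lit 25953676011666361964)]]]]]]]],[[[[[[[[Int.ofNat (nat_lit 29329319349403965014)]]]]]]],[[[[[[[Int.ofNat (nat_lit 54965955128044806736)]]]]]]],[[[[[[[Int.negSucc (nat_lit 22262188852239440323)]]]]]]]]],[[[[[[[[[Int.negSucc (nat_lit 224054060825012950641)],[Int.ofNat (nat_lit 11900558440911618350)]]],[[[Int.ofNat (nat_lit 44786051667733386326)]]]]],[[[[[Int.ofNat (nat_lit 95744802519426435870)]]]]]],[[[],[[[[Int.negSucc (nat_lit 27968203860577616451)]]]]]],[[[[[[Int.ofNat (nat_lit 95781772750940469482)]]]]]]],[[[[[[[Int.negSucc (nat_lit 80356220839980284799)]]],[[[Int.negSucc (nat_lit 11687966495692436459)]]]]],[[[[[Int.negSucc (nat_lit 42959034617845753011)]]]]]]],[[[[[[[Int.ofNat (nat_lit 16726773250419274678)]]]]]]]],[[[[[[[],[[Int.ofNat (nat_lit 5028147434860143688)]]]],[[[[Int.ofNat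 (nat_lit 136363338447754946314)]]]]]],[[[[[[Int.negSucc (nat_lit 163708652816417545255)]]]]]]],[[],[[[[[[Int.ofNat (nat_lit 21923232073489411348)]]]]]]]],[[[[[[[[Int.ofNat (nat_lit 163629192892417887516)]]]]]]],[[[[[[[Int.ofNat (nat_lit 34212602761015612876)]]]]]]]]],[[[[[[[[[Int.negSucc (nat_lit 65953779580023506537)]]],[[[Int.ofNat (nat_lit 24670749842164505180)]]]]],[[[[[Int.ofNat (nat_lit 29058175649791843014)]]]]]]],[[[[[[[Int.negSucc (nat_lit 135780303046700975379)]]]]]]],[[[[[[[Int.negSucc (nat_lit 2801785407797432529)]]]]]]]],[[[],[[[[[[Int.negSucc (nat_lit 66405216469289889229)]]]]]]]],[[[[[[[[Int.ofNat (nat_lit 109161765984701697462)]]]]]]]]],[[[[[[[[[Int.ofNat (nat_lit 177198754654278276234)]]]]]]],[[[[[[[Int.negSucc (nat_lit 108831754106217197541)]]]]]]]]],[[[[[[[[[Int.ofNat (nat_lit 106130878480468849270)]]]]]]]]]]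

/-- A coefficient. -/
noncomputable def sr0_m0_4_1 : MP 10 :=
  [[[[[[[[[[Int.ofNat (nat_lit 0),Int.ofNat (nat_lit 80786974822368704510)]],[[Int.ofNat (nat_lit 62357487312333285044)]]]],[[[[Int.negSucc (nat_lit 452858843857822220663)]]]]]],[[[[[[Int.ofNat (nat_lit 644187899370966340148)]]]]]]],[[[[[[[Int.ofNat (nat_lit 0),Int.negSucc (nat_lit 9221395722233891183)]],[[Int.negSucc (nat_lit 11299292880670253545)]]]],[[[[Int.ofNat (nat_lit 69383047777152276000)]]]]]],[[[[[[Int.ofNat (nat_lit 27126580218042313208)]]]]]]],[[],[[[[[[Int.ofNat (nat_lit 21465937662996774080)]]]]]]]],[[[[[[[[Int.ofNat (nat_lit 518165725611157764)],[Int.ofNat (nat_lit 69591300378489307308)]]],[[[Int.negSucc (nat_lit 68786275713322912051)]]]]],[[[[[Int.ofNat (nat_lit 463549667025143003586)]]]]]],[[[],[[[[Int.negSucc (nat_lit 34918647912182716701)]]]]]],[[[[[[Int.ofNat (nat_lit 65155037169329841568)]]]]]]],[[[[[[[Int.negSucc (nat_lit 18611637373673537105)]]]]],[[[[[Int.negSucc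 (nat_lit 79754919770092226843)]]]]]]],[[[[[[[Int.negSucc (nat_lit 189337971471519392665)]]]]]]]],[[[[[[[],[[Int.negSucc (nat_lit 45015065322756282359)]]]],[[[[Int.ofNat (nat_lit 170290820947296049302)]]]]]],[[[[[[Int.ofNat (nat_lit 177562209341167961398)]]]]]]]],[[[[[[[[Int.negSucc (nat_lit 194391008632932056799)]]]]]]],[[[[[[[Int.negSucc (nat_lit 88123394618032431875)]]]]]]]]],[[[[[[[[[Int.ofNat (nat_lit 0),Int.ofNat (nat_lit 53456627733871720734)]],[[Int.negSucc (nat_lit 3643394341921504473)]]]],[[[[Int.negSucc (nat_lit 151300098568929537207)]]]]]],[[[[[[Int.ofNat (nat_lit 322610677327862214016)]]]]]]],[[],[[[[[[Int.ofNat (nat_lit 24119207807031282178)]]]]]]]],[[[[[[[[Int.ofNat (nat_lit 72624134873819073968)]]],[[[Int.negSucc (nat_lit 44845418907819210457)]]]]],[[[[[Int.ofNat (nat_lit 263268408171301086858)]]]]]]],[[[[[[[Int.ofNat (nat_lit 107273862962660330952)]]]]]]]],[[[],[[[[[[Int.ofNat (nat_lit 101453185113325828596)]]]]]]]],[[[[[[[[Int.negSucc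 (nat_lit 91397943796113523949)]]]]]]]]],[[],[[[[[[[[Int.negSucc (nat_lit 147121556316818852213)]]]]]]],[[[[[[[Int.ofNat (nat_lit 66320781648072190594)]]]]]]]]],[[],[[[[[[[[Int.negSucc (nat_lit 113688870834409870059)]]]]]]]]]]

/-- A coefficient. -/
noncomputable def sr0_m0_4_2 : MP 10 :=
  [[[[[[[[[[Int.ofNat (nat_lit 21873527094924889402)],[Int.negSucc (nat_lit 4320955892737662993)]]],[[[Int.negSucc (nat_lit 87183888468116228375)]]]]],[[[[[Int.ofNat (nat_lit 24754842689047986862)]]]]]],[[[],[[[[Int.ofNat (nat_lit 104846423471940371126)]]]]]],[[[[[[Int.negSucc (nat_lit 160164750081959472227)]]]]]]],[[[[[[[Int.ofNat (nat_lit 165135798790258649034)]]]]],[[[[[Int.ofNat (nat_lit 173947451021350165772)]]]]]]],[[[[[[[Int.negSucc (nat_lit 165707983415476526347)]]]]]]]],[[[[[[[[Int.ofNat (nat_lit 0),Int.ofNat (nat_lit 209192518770278589664)]],[[Int.ofNat (nat_lit 92257519932929601214)]]]],[[[[Int.negSucc (nat_lit 322566183057649574939)]]]]]],[[[[[[Int.negSucc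 (nat_lit 57961346523440328265)]]]]]]],[[],[[[[[[Int.ofNat (nat_lit 22058883191442239944)]]]]]]]],[[[[[[[[Int.negSucc (nat_lit 255400529282526730923)]]]]],[[[[[Int.ofNat (nat_lit 180561742025285787470)]]]]]]],[[[[[[[Int.negSucc (nat_lit 96196135468833095589)]]]]]]]]],[[[[[[[[[Int.negSucc (nat_lit 35318811649679372235)]]],[[[Int.negSucc (nat_lit 34569982068558613759)]]]]],[[[[[Int.negSucc (nat_lit 58797132069521455827)]]]]]]],[[[[[[[Int.ofNat (nat_lit 240425058929304802078)]]]]]]]],[[[],[[[[[[Int.ofNat (nat_lit 122578796218124987766)]]]]]]]],[[[[[[[[Int.ofNat (nat_lit 86110912739963771232)]]]]]]]]],[[[[[[[[[Int.ofNat (nat_lit 16777657420238920646)]]]]]]],[[[[[[[Int.negSucc (nat_lit 40671942769949927931)]]]]]]]]],[[[[[[[[[Int.ofNat (nat_lit 55556977487780480960)]]]]]]]]]]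

/-- A coefficient. -/
noncomputable def sr0_m0_4_3 : MP 10 :=
  [[[[[[[[[[Int.ofNat (nat_lit 0),Int.negSucc (nat_lit 75255863213303450293)]],[[Int.ofNat (nat_lit 39277937454075811672)]]]],[[[[Int.ofNat (nat_lit 113249328906080019178)]]]]]],[[[[[[Int.ofNat (nat_lit 143547786948786307632)]]]]]]],[[],[[[[[[Int.ofNat (nat_lit 80549727191691154454)]]]]]]]],[[[[[[[[Int.negSucc (nat_lit 551484853100854511055)]]]]],[[[[[Int.negSucc (nat_lit 183006022268366870953)]]]]]]]]]]

/-- A coefficient. -/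
noncomputable def sr0_m0_5_0 : MP 10 :=
  [[[[[[[[[[Int.ofNat (nat_lit 23569529291966157172)],[Int.ofNat (nat_lit 62226021027261076446)]]],[[[Int.negSucc (nat_lit 9625296074825247739)]]]]],[[[[[Int.ofNat (nat_lit 46440094321236097302)]]]]]],[[[],[[[[Int.negSucc (nat_lit 39345219214528299113)]]]]]],[[[[[[Int.negSucc (nat_lit 97353678734224641921)]]]]]]],[[[[[[[Int.ofNat (nat_lit 15591813072213649254)]]]]],[[[[[Int.negSucc (nat_lit 15008081545225225901)]]]]]]],[[[[[[[Int.negSucc (nat_lit 43136376265456864159)]]]]]]]],[[[[[[[],[[Int.ofNat (nat_lit 711747730061740908)]]]],[[[[Int.negSucc (nat_lit 32357000985376235393)]]]]]],[[[[[[Int.ofNat (nat_lit 33725977928862789306)]]]]]]]],[[[[[[[[Int.negSucc (nat_lit 49760261642256079889)]]]]]]],[[[[[[[Int.negSucc (nat_lit 44533121821697913207)]]]]]]]]],[[[[[[[[[Int.negSucc (nat_lit 60001657226126217749)],[Int.ofNat (nat_lit 1775967617560299292)]]],[[[Int.negSucc (nat_lit 16324877625786148013)]]]]],[[[[[Int.ofNat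 (nat_lit 19324319181995867458)]]]]]],[[[],[[[[Int.negSucc (nat_lit 41349227898367619751)]]]]]],[[[[[[Int.negSucc (nat_lit 62750215082104387505)]]]]]]],[[[[[[[Int.negSucc (nat_lit 38479307151124151661)]]]]],[[[[[Int.negSucc (nat_lit 37650743507577611859)]]]]]]],[[[[[[[Int.ofNat (nat_lit 59211831881856000004)]]]]]]]],[[[[[[[],[[Int.negSucc (nat_lit 9799204262334966241)]]]],[[[[Int.ofNat (nat_lit 7169244781779609004)]]]]]],[[[[[[Int.negSucc (nat_lit 7604272000553887113)]]]]]]]],[[[[[[[[Int.negSucc (nat_lit 115540380401316474651)]]]]]]],[[[[[[[Int.negSucc (nat_lit 11394724918928474461)]]]]]]]]],[[[[[[[[[Int.negSucc (nat_lit 373406347815606526631)]]],[[[Int.negSucc (nat_lit 8809840333431619927)]]]]],[[[[[Int.ofNat (nat_lit 26218651834737000970)]]]]]]],[[[[[[[Int.ofNat (nat_lit 29579570078757950468)]]]]]]]],[[[],[[[[[[Int.ofNat (nat_lit 10192673419525635016)]]]]]]]],[[[[[[[[Int.negSucc (nat_lit 51358337071581269841)]]]]]]]]],[[[[[[[[[Int.negSucc (nat_lit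 418958947654714055717)]]]]]]],[[[[[[[Int.ofNat (nat_lit 45094168927708027682)]]]]]]]]],[[[[[[[[[Int.negSucc (nat_lit 131926156696533117993)]]]]]]]]]]

/-- A coefficient. -/
noncomputable def sr0_m0_5_1 : MP 10 :=
  [[[[[[[[[[Int.ofNat (nat_lit 0),Int.negSucc (nat_lit 55931736543841007229)]],[[Int.negSucc (nat_lit 13525514067625640993)]]]],[[[[Int.negSucc (nat_lit 2364555242799012183)]]]]]],[[[[[[Int.negSucc (nat_lit 371502725242377497427)]]]]]]],[[],[[[[[[Int.negSucc (nat_lit 51591970309489160705)]]]]]]]],[[[[[[[[Int.negSucc (nat_lit 116410783771267568525)]]]]],[[[[[Int.negSucc (nat_lit 120933565626812147229)]]]]]]]]],[[[[[[[[[Int.ofNat (nat_lit 0),Int.negSucc (nat_lit 80997033829289463805)]],[[Int.ofNat (nat_lit 1899644194066415514)]]]],[[[[Int.negSucc (nat_lit 124768262863765608723)]]]]]],[[[[[[Int.ofNat (nat_lit 2714570303370272300)]]]]]]],[[],[[[[[[Int.negSucc (nat_lit 49317893634290385299)]]]]]]]],[[[[[[[[Int.negSucc (nat_lit 252133643474015801823)]]]]],[[[[[Int.negSucc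 (nat_lit 44215069254195053995)]]]]]]]]]]

/-- A coefficient. -/
noncomputable def sr0_m0_5_2 : MP 10 :=
  [[[[[[[[[[Int.negSucc (nat_lit 84740534020060556723)],[Int.ofNat (nat_lit 739115616200084958)]]],[[[Int.ofNat (nat_lit 71323341442638676608)]]]]],[[[[[Int.negSucc (nat_lit 243665116642017720335)]]]]]],[[[],[[[[Int.ofNat (nat_lit 116725275297691065528)]]]]]],[[[[[[Int.negSucc (nat_lit 47032765293979745407)]]]]]]],[[[[[[[Int.negSucc (nat_lit 9031017048914293781)]]]]],[[[[[Int.ofNat (nat_lit 102421614115456818736)]]]]]]],[[[[[[[Int.ofNat (nat_lit 208049426586143222792)]]]]]]]],[[[[[[[],[[Int.negSucc (nat_lit 19087967890361662983)]]]],[[[[Int.negSucc (nat_lit 103349309035862369387)]]]]]],[[[[[[Int.negSucc (nat_lit 196495581446157080921)]]]]]]]],[[[[[[[[Int.ofNat (nat_lit 184269508052795497780)]]]]]]],[[[[[[[Int.ofNat (nat_lit 117583833269516119602)]]]]]]]]],[[[[[[[[[Int.negSucc (nat_lit 80106186849206860385)]]],[[[Int.ofNat (nat_lit 20274681735297758788)]]]]],[[[[[Int.negSucc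 (nat_lit 220681222336284432287)]]]]]]],[[[[[[[Int.ofNat (nat_lit 74533403226155144636)]]]]]]]],[[[],[[[[[[Int.negSucc (nat_lit 92100546307807770403)]]]]]]]],[[[[[[[[Int.ofNat (nat_lit 52164074110859351642)]]]]]]]]],[[[[[[[[[Int.ofNat (nat_lit 120030817043268703926)]]]]]]],[[[[[[[Int.ofNat (nat_lit 47237750687894744106)]]]]]]]]],[[[[[[[[[Int.ofNat (nat_lit 118532668343578121990)]]]]]]]]]]

/-- A coefficient. -/
noncomputable def sr0_m0_5_3 : MP 10 :=
  [[[[[[[[[[Int.ofNat (nat_lit 0),Int.negSucc (nat_lit 159494949636566613501)]],[[Int.ofNat (nat_lit 98659465754180735966)]]]],[[[[Int.ofNat (nat_lit 285898977722715582052)]]]]]],[[[[[[Int.ofNat (nat_lit 211444252411408997668)]]]]]]],[[],[[[[[[Int.negSucc (nat_lit 157214664682618966419)]]]]]]]],[[[[[[[[Int.ofNat (nat_lit 407664762144262812252)]]]]],[[[[[Int.negSucc (nat_lit 131771137935384569203)]]]]]]]]]]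

/-- A coefficient. -/
noncomputable def sr0_m0_6_0 : MP 10 :=
  [[[[[[[[[[Int.negSucc (nat_lit 17787908371505064381)],[Int.negSucc (nat_lit 28138936056874348045)]]],[[[Int.negSucc (nat_lit 7271328298615907763)]]]]],[[[[[Int.negSucc (nat_lit 72479871214205013449)]]]]]],[[[],[[[[Int.ofNat (nat_lit 60283627016532685992)]]]]]],[[[[[[Int.negSucc (nat_lit 43596509529325692119)]]]]]]],[[[[[[[Int.ofNat (nat_lit 126028479945140074070)]]]]],[[[[[Int.ofNat (nat_lit 85912568886987291568)]]]]]]],[[[[[[[Int.negSucc (nat_lit 78202682631973208207)]]]]]]]],[[[[[[[],[[Int.ofNat (nat_lit 20339002538613409058)]]]],[[[[Int.negSucc (nat_lit 154459142661093646133)]]]]]],[[[[[[Int.ofNat (nat_lit 109066724519082186128)]]]]]]]],[[[[[[[[Int.ofNat (nat_lit 69400542534373822)]]]]]]],[[[[[[[Int.negSucc (nat_lit 27255077127625330037)]]]]]]]]],[[[[[[[[[Int.ofNat (nat_lit 11205798122272609496)]]],[[[Int.negSucc (nat_lit 6619377529435079067)]]]]],[[[[[Int.negSucc (nat_lit 84061869068855802917)]]]]]]],[[[[[[[Int.ofNat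 (nat_lit 135562179900628640986)]]]]]]]],[[[],[[[[[[Int.ofNat (nat_lit 57085430042565099262)]]]]]]]],[[[[[[[[Int.negSucc (nat_lit 33184651140770614095)]]]]]]]]],[[[[[[[[[Int.ofNat (nat_lit 61821652707412035056)]]]]]]],[[[[[[[Int.ofNat (nat_lit 11301092452922951786)]]]]]]]]],[[[[[[[[[Int.ofNat (nat_lit 32734368217551731762)]]]]]]]]]]

/-- A coefficient. -/
noncomputable def sr0_m0_6_1 : MP 10 :=
  [[[[[[[[[[Int.ofNat (nat_lit 0),Int.negSucc (nat_lit 6250957705504991421)]],[[Int.negSucc (nat_lit 31505665485729241627)]]]],[[[[Int.ofNat (nat_lit 274725447505493428102)]]]]]],[[[[[[Int.negSucc (nat_lit 253297162893442713225)]]]]]]],[[],[[[[[[Int.ofNat (nat_lit 6732983518066422424)]]]]]]]],[[[[[[[[Int.ofNat (nat_lit 62350579105358900268)]]]]],[[[[[Int.negSucc (nat_lit 141554630382585090763)]]]]]]]]]]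

/-- A coefficient. -/
noncomputable def sr0_m0_7_0 : MP 10 :=
  [[[[[[[[[[Int.ofNat (nat_lit 10447208972403952812)],[Int.ofNat (nat_lit 29304982081368686)]]],[[[Int.negSucc (nat_lit 469010906857727415)]]]]],[[[[[Int.ofNat (nat_lit 11327803940568629896)]]]]]],[[[],[[[[Int.ofNat (nat_lit 1398985648265379366)]]]]]],[[[[[[Int.ofNat (nat_lit 40217218009545068630)]]]]]]],[[[[[[[Int.negSucc (nat_lit 43573840415088675403)]]]]],[[[[[Int.negSucc (nat_lit 11655485762048904697)]]]]]]],[[[[[[[Int.ofNat (nat_lit 20210805804856893652)]]]]]]]],[[[[[[[],[[Int.negSucc (nat_lit 12072907194002767771)]]]],[[[[Int.ofNat (nat_lit 65400830513563759024)]]]]]],[[[[[[Int.negSucc (nat_lit 24979609290605300439)]]]]]]]],[[[[[[[[Int.ofNat (nat_lit 10191156750314885714)]]]]]]],[[[[[[[Int.ofNat (nat_lit 11115260658382978582)]]]]]]]]],[[[[[[[[[Int.ofNat (nat_lit 46269961163352965954)]]],[[[Int.negSucc (nat_lit 741013189821911087)]]]]],[[[[[Int.ofNat (nat_lit 45923251285955855912)]]]]]]],[[[[[[[Int.negSucc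 (nat_lit 54702235130995717165)]]]]]]]],[[[],[[[[[[Int.negSucc (nat_lit 28533528384898523671)]]]]]]]],[[[[[[[[Int.ofNat (nat_lit 52038372083150665214)]]]]]]]]],[[[[[[[[[Int.ofNat (nat_lit 82930509891667572656)]]]]]]],[[[[[[[Int.negSucc (nat_lit 33405183681891437561)]]]]]]]]],[[[[[[[[[Int.ofNat (nat_lit 44614276125398239862)]]]]]]]]]]

/-- A coefficient. -/
noncomputable def sr0_m0_7_1 : MP 10 :=
  [[[[[[[[[[Int.ofNat (nat_lit 0),Int.ofNat (nat_lit 24653451271003431814)]],[[Int.ofNat (nat_lit 23009501062209101174)]]]],[[[[Int.negSucc (nat_lit 76410721263336526701)]]]]]],[[[[[[Int.ofNat (nat_lit 171924990998094273660)]]]]]]],[[],[[[[[[Int.ofNat (nat_lit 24291989549900611190)]]]]]]]],[[[[[[[[Int.ofNat (nat_lit 10846884907040297444)]]]]],[[[[[Int.ofNat (nat_lit 64077499525589321018)]]]]]]]]]]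

/-- An expanded part. -/
noncomputable def sr0_m0 : R12 :=
  [[sr0_m0_0_0, sr0_m0_0_1, sr0_m0_0_2, sr0_m0_0_3, sr0_m0_0_4, sr0_m0_0_5, sr0_m0_0_6, sr0_m0_0_7],
   [sr0_m0_1_0, sr0_m0_1_1, sr0_m0_1_2, sr0_m0_1_3, sr0_m0_1_4, sr0_m0_1_5, sr0_m0_1_6, sr0_m0_1_7],
   [sr0_m0_2_0, sr0_m0_2_1, sr0_m0_2_2, sr0_m0_2_3, sr0_m0_2_4, sr0_m0_2_5],
   [sr0_m0_3_0, sr0_m0_3_1, sr0_m0_3_2, sr0_m0_3_3, sr0_m0_3_4, sr0_m0_3_5],
   [sr0_m0_4_0, sr0_m0_4_1, sr0_m0_4_2, sr0_m0_4_3],
   [sr0_m0_5_0, sr0_m0_5_1, sr0_m0_5_2, sr0_m0_5_3],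
   [sr0_m0_6_0, sr0_m0_6_1],
   [sr0_m0_7_0, sr0_m0_7_1]]

set_option maxRecDepth 100000 in
theorem sr0_check0 : partOk 0 sr0_rows 0 sr0_m0 = true :=
  Fast.partOk_of_fast (by decide +kernel)

end Vale.Agent.P142K.CertB
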