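import Vale.Agent.P142K.Checker

/-!
# A factor of the certificate

Generated from a semidefinite program; only the checker is trusted.
-/

namespace Vale.Agent.P142K.CertB

open Vale.Agent.P142J (MP)

/-- A row. -/
noncomputable def sr0_c0_0 : List ℕ × List ℤ :=
  ([(nat_lit 0),(nat_lit 0),(nat_lit 0),(nat_lit 0),(nat_lit 0),(nat_lit 0),(nat_lit 0),(nat_lit 0),(nat_lit 0),(nat_lit 0),(nat_lit 0),(nat_lit 0)], [Int.ofNat (nat_lit 4255134517)])

/-- A row. -/
noncomputable def sr0_c0_1 : List ℕ × List ℤ :=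
  ([(nat_lit 0),(nat_lit 0),(nat_lit 0),(nat_lit 0),(nat_lit 0),(nat_lit 0),(nat_lit 0),(nat_lit 0),(nat_lit 0),(nat_lit 0),(nat_lit 1),(nat_lit 0)], [Int.ofNat (nat_lit 2849164636),Int.ofNat (nat_lit 6203280265)])

/-- A row. -/
noncomputable def sr0_c0_2 : List ℕ × List ℤ :=
  ([(nat_lit 0),(nat_lit 0),(nat_lit 0),(nat_lit 0),(nat_lit 0),(nat_lit 0),(nat_lit 0),(nat_lit 0),(nat_lit 1),(nat_lit 0),(nat_lit 0),(nat_lit 0)], [Int.negSucc (nat_lit 405780703),Int.ofNat (nat_lit 225419418),Int.ofNat (nat_lit 2148657490)])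

/-- A row. -/
noncomputable def sr0_c0_3 : List ℕ × List ℤ :=
  ([(nat_lit 0),(nat_lit 0),(nat_lit 0),(nat_lit 0),(nat_lit 0),(nat_lit 0),(nat_lit 1),(nat_lit 0),(nat_lit 0),(nat_lit 0),(nat_lit 0),(nat_lit 0)], [Int.ofNat (nat_lit 2987515320),Int.negSucc (nat_lit 2128779146),Int.negSucc (nat_lit 1990461633),Int.ofNat (nat_lit 3001816719)])

/-- A row. -/
noncomputable def sr0_c0_4 : List ℕ × List ℤ :=
  ([(nat_lit 0),(nat_lit 0),(nat_lit 0),(nat_lit 0),(nat_lit 0),(nat_lit 1),(nat_lit 0),(nat_lit 1),(nat_lit 0),(nat_lit 0),(nat_lit 0),(nat_lit 0)], [Int.negSucc (nat_lit 1116318097),Int.negSucc (nat_lit 98448968),Int.negSucc (nat_lit 486716970),Int.negSucc (nat_lit 892237733),Int.ofNat (nat_lit 1866098449)])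

/-- A row. -/
noncomputable def sr0_c0_5 : List ℕ × List ℤ :=
  ([(nat_lit 0),(nat_lit 0),(nat_lit 0),(nat_lit 0),(nat_lit 0),(nat_lit 2),(nat_lit 0),(nat_lit 0),(nat_lit 0),(nat_lit 0),(nat_lit 0),(nat_lit 0)], [Int.negSucc (nat_lit 376405953),Int.negSucc (nat_lit 782412496),Int.ofNat (nat_lit 1079266196),Int.negSucc (nat_lit 24147696),Int.negSucc (nat_lit 1426409908),Int.ofNat (nat_lit 3285654654)])

/-- A row. -/
noncomputable def sr0_c0_6 : List ℕ × List ℤ :=
  ([(nat_lit 0),(nat_lit 0),(nat_lit 0),(nat_lit 0),(nat_lit 1),(nat_lit 0),(nat_lit 0),(nat_lit 0),(nat_lit 0),(nat_lit 0),(nat_lit 0),(nat_lit 0)], [Int.negSucc (nat_lit 6681970280),Int.negSucc (nat_lit 1452638456),Int.negSucc (nat_lit 2552733355),Int.ofNat (nat_lit 91646370),Int.ofNat (nat_lit 2423015481),Int.ofNat (nat_lit 1154480380),Int.ofNat (nat_lit 3844511848)])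

/-- A row. -/
noncomputable def sr0_c0_7 : List ℕ × List ℤ :=
  ([(nat_lit 0),(nat_lit 0),(nat_lit 0),(nat_lit 0),(nat_lit 1),(nat_lit 0),(nat_lit 1),(nat_lit 0),(nat_lit 0),(nat_lit 0),(nat_lit 0),(nat_lit 0)], [Int.negSucc (nat_lit 1258229641),Int.ofNat (nat_lit 15438658),Int.negSucc (nat_lit 1379347372),Int.negSucc (nat_lit 1022834758),Int.ofNat (nat_lit 1914419908),Int.negSucc (nat_lit 400853667),Int.ofNat (nat_lit 488872859),Int.ofNat (nat_lit 1049660266)])

/-- A row. -/
noncomputable def sr0_c0_8 : List ℕ × List ℤ :=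
  ([(nat_lit 0),(nat_lit 0),(nat_lit 0),(nat_lit 0),(nat_lit 2),(nat_lit 0),(nat_lit 0),(nat_lit 0),(nat_lit 0),(nat_lit 0),(nat_lit 0),(nat_lit 0)], [Int.ofNat (nat_lit 2086215202),Int.ofNat (nat_lit 1155966197),Int.ofNat (nat_lit 3222074512),Int.negSucc (nat_lit 189541913),Int.negSucc (nat_lit 1800075795),Int.negSucc (nat_lit 1783399056),Int.negSucc (nat_lit 3411485814),Int.negSucc (nat_lit 105077844),Int.ofNat (nat_lit 2059746532)])

/-- A row. -/
noncomputable def sr0_c0_9 : List ℕ × List ℤ :=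
  ([(nat_lit 0),(nat_lit 0),(nat_lit 0),(nat_lit 1),(nat_lit 0),(nat_lit 0),(nat_lit 0),(nat_lit 0),(nat_lit 0),(nat_lit 1),(nat_lit 0),(nat_lit 0)], [Int.negSucc (nat_lit 410580699),Int.ofNat (nat_lit 166044795),Int.ofNat (nat_lit 980494116),Int.negSucc (nat_lit 133273888),Int.negSucc (nat_lit 305851459),Int.ofNat (nat_lit 6223216),Int.ofNat (nat_lit 221205770),Int.ofNat (nat_lit 43421705),Int.negSucc (nat_lit 225351296),Int.ofNat (nat_lit 1213873496)])

/-- A row. -/
noncomputable def sr0_c0_10 : List ℕ × List ℤ :=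
  ([(nat_lit 0),(nat_lit 0),(nat_lit 0),(nat_lit 1),(nat_lit 0),(nat_lit 0),(nat_lit 0),(nat_lit 1),(nat_lit 0),(nat_lit 0),(nat_lit 0),(nat_lit 0)], [Int.ofNat (nat_lit 2193420741),Int.ofNat (nat_lit 3869942175),Int.negSucc (nat_lit 2008941028),Int.ofNat (nat_lit 1496707428),Int.negSucc (nat_lit 1851660432),Int.ofNat (nat_lit 1077941357),Int.negSucc (nat_lit 1333040640),Int.negSucc (nat_lit 7964616),Int.negSucc (nat_lit 768962528),Int.negSucc (nat_lit 1895427950),Int.ofNat (nat_lit 3414466450)])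

/-- A row. -/
noncomputable def sr0_c0_11 : List ℕ × List ℤ :=
  ([(nat_lit 0),(nat_lit 0),(nat_lit 0),(nat_lit 1),(nat_lit 0),(nat_lit 1),(nat_lit 0),(nat_lit 0),(nat_lit 0),(nat_lit 0),(nat_lit 0),(nat_lit 0)], [Int.ofNat (nat_lit 264149917),Int.ofNat (nat_lit 1194760795),Int.negSucc (nat_lit 1155896903),Int.negSucc (nat_lit 323968074),Int.ofNat (nat_lit 1859580316),Int.ofNat (nat_lit 9643450),Int.ofNat (nat_lit 2864623123),Int.negSucc (nat_lit 24210622),Int.ofNat (nat_lit 452927924),Int.ofNat (nat_lit 1235695435),Int.negSucc (nat_lit 1144057449),Int.ofNat (nat_lit 5084820835)])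

/-- A row. -/
noncomputable def sr0_c0_12 : List ℕ × List ℤ :=
  ([(nat_lit 0),(nat_lit 0),(nat_lit 0),(nat_lit 2),(nat_lit 0),(nat_lit 0),(nat_lit 0),(nat_lit 0),(nat_lit 0),(nat_lit 0),(nat_lit 0),(nat_lit 0)], [Int.negSucc (nat_lit 925580282),Int.ofNat (nat_lit 1317892238),Int.negSucc (nat_lit 1040789140),Int.ofNat (nat_lit 400952919),Int.ofNat (nat_lit 623949134),Int.negSucc (nat_lit 1421225322),Int.negSucc (nat_lit 2007404528),Int.ofNat (nat_lit 157625103),Int.negSucc (nat_lit 115724136),Int.ofNat (nat_lit 535108248),Int.ofNat (nat_lit 834314349),Int.negSucc (nat_lit 1676841651),Int.ofNat (nat_lit 3709783748)])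

/-- A row. -/
noncomputable def sr0_c0_13 : List ℕ × List ℤ :=
  ([(nat_lit 0),(nat_lit 0),(nat_lit 0),(nat_lit 2),(nat_lit 1),(nat_lit 0),(nat_lit 0),(nat_lit 0),(nat_lit 0),(nat_lit 0),(nat_lit 0),(nat_lit 0)], [Int.negSucc (nat_lit 386610148),Int.ofNat (nat_lit 503574399),Int.ofNat (nat_lit 2244734857),Int.negSucc (nat_lit 853545267),Int.negSucc (nat_lit 685515311),Int.negSucc (nat_lit 157866621),Int.negSucc (nat_lit 784261419),Int.negSucc (nat_lit 260235628),Int.ofNat (nat_lit 593108411),Int.negSucc (nat_lit 345842924),Int.negSucc (nat_lit 435747388),Int.negSucc (nat_lit 724983137),Int.negSucc (nat_lit 1156168042),Int.ofNat (nat_lit 2094145838)])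

/-- A row. -/
noncomputable def sr0_c0_14 : List ℕ × List ℤ :=
  ([(nat_lit 0),(nat_lit 0),(nat_lit 1),(nat_lit 0),(nat_lit 0),(nat_lit 0),(nat_lit 0),(nat_lit 0),(nat_lit 0),(nat_lit 0),(nat_lit 0),(nat_lit 0)], [Int.ofNat (nat_lit 6502837295),Int.negSucc (nat_lit 1632737456),Int.ofNat (nat_lit 2536659952),Int.negSucc (nat_lit 835391432),Int.ofNat (nat_lit 514049966),Int.ofNat (nat_lit 1152732428),Int.ofNat (nat_lit 1716797700),Int.negSucc (nat_lit 627864561),Int.ofNat (nat_lit 763454551),Int.ofNat (nat_lit 701203480),Int.negSucc (nat_lit 585294742),Int.ofNat (nat_lit 553111338),Int.ofNat (nat_lit 694296591),Int.negSucc (nat_lit 186279776),Int.ofNat (nat_lit 2272192839)])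

/-- A row. -/
noncomputable def sr0_c0_15 : List ℕ × List ℤ :=
  ([(nat_lit 0),(nat_lit 0),(nat_lit 1),(nat_lit 0),(nat_lit 0),(nat_lit 0),(nat_lit 0),(nat_lit 0),(nat_lit 1),(nat_lit 0),(nat_lit 0),(nat_lit 0)], [Int.negSucc (nat_lit 424537285),Int.ofNat (nat_lit 219005232),Int.ofNat (nat_lit 1100310406),Int.ofNat (nat_lit 34463571),Int.negSucc (nat_lit 376293820),Int.negSucc (nat_lit 5363780),Int.negSucc (nat_lit 12884010),Int.ofNat (nat_lit 21484724),Int.negSucc (nat_lit 208882229),Int.ofNat (nat_lit 184427542),Int.ofNat (nat_lit 355246747),Int.negSucc (nat_lit 72637534),Int.negSucc (nat_lit 28992247),Int.ofNat (nat_lit 144766587),Int.negSucc (nat_lit 53199572),Int.ofNat (nat_lit 545608806)])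

/-- A row. -/
noncomputable def sr0_c0_16 : List ℕ × List ℤ :=
  ([(nat_lit 0),(nat_lit 0),(nat_lit 1),(nat_lit 0),(nat_lit 0),(nat_lit 0),(nat_lit 1),(nat_lit 0),(nat_lit 0),(nat_lit 0),(nat_lit 0),(nat_lit 0)], [Int.ofNat (nat_lit 2301107796),Int.negSucc (nat_lit 3825010988),Int.negSucc (nat_lit 1081786067),Int.ofNat (nat_lit 2889563061),Int.negSucc (nat_lit 69119595),Int.ofNat (nat_lit 1074669496),Int.ofNat (nat_lit 69682498),Int.negSucc (nat_lit 402851719),Int.ofNat (nat_lit 357220716),Int.ofNat (nat_lit 78876784),Int.negSucc (nat_lit 388979371),Int.ofNat (nat_lit 500792330),Int.ofNat (nat_lit 8633817),Int.negSucc (nat_lit 152109800),Int.ofNat (nat_lit 588065307),Int.negSucc (nat_lit 614935377),Int.ofNat (nat_lit 1444392719)])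

/-- A row. -/
noncomputable def sr0_c0_17 : List ℕ × List ℤ :=
  ([(nat_lit 0),(nat_lit 0),(nat_lit 1),(nat_lit 0),(nat_lit 1),(nat_lit 0),(nat_lit 0),(nat_lit 0),(nat_lit 0),(nat_lit 0),(nat_lit 0),(nat_lit 0)], [Int.negSucc (nat_lit 5441676221),Int.ofNat (nat_lit 713757533),Int.negSucc (nat_lit 4042514918),Int.negSucc (nat_lit 110411608),Int.ofNat (nat_lit 2525608822),Int.ofNat (nat_lit 799080093),Int.ofNat (nat_lit 3388954703),Int.ofNat (nat_lit 528044341),Int.ofNat (nat_lit 1244695251),Int.negSucc (nat_lit 324083103),Int.ofNat (nat_lit 703500057),Int.negSucc (nat_lit 212884955),Int.negSucc (nat_lit 695961091),Int.ofNat (nat_lit 363452594),Int.negSucc (nat_lit 1362062194),Int.ofNat (nat_lit 436318398),Int.ofNat (nat_lit 605727952),Int.ofNat (nat_lit 1879985899)])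

/-- A row. -/
noncomputable def sr0_c0_18 : List ℕ × List ℤ :=
  ([(nat_lit 0),(nat_lit 0),(nat_lit 1),(nat_lit 1),(nat_lit 0),(nat_lit 1),(nat_lit 0),(nat_lit 0),(nat_lit 0),(nat_lit 0),(nat_lit 0),(nat_lit 0)], [Int.negSucc (nat_lit 571022453),Int.negSucc (nat_lit 405428596),Int.negSucc (nat_lit 1653767969),Int.ofNat (nat_lit 272485564),Int.ofNat (nat_lit 136139873),Int.negSucc (nat_lit 213647679),Int.ofNat (nat_lit 580180722),Int.ofNat (nat_lit 1525592018),Int.negSucc (nat_lit 250999701),Int.ofNat (nat_lit 906565738),Int.ofNat (nat_lit 1731983152),Int.ofNat (nat_lit 1112113812),Int.ofNat (nat_lit 166377462),Int.negSucc (nat_lit 1826321378),Int.negSucc (nat_lit 718441715),Int.ofNat (nat_lit 42502099),Int.negSucc (nat_lit 74202860),Int.ofNat (nat_lit 301400140),Int.ofNat (nat_lit 2275115169)])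

/-- A row. -/
noncomputable def sr0_c0_19 : List ℕ × List ℤ :=
  ([(nat_lit 0),(nat_lit 0),(nat_lit 1),(nat_lit 2),(nat_lit 0),(nat_lit 0),(nat_lit 0),(nat_lit 0),(nat_lit 0),(nat_lit 0),(nat_lit 0),(nat_lit 0)], [Int.negSucc (nat_lit 1235490228),Int.ofNat (nat_lit 1125630105),Int.negSucc (nat_lit 1721956543),Int.ofNat (nat_lit 486367726),Int.ofNat (nat_lit 494474467),Int.ofNat (nat_lit 443515800),Int.negSucc (nat_lit 921089048),Int.negSucc (nat_lit 928634180),Int.negSucc (nat_lit 415494942),Int.ofNat (nat_lit 651230149),Int.negSucc (nat_lit 56018793),Int.ofNat (nat_lit 403496997),Int.ofNat (nat_lit 3058955697),Int.ofNat (nat_lit 1068559647),Int.ofNat (nat_lit 494365009),Int.ofNat (nat_lit 52988565),Int.ofNat (nat_lit 45211286),Int.negSucc (nat_lit 159876103),Int.negSucc (nat_lit 1841748091),Int.ofNat (nat_lit 2187341148)])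

/-- A row. -/
noncomputable def sr0_c0_20 : List ℕ × List ℤ :=
  ([(nat_lit 0),(nat_lit 0),(nat_lit 2),(nat_lit 0),(nat_lit 0),(nat_lit 0),(nat_lit 0),(nat_lit 0),(nat_lit 0),(nat_lit 0),(nat_lit 0),(nat_lit 0)], [Int.ofNat (nat_lit 758404177),Int.negSucc (nat_lit 648682695),Int.ofNat (nat_lit 2245918210),Int.negSucc (nat_lit 685884108),Int.ofNat (nat_lit 718882361),Int.ofNat (nat_lit 1901388954),Int.ofNat (nat_lit 2425659946),Int.negSucc (nat_lit 426571094),Int.ofNat (nat_lit 1209594005),Int.ofNat (nat_lit 2282335580),Int.negSucc (nat_lit 61021179),Int.ofNat (nat_lit 617960832),Int.ofNat (nat_lit 1753821961),Int.negSucc (nat_lit 66927653),Int.ofNat (nat_lit 4659613272),Int.ofNat (nat_lit 1380365448),Int.negSucc (nat_lit 165361230),Int.ofNat (nat_lit 1070576027),Int.negSucc (nat_lit 475029482),Int.ofNat (nat_lit 528905361),Int.ofNat (nat_lit 1941649631)])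

/-- A row. -/
noncomputable def sr0_c0_21 : List ℕ × List ℤ :=
  ([(nat_lit 0),(nat_lit 0),(nat_lit 2),(nat_lit 0),(nat_lit 1),(nat_lit 0),(nat_lit 0),(nat_lit 0),(nat_lit 0),(nat_lit 0),(nat_lit 0),(nat_lit 0)], [Int.ofNat (nat_lit 241301264),Int.negSucc (nat_lit 46433063),Int.negSucc (nat_lit 332350685),Int.negSucc (nat_lit 143067002),Int.ofNat (nat_lit 439665445),Int.negSucc (nat_lit 49679899),Int.ofNat (nat_lit 227742092),Int.ofNat (nat_lit 229100521),Int.ofNat (nat_lit 651181470),Int.negSucc (nat_lit 1034196427),Int.ofNat (nat_lit 156927566),Int.negSucc (nat_lit 394947690),Int.negSucc (nat_lit 940231409),Int.negSucc (nat_lit 45274099),Int.negSucc (nat_lit 1209188447),Int.negSucc (nat_lit 168268130),Int.ofNat (nat_lit 425579005),Int.ofNat (nat_lit 951765215),Int.ofNat (nat_lit 572762733),Int.negSucc (nat_lit 197793640),Int.negSucc (nat_lit 836968489),Int.ofNat (nat_lit 1106272948)])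

/-- A row. -/
noncomputable def sr0_c0_22 : List ℕ × List ℤ :=
  ([(nat_lit 0),(nat_lit 0),(nat_lit 3),(nat_lit 0),(nat_lit 0),(nat_lit 0),(nat_lit 0),(nat_lit 0),(nat_lit 0),(nat_lit 0),(nat_lit 0),(nat_lit 0)], [Int.negSucc (nat_lit 1576455593),Int.ofNat (nat_lit 708293353),Int.negSucc (nat_lit 79818031),Int.ofNat (nat_lit 140115096),Int.ofNat (nat_lit 212837148),Int.ofNat (nat_lit 785877462),Int.ofNat (nat_lit 737907814),Int.ofNat (nat_lit 169672584),Int.ofNat (nat_lit 442384958),Int.ofNat (nat_lit 1523347991),Int.ofNat (nat_lit 451832909),Int.ofNat (nat_lit 52520499),Int.ofNat (nat_lit 1025765329),Int.ofNat (nat_lit 65527356),Int.ofNat (nat_lit 2366929682),Int.ofNat (nat_lit 1321214866),Int.negSucc (nat_lit 156332189),Int.ofNat (nat_lit 977344183),Int.negSucc (nat_lit 427529880),Int.ofNat (nat_lit 502481692),Int.ofNat (nat_lit 1864261362),Int.ofNat (nat_lit 102154918),Int.ofNat (nat_lit 221634550)])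

/-- A row. -/
noncomputable def sr0_c0_23 : List ℕ × List ℤ :=
  ([(nat_lit 0),(nat_lit 1),(nat_lit 0),(nat_lit 0),(nat_lit 0),(nat_lit 0),(nat_lit 0),(nat_lit 0),(nat_lit 0),(nat_lit 0),(nat_lit 0),(nat_lit 1)], [Int.negSucc (nat_lit 860839859),Int.negSucc (nat_lit 492843534),Int.negSucc (nat_lit 270522063),Int.negSucc (nat_lit 465817191),Int.negSucc (nat_lit 226734060),Int.ofNat (nat_lit 3082261051),Int.ofNat (nat_lit 1666663199),Int.negSucc (nat_lit 499043025),Int.negSucc (nat_lit 588472776),Int.negSucc (nat_lit 314812797),Int.negSucc (nat_lit 66189240),Int.ofNat (nat_lit 964310037),Int.negSucc (nat_lit 485118204),Int.ofNat (nat_lit 278149740),Int.negSucc (nat_lit 136139443),Int.negSucc (nat_lit 330745814),Int.ofNat (nat_lit 277834326),Int.ofNat (nat_lit 72467138),Int.negSucc (nat_lit 130577756),Int.ofNat (nat_lit 297560091),Int.negSucc (nat_lit 346820514),Int.ofNat (nat_lit 97936819),Int.negSucc (nat_lit 13713979),Int.ofNat (nat_lit 1492022542)])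

/-- A row. -/
noncomputable def sr0_c0_24 : List ℕ × List ℤ :=
  ([(nat_lit 0),(nat_lit 1),(nat_lit 0),(nat_lit 0),(nat_lit 0),(nat_lit 0),(nat_lit 0),(nat_lit 0),(nat_lit 0),(nat_lit 1),(nat_lit 0),(nat_lit 0)], [Int.ofNat (nat_lit 221887710),Int.negSucc (nat_lit 88541642),Int.negSucc (nat_lit 2703815873),Int.ofNat (nat_lit 414554000),Int.ofNat (nat_lit 1159487823),Int.ofNat (nat_lit 12278496),Int.negSucc (nat_lit 92166129),Int.ofNat (nat_lit 275354987),Int.ofNat (nat_lit 229973205),Int.negSucc (nat_lit 2613388636),Int.ofNat (nat_lit 1077370360),Int.negSucc (nat_lit 60902808),Int.negSucc (nat_lit 112038819),Int.ofNat (nat_lit 102319282),Int.negSucc (nat_lit 444375426),Int.ofNat (nat_lit 426749812),Int.ofNat (nat_lit 24938515),Int.ofNat (nat_lit 649306796),Int.ofNat (nat_lit 365892804),Int.negSucc (nat_lit 43774239),Int.ofNat (nat_lit 57681469),Int.ofNat (nat_lit 494158908),Int.negSucc (nat_lit 809074),Int.ofNat (nat_lit 146780771),Int.ofNat (nat_lit 1912795058)])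

/-- A row. -/
noncomputable def sr0_c0_25 : List ℕ × List ℤ :=
  ([(nat_lit 0),(nat_lit 1),(nat_lit 0),(nat_lit 0),(nat_lit 0),(nat_lit 0),(nat_lit 0),(nat_lit 1),(nat_lit 0),(nat_lit 0),(nat_lit 0),(nat_lit 0)], [Int.negSucc (nat_lit 2850977291),Int.negSucc (nat_lit 29916064),Int.ofNat (nat_lit 3729860002),Int.negSucc (nat_lit 3990479888),Int.ofNat (nat_lit 1894921310),Int.negSucc (nat_lit 220127709),Int.ofNat (nat_lit 1885447716),Int.negSucc (nat_lit 203087957),Int.ofNat (nat_lit 291381022),Int.ofNat (nat_lit 4092332521),Int.negSucc (nat_lit 3356230169),Int.ofNat (nat_lit 743690278),Int.ofNat (nat_lit 127851096),Int.negSucc (nat_lit 1351155017),Int.ofNat (nat_lit 282124932),Int.ofNat (nat_lit 721523178),Int.ofNat (nat_lit 542296293),Int.negSucc (nat_lit 159544826),Int.ofNat (nat_lit 516993536),Int.negSucc (nat_lit 61117155),Int.negSucc (nat_lit 326946684),Int.negSucc (nat_lit 346016924),Int.negSucc (nat_lit 190875014),Int.negSucc (nat_lit 937373880),Int.negSucc (nat_lit 698711807),Int.ofNat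 (nat_lit 4066058838)])

/-- A row. -/
noncomputable def sr0_c0_26 : List ℕ × List ℤ :=
  ([(nat_lit 0),(nat_lit 1),(nat_lit 0),(nat_lit 0),(nat_lit 0),(nat_lit 1),(nat_lit 0),(nat_lit 0),(nat_lit 0),(nat_lit 0),(nat_lit 0),(nat_lit 0)], [Int.negSucc (nat_lit 783690184),Int.negSucc (nat_lit 6297894097),Int.negSucc (nat_lit 4057768869),Int.ofNat (nat_lit 2501397884),Int.negSucc (nat_lit 139351397),Int.ofNat (nat_lit 1739042181),Int.negSucc (nat_lit 6579071864),Int.ofNat (nat_lit 2094667662),Int.negSucc (nat_lit 1277379969),Int.negSucc (nat_lit 4017027204),Int.ofNat (nat_lit 3752343350),Int.negSucc (nat_lit 5119883135),Int.ofNat (nat_lit 567118118),Int.ofNat (nat_lit 1887958230),Int.ofNat (nat_lit 112540801),Int.ofNat (nat_lit 1023371704),Int.negSucc (nat_lit 73177917),Int.negSucc (nat_lit 241593543),Int.negSucc (nat_lit 1147182446),Int.negSucc (nat_lit 50790751),Int.ofNat (nat_lit 1724320392),Int.negSucc (nat_lit 430422709),Int.ofNat (nat_lit 366313962),Int.ofNat (nat_lit 450041156),Int.ofNat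 (nat_lit 1898893870),Int.negSucc (nat_lit 2581312633),Int.ofNat (nat_lit 6990926135)])

/-- A row. -/
noncomputable def sr0_c0_27 : List ℕ × List ℤ :=
  ([(nat_lit 0),(nat_lit 1),(nat_lit 0),(nat_lit 0),(nat_lit 1),(nat_lit 1),(nat_lit 0),(nat_lit 0),(nat_lit 0),(nat_lit 0),(nat_lit 0),(nat_lit 0)], [Int.negSucc (nat_lit 2689551972),Int.negSucc (nat_lit 2131792707),Int.ofNat (nat_lit 559969137),Int.negSucc (nat_lit 135714918),Int.negSucc (nat_lit 477350549),Int.ofNat (nat_lit 555007285),Int.negSucc (nat_lit 209228006),Int.ofNat (nat_lit 759610096),Int.negSucc (nat_lit 911417102),Int.negSucc (nat_lit 174150910),Int.ofNat (nat_lit 1038036519),Int.ofNat (nat_lit 50434317),Int.ofNat (nat_lit 343214529),Int.ofNat (nat_lit 247480569),Int.ofNat (nat_lit 111593022),Int.ofNat (nat_lit 667729011),Int.negSucc (nat_lit 309538146),Int.negSucc (nat_lit 1597165486),Int.ofNat (nat_lit 649211429),Int.ofNat (nat_lit 203758143),Int.negSucc (nat_lit 383408318),Int.negSucc (nat_lit 1190990086),Int.negSucc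 (nat_lit 6952218),Int.negSucc (nat_lit 49629967),Int.negSucc (nat_lit 364094765),Int.ofNat (nat_lit 383863174),Int.negSucc (nat_lit 1052151484),Int.ofNat (nat_lit 3260712755)])

/-- A row. -/
noncomputable def sr0_c0_28 : List ℕ × List ℤ :=
  ([(nat_lit 0),(nat_lit 1),(nat_lit 0),(nat_lit 1),(nat_lit 0),(nat_lit 0),(nat_lit 0),(nat_lit 0),(nat_lit 0),(nat_lit 0),(nat_lit 0),(nat_lit 0)], [Int.ofNat (nat_lit 1605919922),Int.ofNat (nat_lit 2918690189),Int.ofNat (nat_lit 6879126122),Int.negSucc (nat_lit 1433080570),Int.negSucc (nat_lit 550693186),Int.ofNat (nat_lit 3703575870),Int.ofNat (nat_lit 7492662443),Int.negSucc (nat_lit 3612486983),Int.ofNat (nat_lit 1720386511),Int.ofNat (nat_lit 2592928403),Int.negSucc (nat_lit 2945452024),Int.ofNat (nat_lit 2191966275),Int.negSucc (nat_lit 5068990332),Int.negSucc (nat_lit 319335533),Int.ofNat (nat_lit 1436598561),Int.ofNat (nat_lit 1805325721),Int.ofNat (nat_lit 2151590884),Int.ofNat (nat_lit 2920936654),Int.negSucc (nat_lit 1487082708),Int.negSucc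 (nat_lit 21045531),Int.ofNat (nat_lit 140041251),Int.ofNat (nat_lit 1854360921),Int.negSucc (nat_lit 179957544),Int.negSucc (nat_lit 3272585419),Int.ofNat (nat_lit 1214244244),Int.ofNat (nat_lit 1979087449),Int.negSucc (nat_lit 3258954973),Int.negSucc (nat_lit 1454424118),Int.ofNat (nat_lit 10025245186)])

/-- A row. -/
noncomputable def sr0_c0_29 : List ℕ × List ℤ :=
  ([(nat_lit 0),(nat_lit 1),(nat_lit 0),(nat_lit 1),(nat_lit 0),(nat_lit 0),(nat_lit 1),(nat_lit 0),(nat_lit 0),(nat_lit 0),(nat_lit 0),(nat_lit 0)], [Int.negSucc (nat_lit 1159981076),Int.negSucc (nat_lit 569127256),Int.negSucc (nat_lit 504603432),Int.ofNat (nat_lit 1023568928),Int.negSucc (nat_lit 1215061320),Int.ofNat (nat_lit 3005962067),Int.ofNat (nat_lit 1010573079),Int.negSucc (nat_lit 291616911),Int.negSucc (nat_lit 352724390),Int.negSucc (nat_lit 1480537785),Int.ofNat (nat_lit 1725465035),Int.ofNat (nat_lit 1072478862),Int.ofNat (nat_lit 440726051),Int.ofNat (nat_lit 917411923),Int.negSucc (nat_lit 852122023),Int.ofNat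 (nat_lit 409305407),Int.ofNat (nat_lit 569011219),Int.ofNat (nat_lit 625566063),Int.negSucc (nat_lit 55584218),Int.ofNat (nat_lit 983612887),Int.negSucc (nat_lit 72537825),Int.ofNat (nat_lit 393516989),Int.negSucc (nat_lit 47803922),Int.ofNat (nat_lit 1878194187),Int.ofNat (nat_lit 610832527),Int.negSucc (nat_lit 1273224453),Int.ofNat (nat_lit 817313709),Int.negSucc (nat_lit 495019078),Int.ofNat (nat_lit 388203727),Int.ofNat (nat_lit 3383298221)])

/-- A part of a triangular factor. -/
noncomputable def sr0_c0 : Rows :=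
  [sr0_c0_0,
   sr0_c0_1,
   sr0_c0_2,
   sr0_c0_3,
   sr0_c0_4,
   sr0_c0_5,
   sr0_c0_6,
   sr0_c0_7,
   sr0_c0_8,
   sr0_c0_9,
   sr0_c0_10,
   sr0_c0_11,
   sr0_c0_12,
   sr0_c0_13,
   sr0_c0_14,
   sr0_c0_15,
   sr0_c0_16,
   sr0_c0_17,
   sr0_c0_18,
   sr0_c0_19,
   sr0_c0_20,
   sr0_c0_21,
   sr0_c0_22,
   sr0_c0_23,
   sr0_c0_24,
   sr0_c0_25,
   sr0_c0_26,
   sr0_c0_27,
   sr0_c0_28,
   sr0_c0_29]

/-- A row. -/
noncomputable def sr0_c1_0 : List ℕ × List ℤ :=
  ([(nat_lit 0),(nat_lit 1),(nat_lit 0),(nat_lit 1),(nat_lit 1),(nat_lit 0),(nat_lit 0),(nat_lit 0),(nat_lit 0),(nat_lit 0),(nat_lit 0),(nat_lit 0)], [Int.ofNat (nat_lit 4633332167),Int.negSucc (nat_lit 3481538453),Int.negSucc (nat_lit 3798743976),Int.ofNat (nat_lit 1277110505),Int.ofNat (nat_lit 772084555),Int.negSucc (nat_lit 358249579),Int.ofNat (nat_lit 2272522069),Int.negSucc (nat_lit 630466764),Int.negSucc (nat_lit 738519457),Int.negSucc (nat_lit 1524103252),Int.negSucc (nat_lit 1471211309),Int.ofNat (nat_lit 5438449683),Int.ofNat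 (nat_lit 2595769991),Int.negSucc (nat_lit 6699292744),Int.negSucc (nat_lit 735719790),Int.negSucc (nat_lit 1820227128),Int.negSucc (nat_lit 367443430),Int.negSucc (nat_lit 889134858),Int.ofNat (nat_lit 826102671),Int.negSucc (nat_lit 840894782),Int.ofNat (nat_lit 219179525),Int.negSucc (nat_lit 1388781124),Int.negSucc (nat_lit 651229139),Int.ofNat (nat_lit 459277328),Int.ofNat (nat_lit 1043469476),Int.negSucc (nat_lit 79936381),Int.negSucc (nat_lit 572445345),Int.ofNat (nat_lit 598073489),Int.negSucc (nat_lit 5539354620),Int.negSucc (nat_lit 974433115),Int.ofNat (nat_lit 7478637839)])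

/-- A row. -/
noncomputable def sr0_c1_1 : List ℕ × List ℤ :=
  ([(nat_lit 0),(nat_lit 1),(nat_lit 0),(nat_lit 3),(nat_lit 0),(nat_lit 0),(nat_lit 0),(nat_lit 0),(nat_lit 0),(nat_lit 0),(nat_lit 0),(nat_lit 0)], [Int.ofNat (nat_lit 1066857644),Int.ofNat (nat_lit 210712992),Int.negSucc (nat_lit 482343432),Int.ofNat (nat_lit 332797402),Int.negSucc (nat_lit 1134222132),Int.negSucc (nat_lit 1391037957),Int.negSucc (nat_lit 558123882),Int.ofNat (nat_lit 1135355080),Int.ofNat (nat_lit 345266699),Int.negSucc (nat_lit 103977958),Int.negSucc (nat_lit 911845877),Int.negSucc (nat_lit 176362258),Int.negSucc (nat_lit 531022742),Int.ofNat (nat_lit 302112128),Int.ofNat (nat_lit 94426074),Int.negSucc (nat_lit 320828432),Int.negSucc (nat_lit 485456915),Int.negSucc (nat_lit 648199119),Int.ofNat (nat_lit 332937885),Int.negSucc (nat_lit 27314493),Int.ofNat (nat_lit 17164430),Int.negSucc (nat_lit 518510027),Int.ofNat (nat_lit 20208282),Int.negSucc (nat_lit 524018752),Int.negSucc (nat_lit 355328370),Int.negSucc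 (nat_lit 46091972),Int.ofNat (nat_lit 50157868),Int.ofNat (nat_lit 478583351),Int.negSucc (nat_lit 1483654326),Int.negSucc (nat_lit 1192331966),Int.ofNat (nat_lit 274900584),Int.ofNat (nat_lit 2550494906)])

/-- A row. -/
noncomputable def sr0_c1_2 : List ℕ × List ℤ :=
  ([(nat_lit 0),(nat_lit 1),(nat_lit 1),(nat_lit 0),(nat_lit 0),(nat_lit 0),(nat_lit 0),(nat_lit 1),(nat_lit 0),(nat_lit 0),(nat_lit 0),(nat_lit 0)], [Int.negSucc (nat_lit 724959939),Int.negSucc (nat_lit 327626616),Int.ofNat (nat_lit 416135777),Int.negSucc (nat_lit 455422842),Int.negSucc (nat_lit 570893279),Int.ofNat (nat_lit 698884061),Int.ofNat (nat_lit 890112354),Int.negSucc (nat_lit 325636166),Int.negSucc (nat_lit 1196237259),Int.ofNat (nat_lit 604949452),Int.ofNat (nat_lit 779718509),Int.negSucc (nat_lit 351641656),Int.negSucc (nat_lit 447004950),Int.negSucc (nat_lit 1615238789),Int.negSucc (nat_lit 593351623),Int.ofNat (nat_lit 701089902),Int.negSucc (nat_lit 388882454),Int.ofNat (nat_lit 122546243),Int.ofNat (nat_lit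 1268745580),Int.negSucc (nat_lit 998458623),Int.negSucc (nat_lit 516860115),Int.ofNat (nat_lit 364323262),Int.ofNat (nat_lit 130537899),Int.negSucc (nat_lit 797662917),Int.ofNat (nat_lit 87409396),Int.ofNat (nat_lit 1956960190),Int.negSucc (nat_lit 428283180),Int.ofNat (nat_lit 106669725),Int.negSucc (nat_lit 3559094),Int.negSucc (nat_lit 1122108668),Int.negSucc (nat_lit 48345963),Int.negSucc (nat_lit 56504480),Int.ofNat (nat_lit 2298416448)])

/-- A row. -/
noncomputable def sr0_c1_3 : List ℕ × List ℤ :=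
  ([(nat_lit 0),(nat_lit 1),(nat_lit 1),(nat_lit 0),(nat_lit 0),(nat_lit 1),(nat_lit 0),(nat_lit 0),(nat_lit 0),(nat_lit 0),(nat_lit 0),(nat_lit 0)], [Int.ofNat (nat_lit 808364771),Int.negSucc (nat_lit 1216078481),Int.negSucc (nat_lit 4216129605),Int.ofNat (nat_lit 1138473240),Int.ofNat (nat_lit 3257337470),Int.ofNat (nat_lit 3458598708),Int.negSucc (nat_lit 1587093072),Int.negSucc (nat_lit 62063896),Int.ofNat (nat_lit 226918949),Int.negSucc (nat_lit 2855251335),Int.negSucc (nat_lit 1924560297),Int.ofNat (nat_lit 1508420050),Int.ofNat (nat_lit 248389412),Int.ofNat (nat_lit 4510168620),Int.ofNat (nat_lit 2282136657),Int.ofNat (nat_lit 113541590),Int.ofNat (nat_lit 450504964),Int.negSucc (nat_lit 2080468298),Int.negSucc (nat_lit 5236666064),Int.ofNat (nat_lit 1233587705),Int.ofNat (nat_lit 981604681),Int.negSucc (nat_lit 1248422209),Int.ofNat (nat_lit 491977844),Int.ofNat (nat_lit 1085072330),Int.ofNat (nat_lit 1437634393),Int.negSucc (nat_lit 1997493809),Int.ofNat (nat_lit 6249011589),Int.ofNat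 (nat_lit 720442990),Int.ofNat (nat_lit 795327553),Int.ofNat (nat_lit 304256353),Int.negSucc (nat_lit 718699385),Int.ofNat (nat_lit 127518817),Int.negSucc (nat_lit 73731206),Int.ofNat (nat_lit 5088736161)])

/-- A row. -/
noncomputable def sr0_c1_4 : List ℕ × List ℤ :=
  ([(nat_lit 0),(nat_lit 1),(nat_lit 1),(nat_lit 1),(nat_lit 0),(nat_lit 0),(nat_lit 0),(nat_lit 0),(nat_lit 0),(nat_lit 0),(nat_lit 0),(nat_lit 0)], [Int.ofNat (nat_lit 3074127087),Int.ofNat (nat_lit 4691207279),Int.ofNat (nat_lit 4990372385),Int.ofNat (nat_lit 1671386986),Int.negSucc (nat_lit 3743228597),Int.negSucc (nat_lit 3327633541),Int.ofNat (nat_lit 1721222374),Int.ofNat (nat_lit 2215723152),Int.ofNat (nat_lit 1926243644),Int.ofNat (nat_lit 2267339376),Int.ofNat (nat_lit 2760298331),Int.negSucc (nat_lit 3274701844),Int.negSucc (nat_lit 3129043046),Int.negSucc (nat_lit 3095787734),Int.ofNat (nat_lit 14522299),Int.ofNat (nat_lit 2678851837),Int.ofNat (nat_lit 1229711675),Int.ofNat (nat_lit 3091253457),Int.ofNat (nat_lit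 4169532350),Int.negSucc (nat_lit 4444461700),Int.ofNat (nat_lit 1293772330),Int.ofNat (nat_lit 1160637006),Int.ofNat (nat_lit 278744084),Int.negSucc (nat_lit 3306896413),Int.ofNat (nat_lit 818622000),Int.ofNat (nat_lit 1579520407),Int.negSucc (nat_lit 1512533484),Int.ofNat (nat_lit 185923949),Int.ofNat (nat_lit 7644747777),Int.negSucc (nat_lit 417228576),Int.ofNat (nat_lit 792677170),Int.ofNat (nat_lit 622219709),Int.negSucc (nat_lit 949980296),Int.negSucc (nat_lit 1743650393),Int.ofNat (nat_lit 7275468214)])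

/-- A row. -/
noncomputable def sr0_c1_5 : List ℕ × List ℤ :=
  ([(nat_lit 0),(nat_lit 1),(nat_lit 2),(nat_lit 1),(nat_lit 0),(nat_lit 0),(nat_lit 0),(nat_lit 0),(nat_lit 0),(nat_lit 0),(nat_lit 0),(nat_lit 0)], [Int.ofNat (nat_lit 1785148744),Int.ofNat (nat_lit 1816742520),Int.negSucc (nat_lit 2056557483),Int.ofNat (nat_lit 1831157757),Int.negSucc (nat_lit 2141964976),Int.negSucc (nat_lit 3734517705),Int.negSucc (nat_lit 2153633777),Int.ofNat (nat_lit 2815470067),Int.ofNat (nat_lit 905022877),Int.negSucc (nat_lit 467222514),Int.ofNat (nat_lit 631387543),Int.ofNat (nat_lit 1422649876),Int.ofNat (nat_lit 590797031),Int.ofNat (nat_lit 21185218),Int.negSucc (nat_lit 523210095),Int.negSucc (nat_lit 435216072),Int.ofNat (nat_lit 209396887),Int.negSucc (nat_lit 1652862071),Int.ofNat (nat_lit 1262542128),Int.ofNat (nat_lit 1056023644),Int.negSucc (nat_lit 564215500),Int.negSucc (nat_lit 1457651766),Int.negSucc (nat_lit 184562480),Int.negSucc (nat_lit 5762811),Int.negSucc (nat_lit 813602607),Int.ofNat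 (nat_lit 29154875),Int.ofNat (nat_lit 695923401),Int.ofNat (nat_lit 2108383932),Int.negSucc (nat_lit 1775908394),Int.ofNat (nat_lit 718485627),Int.ofNat (nat_lit 1057892277),Int.ofNat (nat_lit 1362837732),Int.ofNat (nat_lit 11122116),Int.ofNat (nat_lit 580631071),Int.ofNat (nat_lit 3676563096),Int.ofNat (nat_lit 4419770881)])

/-- A row. -/
noncomputable def sr0_c1_6 : List ℕ × List ℤ :=
  ([(nat_lit 0),(nat_lit 2),(nat_lit 0),(nat_lit 0),(nat_lit 0),(nat_lit 0),(nat_lit 0),(nat_lit 0),(nat_lit 0),(nat_lit 0),(nat_lit 0),(nat_lit 0)], [Int.negSucc (nat_lit 5006044459),Int.negSucc (nat_lit 6264411540),Int.negSucc (nat_lit 7921088131),Int.ofNat (nat_lit 4865236050),Int.negSucc (nat_lit 4056692909),Int.ofNat (nat_lit 10026805),Int.negSucc (nat_lit 11843811790),Int.ofNat (nat_lit 2380637222),Int.negSucc (nat_lit 1361797151),Int.negSucc (nat_lit 5121793931),Int.ofNat (nat_lit 4258071261),Int.ofNat (nat_lit 1339962608),Int.negSucc (nat_lit 562601516),Int.ofNat (nat_lit 1461574311),Int.negSucc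 (nat_lit 1190505297),Int.negSucc (nat_lit 3528590671),Int.negSucc (nat_lit 1408512831),Int.negSucc (nat_lit 2804945419),Int.ofNat (nat_lit 1276139538),Int.negSucc (nat_lit 909061668),Int.negSucc (nat_lit 2778769075),Int.negSucc (nat_lit 2644463337),Int.ofNat (nat_lit 802112405),Int.ofNat (nat_lit 4402327417),Int.ofNat (nat_lit 953537247),Int.negSucc (nat_lit 4768814080),Int.ofNat (nat_lit 5804098722),Int.negSucc (nat_lit 360236166),Int.negSucc (nat_lit 7288961374),Int.negSucc (nat_lit 85020538),Int.negSucc (nat_lit 1248192460),Int.negSucc (nat_lit 744635776),Int.ofNat (nat_lit 1292778519),Int.ofNat (nat_lit 129368150),Int.ofNat (nat_lit 271761295),Int.ofNat (nat_lit 992238404),Int.ofNat (nat_lit 10100894354)])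

/-- A row. -/
noncomputable def sr0_c1_7 : List ℕ × List ℤ :=
  ([(nat_lit 0),(nat_lit 2),(nat_lit 0),(nat_lit 0),(nat_lit 0),(nat_lit 0),(nat_lit 0),(nat_lit 0),(nat_lit 1),(nat_lit 0),(nat_lit 0),(nat_lit 0)], [Int.negSucc (nat_lit 132505787),Int.ofNat (nat_lit 121027436),Int.negSucc (nat_lit 529607374),Int.negSucc (nat_lit 386782240),Int.ofNat (nat_lit 767545074),Int.ofNat (nat_lit 109577366),Int.ofNat (nat_lit 310471435),Int.ofNat (nat_lit 260938652),Int.ofNat (nat_lit 250205577),Int.negSucc (nat_lit 239767841),Int.negSucc (nat_lit 227806200),Int.negSucc (nat_lit 14886674),Int.ofNat (nat_lit 75253206),Int.ofNat (nat_lit 67379396),Int.negSucc (nat_lit 13601661),Int.ofNat (nat_lit 882043131),Int.ofNat (nat_lit 306503972),Int.negSucc (nat_lit 79204316),Int.ofNat (nat_lit 191954937),Int.negSucc (nat_lit 116703685),Int.negSucc (nat_lit 191406502),Int.negSucc (nat_lit 310563731),Int.negSucc (nat_lit 100272170),Int.negSucc (nat_lit 411704151),Int.ofNat (nat_lit 219874533),Int.ofNat (nat_lit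 508343868),Int.negSucc (nat_lit 140303629),Int.ofNat (nat_lit 682766331),Int.negSucc (nat_lit 122406571),Int.ofNat (nat_lit 42852444),Int.ofNat (nat_lit 372722696),Int.ofNat (nat_lit 55222981),Int.ofNat (nat_lit 311202737),Int.negSucc (nat_lit 355812382),Int.ofNat (nat_lit 335603766),Int.ofNat (nat_lit 211086393),Int.negSucc (nat_lit 305908021),Int.ofNat (nat_lit 1900122526)])

/-- A row. -/
noncomputable def sr0_c1_8 : List ℕ × List ℤ :=
  ([(nat_lit 0),(nat_lit 2),(nat_lit 0),(nat_lit 0),(nat_lit 0),(nat_lit 0),(nat_lit 1),(nat_lit 0),(nat_lit 0),(nat_lit 0),(nat_lit 0),(nat_lit 0)], [Int.negSucc (nat_lit 459912809),Int.ofNat (nat_lit 1219846546),Int.ofNat (nat_lit 420442445),Int.negSucc (nat_lit 2115950148),Int.negSucc (nat_lit 772861814),Int.negSucc (nat_lit 3464756937),Int.negSucc (nat_lit 2239447736),Int.ofNat (nat_lit 72986844),Int.ofNat (nat_lit 558134482),Int.ofNat (nat_lit 2093926376),Int.ofNat (nat_lit 36662352),Int.negSucc (nat_lit 2057605596),Int.negSucc (nat_lit 662643328),Int.negSucc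 (nat_lit 1008587696),Int.ofNat (nat_lit 1524452670),Int.negSucc (nat_lit 628307345),Int.ofNat (nat_lit 1643844328),Int.ofNat (nat_lit 520577097),Int.ofNat (nat_lit 761412474),Int.negSucc (nat_lit 1514350678),Int.ofNat (nat_lit 462862338),Int.ofNat (nat_lit 844471695),Int.ofNat (nat_lit 395430293),Int.negSucc (nat_lit 3078575721),Int.ofNat (nat_lit 1252161226),Int.ofNat (nat_lit 816075842),Int.negSucc (nat_lit 515169001),Int.negSucc (nat_lit 255247868),Int.ofNat (nat_lit 224674521),Int.negSucc (nat_lit 3142829923),Int.negSucc (nat_lit 1185279154),Int.negSucc (nat_lit 334343864),Int.ofNat (nat_lit 58130090),Int.ofNat (nat_lit 745914461),Int.negSucc (nat_lit 244976539),Int.negSucc (nat_lit 676596661),Int.ofNat (nat_lit 1207609826),Int.negSucc (nat_lit 1682200018),Int.ofNat (nat_lit 4534551192)])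

/-- A row. -/
noncomputable def sr0_c1_9 : List ℕ × List ℤ :=
  ([(nat_lit 0),(nat_lit 2),(nat_lit 0),(nat_lit 0),(nat_lit 1),(nat_lit 0),(nat_lit 0),(nat_lit 0),(nat_lit 0),(nat_lit 0),(nat_lit 0),(nat_lit 0)], [Int.negSucc (nat_lit 2027383303),Int.ofNat (nat_lit 2708086522),Int.ofNat (nat_lit 7680918549),Int.negSucc (nat_lit 805252656),Int.negSucc (nat_lit 102920016),Int.ofNat (nat_lit 1858217432),Int.ofNat (nat_lit 2704413326),Int.ofNat (nat_lit 340911815),Int.negSucc (nat_lit 3454620379),Int.ofNat (nat_lit 1701936608),Int.negSucc (nat_lit 535584864),Int.negSucc (nat_lit 6986989128),Int.negSucc (nat_lit 1937073026),Int.ofNat (nat_lit 4877941164),Int.ofNat (nat_lit 1593164315),Int.ofNat (nat_lit 4373668997),Int.ofNat (nat_lit 920188159),Int.ofNat (nat_lit 2825558850),Int.negSucc (nat_lit 860375452),Int.ofNat (nat_lit 986653494),Int.ofNat (nat_lit 590138204),Int.ofNat (nat_lit 1491270699),Int.ofNat (nat_lit 664680838),Int.negSucc (nat_lit 2067971607),Int.negSucc (nat_lit 2346832952),Int.ofNat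 (nat_lit 898740233),Int.negSucc (nat_lit 1351508098),Int.ofNat (nat_lit 3136029993),Int.ofNat (nat_lit 4747475319),Int.negSucc (nat_lit 1084600623),Int.negSucc (nat_lit 5213813048),Int.negSucc (nat_lit 132322400),Int.negSucc (nat_lit 282507210),Int.ofNat (nat_lit 10111384),Int.ofNat (nat_lit 495059156),Int.negSucc (nat_lit 1457426240),Int.negSucc (nat_lit 5589539673),Int.ofNat (nat_lit 1066122166),Int.negSucc (nat_lit 1425029466),Int.ofNat (nat_lit 8441633518)])

/-- A row. -/
noncomputable def sr0_c1_10 : List ℕ × List ℤ :=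
  ([(nat_lit 0),(nat_lit 2),(nat_lit 0),(nat_lit 1),(nat_lit 0),(nat_lit 1),(nat_lit 0),(nat_lit 0),(nat_lit 0),(nat_lit 0),(nat_lit 0),(nat_lit 0)], [Int.negSucc (nat_lit 4244358383),Int.ofNat (nat_lit 3834343077),Int.negSucc (nat_lit 923864481),Int.negSucc (nat_lit 1332763178),Int.ofNat (nat_lit 2535985047),Int.ofNat (nat_lit 559914066),Int.ofNat (nat_lit 1723102414),Int.ofNat (nat_lit 289395799),Int.negSucc (nat_lit 2119242243),Int.ofNat (nat_lit 2047978535),Int.ofNat (nat_lit 4013973866),Int.negSucc (nat_lit 1727911650),Int.ofNat (nat_lit 1795393527),Int.ofNat (nat_lit 713236402),Int.negSucc (nat_lit 897065225),Int.ofNat (nat_lit 1121551008),Int.ofNat (nat_lit 533018369),Int.ofNat (nat_lit 436042293),Int.ofNat (nat_lit 1195957732),Int.ofNat (nat_lit 1254319316),Int.negSucc (nat_lit 687954643),Int.ofNat (nat_lit 685112077),Int.negSucc (nat_lit 90366848),Int.ofNat (nat_lit 1693028598),Int.ofNat (nat_lit 359395339),Int.ofNat (nat_lit 632164713),Int.negSucc (nat_lit 1181732708),Int.ofNat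 (nat_lit 507834302),Int.ofNat (nat_lit 2521879197),Int.ofNat (nat_lit 4058823487),Int.negSucc (nat_lit 1250243057),Int.negSucc (nat_lit 2044732241),Int.ofNat (nat_lit 867275288),Int.ofNat (nat_lit 913221880),Int.negSucc (nat_lit 1052703384),Int.ofNat (nat_lit 469896078),Int.ofNat (nat_lit 545975843),Int.negSucc (nat_lit 742171671),Int.ofNat (nat_lit 581895829),Int.negSucc (nat_lit 269835608),Int.ofNat (nat_lit 7615886733)])

/-- A row. -/
noncomputable def sr0_c1_11 : List ℕ × List ℤ :=
  ([(nat_lit 0),(nat_lit 2),(nat_lit 0),(nat_lit 2),(nat_lit 0),(nat_lit 0),(nat_lit 0),(nat_lit 0),(nat_lit 0),(nat_lit 0),(nat_lit 0),(nat_lit 0)], [Int.negSucc (nat_lit 1027505157),Int.ofNat (nat_lit 1644314988),Int.ofNat (nat_lit 3366454903),Int.negSucc (nat_lit 1604072960),Int.ofNat (nat_lit 466923440),Int.negSucc (nat_lit 2118591503),Int.ofNat (nat_lit 2399490874),Int.negSucc (nat_lit 671126151),Int.negSucc (nat_lit 822326330),Int.ofNat (nat_lit 2801618881),Int.negSucc (nat_lit 1735621417),Int.ofNat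 (nat_lit 223901642),Int.negSucc (nat_lit 5881712134),Int.negSucc (nat_lit 1894648256),Int.ofNat (nat_lit 721029516),Int.ofNat (nat_lit 1758721051),Int.negSucc (nat_lit 1014314433),Int.ofNat (nat_lit 527484070),Int.negSucc (nat_lit 1867110474),Int.ofNat (nat_lit 1179321695),Int.ofNat (nat_lit 43702799),Int.ofNat (nat_lit 398990725),Int.ofNat (nat_lit 367104319),Int.negSucc (nat_lit 3452767569),Int.negSucc (nat_lit 1111216251),Int.ofNat (nat_lit 1923291809),Int.negSucc (nat_lit 3659390),Int.ofNat (nat_lit 79023260),Int.ofNat (nat_lit 615475532),Int.negSucc (nat_lit 1714615973),Int.negSucc (nat_lit 1350978552),Int.negSucc (nat_lit 5027263039),Int.ofNat (nat_lit 260641630),Int.negSucc (nat_lit 97629109),Int.ofNat (nat_lit 999278696),Int.ofNat (nat_lit 278899470),Int.negSucc (nat_lit 1331499497),Int.ofNat (nat_lit 717186231),Int.negSucc (nat_lit 1956725370),Int.ofNat (nat_lit 1232820853),Int.negSucc (nat_lit 2829238384),Int.ofNat (nat_lit 8619990127)])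

/-- A row. -/
noncomputable def sr0_c1_12 : List ℕ × List ℤ :=
  ([(nat_lit 0),(nat_lit 2),(nat_lit 1),(nat_lit 0),(nat_lit 0),(nat_lit 0),(nat_lit 0),(nat_lit 0),(nat_lit 0),(nat_lit 0),(nat_lit 0),(nat_lit 0)], [Int.negSucc (nat_lit 10604015755),Int.negSucc (nat_lit 4766940256),Int.negSucc (nat_lit 4243165063),Int.ofNat (nat_lit 2684092883),Int.negSucc (nat_lit 5053897427),Int.ofNat (nat_lit 6819403178),Int.negSucc (nat_lit 9799046979),Int.negSucc (nat_lit 1141561498),Int.negSucc (nat_lit 5011964447),Int.negSucc (nat_lit 3436025635),Int.negSucc (nat_lit 3721249385),Int.ofNat (nat_lit 9539361778),Int.negSucc (nat_lit 5773553999),Int.ofNat (nat_lit 2948624880),Int.negSucc (nat_lit 4238828611),Int.negSucc (nat_lit 6757843152),Int.ofNat (nat_lit 1425271999),Int.negSucc (nat_lit 6511832931),Int.negSucc (nat_lit 2086807450),Int.ofNat (nat_lit 2782811493),Int.negSucc (nat_lit 4986661799),Int.negSucc (nat_lit 2599990338),Int.negSucc (nat_lit 897557331),Int.ofNat (nat_lit 6450813435),Int.negSucc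 (nat_lit 1931234960),Int.negSucc (nat_lit 1323522928),Int.ofNat (nat_lit 3140129193),Int.negSucc (nat_lit 142190055),Int.negSucc (nat_lit 6323943839),Int.negSucc (nat_lit 1087429656),Int.negSucc (nat_lit 2030832287),Int.negSucc (nat_lit 1819646909),Int.ofNat (nat_lit 3245503998),Int.ofNat (nat_lit 3482334414),Int.negSucc (nat_lit 4478774175),Int.ofNat (nat_lit 3843630950),Int.ofNat (nat_lit 13715618514),Int.ofNat (nat_lit 740633174),Int.negSucc (nat_lit 1875434916),Int.ofNat (nat_lit 1576743013),Int.negSucc (nat_lit 430133170),Int.ofNat (nat_lit 1266259951),Int.ofNat (nat_lit 9024682225)])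

/-- A row. -/
noncomputable def sr0_c1_13 : List ℕ × List ℤ :=
  ([(nat_lit 0),(nat_lit 2),(nat_lit 1),(nat_lit 0),(nat_lit 1),(nat_lit 0),(nat_lit 0),(nat_lit 0),(nat_lit 0),(nat_lit 0),(nat_lit 0),(nat_lit 0)], [Int.ofNat (nat_lit 677228555),Int.ofNat (nat_lit 688373095),Int.ofNat (nat_lit 3119009215),Int.ofNat (nat_lit 1263429308),Int.ofNat (nat_lit 3634520556),Int.ofNat (nat_lit 3395155682),Int.ofNat (nat_lit 2187058419),Int.negSucc (nat_lit 2451361287),Int.negSucc (nat_lit 1214991313),Int.ofNat (nat_lit 1387130076),Int.negSucc (nat_lit 651367173),Int.negSucc (nat_lit 3145650760),Int.ofNat (nat_lit 1583117639),Int.negSucc (nat_lit 881498061),Int.ofNat (nat_lit 3886665243),Int.ofNat (nat_lit 1659166753),Int.ofNat (nat_lit 2069721125),Int.ofNat (nat_lit 1293962556),Int.negSucc (nat_lit 1666161498),Int.negSucc (nat_lit 1021288126),Int.ofNat (nat_lit 2248133671),Int.ofNat (nat_lit 1479322124),Int.ofNat (nat_lit 202513458),Int.negSucc (nat_lit 2159158878),Int.negSucc (nat_lit 399369241),Int.negSucc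 (nat_lit 637338159),Int.negSucc (nat_lit 637120695),Int.ofNat (nat_lit 168947262),Int.ofNat (nat_lit 1486922642),Int.negSucc (nat_lit 1832666992),Int.ofNat (nat_lit 964666615),Int.negSucc (nat_lit 1160085811),Int.negSucc (nat_lit 142687417),Int.ofNat (nat_lit 1036281485),Int.negSucc (nat_lit 892456599),Int.negSucc (nat_lit 3603516746),Int.negSucc (nat_lit 2343268215),Int.negSucc (nat_lit 208607522),Int.ofNat (nat_lit 634948144),Int.ofNat (nat_lit 4164184097),Int.ofNat (nat_lit 167686409),Int.negSucc (nat_lit 1500344970),Int.negSucc (nat_lit 2400711256),Int.ofNat (nat_lit 6698143405)])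

/-- A row. -/
noncomputable def sr0_c1_14 : List ℕ × List ℤ :=
  ([(nat_lit 0),(nat_lit 2),(nat_lit 2),(nat_lit 0),(nat_lit 0),(nat_lit 0),(nat_lit 0),(nat_lit 0),(nat_lit 0),(nat_lit 0),(nat_lit 0),(nat_lit 0)], [Int.negSucc (nat_lit 6682347070),Int.negSucc (nat_lit 7011899),Int.ofNat (nat_lit 661157014),Int.negSucc (nat_lit 851846486),Int.negSucc (nat_lit 2466128108),Int.ofNat (nat_lit 4270315377),Int.negSucc (nat_lit 364995446),Int.negSucc (nat_lit 1526677031),Int.negSucc (nat_lit 5244835336),Int.ofNat (nat_lit 2069438398),Int.negSucc (nat_lit 1523906131),Int.ofNat (nat_lit 945770050),Int.negSucc (nat_lit 4804390676),Int.negSucc (nat_lit 603043419),Int.negSucc (nat_lit 4113844964),Int.negSucc (nat_lit 602648981),Int.ofNat (nat_lit 790757483),Int.negSucc (nat_lit 693764077),Int.negSucc (nat_lit 246916571),Int.negSucc (nat_lit 900184369),Int.negSucc (nat_lit 1145800734),Int.ofNat (nat_lit 1131823638),Int.ofNat (nat_lit 1134289844),Int.ofNat (nat_lit 1093371243),Int.negSucc (nat_lit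 2050024721),Int.ofNat (nat_lit 2741665495),Int.negSucc (nat_lit 1089342939),Int.negSucc (nat_lit 1305279648),Int.ofNat (nat_lit 920581162),Int.negSucc (nat_lit 2755879873),Int.negSucc (nat_lit 1210775323),Int.negSucc (nat_lit 2027460105),Int.ofNat (nat_lit 1337742874),Int.negSucc (nat_lit 303481076),Int.negSucc (nat_lit 1329385229),Int.negSucc (nat_lit 2321405267),Int.ofNat (nat_lit 3684222555),Int.ofNat (nat_lit 110469132),Int.negSucc (nat_lit 1006035420),Int.ofNat (nat_lit 1518512798),Int.negSucc (nat_lit 180356662),Int.ofNat (nat_lit 1552008528),Int.ofNat (nat_lit 7333198621),Int.ofNat (nat_lit 87001264),Int.ofNat (nat_lit 3808687846)])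

/-- A row. -/
noncomputable def sr0_c1_15 : List ℕ × List ℤ :=
  ([(nat_lit 0),(nat_lit 3),(nat_lit 0),(nat_lit 0),(nat_lit 0),(nat_lit 0),(nat_lit 0),(nat_lit 1),(nat_lit 0),(nat_lit 0),(nat_lit 0),(nat_lit 0)], [Int.ofNat (nat_lit 450849531),Int.negSucc (nat_lit 1919305453),Int.negSucc (nat_lit 1593684462),Int.ofNat (nat_lit 1921332973),Int.negSucc (nat_lit 1603608736),Int.negSucc (nat_lit 733478008),Int.negSucc (nat_lit 487465957),Int.ofNat (nat_lit 1080241670),Int.negSucc (nat_lit 937116724),Int.negSucc (nat_lit 862893301),Int.ofNat (nat_lit 1649747648),Int.ofNat (nat_lit 72532958),Int.negSucc (nat_lit 486297301),Int.negSucc (nat_lit 862685221),Int.negSucc (nat_lit 314450034),Int.negSucc (nat_lit 809745203),Int.negSucc (nat_lit 1045429374),Int.negSucc (nat_lit 426767238),Int.ofNat (nat_lit 71756035),Int.negSucc (nat_lit 460083395),Int.negSucc (nat_lit 82485889),Int.ofNat (nat_lit 422328737),Int.ofNat (nat_lit 321067004),Int.ofNat (nat_lit 487883438),Int.negSucc (nat_lit 632762742),Int.negSucc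 (nat_lit 2062590774),Int.negSucc (nat_lit 493962327),Int.ofNat (nat_lit 384317562),Int.negSucc (nat_lit 6133117),Int.negSucc (nat_lit 1102273500),Int.negSucc (nat_lit 61581945),Int.negSucc (nat_lit 840728470),Int.ofNat (nat_lit 501230570),Int.ofNat (nat_lit 602800597),Int.negSucc (nat_lit 156827905),Int.negSucc (nat_lit 477741116),Int.ofNat (nat_lit 305967064),Int.negSucc (nat_lit 1414597362),Int.negSucc (nat_lit 516176847),Int.ofNat (nat_lit 343648847),Int.negSucc (nat_lit 326770968),Int.ofNat (nat_lit 650739816),Int.ofNat (nat_lit 762221875),Int.ofNat (nat_lit 189770537),Int.ofNat (nat_lit 282524662),Int.ofNat (nat_lit 4170956096)])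

/-- A row. -/
noncomputable def sr0_c1_16 : List ℕ × List ℤ :=
  ([(nat_lit 0),(nat_lit 3),(nat_lit 0),(nat_lit 0),(nat_lit 0),(nat_lit 1),(nat_lit 0),(nat_lit 0),(nat_lit 0),(nat_lit 0),(nat_lit 0),(nat_lit 0)], [Int.ofNat (nat_lit 2662481780),Int.ofNat (nat_lit 42738845),Int.ofNat (nat_lit 1156223520),Int.negSucc (nat_lit 729525870),Int.negSucc (nat_lit 149868356),Int.negSucc (nat_lit 3188145836),Int.ofNat (nat_lit 1147510563),Int.negSucc (nat_lit 815429324),Int.ofNat (nat_lit 4488776611),Int.negSucc (nat_lit 1321719193),Int.negSucc (nat_lit 3656671599),Int.ofNat (nat_lit 2662813602),Int.ofNat (nat_lit 24891667),Int.negSucc (nat_lit 141645352),Int.ofNat (nat_lit 1168273526),Int.negSucc (nat_lit 1048275865),Int.negSucc (nat_lit 663127772),Int.negSucc (nat_lit 469419303),Int.negSucc (nat_lit 862032227),Int.negSucc (nat_lit 8978002),Int.negSucc (nat_lit 432584249),Int.negSucc (nat_lit 477397780),Int.negSucc (nat_lit 378848977),Int.negSucc (nat_lit 1009059210),Int.ofNat (nat_lit 423488391),Int.ofNat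 (nat_lit 415380805),Int.negSucc (nat_lit 5523875850),Int.negSucc (nat_lit 606671427),Int.negSucc (nat_lit 505501205),Int.negSucc (nat_lit 1404225352),Int.negSucc (nat_lit 186859053),Int.ofNat (nat_lit 2378880904),Int.negSucc (nat_lit 1153700602),Int.ofNat (nat_lit 4187034670),Int.ofNat (nat_lit 220410500),Int.ofNat (nat_lit 277241858),Int.negSucc (nat_lit 871490979),Int.ofNat (nat_lit 704705863),Int.ofNat (nat_lit 433657057),Int.negSucc (nat_lit 1106899649),Int.negSucc (nat_lit 5200316039),Int.negSucc (nat_lit 2596513761),Int.negSucc (nat_lit 1671183725),Int.negSucc (nat_lit 714877100),Int.negSucc (nat_lit 887594119),Int.negSucc (nat_lit 1520180306),Int.ofNat (nat_lit 7778248350)])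

/-- A row. -/
noncomputable def sr0_c1_17 : List ℕ × List ℤ :=
  ([(nat_lit 0),(nat_lit 3),(nat_lit 0),(nat_lit 1),(nat_lit 0),(nat_lit 0),(nat_lit 0),(nat_lit 0),(nat_lit 0),(nat_lit 0),(nat_lit 0),(nat_lit 0)], [Int.negSucc (nat_lit 2484508836),Int.negSucc (nat_lit 2061324164),Int.negSucc (nat_lit 6338978851),Int.ofNat (nat_lit 3661477007),Int.negSucc (nat_lit 3280969693),Int.ofNat (nat_lit 5065196680),Int.negSucc (nat_lit 8535820431),Int.ofNat (nat_lit 2012194938),Int.negSucc (nat_lit 5532178413),Int.negSucc (nat_lit 3107997975),Int.ofNat (nat_lit 5435580682),Int.negSucc (nat_lit 3035715908),Int.ofNat (nat_lit 10583275376),Int.ofNat (nat_lit 4597789001),Int.negSucc (nat_lit 2476143555),Int.negSucc (nat_lit 4634277439),Int.negSucc (nat_lit 472117042),Int.negSucc (nat_lit 3307552576),Int.ofNat (nat_lit 2384653227),Int.negSucc (nat_lit 1496776924),Int.ofNat (nat_lit 609739831),Int.negSucc (nat_lit 11606437),Int.ofNat (nat_lit 102843900),Int.ofNat (nat_lit 12331496382),Int.negSucc (nat_lit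 5114528171),Int.negSucc (nat_lit 3447595017),Int.ofNat (nat_lit 5130550555),Int.ofNat (nat_lit 626419109),Int.negSucc (nat_lit 11418343738),Int.ofNat (nat_lit 6017726567),Int.negSucc (nat_lit 3893363554),Int.ofNat (nat_lit 2660801880),Int.negSucc (nat_lit 1218359354),Int.negSucc (nat_lit 932211349),Int.ofNat (nat_lit 2139396629),Int.negSucc (nat_lit 2236816313),Int.negSucc (nat_lit 9078183),Int.negSucc (nat_lit 2490773606),Int.ofNat (nat_lit 2927282763),Int.negSucc (nat_lit 1229121616),Int.ofNat (nat_lit 6689282675),Int.negSucc (nat_lit 13018649227),Int.ofNat (nat_lit 2981050206),Int.ofNat (nat_lit 976049958),Int.ofNat (nat_lit 9019834),Int.ofNat (nat_lit 1602748863),Int.negSucc (nat_lit 3683006571),Int.ofNat (nat_lit 14685101032)])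

/-- A row. -/
noncomputable def sr0_c1_18 : List ℕ × List ℤ :=
  ([(nat_lit 0),(nat_lit 3),(nat_lit 1),(nat_lit 1),(nat_lit 0),(nat_lit 0),(nat_lit 0),(nat_lit 0),(nat_lit 0),(nat_lit 0),(nat_lit 0),(nat_lit 0)], [Int.negSucc (nat_lit 2739494495),Int.negSucc (nat_lit 2477794252),Int.negSucc (nat_lit 2304241633),Int.negSucc (nat_lit 2859098733),Int.ofNat (nat_lit 1406792065),Int.ofNat (nat_lit 444919794),Int.negSucc (nat_lit 2489847241),Int.negSucc (nat_lit 1119737392),Int.negSucc (nat_lit 747166458),Int.ofNat (nat_lit 218958625),Int.negSucc (nat_lit 2502971820),Int.ofNat (nat_lit 371603299),Int.ofNat (nat_lit 1605239728),Int.ofNat (nat_lit 3303102716),Int.ofNat (nat_lit 583884890),Int.negSucc (nat_lit 2296740486),Int.negSucc (nat_lit 1469058208),Int.negSucc (nat_lit 2998772137),Int.negSucc (nat_lit 4194662051),Int.ofNat (nat_lit 2636957919),Int.negSucc (nat_lit 376571633),Int.negSucc (nat_lit 1262843141),Int.ofNat (nat_lit 27425460),Int.ofNat (nat_lit 1734732762),Int.negSucc (nat_lit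 223522668),Int.negSucc (nat_lit 331908891),Int.ofNat (nat_lit 761440293),Int.ofNat (nat_lit 652173038),Int.negSucc (nat_lit 5760059559),Int.ofNat (nat_lit 544107020),Int.negSucc (nat_lit 1314457966),Int.ofNat (nat_lit 1814908632),Int.ofNat (nat_lit 796636875),Int.ofNat (nat_lit 1150277934),Int.negSucc (nat_lit 3359017681),Int.ofNat (nat_lit 2633938633),Int.negSucc (nat_lit 1231657685),Int.negSucc (nat_lit 480832943),Int.ofNat (nat_lit 1024573709),Int.negSucc (nat_lit 969535529),Int.ofNat (nat_lit 976463909),Int.negSucc (nat_lit 246125112),Int.ofNat (nat_lit 193095778),Int.negSucc (nat_lit 263284485),Int.ofNat (nat_lit 1076229802),Int.ofNat (nat_lit 377200517),Int.negSucc (nat_lit 472158498),Int.ofNat (nat_lit 4073181647),Int.ofNat (nat_lit 9718474979)])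

/-- A row. -/
noncomputable def sr0_c1_19 : List ℕ × List ℤ :=
  ([(nat_lit 0),(nat_lit 4),(nat_lit 0),(nat_lit 0),(nat_lit 0),(nat_lit 0),(nat_lit 0),(nat_lit 0),(nat_lit 0),(nat_lit 0),(nat_lit 0),(nat_lit 0)], [Int.ofNat (nat_lit 2281152493),Int.ofNat (nat_lit 473208188),Int.ofNat (nat_lit 955964633),Int.negSucc (nat_lit 7744534178),Int.ofNat (nat_lit 11915440547),Int.negSucc (nat_lit 10266939707),Int.ofNat (nat_lit 11276217589),Int.negSucc (nat_lit 111561794),Int.ofNat (nat_lit 5600839246),Int.negSucc (nat_lit 255794895),Int.negSucc (nat_lit 4718869651),Int.ofNat (nat_lit 640994972),Int.ofNat (nat_lit 2828898798),Int.negSucc (nat_lit 3196217328),Int.negSucc (nat_lit 1205100338),Int.ofNat (nat_lit 2959258875),Int.ofNat (nat_lit 2186895984),Int.ofNat (nat_lit 68128308),Int.ofNat (nat_lit 125781932),Int.ofNat (nat_lit 2146845379),Int.ofNat (nat_lit 4676761532),Int.ofNat (nat_lit 2272499383),Int.negSucc (nat_lit 5160372903),Int.negSucc (nat_lit 8965271919),Int.ofNat (nat_lit 7093428908),Int.ofNat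 (nat_lit 3905960318),Int.negSucc (nat_lit 10482426469),Int.ofNat (nat_lit 2027580696),Int.ofNat (nat_lit 7601189325),Int.ofNat (nat_lit 276829120),Int.ofNat (nat_lit 6734059642),Int.ofNat (nat_lit 2982563898),Int.negSucc (nat_lit 507903190),Int.ofNat (nat_lit 2171472460),Int.negSucc (nat_lit 4968358270),Int.ofNat (nat_lit 4129784659),Int.negSucc (nat_lit 16192340235),Int.negSucc (nat_lit 662051148),Int.ofNat (nat_lit 2452287915),Int.negSucc (nat_lit 6800442508),Int.negSucc (nat_lit 2590067940),Int.negSucc (nat_lit 396732315),Int.ofNat (nat_lit 1997317134),Int.ofNat (nat_lit 2182187310),Int.negSucc (nat_lit 7081140220),Int.negSucc (nat_lit 3393122281),Int.ofNat (nat_lit 5454748413),Int.negSucc (nat_lit 9231803806),Int.ofNat (nat_lit 2630054174),Int.ofNat (nat_lit 11349416949)])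

/-- A row. -/
noncomputable def sr0_c1_20 : List ℕ × List ℤ :=
  ([(nat_lit 0),(nat_lit 4),(nat_lit 0),(nat_lit 0),(nat_lit 1),(nat_lit 0),(nat_lit 0),(nat_lit 0),(nat_lit 0),(nat_lit 0),(nat_lit 0),(nat_lit 0)], [Int.ofNat (nat_lit 2796103838),Int.negSucc (nat_lit 967115340),Int.negSucc (nat_lit 3114244707),Int.negSucc (nat_lit 723046696),Int.ofNat (nat_lit 2057281570),Int.ofNat (nat_lit 1382560120),Int.negSucc (nat_lit 3847559811),Int.negSucc (nat_lit 1226352681),Int.ofNat (nat_lit 2224887386),Int.ofNat (nat_lit 417305658),Int.ofNat (nat_lit 874894671),Int.ofNat (nat_lit 3155527968),Int.ofNat (nat_lit 592437016),Int.negSucc (nat_lit 4562535243),Int.ofNat (nat_lit 220641800),Int.negSucc (nat_lit 1718834318),Int.ofNat (nat_lit 656285580),Int.negSucc (nat_lit 999453106),Int.negSucc (nat_lit 1215903091),Int.negSucc (nat_lit 1250513931),Int.ofNat (nat_lit 379751076),Int.negSucc (nat_lit 973047150),Int.ofNat (nat_lit 65851750),Int.ofNat (nat_lit 117659099),Int.ofNat (nat_lit 1389232346),Int.ofNat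 (nat_lit 1176746026),Int.ofNat (nat_lit 621982823),Int.negSucc (nat_lit 2620640006),Int.negSucc (nat_lit 1306914861),Int.negSucc (nat_lit 1526926132),Int.ofNat (nat_lit 1558095814),Int.negSucc (nat_lit 1133941000),Int.ofNat (nat_lit 592186750),Int.negSucc (nat_lit 37285845),Int.negSucc (nat_lit 130964970),Int.negSucc (nat_lit 245790236),Int.ofNat (nat_lit 3230852829),Int.ofNat (nat_lit 1035288886),Int.negSucc (nat_lit 197973174),Int.negSucc (nat_lit 5710961994),Int.negSucc (nat_lit 1293210120),Int.ofNat (nat_lit 1379334450),Int.negSucc (nat_lit 97238700),Int.ofNat (nat_lit 2412920408),Int.ofNat (nat_lit 873912159),Int.negSucc (nat_lit 135308368),Int.ofNat (nat_lit 1000661814),Int.ofNat (nat_lit 208441117),Int.negSucc (nat_lit 400036599),Int.negSucc (nat_lit 2490734808),Int.ofNat (nat_lit 7446817417)])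

/-- A row. -/
noncomputable def sr0_c1_21 : List ℕ × List ℤ :=
  ([(nat_lit 0),(nat_lit 4),(nat_lit 1),(nat_lit 0),(nat_lit 0),(nat_lit 0),(nat_lit 0),(nat_lit 0),(nat_lit 0),(nat_lit 0),(nat_lit 0),(nat_lit 0)], [Int.ofNat (nat_lit 4520280850),Int.ofNat (nat_lit 2651066699),Int.ofNat (nat_lit 240471832),Int.negSucc (nat_lit 1624787130),Int.ofNat (nat_lit 3603203033),Int.negSucc (nat_lit 5822758530),Int.ofNat (nat_lit 8369146478),Int.ofNat (nat_lit 1591776365),Int.ofNat (nat_lit 1836720927),Int.ofNat (nat_lit 1315327989),Int.ofNat (nat_lit 3028825592),Int.negSucc (nat_lit 7546866396),Int.ofNat (nat_lit 3876820463),Int.negSucc (nat_lit 2838235068),Int.negSucc (nat_lit 341292940),Int.ofNat (nat_lit 5373006076),Int.negSucc (nat_lit 1427989692),Int.ofNat (nat_lit 4547288262),Int.ofNat (nat_lit 3023326901),Int.negSucc (nat_lit 3001557030),Int.ofNat (nat_lit 3913405622),Int.ofNat (nat_lit 2092085839),Int.ofNat (nat_lit 1204585021),Int.negSucc (nat_lit 4566110239),Int.ofNat (nat_lit 1592934248),Int.ofNat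 (nat_lit 1581191325),Int.negSucc (nat_lit 2261051999),Int.negSucc (nat_lit 261040064),Int.ofNat (nat_lit 5611244474),Int.ofNat (nat_lit 1521190519),Int.ofNat (nat_lit 2471576135),Int.ofNat (nat_lit 1166294782),Int.negSucc (nat_lit 3096912463),Int.negSucc (nat_lit 3019387293),Int.ofNat (nat_lit 3037708087),Int.negSucc (nat_lit 4385899083),Int.negSucc (nat_lit 12828777832),Int.negSucc (nat_lit 639536820),Int.ofNat (nat_lit 1559360394),Int.negSucc (nat_lit 2301481478),Int.ofNat (nat_lit 458595038),Int.negSucc (nat_lit 1652675014),Int.negSucc (nat_lit 5484921010),Int.negSucc (nat_lit 858164562),Int.ofNat (nat_lit 2300929852),Int.negSucc (nat_lit 575982706),Int.negSucc (nat_lit 658562527),Int.negSucc (nat_lit 1808246103),Int.negSucc (nat_lit 3806515105),Int.ofNat (nat_lit 4481130092),Int.negSucc (nat_lit 48630387),Int.ofNat (nat_lit 6101392736)])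

/-- A row. -/
noncomputable def sr0_c1_22 : List ℕ × List ℤ :=
  ([(nat_lit 0),(nat_lit 5),(nat_lit 0),(nat_lit 1),(nat_lit 0),(nat_lit 0),(nat_lit 0),(nat_lit 0),(nat_lit 0),(nat_lit 0),(nat_lit 0),(nat_lit 0)], [Int.negSucc (nat_lit 1372335271),Int.negSucc (nat_lit 1348308117),Int.ofNat (nat_lit 2218746179),Int.negSucc (nat_lit 2640755839),Int.ofNat (nat_lit 4196870507),Int.negSucc (nat_lit 3263565996),Int.ofNat (nat_lit 2810335012),Int.negSucc (nat_lit 602653523),Int.ofNat (nat_lit 2924977114),Int.ofNat (nat_lit 1797151108),Int.negSucc (nat_lit 1607073636),Int.ofNat (nat_lit 905549296),Int.negSucc (nat_lit 4845879260),Int.negSucc (nat_lit 3090019886),Int.ofNat (nat_lit 426983268),Int.ofNat (nat_lit 2656209547),Int.negSucc (nat_lit 49478281),Int.ofNat (nat_lit 1538197410),Int.negSucc (nat_lit 933965641),Int.negSucc (nat_lit 285679658),Int.negSucc (nat_lit 899067503),Int.negSucc (nat_lit 584743925),Int.ofNat (nat_lit 444074789),Int.negSucc (nat_lit 6792663961),Int.ofNat (nat_lit 4459848081),Int.ofNat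 (nat_lit 1849620797),Int.negSucc (nat_lit 2197378572),Int.negSucc (nat_lit 247840939),Int.ofNat (nat_lit 3648846482),Int.negSucc (nat_lit 4017497121),Int.ofNat (nat_lit 3179449639),Int.negSucc (nat_lit 2698585762),Int.ofNat (nat_lit 2130784794),Int.negSucc (nat_lit 498125081),Int.negSucc (nat_lit 2396631568),Int.ofNat (nat_lit 1290671123),Int.ofNat (nat_lit 1422738069),Int.ofNat (nat_lit 2943372866),Int.negSucc (nat_lit 2072306296),Int.ofNat (nat_lit 936748739),Int.negSucc (nat_lit 3376673432),Int.ofNat (nat_lit 7515919818),Int.negSucc (nat_lit 1343906511),Int.negSucc (nat_lit 1222233688),Int.ofNat (nat_lit 2017225382),Int.negSucc (nat_lit 1330059909),Int.ofNat (nat_lit 918611061),Int.negSucc (nat_lit 13131447916),Int.ofNat (nat_lit 3921125484),Int.negSucc (nat_lit 1950344994),Int.ofNat (nat_lit 858200278),Int.negSucc (nat_lit 122325592),Int.ofNat (nat_lit 7431933052)])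

/-- A row. -/
noncomputable def sr0_c1_23 : List ℕ × List ℤ :=
  ([(nat_lit 0),(nat_lit 6),(nat_lit 0),(nat_lit 0),(nat_lit 0),(nat_lit 0),(nat_lit 0),(nat_lit 0),(nat_lit 0),(nat_lit 0),(nat_lit 0),(nat_lit 0)], [Int.ofNat (nat_lit 1630617539),Int.ofNat (nat_lit 3210372106),Int.ofNat (nat_lit 2877839999),Int.ofNat (nat_lit 4072792852),Int.negSucc (nat_lit 8203314822),Int.ofNat (nat_lit 6608332677),Int.negSucc (nat_lit 1555353768),Int.negSucc (nat_lit 592896822),Int.negSucc (nat_lit 2524250796),Int.ofNat (nat_lit 1524173575),Int.ofNat (nat_lit 1195913617),Int.negSucc (nat_lit 2238769922),Int.negSucc (nat_lit 963280343),Int.ofNat (nat_lit 2351379850),Int.ofNat (nat_lit 1920930733),Int.negSucc (nat_lit 135490694),Int.negSucc (nat_lit 1549552275),Int.ofNat (nat_lit 1735637688),Int.negSucc (nat_lit 227082366),Int.negSucc (nat_lit 994671483),Int.negSucc (nat_lit 1920985975),Int.negSucc (nat_lit 508064722),Int.ofNat (nat_lit 3966299335),Int.ofNat (nat_lit 4643703798),Int.negSucc (nat_lit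 6173597954),Int.negSucc (nat_lit 831402676),Int.ofNat (nat_lit 4961827505),Int.negSucc (nat_lit 1211277316),Int.negSucc (nat_lit 1286019726),Int.ofNat (nat_lit 670346581),Int.negSucc (nat_lit 4437438294),Int.negSucc (nat_lit 109953726),Int.negSucc (nat_lit 1949746080),Int.negSucc (nat_lit 1098288525),Int.ofNat (nat_lit 4580485374),Int.negSucc (nat_lit 4289132718),Int.ofNat (nat_lit 5097217296),Int.ofNat (nat_lit 63048649),Int.negSucc (nat_lit 1173500139),Int.ofNat (nat_lit 5184982835),Int.ofNat (nat_lit 1756176628),Int.negSucc (nat_lit 1278400745),Int.negSucc (nat_lit 4216075545),Int.negSucc (nat_lit 2791710455),Int.ofNat (nat_lit 6141614784),Int.ofNat (nat_lit 2717596164),Int.negSucc (nat_lit 3119084885),Int.ofNat (nat_lit 8529945525),Int.negSucc (nat_lit 4297620328),Int.negSucc (nat_lit 8581001902),Int.negSucc (nat_lit 1890243905),Int.ofNat (nat_lit 3378019567),Int.negSucc (nat_lit 3520724380),Int.ofNat (nat_lit 3012441879)])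

/-- A row. -/
noncomputable def sr0_c1_24 : List ℕ × List ℤ :=
  ([(nat_lit 1),(nat_lit 0),(nat_lit 0),(nat_lit 0),(nat_lit 0),(nat_lit 0),(nat_lit 0),(nat_lit 0),(nat_lit 0),(nat_lit 0),(nat_lit 0),(nat_lit 0)], [Int.negSucc (nat_lit 17103266146),Int.negSucc (nat_lit 1908249148),Int.negSucc (nat_lit 2902158631),Int.ofNat (nat_lit 2992871257),Int.negSucc (nat_lit 956412178),Int.ofNat (nat_lit 1099064386),Int.negSucc (nat_lit 643711400),Int.negSucc (nat_lit 685526450),Int.negSucc (nat_lit 1241503209),Int.negSucc (nat_lit 1568328645),Int.ofNat (nat_lit 1994527516),Int.negSucc (nat_lit 843895385),Int.negSucc (nat_lit 130899190),Int.ofNat (nat_lit 950061999),Int.ofNat (nat_lit 1206762037),Int.ofNat (nat_lit 445010370),Int.ofNat (nat_lit 1117256828),Int.ofNat (nat_lit 986822615),Int.negSucc (nat_lit 169964213),Int.ofNat (nat_lit 372622178),Int.ofNat (nat_lit 689949504),Int.ofNat (nat_lit 778060053),Int.negSucc (nat_lit 716548178),Int.ofNat (nat_lit 933760296),Int.ofNat (nat_lit 873919596),Int.negSucc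 (nat_lit 398102800),Int.ofNat (nat_lit 217941928),Int.negSucc (nat_lit 773675915),Int.ofNat (nat_lit 877624904),Int.ofNat (nat_lit 702528791),Int.ofNat (nat_lit 235847694),Int.ofNat (nat_lit 350299662),Int.negSucc (nat_lit 656684586),Int.negSucc (nat_lit 715862666),Int.negSucc (nat_lit 320273398),Int.ofNat (nat_lit 54275229),Int.negSucc (nat_lit 603888972),Int.negSucc (nat_lit 601575716),Int.ofNat (nat_lit 24851688),Int.ofNat (nat_lit 428413629),Int.ofNat (nat_lit 215129963),Int.negSucc (nat_lit 101314519),Int.negSucc (nat_lit 82534529),Int.ofNat (nat_lit 500065971),Int.ofNat (nat_lit 341251125),Int.ofNat (nat_lit 306094664),Int.ofNat (nat_lit 330859417),Int.ofNat (nat_lit 275620956),Int.negSucc (nat_lit 228285654),Int.ofNat (nat_lit 129213539),Int.negSucc (nat_lit 100262069),Int.negSucc (nat_lit 45985194),Int.ofNat (nat_lit 10501259),Int.negSucc (nat_lit 41035462),Int.ofNat (nat_lit 4323996524)])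

/-- A row. -/
noncomputable def sr0_c1_25 : List ℕ × List ℤ :=
  ([(nat_lit 1),(nat_lit 0),(nat_lit 0),(nat_lit 0),(nat_lit 0),(nat_lit 0),(nat_lit 0),(nat_lit 0),(nat_lit 0),(nat_lit 0),(nat_lit 1),(nat_lit 0)], [Int.negSucc (nat_lit 7493013835),Int.negSucc (nat_lit 15065293766),Int.negSucc (nat_lit 242002110),Int.negSucc (nat_lit 147868469),Int.ofNat (nat_lit 79062079),Int.negSucc (nat_lit 485747449),Int.negSucc (nat_lit 529914202),Int.ofNat (nat_lit 499889123),Int.negSucc (nat_lit 12388849),Int.negSucc (nat_lit 28341526),Int.ofNat (nat_lit 680475655),Int.ofNat (nat_lit 182836553),Int.ofNat (nat_lit 260066385),Int.ofNat (nat_lit 70433037),Int.negSucc (nat_lit 154393825),Int.ofNat (nat_lit 188242643),Int.negSucc (nat_lit 140318969),Int.negSucc (nat_lit 313768332),Int.ofNat (nat_lit 203028073),Int.ofNat (nat_lit 22037596),Int.ofNat (nat_lit 40912079),Int.negSucc (nat_lit 318340923),Int.negSucc (nat_lit 31383246),Int.ofNat (nat_lit 43414189),Int.ofNat (nat_lit 27557055),Int.ofNat (nat_lit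 19184683),Int.ofNat (nat_lit 121157150),Int.ofNat (nat_lit 240034401),Int.negSucc (nat_lit 170775497),Int.ofNat (nat_lit 276865299),Int.ofNat (nat_lit 47444348),Int.ofNat (nat_lit 42646903),Int.negSucc (nat_lit 65033579),Int.ofNat (nat_lit 43270830),Int.negSucc (nat_lit 12024524),Int.ofNat (nat_lit 143007446),Int.ofNat (nat_lit 40826874),Int.negSucc (nat_lit 40648566),Int.ofNat (nat_lit 13530572),Int.negSucc (nat_lit 107933668),Int.ofNat (nat_lit 59532046),Int.ofNat (nat_lit 2328555),Int.ofNat (nat_lit 687260),Int.negSucc (nat_lit 91481179),Int.negSucc (nat_lit 34172918),Int.ofNat (nat_lit 23051517),Int.ofNat (nat_lit 23069900),Int.negSucc (nat_lit 28393410),Int.ofNat (nat_lit 5231786),Int.ofNat (nat_lit 24432466),Int.ofNat (nat_lit 15963068),Int.negSucc (nat_lit 12969464),Int.ofNat (nat_lit 13201833),Int.ofNat (nat_lit 8677578),Int.ofNat (nat_lit 1978434),Int.ofNat (nat_lit 464978554)])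

/-- A row. -/
noncomputable def sr0_c1_26 : List ℕ × List ℤ :=
  ([(nat_lit 1),(nat_lit 0),(nat_lit 0),(nat_lit 0),(nat_lit 0),(nat_lit 0),(nat_lit 0),(nat_lit 0),(nat_lit 1),(nat_lit 0),(nat_lit 0),(nat_lit 0)], [Int.ofNat (nat_lit 696157940),Int.negSucc (nat_lit 285354065),Int.negSucc (nat_lit 2434455111),Int.ofNat (nat_lit 304306837),Int.negSucc (nat_lit 1085963661),Int.ofNat (nat_lit 751560155),Int.negSucc (nat_lit 517887060),Int.negSucc (nat_lit 405874780),Int.negSucc (nat_lit 66910310),Int.negSucc (nat_lit 7347700),Int.ofNat (nat_lit 685470213),Int.negSucc (nat_lit 56855711),Int.ofNat (nat_lit 54941651),Int.ofNat (nat_lit 356566803),Int.negSucc (nat_lit 9276925),Int.ofNat (nat_lit 1130240173),Int.ofNat (nat_lit 374956888),Int.ofNat (nat_lit 122736550),Int.negSucc (nat_lit 25913133),Int.ofNat (nat_lit 48126965),Int.ofNat (nat_lit 195768540),Int.negSucc (nat_lit 85955949),Int.negSucc (nat_lit 65964492),Int.ofNat (nat_lit 111670696),Int.ofNat (nat_lit 21692349),Int.negSucc (nat_lit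 142770253),Int.negSucc (nat_lit 29682881),Int.ofNat (nat_lit 102051720),Int.ofNat (nat_lit 133886903),Int.ofNat (nat_lit 286558900),Int.ofNat (nat_lit 229154329),Int.ofNat (nat_lit 23545420),Int.negSucc (nat_lit 45960389),Int.negSucc (nat_lit 139368999),Int.negSucc (nat_lit 71823782),Int.negSucc (nat_lit 105584378),Int.negSucc (nat_lit 123498072),Int.ofNat (nat_lit 217657),Int.negSucc (nat_lit 192593427),Int.ofNat (nat_lit 148300865),Int.ofNat (nat_lit 52312523),Int.negSucc (nat_lit 100185428),Int.negSucc (nat_lit 51749964),Int.ofNat (nat_lit 105541478),Int.negSucc (nat_lit 30558072),Int.negSucc (nat_lit 114725656),Int.ofNat (nat_lit 66739989),Int.ofNat (nat_lit 7707897),Int.negSucc (nat_lit 39215002),Int.negSucc (nat_lit 63413833),Int.ofNat (nat_lit 62422765),Int.ofNat (nat_lit 65963265),Int.ofNat (nat_lit 34200297),Int.negSucc (nat_lit 3323485),Int.ofNat (nat_lit 3499319),Int.negSucc (nat_lit 104068065),Int.ofNat (nat_lit 977837462)])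

/-- A row. -/
noncomputable def sr0_c1_27 : List ℕ × List ℤ :=
  ([(nat_lit 1),(nat_lit 0),(nat_lit 0),(nat_lit 0),(nat_lit 0),(nat_lit 0),(nat_lit 1),(nat_lit 0),(nat_lit 0),(nat_lit 0),(nat_lit 0),(nat_lit 0)], [Int.negSucc (nat_lit 7579898853),Int.ofNat (nat_lit 2840999284),Int.ofNat (nat_lit 675511306),Int.negSucc (nat_lit 6464600718),Int.ofNat (nat_lit 87125800),Int.negSucc (nat_lit 784176024),Int.negSucc (nat_lit 235631591),Int.negSucc (nat_lit 378160865),Int.negSucc (nat_lit 366567047),Int.negSucc (nat_lit 177167267),Int.ofNat (nat_lit 414699879),Int.negSucc (nat_lit 335363629),Int.ofNat (nat_lit 326682384),Int.negSucc (nat_lit 1083155636),Int.ofNat (nat_lit 641872455),Int.ofNat (nat_lit 87747782),Int.ofNat (nat_lit 729209401),Int.negSucc (nat_lit 6607370),Int.ofNat (nat_lit 161642104),Int.negSucc (nat_lit 385432075),Int.ofNat (nat_lit 63294963),Int.ofNat (nat_lit 758840661),Int.ofNat (nat_lit 78336242),Int.negSucc (nat_lit 1391905483),Int.ofNat (nat_lit 545673813),Int.ofNat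 (nat_lit 163122276),Int.ofNat (nat_lit 226380650),Int.ofNat (nat_lit 16522722),Int.ofNat (nat_lit 229526625),Int.negSucc (nat_lit 565754188),Int.negSucc (nat_lit 181489184),Int.negSucc (nat_lit 84668793),Int.ofNat (nat_lit 77646415),Int.ofNat (nat_lit 369183951),Int.negSucc (nat_lit 104891558),Int.negSucc (nat_lit 192407563),Int.negSucc (nat_lit 75807911),Int.negSucc (nat_lit 555749177),Int.negSucc (nat_lit 350569778),Int.ofNat (nat_lit 165597781),Int.ofNat (nat_lit 20376759),Int.ofNat (nat_lit 304931081),Int.negSucc (nat_lit 68042915),Int.negSucc (nat_lit 144217083),Int.ofNat (nat_lit 146696694),Int.ofNat (nat_lit 297579144),Int.ofNat (nat_lit 208711764),Int.ofNat (nat_lit 239042890),Int.negSucc (nat_lit 97816954),Int.ofNat (nat_lit 169998895),Int.negSucc (nat_lit 37802553),Int.negSucc (nat_lit 60097203),Int.negSucc (nat_lit 35359823),Int.ofNat (nat_lit 54426579),Int.ofNat (nat_lit 878593265),Int.ofNat (nat_lit 213440061),Int.negSucc (nat_lit 670793037),Int.ofNat (nat_lit 2535631908)])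

/-- A row. -/
noncomputable def sr0_c1_28 : List ℕ × List ℤ :=
  ([(nat_lit 1),(nat_lit 0),(nat_lit 0),(nat_lit 0),(nat_lit 0),(nat_lit 2),(nat_lit 0),(nat_lit 0),(nat_lit 0),(nat_lit 0),(nat_lit 0),(nat_lit 0)], [Int.ofNat (nat_lit 984323532),Int.negSucc (nat_lit 108859282),Int.ofNat (nat_lit 159260333),Int.ofNat (nat_lit 1225155215),Int.negSucc (nat_lit 572520336),Int.negSucc (nat_lit 4847514814),Int.negSucc (nat_lit 406995245),Int.negSucc (nat_lit 242952919),Int.ofNat (nat_lit 222447878),Int.ofNat (nat_lit 733274595),Int.ofNat (nat_lit 14195058),Int.ofNat (nat_lit 624852412),Int.ofNat (nat_lit 524230737),Int.ofNat (nat_lit 758784659),Int.ofNat (nat_lit 158285580),Int.negSucc (nat_lit 189235707),Int.negSucc (nat_lit 108497630),Int.negSucc (nat_lit 268139909),Int.negSucc (nat_lit 387601719),Int.ofNat (nat_lit 600707823),Int.ofNat (nat_lit 371415830),Int.negSucc (nat_lit 458995739),Int.negSucc (nat_lit 89894361),Int.ofNat (nat_lit 798629779),Int.negSucc (nat_lit 122157364),Int.negSucc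 (nat_lit 739621460),Int.ofNat (nat_lit 213315817),Int.negSucc (nat_lit 229338510),Int.negSucc (nat_lit 105945328),Int.ofNat (nat_lit 1142024595),Int.ofNat (nat_lit 27195596),Int.ofNat (nat_lit 250993546),Int.negSucc (nat_lit 443250684),Int.ofNat (nat_lit 140330194),Int.negSucc (nat_lit 200632923),Int.ofNat (nat_lit 238424185),Int.ofNat (nat_lit 173184566),Int.negSucc (nat_lit 66011635),Int.negSucc (nat_lit 97648426),Int.negSucc (nat_lit 92627553),Int.ofNat (nat_lit 583644317),Int.negSucc (nat_lit 16832412),Int.negSucc (nat_lit 152823442),Int.ofNat (nat_lit 10470637),Int.negSucc (nat_lit 111645316),Int.negSucc (nat_lit 132733362),Int.ofNat (nat_lit 58976892),Int.negSucc (nat_lit 36051873),Int.ofNat (nat_lit 72048058),Int.negSucc (nat_lit 2257183),Int.ofNat (nat_lit 7844768),Int.ofNat (nat_lit 70180023),Int.ofNat (nat_lit 14252389),Int.negSucc (nat_lit 62337544),Int.ofNat (nat_lit 70188652),Int.ofNat (nat_lit 279731350),Int.ofNat (nat_lit 293908923),Int.negSucc (nat_lit 155224446),Int.ofNat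 (nat_lit 1233049869)])

/-- A row. -/
noncomputable def sr0_c1_29 : List ℕ × List ℤ :=
  ([(nat_lit 1),(nat_lit 0),(nat_lit 0),(nat_lit 0),(nat_lit 1),(nat_lit 0),(nat_lit 0),(nat_lit 0),(nat_lit 0),(nat_lit 0),(nat_lit 0),(nat_lit 0)], [Int.ofNat (nat_lit 15627199854),Int.ofNat (nat_lit 1253465087),Int.ofNat (nat_lit 6112097667),Int.negSucc (nat_lit 5227807333),Int.negSucc (nat_lit 3552754743),Int.negSucc (nat_lit 2577930198),Int.negSucc (nat_lit 10324164112),Int.ofNat (nat_lit 2972346689),Int.negSucc (nat_lit 2759898321),Int.ofNat (nat_lit 1383351927),Int.negSucc (nat_lit 1044257123),Int.ofNat (nat_lit 1445603864),Int.ofNat (nat_lit 515986884),Int.negSucc (nat_lit 2019553789),Int.negSucc (nat_lit 147033048),Int.ofNat (nat_lit 329706943),Int.negSucc (nat_lit 620628927),Int.negSucc (nat_lit 1557414538),Int.ofNat (nat_lit 587676460),Int.negSucc (nat_lit 380173767),Int.negSucc (nat_lit 77421726),Int.negSucc (nat_lit 1599161590),Int.ofNat (nat_lit 675697457),Int.negSucc (nat_lit 1350204887),Int.negSucc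 (nat_lit 274517187),Int.ofNat (nat_lit 1494491636),Int.negSucc (nat_lit 448275236),Int.ofNat (nat_lit 2188446578),Int.negSucc (nat_lit 502777185),Int.negSucc (nat_lit 1358287848),Int.ofNat (nat_lit 132094169),Int.negSucc (nat_lit 555983404),Int.ofNat (nat_lit 978208844),Int.ofNat (nat_lit 544511566),Int.ofNat (nat_lit 613626984),Int.negSucc (nat_lit 61115099),Int.ofNat (nat_lit 172737505),Int.ofNat (nat_lit 779991269),Int.ofNat (nat_lit 287531107),Int.negSucc (nat_lit 1031335075),Int.negSucc (nat_lit 569522360),Int.negSucc (nat_lit 159296092),Int.ofNat (nat_lit 436493644),Int.negSucc (nat_lit 847443825),Int.negSucc (nat_lit 155987376),Int.negSucc (nat_lit 118320114),Int.negSucc (nat_lit 389248758),Int.negSucc (nat_lit 363388794),Int.ofNat (nat_lit 317685174),Int.negSucc (nat_lit 146112868),Int.ofNat (nat_lit 178623908),Int.negSucc (nat_lit 109853989),Int.negSucc (nat_lit 12635048),Int.ofNat (nat_lit 96604756),Int.negSucc (nat_lit 3338782667),Int.ofNat (nat_lit 670687920),Int.ofNat (nat_lit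 155265696),Int.negSucc (nat_lit 384534157),Int.negSucc (nat_lit 831360616),Int.ofNat (nat_lit 2959818996)])

/-- A part of a triangular factor. -/
noncomputable def sr0_c1 : Rows :=
  [sr0_c1_0,
   sr0_c1_1,
   sr0_c1_2,
   sr0_c1_3,
   sr0_c1_4,
   sr0_c1_5,
   sr0_c1_6,
   sr0_c1_7,
   sr0_c1_8,
   sr0_c1_9,
   sr0_c1_10,
   sr0_c1_11,
   sr0_c1_12,
   sr0_c1_13,
   sr0_c1_14,
   sr0_c1_15,
   sr0_c1_16,
   sr0_c1_17,
   sr0_c1_18,
   sr0_c1_19,
   sr0_c1_20,
   sr0_c1_21,
   sr0_c1_22,
   sr0_c1_23,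
   sr0_c1_24,
   sr0_c1_25,
   sr0_c1_26,
   sr0_c1_27,
   sr0_c1_28,
   sr0_c1_29]

/-- A row. -/
noncomputable def sr0_c2_0 : List ℕ × List ℤ :=
  ([(nat_lit 1),(nat_lit 0),(nat_lit 0),(nat_lit 0),(nat_lit 2),(nat_lit 0),(nat_lit 0),(nat_lit 0),(nat_lit 0),(nat_lit 0),(nat_lit 0),(nat_lit 0)], [Int.negSucc (nat_lit 828162886),Int.negSucc (nat_lit 517171647),Int.negSucc (nat_lit 1079835293),Int.ofNat (nat_lit 1913044801),Int.negSucc (nat_lit 842206147),Int.ofNat (nat_lit 3367212409),Int.ofNat (nat_lit 3861098720),Int.negSucc (nat_lit 1738989188),Int.negSucc (nat_lit 2724938907),Int.ofNat (nat_lit 877004406),Int.negSucc (nat_lit 258984976),Int.ofNat (nat_lit 340582714),Int.ofNat (nat_lit 313388673),Int.ofNat (nat_lit 1268729353),Int.ofNat (nat_lit 256093135),Int.negSucc (nat_lit 309367766),Int.ofNat (nat_lit 17050264),Int.negSucc (nat_lit 211218933),Int.negSucc (nat_lit 429753183),Int.ofNat (nat_lit 712652695),Int.ofNat (nat_lit 414306394),Int.negSucc (nat_lit 441790155),Int.negSucc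 (nat_lit 128751478),Int.ofNat (nat_lit 639820330),Int.negSucc (nat_lit 383094470),Int.negSucc (nat_lit 877856936),Int.ofNat (nat_lit 177963977),Int.negSucc (nat_lit 487398884),Int.ofNat (nat_lit 40361588),Int.ofNat (nat_lit 1243687948),Int.ofNat (nat_lit 3021724),Int.ofNat (nat_lit 200736047),Int.negSucc (nat_lit 597889189),Int.ofNat (nat_lit 48433575),Int.negSucc (nat_lit 168886631),Int.ofNat (nat_lit 167359160),Int.ofNat (nat_lit 157303641),Int.negSucc (nat_lit 109867238),Int.negSucc (nat_lit 126889677),Int.negSucc (nat_lit 94390882),Int.ofNat (nat_lit 427904654),Int.negSucc (nat_lit 79417793),Int.negSucc (nat_lit 180160060),Int.ofNat (nat_lit 111308594),Int.negSucc (nat_lit 104965723),Int.negSucc (nat_lit 155490715),Int.negSucc (nat_lit 3117388),Int.negSucc (nat_lit 39703465),Int.ofNat (nat_lit 154258249),Int.negSucc (nat_lit 37688198),Int.ofNat (nat_lit 46191121),Int.ofNat (nat_lit 124040879),Int.ofNat (nat_lit 28098345),Int.negSucc (nat_lit 104519812),Int.ofNat (nat_lit 18943654),Int.ofNat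 (nat_lit 179233503),Int.ofNat (nat_lit 297815062),Int.negSucc (nat_lit 190405637),Int.ofNat (nat_lit 1117883389),Int.negSucc (nat_lit 60694787),Int.ofNat (nat_lit 841157522)])

/-- A row. -/
noncomputable def sr0_c2_1 : List ℕ × List ℤ :=
  ([(nat_lit 1),(nat_lit 0),(nat_lit 0),(nat_lit 1),(nat_lit 0),(nat_lit 0),(nat_lit 0),(nat_lit 1),(nat_lit 0),(nat_lit 0),(nat_lit 0),(nat_lit 0)], [Int.ofNat (nat_lit 1593058082),Int.ofNat (nat_lit 524615422),Int.ofNat (nat_lit 1055975608),Int.negSucc (nat_lit 1732095689),Int.ofNat (nat_lit 3004725286),Int.negSucc (nat_lit 1618030085),Int.ofNat (nat_lit 2788403109),Int.negSucc (nat_lit 118878374),Int.ofNat (nat_lit 1658347678),Int.ofNat (nat_lit 541745257),Int.negSucc (nat_lit 6204250791),Int.negSucc (nat_lit 807723871),Int.negSucc (nat_lit 482563072),Int.negSucc (nat_lit 288363076),Int.negSucc (nat_lit 17982950),Int.negSucc (nat_lit 217380912),Int.negSucc (nat_lit 4750796),Int.ofNat (nat_lit 814292318),Int.negSucc (nat_lit 216020847),Int.negSucc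 (nat_lit 147942190),Int.negSucc (nat_lit 165791930),Int.ofNat (nat_lit 966954620),Int.ofNat (nat_lit 72988668),Int.negSucc (nat_lit 336489903),Int.ofNat (nat_lit 213745295),Int.negSucc (nat_lit 98599364),Int.negSucc (nat_lit 190131244),Int.negSucc (nat_lit 360580233),Int.ofNat (nat_lit 255437937),Int.negSucc (nat_lit 561696959),Int.ofNat (nat_lit 34379830),Int.negSucc (nat_lit 120414846),Int.ofNat (nat_lit 149537915),Int.negSucc (nat_lit 28613433),Int.negSucc (nat_lit 198436242),Int.negSucc (nat_lit 443702949),Int.negSucc (nat_lit 86080394),Int.negSucc (nat_lit 88731),Int.ofNat (nat_lit 9468146),Int.ofNat (nat_lit 267130226),Int.ofNat (nat_lit 7412517),Int.ofNat (nat_lit 42989511),Int.negSucc (nat_lit 38760306),Int.ofNat (nat_lit 165272325),Int.ofNat (nat_lit 96268435),Int.ofNat (nat_lit 116579773),Int.ofNat (nat_lit 4397784),Int.ofNat (nat_lit 57072780),Int.negSucc (nat_lit 34740605),Int.negSucc (nat_lit 39487942),Int.negSucc (nat_lit 12759336),Int.ofNat (nat_lit 35685846),Int.negSucc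 (nat_lit 11952360),Int.negSucc (nat_lit 22317079),Int.ofNat (nat_lit 225285682),Int.negSucc (nat_lit 780922332),Int.ofNat (nat_lit 18751548),Int.ofNat (nat_lit 295455064),Int.negSucc (nat_lit 197628298),Int.negSucc (nat_lit 130480269),Int.negSucc (nat_lit 115679170),Int.ofNat (nat_lit 800906479)])

/-- A row. -/
noncomputable def sr0_c2_2 : List ℕ × List ℤ :=
  ([(nat_lit 1),(nat_lit 0),(nat_lit 0),(nat_lit 1),(nat_lit 0),(nat_lit 1),(nat_lit 0),(nat_lit 0),(nat_lit 0),(nat_lit 0),(nat_lit 0),(nat_lit 0)], [Int.negSucc (nat_lit 412079114),Int.ofNat (nat_lit 469426644),Int.ofNat (nat_lit 1284160779),Int.negSucc (nat_lit 2947039458),Int.ofNat (nat_lit 2671936210),Int.negSucc (nat_lit 2696826336),Int.negSucc (nat_lit 2239757777),Int.negSucc (nat_lit 107696704),Int.negSucc (nat_lit 1598193729),Int.ofNat (nat_lit 3372207673),Int.negSucc (nat_lit 2021066199),Int.negSucc (nat_lit 12282559345),Int.negSucc (nat_lit 1704804699),Int.negSucc (nat_lit 4140418931),Int.ofNat (nat_lit 1198986310),Int.negSucc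 (nat_lit 1515089600),Int.ofNat (nat_lit 538181437),Int.negSucc (nat_lit 259031551),Int.ofNat (nat_lit 2587661780),Int.ofNat (nat_lit 93954247),Int.negSucc (nat_lit 728646107),Int.ofNat (nat_lit 72310254),Int.ofNat (nat_lit 279572333),Int.ofNat (nat_lit 763002355),Int.negSucc (nat_lit 983885036),Int.ofNat (nat_lit 1405673084),Int.negSucc (nat_lit 1356638494),Int.ofNat (nat_lit 241538301),Int.ofNat (nat_lit 458228453),Int.negSucc (nat_lit 2695583843),Int.negSucc (nat_lit 454840117),Int.ofNat (nat_lit 20762203),Int.ofNat (nat_lit 373988749),Int.ofNat (nat_lit 378343862),Int.ofNat (nat_lit 878216496),Int.negSucc (nat_lit 766777597),Int.negSucc (nat_lit 304038422),Int.ofNat (nat_lit 808263886),Int.negSucc (nat_lit 50642317),Int.ofNat (nat_lit 435450724),Int.negSucc (nat_lit 1744953234),Int.ofNat (nat_lit 181353734),Int.ofNat (nat_lit 185040734),Int.ofNat (nat_lit 95377917),Int.ofNat (nat_lit 98391608),Int.ofNat (nat_lit 38598839),Int.negSucc (nat_lit 337162217),Int.negSucc (nat_lit 354701161),Int.ofNat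 (nat_lit 243239696),Int.ofNat (nat_lit 38474236),Int.ofNat (nat_lit 181849755),Int.negSucc (nat_lit 64975115),Int.negSucc (nat_lit 147790342),Int.ofNat (nat_lit 55894561),Int.negSucc (nat_lit 973084209),Int.negSucc (nat_lit 1356202658),Int.negSucc (nat_lit 823858659),Int.ofNat (nat_lit 135884118),Int.negSucc (nat_lit 342530117),Int.ofNat (nat_lit 777582911),Int.ofNat (nat_lit 229599763),Int.negSucc (nat_lit 1275738071),Int.ofNat (nat_lit 2991279340)])

/-- A row. -/
noncomputable def sr0_c2_3 : List ℕ × List ℤ :=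
  ([(nat_lit 1),(nat_lit 0),(nat_lit 0),(nat_lit 2),(nat_lit 0),(nat_lit 0),(nat_lit 0),(nat_lit 0),(nat_lit 0),(nat_lit 0),(nat_lit 0),(nat_lit 0)], [Int.ofNat (nat_lit 7071671579),Int.negSucc (nat_lit 2933452743),Int.ofNat (nat_lit 3359932170),Int.ofNat (nat_lit 2784405426),Int.negSucc (nat_lit 6637051146),Int.ofNat (nat_lit 3856641924),Int.negSucc (nat_lit 695579985),Int.negSucc (nat_lit 743384181),Int.ofNat (nat_lit 2397515531),Int.negSucc (nat_lit 5804712165),Int.ofNat (nat_lit 1558579531),Int.ofNat (nat_lit 2512493252),Int.negSucc (nat_lit 7706495423),Int.negSucc (nat_lit 411787276),Int.negSucc (nat_lit 375867516),Int.ofNat (nat_lit 835583892),Int.negSucc (nat_lit 326441278),Int.ofNat (nat_lit 797508554),Int.negSucc (nat_lit 2117061494),Int.ofNat (nat_lit 1111984757),Int.ofNat (nat_lit 1130026910),Int.negSucc (nat_lit 404758613),Int.ofNat (nat_lit 530082297),Int.negSucc (nat_lit 1868851418),Int.ofNat (nat_lit 1015806680),Int.negSucc (nat_lit 1083358794),Int.ofNat (nat_lit 1286977854),Int.negSucc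 (nat_lit 556018850),Int.ofNat (nat_lit 518740384),Int.ofNat (nat_lit 2001646994),Int.ofNat (nat_lit 87975086),Int.negSucc (nat_lit 841614068),Int.ofNat (nat_lit 44519844),Int.negSucc (nat_lit 551904267),Int.negSucc (nat_lit 412539818),Int.negSucc (nat_lit 618335519),Int.ofNat (nat_lit 277772830),Int.negSucc (nat_lit 254227142),Int.ofNat (nat_lit 189820959),Int.negSucc (nat_lit 725367562),Int.ofNat (nat_lit 594363881),Int.negSucc (nat_lit 686476930),Int.negSucc (nat_lit 482418857),Int.negSucc (nat_lit 151873901),Int.negSucc (nat_lit 411183031),Int.ofNat (nat_lit 131765116),Int.negSucc (nat_lit 1770358),Int.ofNat (nat_lit 311310740),Int.ofNat (nat_lit 202008076),Int.negSucc (nat_lit 109598320),Int.negSucc (nat_lit 291958762),Int.ofNat (nat_lit 293015169),Int.negSucc (nat_lit 181955414),Int.negSucc (nat_lit 191850134),Int.negSucc (nat_lit 1149525496),Int.ofNat (nat_lit 1268091270),Int.ofNat (nat_lit 679369473),Int.negSucc (nat_lit 591050304),Int.ofNat (nat_lit 389853868),Int.ofNat (nat_lit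 322210669),Int.ofNat (nat_lit 89689138),Int.ofNat (nat_lit 786331428),Int.negSucc (nat_lit 1886221693),Int.ofNat (nat_lit 4166425397)])

/-- A row. -/
noncomputable def sr0_c2_4 : List ℕ × List ℤ :=
  ([(nat_lit 1),(nat_lit 0),(nat_lit 1),(nat_lit 0),(nat_lit 0),(nat_lit 0),(nat_lit 0),(nat_lit 0),(nat_lit 0),(nat_lit 0),(nat_lit 0),(nat_lit 0)], [Int.negSucc (nat_lit 15848594084),Int.ofNat (nat_lit 2951410304),Int.negSucc (nat_lit 6090174241),Int.ofNat (nat_lit 5588314189),Int.negSucc (nat_lit 4974253733),Int.ofNat (nat_lit 2391322237),Int.negSucc (nat_lit 8117531935),Int.ofNat (nat_lit 129267540),Int.negSucc (nat_lit 1738985430),Int.negSucc (nat_lit 2971425555),Int.ofNat (nat_lit 3008511004),Int.ofNat (nat_lit 546605075),Int.negSucc (nat_lit 2189601387),Int.ofNat (nat_lit 4005404140),Int.negSucc (nat_lit 4559659088),Int.ofNat (nat_lit 628124435),Int.ofNat (nat_lit 2844026691),Int.ofNat (nat_lit 1565607716),Int.negSucc (nat_lit 1707649530),Int.ofNat (nat_lit 1243449561),Int.ofNat (nat_lit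 1898379419),Int.negSucc (nat_lit 1182657344),Int.negSucc (nat_lit 578566418),Int.ofNat (nat_lit 4337622505),Int.ofNat (nat_lit 1066574489),Int.negSucc (nat_lit 1617577685),Int.ofNat (nat_lit 482508075),Int.negSucc (nat_lit 1889594403),Int.ofNat (nat_lit 1625188206),Int.ofNat (nat_lit 3146725444),Int.ofNat (nat_lit 402591417),Int.ofNat (nat_lit 731816101),Int.negSucc (nat_lit 1561995692),Int.negSucc (nat_lit 1395657360),Int.negSucc (nat_lit 347579634),Int.ofNat (nat_lit 18437302),Int.ofNat (nat_lit 139207735),Int.negSucc (nat_lit 430921209),Int.negSucc (nat_lit 64407306),Int.ofNat (nat_lit 526037556),Int.ofNat (nat_lit 775174270),Int.negSucc (nat_lit 518733417),Int.negSucc (nat_lit 399764331),Int.ofNat (nat_lit 620465792),Int.negSucc (nat_lit 528039514),Int.ofNat (nat_lit 230120774),Int.ofNat (nat_lit 615555819),Int.ofNat (nat_lit 81957195),Int.ofNat (nat_lit 164314135),Int.ofNat (nat_lit 95911979),Int.ofNat (nat_lit 50930465),Int.ofNat (nat_lit 543300932),Int.negSucc (nat_lit 94668372),Int.negSucc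 (nat_lit 176197247),Int.ofNat (nat_lit 6359794396),Int.ofNat (nat_lit 462405072),Int.ofNat (nat_lit 865671807),Int.negSucc (nat_lit 1541404380),Int.ofNat (nat_lit 934346618),Int.ofNat (nat_lit 878156756),Int.ofNat (nat_lit 279962664),Int.ofNat (nat_lit 915302036),Int.negSucc (nat_lit 282478903),Int.ofNat (nat_lit 1331865220),Int.ofNat (nat_lit 4506842177)])

/-- A row. -/
noncomputable def sr0_c2_5 : List ℕ × List ℤ :=
  ([(nat_lit 1),(nat_lit 0),(nat_lit 1),(nat_lit 0),(nat_lit 0),(nat_lit 0),(nat_lit 1),(nat_lit 0),(nat_lit 0),(nat_lit 0),(nat_lit 0),(nat_lit 0)], [Int.negSucc (nat_lit 4684167487),Int.ofNat (nat_lit 2048875126),Int.ofNat (nat_lit 1162692443),Int.negSucc (nat_lit 4017308088),Int.negSucc (nat_lit 401722396),Int.negSucc (nat_lit 1613033645),Int.negSucc (nat_lit 678008186),Int.ofNat (nat_lit 502813912),Int.negSucc (nat_lit 300936924),Int.negSucc (nat_lit 521515782),Int.ofNat (nat_lit 1139950940),Int.negSucc (nat_lit 728099386),Int.negSucc (nat_lit 81430495),Int.negSucc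 (nat_lit 33661369),Int.negSucc (nat_lit 1425152056),Int.ofNat (nat_lit 516801413),Int.negSucc (nat_lit 2445592206),Int.ofNat (nat_lit 143904863),Int.ofNat (nat_lit 276895200),Int.ofNat (nat_lit 19413405),Int.negSucc (nat_lit 168510355),Int.ofNat (nat_lit 354485393),Int.negSucc (nat_lit 14717082),Int.ofNat (nat_lit 381332782),Int.ofNat (nat_lit 70484874),Int.negSucc (nat_lit 154585260),Int.ofNat (nat_lit 134081268),Int.negSucc (nat_lit 86241771),Int.negSucc (nat_lit 134705826),Int.ofNat (nat_lit 452587765),Int.negSucc (nat_lit 54150254),Int.ofNat (nat_lit 21630981),Int.negSucc (nat_lit 205127847),Int.negSucc (nat_lit 25148146),Int.negSucc (nat_lit 63690786),Int.ofNat (nat_lit 193493398),Int.ofNat (nat_lit 99813124),Int.negSucc (nat_lit 235258165),Int.negSucc (nat_lit 95756464),Int.negSucc (nat_lit 16671132),Int.ofNat (nat_lit 176166587),Int.ofNat (nat_lit 114787815),Int.negSucc (nat_lit 47743469),Int.negSucc (nat_lit 130842761),Int.negSucc (nat_lit 100816384),Int.ofNat (nat_lit 95633994),Int.ofNat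 (nat_lit 122772541),Int.ofNat (nat_lit 73289411),Int.negSucc (nat_lit 89396172),Int.ofNat (nat_lit 40362796),Int.ofNat (nat_lit 4504098),Int.ofNat (nat_lit 16633274),Int.negSucc (nat_lit 11446289),Int.ofNat (nat_lit 10030186),Int.ofNat (nat_lit 333675259),Int.ofNat (nat_lit 364569929),Int.ofNat (nat_lit 13199971),Int.ofNat (nat_lit 254185905),Int.ofNat (nat_lit 159764299),Int.negSucc (nat_lit 325975219),Int.negSucc (nat_lit 284226943),Int.ofNat (nat_lit 228962558),Int.negSucc (nat_lit 63423516),Int.ofNat (nat_lit 89653977),Int.ofNat (nat_lit 127467509),Int.ofNat (nat_lit 764633390)])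

/-- A row. -/
noncomputable def sr0_c2_6 : List ℕ × List ℤ :=
  ([(nat_lit 1),(nat_lit 0),(nat_lit 1),(nat_lit 0),(nat_lit 1),(nat_lit 0),(nat_lit 0),(nat_lit 0),(nat_lit 0),(nat_lit 0),(nat_lit 0),(nat_lit 0)], [Int.ofNat (nat_lit 5874321932),Int.negSucc (nat_lit 4261509376),Int.negSucc (nat_lit 201395105),Int.negSucc (nat_lit 4393373512),Int.ofNat (nat_lit 426459764),Int.negSucc (nat_lit 2429640334),Int.negSucc (nat_lit 2799410317),Int.ofNat (nat_lit 2541493326),Int.negSucc (nat_lit 8392038265),Int.negSucc (nat_lit 1257898442),Int.negSucc (nat_lit 797405700),Int.negSucc (nat_lit 585931228),Int.ofNat (nat_lit 794890554),Int.negSucc (nat_lit 3878233489),Int.ofNat (nat_lit 943606359),Int.ofNat (nat_lit 31708496),Int.negSucc (nat_lit 3717432710),Int.negSucc (nat_lit 5950440055),Int.ofNat (nat_lit 3093928879),Int.negSucc (nat_lit 1433066593),Int.negSucc (nat_lit 2502007157),Int.ofNat (nat_lit 1324248824),Int.ofNat (nat_lit 342109364),Int.negSucc (nat_lit 2742177375),Int.negSucc (nat_lit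 42606934),Int.ofNat (nat_lit 2481275405),Int.negSucc (nat_lit 1341188251),Int.ofNat (nat_lit 3346399906),Int.negSucc (nat_lit 556475461),Int.negSucc (nat_lit 2713371635),Int.ofNat (nat_lit 232958287),Int.negSucc (nat_lit 541142568),Int.ofNat (nat_lit 1712115669),Int.ofNat (nat_lit 1214951008),Int.ofNat (nat_lit 23686937),Int.ofNat (nat_lit 267923640),Int.negSucc (nat_lit 199549748),Int.ofNat (nat_lit 387967841),Int.ofNat (nat_lit 458209564),Int.negSucc (nat_lit 825909653),Int.negSucc (nat_lit 509054571),Int.ofNat (nat_lit 181180893),Int.ofNat (nat_lit 351948576),Int.negSucc (nat_lit 848214127),Int.ofNat (nat_lit 540712990),Int.ofNat (nat_lit 64746177),Int.negSucc (nat_lit 430299197),Int.negSucc (nat_lit 321291716),Int.ofNat (nat_lit 217211331),Int.negSucc (nat_lit 76062903),Int.ofNat (nat_lit 16568032),Int.negSucc (nat_lit 321282463),Int.ofNat (nat_lit 18062289),Int.ofNat (nat_lit 116905940),Int.negSucc (nat_lit 2365893095),Int.ofNat (nat_lit 476691923),Int.negSucc (nat_lit 560493180),Int.ofNat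 (nat_lit 1094904932),Int.negSucc (nat_lit 1032191740),Int.ofNat (nat_lit 2470839758),Int.negSucc (nat_lit 224673871),Int.negSucc (nat_lit 175224912),Int.ofNat (nat_lit 627825818),Int.negSucc (nat_lit 782774280),Int.negSucc (nat_lit 1298054230),Int.negSucc (nat_lit 1175419215),Int.ofNat (nat_lit 2244826976)])

/-- A row. -/
noncomputable def sr0_c2_7 : List ℕ × List ℤ :=
  ([(nat_lit 1),(nat_lit 0),(nat_lit 1),(nat_lit 2),(nat_lit 0),(nat_lit 0),(nat_lit 0),(nat_lit 0),(nat_lit 0),(nat_lit 0),(nat_lit 0),(nat_lit 0)], [Int.ofNat (nat_lit 2792382791),Int.negSucc (nat_lit 1706152604),Int.ofNat (nat_lit 1430203651),Int.ofNat (nat_lit 278213505),Int.negSucc (nat_lit 1068859067),Int.negSucc (nat_lit 1682100874),Int.ofNat (nat_lit 1298153747),Int.ofNat (nat_lit 98195134),Int.negSucc (nat_lit 112858238),Int.negSucc (nat_lit 1387518593),Int.negSucc (nat_lit 6592680),Int.negSucc (nat_lit 1755475810),Int.negSucc (nat_lit 3198874540),Int.negSucc (nat_lit 2361508777),Int.negSucc (nat_lit 383276063),Int.ofNat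 (nat_lit 194892679),Int.negSucc (nat_lit 944471757),Int.negSucc (nat_lit 190770531),Int.ofNat (nat_lit 1596730707),Int.negSucc (nat_lit 3588262400),Int.ofNat (nat_lit 133544324),Int.ofNat (nat_lit 49994267),Int.negSucc (nat_lit 108945276),Int.negSucc (nat_lit 846905427),Int.ofNat (nat_lit 412870403),Int.ofNat (nat_lit 4864633),Int.negSucc (nat_lit 233160670),Int.ofNat (nat_lit 290209266),Int.ofNat (nat_lit 356953826),Int.ofNat (nat_lit 488474267),Int.ofNat (nat_lit 24376538),Int.negSucc (nat_lit 176742580),Int.ofNat (nat_lit 260554491),Int.ofNat (nat_lit 467202312),Int.negSucc (nat_lit 622617930),Int.negSucc (nat_lit 127398270),Int.negSucc (nat_lit 115483762),Int.negSucc (nat_lit 243801913),Int.ofNat (nat_lit 177637665),Int.negSucc (nat_lit 61766959),Int.ofNat (nat_lit 393350235),Int.negSucc (nat_lit 72466452),Int.negSucc (nat_lit 156267819),Int.negSucc (nat_lit 93141756),Int.ofNat (nat_lit 164202264),Int.ofNat (nat_lit 79403813),Int.negSucc (nat_lit 67513851),Int.ofNat (nat_lit 37589605),Int.ofNat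 (nat_lit 218034946),Int.ofNat (nat_lit 43222610),Int.negSucc (nat_lit 155624442),Int.ofNat (nat_lit 102638040),Int.ofNat (nat_lit 13530725),Int.negSucc (nat_lit 101254052),Int.negSucc (nat_lit 246225687),Int.ofNat (nat_lit 121051882),Int.negSucc (nat_lit 50296385),Int.ofNat (nat_lit 483467740),Int.ofNat (nat_lit 631531717),Int.ofNat (nat_lit 426001724),Int.ofNat (nat_lit 454295613),Int.ofNat (nat_lit 410454471),Int.ofNat (nat_lit 78820474),Int.ofNat (nat_lit 513881418),Int.negSucc (nat_lit 374322263),Int.negSucc (nat_lit 214534460),Int.ofNat (nat_lit 852665221),Int.ofNat (nat_lit 1639963716)])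

/-- A row. -/
noncomputable def sr0_c2_8 : List ℕ × List ℤ :=
  ([(nat_lit 1),(nat_lit 0),(nat_lit 2),(nat_lit 0),(nat_lit 0),(nat_lit 0),(nat_lit 0),(nat_lit 0),(nat_lit 0),(nat_lit 0),(nat_lit 0),(nat_lit 0)], [Int.ofNat (nat_lit 1899227408),Int.negSucc (nat_lit 683827437),Int.ofNat (nat_lit 1137946919),Int.ofNat (nat_lit 1708063549),Int.negSucc (nat_lit 4524717836),Int.ofNat (nat_lit 608035917),Int.negSucc (nat_lit 6696104743),Int.negSucc (nat_lit 801349628),Int.negSucc (nat_lit 1854638896),Int.negSucc (nat_lit 4074763834),Int.negSucc (nat_lit 1791743480),Int.ofNat (nat_lit 2132573337),Int.negSucc (nat_lit 3180502448),Int.ofNat (nat_lit 1934118481),Int.negSucc (nat_lit 8308181990),Int.negSucc (nat_lit 3198499672),Int.ofNat (nat_lit 990078053),Int.negSucc (nat_lit 3462655169),Int.ofNat (nat_lit 136892577),Int.ofNat (nat_lit 242580633),Int.negSucc (nat_lit 2559260886),Int.negSucc (nat_lit 1949397166),Int.ofNat (nat_lit 907138901),Int.ofNat (nat_lit 2813956570),Int.ofNat (nat_lit 295918730),Int.negSucc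 (nat_lit 1105403634),Int.negSucc (nat_lit 21926567),Int.negSucc (nat_lit 1109071993),Int.ofNat (nat_lit 886572792),Int.ofNat (nat_lit 2880899726),Int.ofNat (nat_lit 311230080),Int.ofNat (nat_lit 164268071),Int.negSucc (nat_lit 843726905),Int.negSucc (nat_lit 100786736),Int.negSucc (nat_lit 279626090),Int.negSucc (nat_lit 260391628),Int.ofNat (nat_lit 926518965),Int.negSucc (nat_lit 92679625),Int.negSucc (nat_lit 50397258),Int.ofNat (nat_lit 41508501),Int.ofNat (nat_lit 977269201),Int.negSucc (nat_lit 404246163),Int.negSucc (nat_lit 454401933),Int.ofNat (nat_lit 55857883),Int.negSucc (nat_lit 1086323690),Int.negSucc (nat_lit 55019327),Int.ofNat (nat_lit 152077651),Int.negSucc (nat_lit 195147770),Int.ofNat (nat_lit 592796722),Int.ofNat (nat_lit 40524230),Int.ofNat (nat_lit 77037128),Int.ofNat (nat_lit 786923713),Int.negSucc (nat_lit 123268940),Int.negSucc (nat_lit 261734382),Int.ofNat (nat_lit 1775314925),Int.ofNat (nat_lit 489475541),Int.ofNat (nat_lit 667585575),Int.negSucc (nat_lit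 1202697563),Int.ofNat (nat_lit 1783230534),Int.ofNat (nat_lit 1446569723),Int.ofNat (nat_lit 722329403),Int.ofNat (nat_lit 1368009262),Int.negSucc (nat_lit 461901806),Int.ofNat (nat_lit 1515606397),Int.ofNat (nat_lit 4258812648),Int.negSucc (nat_lit 350384525),Int.ofNat (nat_lit 833819259),Int.ofNat (nat_lit 948086273),Int.ofNat (nat_lit 1565903434)])

/-- A row. -/
noncomputable def sr0_c2_9 : List ℕ × List ℤ :=
  ([(nat_lit 1),(nat_lit 0),(nat_lit 3),(nat_lit 0),(nat_lit 0),(nat_lit 0),(nat_lit 0),(nat_lit 0),(nat_lit 0),(nat_lit 0),(nat_lit 0),(nat_lit 0)], [Int.ofNat (nat_lit 2551747956),Int.negSucc (nat_lit 830078973),Int.negSucc (nat_lit 64115274),Int.ofNat (nat_lit 321245942),Int.negSucc (nat_lit 1646826399),Int.negSucc (nat_lit 1677495770),Int.negSucc (nat_lit 693455347),Int.negSucc (nat_lit 654933734),Int.negSucc (nat_lit 1573357973),Int.negSucc (nat_lit 1649808062),Int.negSucc (nat_lit 364166944),Int.negSucc (nat_lit 105552912),Int.negSucc (nat_lit 574875830),Int.negSucc (nat_lit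 334859366),Int.negSucc (nat_lit 2437661619),Int.negSucc (nat_lit 1525729671),Int.negSucc (nat_lit 895472198),Int.negSucc (nat_lit 2147724988),Int.ofNat (nat_lit 1187860394),Int.negSucc (nat_lit 613650682),Int.negSucc (nat_lit 1754724949),Int.negSucc (nat_lit 1025489002),Int.negSucc (nat_lit 395577949),Int.negSucc (nat_lit 520579678),Int.ofNat (nat_lit 157880504),Int.negSucc (nat_lit 46395508),Int.negSucc (nat_lit 286877375),Int.negSucc (nat_lit 6126779),Int.ofNat (nat_lit 222894645),Int.ofNat (nat_lit 359266539),Int.ofNat (nat_lit 127431395),Int.negSucc (nat_lit 157998768),Int.ofNat (nat_lit 172901257),Int.ofNat (nat_lit 452018646),Int.negSucc (nat_lit 429411255),Int.negSucc (nat_lit 84471498),Int.ofNat (nat_lit 35411321),Int.negSucc (nat_lit 236687739),Int.ofNat (nat_lit 173822328),Int.negSucc (nat_lit 47856800),Int.ofNat (nat_lit 383750725),Int.negSucc (nat_lit 19143467),Int.negSucc (nat_lit 184723988),Int.negSucc (nat_lit 29822202),Int.ofNat (nat_lit 70504351),Int.negSucc (nat_lit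 12016699),Int.negSucc (nat_lit 136921042),Int.negSucc (nat_lit 7545816),Int.ofNat (nat_lit 174159069),Int.ofNat (nat_lit 14945809),Int.negSucc (nat_lit 136282348),Int.ofNat (nat_lit 136153131),Int.negSucc (nat_lit 21919020),Int.negSucc (nat_lit 123762410),Int.negSucc (nat_lit 260728483),Int.negSucc (nat_lit 24473946),Int.negSucc (nat_lit 152318272),Int.ofNat (nat_lit 212209090),Int.ofNat (nat_lit 822014127),Int.ofNat (nat_lit 482886454),Int.ofNat (nat_lit 503801718),Int.ofNat (nat_lit 398225579),Int.negSucc (nat_lit 100836642),Int.ofNat (nat_lit 129490159),Int.negSucc (nat_lit 181656862),Int.negSucc (nat_lit 378013279),Int.ofNat (nat_lit 880434269),Int.ofNat (nat_lit 926303015),Int.ofNat (nat_lit 684279723),Int.ofNat (nat_lit 698711142)])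

/-- A row. -/
noncomputable def sr0_c2_10 : List ℕ × List ℤ :=
  ([(nat_lit 1),(nat_lit 1),(nat_lit 0),(nat_lit 0),(nat_lit 0),(nat_lit 0),(nat_lit 0),(nat_lit 0),(nat_lit 0),(nat_lit 1),(nat_lit 0),(nat_lit 0)], [Int.ofNat (nat_lit 777842261),Int.negSucc (nat_lit 369226027),Int.negSucc (nat_lit 74329702),Int.negSucc (nat_lit 105730528),Int.negSucc (nat_lit 434812487),Int.negSucc (nat_lit 233890067),Int.negSucc (nat_lit 162064948),Int.negSucc (nat_lit 692435144),Int.ofNat (nat_lit 394530510),Int.negSucc (nat_lit 203763018),Int.negSucc (nat_lit 1383417690),Int.negSucc (nat_lit 382257866),Int.ofNat (nat_lit 165658768),Int.ofNat (nat_lit 192591613),Int.ofNat (nat_lit 296685746),Int.negSucc (nat_lit 625670679),Int.negSucc (nat_lit 106525085),Int.negSucc (nat_lit 396820435),Int.negSucc (nat_lit 502918579),Int.ofNat (nat_lit 96372366),Int.negSucc (nat_lit 173608673),Int.negSucc (nat_lit 195151578),Int.negSucc (nat_lit 40355606),Int.negSucc (nat_lit 308888849),Int.negSucc (nat_lit 2509798909),Int.negSucc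 (nat_lit 164659839),Int.ofNat (nat_lit 231979229),Int.negSucc (nat_lit 491483041),Int.ofNat (nat_lit 58096586),Int.ofNat (nat_lit 555749817),Int.negSucc (nat_lit 83436050),Int.ofNat (nat_lit 26287173),Int.ofNat (nat_lit 24901507),Int.negSucc (nat_lit 12995947),Int.negSucc (nat_lit 197781394),Int.ofNat (nat_lit 3127108),Int.ofNat (nat_lit 128709531),Int.negSucc (nat_lit 60989128),Int.ofNat (nat_lit 149454947),Int.negSucc (nat_lit 135279891),Int.ofNat (nat_lit 298819122),Int.ofNat (nat_lit 70500716),Int.ofNat (nat_lit 18943997),Int.negSucc (nat_lit 104579657),Int.ofNat (nat_lit 44412771),Int.negSucc (nat_lit 4958152),Int.negSucc (nat_lit 43573988),Int.negSucc (nat_lit 47609586),Int.ofNat (nat_lit 115155650),Int.ofNat (nat_lit 35414875),Int.negSucc (nat_lit 64901289),Int.negSucc (nat_lit 55409510),Int.ofNat (nat_lit 31342579),Int.negSucc (nat_lit 7431779),Int.ofNat (nat_lit 102593450),Int.negSucc (nat_lit 6702394),Int.negSucc (nat_lit 306552003),Int.negSucc (nat_lit 28088684),Int.ofNat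 (nat_lit 23472297),Int.negSucc (nat_lit 67597033),Int.negSucc (nat_lit 104743515),Int.ofNat (nat_lit 124229157),Int.negSucc (nat_lit 115031616),Int.ofNat (nat_lit 86864744),Int.ofNat (nat_lit 2122949),Int.negSucc (nat_lit 91977627),Int.ofNat (nat_lit 46605411),Int.ofNat (nat_lit 230201238),Int.ofNat (nat_lit 110625664),Int.ofNat (nat_lit 134195923),Int.ofNat (nat_lit 876083018)])

/-- A row. -/
noncomputable def sr0_c2_11 : List ℕ × List ℤ :=
  ([(nat_lit 1),(nat_lit 1),(nat_lit 0),(nat_lit 0),(nat_lit 0),(nat_lit 0),(nat_lit 0),(nat_lit 1),(nat_lit 0),(nat_lit 0),(nat_lit 0),(nat_lit 0)], [Int.ofNat (nat_lit 2495699201),Int.negSucc (nat_lit 714190016),Int.ofNat (nat_lit 2907355231),Int.ofNat (nat_lit 4215419194),Int.negSucc (nat_lit 3711863683),Int.ofNat (nat_lit 3048373351),Int.negSucc (nat_lit 877055006),Int.negSucc (nat_lit 4000732822),Int.negSucc (nat_lit 2037314426),Int.ofNat (nat_lit 1642785193),Int.negSucc (nat_lit 185650175),Int.negSucc (nat_lit 74610264),Int.negSucc (nat_lit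 1181078655),Int.ofNat (nat_lit 4698797379),Int.ofNat (nat_lit 387114942),Int.negSucc (nat_lit 2765998364),Int.negSucc (nat_lit 1360160793),Int.negSucc (nat_lit 1557003418),Int.negSucc (nat_lit 1592462533),Int.ofNat (nat_lit 956088543),Int.ofNat (nat_lit 653921291),Int.negSucc (nat_lit 752494119),Int.ofNat (nat_lit 477175576),Int.ofNat (nat_lit 4073212431),Int.negSucc (nat_lit 1604874543),Int.negSucc (nat_lit 9516547601),Int.negSucc (nat_lit 738198598),Int.negSucc (nat_lit 1328821939),Int.ofNat (nat_lit 41245587),Int.negSucc (nat_lit 175853125),Int.negSucc (nat_lit 1550952560),Int.ofNat (nat_lit 290614031),Int.ofNat (nat_lit 2547743572),Int.negSucc (nat_lit 1026488356),Int.ofNat (nat_lit 627152212),Int.ofNat (nat_lit 879212821),Int.ofNat (nat_lit 392270088),Int.ofNat (nat_lit 234251956),Int.negSucc (nat_lit 196356858),Int.negSucc (nat_lit 336928823),Int.ofNat (nat_lit 1222056829),Int.negSucc (nat_lit 98207371),Int.negSucc (nat_lit 200374055),Int.negSucc (nat_lit 56940799),Int.negSucc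 (nat_lit 43885197),Int.negSucc (nat_lit 1460483880),Int.negSucc (nat_lit 77872319),Int.negSucc (nat_lit 62314089),Int.ofNat (nat_lit 298002538),Int.negSucc (nat_lit 287365936),Int.negSucc (nat_lit 175861705),Int.ofNat (nat_lit 90129445),Int.negSucc (nat_lit 85746897),Int.negSucc (nat_lit 124009302),Int.negSucc (nat_lit 644814486),Int.ofNat (nat_lit 319120156),Int.negSucc (nat_lit 208515034),Int.negSucc (nat_lit 1444308498),Int.ofNat (nat_lit 1600524806),Int.negSucc (nat_lit 39538362),Int.ofNat (nat_lit 1346716571),Int.negSucc (nat_lit 981782213),Int.ofNat (nat_lit 339514590),Int.negSucc (nat_lit 603853676),Int.ofNat (nat_lit 78969209),Int.ofNat (nat_lit 724528302),Int.ofNat (nat_lit 343164042),Int.ofNat (nat_lit 997460012),Int.negSucc (nat_lit 205093055),Int.negSucc (nat_lit 809675897),Int.ofNat (nat_lit 986980661),Int.ofNat (nat_lit 4076686924)])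

/-- A row. -/
noncomputable def sr0_c2_12 : List ℕ × List ℤ :=
  ([(nat_lit 1),(nat_lit 1),(nat_lit 0),(nat_lit 0),(nat_lit 0),(nat_lit 1),(nat_lit 0),(nat_lit 0),(nat_lit 0),(nat_lit 0),(nat_lit 0),(nat_lit 0)], [Int.ofNat (nat_lit 1034452685),Int.negSucc (nat_lit 2140803447),Int.ofNat (nat_lit 2061444562),Int.ofNat (nat_lit 2821621667),Int.negSucc (nat_lit 14294909175),Int.negSucc (nat_lit 1087490161),Int.ofNat (nat_lit 5827986898),Int.negSucc (nat_lit 2695093662),Int.ofNat (nat_lit 4873275864),Int.negSucc (nat_lit 4164484616),Int.ofNat (nat_lit 531620436),Int.ofNat (nat_lit 5552643158),Int.negSucc (nat_lit 333768403),Int.negSucc (nat_lit 1092587192),Int.negSucc (nat_lit 4035015835),Int.negSucc (nat_lit 2348916858),Int.negSucc (nat_lit 1171940027),Int.ofNat (nat_lit 1758572351),Int.ofNat (nat_lit 411183428),Int.negSucc (nat_lit 1120459481),Int.negSucc (nat_lit 4244815738),Int.ofNat (nat_lit 2139797494),Int.negSucc (nat_lit 1290980358),Int.negSucc (nat_lit 2050475310),Int.negSucc (nat_lit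 2704388300),Int.ofNat (nat_lit 3318813077),Int.negSucc (nat_lit 15994745688),Int.negSucc (nat_lit 3289405300),Int.negSucc (nat_lit 1498105834),Int.ofNat (nat_lit 1770115305),Int.ofNat (nat_lit 356548835),Int.ofNat (nat_lit 487725351),Int.negSucc (nat_lit 1441200448),Int.ofNat (nat_lit 3061064018),Int.negSucc (nat_lit 579445257),Int.ofNat (nat_lit 1180086419),Int.ofNat (nat_lit 773194498),Int.negSucc (nat_lit 946948576),Int.ofNat (nat_lit 236509295),Int.negSucc (nat_lit 805949737),Int.negSucc (nat_lit 478901740),Int.negSucc (nat_lit 366480049),Int.ofNat (nat_lit 622056316),Int.negSucc (nat_lit 839410837),Int.ofNat (nat_lit 219081345),Int.ofNat (nat_lit 518758109),Int.ofNat (nat_lit 773089362),Int.negSucc (nat_lit 16353773),Int.negSucc (nat_lit 530341628),Int.negSucc (nat_lit 74156744),Int.negSucc (nat_lit 203878103),Int.negSucc (nat_lit 258058193),Int.ofNat (nat_lit 79483236),Int.ofNat (nat_lit 23714534),Int.ofNat (nat_lit 2967847591),Int.ofNat (nat_lit 2713133880),Int.ofNat (nat_lit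 900852143),Int.ofNat (nat_lit 641230507),Int.negSucc (nat_lit 719776071),Int.negSucc (nat_lit 1977332444),Int.negSucc (nat_lit 1200183581),Int.ofNat (nat_lit 781802525),Int.negSucc (nat_lit 4310815530),Int.negSucc (nat_lit 285279694),Int.ofNat (nat_lit 91844364),Int.ofNat (nat_lit 690032850),Int.negSucc (nat_lit 881714287),Int.negSucc (nat_lit 554556895),Int.negSucc (nat_lit 361905217),Int.negSucc (nat_lit 23201828),Int.negSucc (nat_lit 1200317951),Int.negSucc (nat_lit 101819114),Int.ofNat (nat_lit 6543513974)])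

/-- A row. -/
noncomputable def sr0_c2_13 : List ℕ × List ℤ :=
  ([(nat_lit 1),(nat_lit 1),(nat_lit 0),(nat_lit 1),(nat_lit 0),(nat_lit 0),(nat_lit 0),(nat_lit 0),(nat_lit 0),(nat_lit 0),(nat_lit 0),(nat_lit 0)], [Int.negSucc (nat_lit 10285241965),Int.ofNat (nat_lit 5515353853),Int.negSucc (nat_lit 14276385732),Int.negSucc (nat_lit 9671623079),Int.ofNat (nat_lit 15954193825),Int.negSucc (nat_lit 259007529),Int.ofNat (nat_lit 8924768781),Int.ofNat (nat_lit 5856561608),Int.negSucc (nat_lit 10003171528),Int.ofNat (nat_lit 3558696601),Int.negSucc (nat_lit 6298744720),Int.ofNat (nat_lit 6778088896),Int.ofNat (nat_lit 593582233),Int.negSucc (nat_lit 4206531647),Int.negSucc (nat_lit 3795425524),Int.negSucc (nat_lit 7357017013),Int.negSucc (nat_lit 4411867990),Int.negSucc (nat_lit 6715345621),Int.ofNat (nat_lit 12875952637),Int.negSucc (nat_lit 868862639),Int.negSucc (nat_lit 5907570096),Int.negSucc (nat_lit 896271896),Int.negSucc (nat_lit 233565840),Int.ofNat (nat_lit 16454335548),Int.negSucc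 (nat_lit 8749838970),Int.negSucc (nat_lit 1069904871),Int.ofNat (nat_lit 413179337),Int.ofNat (nat_lit 6727063327),Int.negSucc (nat_lit 30189096504),Int.negSucc (nat_lit 1042492033),Int.negSucc (nat_lit 5655921250),Int.negSucc (nat_lit 4641832991),Int.ofNat (nat_lit 2852826269),Int.negSucc (nat_lit 961600886),Int.ofNat (nat_lit 3600233222),Int.negSucc (nat_lit 750464572),Int.negSucc (nat_lit 486782127),Int.ofNat (nat_lit 1638145749),Int.negSucc (nat_lit 324619552),Int.ofNat (nat_lit 1934679644),Int.negSucc (nat_lit 1319262228),Int.ofNat (nat_lit 1218104895),Int.ofNat (nat_lit 176300721),Int.ofNat (nat_lit 2608452454),Int.ofNat (nat_lit 955375219),Int.negSucc (nat_lit 538048988),Int.negSucc (nat_lit 977180962),Int.negSucc (nat_lit 2665465264),Int.negSucc (nat_lit 925865227),Int.ofNat (nat_lit 761278571),Int.negSucc (nat_lit 415336771),Int.negSucc (nat_lit 718612183),Int.ofNat (nat_lit 1233868036),Int.ofNat (nat_lit 394749383),Int.negSucc (nat_lit 834725822),Int.negSucc (nat_lit 7616191594),Int.negSucc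 (nat_lit 2455005538),Int.negSucc (nat_lit 1170594575),Int.ofNat (nat_lit 1569407327),Int.ofNat (nat_lit 496515431),Int.negSucc (nat_lit 1759816979),Int.negSucc (nat_lit 549422568),Int.ofNat (nat_lit 5739089952),Int.negSucc (nat_lit 9173526993),Int.negSucc (nat_lit 1612976162),Int.negSucc (nat_lit 1218430874),Int.ofNat (nat_lit 1695962855),Int.ofNat (nat_lit 707009589),Int.negSucc (nat_lit 638225066),Int.negSucc (nat_lit 357873779),Int.ofNat (nat_lit 4698541055),Int.negSucc (nat_lit 161323343),Int.negSucc (nat_lit 1953651143),Int.ofNat (nat_lit 10219353007)])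

/-- A row. -/
noncomputable def sr0_c2_14 : List ℕ × List ℤ :=
  ([(nat_lit 1),(nat_lit 1),(nat_lit 0),(nat_lit 1),(nat_lit 1),(nat_lit 0),(nat_lit 0),(nat_lit 0),(nat_lit 0),(nat_lit 0),(nat_lit 0),(nat_lit 0)], [Int.negSucc (nat_lit 6257445515),Int.ofNat (nat_lit 2588394781),Int.negSucc (nat_lit 945651594),Int.negSucc (nat_lit 133594910),Int.ofNat (nat_lit 1236805966),Int.ofNat (nat_lit 3120079944),Int.negSucc (nat_lit 3419602396),Int.ofNat (nat_lit 552209305),Int.negSucc (nat_lit 220837522),Int.ofNat (nat_lit 6823841915),Int.ofNat (nat_lit 5498898781),Int.negSucc (nat_lit 3344002579),Int.ofNat (nat_lit 696150967),Int.ofNat (nat_lit 3278072821),Int.ofNat (nat_lit 1502297289),Int.ofNat (nat_lit 2579259049),Int.ofNat (nat_lit 1894295461),Int.ofNat (nat_lit 1648147658),Int.negSucc (nat_lit 3135758363),Int.ofNat (nat_lit 1538610919),Int.ofNat (nat_lit 279076146),Int.ofNat (nat_lit 1039976819),Int.ofNat (nat_lit 799390572),Int.ofNat (nat_lit 859799530),Int.negSucc (nat_lit 1014143309),Int.ofNat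 (nat_lit 686944364),Int.ofNat (nat_lit 3421225359),Int.negSucc (nat_lit 3887336368),Int.ofNat (nat_lit 6813106387),Int.negSucc (nat_lit 511874276),Int.negSucc (nat_lit 11694724933),Int.ofNat (nat_lit 1565779624),Int.negSucc (nat_lit 987951658),Int.negSucc (nat_lit 993925398),Int.ofNat (nat_lit 654537984),Int.ofNat (nat_lit 928553737),Int.ofNat (nat_lit 238457030),Int.ofNat (nat_lit 1583103960),Int.ofNat (nat_lit 193847427),Int.negSucc (nat_lit 1557025058),Int.ofNat (nat_lit 379956883),Int.negSucc (nat_lit 368019892),Int.ofNat (nat_lit 332351782),Int.negSucc (nat_lit 197832035),Int.negSucc (nat_lit 175398892),Int.ofNat (nat_lit 42216454),Int.ofNat (nat_lit 342718330),Int.negSucc (nat_lit 625560491),Int.ofNat (nat_lit 717678151),Int.ofNat (nat_lit 1087938),Int.ofNat (nat_lit 1154616229),Int.negSucc (nat_lit 265274517),Int.ofNat (nat_lit 340844807),Int.ofNat (nat_lit 95083747),Int.ofNat (nat_lit 311248065),Int.ofNat (nat_lit 1334560303),Int.negSucc (nat_lit 145409377),Int.negSucc (nat_lit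 474353295),Int.negSucc (nat_lit 1270276081),Int.negSucc (nat_lit 504722683),Int.ofNat (nat_lit 792215500),Int.negSucc (nat_lit 929251578),Int.ofNat (nat_lit 441011641),Int.negSucc (nat_lit 227539642),Int.ofNat (nat_lit 569084108),Int.negSucc (nat_lit 415232250),Int.negSucc (nat_lit 1264101233),Int.negSucc (nat_lit 517610720),Int.negSucc (nat_lit 154993683),Int.negSucc (nat_lit 893233290),Int.ofNat (nat_lit 705162729),Int.ofNat (nat_lit 175525501),Int.negSucc (nat_lit 294721421),Int.negSucc (nat_lit 1111404225),Int.ofNat (nat_lit 3925265305)])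

/-- A row. -/
noncomputable def sr0_c2_15 : List ℕ × List ℤ :=
  ([(nat_lit 1),(nat_lit 1),(nat_lit 1),(nat_lit 0),(nat_lit 0),(nat_lit 1),(nat_lit 0),(nat_lit 0),(nat_lit 0),(nat_lit 0),(nat_lit 0),(nat_lit 0)], [Int.negSucc (nat_lit 459074309),Int.ofNat (nat_lit 134339328),Int.ofNat (nat_lit 3788592078),Int.negSucc (nat_lit 5230468606),Int.negSucc (nat_lit 2167007387),Int.negSucc (nat_lit 1691202200),Int.ofNat (nat_lit 3536443320),Int.negSucc (nat_lit 4066671111),Int.ofNat (nat_lit 1647471395),Int.ofNat (nat_lit 828514627),Int.negSucc (nat_lit 3932987311),Int.negSucc (nat_lit 3416013077),Int.negSucc (nat_lit 2590974473),Int.negSucc (nat_lit 1547209687),Int.negSucc (nat_lit 2970524908),Int.negSucc (nat_lit 4739075837),Int.negSucc (nat_lit 263290152),Int.ofNat (nat_lit 3695240612),Int.ofNat (nat_lit 1325598015),Int.negSucc (nat_lit 686066040),Int.negSucc (nat_lit 2580581038),Int.ofNat (nat_lit 3397042430),Int.negSucc (nat_lit 856461060),Int.ofNat (nat_lit 1364181847),Int.negSucc (nat_lit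 3098539333),Int.ofNat (nat_lit 1472603471),Int.negSucc (nat_lit 9401334871),Int.negSucc (nat_lit 5274419889),Int.negSucc (nat_lit 2094314425),Int.ofNat (nat_lit 26065859),Int.ofNat (nat_lit 775940285),Int.ofNat (nat_lit 402937805),Int.negSucc (nat_lit 1735753324),Int.negSucc (nat_lit 8206736573),Int.negSucc (nat_lit 479437014),Int.ofNat (nat_lit 985852050),Int.ofNat (nat_lit 612775043),Int.negSucc (nat_lit 881848401),Int.ofNat (nat_lit 187547135),Int.ofNat (nat_lit 48611729),Int.ofNat (nat_lit 467669913),Int.ofNat (nat_lit 446954819),Int.ofNat (nat_lit 335734554),Int.negSucc (nat_lit 789262216),Int.ofNat (nat_lit 209683420),Int.negSucc (nat_lit 40704495),Int.ofNat (nat_lit 159286786),Int.negSucc (nat_lit 4200157),Int.negSucc (nat_lit 24777472),Int.negSucc (nat_lit 276788957),Int.negSucc (nat_lit 211052615),Int.ofNat (nat_lit 58116989),Int.negSucc (nat_lit 57629244),Int.negSucc (nat_lit 757632),Int.ofNat (nat_lit 973287111),Int.ofNat (nat_lit 476806036),Int.negSucc (nat_lit 131785455),Int.negSucc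 (nat_lit 165874841),Int.ofNat (nat_lit 1217512055),Int.negSucc (nat_lit 556779726),Int.negSucc (nat_lit 367316824),Int.ofNat (nat_lit 295399406),Int.negSucc (nat_lit 214429814),Int.negSucc (nat_lit 274267906),Int.ofNat (nat_lit 601907477),Int.ofNat (nat_lit 1238537504),Int.ofNat (nat_lit 741043806),Int.ofNat (nat_lit 460925087),Int.negSucc (nat_lit 279873900),Int.negSucc (nat_lit 622417765),Int.negSucc (nat_lit 352620843),Int.ofNat (nat_lit 600135226),Int.ofNat (nat_lit 1247762535),Int.ofNat (nat_lit 478911543),Int.negSucc (nat_lit 1821423641),Int.ofNat (nat_lit 2724142898)])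

/-- A row. -/
noncomputable def sr0_c2_16 : List ℕ × List ℤ :=
  ([(nat_lit 1),(nat_lit 1),(nat_lit 1),(nat_lit 1),(nat_lit 0),(nat_lit 0),(nat_lit 0),(nat_lit 0),(nat_lit 0),(nat_lit 0),(nat_lit 0),(nat_lit 0)], [Int.ofNat (nat_lit 2140993933),Int.ofNat (nat_lit 576888017),Int.negSucc (nat_lit 9151610482),Int.ofNat (nat_lit 1811583429),Int.ofNat (nat_lit 4250297226),Int.ofNat (nat_lit 4813467660),Int.ofNat (nat_lit 2788630854),Int.ofNat (nat_lit 572574511),Int.negSucc (nat_lit 4476190412),Int.negSucc (nat_lit 12526883812),Int.ofNat (nat_lit 833528146),Int.ofNat (nat_lit 2068935331),Int.negSucc (nat_lit 3522527911),Int.negSucc (nat_lit 2836390626),Int.negSucc (nat_lit 5207697126),Int.negSucc (nat_lit 3377475855),Int.negSucc (nat_lit 3600825310),Int.ofNat (nat_lit 849066701),Int.ofNat (nat_lit 6639300031),Int.ofNat (nat_lit 1011029850),Int.negSucc (nat_lit 3610935292),Int.ofNat (nat_lit 4966155729),Int.ofNat (nat_lit 311461126),Int.ofNat (nat_lit 5733887896),Int.negSucc (nat_lit 3319622078),Int.negSucc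 (nat_lit 2864799287),Int.ofNat (nat_lit 18315121),Int.ofNat (nat_lit 351884143),Int.negSucc (nat_lit 14946663590),Int.ofNat (nat_lit 4066580165),Int.negSucc (nat_lit 6766814334),Int.negSucc (nat_lit 4873122858),Int.ofNat (nat_lit 6541211269),Int.ofNat (nat_lit 528197891),Int.negSucc (nat_lit 13730756210),Int.ofNat (nat_lit 4105669157),Int.negSucc (nat_lit 956997432),Int.negSucc (nat_lit 254013167),Int.negSucc (nat_lit 566380404),Int.ofNat (nat_lit 1384119351),Int.negSucc (nat_lit 1835012610),Int.ofNat (nat_lit 382527897),Int.negSucc (nat_lit 1748396118),Int.ofNat (nat_lit 2053666445),Int.ofNat (nat_lit 202650525),Int.negSucc (nat_lit 405702108),Int.ofNat (nat_lit 323418677),Int.ofNat (nat_lit 64523263),Int.negSucc (nat_lit 3288886957),Int.ofNat (nat_lit 454522480),Int.negSucc (nat_lit 1106268257),Int.ofNat (nat_lit 16506098),Int.negSucc (nat_lit 16743267),Int.ofNat (nat_lit 239486705),Int.negSucc (nat_lit 1521279402),Int.negSucc (nat_lit 3592135249),Int.ofNat (nat_lit 21897098),Int.negSucc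 (nat_lit 189445050),Int.negSucc (nat_lit 406764318),Int.negSucc (nat_lit 53770950),Int.negSucc (nat_lit 2421626131),Int.ofNat (nat_lit 914077515),Int.negSucc (nat_lit 418544897),Int.negSucc (nat_lit 237054119),Int.negSucc (nat_lit 2718018227),Int.negSucc (nat_lit 1028671991),Int.negSucc (nat_lit 2573919078),Int.negSucc (nat_lit 5747085681),Int.negSucc (nat_lit 1211733496),Int.ofNat (nat_lit 494871755),Int.ofNat (nat_lit 3237748403),Int.negSucc (nat_lit 1989404000),Int.ofNat (nat_lit 92775040),Int.ofNat (nat_lit 7238003758),Int.negSucc (nat_lit 441730561),Int.negSucc (nat_lit 2127037688),Int.ofNat (nat_lit 7407423784)])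

/-- A row. -/
noncomputable def sr0_c2_17 : List ℕ × List ℤ :=
  ([(nat_lit 1),(nat_lit 2),(nat_lit 0),(nat_lit 0),(nat_lit 0),(nat_lit 0),(nat_lit 0),(nat_lit 0),(nat_lit 0),(nat_lit 0),(nat_lit 0),(nat_lit 0)], [Int.ofNat (nat_lit 26837546611),Int.negSucc (nat_lit 7413562051),Int.ofNat (nat_lit 5882881670),Int.negSucc (nat_lit 2602728219),Int.negSucc (nat_lit 4227183596),Int.negSucc (nat_lit 7506067835),Int.ofNat (nat_lit 3699241647),Int.ofNat (nat_lit 592732182),Int.ofNat (nat_lit 14393519429),Int.negSucc (nat_lit 4416538731),Int.ofNat (nat_lit 2980328388),Int.negSucc (nat_lit 12278117916),Int.ofNat (nat_lit 7002335720),Int.ofNat (nat_lit 3331710791),Int.negSucc (nat_lit 4351501242),Int.ofNat (nat_lit 8421521923),Int.ofNat (nat_lit 1392089323),Int.ofNat (nat_lit 5083058409),Int.negSucc (nat_lit 9284363275),Int.negSucc (nat_lit 550042584),Int.ofNat (nat_lit 9043948290),Int.ofNat (nat_lit 3009089747),Int.negSucc (nat_lit 1281152556),Int.negSucc (nat_lit 12388708088),Int.ofNat (nat_lit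 5192403456),Int.ofNat (nat_lit 5864741178),Int.negSucc (nat_lit 4331949136),Int.negSucc (nat_lit 39003874),Int.ofNat (nat_lit 13640520409),Int.negSucc (nat_lit 1506427433),Int.ofNat (nat_lit 3550061974),Int.ofNat (nat_lit 4491697962),Int.negSucc (nat_lit 5272013369),Int.ofNat (nat_lit 5833527787),Int.negSucc (nat_lit 2389475056),Int.negSucc (nat_lit 1464172287),Int.negSucc (nat_lit 25877146664),Int.negSucc (nat_lit 1563294708),Int.ofNat (nat_lit 1921249588),Int.negSucc (nat_lit 5575306122),Int.ofNat (nat_lit 441562144),Int.ofNat (nat_lit 1705308180),Int.ofNat (nat_lit 6836480876),Int.negSucc (nat_lit 5562406458),Int.negSucc (nat_lit 2045887859),Int.negSucc (nat_lit 2579702534),Int.ofNat (nat_lit 760497734),Int.negSucc (nat_lit 406214973),Int.ofNat (nat_lit 1785806236),Int.negSucc (nat_lit 2531017253),Int.ofNat (nat_lit 2764915233),Int.ofNat (nat_lit 3900933786),Int.negSucc (nat_lit 1303595942),Int.negSucc (nat_lit 467550247),Int.negSucc (nat_lit 8082053771),Int.ofNat (nat_lit 4697215363),Int.ofNat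 (nat_lit 893554566),Int.ofNat (nat_lit 6151661040),Int.ofNat (nat_lit 977239975),Int.negSucc (nat_lit 234483178),Int.ofNat (nat_lit 1767230331),Int.negSucc (nat_lit 496047676),Int.negSucc (nat_lit 4117097078),Int.ofNat (nat_lit 5183137326),Int.ofNat (nat_lit 7937540542),Int.ofNat (nat_lit 2203198041),Int.negSucc (nat_lit 922345631),Int.negSucc (nat_lit 63114653),Int.negSucc (nat_lit 1759571591),Int.ofNat (nat_lit 2142055796),Int.negSucc (nat_lit 3565627389),Int.negSucc (nat_lit 1861853873),Int.ofNat (nat_lit 3421350216),Int.negSucc (nat_lit 7736057653),Int.negSucc (nat_lit 1293708855),Int.negSucc (nat_lit 283687973),Int.ofNat (nat_lit 129435636),Int.ofNat (nat_lit 17481614920)])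

/-- A row. -/
noncomputable def sr0_c2_18 : List ℕ × List ℤ :=
  ([(nat_lit 1),(nat_lit 2),(nat_lit 0),(nat_lit 0),(nat_lit 0),(nat_lit 0),(nat_lit 1),(nat_lit 0),(nat_lit 0),(nat_lit 0),(nat_lit 0),(nat_lit 0)], [Int.ofNat (nat_lit 3723923363),Int.negSucc (nat_lit 2144115584),Int.negSucc (nat_lit 1805694410),Int.ofNat (nat_lit 2537289453),Int.ofNat (nat_lit 968999598),Int.ofNat (nat_lit 3254651095),Int.ofNat (nat_lit 4149086421),Int.negSucc (nat_lit 956916686),Int.negSucc (nat_lit 742716985),Int.negSucc (nat_lit 2346792536),Int.negSucc (nat_lit 3858676765),Int.ofNat (nat_lit 2029618320),Int.negSucc (nat_lit 493564254),Int.ofNat (nat_lit 1141005359),Int.negSucc (nat_lit 1996736305),Int.negSucc (nat_lit 1069645069),Int.negSucc (nat_lit 4532431335),Int.negSucc (nat_lit 862730108),Int.negSucc (nat_lit 1620316056),Int.ofNat (nat_lit 1710067153),Int.negSucc (nat_lit 688027430),Int.negSucc (nat_lit 648595986),Int.negSucc (nat_lit 206414608),Int.ofNat (nat_lit 4382719368),Int.negSucc (nat_lit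 2019596270),Int.negSucc (nat_lit 582585279),Int.ofNat (nat_lit 121351968),Int.negSucc (nat_lit 263908884),Int.negSucc (nat_lit 743802002),Int.negSucc (nat_lit 224076670),Int.ofNat (nat_lit 1254176785),Int.ofNat (nat_lit 374206241),Int.negSucc (nat_lit 813367317),Int.ofNat (nat_lit 256163847),Int.negSucc (nat_lit 571064002),Int.ofNat (nat_lit 557228993),Int.negSucc (nat_lit 1152771808),Int.negSucc (nat_lit 71047328),Int.negSucc (nat_lit 7187291004),Int.negSucc (nat_lit 529655463),Int.ofNat (nat_lit 1891179751),Int.negSucc (nat_lit 46696124),Int.ofNat (nat_lit 21595957),Int.ofNat (nat_lit 370646461),Int.negSucc (nat_lit 136244685),Int.negSucc (nat_lit 417843810),Int.negSucc (nat_lit 328268477),Int.negSucc (nat_lit 173811687),Int.ofNat (nat_lit 101565313),Int.ofNat (nat_lit 155927892),Int.negSucc (nat_lit 281026431),Int.negSucc (nat_lit 130700556),Int.ofNat (nat_lit 190946178),Int.negSucc (nat_lit 12044191),Int.negSucc (nat_lit 64796181),Int.ofNat (nat_lit 278519764),Int.negSucc (nat_lit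 58658931),Int.ofNat (nat_lit 111815417),Int.ofNat (nat_lit 1255024684),Int.ofNat (nat_lit 97347731),Int.ofNat (nat_lit 478845347),Int.ofNat (nat_lit 295010740),Int.negSucc (nat_lit 380281978),Int.ofNat (nat_lit 416544082),Int.ofNat (nat_lit 315865672),Int.ofNat (nat_lit 647403799),Int.negSucc (nat_lit 262943806),Int.negSucc (nat_lit 78186757),Int.ofNat (nat_lit 149232143),Int.ofNat (nat_lit 332045813),Int.ofNat (nat_lit 816880307),Int.negSucc (nat_lit 491686752),Int.negSucc (nat_lit 618097236),Int.ofNat (nat_lit 238924327),Int.negSucc (nat_lit 479577121),Int.negSucc (nat_lit 110485269),Int.negSucc (nat_lit 208744610),Int.ofNat (nat_lit 1052382564),Int.ofNat (nat_lit 3541162686)])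

/-- A row. -/
noncomputable def sr0_c2_19 : List ℕ × List ℤ :=
  ([(nat_lit 1),(nat_lit 2),(nat_lit 0),(nat_lit 0),(nat_lit 1),(nat_lit 0),(nat_lit 0),(nat_lit 0),(nat_lit 0),(nat_lit 0),(nat_lit 0),(nat_lit 0)], [Int.negSucc (nat_lit 5025995517),Int.ofNat (nat_lit 3741606332),Int.negSucc (nat_lit 8258318888),Int.ofNat (nat_lit 3771573910),Int.ofNat (nat_lit 10155952109),Int.negSucc (nat_lit 6655024109),Int.ofNat (nat_lit 2796423436),Int.negSucc (nat_lit 6394181),Int.ofNat (nat_lit 6158713573),Int.negSucc (nat_lit 12007668521),Int.negSucc (nat_lit 256753959),Int.negSucc (nat_lit 2411361698),Int.ofNat (nat_lit 795566433),Int.ofNat (nat_lit 738880358),Int.ofNat (nat_lit 115597650),Int.negSucc (nat_lit 2117472387),Int.negSucc (nat_lit 3590693073),Int.negSucc (nat_lit 4804918368),Int.ofNat (nat_lit 3165508923),Int.negSucc (nat_lit 1888208531),Int.negSucc (nat_lit 2788278588),Int.ofNat (nat_lit 3165018405),Int.negSucc (nat_lit 1297444223),Int.negSucc (nat_lit 892182004),Int.ofNat (nat_lit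 239422180),Int.negSucc (nat_lit 1731954265),Int.negSucc (nat_lit 133767951),Int.negSucc (nat_lit 1326299835),Int.ofNat (nat_lit 161437038),Int.ofNat (nat_lit 3696032476),Int.ofNat (nat_lit 2498036735),Int.ofNat (nat_lit 1204087715),Int.negSucc (nat_lit 67750307),Int.negSucc (nat_lit 1748394907),Int.negSucc (nat_lit 1690233202),Int.ofNat (nat_lit 265584983),Int.ofNat (nat_lit 5649531868),Int.ofNat (nat_lit 511232830),Int.negSucc (nat_lit 355884887),Int.negSucc (nat_lit 10987366336),Int.negSucc (nat_lit 2055276899),Int.negSucc (nat_lit 3876425229),Int.negSucc (nat_lit 5292313815),Int.ofNat (nat_lit 6066530932),Int.ofNat (nat_lit 1095370057),Int.ofNat (nat_lit 1078607362),Int.negSucc (nat_lit 237830185),Int.negSucc (nat_lit 169094883),Int.negSucc (nat_lit 1599447844),Int.ofNat (nat_lit 267890238),Int.negSucc (nat_lit 4923104234),Int.ofNat (nat_lit 985099362),Int.negSucc (nat_lit 550447266),Int.negSucc (nat_lit 661825590),Int.ofNat (nat_lit 4339209478),Int.negSucc (nat_lit 2583556959),Int.ofNat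 (nat_lit 3495137306),Int.negSucc (nat_lit 705489655),Int.negSucc (nat_lit 1288781663),Int.negSucc (nat_lit 4170520800),Int.negSucc (nat_lit 2799485593),Int.ofNat (nat_lit 766962489),Int.negSucc (nat_lit 632231809),Int.ofNat (nat_lit 1096342230),Int.negSucc (nat_lit 2388926943),Int.negSucc (nat_lit 3647037818),Int.ofNat (nat_lit 4248937192),Int.negSucc (nat_lit 200179734),Int.ofNat (nat_lit 101295079),Int.negSucc (nat_lit 12657916),Int.negSucc (nat_lit 2982772573),Int.negSucc (nat_lit 224175472),Int.ofNat (nat_lit 2047770136),Int.negSucc (nat_lit 1496309787),Int.negSucc (nat_lit 2092387191),Int.negSucc (nat_lit 252054867),Int.ofNat (nat_lit 296419491),Int.negSucc (nat_lit 6944139738),Int.negSucc (nat_lit 2968851176),Int.ofNat (nat_lit 9826077860)])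

/-- A row. -/
noncomputable def sr0_c2_20 : List ℕ × List ℤ :=
  ([(nat_lit 1),(nat_lit 2),(nat_lit 0),(nat_lit 2),(nat_lit 0),(nat_lit 0),(nat_lit 0),(nat_lit 0),(nat_lit 0),(nat_lit 0),(nat_lit 0),(nat_lit 0)], [Int.ofNat (nat_lit 154323213),Int.negSucc (nat_lit 2651314151),Int.negSucc (nat_lit 8291674345),Int.ofNat (nat_lit 896758846),Int.ofNat (nat_lit 8096787385),Int.ofNat (nat_lit 2344261313),Int.negSucc (nat_lit 1445984341),Int.negSucc (nat_lit 1052095120),Int.negSucc (nat_lit 461352353),Int.ofNat (nat_lit 1184694671),Int.ofNat (nat_lit 3532086594),Int.ofNat (nat_lit 1157711542),Int.ofNat (nat_lit 11253903447),Int.negSucc (nat_lit 3316872834),Int.ofNat (nat_lit 2310876662),Int.negSucc (nat_lit 3599672228),Int.ofNat (nat_lit 3295950985),Int.negSucc (nat_lit 603473494),Int.ofNat (nat_lit 426849673),Int.negSucc (nat_lit 3758628998),Int.ofNat (nat_lit 710748987),Int.negSucc (nat_lit 1043542728),Int.negSucc (nat_lit 695648712),Int.ofNat (nat_lit 2681770737),Int.ofNat (nat_lit 606787523),Int.negSucc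 (nat_lit 1484878713),Int.negSucc (nat_lit 700932067),Int.negSucc (nat_lit 1873141576),Int.ofNat (nat_lit 4411852375),Int.ofNat (nat_lit 747752299),Int.ofNat (nat_lit 2673538093),Int.negSucc (nat_lit 1870875168),Int.negSucc (nat_lit 667301180),Int.ofNat (nat_lit 620306105),Int.ofNat (nat_lit 151557354),Int.ofNat (nat_lit 1786559862),Int.ofNat (nat_lit 1466407019),Int.negSucc (nat_lit 1126375744),Int.ofNat (nat_lit 2640719904),Int.negSucc (nat_lit 238714956),Int.negSucc (nat_lit 371024734),Int.negSucc (nat_lit 13553798821),Int.negSucc (nat_lit 1000567698),Int.negSucc (nat_lit 185925854),Int.ofNat (nat_lit 469008767),Int.ofNat (nat_lit 733906499),Int.negSucc (nat_lit 178749427),Int.negSucc (nat_lit 4091798288),Int.ofNat (nat_lit 46674477),Int.negSucc (nat_lit 345629645),Int.negSucc (nat_lit 677410428),Int.ofNat (nat_lit 321729846),Int.ofNat (nat_lit 1676075893),Int.negSucc (nat_lit 90674969),Int.ofNat (nat_lit 525132491),Int.ofNat (nat_lit 1028368806),Int.negSucc (nat_lit 410083639),Int.ofNat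 (nat_lit 733026414),Int.negSucc (nat_lit 1678095695),Int.negSucc (nat_lit 136132682),Int.ofNat (nat_lit 549242266),Int.negSucc (nat_lit 648609940),Int.negSucc (nat_lit 216227776),Int.negSucc (nat_lit 1083208312),Int.negSucc (nat_lit 429963451),Int.negSucc (nat_lit 532493071),Int.ofNat (nat_lit 778905413),Int.ofNat (nat_lit 1236356869),Int.negSucc (nat_lit 330153516),Int.negSucc (nat_lit 733541542),Int.negSucc (nat_lit 1975619608),Int.ofNat (nat_lit 885762523),Int.ofNat (nat_lit 418740094),Int.negSucc (nat_lit 2270417135),Int.ofNat (nat_lit 64021512),Int.ofNat (nat_lit 1216201104),Int.negSucc (nat_lit 76855189),Int.negSucc (nat_lit 2090397650),Int.negSucc (nat_lit 1320660195),Int.ofNat (nat_lit 841984621),Int.ofNat (nat_lit 6611563687)])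

/-- A row. -/
noncomputable def sr0_c2_21 : List ℕ × List ℤ :=
  ([(nat_lit 1),(nat_lit 2),(nat_lit 1),(nat_lit 0),(nat_lit 0),(nat_lit 0),(nat_lit 0),(nat_lit 0),(nat_lit 0),(nat_lit 0),(nat_lit 0),(nat_lit 0)], [Int.ofNat (nat_lit 18238914729),Int.negSucc (nat_lit 1909142768),Int.ofNat (nat_lit 5434575435),Int.negSucc (nat_lit 16787575689),Int.ofNat (nat_lit 8850144674),Int.negSucc (nat_lit 8133709076),Int.ofNat (nat_lit 15345908937),Int.negSucc (nat_lit 2743390435),Int.ofNat (nat_lit 14243611246),Int.ofNat (nat_lit 9632592936),Int.negSucc (nat_lit 2251781575),Int.negSucc (nat_lit 10130450370),Int.ofNat (nat_lit 11630663643),Int.ofNat (nat_lit 4324555979),Int.ofNat (nat_lit 6441779585),Int.ofNat (nat_lit 5033325209),Int.negSucc (nat_lit 4584226480),Int.ofNat (nat_lit 1966997872),Int.negSucc (nat_lit 8752425693),Int.ofNat (nat_lit 1648340726),Int.ofNat (nat_lit 5081951057),Int.negSucc (nat_lit 1736815169),Int.ofNat (nat_lit 2451135787),Int.negSucc (nat_lit 7546070062),Int.ofNat (nat_lit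 7919677481),Int.ofNat (nat_lit 2241529386),Int.negSucc (nat_lit 1396606171),Int.negSucc (nat_lit 2673434094),Int.ofNat (nat_lit 4733024225),Int.negSucc (nat_lit 2059398125),Int.ofNat (nat_lit 3641363631),Int.ofNat (nat_lit 4513243579),Int.negSucc (nat_lit 8487043738),Int.negSucc (nat_lit 28062176),Int.ofNat (nat_lit 2000701714),Int.negSucc (nat_lit 6067753003),Int.negSucc (nat_lit 22598981952),Int.negSucc (nat_lit 3255816372),Int.ofNat (nat_lit 6311565911),Int.negSucc (nat_lit 12960590718),Int.ofNat (nat_lit 3613489655),Int.ofNat (nat_lit 638771908),Int.negSucc (nat_lit 12780565237),Int.negSucc (nat_lit 9381846483),Int.ofNat (nat_lit 1994317756),Int.negSucc (nat_lit 1309005886),Int.negSucc (nat_lit 910943910),Int.negSucc (nat_lit 743053672),Int.ofNat (nat_lit 2124311773),Int.ofNat (nat_lit 1274656994),Int.ofNat (nat_lit 3181846943),Int.ofNat (nat_lit 2151332764),Int.ofNat (nat_lit 286926240),Int.ofNat (nat_lit 586237136),Int.negSucc (nat_lit 6672708592),Int.ofNat (nat_lit 198988047),Int.negSucc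 (nat_lit 2026559979),Int.ofNat (nat_lit 1823328347),Int.ofNat (nat_lit 1529631419),Int.negSucc (nat_lit 297533559),Int.ofNat (nat_lit 2662134332),Int.negSucc (nat_lit 3292728469),Int.ofNat (nat_lit 1213954767),Int.negSucc (nat_lit 1118058014),Int.negSucc (nat_lit 297671012),Int.ofNat (nat_lit 4111990612),Int.ofNat (nat_lit 2787831475),Int.ofNat (nat_lit 7837605507),Int.ofNat (nat_lit 3481585124),Int.negSucc (nat_lit 1190157609),Int.negSucc (nat_lit 2723698610),Int.ofNat (nat_lit 2101478029),Int.ofNat (nat_lit 877140585),Int.negSucc (nat_lit 3510653763),Int.negSucc (nat_lit 843614996),Int.ofNat (nat_lit 3515215352),Int.negSucc (nat_lit 7476389448),Int.ofNat (nat_lit 12119443301),Int.ofNat (nat_lit 278543247),Int.ofNat (nat_lit 727750447),Int.negSucc (nat_lit 493633596),Int.ofNat (nat_lit 11960066367)])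

/-- A row. -/
noncomputable def sr0_c2_22 : List ℕ × List ℤ :=
  ([(nat_lit 1),(nat_lit 2),(nat_lit 2),(nat_lit 0),(nat_lit 0),(nat_lit 0),(nat_lit 0),(nat_lit 0),(nat_lit 0),(nat_lit 0),(nat_lit 0),(nat_lit 0)], [Int.ofNat (nat_lit 1782315818),Int.ofNat (nat_lit 1004606608),Int.negSucc (nat_lit 1214880546),Int.negSucc (nat_lit 5177966698),Int.ofNat (nat_lit 6691953653),Int.negSucc (nat_lit 652479524),Int.ofNat (nat_lit 4057040877),Int.negSucc (nat_lit 1295828586),Int.ofNat (nat_lit 1668537613),Int.negSucc (nat_lit 488742799),Int.ofNat (nat_lit 4624850828),Int.negSucc (nat_lit 4007196783),Int.ofNat (nat_lit 5635162913),Int.negSucc (nat_lit 671226070),Int.ofNat (nat_lit 6258838638),Int.ofNat (nat_lit 873912190),Int.negSucc (nat_lit 5858491473),Int.ofNat (nat_lit 419319406),Int.negSucc (nat_lit 930874306),Int.negSucc (nat_lit 1731240020),Int.ofNat (nat_lit 1548595775),Int.negSucc (nat_lit 1403591819),Int.negSucc (nat_lit 2387032861),Int.negSucc (nat_lit 1217830875),Int.ofNat (nat_lit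 3184383866),Int.negSucc (nat_lit 1797144150),Int.negSucc (nat_lit 944888930),Int.negSucc (nat_lit 914935902),Int.ofNat (nat_lit 1567057916),Int.ofNat (nat_lit 1393295355),Int.negSucc (nat_lit 1495561767),Int.ofNat (nat_lit 165534661),Int.ofNat (nat_lit 231520550),Int.negSucc (nat_lit 152423253),Int.negSucc (nat_lit 5893151550),Int.negSucc (nat_lit 3717458321),Int.negSucc (nat_lit 3209781047),Int.negSucc (nat_lit 447403784),Int.ofNat (nat_lit 754612795),Int.negSucc (nat_lit 4076933756),Int.ofNat (nat_lit 1520143510),Int.negSucc (nat_lit 1621065387),Int.negSucc (nat_lit 9741607841),Int.negSucc (nat_lit 6214348205),Int.negSucc (nat_lit 5574912254),Int.ofNat (nat_lit 1669701306),Int.negSucc (nat_lit 141984191),Int.negSucc (nat_lit 57182562),Int.ofNat (nat_lit 397859139),Int.negSucc (nat_lit 201913885),Int.negSucc (nat_lit 1136549760),Int.ofNat (nat_lit 620093264),Int.negSucc (nat_lit 627832437),Int.negSucc (nat_lit 127984148),Int.ofNat (nat_lit 518205772),Int.negSucc (nat_lit 407924519),Int.negSucc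 (nat_lit 931855982),Int.ofNat (nat_lit 910736949),Int.negSucc (nat_lit 87475058),Int.negSucc (nat_lit 664779789),Int.ofNat (nat_lit 249965016),Int.negSucc (nat_lit 267591635),Int.ofNat (nat_lit 392456663),Int.ofNat (nat_lit 161977303),Int.negSucc (nat_lit 3307004342),Int.ofNat (nat_lit 674525593),Int.ofNat (nat_lit 1564188330),Int.ofNat (nat_lit 1073228239),Int.ofNat (nat_lit 607389844),Int.ofNat (nat_lit 811273250),Int.negSucc (nat_lit 244769068),Int.ofNat (nat_lit 1507216822),Int.ofNat (nat_lit 370492345),Int.ofNat (nat_lit 1215837151),Int.ofNat (nat_lit 157713974),Int.ofNat (nat_lit 380483108),Int.ofNat (nat_lit 701835903),Int.negSucc (nat_lit 1942888775),Int.negSucc (nat_lit 579012666),Int.ofNat (nat_lit 1745713083),Int.ofNat (nat_lit 1198916201),Int.ofNat (nat_lit 4975769094),Int.ofNat (nat_lit 6384174706)])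

/-- A row. -/
noncomputable def sr0_c2_23 : List ℕ × List ℤ :=
  ([(nat_lit 1),(nat_lit 3),(nat_lit 0),(nat_lit 0),(nat_lit 0),(nat_lit 1),(nat_lit 0),(nat_lit 0),(nat_lit 0),(nat_lit 0),(nat_lit 0),(nat_lit 0)], [Int.negSucc (nat_lit 345571203),Int.negSucc (nat_lit 543117263),Int.ofNat (nat_lit 1068982312),Int.negSucc (nat_lit 1358903652),Int.ofNat (nat_lit 4825471937),Int.ofNat (nat_lit 6971982339),Int.negSucc (nat_lit 5755165870),Int.negSucc (nat_lit 2627527832),Int.negSucc (nat_lit 3394829572),Int.negSucc (nat_lit 1211763785),Int.negSucc (nat_lit 2193194365),Int.negSucc (nat_lit 979606915),Int.negSucc (nat_lit 2218713970),Int.ofNat (nat_lit 873476935),Int.negSucc (nat_lit 315464857),Int.ofNat (nat_lit 332201164),Int.ofNat (nat_lit 937137624),Int.ofNat (nat_lit 413981325),Int.negSucc (nat_lit 540116062),Int.negSucc (nat_lit 633900970),Int.ofNat (nat_lit 1431203280),Int.negSucc (nat_lit 123980874),Int.ofNat (nat_lit 1090999946),Int.negSucc (nat_lit 2217314870),Int.negSucc (nat_lit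 234015796),Int.negSucc (nat_lit 336372680),Int.ofNat (nat_lit 11548501037),Int.ofNat (nat_lit 1181500266),Int.negSucc (nat_lit 3284089560),Int.negSucc (nat_lit 3656664594),Int.ofNat (nat_lit 1374217967),Int.ofNat (nat_lit 1117294399),Int.negSucc (nat_lit 214687069),Int.negSucc (nat_lit 10076087302),Int.ofNat (nat_lit 1157605083),Int.negSucc (nat_lit 1091994555),Int.ofNat (nat_lit 1152941775),Int.negSucc (nat_lit 2277833996),Int.negSucc (nat_lit 1120571793),Int.ofNat (nat_lit 1468082818),Int.negSucc (nat_lit 6232277401),Int.ofNat (nat_lit 4289251466),Int.ofNat (nat_lit 1653712230),Int.ofNat (nat_lit 1783049661),Int.ofNat (nat_lit 1886601403),Int.negSucc (nat_lit 3025254948),Int.negSucc (nat_lit 13211023973),Int.ofNat (nat_lit 719609572),Int.ofNat (nat_lit 908261351),Int.negSucc (nat_lit 136630937),Int.ofNat (nat_lit 55482254),Int.negSucc (nat_lit 187562037),Int.negSucc (nat_lit 198401343),Int.ofNat (nat_lit 171327879),Int.negSucc (nat_lit 938495194),Int.negSucc (nat_lit 813472246),Int.negSucc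 (nat_lit 1226145864),Int.negSucc (nat_lit 809650068),Int.negSucc (nat_lit 900715543),Int.ofNat (nat_lit 256337169),Int.ofNat (nat_lit 197299304),Int.ofNat (nat_lit 718013559),Int.ofNat (nat_lit 410157869),Int.negSucc (nat_lit 126918975),Int.ofNat (nat_lit 858017002),Int.ofNat (nat_lit 120331091),Int.negSucc (nat_lit 764627231),Int.ofNat (nat_lit 330377683),Int.negSucc (nat_lit 430882414),Int.ofNat (nat_lit 184811227),Int.ofNat (nat_lit 1512168318),Int.negSucc (nat_lit 1055272902),Int.negSucc (nat_lit 3001229935),Int.ofNat (nat_lit 1399484621),Int.ofNat (nat_lit 1063441591),Int.negSucc (nat_lit 574597415),Int.negSucc (nat_lit 206640608),Int.ofNat (nat_lit 1352981065),Int.ofNat (nat_lit 1982525041),Int.negSucc (nat_lit 1616943036),Int.negSucc (nat_lit 3476515092),Int.negSucc (nat_lit 427187193),Int.negSucc (nat_lit 1948914069),Int.ofNat (nat_lit 9048547035)])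

/-- A row. -/
noncomputable def sr0_c2_24 : List ℕ × List ℤ :=
  ([(nat_lit 1),(nat_lit 3),(nat_lit 0),(nat_lit 1),(nat_lit 0),(nat_lit 0),(nat_lit 0),(nat_lit 0),(nat_lit 0),(nat_lit 0),(nat_lit 0),(nat_lit 0)], [Int.ofNat (nat_lit 7734604994),Int.negSucc (nat_lit 4192013194),Int.ofNat (nat_lit 7932656974),Int.ofNat (nat_lit 6509481633),Int.negSucc (nat_lit 12845334980),Int.ofNat (nat_lit 3121410365),Int.negSucc (nat_lit 5026032420),Int.negSucc (nat_lit 4846203610),Int.ofNat (nat_lit 5445909295),Int.negSucc (nat_lit 6690483077),Int.ofNat (nat_lit 2799166328),Int.negSucc (nat_lit 7085542278),Int.negSucc (nat_lit 583020227),Int.ofNat (nat_lit 7177139812),Int.ofNat (nat_lit 918669114),Int.ofNat (nat_lit 4599884441),Int.ofNat (nat_lit 902880789),Int.ofNat (nat_lit 4372601804),Int.negSucc (nat_lit 9822014228),Int.ofNat (nat_lit 4195553972),Int.ofNat (nat_lit 2969345264),Int.ofNat (nat_lit 2965811797),Int.ofNat (nat_lit 952178078),Int.negSucc (nat_lit 9909268872),Int.ofNat (nat_lit 5994530350),Int.negSucc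 (nat_lit 1497365774),Int.ofNat (nat_lit 1371698687),Int.negSucc (nat_lit 5504824061),Int.ofNat (nat_lit 25902582520),Int.ofNat (nat_lit 5836413055),Int.ofNat (nat_lit 3134140370),Int.ofNat (nat_lit 5527297649),Int.negSucc (nat_lit 906591183),Int.ofNat (nat_lit 4343668298),Int.negSucc (nat_lit 13402161124),Int.ofNat (nat_lit 2915534415),Int.ofNat (nat_lit 1048281690),Int.negSucc (nat_lit 1991324496),Int.negSucc (nat_lit 890579720),Int.negSucc (nat_lit 4360835534),Int.ofNat (nat_lit 4397355816),Int.ofNat (nat_lit 1783974845),Int.negSucc (nat_lit 1866605688),Int.negSucc (nat_lit 2478655685),Int.negSucc (nat_lit 553467280),Int.ofNat (nat_lit 3045995127),Int.ofNat (nat_lit 2974279758),Int.negSucc (nat_lit 3863259481),Int.ofNat (nat_lit 1900979272),Int.ofNat (nat_lit 191052181),Int.ofNat (nat_lit 902227309),Int.ofNat (nat_lit 174850487),Int.negSucc (nat_lit 9279998853),Int.ofNat (nat_lit 1263658068),Int.ofNat (nat_lit 1236917039),Int.ofNat (nat_lit 4747908464),Int.ofNat (nat_lit 2617505532),Int.ofNat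 (nat_lit 1442990649),Int.negSucc (nat_lit 726271899),Int.negSucc (nat_lit 708518384),Int.ofNat (nat_lit 1097282818),Int.negSucc (nat_lit 489426264),Int.negSucc (nat_lit 4173940639),Int.ofNat (nat_lit 7589987799),Int.ofNat (nat_lit 505961607),Int.ofNat (nat_lit 1586833543),Int.negSucc (nat_lit 2871842467),Int.negSucc (nat_lit 3933120281),Int.ofNat (nat_lit 2077209128),Int.ofNat (nat_lit 534916372),Int.negSucc (nat_lit 3937543450),Int.ofNat (nat_lit 244051694),Int.negSucc (nat_lit 1024792243),Int.negSucc (nat_lit 10377456978),Int.negSucc (nat_lit 2956757096),Int.negSucc (nat_lit 3708080140),Int.ofNat (nat_lit 9844514531),Int.negSucc (nat_lit 1146052907),Int.ofNat (nat_lit 957150601),Int.ofNat (nat_lit 1342177709),Int.negSucc (nat_lit 9956286130),Int.negSucc (nat_lit 751468348),Int.ofNat (nat_lit 1790684075),Int.negSucc (nat_lit 5586679927),Int.ofNat (nat_lit 18322854151)])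

/-- A row. -/
noncomputable def sr0_c2_25 : List ℕ × List ℤ :=
  ([(nat_lit 1),(nat_lit 4),(nat_lit 0),(nat_lit 0),(nat_lit 0),(nat_lit 0),(nat_lit 0),(nat_lit 0),(nat_lit 0),(nat_lit 0),(nat_lit 0),(nat_lit 0)], [Int.negSucc (nat_lit 21045676048),Int.ofNat (nat_lit 11497928357),Int.ofNat (nat_lit 9654295346),Int.ofNat (nat_lit 7924555235),Int.negSucc (nat_lit 10570707924),Int.ofNat (nat_lit 13762740193),Int.ofNat (nat_lit 6205167427),Int.negSucc (nat_lit 2123264002),Int.negSucc (nat_lit 14016110819),Int.ofNat (nat_lit 19715281290),Int.negSucc (nat_lit 7940096477),Int.ofNat (nat_lit 9361641025),Int.negSucc (nat_lit 15287588073),Int.negSucc (nat_lit 2840665308),Int.ofNat (nat_lit 6196186494),Int.ofNat (nat_lit 1694610208),Int.negSucc (nat_lit 4855444604),Int.ofNat (nat_lit 3557388720),Int.ofNat (nat_lit 11306085685),Int.ofNat (nat_lit 2422617175),Int.negSucc (nat_lit 15761569585),Int.negSucc (nat_lit 7955885081),Int.ofNat (nat_lit 8833544723),Int.ofNat (nat_lit 743784621),Int.negSucc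 (nat_lit 10590579244),Int.negSucc (nat_lit 1258237857),Int.ofNat (nat_lit 4253351949),Int.negSucc (nat_lit 559595502),Int.negSucc (nat_lit 13159738632),Int.negSucc (nat_lit 3453920551),Int.negSucc (nat_lit 3424512655),Int.negSucc (nat_lit 3179294776),Int.ofNat (nat_lit 8656910035),Int.negSucc (nat_lit 10834591636),Int.ofNat (nat_lit 11034682507),Int.negSucc (nat_lit 927786370),Int.ofNat (nat_lit 39621213293),Int.ofNat (nat_lit 7480009509),Int.negSucc (nat_lit 9127562077),Int.ofNat (nat_lit 23679049321),Int.negSucc (nat_lit 3552027832),Int.ofNat (nat_lit 17837036547),Int.negSucc (nat_lit 18890098442),Int.negSucc (nat_lit 5564966811),Int.ofNat (nat_lit 19448911258),Int.negSucc (nat_lit 3188247007),Int.negSucc (nat_lit 4991997663),Int.negSucc (nat_lit 6390660862),Int.negSucc (nat_lit 3314867704),Int.negSucc (nat_lit 22462804003),Int.negSucc (nat_lit 8168371183),Int.negSucc (nat_lit 2475158594),Int.ofNat (nat_lit 7136376385),Int.ofNat (nat_lit 1926117553),Int.ofNat (nat_lit 3827094113),Int.negSucc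 (nat_lit 6080645897),Int.negSucc (nat_lit 8671046051),Int.negSucc (nat_lit 9404673595),Int.negSucc (nat_lit 1194217821),Int.negSucc (nat_lit 1369743039),Int.negSucc (nat_lit 3421570047),Int.ofNat (nat_lit 78864228),Int.ofNat (nat_lit 4370294024),Int.negSucc (nat_lit 7938424044),Int.negSucc (nat_lit 11850097949),Int.negSucc (nat_lit 1140706584),Int.negSucc (nat_lit 494216518),Int.ofNat (nat_lit 2441527741),Int.ofNat (nat_lit 2610808799),Int.ofNat (nat_lit 39283867),Int.ofNat (nat_lit 7660222285),Int.ofNat (nat_lit 226198892),Int.negSucc (nat_lit 3093671323),Int.ofNat (nat_lit 16174297849),Int.ofNat (nat_lit 2998593571),Int.negSucc (nat_lit 803932326),Int.negSucc (nat_lit 10749533849),Int.negSucc (nat_lit 17473936360),Int.ofNat (nat_lit 393745490),Int.negSucc (nat_lit 6121563995),Int.ofNat (nat_lit 3016981959),Int.ofNat (nat_lit 7960919821),Int.negSucc (nat_lit 2873059921),Int.ofNat (nat_lit 14358531660),Int.negSucc (nat_lit 14606774951),Int.ofNat (nat_lit 20098783914)])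

/-- A row. -/
noncomputable def sr0_c2_26 : List ℕ × List ℤ :=
  ([(nat_lit 1),(nat_lit 4),(nat_lit 1),(nat_lit 0),(nat_lit 0),(nat_lit 0),(nat_lit 0),(nat_lit 0),(nat_lit 0),(nat_lit 0),(nat_lit 0),(nat_lit 0)], [Int.negSucc (nat_lit 4053744630),Int.ofNat (nat_lit 5166630317),Int.ofNat (nat_lit 3956081894),Int.ofNat (nat_lit 10495377284),Int.negSucc (nat_lit 6118481619),Int.ofNat (nat_lit 7564994861),Int.negSucc (nat_lit 8622800181),Int.ofNat (nat_lit 371770569),Int.negSucc (nat_lit 7891117382),Int.negSucc (nat_lit 1875759704),Int.ofNat (nat_lit 2427188995),Int.ofNat (nat_lit 10537821896),Int.negSucc (nat_lit 6128659768),Int.negSucc (nat_lit 2502485207),Int.ofNat (nat_lit 897728081),Int.negSucc (nat_lit 3205882205),Int.ofNat (nat_lit 3156997967),Int.negSucc (nat_lit 2490800268),Int.ofNat (nat_lit 5651929419),Int.ofNat (nat_lit 278269358),Int.negSucc (nat_lit 5190206944),Int.negSucc (nat_lit 893313013),Int.negSucc (nat_lit 2670103625),Int.ofNat (nat_lit 3424945908),Int.negSucc (nat_lit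 6897640190),Int.negSucc (nat_lit 1447097520),Int.ofNat (nat_lit 1781351607),Int.ofNat (nat_lit 2848974402),Int.negSucc (nat_lit 977295065),Int.negSucc (nat_lit 321627903),Int.negSucc (nat_lit 2673263082),Int.negSucc (nat_lit 3768006147),Int.ofNat (nat_lit 8775966108),Int.ofNat (nat_lit 1294300036),Int.ofNat (nat_lit 905420647),Int.ofNat (nat_lit 2228090011),Int.ofNat (nat_lit 21405423580),Int.ofNat (nat_lit 4100282048),Int.negSucc (nat_lit 5947572764),Int.ofNat (nat_lit 11231481716),Int.negSucc (nat_lit 1752434843),Int.ofNat (nat_lit 2428609777),Int.ofNat (nat_lit 7888627635),Int.ofNat (nat_lit 1131933288),Int.negSucc (nat_lit 8104082953),Int.ofNat (nat_lit 3289641743),Int.ofNat (nat_lit 818084340),Int.negSucc (nat_lit 1282193944),Int.negSucc (nat_lit 6585560262),Int.negSucc (nat_lit 6185969453),Int.negSucc (nat_lit 4983122529),Int.negSucc (nat_lit 10781736310),Int.negSucc (nat_lit 264764005),Int.negSucc (nat_lit 170271839),Int.ofNat (nat_lit 1780516347),Int.ofNat (nat_lit 201299516),Int.ofNat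 (nat_lit 442883739),Int.negSucc (nat_lit 1172122152),Int.negSucc (nat_lit 431054212),Int.negSucc (nat_lit 2945073407),Int.negSucc (nat_lit 2018532865),Int.ofNat (nat_lit 577498009),Int.negSucc (nat_lit 262473793),Int.negSucc (nat_lit 1451561738),Int.negSucc (nat_lit 1487424467),Int.negSucc (nat_lit 1856013501),Int.negSucc (nat_lit 4275886137),Int.negSucc (nat_lit 7044576893),Int.negSucc (nat_lit 1099333361),Int.ofNat (nat_lit 1668355468),Int.ofNat (nat_lit 3415087734),Int.ofNat (nat_lit 657450463),Int.negSucc (nat_lit 1336951136),Int.ofNat (nat_lit 1044252844),Int.negSucc (nat_lit 1515731924),Int.negSucc (nat_lit 3083280883),Int.ofNat (nat_lit 2639969745),Int.negSucc (nat_lit 7398882685),Int.negSucc (nat_lit 2947080392),Int.ofNat (nat_lit 54632103),Int.ofNat (nat_lit 1421192706),Int.negSucc (nat_lit 3841574259),Int.ofNat (nat_lit 5551549291),Int.ofNat (nat_lit 312466582),Int.negSucc (nat_lit 119630629),Int.ofNat (nat_lit 5194138296),Int.ofNat (nat_lit 12908492250)])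

/-- A row. -/
noncomputable def sr0_c2_27 : List ℕ × List ℤ :=
  ([(nat_lit 1),(nat_lit 6),(nat_lit 0),(nat_lit 0),(nat_lit 0),(nat_lit 0),(nat_lit 0),(nat_lit 0),(nat_lit 0),(nat_lit 0),(nat_lit 0),(nat_lit 0)], [Int.ofNat (nat_lit 7032152884),Int.negSucc (nat_lit 881074284),Int.negSucc (nat_lit 9619751082),Int.negSucc (nat_lit 7409058274),Int.ofNat (nat_lit 11637721112),Int.negSucc (nat_lit 6961322430),Int.negSucc (nat_lit 9795358174),Int.ofNat (nat_lit 1297891675),Int.ofNat (nat_lit 3048460285),Int.negSucc (nat_lit 11699447181),Int.ofNat (nat_lit 4101531210),Int.ofNat (nat_lit 5204999326),Int.ofNat (nat_lit 6756392338),Int.ofNat (nat_lit 92691937),Int.negSucc (nat_lit 2577065167),Int.negSucc (nat_lit 7364840214),Int.ofNat (nat_lit 4961875959),Int.negSucc (nat_lit 6705942609),Int.negSucc (nat_lit 3271782153),Int.negSucc (nat_lit 976093697),Int.ofNat (nat_lit 7063873576),Int.ofNat (nat_lit 3258568289),Int.negSucc (nat_lit 7157091339),Int.ofNat (nat_lit 7728175932),Int.ofNat (nat_lit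 4163958443),Int.negSucc (nat_lit 895373659),Int.negSucc (nat_lit 1081400381),Int.ofNat (nat_lit 1574589341),Int.negSucc (nat_lit 3575571888),Int.ofNat (nat_lit 518992882),Int.negSucc (nat_lit 205540034),Int.negSucc (nat_lit 831506527),Int.negSucc (nat_lit 2459144456),Int.ofNat (nat_lit 5078700614),Int.negSucc (nat_lit 2918436297),Int.ofNat (nat_lit 1211902284),Int.negSucc (nat_lit 14450357022),Int.negSucc (nat_lit 4976281356),Int.ofNat (nat_lit 6915192012),Int.negSucc (nat_lit 14238891139),Int.ofNat (nat_lit 830102613),Int.negSucc (nat_lit 13610160390),Int.ofNat (nat_lit 15059901653),Int.ofNat (nat_lit 8519045406),Int.negSucc (nat_lit 19323811480),Int.ofNat (nat_lit 2652513686),Int.ofNat (nat_lit 3340844594),Int.ofNat (nat_lit 11504612065),Int.negSucc (nat_lit 1402130996),Int.ofNat (nat_lit 21910963796),Int.ofNat (nat_lit 6206516617),Int.negSucc (nat_lit 8054528485),Int.negSucc (nat_lit 5853122881),Int.negSucc (nat_lit 5583660161),Int.negSucc (nat_lit 571764574),Int.ofNat (nat_lit 2671261160),Int.ofNat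 (nat_lit 6379212190),Int.ofNat (nat_lit 2929717688),Int.ofNat (nat_lit 731061779),Int.ofNat (nat_lit 789396344),Int.ofNat (nat_lit 1794483580),Int.ofNat (nat_lit 187296198),Int.negSucc (nat_lit 676117165),Int.ofNat (nat_lit 1122708586),Int.ofNat (nat_lit 5117984860),Int.ofNat (nat_lit 269145587),Int.negSucc (nat_lit 1651348873),Int.negSucc (nat_lit 2244536744),Int.negSucc (nat_lit 1007055513),Int.negSucc (nat_lit 1269173622),Int.negSucc (nat_lit 1060811039),Int.ofNat (nat_lit 1291845345),Int.ofNat (nat_lit 1108423572),Int.negSucc (nat_lit 6856779323),Int.negSucc (nat_lit 832497475),Int.ofNat (nat_lit 1569065646),Int.ofNat (nat_lit 3558454683),Int.ofNat (nat_lit 4832304244),Int.negSucc (nat_lit 92196418),Int.ofNat (nat_lit 1533772982),Int.negSucc (nat_lit 1525277041),Int.negSucc (nat_lit 5595831634),Int.ofNat (nat_lit 1588825583),Int.negSucc (nat_lit 11017545898),Int.ofNat (nat_lit 4723296146),Int.negSucc (nat_lit 16122395422),Int.ofNat (nat_lit 7614632301),Int.ofNat (nat_lit 9815048247)])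

/-- A row. -/
noncomputable def sr0_c2_28 : List ℕ × List ℤ :=
  ([(nat_lit 2),(nat_lit 0),(nat_lit 0),(nat_lit 0),(nat_lit 0),(nat_lit 0),(nat_lit 0),(nat_lit 0),(nat_lit 0),(nat_lit 0),(nat_lit 0),(nat_lit 0)], [Int.ofNat (nat_lit 13562162785),Int.ofNat (nat_lit 5143102187),Int.negSucc (nat_lit 686976723),Int.negSucc (nat_lit 6374665238),Int.ofNat (nat_lit 5065153169),Int.negSucc (nat_lit 7402653088),Int.ofNat (nat_lit 6700741320),Int.ofNat (nat_lit 2709961197),Int.negSucc (nat_lit 1039954872),Int.ofNat (nat_lit 292515831),Int.negSucc (nat_lit 5465007208),Int.negSucc (nat_lit 350420259),Int.negSucc (nat_lit 2808876404),Int.negSucc (nat_lit 6613424215),Int.negSucc (nat_lit 8381702729),Int.negSucc (nat_lit 1932713062),Int.negSucc (nat_lit 5339137349),Int.negSucc (nat_lit 3081189763),Int.ofNat (nat_lit 2426538231),Int.negSucc (nat_lit 2631423471),Int.negSucc (nat_lit 5959067263),Int.ofNat (nat_lit 797805284),Int.ofNat (nat_lit 3004809247),Int.negSucc (nat_lit 5383068634),Int.negSucc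 (nat_lit 2290966508),Int.ofNat (nat_lit 2407403204),Int.negSucc (nat_lit 526309910),Int.ofNat (nat_lit 3481198517),Int.negSucc (nat_lit 3759390381),Int.negSucc (nat_lit 4004347026),Int.negSucc (nat_lit 1305355803),Int.negSucc (nat_lit 1543234412),Int.ofNat (nat_lit 2822472355),Int.ofNat (nat_lit 3238616042),Int.ofNat (nat_lit 1568894375),Int.negSucc (nat_lit 769768329),Int.ofNat (nat_lit 656192794),Int.ofNat (nat_lit 1412461722),Int.ofNat (nat_lit 113216508),Int.negSucc (nat_lit 178398042),Int.negSucc (nat_lit 1268296339),Int.ofNat (nat_lit 872330220),Int.ofNat (nat_lit 807433138),Int.negSucc (nat_lit 1536954792),Int.negSucc (nat_lit 1107432529),Int.negSucc (nat_lit 400255494),Int.negSucc (nat_lit 1324896146),Int.negSucc (nat_lit 655913210),Int.ofNat (nat_lit 270205211),Int.negSucc (nat_lit 206446085),Int.negSucc (nat_lit 47633577),Int.ofNat (nat_lit 41381125),Int.negSucc (nat_lit 150888364),Int.ofNat (nat_lit 281662128),Int.negSucc (nat_lit 15192093423),Int.negSucc (nat_lit 373673414),Int.negSucc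 (nat_lit 2441944136),Int.ofNat (nat_lit 1750622232),Int.negSucc (nat_lit 1775616347),Int.negSucc (nat_lit 2847308614),Int.negSucc (nat_lit 1404030217),Int.negSucc (nat_lit 21164962),Int.negSucc (nat_lit 360210698),Int.negSucc (nat_lit 80836345),Int.negSucc (nat_lit 259750000),Int.ofNat (nat_lit 845117950),Int.negSucc (nat_lit 956708078),Int.ofNat (nat_lit 213735225),Int.ofNat (nat_lit 183042326),Int.ofNat (nat_lit 842435430),Int.ofNat (nat_lit 460545334),Int.ofNat (nat_lit 146025394),Int.negSucc (nat_lit 34233275),Int.ofNat (nat_lit 1201198311),Int.negSucc (nat_lit 438929050),Int.negSucc (nat_lit 442208972),Int.negSucc (nat_lit 237548016),Int.negSucc (nat_lit 637894110),Int.negSucc (nat_lit 690349448),Int.ofNat (nat_lit 489915424),Int.ofNat (nat_lit 85693331),Int.negSucc (nat_lit 63399158),Int.negSucc (nat_lit 686862329),Int.ofNat (nat_lit 172847291),Int.ofNat (nat_lit 290214566),Int.ofNat (nat_lit 374620080),Int.ofNat (nat_lit 167073866),Int.negSucc (nat_lit 171773157),Int.ofNat (nat_lit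 4480350544)])

/-- A row. -/
noncomputable def sr0_c2_29 : List ℕ × List ℤ :=
  ([(nat_lit 2),(nat_lit 0),(nat_lit 0),(nat_lit 0),(nat_lit 0),(nat_lit 0),(nat_lit 0),(nat_lit 0),(nat_lit 1),(nat_lit 0),(nat_lit 0),(nat_lit 0)], [Int.negSucc (nat_lit 58446162),Int.ofNat (nat_lit 32755720),Int.negSucc (nat_lit 424802584),Int.negSucc (nat_lit 108750795),Int.ofNat (nat_lit 570696083),Int.negSucc (nat_lit 735929246),Int.ofNat (nat_lit 274481514),Int.ofNat (nat_lit 297011276),Int.negSucc (nat_lit 5903507),Int.ofNat (nat_lit 21154801),Int.negSucc (nat_lit 492904598),Int.ofNat (nat_lit 227747106),Int.ofNat (nat_lit 1654951),Int.negSucc (nat_lit 331986076),Int.negSucc (nat_lit 84952138),Int.negSucc (nat_lit 1649258081),Int.negSucc (nat_lit 584919899),Int.negSucc (nat_lit 247718465),Int.negSucc (nat_lit 15747510),Int.ofNat (nat_lit 59533212),Int.negSucc (nat_lit 227801883),Int.ofNat (nat_lit 73484854),Int.ofNat (nat_lit 83134082),Int.ofNat (nat_lit 110944548),Int.negSucc (nat_lit 92015148),Int.ofNat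 (nat_lit 54717701),Int.ofNat (nat_lit 106202234),Int.negSucc (nat_lit 246130435),Int.negSucc (nat_lit 259355054),Int.negSucc (nat_lit 175113668),Int.negSucc (nat_lit 426762123),Int.negSucc (nat_lit 3560689),Int.negSucc (nat_lit 56081511),Int.ofNat (nat_lit 153027091),Int.ofNat (nat_lit 54392538),Int.ofNat (nat_lit 171959912),Int.ofNat (nat_lit 248464400),Int.negSucc (nat_lit 210491306),Int.ofNat (nat_lit 252495207),Int.negSucc (nat_lit 244779650),Int.negSucc (nat_lit 1954462),Int.ofNat (nat_lit 143927477),Int.ofNat (nat_lit 64118234),Int.negSucc (nat_lit 160976713),Int.ofNat (nat_lit 25955083),Int.ofNat (nat_lit 127003633),Int.negSucc (nat_lit 51371101),Int.negSucc (nat_lit 20576010),Int.ofNat (nat_lit 83614652),Int.ofNat (nat_lit 84032264),Int.negSucc (nat_lit 79553354),Int.negSucc (nat_lit 105778666),Int.negSucc (nat_lit 44254858),Int.ofNat (nat_lit 4231387),Int.ofNat (nat_lit 43944824),Int.ofNat (nat_lit 259675704),Int.negSucc (nat_lit 1346564645),Int.negSucc (nat_lit 61856029),Int.ofNat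 (nat_lit 166004798),Int.negSucc (nat_lit 89986607),Int.negSucc (nat_lit 24054715),Int.negSucc (nat_lit 68283047),Int.negSucc (nat_lit 69169466),Int.negSucc (nat_lit 23029227),Int.ofNat (nat_lit 12236039),Int.ofNat (nat_lit 73525079),Int.ofNat (nat_lit 2851686),Int.negSucc (nat_lit 7788289),Int.negSucc (nat_lit 2676072),Int.negSucc (nat_lit 70201594),Int.ofNat (nat_lit 73812547),Int.ofNat (nat_lit 122001077),Int.ofNat (nat_lit 51501621),Int.ofNat (nat_lit 39398240),Int.ofNat (nat_lit 59410974),Int.ofNat (nat_lit 21103193),Int.negSucc (nat_lit 7899780),Int.ofNat (nat_lit 3456676),Int.negSucc (nat_lit 18810664),Int.negSucc (nat_lit 28387913),Int.negSucc (nat_lit 43932580),Int.ofNat (nat_lit 9062716),Int.ofNat (nat_lit 2089688),Int.negSucc (nat_lit 33708490),Int.negSucc (nat_lit 485466),Int.negSucc (nat_lit 1636584),Int.ofNat (nat_lit 9673291),Int.negSucc (nat_lit 7617026),Int.ofNat (nat_lit 49435448),Int.ofNat (nat_lit 239076228)])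

/-- A part of a triangular factor. -/
noncomputable def sr0_c2 : Rows :=
  [sr0_c2_0,
   sr0_c2_1,
   sr0_c2_2,
   sr0_c2_3,
   sr0_c2_4,
   sr0_c2_5,
   sr0_c2_6,
   sr0_c2_7,
   sr0_c2_8,
   sr0_c2_9,
   sr0_c2_10,
   sr0_c2_11,
   sr0_c2_12,
   sr0_c2_13,
   sr0_c2_14,
   sr0_c2_15,
   sr0_c2_16,
   sr0_c2_17,
   sr0_c2_18,
   sr0_c2_19,
   sr0_c2_20,
   sr0_c2_21,
   sr0_c2_22,
   sr0_c2_23,
   sr0_c2_24,
   sr0_c2_25,
   sr0_c2_26,
   sr0_c2_27,
   sr0_c2_28,
   sr0_c2_29]

/-- A row. -/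
noncomputable def sr0_c3_0 : List ℕ × List ℤ :=
  ([(nat_lit 2),(nat_lit 0),(nat_lit 0),(nat_lit 0),(nat_lit 0),(nat_lit 0),(nat_lit 1),(nat_lit 0),(nat_lit 0),(nat_lit 0),(nat_lit 0),(nat_lit 0)], [Int.negSucc (nat_lit 957812796),Int.negSucc (nat_lit 1278193),Int.ofNat (nat_lit 2169156343),Int.negSucc (nat_lit 1358186047),Int.ofNat (nat_lit 3734889033),Int.ofNat (nat_lit 2192712574),Int.ofNat (nat_lit 2133210938),Int.ofNat (nat_lit 1743838146),Int.negSucc (nat_lit 250362622),Int.negSucc (nat_lit 1173520491),Int.negSucc (nat_lit 36039555),Int.ofNat (nat_lit 890743242),Int.negSucc (nat_lit 1254961320),Int.ofNat (nat_lit 801671211),Int.negSucc (nat_lit 2444455711),Int.negSucc (nat_lit 1388148889),Int.negSucc (nat_lit 3027438192),Int.negSucc (nat_lit 250526355),Int.ofNat (nat_lit 218256552),Int.ofNat (nat_lit 454541307),Int.negSucc (nat_lit 1120950847),Int.negSucc (nat_lit 1202893299),Int.negSucc (nat_lit 127010725),Int.ofNat (nat_lit 3768792778),Int.negSucc (nat_lit 1469057452),Int.ofNat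 (nat_lit 679802211),Int.negSucc (nat_lit 961067056),Int.ofNat (nat_lit 438246740),Int.negSucc (nat_lit 1129718918),Int.ofNat (nat_lit 277956496),Int.ofNat (nat_lit 530591280),Int.ofNat (nat_lit 4910992),Int.ofNat (nat_lit 195049097),Int.negSucc (nat_lit 599957237),Int.ofNat (nat_lit 474075470),Int.ofNat (nat_lit 883548110),Int.ofNat (nat_lit 211426413),Int.ofNat (nat_lit 1392257256),Int.ofNat (nat_lit 888006888),Int.negSucc (nat_lit 348033519),Int.negSucc (nat_lit 415963293),Int.negSucc (nat_lit 317976340),Int.ofNat (nat_lit 253838158),Int.ofNat (nat_lit 124647040),Int.negSucc (nat_lit 431630887),Int.negSucc (nat_lit 255429765),Int.negSucc (nat_lit 649214327),Int.negSucc (nat_lit 483992378),Int.ofNat (nat_lit 69529968),Int.negSucc (nat_lit 307206523),Int.ofNat (nat_lit 71211275),Int.ofNat (nat_lit 62902874),Int.ofNat (nat_lit 64007663),Int.negSucc (nat_lit 96638159),Int.negSucc (nat_lit 2109469288),Int.ofNat (nat_lit 39192585),Int.ofNat (nat_lit 218721986),Int.negSucc (nat_lit 6313509247),Int.negSucc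 (nat_lit 733280161),Int.negSucc (nat_lit 516673783),Int.negSucc (nat_lit 826562761),Int.ofNat (nat_lit 205126770),Int.ofNat (nat_lit 510974152),Int.ofNat (nat_lit 71302752),Int.negSucc (nat_lit 15127224),Int.ofNat (nat_lit 1073917701),Int.ofNat (nat_lit 314231414),Int.ofNat (nat_lit 319963831),Int.ofNat (nat_lit 234568799),Int.negSucc (nat_lit 42294995),Int.negSucc (nat_lit 183807830),Int.ofNat (nat_lit 214064386),Int.negSucc (nat_lit 162138734),Int.ofNat (nat_lit 189995998),Int.negSucc (nat_lit 91117918),Int.ofNat (nat_lit 15228060),Int.ofNat (nat_lit 109044988),Int.negSucc (nat_lit 179819094),Int.negSucc (nat_lit 829677291),Int.ofNat (nat_lit 27647404),Int.ofNat (nat_lit 154606548),Int.negSucc (nat_lit 197392221),Int.ofNat (nat_lit 44774679),Int.ofNat (nat_lit 219455755),Int.ofNat (nat_lit 181898862),Int.negSucc (nat_lit 51925294),Int.ofNat (nat_lit 36415678),Int.ofNat (nat_lit 171648494),Int.ofNat (nat_lit 522939688),Int.negSucc (nat_lit 232460112),Int.ofNat (nat_lit 1299992652)])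

/-- A row. -/
noncomputable def sr0_c3_1 : List ℕ × List ℤ :=
  ([(nat_lit 2),(nat_lit 0),(nat_lit 0),(nat_lit 0),(nat_lit 1),(nat_lit 0),(nat_lit 0),(nat_lit 0),(nat_lit 0),(nat_lit 0),(nat_lit 0),(nat_lit 0)], [Int.negSucc (nat_lit 2665285128),Int.ofNat (nat_lit 2460265874),Int.ofNat (nat_lit 4771905241),Int.ofNat (nat_lit 8589311292),Int.negSucc (nat_lit 3845983567),Int.negSucc (nat_lit 1194218910),Int.ofNat (nat_lit 1759382487),Int.negSucc (nat_lit 4934094396),Int.ofNat (nat_lit 8366932138),Int.ofNat (nat_lit 1781486463),Int.ofNat (nat_lit 964023466),Int.negSucc (nat_lit 1033718989),Int.ofNat (nat_lit 1106464560),Int.ofNat (nat_lit 4663749655),Int.ofNat (nat_lit 2050320633),Int.negSucc (nat_lit 797486522),Int.ofNat (nat_lit 1922739117),Int.ofNat (nat_lit 2863672091),Int.negSucc (nat_lit 2267995058),Int.ofNat (nat_lit 548761323),Int.ofNat (nat_lit 1995251039),Int.ofNat (nat_lit 1068381554),Int.negSucc (nat_lit 1941286461),Int.ofNat (nat_lit 4448070037),Int.ofNat (nat_lit 142333936),Int.negSucc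 (nat_lit 3858015817),Int.ofNat (nat_lit 1410681422),Int.negSucc (nat_lit 5609001332),Int.ofNat (nat_lit 844530709),Int.ofNat (nat_lit 3553897817),Int.negSucc (nat_lit 146044613),Int.ofNat (nat_lit 1594721214),Int.negSucc (nat_lit 2315557912),Int.negSucc (nat_lit 2115194456),Int.negSucc (nat_lit 1677891059),Int.ofNat (nat_lit 427194068),Int.ofNat (nat_lit 222092821),Int.negSucc (nat_lit 1522220649),Int.negSucc (nat_lit 841470727),Int.ofNat (nat_lit 914766702),Int.ofNat (nat_lit 1329920995),Int.ofNat (nat_lit 162003495),Int.negSucc (nat_lit 1193816080),Int.ofNat (nat_lit 2519995924),Int.ofNat (nat_lit 431964241),Int.negSucc (nat_lit 282451941),Int.ofNat (nat_lit 1146278498),Int.ofNat (nat_lit 711761080),Int.negSucc (nat_lit 999022754),Int.ofNat (nat_lit 305158485),Int.negSucc (nat_lit 542227220),Int.ofNat (nat_lit 206418413),Int.ofNat (nat_lit 86785543),Int.negSucc (nat_lit 189313278),Int.ofNat (nat_lit 7640494454),Int.negSucc (nat_lit 1875423457),Int.ofNat (nat_lit 1535089704),Int.negSucc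 (nat_lit 517098393),Int.ofNat (nat_lit 2397394913),Int.negSucc (nat_lit 7312842259),Int.negSucc (nat_lit 451480350),Int.negSucc (nat_lit 308339512),Int.ofNat (nat_lit 127286760),Int.negSucc (nat_lit 1043948476),Int.negSucc (nat_lit 662275675),Int.negSucc (nat_lit 638164523),Int.ofNat (nat_lit 955670945),Int.negSucc (nat_lit 832890361),Int.negSucc (nat_lit 184868675),Int.negSucc (nat_lit 134414221),Int.negSucc (nat_lit 773560541),Int.negSucc (nat_lit 126462347),Int.negSucc (nat_lit 237168339),Int.negSucc (nat_lit 835586121),Int.ofNat (nat_lit 345210529),Int.negSucc (nat_lit 266277117),Int.ofNat (nat_lit 554164012),Int.ofNat (nat_lit 521575311),Int.ofNat (nat_lit 775605344),Int.negSucc (nat_lit 1092951138),Int.ofNat (nat_lit 150506662),Int.ofNat (nat_lit 4237515),Int.ofNat (nat_lit 93432924),Int.negSucc (nat_lit 311126864),Int.negSucc (nat_lit 203950534),Int.negSucc (nat_lit 180412388),Int.ofNat (nat_lit 170761949),Int.negSucc (nat_lit 94976561),Int.negSucc (nat_lit 2372881777),Int.negSucc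 (nat_lit 130296117),Int.negSucc (nat_lit 553390617),Int.ofNat (nat_lit 2477576531)])

/-- A row. -/
noncomputable def sr0_c3_2 : List ℕ × List ℤ :=
  ([(nat_lit 2),(nat_lit 0),(nat_lit 0),(nat_lit 1),(nat_lit 0),(nat_lit 1),(nat_lit 0),(nat_lit 0),(nat_lit 0),(nat_lit 0),(nat_lit 0),(nat_lit 0)], [Int.negSucc (nat_lit 1549351337),Int.ofNat (nat_lit 1536664069),Int.ofNat (nat_lit 570946150),Int.ofNat (nat_lit 1373137622),Int.negSucc (nat_lit 1059414283),Int.ofNat (nat_lit 4031204625),Int.negSucc (nat_lit 1026145099),Int.negSucc (nat_lit 608238973),Int.ofNat (nat_lit 595380370),Int.negSucc (nat_lit 4381285854),Int.ofNat (nat_lit 3203116013),Int.ofNat (nat_lit 6067092169),Int.ofNat (nat_lit 1873256112),Int.ofNat (nat_lit 5625859287),Int.negSucc (nat_lit 994505716),Int.ofNat (nat_lit 1792827044),Int.negSucc (nat_lit 554182062),Int.ofNat (nat_lit 666970780),Int.negSucc (nat_lit 4607671619),Int.negSucc (nat_lit 744898248),Int.ofNat (nat_lit 1003006414),Int.ofNat (nat_lit 340145117),Int.negSucc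 (nat_lit 306887546),Int.negSucc (nat_lit 2019921058),Int.ofNat (nat_lit 920561596),Int.negSucc (nat_lit 1451988076),Int.ofNat (nat_lit 1700926098),Int.negSucc (nat_lit 1025572692),Int.negSucc (nat_lit 167194791),Int.ofNat (nat_lit 2621117593),Int.ofNat (nat_lit 645061587),Int.negSucc (nat_lit 100752169),Int.negSucc (nat_lit 158033322),Int.negSucc (nat_lit 836386893),Int.negSucc (nat_lit 1300698210),Int.ofNat (nat_lit 571287256),Int.ofNat (nat_lit 228399821),Int.negSucc (nat_lit 1359240316),Int.ofNat (nat_lit 13927206),Int.negSucc (nat_lit 458690859),Int.ofNat (nat_lit 1018608589),Int.negSucc (nat_lit 189805955),Int.negSucc (nat_lit 242148652),Int.negSucc (nat_lit 172173320),Int.negSucc (nat_lit 75932042),Int.negSucc (nat_lit 98756830),Int.ofNat (nat_lit 269843544),Int.ofNat (nat_lit 618240566),Int.negSucc (nat_lit 462097822),Int.negSucc (nat_lit 78284282),Int.negSucc (nat_lit 438397241),Int.ofNat (nat_lit 156461923),Int.ofNat (nat_lit 296921094),Int.negSucc (nat_lit 116553668),Int.ofNat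 (nat_lit 1207557018),Int.ofNat (nat_lit 1553611583),Int.ofNat (nat_lit 670557199),Int.negSucc (nat_lit 144751561),Int.negSucc (nat_lit 690025201),Int.negSucc (nat_lit 1102169011),Int.ofNat (nat_lit 711003258),Int.ofNat (nat_lit 1403410977),Int.negSucc (nat_lit 4367433862),Int.ofNat (nat_lit 146044001),Int.ofNat (nat_lit 114217962),Int.ofNat (nat_lit 235757989),Int.negSucc (nat_lit 140149449),Int.ofNat (nat_lit 29761236),Int.ofNat (nat_lit 58382926),Int.ofNat (nat_lit 192333228),Int.ofNat (nat_lit 42810501),Int.ofNat (nat_lit 261311080),Int.negSucc (nat_lit 348901934),Int.negSucc (nat_lit 51767010),Int.negSucc (nat_lit 273981338),Int.negSucc (nat_lit 234314511),Int.ofNat (nat_lit 404135118),Int.negSucc (nat_lit 99627954),Int.negSucc (nat_lit 55819696),Int.ofNat (nat_lit 82758884),Int.ofNat (nat_lit 95202151),Int.negSucc (nat_lit 128260723),Int.negSucc (nat_lit 92488905),Int.negSucc (nat_lit 11925438),Int.negSucc (nat_lit 229335575),Int.negSucc (nat_lit 2196187),Int.ofNat (nat_lit 8354551),Int.ofNat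 (nat_lit 35494270),Int.negSucc (nat_lit 299293056),Int.negSucc (nat_lit 154353341),Int.ofNat (nat_lit 232575969),Int.ofNat (nat_lit 33518689),Int.ofNat (nat_lit 961091276)])

/-- A row. -/
noncomputable def sr0_c3_3 : List ℕ × List ℤ :=
  ([(nat_lit 2),(nat_lit 0),(nat_lit 0),(nat_lit 2),(nat_lit 0),(nat_lit 0),(nat_lit 0),(nat_lit 0),(nat_lit 0),(nat_lit 0),(nat_lit 0),(nat_lit 0)], [Int.negSucc (nat_lit 3538094012),Int.ofNat (nat_lit 91862512),Int.ofNat (nat_lit 3716044498),Int.negSucc (nat_lit 3643380358),Int.negSucc (nat_lit 44794982),Int.ofNat (nat_lit 836868398),Int.ofNat (nat_lit 5492068366),Int.negSucc (nat_lit 955968034),Int.negSucc (nat_lit 2710310934),Int.ofNat (nat_lit 5484729293),Int.negSucc (nat_lit 6328482171),Int.ofNat (nat_lit 2316782921),Int.ofNat (nat_lit 1241749724),Int.ofNat (nat_lit 4174293301),Int.ofNat (nat_lit 1170915549),Int.negSucc (nat_lit 2203063520),Int.negSucc (nat_lit 222193631),Int.negSucc (nat_lit 2679266204),Int.ofNat (nat_lit 3383354995),Int.negSucc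 (nat_lit 2368510093),Int.negSucc (nat_lit 1255872408),Int.negSucc (nat_lit 62736772),Int.negSucc (nat_lit 1625403473),Int.ofNat (nat_lit 6105712280),Int.negSucc (nat_lit 2299467306),Int.negSucc (nat_lit 84775198),Int.negSucc (nat_lit 2470584032),Int.ofNat (nat_lit 1922643968),Int.negSucc (nat_lit 1270954685),Int.negSucc (nat_lit 888268637),Int.ofNat (nat_lit 407010151),Int.ofNat (nat_lit 2177431228),Int.negSucc (nat_lit 1328400484),Int.ofNat (nat_lit 1957975248),Int.negSucc (nat_lit 602641705),Int.ofNat (nat_lit 2179610712),Int.negSucc (nat_lit 296588535),Int.ofNat (nat_lit 133305340),Int.negSucc (nat_lit 416431279),Int.ofNat (nat_lit 1171693499),Int.ofNat (nat_lit 1231115772),Int.ofNat (nat_lit 836306088),Int.ofNat (nat_lit 766939226),Int.ofNat (nat_lit 607509785),Int.ofNat (nat_lit 900904098),Int.negSucc (nat_lit 714364894),Int.ofNat (nat_lit 476200296),Int.negSucc (nat_lit 823549496),Int.negSucc (nat_lit 528425233),Int.ofNat (nat_lit 45471333),Int.ofNat (nat_lit 995119776),Int.negSucc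 (nat_lit 590267776),Int.ofNat (nat_lit 732484765),Int.ofNat (nat_lit 369990236),Int.ofNat (nat_lit 3492992149),Int.negSucc (nat_lit 2382093646),Int.ofNat (nat_lit 389089304),Int.ofNat (nat_lit 1618136056),Int.ofNat (nat_lit 2338477651),Int.negSucc (nat_lit 108814001),Int.ofNat (nat_lit 553257300),Int.ofNat (nat_lit 711840213),Int.ofNat (nat_lit 2997248651),Int.negSucc (nat_lit 11718982112),Int.ofNat (nat_lit 94174757),Int.ofNat (nat_lit 38448715),Int.ofNat (nat_lit 570936050),Int.ofNat (nat_lit 603657834),Int.negSucc (nat_lit 540469963),Int.negSucc (nat_lit 146453636),Int.negSucc (nat_lit 914441477),Int.negSucc (nat_lit 967889569),Int.ofNat (nat_lit 449309580),Int.negSucc (nat_lit 1177989683),Int.negSucc (nat_lit 45277277),Int.negSucc (nat_lit 144785382),Int.ofNat (nat_lit 86231620),Int.ofNat (nat_lit 515065689),Int.ofNat (nat_lit 685897201),Int.negSucc (nat_lit 438554226),Int.negSucc (nat_lit 148360863),Int.ofNat (nat_lit 309107355),Int.negSucc (nat_lit 172426027),Int.negSucc (nat_lit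 359516110),Int.negSucc (nat_lit 187004222),Int.negSucc (nat_lit 470930169),Int.ofNat (nat_lit 166593658),Int.negSucc (nat_lit 184039752),Int.negSucc (nat_lit 1409381941),Int.ofNat (nat_lit 29543099),Int.negSucc (nat_lit 964394155),Int.ofNat (nat_lit 510984685),Int.negSucc (nat_lit 1024994345),Int.ofNat (nat_lit 2361277638)])

/-- A row. -/
noncomputable def sr0_c3_4 : List ℕ × List ℤ :=
  ([(nat_lit 2),(nat_lit 0),(nat_lit 1),(nat_lit 0),(nat_lit 0),(nat_lit 0),(nat_lit 0),(nat_lit 0),(nat_lit 0),(nat_lit 0),(nat_lit 0),(nat_lit 0)], [Int.ofNat (nat_lit 2985406940),Int.negSucc (nat_lit 1808814353),Int.negSucc (nat_lit 4934910880),Int.negSucc (nat_lit 364153428),Int.ofNat (nat_lit 3707228394),Int.negSucc (nat_lit 16454348768),Int.ofNat (nat_lit 9724584029),Int.ofNat (nat_lit 1303566523),Int.negSucc (nat_lit 1831167814),Int.negSucc (nat_lit 2172819080),Int.negSucc (nat_lit 3355986095),Int.negSucc (nat_lit 8175808933),Int.negSucc (nat_lit 1212457332),Int.negSucc (nat_lit 10690571572),Int.negSucc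 (nat_lit 9315204982),Int.negSucc (nat_lit 5260303561),Int.negSucc (nat_lit 8078926356),Int.negSucc (nat_lit 3822878943),Int.ofNat (nat_lit 4887635438),Int.negSucc (nat_lit 3137530385),Int.negSucc (nat_lit 8200042684),Int.ofNat (nat_lit 6868398247),Int.ofNat (nat_lit 1344392592),Int.negSucc (nat_lit 10431650714),Int.negSucc (nat_lit 2814454702),Int.ofNat (nat_lit 2145384577),Int.ofNat (nat_lit 137512896),Int.ofNat (nat_lit 3671911017),Int.negSucc (nat_lit 5649224014),Int.negSucc (nat_lit 5864940624),Int.negSucc (nat_lit 1589426534),Int.negSucc (nat_lit 1508379167),Int.ofNat (nat_lit 2617252619),Int.ofNat (nat_lit 4080835552),Int.ofNat (nat_lit 538002490),Int.negSucc (nat_lit 59010310),Int.negSucc (nat_lit 1686721118),Int.negSucc (nat_lit 369851984),Int.negSucc (nat_lit 332657733),Int.negSucc (nat_lit 27944590),Int.negSucc (nat_lit 1432457563),Int.ofNat (nat_lit 2108285156),Int.ofNat (nat_lit 11841564),Int.negSucc (nat_lit 839477051),Int.ofNat (nat_lit 1514173228),Int.negSucc (nat_lit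 307664646),Int.negSucc (nat_lit 1285648911),Int.ofNat (nat_lit 132275334),Int.negSucc (nat_lit 1552893439),Int.ofNat (nat_lit 40246959),Int.negSucc (nat_lit 382768587),Int.negSucc (nat_lit 1903034392),Int.ofNat (nat_lit 313981780),Int.ofNat (nat_lit 627423361),Int.negSucc (nat_lit 16331355842),Int.negSucc (nat_lit 1343639435),Int.negSucc (nat_lit 3931090688),Int.ofNat (nat_lit 6116695787),Int.negSucc (nat_lit 1139921067),Int.negSucc (nat_lit 8437966458),Int.negSucc (nat_lit 2215175627),Int.negSucc (nat_lit 2016421501),Int.ofNat (nat_lit 248921463),Int.negSucc (nat_lit 4123146450),Int.negSucc (nat_lit 13541425648),Int.ofNat (nat_lit 2580157911),Int.negSucc (nat_lit 2405724137),Int.negSucc (nat_lit 2068835805),Int.ofNat (nat_lit 829546510),Int.ofNat (nat_lit 583274305),Int.ofNat (nat_lit 248901528),Int.negSucc (nat_lit 334136500),Int.ofNat (nat_lit 230227434),Int.ofNat (nat_lit 1007189554),Int.negSucc (nat_lit 646744501),Int.negSucc (nat_lit 606716016),Int.negSucc (nat_lit 89929876),Int.ofNat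 (nat_lit 77178546),Int.negSucc (nat_lit 615544191),Int.ofNat (nat_lit 190966732),Int.negSucc (nat_lit 33173026),Int.negSucc (nat_lit 483321368),Int.negSucc (nat_lit 1346260259),Int.ofNat (nat_lit 64656323),Int.negSucc (nat_lit 118354640),Int.negSucc (nat_lit 28465255),Int.ofNat (nat_lit 209735153),Int.negSucc (nat_lit 37687744),Int.ofNat (nat_lit 3687538559),Int.ofNat (nat_lit 1057611638),Int.negSucc (nat_lit 225249685),Int.ofNat (nat_lit 216894358),Int.negSucc (nat_lit 746289567),Int.ofNat (nat_lit 919973362),Int.ofNat (nat_lit 3216172797)])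

/-- A row. -/
noncomputable def sr0_c3_5 : List ℕ × List ℤ :=
  ([(nat_lit 2),(nat_lit 0),(nat_lit 1),(nat_lit 0),(nat_lit 1),(nat_lit 0),(nat_lit 0),(nat_lit 0),(nat_lit 0),(nat_lit 0),(nat_lit 0),(nat_lit 0)], [Int.negSucc (nat_lit 3849606119),Int.ofNat (nat_lit 3401661717),Int.ofNat (nat_lit 2076686496),Int.ofNat (nat_lit 1895200621),Int.ofNat (nat_lit 2259745053),Int.negSucc (nat_lit 1014932037),Int.negSucc (nat_lit 1390972024),Int.negSucc (nat_lit 593347312),Int.ofNat (nat_lit 7942391830),Int.ofNat (nat_lit 3274223012),Int.ofNat (nat_lit 535617070),Int.ofNat (nat_lit 1522336638),Int.ofNat (nat_lit 1142752540),Int.ofNat (nat_lit 3074883695),Int.ofNat (nat_lit 2518442203),Int.ofNat (nat_lit 98039672),Int.ofNat (nat_lit 3206248438),Int.ofNat (nat_lit 3537987295),Int.negSucc (nat_lit 4215720774),Int.ofNat (nat_lit 1298284049),Int.ofNat (nat_lit 4048402753),Int.negSucc (nat_lit 3009440410),Int.negSucc (nat_lit 458092164),Int.ofNat (nat_lit 2815011515),Int.ofNat (nat_lit 502303054),Int.negSucc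 (nat_lit 2059526830),Int.ofNat (nat_lit 1732760480),Int.negSucc (nat_lit 4390623798),Int.ofNat (nat_lit 722961120),Int.ofNat (nat_lit 2028842738),Int.negSucc (nat_lit 427392538),Int.ofNat (nat_lit 547327986),Int.negSucc (nat_lit 1422030653),Int.negSucc (nat_lit 1764651035),Int.ofNat (nat_lit 150016102),Int.negSucc (nat_lit 310502506),Int.ofNat (nat_lit 317282435),Int.negSucc (nat_lit 445863322),Int.negSucc (nat_lit 482659435),Int.ofNat (nat_lit 949540092),Int.ofNat (nat_lit 152738299),Int.negSucc (nat_lit 58071922),Int.negSucc (nat_lit 93203305),Int.ofNat (nat_lit 436364329),Int.negSucc (nat_lit 645405267),Int.ofNat (nat_lit 132602846),Int.ofNat (nat_lit 518179232),Int.ofNat (nat_lit 560353083),Int.negSucc (nat_lit 407835973),Int.ofNat (nat_lit 229910689),Int.negSucc (nat_lit 189925736),Int.ofNat (nat_lit 412554065),Int.negSucc (nat_lit 77941203),Int.negSucc (nat_lit 106716365),Int.ofNat (nat_lit 3182071156),Int.negSucc (nat_lit 729591586),Int.ofNat (nat_lit 251827141),Int.negSucc (nat_lit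 1343551150),Int.ofNat (nat_lit 169274148),Int.negSucc (nat_lit 3067044779),Int.negSucc (nat_lit 499729270),Int.ofNat (nat_lit 299139051),Int.negSucc (nat_lit 723472040),Int.ofNat (nat_lit 1232753406),Int.ofNat (nat_lit 1650365684),Int.ofNat (nat_lit 1317948362),Int.negSucc (nat_lit 3130424775),Int.ofNat (nat_lit 603147912),Int.ofNat (nat_lit 170589483),Int.ofNat (nat_lit 243547832),Int.negSucc (nat_lit 130799360),Int.ofNat (nat_lit 273200230),Int.negSucc (nat_lit 151653913),Int.negSucc (nat_lit 104384504),Int.ofNat (nat_lit 56828464),Int.negSucc (nat_lit 113387184),Int.ofNat (nat_lit 75935964),Int.negSucc (nat_lit 161652921),Int.negSucc (nat_lit 88615715),Int.negSucc (nat_lit 832499),Int.ofNat (nat_lit 74911509),Int.negSucc (nat_lit 134365892),Int.ofNat (nat_lit 73962040),Int.ofNat (nat_lit 88708564),Int.negSucc (nat_lit 36508503),Int.ofNat (nat_lit 50198990),Int.ofNat (nat_lit 136121595),Int.negSucc (nat_lit 8995159),Int.negSucc (nat_lit 228417005),Int.negSucc (nat_lit 143542364),Int.ofNat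 (nat_lit 272233427),Int.ofNat (nat_lit 135125265),Int.ofNat (nat_lit 375473658),Int.negSucc (nat_lit 155876122),Int.negSucc (nat_lit 284014850),Int.ofNat (nat_lit 670130219)])

/-- A row. -/
noncomputable def sr0_c3_6 : List ℕ × List ℤ :=
  ([(nat_lit 2),(nat_lit 0),(nat_lit 2),(nat_lit 0),(nat_lit 0),(nat_lit 0),(nat_lit 0),(nat_lit 0),(nat_lit 0),(nat_lit 0),(nat_lit 0),(nat_lit 0)], [Int.ofNat (nat_lit 600714918),Int.negSucc (nat_lit 1275617094),Int.ofNat (nat_lit 614162532),Int.ofNat (nat_lit 4921027116),Int.negSucc (nat_lit 4864683407),Int.negSucc (nat_lit 6484080126),Int.negSucc (nat_lit 698975110),Int.negSucc (nat_lit 1912105349),Int.ofNat (nat_lit 1883712484),Int.ofNat (nat_lit 1158679059),Int.ofNat (nat_lit 1037866030),Int.negSucc (nat_lit 4778808066),Int.ofNat (nat_lit 696737116),Int.negSucc (nat_lit 41032756),Int.negSucc (nat_lit 2323230115),Int.negSucc (nat_lit 2893567958),Int.negSucc (nat_lit 700521577),Int.ofNat (nat_lit 1170084683),Int.negSucc (nat_lit 326659022),Int.ofNat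 (nat_lit 135661788),Int.negSucc (nat_lit 2096816504),Int.ofNat (nat_lit 1792452900),Int.negSucc (nat_lit 2870435995),Int.negSucc (nat_lit 1282877388),Int.negSucc (nat_lit 1650225946),Int.negSucc (nat_lit 1767446534),Int.ofNat (nat_lit 1253830412),Int.ofNat (nat_lit 382547163),Int.negSucc (nat_lit 1924063965),Int.negSucc (nat_lit 210167212),Int.negSucc (nat_lit 789486932),Int.ofNat (nat_lit 670492734),Int.negSucc (nat_lit 859346324),Int.ofNat (nat_lit 71714754),Int.negSucc (nat_lit 479163577),Int.ofNat (nat_lit 1140723398),Int.negSucc (nat_lit 2060243610),Int.negSucc (nat_lit 634874558),Int.negSucc (nat_lit 391909962),Int.negSucc (nat_lit 213283187),Int.negSucc (nat_lit 426261483),Int.ofNat (nat_lit 644203428),Int.negSucc (nat_lit 458652225),Int.ofNat (nat_lit 656560473),Int.ofNat (nat_lit 1887398127),Int.negSucc (nat_lit 558465320),Int.ofNat (nat_lit 194602630),Int.ofNat (nat_lit 217234347),Int.negSucc (nat_lit 1654962366),Int.negSucc (nat_lit 306973188),Int.negSucc (nat_lit 96246496),Int.negSucc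 (nat_lit 1741383768),Int.ofNat (nat_lit 439274609),Int.ofNat (nat_lit 365041177),Int.negSucc (nat_lit 3218664993),Int.negSucc (nat_lit 646600607),Int.ofNat (nat_lit 145087910),Int.ofNat (nat_lit 1834535722),Int.ofNat (nat_lit 998706362),Int.negSucc (nat_lit 5203857525),Int.negSucc (nat_lit 638995832),Int.negSucc (nat_lit 2248501851),Int.ofNat (nat_lit 852495797),Int.negSucc (nat_lit 3753837981),Int.negSucc (nat_lit 9138386990),Int.ofNat (nat_lit 2656262587),Int.negSucc (nat_lit 3205598376),Int.negSucc (nat_lit 3074739622),Int.negSucc (nat_lit 3185606827),Int.ofNat (nat_lit 1539732538),Int.negSucc (nat_lit 379207603),Int.negSucc (nat_lit 516256204),Int.ofNat (nat_lit 146207364),Int.negSucc (nat_lit 438108953),Int.negSucc (nat_lit 248072855),Int.negSucc (nat_lit 136554244),Int.ofNat (nat_lit 413256335),Int.ofNat (nat_lit 590607934),Int.ofNat (nat_lit 178921454),Int.negSucc (nat_lit 416755701),Int.negSucc (nat_lit 152420584),Int.negSucc (nat_lit 277962176),Int.negSucc (nat_lit 1045446440),Int.negSucc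 (nat_lit 126879943),Int.negSucc (nat_lit 423238663),Int.negSucc (nat_lit 458382876),Int.ofNat (nat_lit 68385678),Int.ofNat (nat_lit 128221305),Int.negSucc (nat_lit 309898000),Int.ofNat (nat_lit 874215153),Int.negSucc (nat_lit 486069515),Int.ofNat (nat_lit 837522958),Int.negSucc (nat_lit 620170102),Int.ofNat (nat_lit 1411328232),Int.ofNat (nat_lit 2099635641),Int.negSucc (nat_lit 438677930),Int.ofNat (nat_lit 1392498624)])

/-- A row. -/
noncomputable def sr0_c3_7 : List ℕ × List ℤ :=
  ([(nat_lit 2),(nat_lit 1),(nat_lit 0),(nat_lit 0),(nat_lit 0),(nat_lit 0),(nat_lit 0),(nat_lit 1),(nat_lit 0),(nat_lit 0),(nat_lit 0),(nat_lit 0)], [Int.negSucc (nat_lit 1268782018),Int.ofNat (nat_lit 2348829544),Int.negSucc (nat_lit 1912218053),Int.ofNat (nat_lit 59684721),Int.ofNat (nat_lit 909809564),Int.negSucc (nat_lit 285742748),Int.negSucc (nat_lit 1970024560),Int.ofNat (nat_lit 4364485201),Int.ofNat (nat_lit 1019899001),Int.negSucc (nat_lit 2316090842),Int.ofNat (nat_lit 6480748251),Int.ofNat (nat_lit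 1294674822),Int.ofNat (nat_lit 1529001148),Int.negSucc (nat_lit 3332203973),Int.negSucc (nat_lit 35825006),Int.ofNat (nat_lit 2225786796),Int.ofNat (nat_lit 1840772815),Int.ofNat (nat_lit 1156928478),Int.ofNat (nat_lit 647934327),Int.negSucc (nat_lit 580397056),Int.ofNat (nat_lit 122327815),Int.negSucc (nat_lit 414376199),Int.negSucc (nat_lit 340644069),Int.negSucc (nat_lit 1989717174),Int.ofNat (nat_lit 2571983470),Int.ofNat (nat_lit 5602446808),Int.ofNat (nat_lit 1006327028),Int.ofNat (nat_lit 1839492744),Int.negSucc (nat_lit 152595908),Int.ofNat (nat_lit 425516652),Int.ofNat (nat_lit 2284611569),Int.ofNat (nat_lit 137349582),Int.negSucc (nat_lit 3945309414),Int.ofNat (nat_lit 1272921563),Int.negSucc (nat_lit 234983024),Int.negSucc (nat_lit 394044881),Int.negSucc (nat_lit 722431246),Int.ofNat (nat_lit 87800053),Int.negSucc (nat_lit 11180376),Int.ofNat (nat_lit 342007665),Int.negSucc (nat_lit 2210256299),Int.negSucc (nat_lit 278906747),Int.ofNat (nat_lit 158176878),Int.negSucc (nat_lit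 48855896),Int.negSucc (nat_lit 168396677),Int.ofNat (nat_lit 898677966),Int.ofNat (nat_lit 156312931),Int.negSucc (nat_lit 3263997),Int.negSucc (nat_lit 630503734),Int.ofNat (nat_lit 291363487),Int.ofNat (nat_lit 293112797),Int.ofNat (nat_lit 416877),Int.ofNat (nat_lit 77914197),Int.ofNat (nat_lit 180187990),Int.ofNat (nat_lit 325944982),Int.negSucc (nat_lit 129036994),Int.ofNat (nat_lit 1158987194),Int.ofNat (nat_lit 1183908323),Int.negSucc (nat_lit 1581577911),Int.ofNat (nat_lit 413510540),Int.negSucc (nat_lit 1392519196),Int.negSucc (nat_lit 845580526),Int.negSucc (nat_lit 286298316),Int.ofNat (nat_lit 630942812),Int.ofNat (nat_lit 94349490),Int.negSucc (nat_lit 1024291840),Int.negSucc (nat_lit 764867952),Int.negSucc (nat_lit 2197220253),Int.ofNat (nat_lit 69527761),Int.ofNat (nat_lit 1074826238),Int.negSucc (nat_lit 2965723866),Int.negSucc (nat_lit 6291582172),Int.ofNat (nat_lit 100134415),Int.negSucc (nat_lit 226120965),Int.negSucc (nat_lit 158992454),Int.ofNat (nat_lit 82836942),Int.ofNat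 (nat_lit 152230660),Int.negSucc (nat_lit 97085903),Int.ofNat (nat_lit 46137845),Int.ofNat (nat_lit 28336752),Int.ofNat (nat_lit 136756908),Int.negSucc (nat_lit 4596038),Int.negSucc (nat_lit 177379076),Int.negSucc (nat_lit 39511908),Int.negSucc (nat_lit 240515801),Int.negSucc (nat_lit 9053031),Int.negSucc (nat_lit 136332408),Int.negSucc (nat_lit 93099249),Int.negSucc (nat_lit 359569312),Int.negSucc (nat_lit 26881376),Int.negSucc (nat_lit 359980659),Int.negSucc (nat_lit 58372495),Int.ofNat (nat_lit 155528164),Int.ofNat (nat_lit 87993171),Int.negSucc (nat_lit 97187175),Int.negSucc (nat_lit 19885880),Int.negSucc (nat_lit 75865497),Int.ofNat (nat_lit 855607657)])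

/-- A row. -/
noncomputable def sr0_c3_8 : List ℕ × List ℤ :=
  ([(nat_lit 2),(nat_lit 1),(nat_lit 0),(nat_lit 0),(nat_lit 0),(nat_lit 1),(nat_lit 0),(nat_lit 0),(nat_lit 0),(nat_lit 0),(nat_lit 0),(nat_lit 0)], [Int.ofNat (nat_lit 4362508043),Int.negSucc (nat_lit 2073703428),Int.negSucc (nat_lit 1950287846),Int.ofNat (nat_lit 367100264),Int.ofNat (nat_lit 6609879495),Int.negSucc (nat_lit 7061728614),Int.ofNat (nat_lit 7609702653),Int.ofNat (nat_lit 1173840781),Int.negSucc (nat_lit 836445714),Int.ofNat (nat_lit 2941548310),Int.negSucc (nat_lit 8576846898),Int.ofNat (nat_lit 7054920952),Int.ofNat (nat_lit 642812790),Int.negSucc (nat_lit 3364218280),Int.ofNat (nat_lit 2595797992),Int.negSucc (nat_lit 1972679203),Int.ofNat (nat_lit 229075363),Int.ofNat (nat_lit 1677141306),Int.ofNat (nat_lit 2006174999),Int.ofNat (nat_lit 1707945179),Int.ofNat (nat_lit 1901634327),Int.ofNat (nat_lit 2079801631),Int.ofNat (nat_lit 613665719),Int.negSucc (nat_lit 1257690463),Int.ofNat (nat_lit 2904708423),Int.ofNat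 (nat_lit 253891529),Int.ofNat (nat_lit 5736861919),Int.ofNat (nat_lit 2651401164),Int.ofNat (nat_lit 94680846),Int.ofNat (nat_lit 1456478375),Int.ofNat (nat_lit 1573104258),Int.negSucc (nat_lit 726551513),Int.ofNat (nat_lit 1683362112),Int.negSucc (nat_lit 8023230225),Int.negSucc (nat_lit 1175987536),Int.ofNat (nat_lit 11555106),Int.negSucc (nat_lit 275181101),Int.negSucc (nat_lit 1727259263),Int.ofNat (nat_lit 350914958),Int.ofNat (nat_lit 1654085013),Int.ofNat (nat_lit 4664613299),Int.ofNat (nat_lit 2351384478),Int.negSucc (nat_lit 1214919769),Int.ofNat (nat_lit 919141927),Int.negSucc (nat_lit 576030599),Int.ofNat (nat_lit 1045174070),Int.negSucc (nat_lit 2948155883),Int.ofNat (nat_lit 830259405),Int.ofNat (nat_lit 496744249),Int.ofNat (nat_lit 628088398),Int.negSucc (nat_lit 299824461),Int.ofNat (nat_lit 741886547),Int.ofNat (nat_lit 198868114),Int.negSucc (nat_lit 106393187),Int.negSucc (nat_lit 3456312070),Int.negSucc (nat_lit 2229693905),Int.negSucc (nat_lit 3350282218),Int.negSucc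 (nat_lit 427688061),Int.ofNat (nat_lit 4216891265),Int.ofNat (nat_lit 3132061586),Int.negSucc (nat_lit 286363666),Int.ofNat (nat_lit 2674715731),Int.ofNat (nat_lit 3426872115),Int.ofNat (nat_lit 1382678209),Int.negSucc (nat_lit 1211538187),Int.negSucc (nat_lit 1222903376),Int.ofNat (nat_lit 4464592819),Int.ofNat (nat_lit 1348718654),Int.ofNat (nat_lit 1821783027),Int.negSucc (nat_lit 365332),Int.ofNat (nat_lit 2182488788),Int.negSucc (nat_lit 3048252218),Int.negSucc (nat_lit 17353985187),Int.ofNat (nat_lit 1269204564),Int.negSucc (nat_lit 3661197074),Int.ofNat (nat_lit 4352463077),Int.negSucc (nat_lit 945143826),Int.ofNat (nat_lit 239294451),Int.negSucc (nat_lit 200276584),Int.negSucc (nat_lit 283005547),Int.ofNat (nat_lit 879760312),Int.ofNat (nat_lit 479919660),Int.ofNat (nat_lit 529267837),Int.negSucc (nat_lit 2159682157),Int.ofNat (nat_lit 728767828),Int.ofNat (nat_lit 313739847),Int.negSucc (nat_lit 265183767),Int.negSucc (nat_lit 235357574),Int.ofNat (nat_lit 1594630767),Int.ofNat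 (nat_lit 88749632),Int.ofNat (nat_lit 1368174574),Int.negSucc (nat_lit 555895797),Int.negSucc (nat_lit 934357754),Int.ofNat (nat_lit 192426431),Int.negSucc (nat_lit 18395917),Int.negSucc (nat_lit 376188158),Int.negSucc (nat_lit 682249828),Int.ofNat (nat_lit 208169642),Int.ofNat (nat_lit 3371776891)])

/-- A row. -/
noncomputable def sr0_c3_9 : List ℕ × List ℤ :=
  ([(nat_lit 2),(nat_lit 1),(nat_lit 0),(nat_lit 1),(nat_lit 0),(nat_lit 0),(nat_lit 0),(nat_lit 0),(nat_lit 0),(nat_lit 0),(nat_lit 0),(nat_lit 0)], [Int.negSucc (nat_lit 10077139223),Int.negSucc (nat_lit 4767643431),Int.ofNat (nat_lit 6025685957),Int.ofNat (nat_lit 199404271),Int.ofNat (nat_lit 7125523027),Int.negSucc (nat_lit 9310341000),Int.negSucc (nat_lit 23566282259),Int.ofNat (nat_lit 1223442874),Int.ofNat (nat_lit 3501751462),Int.ofNat (nat_lit 14658544767),Int.ofNat (nat_lit 10457179267),Int.negSucc (nat_lit 13998490204),Int.ofNat (nat_lit 17165349271),Int.ofNat (nat_lit 4281257669),Int.ofNat (nat_lit 4607516550),Int.ofNat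 (nat_lit 6507452451),Int.ofNat (nat_lit 2816900253),Int.negSucc (nat_lit 249874055),Int.negSucc (nat_lit 13354035491),Int.ofNat (nat_lit 3009241377),Int.ofNat (nat_lit 8371257069),Int.negSucc (nat_lit 6762202896),Int.ofNat (nat_lit 1718196826),Int.negSucc (nat_lit 12707553992),Int.ofNat (nat_lit 7906395783),Int.negSucc (nat_lit 1418269776),Int.ofNat (nat_lit 10083582192),Int.negSucc (nat_lit 7934451976),Int.ofNat (nat_lit 18680177274),Int.negSucc (nat_lit 3206174198),Int.ofNat (nat_lit 10850824345),Int.ofNat (nat_lit 6241989451),Int.negSucc (nat_lit 2818856527),Int.ofNat (nat_lit 1204285812),Int.negSucc (nat_lit 3904965636),Int.negSucc (nat_lit 3230413091),Int.negSucc (nat_lit 106462181),Int.negSucc (nat_lit 1645173826),Int.negSucc (nat_lit 727490772),Int.negSucc (nat_lit 1316311187),Int.negSucc (nat_lit 3471616937),Int.negSucc (nat_lit 1605591324),Int.negSucc (nat_lit 128819259),Int.negSucc (nat_lit 4667056986),Int.negSucc (nat_lit 554855013),Int.negSucc (nat_lit 181651675),Int.ofNat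 (nat_lit 1203722469),Int.ofNat (nat_lit 1227757413),Int.ofNat (nat_lit 3372708817),Int.negSucc (nat_lit 1124033584),Int.ofNat (nat_lit 505762393),Int.ofNat (nat_lit 903909570),Int.negSucc (nat_lit 5043259455),Int.negSucc (nat_lit 394814654),Int.negSucc (nat_lit 907858475),Int.ofNat (nat_lit 10445041777),Int.ofNat (nat_lit 2437303362),Int.ofNat (nat_lit 1172384475),Int.negSucc (nat_lit 7302111663),Int.negSucc (nat_lit 1964085028),Int.ofNat (nat_lit 4822531736),Int.negSucc (nat_lit 6001873889),Int.negSucc (nat_lit 3226110838),Int.ofNat (nat_lit 15960826984),Int.ofNat (nat_lit 3339503042),Int.ofNat (nat_lit 2678284582),Int.negSucc (nat_lit 4519400220),Int.negSucc (nat_lit 2437778791),Int.ofNat (nat_lit 2738617297),Int.ofNat (nat_lit 2132258938),Int.negSucc (nat_lit 7989455671),Int.ofNat (nat_lit 5080697361),Int.ofNat (nat_lit 1304695850),Int.negSucc (nat_lit 21604719944),Int.negSucc (nat_lit 1533153690),Int.negSucc (nat_lit 3057138991),Int.ofNat (nat_lit 2889682009),Int.negSucc (nat_lit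 879596180),Int.ofNat (nat_lit 280437744),Int.ofNat (nat_lit 493277637),Int.negSucc (nat_lit 1687045732),Int.negSucc (nat_lit 1089695878),Int.negSucc (nat_lit 19240823),Int.ofNat (nat_lit 851393963),Int.ofNat (nat_lit 1073251586),Int.ofNat (nat_lit 1609788509),Int.negSucc (nat_lit 7309826),Int.negSucc (nat_lit 158837415),Int.ofNat (nat_lit 1139103163),Int.ofNat (nat_lit 1039545424),Int.ofNat (nat_lit 505826689),Int.negSucc (nat_lit 166999156),Int.ofNat (nat_lit 1027829821),Int.negSucc (nat_lit 5853778768),Int.negSucc (nat_lit 1102410322),Int.ofNat (nat_lit 805230738),Int.ofNat (nat_lit 198470103),Int.negSucc (nat_lit 1384847996),Int.negSucc (nat_lit 461568264),Int.ofNat (nat_lit 7726224518)])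

/-- A row. -/
noncomputable def sr0_c3_10 : List ℕ × List ℤ :=
  ([(nat_lit 2),(nat_lit 1),(nat_lit 1),(nat_lit 1),(nat_lit 0),(nat_lit 0),(nat_lit 0),(nat_lit 0),(nat_lit 0),(nat_lit 0),(nat_lit 0),(nat_lit 0)], [Int.negSucc (nat_lit 7289381699),Int.negSucc (nat_lit 4034995188),Int.ofNat (nat_lit 4247619931),Int.negSucc (nat_lit 5066323544),Int.ofNat (nat_lit 3497324625),Int.ofNat (nat_lit 6472074132),Int.negSucc (nat_lit 197891948),Int.negSucc (nat_lit 1676916676),Int.ofNat (nat_lit 2300807996),Int.ofNat (nat_lit 8196254060),Int.negSucc (nat_lit 3954052099),Int.ofNat (nat_lit 5470684866),Int.ofNat (nat_lit 6583085667),Int.ofNat (nat_lit 6119286059),Int.ofNat (nat_lit 4773814484),Int.ofNat (nat_lit 2069481186),Int.ofNat (nat_lit 4623618071),Int.negSucc (nat_lit 1515721675),Int.negSucc (nat_lit 6368906946),Int.ofNat (nat_lit 6452198082),Int.ofNat (nat_lit 2417249397),Int.negSucc (nat_lit 5379170378),Int.negSucc (nat_lit 163866473),Int.negSucc (nat_lit 2016805931),Int.ofNat (nat_lit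 3571637829),Int.ofNat (nat_lit 1991613708),Int.ofNat (nat_lit 1850242482),Int.negSucc (nat_lit 1544616434),Int.ofNat (nat_lit 9078617361),Int.negSucc (nat_lit 5249143833),Int.ofNat (nat_lit 8409849813),Int.ofNat (nat_lit 2413322646),Int.negSucc (nat_lit 3178517103),Int.ofNat (nat_lit 2028361664),Int.ofNat (nat_lit 4094642524),Int.negSucc (nat_lit 11496398709),Int.ofNat (nat_lit 1344924643),Int.ofNat (nat_lit 592891420),Int.negSucc (nat_lit 339348152),Int.ofNat (nat_lit 568969006),Int.ofNat (nat_lit 153283482),Int.negSucc (nat_lit 475335980),Int.ofNat (nat_lit 2317446914),Int.negSucc (nat_lit 1232286189),Int.negSucc (nat_lit 1254988551),Int.ofNat (nat_lit 404204474),Int.negSucc (nat_lit 809458326),Int.negSucc (nat_lit 285557150),Int.ofNat (nat_lit 1692000426),Int.negSucc (nat_lit 483296794),Int.ofNat (nat_lit 1164421253),Int.negSucc (nat_lit 12030859),Int.negSucc (nat_lit 408676718),Int.negSucc (nat_lit 214578820),Int.ofNat (nat_lit 2389860800),Int.ofNat (nat_lit 1667910157),Int.ofNat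 (nat_lit 282943962),Int.negSucc (nat_lit 888672420),Int.negSucc (nat_lit 1534729737),Int.negSucc (nat_lit 1010538109),Int.ofNat (nat_lit 540993859),Int.negSucc (nat_lit 1049318633),Int.ofNat (nat_lit 388716185),Int.negSucc (nat_lit 1430165889),Int.ofNat (nat_lit 4234279340),Int.ofNat (nat_lit 856827187),Int.ofNat (nat_lit 666248350),Int.ofNat (nat_lit 2055115992),Int.ofNat (nat_lit 3387184377),Int.ofNat (nat_lit 2191621449),Int.negSucc (nat_lit 4280614085),Int.ofNat (nat_lit 1517198836),Int.negSucc (nat_lit 1025727745),Int.negSucc (nat_lit 9624078663),Int.negSucc (nat_lit 1633687475),Int.ofNat (nat_lit 210319480),Int.negSucc (nat_lit 10512334639),Int.negSucc (nat_lit 469854664),Int.ofNat (nat_lit 239254642),Int.ofNat (nat_lit 20794250),Int.ofNat (nat_lit 413036489),Int.negSucc (nat_lit 543984725),Int.ofNat (nat_lit 228823115),Int.ofNat (nat_lit 178438473),Int.ofNat (nat_lit 37727134),Int.ofNat (nat_lit 363417725),Int.ofNat (nat_lit 615346193),Int.ofNat (nat_lit 12114822),Int.negSucc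 (nat_lit 292105496),Int.negSucc (nat_lit 311948366),Int.ofNat (nat_lit 37342665),Int.ofNat (nat_lit 230575421),Int.negSucc (nat_lit 235399064),Int.ofNat (nat_lit 240293524),Int.negSucc (nat_lit 917630560),Int.ofNat (nat_lit 1341339832),Int.negSucc (nat_lit 172162794),Int.negSucc (nat_lit 70408692),Int.ofNat (nat_lit 326217814),Int.ofNat (nat_lit 351680142),Int.ofNat (nat_lit 2646352492)])

/-- A row. -/
noncomputable def sr0_c3_11 : List ℕ × List ℤ :=
  ([(nat_lit 2),(nat_lit 2),(nat_lit 0),(nat_lit 0),(nat_lit 0),(nat_lit 0),(nat_lit 0),(nat_lit 0),(nat_lit 0),(nat_lit 0),(nat_lit 0),(nat_lit 0)], [Int.negSucc (nat_lit 15078960255),Int.ofNat (nat_lit 4028247749),Int.ofNat (nat_lit 19111379004),Int.ofNat (nat_lit 1126219890),Int.negSucc (nat_lit 1124761594),Int.ofNat (nat_lit 7050613161),Int.ofNat (nat_lit 2828870731),Int.negSucc (nat_lit 2498423930),Int.ofNat (nat_lit 5890384261),Int.negSucc (nat_lit 17387841410),Int.negSucc (nat_lit 4906207488),Int.ofNat (nat_lit 1637662143),Int.negSucc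 (nat_lit 3028042541),Int.negSucc (nat_lit 8012044970),Int.ofNat (nat_lit 9485694174),Int.ofNat (nat_lit 232790476),Int.ofNat (nat_lit 4113981653),Int.ofNat (nat_lit 13004462016),Int.ofNat (nat_lit 2204623013),Int.ofNat (nat_lit 7228088405),Int.ofNat (nat_lit 5319265960),Int.ofNat (nat_lit 14011108395),Int.ofNat (nat_lit 551878583),Int.negSucc (nat_lit 3440641337),Int.ofNat (nat_lit 692742953),Int.ofNat (nat_lit 8279738228),Int.negSucc (nat_lit 12927846118),Int.negSucc (nat_lit 10681585125),Int.ofNat (nat_lit 11146502159),Int.ofNat (nat_lit 6177832712),Int.ofNat (nat_lit 10484806543),Int.negSucc (nat_lit 1143826998),Int.negSucc (nat_lit 2563370350),Int.negSucc (nat_lit 16154824300),Int.negSucc (nat_lit 7165370727),Int.ofNat (nat_lit 3136261632),Int.ofNat (nat_lit 1207088467),Int.negSucc (nat_lit 3466739978),Int.negSucc (nat_lit 519608195),Int.negSucc (nat_lit 162497850),Int.ofNat (nat_lit 2960633557),Int.negSucc (nat_lit 6140055616),Int.negSucc (nat_lit 19562930346),Int.ofNat (nat_lit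 3843262485),Int.ofNat (nat_lit 4537503307),Int.ofNat (nat_lit 9889118989),Int.ofNat (nat_lit 2438695636),Int.ofNat (nat_lit 6124389345),Int.negSucc (nat_lit 7050645892),Int.negSucc (nat_lit 1145063107),Int.negSucc (nat_lit 1581922661),Int.negSucc (nat_lit 14936463759),Int.ofNat (nat_lit 5727395487),Int.ofNat (nat_lit 2396323075),Int.ofNat (nat_lit 30965812553),Int.ofNat (nat_lit 887910239),Int.ofNat (nat_lit 6075199469),Int.negSucc (nat_lit 15472069405),Int.negSucc (nat_lit 2812060463),Int.ofNat (nat_lit 8004411362),Int.negSucc (nat_lit 4612926053),Int.ofNat (nat_lit 9072720510),Int.negSucc (nat_lit 3241973660),Int.ofNat (nat_lit 1711281854),Int.negSucc (nat_lit 20286195032),Int.negSucc (nat_lit 835459424),Int.ofNat (nat_lit 2039591449),Int.negSucc (nat_lit 3274457614),Int.ofNat (nat_lit 8937641731),Int.negSucc (nat_lit 10465453288),Int.negSucc (nat_lit 883048570),Int.negSucc (nat_lit 4588906481),Int.ofNat (nat_lit 583724658),Int.ofNat (nat_lit 3899384356),Int.ofNat (nat_lit 2566402092),Int.ofNat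 (nat_lit 12478086218),Int.negSucc (nat_lit 5533905443),Int.negSucc (nat_lit 45299040493),Int.ofNat (nat_lit 7347080710),Int.negSucc (nat_lit 7148179242),Int.negSucc (nat_lit 5777229132),Int.ofNat (nat_lit 7000499940),Int.ofNat (nat_lit 227030403),Int.negSucc (nat_lit 4865902502),Int.negSucc (nat_lit 2883040325),Int.negSucc (nat_lit 10081006595),Int.negSucc (nat_lit 2911938728),Int.ofNat (nat_lit 6028793440),Int.negSucc (nat_lit 7333323145),Int.ofNat (nat_lit 728990652),Int.ofNat (nat_lit 4496250504),Int.negSucc (nat_lit 4758221431),Int.negSucc (nat_lit 326545076),Int.ofNat (nat_lit 10087670659),Int.ofNat (nat_lit 5483433104),Int.negSucc (nat_lit 5236267593),Int.ofNat (nat_lit 4771165047),Int.ofNat (nat_lit 2831863079),Int.negSucc (nat_lit 357320794),Int.negSucc (nat_lit 6989012494),Int.ofNat (nat_lit 1577300615),Int.ofNat (nat_lit 16216729359)])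

/-- A row. -/
noncomputable def sr0_c3_12 : List ℕ × List ℤ :=
  ([(nat_lit 2),(nat_lit 2),(nat_lit 0),(nat_lit 0),(nat_lit 1),(nat_lit 0),(nat_lit 0),(nat_lit 0),(nat_lit 0),(nat_lit 0),(nat_lit 0),(nat_lit 0)], [Int.ofNat (nat_lit 8836380450),Int.negSucc (nat_lit 5723712770),Int.negSucc (nat_lit 2688482455),Int.negSucc (nat_lit 3098582751),Int.negSucc (nat_lit 16281191591),Int.negSucc (nat_lit 5416142501),Int.negSucc (nat_lit 10553831543),Int.ofNat (nat_lit 4058895904),Int.negSucc (nat_lit 3339950276),Int.ofNat (nat_lit 5041190193),Int.ofNat (nat_lit 392258930),Int.ofNat (nat_lit 10190213145),Int.negSucc (nat_lit 285910457),Int.negSucc (nat_lit 3604133885),Int.negSucc (nat_lit 3962076678),Int.negSucc (nat_lit 2565771408),Int.negSucc (nat_lit 430680138),Int.negSucc (nat_lit 1839617023),Int.ofNat (nat_lit 2774196276),Int.negSucc (nat_lit 484643435),Int.ofNat (nat_lit 1288120975),Int.negSucc (nat_lit 8323969280),Int.ofNat (nat_lit 71101812),Int.negSucc (nat_lit 1054097730),Int.ofNat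 (nat_lit 2356339233),Int.ofNat (nat_lit 364445776),Int.negSucc (nat_lit 2260174478),Int.ofNat (nat_lit 5586358733),Int.negSucc (nat_lit 7924667170),Int.ofNat (nat_lit 1718257108),Int.ofNat (nat_lit 8487640973),Int.negSucc (nat_lit 3632374994),Int.ofNat (nat_lit 2749165909),Int.ofNat (nat_lit 2884235579),Int.ofNat (nat_lit 1574595163),Int.ofNat (nat_lit 1829894485),Int.ofNat (nat_lit 2427177453),Int.negSucc (nat_lit 4111902456),Int.ofNat (nat_lit 3210881371),Int.ofNat (nat_lit 2150328739),Int.negSucc (nat_lit 419558024),Int.ofNat (nat_lit 6261253381),Int.ofNat (nat_lit 7644256553),Int.negSucc (nat_lit 11744420299),Int.negSucc (nat_lit 1384520705),Int.negSucc (nat_lit 710066671),Int.negSucc (nat_lit 938760032),Int.ofNat (nat_lit 1729401773),Int.ofNat (nat_lit 1097747944),Int.ofNat (nat_lit 1093628140),Int.ofNat (nat_lit 589328444),Int.negSucc (nat_lit 813074102),Int.negSucc (nat_lit 654371506),Int.ofNat (nat_lit 1047805971),Int.negSucc (nat_lit 7027866187),Int.ofNat (nat_lit 1246774325),Int.negSucc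 (nat_lit 7364664302),Int.ofNat (nat_lit 2101231188),Int.ofNat (nat_lit 938975992),Int.ofNat (nat_lit 6978801663),Int.ofNat (nat_lit 1755189411),Int.negSucc (nat_lit 243562707),Int.negSucc (nat_lit 666106142),Int.negSucc (nat_lit 1687206580),Int.ofNat (nat_lit 2019143098),Int.ofNat (nat_lit 5403586949),Int.negSucc (nat_lit 4593052605),Int.ofNat (nat_lit 3339189899),Int.negSucc (nat_lit 423481946),Int.ofNat (nat_lit 2232502682),Int.ofNat (nat_lit 4350370798),Int.ofNat (nat_lit 1983620053),Int.negSucc (nat_lit 2722173390),Int.ofNat (nat_lit 4619801797),Int.negSucc (nat_lit 6217850364),Int.negSucc (nat_lit 1105258064),Int.negSucc (nat_lit 350048006),Int.ofNat (nat_lit 7971088253),Int.ofNat (nat_lit 291923273),Int.negSucc (nat_lit 14410281150),Int.ofNat (nat_lit 2129414989),Int.negSucc (nat_lit 900727379),Int.ofNat (nat_lit 741158193),Int.negSucc (nat_lit 251590975),Int.negSucc (nat_lit 542659045),Int.ofNat (nat_lit 260335940),Int.ofNat (nat_lit 280996422),Int.negSucc (nat_lit 249502025),Int.ofNat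 (nat_lit 118296919),Int.ofNat (nat_lit 468243548),Int.negSucc (nat_lit 507662255),Int.ofNat (nat_lit 645095244),Int.negSucc (nat_lit 244145887),Int.negSucc (nat_lit 1144786660),Int.negSucc (nat_lit 49666099),Int.ofNat (nat_lit 718936298),Int.negSucc (nat_lit 142388994),Int.ofNat (nat_lit 212380328),Int.negSucc (nat_lit 7371839),Int.negSucc (nat_lit 821910254),Int.negSucc (nat_lit 1287688474),Int.negSucc (nat_lit 1536113018),Int.ofNat (nat_lit 4604732826)])

/-- A row. -/
noncomputable def sr0_c3_13 : List ℕ × List ℤ :=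
  ([(nat_lit 2),(nat_lit 2),(nat_lit 1),(nat_lit 0),(nat_lit 0),(nat_lit 0),(nat_lit 0),(nat_lit 0),(nat_lit 0),(nat_lit 0),(nat_lit 0),(nat_lit 0)], [Int.negSucc (nat_lit 5172348176),Int.ofNat (nat_lit 6028959052),Int.ofNat (nat_lit 2732342684),Int.negSucc (nat_lit 690260685),Int.ofNat (nat_lit 1186072124),Int.ofNat (nat_lit 3437077764),Int.negSucc (nat_lit 4748754691),Int.ofNat (nat_lit 2637921847),Int.ofNat (nat_lit 4678081673),Int.ofNat (nat_lit 689194676),Int.ofNat (nat_lit 9967325363),Int.negSucc (nat_lit 5025611468),Int.ofNat (nat_lit 1992359856),Int.ofNat (nat_lit 5257917625),Int.ofNat (nat_lit 5824873095),Int.ofNat (nat_lit 8226483896),Int.ofNat (nat_lit 6671763218),Int.ofNat (nat_lit 12686931176),Int.negSucc (nat_lit 2360772881),Int.negSucc (nat_lit 1169855532),Int.ofNat (nat_lit 7419153093),Int.ofNat (nat_lit 2082939863),Int.negSucc (nat_lit 3293099593),Int.ofNat (nat_lit 4589883034),Int.negSucc (nat_lit 334732338),Int.negSucc (nat_lit 2344284648),Int.negSucc (nat_lit 3068926775),Int.negSucc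 (nat_lit 4506942987),Int.ofNat (nat_lit 7432547147),Int.ofNat (nat_lit 4983239329),Int.ofNat (nat_lit 2892217046),Int.ofNat (nat_lit 3043607082),Int.negSucc (nat_lit 4509657360),Int.negSucc (nat_lit 8971667196),Int.ofNat (nat_lit 6734818487),Int.negSucc (nat_lit 1647881508),Int.negSucc (nat_lit 4961325990),Int.negSucc (nat_lit 294869801),Int.ofNat (nat_lit 2346582508),Int.negSucc (nat_lit 997047304),Int.ofNat (nat_lit 2417750692),Int.negSucc (nat_lit 5430307136),Int.negSucc (nat_lit 8928446259),Int.ofNat (nat_lit 2867838690),Int.negSucc (nat_lit 3568337675),Int.ofNat (nat_lit 2058051604),Int.ofNat (nat_lit 3705498212),Int.negSucc (nat_lit 1606975540),Int.ofNat (nat_lit 1049279059),Int.negSucc (nat_lit 10435228839),Int.negSucc (nat_lit 2139966448),Int.negSucc (nat_lit 11456450034),Int.ofNat (nat_lit 43146029),Int.negSucc (nat_lit 1825665448),Int.ofNat (nat_lit 14950436547),Int.ofNat (nat_lit 4730511854),Int.ofNat (nat_lit 2994962632),Int.negSucc (nat_lit 6275940066),Int.ofNat (nat_lit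 1106552262),Int.ofNat (nat_lit 9752508088),Int.negSucc (nat_lit 440392536),Int.ofNat (nat_lit 1378294415),Int.negSucc (nat_lit 2202207686),Int.ofNat (nat_lit 4614815258),Int.ofNat (nat_lit 4995546726),Int.negSucc (nat_lit 1618089858),Int.ofNat (nat_lit 3674113290),Int.negSucc (nat_lit 1028290695),Int.negSucc (nat_lit 8969587654),Int.ofNat (nat_lit 695845805),Int.ofNat (nat_lit 1681036740),Int.ofNat (nat_lit 654692936),Int.ofNat (nat_lit 1774624255),Int.negSucc (nat_lit 2547320958),Int.ofNat (nat_lit 2673074346),Int.ofNat (nat_lit 5486034732),Int.ofNat (nat_lit 220207050),Int.negSucc (nat_lit 15924905099),Int.ofNat (nat_lit 6967211907),Int.negSucc (nat_lit 7329962209),Int.negSucc (nat_lit 4916088037),Int.negSucc (nat_lit 17585189462),Int.ofNat (nat_lit 5673510252),Int.negSucc (nat_lit 1387995278),Int.ofNat (nat_lit 1554744847),Int.negSucc (nat_lit 2409315400),Int.negSucc (nat_lit 6823258045),Int.ofNat (nat_lit 3630110182),Int.negSucc (nat_lit 4534174455),Int.ofNat (nat_lit 788580125),Int.ofNat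 (nat_lit 2351995968),Int.negSucc (nat_lit 3187709638),Int.negSucc (nat_lit 554327222),Int.ofNat (nat_lit 2852737815),Int.ofNat (nat_lit 2791218751),Int.negSucc (nat_lit 9094288629),Int.ofNat (nat_lit 8111503382),Int.ofNat (nat_lit 1090171954),Int.negSucc (nat_lit 3507197846),Int.ofNat (nat_lit 2916699200),Int.negSucc (nat_lit 711555293),Int.ofNat (nat_lit 10313570570),Int.negSucc (nat_lit 571169047),Int.ofNat (nat_lit 10756290729)])

/-- A row. -/
noncomputable def sr0_c3_14 : List ℕ × List ℤ :=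
  ([(nat_lit 2),(nat_lit 3),(nat_lit 0),(nat_lit 1),(nat_lit 0),(nat_lit 0),(nat_lit 0),(nat_lit 0),(nat_lit 0),(nat_lit 0),(nat_lit 0),(nat_lit 0)], [Int.ofNat (nat_lit 334396952),Int.ofNat (nat_lit 6066835807),Int.ofNat (nat_lit 1935872761),Int.negSucc (nat_lit 7425543025),Int.negSucc (nat_lit 5372403273),Int.ofNat (nat_lit 188134519),Int.ofNat (nat_lit 22070990521),Int.ofNat (nat_lit 3261719301),Int.ofNat (nat_lit 1520152004),Int.negSucc (nat_lit 8154397264),Int.negSucc (nat_lit 6626867192),Int.ofNat (nat_lit 13340968965),Int.negSucc (nat_lit 21065865166),Int.negSucc (nat_lit 6391723011),Int.negSucc (nat_lit 4740401873),Int.ofNat (nat_lit 2417084735),Int.negSucc (nat_lit 4094884455),Int.ofNat (nat_lit 1131631501),Int.ofNat (nat_lit 14901566276),Int.ofNat (nat_lit 1411270729),Int.negSucc (nat_lit 7272711091),Int.negSucc (nat_lit 203028141),Int.negSucc (nat_lit 2777920516),Int.ofNat (nat_lit 6959371062),Int.ofNat (nat_lit 1475694660),Int.ofNat (nat_lit 4005864946),Int.negSucc (nat_lit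 14180470252),Int.ofNat (nat_lit 9695043022),Int.negSucc (nat_lit 18547146952),Int.negSucc (nat_lit 7439142832),Int.negSucc (nat_lit 3099794412),Int.negSucc (nat_lit 7739527571),Int.ofNat (nat_lit 3156289249),Int.negSucc (nat_lit 2252639939),Int.ofNat (nat_lit 11065209359),Int.negSucc (nat_lit 9646552926),Int.negSucc (nat_lit 481411502),Int.ofNat (nat_lit 5079908830),Int.negSucc (nat_lit 1918845142),Int.ofNat (nat_lit 4397241565),Int.ofNat (nat_lit 2992598226),Int.ofNat (nat_lit 21103920861),Int.ofNat (nat_lit 1698393334),Int.ofNat (nat_lit 3016190274),Int.negSucc (nat_lit 3826053555),Int.negSucc (nat_lit 1239091994),Int.ofNat (nat_lit 4941973938),Int.negSucc (nat_lit 6023366729),Int.negSucc (nat_lit 9563917523),Int.ofNat (nat_lit 3763174444),Int.negSucc (nat_lit 275976568),Int.negSucc (nat_lit 706725585),Int.negSucc (nat_lit 21021442),Int.negSucc (nat_lit 1359513661),Int.negSucc (nat_lit 1573926697),Int.negSucc (nat_lit 9886406398),Int.negSucc (nat_lit 2586014129),Int.negSucc (nat_lit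 2724101490),Int.ofNat (nat_lit 7194002662),Int.ofNat (nat_lit 1044245335),Int.negSucc (nat_lit 6460692147),Int.ofNat (nat_lit 3407195135),Int.ofNat (nat_lit 5774181289),Int.negSucc (nat_lit 9294354694),Int.negSucc (nat_lit 1393109432),Int.negSucc (nat_lit 1596628281),Int.ofNat (nat_lit 3797131162),Int.ofNat (nat_lit 2790014816),Int.negSucc (nat_lit 1980520957),Int.ofNat (nat_lit 1813753194),Int.ofNat (nat_lit 8328712775),Int.negSucc (nat_lit 1321883833),Int.ofNat (nat_lit 4854366945),Int.ofNat (nat_lit 21470347284),Int.ofNat (nat_lit 1058910123),Int.ofNat (nat_lit 4496119123),Int.negSucc (nat_lit 15009743018),Int.ofNat (nat_lit 5618073958),Int.negSucc (nat_lit 2175521155),Int.negSucc (nat_lit 1939006928),Int.negSucc (nat_lit 2933902058),Int.ofNat (nat_lit 2558738469),Int.ofNat (nat_lit 4213826725),Int.negSucc (nat_lit 354405712),Int.negSucc (nat_lit 27074101506),Int.negSucc (nat_lit 4279103221),Int.ofNat (nat_lit 1073824604),Int.ofNat (nat_lit 2307139858),Int.ofNat (nat_lit 572885225),Int.negSucc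 (nat_lit 1133106997),Int.negSucc (nat_lit 2696056751),Int.ofNat (nat_lit 1635886315),Int.negSucc (nat_lit 4375771263),Int.negSucc (nat_lit 1012425750),Int.negSucc (nat_lit 119944859),Int.ofNat (nat_lit 1829013890),Int.ofNat (nat_lit 137513708),Int.ofNat (nat_lit 1882230081),Int.ofNat (nat_lit 324304927),Int.negSucc (nat_lit 2245502789),Int.ofNat (nat_lit 1073474693),Int.negSucc (nat_lit 3162665724),Int.ofNat (nat_lit 4579242856),Int.negSucc (nat_lit 1371454193),Int.ofNat (nat_lit 9686626136)])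

/-- A row. -/
noncomputable def sr0_c3_15 : List ℕ × List ℤ :=
  ([(nat_lit 2),(nat_lit 4),(nat_lit 0),(nat_lit 0),(nat_lit 0),(nat_lit 0),(nat_lit 0),(nat_lit 0),(nat_lit 0),(nat_lit 0),(nat_lit 0),(nat_lit 0)], [Int.ofNat (nat_lit 5795716789),Int.negSucc (nat_lit 2090729702),Int.negSucc (nat_lit 17363192325),Int.ofNat (nat_lit 7604938145),Int.ofNat (nat_lit 2246113610),Int.ofNat (nat_lit 3029332543),Int.negSucc (nat_lit 3316001908),Int.negSucc (nat_lit 1231095523),Int.negSucc (nat_lit 5052925540),Int.ofNat (nat_lit 12150065677),Int.ofNat (nat_lit 8441245967),Int.negSucc (nat_lit 8412356334),Int.ofNat (nat_lit 7530585512),Int.ofNat (nat_lit 12248232098),Int.negSucc (nat_lit 93752735),Int.ofNat (nat_lit 1402010563),Int.ofNat (nat_lit 63750053),Int.negSucc (nat_lit 3708359727),Int.negSucc (nat_lit 6419658850),Int.negSucc (nat_lit 7859680321),Int.ofNat (nat_lit 1128701348),Int.negSucc (nat_lit 6730047449),Int.negSucc (nat_lit 270290057),Int.ofNat (nat_lit 5376475651),Int.negSucc (nat_lit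 7478035475),Int.negSucc (nat_lit 7956198979),Int.ofNat (nat_lit 17940104797),Int.ofNat (nat_lit 2637385448),Int.negSucc (nat_lit 3870257584),Int.ofNat (nat_lit 3259118093),Int.negSucc (nat_lit 13544052302),Int.ofNat (nat_lit 5310598946),Int.negSucc (nat_lit 2699674477),Int.ofNat (nat_lit 8388388568),Int.ofNat (nat_lit 8487777894),Int.negSucc (nat_lit 3271432801),Int.negSucc (nat_lit 3379399026),Int.ofNat (nat_lit 525922197),Int.negSucc (nat_lit 450183790),Int.ofNat (nat_lit 1708509252),Int.negSucc (nat_lit 1188432289),Int.negSucc (nat_lit 5722435507),Int.ofNat (nat_lit 10492242424),Int.ofNat (nat_lit 374014837),Int.ofNat (nat_lit 707693201),Int.negSucc (nat_lit 8163334223),Int.negSucc (nat_lit 6832333464),Int.ofNat (nat_lit 2679847413),Int.ofNat (nat_lit 8752330463),Int.negSucc (nat_lit 10468963082),Int.ofNat (nat_lit 78106729),Int.ofNat (nat_lit 10711859620),Int.negSucc (nat_lit 3616407795),Int.negSucc (nat_lit 19272826768),Int.negSucc (nat_lit 14562497506),Int.ofNat (nat_lit 1690253685),Int.negSucc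 (nat_lit 2549690206),Int.ofNat (nat_lit 12353264057),Int.ofNat (nat_lit 3221630966),Int.negSucc (nat_lit 2589174520),Int.ofNat (nat_lit 5491830967),Int.negSucc (nat_lit 5136423739),Int.ofNat (nat_lit 588515137),Int.ofNat (nat_lit 1659748277),Int.ofNat (nat_lit 19321572766),Int.negSucc (nat_lit 2921402906),Int.ofNat (nat_lit 3618815224),Int.ofNat (nat_lit 3197270989),Int.negSucc (nat_lit 11506514332),Int.ofNat (nat_lit 8633614594),Int.ofNat (nat_lit 536365476),Int.ofNat (nat_lit 1036560735),Int.negSucc (nat_lit 4476769255),Int.negSucc (nat_lit 5861490351),Int.ofNat (nat_lit 851839530),Int.negSucc (nat_lit 8942016108),Int.ofNat (nat_lit 8038833305),Int.ofNat (nat_lit 36198342593),Int.negSucc (nat_lit 3754467491),Int.ofNat (nat_lit 10204832556),Int.ofNat (nat_lit 7178184422),Int.negSucc (nat_lit 19885476665),Int.ofNat (nat_lit 1617366620),Int.ofNat (nat_lit 7264616342),Int.ofNat (nat_lit 7999693798),Int.ofNat (nat_lit 1128363776),Int.negSucc (nat_lit 329282958),Int.negSucc (nat_lit 16385650327),Int.ofNat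 (nat_lit 3825507270),Int.negSucc (nat_lit 488523784),Int.negSucc (nat_lit 896296507),Int.ofNat (nat_lit 1508290577),Int.ofNat (nat_lit 2078988596),Int.negSucc (nat_lit 8139407061),Int.negSucc (nat_lit 4064421903),Int.negSucc (nat_lit 1493474454),Int.negSucc (nat_lit 742643946),Int.negSucc (nat_lit 2545798297),Int.ofNat (nat_lit 917288745),Int.ofNat (nat_lit 6041082785),Int.negSucc (nat_lit 635843822),Int.negSucc (nat_lit 12567188821),Int.negSucc (nat_lit 6866902921),Int.ofNat (nat_lit 14214724977),Int.negSucc (nat_lit 5962366515),Int.ofNat (nat_lit 18125947450)])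

/-- A row. -/
noncomputable def sr0_c3_16 : List ℕ × List ℤ :=
  ([(nat_lit 3),(nat_lit 0),(nat_lit 0),(nat_lit 0),(nat_lit 0),(nat_lit 0),(nat_lit 0),(nat_lit 0),(nat_lit 0),(nat_lit 0),(nat_lit 0),(nat_lit 0)], [Int.ofNat (nat_lit 10801188098),Int.negSucc (nat_lit 4272560421),Int.ofNat (nat_lit 6909994896),Int.negSucc (nat_lit 9865369339),Int.ofNat (nat_lit 6704346264),Int.ofNat (nat_lit 5864683945),Int.negSucc (nat_lit 5528972209),Int.ofNat (nat_lit 2611765235),Int.ofNat (nat_lit 8580152585),Int.ofNat (nat_lit 9391899599),Int.ofNat (nat_lit 1712294903),Int.ofNat (nat_lit 3749086530),Int.ofNat (nat_lit 6907667261),Int.ofNat (nat_lit 6303117780),Int.ofNat (nat_lit 10466901785),Int.ofNat (nat_lit 3279506434),Int.ofNat (nat_lit 5191838788),Int.ofNat (nat_lit 2489721993),Int.negSucc (nat_lit 2457450743),Int.negSucc (nat_lit 613932593),Int.ofNat (nat_lit 8072238714),Int.negSucc (nat_lit 4002741459),Int.negSucc (nat_lit 3400783045),Int.ofNat (nat_lit 4043361323),Int.negSucc (nat_lit 104084300),Int.ofNat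 (nat_lit 203085768),Int.negSucc (nat_lit 1109193595),Int.negSucc (nat_lit 2121859856),Int.ofNat (nat_lit 2199462050),Int.negSucc (nat_lit 990938590),Int.ofNat (nat_lit 2169363860),Int.ofNat (nat_lit 1324026598),Int.ofNat (nat_lit 268296820),Int.negSucc (nat_lit 3081975024),Int.negSucc (nat_lit 1422230460),Int.ofNat (nat_lit 2009084059),Int.ofNat (nat_lit 3058172562),Int.ofNat (nat_lit 1454328110),Int.negSucc (nat_lit 310036825),Int.negSucc (nat_lit 1602575111),Int.ofNat (nat_lit 107110354),Int.negSucc (nat_lit 264832972),Int.negSucc (nat_lit 1937397550),Int.ofNat (nat_lit 148241948),Int.ofNat (nat_lit 1339839440),Int.negSucc (nat_lit 109706491),Int.ofNat (nat_lit 1053082946),Int.ofNat (nat_lit 298738370),Int.ofNat (nat_lit 268448063),Int.ofNat (nat_lit 459352940),Int.ofNat (nat_lit 385655170),Int.negSucc (nat_lit 1159784982),Int.ofNat (nat_lit 301405812),Int.ofNat (nat_lit 278545200),Int.ofNat (nat_lit 8798070643),Int.negSucc (nat_lit 341137223),Int.ofNat (nat_lit 3332112848),Int.negSucc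 (nat_lit 3380818203),Int.negSucc (nat_lit 1069519116),Int.ofNat (nat_lit 4929361999),Int.ofNat (nat_lit 1506693232),Int.negSucc (nat_lit 366089073),Int.ofNat (nat_lit 2024555975),Int.negSucc (nat_lit 2158349308),Int.negSucc (nat_lit 125299355),Int.negSucc (nat_lit 2847673346),Int.ofNat (nat_lit 3488802323),Int.negSucc (nat_lit 940474300),Int.negSucc (nat_lit 1247197872),Int.negSucc (nat_lit 2913946072),Int.negSucc (nat_lit 991346774),Int.negSucc (nat_lit 60816406),Int.ofNat (nat_lit 19869431),Int.negSucc (nat_lit 2822735312),Int.ofNat (nat_lit 783687434),Int.ofNat (nat_lit 1105269510),Int.ofNat (nat_lit 175995766),Int.ofNat (nat_lit 11707378),Int.ofNat (nat_lit 1482313901),Int.negSucc (nat_lit 1847425758),Int.negSucc (nat_lit 304396398),Int.negSucc (nat_lit 1123668561),Int.ofNat (nat_lit 2541050711),Int.ofNat (nat_lit 37602907),Int.negSucc (nat_lit 422029260),Int.negSucc (nat_lit 926120916),Int.negSucc (nat_lit 764051391),Int.ofNat (nat_lit 787142538),Int.negSucc (nat_lit 14004906950),Int.negSucc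 (nat_lit 142208949),Int.ofNat (nat_lit 1606468031),Int.negSucc (nat_lit 1246009976),Int.negSucc (nat_lit 1114060816),Int.negSucc (nat_lit 1965884022),Int.ofNat (nat_lit 2388186458),Int.negSucc (nat_lit 1104734679),Int.negSucc (nat_lit 616213252),Int.negSucc (nat_lit 23676045),Int.negSucc (nat_lit 1179115598),Int.ofNat (nat_lit 467159715),Int.ofNat (nat_lit 761492174),Int.negSucc (nat_lit 2121126989),Int.ofNat (nat_lit 372575506),Int.negSucc (nat_lit 319316245),Int.negSucc (nat_lit 852112178),Int.negSucc (nat_lit 535714754),Int.ofNat (nat_lit 3475723405)])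

/-- A row. -/
noncomputable def sr0_c3_17 : List ℕ × List ℤ :=
  ([(nat_lit 3),(nat_lit 0),(nat_lit 0),(nat_lit 0),(nat_lit 0),(nat_lit 0),(nat_lit 1),(nat_lit 0),(nat_lit 0),(nat_lit 0),(nat_lit 0),(nat_lit 0)], [Int.ofNat (nat_lit 4714218311),Int.negSucc (nat_lit 2486120322),Int.negSucc (nat_lit 922200435),Int.ofNat (nat_lit 4442275454),Int.negSucc (nat_lit 2013310716),Int.negSucc (nat_lit 2005735285),Int.negSucc (nat_lit 1517934152),Int.negSucc (nat_lit 428714505),Int.ofNat (nat_lit 952353373),Int.ofNat (nat_lit 1896612404),Int.negSucc (nat_lit 869933359),Int.negSucc (nat_lit 733396228),Int.ofNat (nat_lit 838242503),Int.ofNat (nat_lit 607524329),Int.ofNat (nat_lit 2267796673),Int.ofNat (nat_lit 1861086911),Int.ofNat (nat_lit 2989846389),Int.ofNat (nat_lit 282807302),Int.negSucc (nat_lit 327093287),Int.negSucc (nat_lit 268646115),Int.ofNat (nat_lit 1130657423),Int.ofNat (nat_lit 180937451),Int.ofNat (nat_lit 5660962),Int.negSucc (nat_lit 2946741109),Int.ofNat (nat_lit 991001427),Int.negSucc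 (nat_lit 575176818),Int.ofNat (nat_lit 633330064),Int.negSucc (nat_lit 208272501),Int.ofNat (nat_lit 1116886435),Int.negSucc (nat_lit 78912699),Int.negSucc (nat_lit 312749124),Int.ofNat (nat_lit 95838485),Int.negSucc (nat_lit 78372921),Int.ofNat (nat_lit 74486888),Int.negSucc (nat_lit 363982095),Int.negSucc (nat_lit 796857624),Int.negSucc (nat_lit 235226183),Int.negSucc (nat_lit 528916060),Int.negSucc (nat_lit 368700941),Int.ofNat (nat_lit 179644665),Int.ofNat (nat_lit 316744902),Int.negSucc (nat_lit 81642772),Int.negSucc (nat_lit 138012288),Int.ofNat (nat_lit 1338685),Int.ofNat (nat_lit 373927401),Int.negSucc (nat_lit 89791466),Int.ofNat (nat_lit 470923569),Int.ofNat (nat_lit 224977968),Int.ofNat (nat_lit 84914455),Int.ofNat (nat_lit 101194108),Int.ofNat (nat_lit 7587020),Int.ofNat (nat_lit 13573439),Int.negSucc (nat_lit 33303278),Int.ofNat (nat_lit 45844580),Int.ofNat (nat_lit 1161324511),Int.negSucc (nat_lit 522888710),Int.ofNat (nat_lit 802311498),Int.ofNat (nat_lit 3861714665),Int.ofNat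 (nat_lit 492940706),Int.ofNat (nat_lit 865908692),Int.ofNat (nat_lit 978763911),Int.negSucc (nat_lit 236718737),Int.negSucc (nat_lit 529875670),Int.negSucc (nat_lit 74815311),Int.negSucc (nat_lit 28773972),Int.negSucc (nat_lit 1724876370),Int.negSucc (nat_lit 372773880),Int.negSucc (nat_lit 261263061),Int.negSucc (nat_lit 286022174),Int.ofNat (nat_lit 124139803),Int.ofNat (nat_lit 274202529),Int.negSucc (nat_lit 334525812),Int.ofNat (nat_lit 244214317),Int.negSucc (nat_lit 276455015),Int.ofNat (nat_lit 135764902),Int.ofNat (nat_lit 45763413),Int.negSucc (nat_lit 126041623),Int.ofNat (nat_lit 139020851),Int.ofNat (nat_lit 780151111),Int.negSucc (nat_lit 20995828),Int.negSucc (nat_lit 203628679),Int.ofNat (nat_lit 263551197),Int.negSucc (nat_lit 39403490),Int.negSucc (nat_lit 211934495),Int.negSucc (nat_lit 217324951),Int.ofNat (nat_lit 60180113),Int.negSucc (nat_lit 42049142),Int.negSucc (nat_lit 212396910),Int.negSucc (nat_lit 764467186),Int.negSucc (nat_lit 24956598),Int.negSucc (nat_lit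 1701795546),Int.negSucc (nat_lit 45764788),Int.ofNat (nat_lit 70932166),Int.negSucc (nat_lit 63548029),Int.negSucc (nat_lit 18337350),Int.ofNat (nat_lit 55650689),Int.ofNat (nat_lit 12736578),Int.negSucc (nat_lit 45589313),Int.negSucc (nat_lit 35069572),Int.ofNat (nat_lit 37093147),Int.ofNat (nat_lit 58412188),Int.ofNat (nat_lit 17497232),Int.negSucc (nat_lit 12533520),Int.negSucc (nat_lit 10840237),Int.negSucc (nat_lit 27968175),Int.negSucc (nat_lit 8496202),Int.negSucc (nat_lit 1135362),Int.ofNat (nat_lit 246299121)])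

/-- A row. -/
noncomputable def sr0_c3_18 : List ℕ × List ℤ :=
  ([(nat_lit 3),(nat_lit 0),(nat_lit 0),(nat_lit 0),(nat_lit 1),(nat_lit 0),(nat_lit 0),(nat_lit 0),(nat_lit 0),(nat_lit 0),(nat_lit 0),(nat_lit 0)], [Int.negSucc (nat_lit 6944759721),Int.ofNat (nat_lit 3271987716),Int.negSucc (nat_lit 5346373670),Int.ofNat (nat_lit 5608789592),Int.negSucc (nat_lit 3160923143),Int.ofNat (nat_lit 5799673581),Int.ofNat (nat_lit 7320388305),Int.negSucc (nat_lit 3941327564),Int.negSucc (nat_lit 3634639982),Int.negSucc (nat_lit 5166466904),Int.ofNat (nat_lit 1949441250),Int.negSucc (nat_lit 2171192336),Int.negSucc (nat_lit 3053566077),Int.ofNat (nat_lit 405486730),Int.negSucc (nat_lit 1730405901),Int.ofNat (nat_lit 719608918),Int.negSucc (nat_lit 1158603297),Int.negSucc (nat_lit 182839423),Int.ofNat (nat_lit 9367043),Int.ofNat (nat_lit 2483972674),Int.negSucc (nat_lit 1491060948),Int.ofNat (nat_lit 2023056216),Int.ofNat (nat_lit 1273561363),Int.negSucc (nat_lit 1439180413),Int.ofNat (nat_lit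 655557717),Int.negSucc (nat_lit 132323474),Int.negSucc (nat_lit 536038383),Int.ofNat (nat_lit 896758329),Int.ofNat (nat_lit 939751476),Int.ofNat (nat_lit 1025241039),Int.negSucc (nat_lit 598172959),Int.negSucc (nat_lit 531370543),Int.negSucc (nat_lit 321172611),Int.ofNat (nat_lit 1579229361),Int.ofNat (nat_lit 462931448),Int.negSucc (nat_lit 677427777),Int.negSucc (nat_lit 668102111),Int.negSucc (nat_lit 792952303),Int.ofNat (nat_lit 441256891),Int.ofNat (nat_lit 2594957167),Int.ofNat (nat_lit 640464689),Int.negSucc (nat_lit 34035708),Int.ofNat (nat_lit 624271312),Int.negSucc (nat_lit 2263988207),Int.negSucc (nat_lit 808615873),Int.ofNat (nat_lit 420793664),Int.negSucc (nat_lit 340412312),Int.negSucc (nat_lit 20027364),Int.ofNat (nat_lit 772747494),Int.negSucc (nat_lit 307777847),Int.ofNat (nat_lit 1037539046),Int.ofNat (nat_lit 464045419),Int.negSucc (nat_lit 108148613),Int.negSucc (nat_lit 183057124),Int.negSucc (nat_lit 1394315896),Int.ofNat (nat_lit 1343741454),Int.negSucc (nat_lit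 2324185858),Int.ofNat (nat_lit 2211585103),Int.ofNat (nat_lit 801041717),Int.ofNat (nat_lit 3258892840),Int.ofNat (nat_lit 1143638496),Int.ofNat (nat_lit 884691123),Int.negSucc (nat_lit 926907561),Int.ofNat (nat_lit 2928670648),Int.ofNat (nat_lit 2414290948),Int.ofNat (nat_lit 2208503556),Int.negSucc (nat_lit 3732928681),Int.ofNat (nat_lit 1600370707),Int.ofNat (nat_lit 418141462),Int.ofNat (nat_lit 613972689),Int.ofNat (nat_lit 1620099906),Int.ofNat (nat_lit 187919829),Int.ofNat (nat_lit 957003456),Int.ofNat (nat_lit 1411258433),Int.negSucc (nat_lit 428323188),Int.ofNat (nat_lit 962652134),Int.negSucc (nat_lit 939898841),Int.negSucc (nat_lit 856948622),Int.negSucc (nat_lit 831097656),Int.ofNat (nat_lit 2412040056),Int.negSucc (nat_lit 503362062),Int.ofNat (nat_lit 285826638),Int.negSucc (nat_lit 179990901),Int.ofNat (nat_lit 540619426),Int.negSucc (nat_lit 50513218),Int.ofNat (nat_lit 424682479),Int.negSucc (nat_lit 416235887),Int.ofNat (nat_lit 36187377),Int.ofNat (nat_lit 4720895236),Int.ofNat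 (nat_lit 1175254537),Int.negSucc (nat_lit 182496329),Int.negSucc (nat_lit 6251042598),Int.ofNat (nat_lit 398505599),Int.ofNat (nat_lit 727679048),Int.negSucc (nat_lit 651936929),Int.ofNat (nat_lit 746084005),Int.ofNat (nat_lit 62912971),Int.ofNat (nat_lit 391578164),Int.ofNat (nat_lit 337944193),Int.negSucc (nat_lit 212495183),Int.ofNat (nat_lit 265087171),Int.ofNat (nat_lit 135513828),Int.negSucc (nat_lit 963682212),Int.negSucc (nat_lit 32188757),Int.ofNat (nat_lit 401999189),Int.negSucc (nat_lit 43330106),Int.negSucc (nat_lit 508165317),Int.negSucc (nat_lit 405307711),Int.ofNat (nat_lit 1053883711)])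

/-- A row. -/
noncomputable def sr0_c3_19 : List ℕ × List ℤ :=
  ([(nat_lit 3),(nat_lit 0),(nat_lit 0),(nat_lit 2),(nat_lit 0),(nat_lit 0),(nat_lit 0),(nat_lit 0),(nat_lit 0),(nat_lit 0),(nat_lit 0),(nat_lit 0)], [Int.negSucc (nat_lit 2351503264),Int.ofNat (nat_lit 2344950516),Int.negSucc (nat_lit 4961574204),Int.ofNat (nat_lit 701893073),Int.ofNat (nat_lit 4575486207),Int.negSucc (nat_lit 3082740572),Int.negSucc (nat_lit 2410855864),Int.ofNat (nat_lit 1255803175),Int.ofNat (nat_lit 1031721343),Int.ofNat (nat_lit 206626279),Int.ofNat (nat_lit 2807027460),Int.negSucc (nat_lit 2082382736),Int.ofNat (nat_lit 2821626245),Int.negSucc (nat_lit 1929318577),Int.negSucc (nat_lit 865919953),Int.ofNat (nat_lit 702786921),Int.ofNat (nat_lit 1070408471),Int.ofNat (nat_lit 1847588957),Int.negSucc (nat_lit 1022031737),Int.ofNat (nat_lit 2938761373),Int.ofNat (nat_lit 42178834),Int.ofNat (nat_lit 39385732),Int.ofNat (nat_lit 1023938071),Int.negSucc (nat_lit 2540223137),Int.ofNat (nat_lit 841050073),Int.ofNat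 (nat_lit 667673886),Int.ofNat (nat_lit 1061457149),Int.negSucc (nat_lit 1973873381),Int.ofNat (nat_lit 269698092),Int.negSucc (nat_lit 716385343),Int.negSucc (nat_lit 761599606),Int.negSucc (nat_lit 1192431675),Int.ofNat (nat_lit 619433774),Int.negSucc (nat_lit 1728557302),Int.ofNat (nat_lit 1615617175),Int.negSucc (nat_lit 1387260926),Int.ofNat (nat_lit 309219751),Int.ofNat (nat_lit 337197219),Int.ofNat (nat_lit 40386692),Int.negSucc (nat_lit 392108187),Int.negSucc (nat_lit 1364098323),Int.ofNat (nat_lit 85496776),Int.negSucc (nat_lit 280404434),Int.negSucc (nat_lit 241066465),Int.negSucc (nat_lit 719887723),Int.ofNat (nat_lit 469405328),Int.negSucc (nat_lit 439777121),Int.ofNat (nat_lit 446763543),Int.ofNat (nat_lit 414158998),Int.ofNat (nat_lit 167821318),Int.negSucc (nat_lit 477746850),Int.ofNat (nat_lit 359073531),Int.negSucc (nat_lit 756944055),Int.negSucc (nat_lit 238852911),Int.negSucc (nat_lit 2059094091),Int.ofNat (nat_lit 876147749),Int.negSucc (nat_lit 970696276),Int.negSucc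 (nat_lit 1525953229),Int.negSucc (nat_lit 1662669216),Int.negSucc (nat_lit 822873725),Int.negSucc (nat_lit 1115168604),Int.negSucc (nat_lit 1664335816),Int.negSucc (nat_lit 530406919),Int.ofNat (nat_lit 7500739232),Int.ofNat (nat_lit 80885450),Int.ofNat (nat_lit 15207260),Int.negSucc (nat_lit 1010500450),Int.negSucc (nat_lit 1645910334),Int.ofNat (nat_lit 842097120),Int.ofNat (nat_lit 180752498),Int.ofNat (nat_lit 991697833),Int.ofNat (nat_lit 1065991173),Int.negSucc (nat_lit 285581666),Int.ofNat (nat_lit 1608715140),Int.ofNat (nat_lit 322327895),Int.ofNat (nat_lit 502106691),Int.negSucc (nat_lit 325422521),Int.negSucc (nat_lit 489845598),Int.negSucc (nat_lit 761932232),Int.ofNat (nat_lit 528674524),Int.negSucc (nat_lit 107653843),Int.negSucc (nat_lit 416779318),Int.ofNat (nat_lit 228074483),Int.ofNat (nat_lit 409809398),Int.ofNat (nat_lit 358654931),Int.ofNat (nat_lit 472564373),Int.negSucc (nat_lit 253872636),Int.ofNat (nat_lit 320855287),Int.ofNat (nat_lit 1875906048),Int.ofNat (nat_lit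 172475226),Int.ofNat (nat_lit 885944133),Int.negSucc (nat_lit 548256402),Int.ofNat (nat_lit 685070749),Int.negSucc (nat_lit 3197722933),Int.negSucc (nat_lit 182240788),Int.ofNat (nat_lit 121816704),Int.negSucc (nat_lit 39292630),Int.ofNat (nat_lit 152514175),Int.ofNat (nat_lit 293869662),Int.negSucc (nat_lit 73900808),Int.negSucc (nat_lit 58118002),Int.negSucc (nat_lit 5707050),Int.negSucc (nat_lit 169317434),Int.ofNat (nat_lit 53791011),Int.ofNat (nat_lit 140016926),Int.negSucc (nat_lit 27242553),Int.negSucc (nat_lit 100838088),Int.negSucc (nat_lit 138600482),Int.ofNat (nat_lit 334056448),Int.ofNat (nat_lit 682653508)])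

/-- A row. -/
noncomputable def sr0_c3_20 : List ℕ × List ℤ :=
  ([(nat_lit 3),(nat_lit 0),(nat_lit 1),(nat_lit 0),(nat_lit 0),(nat_lit 0),(nat_lit 0),(nat_lit 0),(nat_lit 0),(nat_lit 0),(nat_lit 0),(nat_lit 0)], [Int.ofNat (nat_lit 5027418663),Int.negSucc (nat_lit 2200903491),Int.ofNat (nat_lit 4509729990),Int.negSucc (nat_lit 19436872436),Int.ofNat (nat_lit 19783352194),Int.ofNat (nat_lit 11212288061),Int.ofNat (nat_lit 8436081896),Int.ofNat (nat_lit 5017315990),Int.ofNat (nat_lit 3346445334),Int.ofNat (nat_lit 7524215749),Int.negSucc (nat_lit 1252611449),Int.ofNat (nat_lit 7447539985),Int.ofNat (nat_lit 3990051284),Int.ofNat (nat_lit 1692554976),Int.ofNat (nat_lit 15946218783),Int.ofNat (nat_lit 6700041393),Int.ofNat (nat_lit 3032862973),Int.ofNat (nat_lit 2035103870),Int.negSucc (nat_lit 142807402),Int.negSucc (nat_lit 2084026318),Int.ofNat (nat_lit 3535531008),Int.negSucc (nat_lit 3533101510),Int.ofNat (nat_lit 513270775),Int.ofNat (nat_lit 484568257),Int.ofNat (nat_lit 449660893),Int.ofNat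 (nat_lit 4769034713),Int.negSucc (nat_lit 2616504896),Int.ofNat (nat_lit 2732745240),Int.ofNat (nat_lit 2326969562),Int.negSucc (nat_lit 5549821115),Int.ofNat (nat_lit 1700300106),Int.negSucc (nat_lit 307284554),Int.ofNat (nat_lit 2669060699),Int.negSucc (nat_lit 1653153102),Int.ofNat (nat_lit 1838775569),Int.negSucc (nat_lit 102996156),Int.ofNat (nat_lit 2779843375),Int.ofNat (nat_lit 3016585703),Int.ofNat (nat_lit 574578707),Int.negSucc (nat_lit 946786462),Int.negSucc (nat_lit 1724515720),Int.negSucc (nat_lit 916749083),Int.ofNat (nat_lit 2051824538),Int.negSucc (nat_lit 849281601),Int.negSucc (nat_lit 1149044966),Int.ofNat (nat_lit 542661353),Int.negSucc (nat_lit 74360886),Int.negSucc (nat_lit 415188930),Int.ofNat (nat_lit 1787183588),Int.negSucc (nat_lit 442730259),Int.ofNat (nat_lit 417527341),Int.ofNat (nat_lit 534474749),Int.negSucc (nat_lit 293143569),Int.negSucc (nat_lit 97977399),Int.ofNat (nat_lit 5047202082),Int.ofNat (nat_lit 673707975),Int.ofNat (nat_lit 1573537814),Int.negSucc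 (nat_lit 4168861185),Int.negSucc (nat_lit 5690350693),Int.ofNat (nat_lit 10342807851),Int.ofNat (nat_lit 834813358),Int.negSucc (nat_lit 223024591),Int.ofNat (nat_lit 920691465),Int.ofNat (nat_lit 746026088),Int.ofNat (nat_lit 7031958448),Int.negSucc (nat_lit 3978076482),Int.ofNat (nat_lit 4599221527),Int.ofNat (nat_lit 2280905143),Int.negSucc (nat_lit 2627069453),Int.negSucc (nat_lit 2514271408),Int.negSucc (nat_lit 87818807),Int.ofNat (nat_lit 998405528),Int.negSucc (nat_lit 602597717),Int.negSucc (nat_lit 1522660433),Int.ofNat (nat_lit 970771211),Int.ofNat (nat_lit 1033399595),Int.negSucc (nat_lit 474872637),Int.negSucc (nat_lit 2032002971),Int.ofNat (nat_lit 846385459),Int.negSucc (nat_lit 817688745),Int.negSucc (nat_lit 71450054),Int.negSucc (nat_lit 476488813),Int.ofNat (nat_lit 3045414468),Int.negSucc (nat_lit 68322832),Int.ofNat (nat_lit 925642909),Int.negSucc (nat_lit 15703622),Int.negSucc (nat_lit 830697815),Int.ofNat (nat_lit 274616582),Int.negSucc (nat_lit 6560592030),Int.negSucc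 (nat_lit 2241349935),Int.ofNat (nat_lit 2066351788),Int.negSucc (nat_lit 1682487415),Int.ofNat (nat_lit 558507192),Int.negSucc (nat_lit 2841874313),Int.negSucc (nat_lit 6724075338),Int.negSucc (nat_lit 1933765708),Int.ofNat (nat_lit 1088306254),Int.negSucc (nat_lit 212724240),Int.negSucc (nat_lit 179189360),Int.ofNat (nat_lit 370870341),Int.ofNat (nat_lit 741889387),Int.negSucc (nat_lit 854836140),Int.ofNat (nat_lit 368909889),Int.negSucc (nat_lit 1201764738),Int.negSucc (nat_lit 565007414),Int.ofNat (nat_lit 272640950),Int.ofNat (nat_lit 2536279485),Int.negSucc (nat_lit 152563957),Int.ofNat (nat_lit 194371294),Int.ofNat (nat_lit 355493978),Int.ofNat (nat_lit 2009237918)])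

/-- A row. -/
noncomputable def sr0_c3_21 : List ℕ × List ℤ :=
  ([(nat_lit 3),(nat_lit 0),(nat_lit 2),(nat_lit 0),(nat_lit 0),(nat_lit 0),(nat_lit 0),(nat_lit 0),(nat_lit 0),(nat_lit 0),(nat_lit 0),(nat_lit 0)], [Int.negSucc (nat_lit 4338773479),Int.ofNat (nat_lit 1861338270),Int.negSucc (nat_lit 1989779446),Int.negSucc (nat_lit 5201839301),Int.ofNat (nat_lit 7183152260),Int.ofNat (nat_lit 5924271173),Int.ofNat (nat_lit 5368903885),Int.ofNat (nat_lit 2646921318),Int.negSucc (nat_lit 114940337),Int.ofNat (nat_lit 1180413922),Int.ofNat (nat_lit 1173224296),Int.ofNat (nat_lit 1947897466),Int.negSucc (nat_lit 101613821),Int.negSucc (nat_lit 1013555449),Int.ofNat (nat_lit 5122955314),Int.ofNat (nat_lit 4575699867),Int.ofNat (nat_lit 811111984),Int.ofNat (nat_lit 3209600664),Int.negSucc (nat_lit 107149790),Int.negSucc (nat_lit 414343477),Int.ofNat (nat_lit 2197655090),Int.ofNat (nat_lit 2179185956),Int.ofNat (nat_lit 2173650449),Int.negSucc (nat_lit 366367130),Int.ofNat (nat_lit 633234561),Int.ofNat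 (nat_lit 2076211756),Int.negSucc (nat_lit 839303639),Int.ofNat (nat_lit 820286045),Int.ofNat (nat_lit 449270102),Int.negSucc (nat_lit 1883937833),Int.ofNat (nat_lit 482057756),Int.negSucc (nat_lit 431354763),Int.ofNat (nat_lit 881233565),Int.negSucc (nat_lit 463592726),Int.ofNat (nat_lit 1226068095),Int.negSucc (nat_lit 611036711),Int.ofNat (nat_lit 1292580183),Int.ofNat (nat_lit 705312767),Int.negSucc (nat_lit 36272974),Int.ofNat (nat_lit 330787778),Int.negSucc (nat_lit 600544556),Int.negSucc (nat_lit 208094032),Int.ofNat (nat_lit 1088376273),Int.negSucc (nat_lit 384450316),Int.negSucc (nat_lit 1023213268),Int.ofNat (nat_lit 364719721),Int.negSucc (nat_lit 154211151),Int.negSucc (nat_lit 12130724),Int.ofNat (nat_lit 876374426),Int.ofNat (nat_lit 311677800),Int.ofNat (nat_lit 310471833),Int.ofNat (nat_lit 934179094),Int.negSucc (nat_lit 239308172),Int.negSucc (nat_lit 14960847),Int.ofNat (nat_lit 1931029451),Int.ofNat (nat_lit 794274418),Int.negSucc (nat_lit 296188981),Int.negSucc (nat_lit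 771903229),Int.negSucc (nat_lit 2847069254),Int.ofNat (nat_lit 2881680998),Int.negSucc (nat_lit 294337876),Int.ofNat (nat_lit 209505257),Int.negSucc (nat_lit 478423460),Int.ofNat (nat_lit 1924492715),Int.ofNat (nat_lit 5108936614),Int.negSucc (nat_lit 1364201521),Int.ofNat (nat_lit 1560923524),Int.ofNat (nat_lit 546759082),Int.ofNat (nat_lit 405682311),Int.negSucc (nat_lit 3242878026),Int.ofNat (nat_lit 482182261),Int.ofNat (nat_lit 524370050),Int.negSucc (nat_lit 146343742),Int.ofNat (nat_lit 513943622),Int.ofNat (nat_lit 152323642),Int.ofNat (nat_lit 98918736),Int.negSucc (nat_lit 586123780),Int.negSucc (nat_lit 653286345),Int.negSucc (nat_lit 7404806),Int.ofNat (nat_lit 485383123),Int.ofNat (nat_lit 59319178),Int.ofNat (nat_lit 156254410),Int.ofNat (nat_lit 971110724),Int.ofNat (nat_lit 75360255),Int.ofNat (nat_lit 489565015),Int.ofNat (nat_lit 467793793),Int.negSucc (nat_lit 248937252),Int.negSucc (nat_lit 175375675),Int.ofNat (nat_lit 443774290),Int.negSucc (nat_lit 789750658),Int.ofNat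 (nat_lit 192291941),Int.negSucc (nat_lit 1124099936),Int.ofNat (nat_lit 781656868),Int.negSucc (nat_lit 1728033188),Int.negSucc (nat_lit 2676550651),Int.ofNat (nat_lit 180570750),Int.negSucc (nat_lit 2057421930),Int.ofNat (nat_lit 131060663),Int.ofNat (nat_lit 255827573),Int.negSucc (nat_lit 69887069),Int.ofNat (nat_lit 109093725),Int.ofNat (nat_lit 1889932),Int.negSucc (nat_lit 153854292),Int.negSucc (nat_lit 105108720),Int.ofNat (nat_lit 77368076),Int.ofNat (nat_lit 27915925),Int.negSucc (nat_lit 72503373),Int.negSucc (nat_lit 162432607),Int.ofNat (nat_lit 453942282),Int.ofNat (nat_lit 396852399),Int.ofNat (nat_lit 170023703),Int.ofNat (nat_lit 447144086)])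

/-- A row. -/
noncomputable def sr0_c3_22 : List ℕ × List ℤ :=
  ([(nat_lit 3),(nat_lit 1),(nat_lit 0),(nat_lit 0),(nat_lit 0),(nat_lit 1),(nat_lit 0),(nat_lit 0),(nat_lit 0),(nat_lit 0),(nat_lit 0),(nat_lit 0)], [Int.negSucc (nat_lit 4562391822),Int.ofNat (nat_lit 3548256298),Int.ofNat (nat_lit 2933393566),Int.negSucc (nat_lit 2265452980),Int.ofNat (nat_lit 3989312479),Int.negSucc (nat_lit 677674435),Int.negSucc (nat_lit 7898592053),Int.ofNat (nat_lit 3478717892),Int.negSucc (nat_lit 1951401935),Int.ofNat (nat_lit 3898400608),Int.ofNat (nat_lit 6256142279),Int.negSucc (nat_lit 5986439342),Int.ofNat (nat_lit 79532088),Int.ofNat (nat_lit 1514595132),Int.ofNat (nat_lit 1338908837),Int.ofNat (nat_lit 6432666712),Int.ofNat (nat_lit 159193961),Int.negSucc (nat_lit 5471389613),Int.ofNat (nat_lit 3104920000),Int.ofNat (nat_lit 657476391),Int.ofNat (nat_lit 791352024),Int.negSucc (nat_lit 5884082270),Int.ofNat (nat_lit 528615293),Int.ofNat (nat_lit 4444488173),Int.negSucc (nat_lit 1299057068),Int.negSucc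 (nat_lit 1469897485),Int.ofNat (nat_lit 4707420004),Int.ofNat (nat_lit 6254590211),Int.ofNat (nat_lit 1605317097),Int.negSucc (nat_lit 1415706923),Int.negSucc (nat_lit 2706567928),Int.ofNat (nat_lit 88614804),Int.ofNat (nat_lit 8124576),Int.ofNat (nat_lit 7500658874),Int.ofNat (nat_lit 2476022788),Int.negSucc (nat_lit 1375029443),Int.negSucc (nat_lit 427908708),Int.ofNat (nat_lit 4864964098),Int.negSucc (nat_lit 495181084),Int.negSucc (nat_lit 1397357468),Int.negSucc (nat_lit 1267652112),Int.negSucc (nat_lit 2321243378),Int.ofNat (nat_lit 501157097),Int.ofNat (nat_lit 489153723),Int.ofNat (nat_lit 129191359),Int.negSucc (nat_lit 1198042520),Int.ofNat (nat_lit 3111399965),Int.negSucc (nat_lit 1515962872),Int.ofNat (nat_lit 861935455),Int.negSucc (nat_lit 393420966),Int.ofNat (nat_lit 1162643584),Int.negSucc (nat_lit 926828887),Int.negSucc (nat_lit 511837666),Int.ofNat (nat_lit 142035513),Int.negSucc (nat_lit 764318154),Int.negSucc (nat_lit 968767717),Int.ofNat (nat_lit 3331895380),Int.ofNat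 (nat_lit 127583030),Int.negSucc (nat_lit 523595060),Int.ofNat (nat_lit 123973041),Int.negSucc (nat_lit 833007075),Int.negSucc (nat_lit 3168865063),Int.ofNat (nat_lit 3947116073),Int.negSucc (nat_lit 1118798235),Int.ofNat (nat_lit 731692375),Int.negSucc (nat_lit 780045238),Int.negSucc (nat_lit 3527627820),Int.ofNat (nat_lit 318261905),Int.negSucc (nat_lit 1454316737),Int.ofNat (nat_lit 270010148),Int.ofNat (nat_lit 1200123018),Int.ofNat (nat_lit 3475060091),Int.ofNat (nat_lit 11968443861),Int.negSucc (nat_lit 1581437434),Int.ofNat (nat_lit 5543924746),Int.negSucc (nat_lit 6144228838),Int.negSucc (nat_lit 86110276),Int.ofNat (nat_lit 163875483),Int.ofNat (nat_lit 269585877),Int.ofNat (nat_lit 394986379),Int.negSucc (nat_lit 1071146591),Int.negSucc (nat_lit 459887072),Int.negSucc (nat_lit 240737801),Int.ofNat (nat_lit 2015529633),Int.ofNat (nat_lit 13495815),Int.negSucc (nat_lit 207689759),Int.ofNat (nat_lit 500938454),Int.ofNat (nat_lit 420480519),Int.negSucc (nat_lit 948941555),Int.negSucc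 (nat_lit 772911115),Int.negSucc (nat_lit 2036821725),Int.ofNat (nat_lit 775483511),Int.negSucc (nat_lit 1537225991),Int.negSucc (nat_lit 228655155),Int.ofNat (nat_lit 188871241),Int.ofNat (nat_lit 327435850),Int.ofNat (nat_lit 1225947511),Int.negSucc (nat_lit 1608794581),Int.negSucc (nat_lit 5088138448),Int.ofNat (nat_lit 129292634),Int.negSucc (nat_lit 7974759),Int.ofNat (nat_lit 13585764),Int.negSucc (nat_lit 70129496),Int.ofNat (nat_lit 337167836),Int.negSucc (nat_lit 497686),Int.negSucc (nat_lit 89188185),Int.ofNat (nat_lit 363001208),Int.ofNat (nat_lit 324925091),Int.negSucc (nat_lit 397362897),Int.negSucc (nat_lit 109928350),Int.ofNat (nat_lit 120625398),Int.negSucc (nat_lit 348792979),Int.ofNat (nat_lit 851645898)])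

/-- A row. -/
noncomputable def sr0_c3_23 : List ℕ × List ℤ :=
  ([(nat_lit 3),(nat_lit 1),(nat_lit 0),(nat_lit 1),(nat_lit 0),(nat_lit 0),(nat_lit 0),(nat_lit 0),(nat_lit 0),(nat_lit 0),(nat_lit 0),(nat_lit 0)], [Int.ofNat (nat_lit 10108049218),Int.negSucc (nat_lit 6515914644),Int.ofNat (nat_lit 18176129212),Int.ofNat (nat_lit 11088214965),Int.negSucc (nat_lit 12069168098),Int.negSucc (nat_lit 5024541078),Int.negSucc (nat_lit 10919932186),Int.negSucc (nat_lit 5833638172),Int.ofNat (nat_lit 8265350942),Int.negSucc (nat_lit 4962489871),Int.ofNat (nat_lit 6500285598),Int.negSucc (nat_lit 9744134949),Int.negSucc (nat_lit 2250316952),Int.ofNat (nat_lit 1942535947),Int.ofNat (nat_lit 2758988877),Int.ofNat (nat_lit 7723757253),Int.ofNat (nat_lit 2533923732),Int.ofNat (nat_lit 7115180718),Int.negSucc (nat_lit 12361115642),Int.negSucc (nat_lit 2858225487),Int.ofNat (nat_lit 5342974363),Int.ofNat (nat_lit 2180173140),Int.negSucc (nat_lit 970755776),Int.negSucc (nat_lit 18022197756),Int.ofNat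 (nat_lit 6267722940),Int.ofNat (nat_lit 2672429285),Int.negSucc (nat_lit 1998649366),Int.negSucc (nat_lit 6936555349),Int.ofNat (nat_lit 22814589791),Int.ofNat (nat_lit 1580948081),Int.ofNat (nat_lit 2256152074),Int.ofNat (nat_lit 4434054019),Int.negSucc (nat_lit 301944834),Int.negSucc (nat_lit 1444267590),Int.negSucc (nat_lit 7332044266),Int.ofNat (nat_lit 2426076994),Int.negSucc (nat_lit 149166113),Int.negSucc (nat_lit 1176502413),Int.ofNat (nat_lit 552797214),Int.negSucc (nat_lit 1266243599),Int.ofNat (nat_lit 1426644430),Int.ofNat (nat_lit 396084277),Int.negSucc (nat_lit 1128152734),Int.negSucc (nat_lit 2625506799),Int.negSucc (nat_lit 3175936437),Int.negSucc (nat_lit 840017919),Int.ofNat (nat_lit 1036801856),Int.ofNat (nat_lit 9257236337),Int.negSucc (nat_lit 3919526771),Int.negSucc (nat_lit 1558235851),Int.negSucc (nat_lit 800361876),Int.ofNat (nat_lit 2439608407),Int.ofNat (nat_lit 6137295306),Int.negSucc (nat_lit 1632970400),Int.ofNat (nat_lit 679200953),Int.ofNat (nat_lit 6936510312),Int.ofNat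 (nat_lit 2787358031),Int.ofNat (nat_lit 652584965),Int.negSucc (nat_lit 1379842587),Int.ofNat (nat_lit 2369339373),Int.ofNat (nat_lit 2338025315),Int.ofNat (nat_lit 2286252247),Int.negSucc (nat_lit 7675208870),Int.ofNat (nat_lit 9553276136),Int.ofNat (nat_lit 1987493775),Int.ofNat (nat_lit 632196739),Int.negSucc (nat_lit 874918512),Int.ofNat (nat_lit 371002129),Int.negSucc (nat_lit 2091607302),Int.ofNat (nat_lit 172181896),Int.negSucc (nat_lit 2917575914),Int.negSucc (nat_lit 3038796299),Int.ofNat (nat_lit 2768433183),Int.ofNat (nat_lit 2631341900),Int.ofNat (nat_lit 2828316535),Int.ofNat (nat_lit 2726562704),Int.negSucc (nat_lit 7128404499),Int.negSucc (nat_lit 932514875),Int.negSucc (nat_lit 1764343572),Int.ofNat (nat_lit 529688721),Int.ofNat (nat_lit 4271016070),Int.ofNat (nat_lit 949472370),Int.negSucc (nat_lit 725717649),Int.ofNat (nat_lit 1284903191),Int.negSucc (nat_lit 7377050482),Int.negSucc (nat_lit 1318963537),Int.ofNat (nat_lit 49470326),Int.ofNat (nat_lit 787638070),Int.negSucc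 (nat_lit 2491632130),Int.negSucc (nat_lit 2111848154),Int.negSucc (nat_lit 302199014),Int.negSucc (nat_lit 1612624097),Int.ofNat (nat_lit 7671337858),Int.ofNat (nat_lit 5717216189),Int.ofNat (nat_lit 3079850604),Int.negSucc (nat_lit 19439259),Int.ofNat (nat_lit 380113279),Int.ofNat (nat_lit 4787233006),Int.negSucc (nat_lit 2517613512),Int.negSucc (nat_lit 20621633016),Int.ofNat (nat_lit 2571680584),Int.negSucc (nat_lit 510715877),Int.negSucc (nat_lit 244281974),Int.negSucc (nat_lit 744866672),Int.negSucc (nat_lit 1562440840),Int.ofNat (nat_lit 881635712),Int.negSucc (nat_lit 1558647066),Int.negSucc (nat_lit 1129627022),Int.ofNat (nat_lit 647193663),Int.negSucc (nat_lit 2034686705),Int.negSucc (nat_lit 1582893792),Int.negSucc (nat_lit 1061766900),Int.ofNat (nat_lit 144966288),Int.ofNat (nat_lit 3674309484)])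

/-- A row. -/
noncomputable def sr0_c3_24 : List ℕ × List ℤ :=
  ([(nat_lit 3),(nat_lit 2),(nat_lit 0),(nat_lit 0),(nat_lit 0),(nat_lit 0),(nat_lit 0),(nat_lit 0),(nat_lit 0),(nat_lit 0),(nat_lit 0),(nat_lit 0)], [Int.negSucc (nat_lit 1055571479),Int.ofNat (nat_lit 6584970549),Int.negSucc (nat_lit 21258695553),Int.ofNat (nat_lit 24312558549),Int.negSucc (nat_lit 27117936148),Int.ofNat (nat_lit 5418804834),Int.ofNat (nat_lit 19145868319),Int.negSucc (nat_lit 9737042474),Int.negSucc (nat_lit 38134270693),Int.ofNat (nat_lit 13671611228),Int.negSucc (nat_lit 12604916268),Int.ofNat (nat_lit 26661108184),Int.negSucc (nat_lit 16313535553),Int.negSucc (nat_lit 805716069),Int.negSucc (nat_lit 3829242769),Int.negSucc (nat_lit 15201777299),Int.negSucc (nat_lit 9778087183),Int.negSucc (nat_lit 22097856619),Int.ofNat (nat_lit 19904609283),Int.negSucc (nat_lit 2288059371),Int.negSucc (nat_lit 25805014693),Int.negSucc (nat_lit 13139128415),Int.ofNat (nat_lit 1022178918),Int.ofNat (nat_lit 21212810753),Int.negSucc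 (nat_lit 15959321713),Int.negSucc (nat_lit 17004937728),Int.ofNat (nat_lit 6408737272),Int.ofNat (nat_lit 26240041489),Int.negSucc (nat_lit 32416776037),Int.ofNat (nat_lit 6714318290),Int.negSucc (nat_lit 23551772237),Int.negSucc (nat_lit 7486571636),Int.ofNat (nat_lit 6029443504),Int.ofNat (nat_lit 10723501726),Int.ofNat (nat_lit 19317084861),Int.ofNat (nat_lit 1390477867),Int.ofNat (nat_lit 30035180207),Int.ofNat (nat_lit 7858881891),Int.negSucc (nat_lit 5951123952),Int.ofNat (nat_lit 18545523600),Int.ofNat (nat_lit 2576061973),Int.ofNat (nat_lit 3467891385),Int.ofNat (nat_lit 13286613896),Int.ofNat (nat_lit 20341057710),Int.negSucc (nat_lit 1042151497),Int.negSucc (nat_lit 4339058116),Int.negSucc (nat_lit 6580897794),Int.negSucc (nat_lit 7279611684),Int.ofNat (nat_lit 4672118293),Int.ofNat (nat_lit 17398851313),Int.negSucc (nat_lit 1344973306),Int.ofNat (nat_lit 10269784314),Int.negSucc (nat_lit 3653675120),Int.negSucc (nat_lit 4361993327),Int.negSucc (nat_lit 19750672680),Int.negSucc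 (nat_lit 12532913868),Int.negSucc (nat_lit 7867696597),Int.ofNat (nat_lit 7081130291),Int.ofNat (nat_lit 14144800734),Int.negSucc (nat_lit 13941296442),Int.negSucc (nat_lit 2277355427),Int.negSucc (nat_lit 203397638),Int.ofNat (nat_lit 10808632916),Int.negSucc (nat_lit 23042708389),Int.ofNat (nat_lit 5456364052),Int.negSucc (nat_lit 7326154382),Int.ofNat (nat_lit 542418291),Int.ofNat (nat_lit 6195288310),Int.negSucc (nat_lit 7439416027),Int.ofNat (nat_lit 5863501483),Int.ofNat (nat_lit 15935452057),Int.ofNat (nat_lit 3807397926),Int.negSucc (nat_lit 10456062151),Int.ofNat (nat_lit 21818917768),Int.ofNat (nat_lit 3315416404),Int.negSucc (nat_lit 15968568484),Int.ofNat (nat_lit 10313194286),Int.ofNat (nat_lit 21016441249),Int.negSucc (nat_lit 10843688526),Int.ofNat (nat_lit 13482367249),Int.ofNat (nat_lit 7494635515),Int.negSucc (nat_lit 11109912209),Int.negSucc (nat_lit 6799147879),Int.ofNat (nat_lit 3465014454),Int.ofNat (nat_lit 8114017651),Int.ofNat (nat_lit 6720712467),Int.ofNat (nat_lit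 9182224835),Int.negSucc (nat_lit 15295478142),Int.ofNat (nat_lit 19764550979),Int.negSucc (nat_lit 2975116226),Int.negSucc (nat_lit 8707458258),Int.ofNat (nat_lit 12279146620),Int.negSucc (nat_lit 6712247155),Int.negSucc (nat_lit 10283964377),Int.negSucc (nat_lit 14862244186),Int.ofNat (nat_lit 8524211676),Int.negSucc (nat_lit 9939007308),Int.negSucc (nat_lit 7915201988),Int.ofNat (nat_lit 8214574311),Int.ofNat (nat_lit 11628608862),Int.negSucc (nat_lit 6730973866),Int.negSucc (nat_lit 30175341684),Int.negSucc (nat_lit 4676805585),Int.ofNat (nat_lit 1152717952),Int.ofNat (nat_lit 987313670),Int.ofNat (nat_lit 2127168765),Int.negSucc (nat_lit 1894206039),Int.ofNat (nat_lit 2415281535),Int.negSucc (nat_lit 1868685177),Int.ofNat (nat_lit 3858316278),Int.ofNat (nat_lit 4663076676),Int.ofNat (nat_lit 2112764798),Int.negSucc (nat_lit 1479378355),Int.negSucc (nat_lit 1525492130),Int.ofNat (nat_lit 8521032472)])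

/-- A row. -/
noncomputable def sr0_c3_25 : List ℕ × List ℤ :=
  ([(nat_lit 3),(nat_lit 2),(nat_lit 1),(nat_lit 0),(nat_lit 0),(nat_lit 0),(nat_lit 0),(nat_lit 0),(nat_lit 0),(nat_lit 0),(nat_lit 0),(nat_lit 0)], [Int.ofNat (nat_lit 2827191723),Int.negSucc (nat_lit 5572358050),Int.ofNat (nat_lit 7340413916),Int.ofNat (nat_lit 22146471349),Int.negSucc (nat_lit 14551740838),Int.negSucc (nat_lit 5144247686),Int.negSucc (nat_lit 1773022130),Int.negSucc (nat_lit 4171957870),Int.negSucc (nat_lit 11209293072),Int.negSucc (nat_lit 3536489044),Int.negSucc (nat_lit 11811589143),Int.ofNat (nat_lit 1053999786),Int.negSucc (nat_lit 9796818206),Int.negSucc (nat_lit 11053296470),Int.negSucc (nat_lit 9523955103),Int.negSucc (nat_lit 11805665062),Int.negSucc (nat_lit 2661867126),Int.negSucc (nat_lit 6423508330),Int.ofNat (nat_lit 6622984424),Int.negSucc (nat_lit 3069273869),Int.negSucc (nat_lit 6701298359),Int.ofNat (nat_lit 6410740360),Int.ofNat (nat_lit 2662265286),Int.ofNat (nat_lit 1137233197),Int.negSucc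 (nat_lit 8170115946),Int.negSucc (nat_lit 4335852696),Int.ofNat (nat_lit 1307950496),Int.ofNat (nat_lit 4693489935),Int.negSucc (nat_lit 7138843177),Int.ofNat (nat_lit 558173052),Int.negSucc (nat_lit 5672318827),Int.negSucc (nat_lit 2493685530),Int.ofNat (nat_lit 173494125),Int.ofNat (nat_lit 4056025336),Int.ofNat (nat_lit 356613010),Int.ofNat (nat_lit 12653108426),Int.ofNat (nat_lit 11673478682),Int.ofNat (nat_lit 661339894),Int.negSucc (nat_lit 8272437592),Int.ofNat (nat_lit 17157318143),Int.negSucc (nat_lit 3424511794),Int.ofNat (nat_lit 2551469478),Int.ofNat (nat_lit 12914889396),Int.ofNat (nat_lit 17460490238),Int.ofNat (nat_lit 4299819526),Int.negSucc (nat_lit 3760557866),Int.negSucc (nat_lit 1660682839),Int.ofNat (nat_lit 3032411128),Int.negSucc (nat_lit 2190132426),Int.ofNat (nat_lit 10501380568),Int.ofNat (nat_lit 1763818982),Int.ofNat (nat_lit 11568691695),Int.ofNat (nat_lit 1278119198),Int.ofNat (nat_lit 1315684362),Int.negSucc (nat_lit 7655324520),Int.negSucc (nat_lit 1611432366),Int.ofNat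 (nat_lit 2770586051),Int.ofNat (nat_lit 5646921189),Int.ofNat (nat_lit 1988155218),Int.negSucc (nat_lit 10475244419),Int.ofNat (nat_lit 960155181),Int.ofNat (nat_lit 4546409577),Int.ofNat (nat_lit 682158441),Int.negSucc (nat_lit 1263936964),Int.negSucc (nat_lit 2558119356),Int.negSucc (nat_lit 2479697043),Int.negSucc (nat_lit 4827984226),Int.negSucc (nat_lit 6010099233),Int.ofNat (nat_lit 3621530116),Int.negSucc (nat_lit 5536984342),Int.negSucc (nat_lit 610039509),Int.negSucc (nat_lit 6119286213),Int.negSucc (nat_lit 983507533),Int.ofNat (nat_lit 7901185697),Int.ofNat (nat_lit 3459421539),Int.negSucc (nat_lit 5377379498),Int.ofNat (nat_lit 13405317986),Int.ofNat (nat_lit 5140618255),Int.negSucc (nat_lit 3481558531),Int.ofNat (nat_lit 7233444008),Int.ofNat (nat_lit 2913607299),Int.negSucc (nat_lit 258684516),Int.negSucc (nat_lit 16234004010),Int.ofNat (nat_lit 1222826846),Int.negSucc (nat_lit 2548527280),Int.ofNat (nat_lit 670952546),Int.ofNat (nat_lit 4062233923),Int.negSucc (nat_lit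 5460793758),Int.ofNat (nat_lit 6172287223),Int.negSucc (nat_lit 271614442),Int.negSucc (nat_lit 4095232977),Int.ofNat (nat_lit 2797607750),Int.ofNat (nat_lit 1643977777),Int.negSucc (nat_lit 3492805961),Int.negSucc (nat_lit 2282157361),Int.ofNat (nat_lit 8657895535),Int.negSucc (nat_lit 11900817510),Int.ofNat (nat_lit 784012105),Int.ofNat (nat_lit 4975232621),Int.negSucc (nat_lit 4485224379),Int.negSucc (nat_lit 5073703843),Int.negSucc (nat_lit 11906750657),Int.negSucc (nat_lit 2874400601),Int.negSucc (nat_lit 15654446572),Int.negSucc (nat_lit 19619071),Int.ofNat (nat_lit 330117169),Int.negSucc (nat_lit 459211661),Int.ofNat (nat_lit 171881340),Int.ofNat (nat_lit 1086353665),Int.ofNat (nat_lit 605233452),Int.ofNat (nat_lit 410925208),Int.ofNat (nat_lit 1844254834),Int.negSucc (nat_lit 905439833),Int.ofNat (nat_lit 1121277355),Int.ofNat (nat_lit 598966976),Int.ofNat (nat_lit 3600590908)])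

/-- A row. -/
noncomputable def sr0_c3_26 : List ℕ × List ℤ :=
  ([(nat_lit 3),(nat_lit 4),(nat_lit 0),(nat_lit 0),(nat_lit 0),(nat_lit 0),(nat_lit 0),(nat_lit 0),(nat_lit 0),(nat_lit 0),(nat_lit 0),(nat_lit 0)], [Int.ofNat (nat_lit 3153931746),Int.negSucc (nat_lit 7677828746),Int.ofNat (nat_lit 12637914594),Int.negSucc (nat_lit 22809066751),Int.ofNat (nat_lit 28192496835),Int.negSucc (nat_lit 13221271920),Int.negSucc (nat_lit 24486788212),Int.ofNat (nat_lit 8195952835),Int.ofNat (nat_lit 20532740532),Int.negSucc (nat_lit 18937016063),Int.negSucc (nat_lit 2251117850),Int.negSucc (nat_lit 14214149125),Int.ofNat (nat_lit 7684708571),Int.negSucc (nat_lit 14576151475),Int.negSucc (nat_lit 5033118047),Int.negSucc (nat_lit 3836572364),Int.ofNat (nat_lit 5767506464),Int.ofNat (nat_lit 3824342782),Int.negSucc (nat_lit 11275373694),Int.negSucc (nat_lit 1870924734),Int.ofNat (nat_lit 12711573829),Int.ofNat (nat_lit 17455900180),Int.ofNat (nat_lit 1683248238),Int.negSucc (nat_lit 11499279884),Int.ofNat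 (nat_lit 13883284294),Int.ofNat (nat_lit 12567445275),Int.negSucc (nat_lit 3132721401),Int.negSucc (nat_lit 12120208789),Int.ofNat (nat_lit 11885937063),Int.negSucc (nat_lit 14618878227),Int.ofNat (nat_lit 16690098342),Int.negSucc (nat_lit 732495842),Int.negSucc (nat_lit 6069739107),Int.negSucc (nat_lit 6666296876),Int.negSucc (nat_lit 17407597428),Int.ofNat (nat_lit 7009406969),Int.negSucc (nat_lit 25782565529),Int.negSucc (nat_lit 9677703106),Int.ofNat (nat_lit 6527127454),Int.negSucc (nat_lit 21581427113),Int.negSucc (nat_lit 11560855347),Int.negSucc (nat_lit 15215560908),Int.ofNat (nat_lit 4200768596),Int.negSucc (nat_lit 436416726),Int.negSucc (nat_lit 3988715551),Int.ofNat (nat_lit 7926338040),Int.ofNat (nat_lit 752144121),Int.ofNat (nat_lit 14517294667),Int.negSucc (nat_lit 2367388873),Int.ofNat (nat_lit 13497760879),Int.ofNat (nat_lit 12729897094),Int.negSucc (nat_lit 5733726311),Int.ofNat (nat_lit 5612461866),Int.ofNat (nat_lit 24543533442),Int.ofNat (nat_lit 10558294309),Int.ofNat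 (nat_lit 6936836152),Int.ofNat (nat_lit 12706704705),Int.negSucc (nat_lit 2220284187),Int.negSucc (nat_lit 17319739106),Int.ofNat (nat_lit 6652546418),Int.ofNat (nat_lit 2382773944),Int.ofNat (nat_lit 1595356833),Int.negSucc (nat_lit 6633837874),Int.ofNat (nat_lit 14141633690),Int.negSucc (nat_lit 6289946289),Int.ofNat (nat_lit 6640838370),Int.negSucc (nat_lit 2920189537),Int.negSucc (nat_lit 7089393042),Int.ofNat (nat_lit 10897069432),Int.negSucc (nat_lit 14156177980),Int.negSucc (nat_lit 18829869255),Int.negSucc (nat_lit 4130787718),Int.ofNat (nat_lit 4947641966),Int.negSucc (nat_lit 21974574770),Int.negSucc (nat_lit 2228189771),Int.ofNat (nat_lit 12897227143),Int.ofNat (nat_lit 9666425287),Int.negSucc (nat_lit 21869847972),Int.ofNat (nat_lit 11088140969),Int.negSucc (nat_lit 5728780902),Int.negSucc (nat_lit 6221810951),Int.ofNat (nat_lit 17240513788),Int.negSucc (nat_lit 9330487631),Int.negSucc (nat_lit 8209841183),Int.ofNat (nat_lit 12718337461),Int.negSucc (nat_lit 19791301661),Int.negSucc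 (nat_lit 11848705440),Int.ofNat (nat_lit 6059992067),Int.negSucc (nat_lit 7238578501),Int.ofNat (nat_lit 3144339198),Int.ofNat (nat_lit 3842153900),Int.negSucc (nat_lit 6348345089),Int.ofNat (nat_lit 6862696272),Int.ofNat (nat_lit 13480481365),Int.ofNat (nat_lit 6745892145),Int.negSucc (nat_lit 455990640),Int.negSucc (nat_lit 334744991),Int.ofNat (nat_lit 4869526985),Int.negSucc (nat_lit 2748100714),Int.negSucc (nat_lit 5315461629),Int.negSucc (nat_lit 1173176727),Int.ofNat (nat_lit 24472662497),Int.ofNat (nat_lit 3676723161),Int.negSucc (nat_lit 21112991099),Int.negSucc (nat_lit 7796497117),Int.negSucc (nat_lit 25220291136),Int.negSucc (nat_lit 897097275),Int.negSucc (nat_lit 1030889532),Int.ofNat (nat_lit 451022117),Int.negSucc (nat_lit 5715457917),Int.ofNat (nat_lit 567004613),Int.ofNat (nat_lit 868767841),Int.negSucc (nat_lit 541950392),Int.negSucc (nat_lit 442892424),Int.negSucc (nat_lit 2053110210),Int.ofNat (nat_lit 3194090281),Int.ofNat (nat_lit 9697133874)])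

/-- A row. -/
noncomputable def sr0_c3_27 : List ℕ × List ℤ :=
  ([(nat_lit 4),(nat_lit 0),(nat_lit 0),(nat_lit 0),(nat_lit 0),(nat_lit 0),(nat_lit 0),(nat_lit 0),(nat_lit 0),(nat_lit 0),(nat_lit 0),(nat_lit 0)], [Int.negSucc (nat_lit 10873073726),Int.ofNat (nat_lit 997164467),Int.ofNat (nat_lit 1380245059),Int.ofNat (nat_lit 20338305250),Int.negSucc (nat_lit 17552234203),Int.ofNat (nat_lit 13639481540),Int.negSucc (nat_lit 15618871848),Int.negSucc (nat_lit 7703667584),Int.negSucc (nat_lit 3854454766),Int.negSucc (nat_lit 12638618212),Int.ofNat (nat_lit 9332139000),Int.ofNat (nat_lit 72237808),Int.negSucc (nat_lit 1235115819),Int.ofNat (nat_lit 8079325284),Int.ofNat (nat_lit 11023471980),Int.ofNat (nat_lit 803115547),Int.ofNat (nat_lit 7808215215),Int.ofNat (nat_lit 2314656777),Int.negSucc (nat_lit 4060035784),Int.ofNat (nat_lit 9114981677),Int.ofNat (nat_lit 6024567138),Int.negSucc (nat_lit 3120157554),Int.negSucc (nat_lit 710391732),Int.ofNat (nat_lit 5070790818),Int.ofNat (nat_lit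 6210941821),Int.negSucc (nat_lit 4206907977),Int.ofNat (nat_lit 2198003382),Int.negSucc (nat_lit 4674038845),Int.ofNat (nat_lit 7745880856),Int.ofNat (nat_lit 10462488728),Int.negSucc (nat_lit 80402252),Int.ofNat (nat_lit 563001426),Int.negSucc (nat_lit 6490396160),Int.negSucc (nat_lit 4228651850),Int.negSucc (nat_lit 127713229),Int.negSucc (nat_lit 1415337329),Int.negSucc (nat_lit 5359903906),Int.negSucc (nat_lit 3341777936),Int.ofNat (nat_lit 684469423),Int.ofNat (nat_lit 260194238),Int.ofNat (nat_lit 1790105487),Int.negSucc (nat_lit 3188384100),Int.ofNat (nat_lit 2849658949),Int.ofNat (nat_lit 2234133021),Int.ofNat (nat_lit 74467567),Int.ofNat (nat_lit 183185798),Int.ofNat (nat_lit 654687110),Int.ofNat (nat_lit 503571626),Int.ofNat (nat_lit 631518201),Int.negSucc (nat_lit 1131776036),Int.ofNat (nat_lit 177775152),Int.ofNat (nat_lit 3437603976),Int.negSucc (nat_lit 240077425),Int.negSucc (nat_lit 1773403077),Int.ofNat (nat_lit 18621290363),Int.ofNat (nat_lit 2632985478),Int.ofNat (nat_lit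 4513025716),Int.negSucc (nat_lit 2111047649),Int.ofNat (nat_lit 5461135789),Int.ofNat (nat_lit 7870321372),Int.ofNat (nat_lit 3282279078),Int.negSucc (nat_lit 261332520),Int.negSucc (nat_lit 2699395414),Int.ofNat (nat_lit 7924957373),Int.ofNat (nat_lit 2041350418),Int.ofNat (nat_lit 702323728),Int.negSucc (nat_lit 2782723854),Int.ofNat (nat_lit 2643224161),Int.ofNat (nat_lit 2146403569),Int.ofNat (nat_lit 1368238409),Int.ofNat (nat_lit 351793393),Int.negSucc (nat_lit 108741218),Int.negSucc (nat_lit 437240111),Int.ofNat (nat_lit 526762918),Int.ofNat (nat_lit 922114434),Int.ofNat (nat_lit 232829055),Int.ofNat (nat_lit 553174773),Int.ofNat (nat_lit 4150800239),Int.negSucc (nat_lit 838805928),Int.ofNat (nat_lit 2678302421),Int.ofNat (nat_lit 872057250),Int.ofNat (nat_lit 3863505301),Int.negSucc (nat_lit 1271094916),Int.negSucc (nat_lit 516803728),Int.negSucc (nat_lit 272268540),Int.ofNat (nat_lit 1144383109),Int.ofNat (nat_lit 1046950872),Int.negSucc (nat_lit 1285029290),Int.ofNat (nat_lit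 9297445526),Int.negSucc (nat_lit 1546112196),Int.negSucc (nat_lit 3351541603),Int.ofNat (nat_lit 2675966390),Int.ofNat (nat_lit 4307211754),Int.ofNat (nat_lit 2842507257),Int.negSucc (nat_lit 7904063318),Int.ofNat (nat_lit 3707261283),Int.negSucc (nat_lit 154812382),Int.ofNat (nat_lit 24926900),Int.ofNat (nat_lit 3193190103),Int.negSucc (nat_lit 1385701726),Int.negSucc (nat_lit 2341358291),Int.ofNat (nat_lit 5506134623),Int.negSucc (nat_lit 491156002),Int.ofNat (nat_lit 1592521982),Int.ofNat (nat_lit 2126265323),Int.ofNat (nat_lit 1495441207),Int.negSucc (nat_lit 10948478712),Int.ofNat (nat_lit 928585211),Int.negSucc (nat_lit 695237086),Int.negSucc (nat_lit 813445395),Int.negSucc (nat_lit 425777775),Int.ofNat (nat_lit 205119959),Int.negSucc (nat_lit 394596630),Int.ofNat (nat_lit 236332465),Int.negSucc (nat_lit 250119662),Int.negSucc (nat_lit 852203577),Int.ofNat (nat_lit 12142477),Int.ofNat (nat_lit 1122584437)])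

/-- A row. -/
noncomputable def sr0_c3_28 : List ℕ × List ℤ :=
  ([(nat_lit 4),(nat_lit 0),(nat_lit 0),(nat_lit 0),(nat_lit 1),(nat_lit 0),(nat_lit 0),(nat_lit 0),(nat_lit 0),(nat_lit 0),(nat_lit 0),(nat_lit 0)], [Int.ofNat (nat_lit 4715750150),Int.negSucc (nat_lit 3404920607),Int.negSucc (nat_lit 867295182),Int.negSucc (nat_lit 5812028359),Int.ofNat (nat_lit 2693525233),Int.negSucc (nat_lit 199046515),Int.negSucc (nat_lit 1612309544),Int.ofNat (nat_lit 2672089965),Int.negSucc (nat_lit 3425892521),Int.ofNat (nat_lit 1437526743),Int.negSucc (nat_lit 2492643476),Int.ofNat (nat_lit 1871035081),Int.ofNat (nat_lit 1429199046),Int.negSucc (nat_lit 2344427489),Int.negSucc (nat_lit 966689989),Int.negSucc (nat_lit 1168026452),Int.negSucc (nat_lit 534382061),Int.negSucc (nat_lit 1335108467),Int.ofNat (nat_lit 1821780984),Int.negSucc (nat_lit 1937216642),Int.negSucc (nat_lit 803244205),Int.negSucc (nat_lit 1027499071),Int.ofNat (nat_lit 18509006),Int.negSucc (nat_lit 1172731226),Int.negSucc (nat_lit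 1186767883),Int.ofNat (nat_lit 1502086802),Int.negSucc (nat_lit 608388755),Int.ofNat (nat_lit 2808516805),Int.negSucc (nat_lit 1552995563),Int.negSucc (nat_lit 1859512071),Int.ofNat (nat_lit 818522150),Int.negSucc (nat_lit 481651730),Int.ofNat (nat_lit 1032608689),Int.ofNat (nat_lit 507061542),Int.ofNat (nat_lit 370532095),Int.ofNat (nat_lit 365495780),Int.ofNat (nat_lit 326729108),Int.ofNat (nat_lit 1341943711),Int.negSucc (nat_lit 47283958),Int.negSucc (nat_lit 2578711817),Int.negSucc (nat_lit 858306431),Int.negSucc (nat_lit 70160057),Int.negSucc (nat_lit 230435504),Int.ofNat (nat_lit 1045404797),Int.ofNat (nat_lit 540397692),Int.negSucc (nat_lit 241180666),Int.negSucc (nat_lit 547146401),Int.negSucc (nat_lit 509011864),Int.ofNat (nat_lit 126392962),Int.ofNat (nat_lit 23041119),Int.negSucc (nat_lit 585376254),Int.negSucc (nat_lit 543905610),Int.ofNat (nat_lit 107443249),Int.ofNat (nat_lit 171575767),Int.negSucc (nat_lit 3531273133),Int.ofNat (nat_lit 184948395),Int.ofNat (nat_lit 781074068),Int.negSucc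 (nat_lit 1413238104),Int.negSucc (nat_lit 874220329),Int.ofNat (nat_lit 1239460563),Int.ofNat (nat_lit 311304256),Int.negSucc (nat_lit 601215325),Int.ofNat (nat_lit 832570130),Int.negSucc (nat_lit 2167592224),Int.negSucc (nat_lit 2007660015),Int.negSucc (nat_lit 1523575445),Int.ofNat (nat_lit 3500716264),Int.negSucc (nat_lit 1119948233),Int.negSucc (nat_lit 223718598),Int.negSucc (nat_lit 675555422),Int.negSucc (nat_lit 811127917),Int.negSucc (nat_lit 154087343),Int.negSucc (nat_lit 657091379),Int.negSucc (nat_lit 394835151),Int.negSucc (nat_lit 74950751),Int.negSucc (nat_lit 687714583),Int.ofNat (nat_lit 303419279),Int.ofNat (nat_lit 343786260),Int.ofNat (nat_lit 120410760),Int.negSucc (nat_lit 1207010418),Int.ofNat (nat_lit 245312123),Int.negSucc (nat_lit 246972487),Int.negSucc (nat_lit 30920530),Int.negSucc (nat_lit 293681405),Int.ofNat (nat_lit 385342862),Int.negSucc (nat_lit 278737056),Int.ofNat (nat_lit 182165929),Int.ofNat (nat_lit 93782633),Int.negSucc (nat_lit 2010853805),Int.negSucc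 (nat_lit 802773977),Int.ofNat (nat_lit 938978666),Int.ofNat (nat_lit 3817839960),Int.negSucc (nat_lit 677228524),Int.negSucc (nat_lit 644391451),Int.ofNat (nat_lit 944442123),Int.negSucc (nat_lit 1256371875),Int.negSucc (nat_lit 120510233),Int.negSucc (nat_lit 417355252),Int.negSucc (nat_lit 346938471),Int.ofNat (nat_lit 275988568),Int.negSucc (nat_lit 221191868),Int.negSucc (nat_lit 61883716),Int.ofNat (nat_lit 876074328),Int.ofNat (nat_lit 2664076),Int.negSucc (nat_lit 434612574),Int.ofNat (nat_lit 100712984),Int.ofNat (nat_lit 643039532),Int.ofNat (nat_lit 222598018),Int.negSucc (nat_lit 1284255962),Int.ofNat (nat_lit 123152132),Int.negSucc (nat_lit 34733107),Int.ofNat (nat_lit 65110515),Int.negSucc (nat_lit 16940326),Int.negSucc (nat_lit 30596225),Int.ofNat (nat_lit 15522849),Int.ofNat (nat_lit 58241380),Int.ofNat (nat_lit 52609522),Int.negSucc (nat_lit 53136110),Int.ofNat (nat_lit 231835501)])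

/-- A row. -/
noncomputable def sr0_c3_29 : List ℕ × List ℤ :=
  ([(nat_lit 4),(nat_lit 0),(nat_lit 1),(nat_lit 0),(nat_lit 0),(nat_lit 0),(nat_lit 0),(nat_lit 0),(nat_lit 0),(nat_lit 0),(nat_lit 0),(nat_lit 0)], [Int.negSucc (nat_lit 3850427179),Int.ofNat (nat_lit 2727714927),Int.ofNat (nat_lit 1746656915),Int.ofNat (nat_lit 4088120962),Int.negSucc (nat_lit 7243004469),Int.ofNat (nat_lit 11096077446),Int.negSucc (nat_lit 14179634424),Int.negSucc (nat_lit 1431903904),Int.negSucc (nat_lit 618753319),Int.ofNat (nat_lit 72092961),Int.ofNat (nat_lit 5516614916),Int.ofNat (nat_lit 4515921404),Int.negSucc (nat_lit 501144085),Int.ofNat (nat_lit 8673504535),Int.ofNat (nat_lit 8208853736),Int.ofNat (nat_lit 4792711706),Int.ofNat (nat_lit 7912427357),Int.ofNat (nat_lit 2457685819),Int.negSucc (nat_lit 5312319733),Int.ofNat (nat_lit 3853627385),Int.ofNat (nat_lit 8433310265),Int.negSucc (nat_lit 8443182916),Int.negSucc (nat_lit 2059578407),Int.ofNat (nat_lit 6321929778),Int.ofNat (nat_lit 4207534397),Int.negSucc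 (nat_lit 1400036195),Int.ofNat (nat_lit 734868034),Int.negSucc (nat_lit 3569221937),Int.ofNat (nat_lit 6125037891),Int.ofNat (nat_lit 4919950394),Int.ofNat (nat_lit 532142718),Int.ofNat (nat_lit 902194691),Int.negSucc (nat_lit 2501129011),Int.negSucc (nat_lit 4069012805),Int.negSucc (nat_lit 959335020),Int.ofNat (nat_lit 461367171),Int.negSucc (nat_lit 886625856),Int.ofNat (nat_lit 189722898),Int.ofNat (nat_lit 881333648),Int.negSucc (nat_lit 619352338),Int.ofNat (nat_lit 553263048),Int.negSucc (nat_lit 2425179481),Int.ofNat (nat_lit 350725353),Int.ofNat (nat_lit 577626148),Int.ofNat (nat_lit 403279578),Int.ofNat (nat_lit 41940894),Int.ofNat (nat_lit 671712714),Int.ofNat (nat_lit 353164542),Int.ofNat (nat_lit 998321040),Int.ofNat (nat_lit 881780268),Int.ofNat (nat_lit 326311727),Int.ofNat (nat_lit 2479304451),Int.negSucc (nat_lit 141172451),Int.negSucc (nat_lit 379621768),Int.ofNat (nat_lit 12303211785),Int.ofNat (nat_lit 1168408947),Int.ofNat (nat_lit 3858707232),Int.negSucc (nat_lit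 4285535693),Int.ofNat (nat_lit 998509045),Int.ofNat (nat_lit 7120140997),Int.ofNat (nat_lit 2742555699),Int.ofNat (nat_lit 811999408),Int.negSucc (nat_lit 132357050),Int.ofNat (nat_lit 6193303260),Int.ofNat (nat_lit 9816538942),Int.negSucc (nat_lit 2570974576),Int.negSucc (nat_lit 270096599),Int.ofNat (nat_lit 2345202834),Int.ofNat (nat_lit 532134468),Int.ofNat (nat_lit 254729931),Int.negSucc (nat_lit 456839327),Int.negSucc (nat_lit 356850695),Int.negSucc (nat_lit 164413563),Int.negSucc (nat_lit 133076104),Int.ofNat (nat_lit 378211588),Int.ofNat (nat_lit 22348481),Int.ofNat (nat_lit 850307258),Int.ofNat (nat_lit 3212751023),Int.negSucc (nat_lit 913855141),Int.ofNat (nat_lit 1864951829),Int.ofNat (nat_lit 839025910),Int.ofNat (nat_lit 2962186816),Int.negSucc (nat_lit 224265279),Int.ofNat (nat_lit 564662416),Int.negSucc (nat_lit 815633004),Int.ofNat (nat_lit 648165418),Int.ofNat (nat_lit 1212974659),Int.negSucc (nat_lit 470784712),Int.ofNat (nat_lit 571105282),Int.negSucc (nat_lit 1837167509),Int.negSucc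 (nat_lit 2480998033),Int.ofNat (nat_lit 1951765505),Int.ofNat (nat_lit 2490642831),Int.ofNat (nat_lit 457025815),Int.negSucc (nat_lit 279177985),Int.ofNat (nat_lit 4385785637),Int.negSucc (nat_lit 4789928997),Int.ofNat (nat_lit 255833755),Int.ofNat (nat_lit 175169196),Int.negSucc (nat_lit 861000130),Int.negSucc (nat_lit 1512353322),Int.ofNat (nat_lit 1236946995),Int.negSucc (nat_lit 148932068),Int.ofNat (nat_lit 2766128337),Int.ofNat (nat_lit 798997962),Int.negSucc (nat_lit 985697933),Int.negSucc (nat_lit 5802368626),Int.ofNat (nat_lit 1189024777),Int.negSucc (nat_lit 973058981),Int.negSucc (nat_lit 886894795),Int.negSucc (nat_lit 4993783083),Int.ofNat (nat_lit 365168840),Int.negSucc (nat_lit 17540004),Int.negSucc (nat_lit 36802485),Int.negSucc (nat_lit 106651363),Int.negSucc (nat_lit 695163306),Int.negSucc (nat_lit 167378642),Int.ofNat (nat_lit 242544070),Int.negSucc (nat_lit 316034243),Int.ofNat (nat_lit 715665298)])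

/-- A part of a triangular factor. -/
noncomputable def sr0_c3 : Rows :=
  [sr0_c3_0,
   sr0_c3_1,
   sr0_c3_2,
   sr0_c3_3,
   sr0_c3_4,
   sr0_c3_5,
   sr0_c3_6,
   sr0_c3_7,
   sr0_c3_8,
   sr0_c3_9,
   sr0_c3_10,
   sr0_c3_11,
   sr0_c3_12,
   sr0_c3_13,
   sr0_c3_14,
   sr0_c3_15,
   sr0_c3_16,
   sr0_c3_17,
   sr0_c3_18,
   sr0_c3_19,
   sr0_c3_20,
   sr0_c3_21,
   sr0_c3_22,
   sr0_c3_23,
   sr0_c3_24,
   sr0_c3_25,
   sr0_c3_26,
   sr0_c3_27,
   sr0_c3_28,
   sr0_c3_29]

/-- A row. -/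
noncomputable def sr0_c4_0 : List ℕ × List ℤ :=
  ([(nat_lit 4),(nat_lit 1),(nat_lit 0),(nat_lit 1),(nat_lit 0),(nat_lit 0),(nat_lit 0),(nat_lit 0),(nat_lit 0),(nat_lit 0),(nat_lit 0),(nat_lit 0)], [Int.ofNat (nat_lit 5814085114),Int.ofNat (nat_lit 2938826510),Int.negSucc (nat_lit 15217112554),Int.ofNat (nat_lit 240504548),Int.negSucc (nat_lit 9576917437),Int.ofNat (nat_lit 12123569426),Int.ofNat (nat_lit 13231119921),Int.ofNat (nat_lit 192643758),Int.negSucc (nat_lit 5621730969),Int.negSucc (nat_lit 10596332518),Int.negSucc (nat_lit 2190879957),Int.ofNat (nat_lit 11632825717),Int.negSucc (nat_lit 9577866343),Int.negSucc (nat_lit 3380688450),Int.negSucc (nat_lit 3617692977),Int.negSucc (nat_lit 8820647970),Int.negSucc (nat_lit 3670146731),Int.negSucc (nat_lit 2906735727),Int.ofNat (nat_lit 8255496968),Int.negSucc (nat_lit 3016811616),Int.negSucc (nat_lit 6495922199),Int.ofNat (nat_lit 4353285144),Int.negSucc (nat_lit 204520313),Int.ofNat (nat_lit 14042154015),Int.negSucc (nat_lit 6890230667),Int.negSucc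 (nat_lit 1780196398),Int.negSucc (nat_lit 3929688342),Int.ofNat (nat_lit 7620806132),Int.negSucc (nat_lit 20834917238),Int.ofNat (nat_lit 1963051133),Int.negSucc (nat_lit 9553749883),Int.negSucc (nat_lit 5304261226),Int.negSucc (nat_lit 549149928),Int.ofNat (nat_lit 341418149),Int.ofNat (nat_lit 6962674308),Int.ofNat (nat_lit 4374880514),Int.ofNat (nat_lit 124985454),Int.ofNat (nat_lit 104215288),Int.ofNat (nat_lit 806350986),Int.negSucc (nat_lit 983663100),Int.ofNat (nat_lit 1643444159),Int.negSucc (nat_lit 588049786),Int.ofNat (nat_lit 855265827),Int.ofNat (nat_lit 3673456074),Int.ofNat (nat_lit 3599675090),Int.ofNat (nat_lit 1181348011),Int.negSucc (nat_lit 1652025135),Int.negSucc (nat_lit 7298040044),Int.ofNat (nat_lit 1888962164),Int.ofNat (nat_lit 1411509439),Int.ofNat (nat_lit 294611915),Int.negSucc (nat_lit 2681531011),Int.negSucc (nat_lit 965566649),Int.ofNat (nat_lit 1972865915),Int.ofNat (nat_lit 900002332),Int.negSucc (nat_lit 7265360465),Int.negSucc (nat_lit 3328938025),Int.negSucc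 (nat_lit 370740225),Int.ofNat (nat_lit 4628198147),Int.negSucc (nat_lit 356564759),Int.negSucc (nat_lit 1538538003),Int.ofNat (nat_lit 3190154774),Int.ofNat (nat_lit 1670532565),Int.negSucc (nat_lit 16139905997),Int.negSucc (nat_lit 4570145989),Int.negSucc (nat_lit 1349771519),Int.ofNat (nat_lit 4104768781),Int.ofNat (nat_lit 3088055765),Int.negSucc (nat_lit 1980848775),Int.negSucc (nat_lit 4453484520),Int.ofNat (nat_lit 5427878285),Int.negSucc (nat_lit 2691441232),Int.negSucc (nat_lit 3327917454),Int.ofNat (nat_lit 9281011362),Int.negSucc (nat_lit 200458029),Int.ofNat (nat_lit 463240247),Int.ofNat (nat_lit 7332750789),Int.ofNat (nat_lit 1658468146),Int.ofNat (nat_lit 1682675602),Int.negSucc (nat_lit 1386674882),Int.negSucc (nat_lit 2165295802),Int.ofNat (nat_lit 762089259),Int.ofNat (nat_lit 233885536),Int.negSucc (nat_lit 2227965671),Int.ofNat (nat_lit 6272499913),Int.negSucc (nat_lit 371161836),Int.negSucc (nat_lit 452702735),Int.negSucc (nat_lit 1655110342),Int.negSucc (nat_lit 105000122),Int.ofNat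 (nat_lit 1281679443),Int.ofNat (nat_lit 1165765189),Int.ofNat (nat_lit 1518206383),Int.negSucc (nat_lit 5738253269),Int.ofNat (nat_lit 3201732680),Int.negSucc (nat_lit 1336325749),Int.negSucc (nat_lit 2097157998),Int.negSucc (nat_lit 1252763013),Int.negSucc (nat_lit 2744869231),Int.ofNat (nat_lit 3199080784),Int.ofNat (nat_lit 13505385322),Int.negSucc (nat_lit 4344605035),Int.ofNat (nat_lit 1074265125),Int.ofNat (nat_lit 684223651),Int.ofNat (nat_lit 251864488),Int.ofNat (nat_lit 705921135),Int.negSucc (nat_lit 864754974),Int.ofNat (nat_lit 1868832700),Int.ofNat (nat_lit 999681028),Int.negSucc (nat_lit 1763087400),Int.negSucc (nat_lit 365943249),Int.ofNat (nat_lit 2304340169),Int.ofNat (nat_lit 2259541094),Int.negSucc (nat_lit 1193198578),Int.negSucc (nat_lit 4883222523),Int.negSucc (nat_lit 250922899),Int.negSucc (nat_lit 105733920),Int.ofNat (nat_lit 293368479),Int.negSucc (nat_lit 145783177),Int.ofNat (nat_lit 626566763),Int.negSucc (nat_lit 246423031),Int.ofNat (nat_lit 868539228)])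

/-- A row. -/
noncomputable def sr0_c4_1 : List ℕ × List ℤ :=
  ([(nat_lit 4),(nat_lit 2),(nat_lit 0),(nat_lit 0),(nat_lit 0),(nat_lit 0),(nat_lit 0),(nat_lit 0),(nat_lit 0),(nat_lit 0),(nat_lit 0),(nat_lit 0)], [Int.ofNat (nat_lit 2570250953),Int.negSucc (nat_lit 1528795356),Int.negSucc (nat_lit 19642202644),Int.negSucc (nat_lit 12543324501),Int.ofNat (nat_lit 18428877789),Int.negSucc (nat_lit 10082514000),Int.ofNat (nat_lit 4035962499),Int.ofNat (nat_lit 8586425159),Int.ofNat (nat_lit 2099969534),Int.ofNat (nat_lit 21457718101),Int.ofNat (nat_lit 7723022628),Int.negSucc (nat_lit 668048276),Int.ofNat (nat_lit 6732430380),Int.ofNat (nat_lit 9709125436),Int.negSucc (nat_lit 5077292771),Int.ofNat (nat_lit 9425402649),Int.ofNat (nat_lit 151554895),Int.negSucc (nat_lit 7125589087),Int.negSucc (nat_lit 1700581640),Int.negSucc (nat_lit 8391893803),Int.ofNat (nat_lit 463182590),Int.negSucc (nat_lit 11620897727),Int.negSucc (nat_lit 7120473444),Int.ofNat (nat_lit 1056817955),Int.negSucc (nat_lit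 556262570),Int.negSucc (nat_lit 4055015779),Int.ofNat (nat_lit 7522792583),Int.ofNat (nat_lit 11119346896),Int.negSucc (nat_lit 2662787122),Int.negSucc (nat_lit 7424308460),Int.negSucc (nat_lit 6153847591),Int.ofNat (nat_lit 2104416552),Int.ofNat (nat_lit 6508982575),Int.ofNat (nat_lit 8972411768),Int.ofNat (nat_lit 5372915321),Int.negSucc (nat_lit 8147321958),Int.negSucc (nat_lit 496857253),Int.ofNat (nat_lit 8504414640),Int.ofNat (nat_lit 3173742929),Int.negSucc (nat_lit 5342709813),Int.negSucc (nat_lit 2217832989),Int.ofNat (nat_lit 3379893561),Int.ofNat (nat_lit 9321098940),Int.negSucc (nat_lit 7197799309),Int.negSucc (nat_lit 8591743529),Int.negSucc (nat_lit 5171801017),Int.negSucc (nat_lit 1827781374),Int.negSucc (nat_lit 6773812623),Int.ofNat (nat_lit 6682816322),Int.negSucc (nat_lit 7574248292),Int.negSucc (nat_lit 2783346787),Int.ofNat (nat_lit 10072705066),Int.negSucc (nat_lit 3755240848),Int.ofNat (nat_lit 6706938655),Int.negSucc (nat_lit 22021217363),Int.negSucc (nat_lit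 1992968069),Int.negSucc (nat_lit 8251886986),Int.ofNat (nat_lit 11401067444),Int.ofNat (nat_lit 261036998),Int.negSucc (nat_lit 4425214899),Int.negSucc (nat_lit 1438116287),Int.negSucc (nat_lit 7826910622),Int.ofNat (nat_lit 4530480541),Int.negSucc (nat_lit 194458161),Int.ofNat (nat_lit 20335188934),Int.negSucc (nat_lit 2380616882),Int.ofNat (nat_lit 3581855144),Int.ofNat (nat_lit 1659682973),Int.negSucc (nat_lit 11890567966),Int.ofNat (nat_lit 11134586136),Int.ofNat (nat_lit 2713709183),Int.ofNat (nat_lit 6716540733),Int.negSucc (nat_lit 977998725),Int.negSucc (nat_lit 5204706840),Int.negSucc (nat_lit 4055307846),Int.negSucc (nat_lit 9115077642),Int.negSucc (nat_lit 1473235670),Int.ofNat (nat_lit 28085187483),Int.negSucc (nat_lit 5243537807),Int.ofNat (nat_lit 1712430811),Int.ofNat (nat_lit 4788207463),Int.negSucc (nat_lit 14927762012),Int.ofNat (nat_lit 7816348746),Int.ofNat (nat_lit 5281254614),Int.ofNat (nat_lit 6716993924),Int.ofNat (nat_lit 16805792603),Int.negSucc (nat_lit 6614912236),Int.ofNat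 (nat_lit 12573816574),Int.negSucc (nat_lit 8402580903),Int.ofNat (nat_lit 1118079723),Int.negSucc (nat_lit 833746736),Int.negSucc (nat_lit 2179919508),Int.negSucc (nat_lit 3989968306),Int.negSucc (nat_lit 8917689071),Int.ofNat (nat_lit 8863983703),Int.ofNat (nat_lit 1419942593),Int.negSucc (nat_lit 3032789383),Int.negSucc (nat_lit 2709890024),Int.negSucc (nat_lit 7783958189),Int.ofNat (nat_lit 5535913470),Int.ofNat (nat_lit 2595050953),Int.negSucc (nat_lit 7871063086),Int.ofNat (nat_lit 6003925800),Int.negSucc (nat_lit 4001352969),Int.negSucc (nat_lit 2381645202),Int.negSucc (nat_lit 14839848994),Int.ofNat (nat_lit 10864862011),Int.negSucc (nat_lit 1612024930),Int.ofNat (nat_lit 4617149076),Int.ofNat (nat_lit 909638307),Int.negSucc (nat_lit 10834370511),Int.negSucc (nat_lit 3105102271),Int.ofNat (nat_lit 6039726265),Int.negSucc (nat_lit 5650244224),Int.negSucc (nat_lit 18483034005),Int.ofNat (nat_lit 3032844232),Int.negSucc (nat_lit 5016804433),Int.negSucc (nat_lit 1233946571),Int.negSucc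 (nat_lit 3747825918),Int.ofNat (nat_lit 4173675096),Int.ofNat (nat_lit 1352637468),Int.ofNat (nat_lit 4593769704)])

/-- A row. -/
noncomputable def sr0_c4_2 : List ℕ × List ℤ :=
  ([(nat_lit 5),(nat_lit 0),(nat_lit 0),(nat_lit 0),(nat_lit 0),(nat_lit 0),(nat_lit 0),(nat_lit 0),(nat_lit 0),(nat_lit 0),(nat_lit 0),(nat_lit 0)], [Int.ofNat (nat_lit 2769539858),Int.ofNat (nat_lit 3743525119),Int.negSucc (nat_lit 2109543041),Int.ofNat (nat_lit 6234950324),Int.negSucc (nat_lit 6256941271),Int.negSucc (nat_lit 15583814330),Int.ofNat (nat_lit 15329706981),Int.negSucc (nat_lit 2260046732),Int.negSucc (nat_lit 5189995263),Int.negSucc (nat_lit 2066458054),Int.negSucc (nat_lit 9544167955),Int.negSucc (nat_lit 5301572198),Int.negSucc (nat_lit 5251680234),Int.negSucc (nat_lit 9574068968),Int.negSucc (nat_lit 19695413760),Int.negSucc (nat_lit 5648433924),Int.negSucc (nat_lit 11653796336),Int.negSucc (nat_lit 3594258923),Int.ofNat (nat_lit 4947867462),Int.negSucc (nat_lit 4201202235),Int.negSucc (nat_lit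 12897034926),Int.ofNat (nat_lit 8962394398),Int.ofNat (nat_lit 2872038267),Int.negSucc (nat_lit 3378493882),Int.negSucc (nat_lit 4499811218),Int.negSucc (nat_lit 1490900096),Int.ofNat (nat_lit 779535264),Int.ofNat (nat_lit 3405590467),Int.negSucc (nat_lit 7868112304),Int.negSucc (nat_lit 1574619896),Int.negSucc (nat_lit 2697712911),Int.negSucc (nat_lit 708100489),Int.ofNat (nat_lit 1748348981),Int.ofNat (nat_lit 6280170717),Int.negSucc (nat_lit 144990295),Int.negSucc (nat_lit 1387107426),Int.negSucc (nat_lit 290423960),Int.negSucc (nat_lit 1388132866),Int.negSucc (nat_lit 470914711),Int.ofNat (nat_lit 2199095802),Int.ofNat (nat_lit 656786124),Int.ofNat (nat_lit 2629281015),Int.negSucc (nat_lit 1153238894),Int.negSucc (nat_lit 391108878),Int.negSucc (nat_lit 1257963245),Int.negSucc (nat_lit 96360516),Int.negSucc (nat_lit 480246593),Int.negSucc (nat_lit 903821389),Int.negSucc (nat_lit 1586870819),Int.negSucc (nat_lit 447822322),Int.negSucc (nat_lit 781457883),Int.negSucc (nat_lit 1893900882),Int.ofNat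 (nat_lit 3660014),Int.ofNat (nat_lit 1091996073),Int.negSucc (nat_lit 17515446656),Int.negSucc (nat_lit 2521185142),Int.negSucc (nat_lit 6195124793),Int.ofNat (nat_lit 5979371093),Int.ofNat (nat_lit 1630939238),Int.negSucc (nat_lit 14946140392),Int.negSucc (nat_lit 4610164619),Int.ofNat (nat_lit 1617848667),Int.negSucc (nat_lit 519187405),Int.negSucc (nat_lit 6258589239),Int.negSucc (nat_lit 2981608427),Int.ofNat (nat_lit 3716153337),Int.negSucc (nat_lit 1933545194),Int.negSucc (nat_lit 2060759043),Int.negSucc (nat_lit 676197468),Int.ofNat (nat_lit 4271954901),Int.ofNat (nat_lit 528862546),Int.negSucc (nat_lit 385555884),Int.ofNat (nat_lit 742326042),Int.ofNat (nat_lit 2181776984),Int.negSucc (nat_lit 1477726043),Int.negSucc (nat_lit 1592464432),Int.negSucc (nat_lit 177031147),Int.negSucc (nat_lit 3808415756),Int.ofNat (nat_lit 387009611),Int.negSucc (nat_lit 1492173119),Int.negSucc (nat_lit 840151973),Int.negSucc (nat_lit 2038048404),Int.negSucc (nat_lit 2728012363),Int.negSucc (nat_lit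 521916632),Int.ofNat (nat_lit 636061128),Int.negSucc (nat_lit 306045643),Int.negSucc (nat_lit 342540967),Int.ofNat (nat_lit 625298905),Int.ofNat (nat_lit 8235813366),Int.ofNat (nat_lit 3040891573),Int.ofNat (nat_lit 498165589),Int.ofNat (nat_lit 293044081),Int.negSucc (nat_lit 3646731470),Int.ofNat (nat_lit 2237085052),Int.ofNat (nat_lit 4193616078),Int.negSucc (nat_lit 3142786757),Int.ofNat (nat_lit 4495029260),Int.negSucc (nat_lit 284371181),Int.negSucc (nat_lit 1314025199),Int.ofNat (nat_lit 1046495650),Int.ofNat (nat_lit 1208646560),Int.negSucc (nat_lit 1095632774),Int.negSucc (nat_lit 30763375),Int.negSucc (nat_lit 2523228203),Int.negSucc (nat_lit 609418426),Int.negSucc (nat_lit 222778148),Int.ofNat (nat_lit 6889563541),Int.negSucc (nat_lit 1547834303),Int.ofNat (nat_lit 1014269786),Int.ofNat (nat_lit 656455408),Int.ofNat (nat_lit 1614880425),Int.negSucc (nat_lit 934277613),Int.ofNat (nat_lit 764769402),Int.negSucc (nat_lit 660566652),Int.negSucc (nat_lit 393176635),Int.ofNat (nat_lit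 1788806451),Int.negSucc (nat_lit 52830364),Int.negSucc (nat_lit 2825723925),Int.negSucc (nat_lit 325057049),Int.negSucc (nat_lit 98293462),Int.ofNat (nat_lit 367383321),Int.negSucc (nat_lit 957206502),Int.ofNat (nat_lit 907731062)])

/-- A row. -/
noncomputable def sr0_c4_3 : List ℕ × List ℤ :=
  ([(nat_lit 5),(nat_lit 0),(nat_lit 1),(nat_lit 0),(nat_lit 0),(nat_lit 0),(nat_lit 0),(nat_lit 0),(nat_lit 0),(nat_lit 0),(nat_lit 0),(nat_lit 0)], [Int.ofNat (nat_lit 2697151601),Int.negSucc (nat_lit 1095653405),Int.negSucc (nat_lit 456346256),Int.ofNat (nat_lit 8274162534),Int.negSucc (nat_lit 5686298166),Int.negSucc (nat_lit 11758937440),Int.ofNat (nat_lit 1387132975),Int.negSucc (nat_lit 1988225841),Int.ofNat (nat_lit 777240369),Int.negSucc (nat_lit 3106949193),Int.negSucc (nat_lit 3720561549),Int.negSucc (nat_lit 4667045194),Int.negSucc (nat_lit 191022729),Int.negSucc (nat_lit 3801625294),Int.negSucc (nat_lit 11009220082),Int.negSucc (nat_lit 5989574723),Int.negSucc (nat_lit 5034863684),Int.negSucc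 (nat_lit 3082079960),Int.ofNat (nat_lit 1893737031),Int.negSucc (nat_lit 372646797),Int.negSucc (nat_lit 4852908736),Int.ofNat (nat_lit 4644882638),Int.ofNat (nat_lit 725522450),Int.negSucc (nat_lit 1517663262),Int.negSucc (nat_lit 2046233834),Int.negSucc (nat_lit 2584566086),Int.ofNat (nat_lit 1321854517),Int.negSucc (nat_lit 1424871053),Int.negSucc (nat_lit 3911572827),Int.ofNat (nat_lit 1642660385),Int.negSucc (nat_lit 1393736078),Int.negSucc (nat_lit 60457066),Int.negSucc (nat_lit 341706218),Int.ofNat (nat_lit 2742441838),Int.negSucc (nat_lit 1017179964),Int.negSucc (nat_lit 483779175),Int.negSucc (nat_lit 596611193),Int.negSucc (nat_lit 1931752421),Int.negSucc (nat_lit 597461210),Int.ofNat (nat_lit 816650760),Int.ofNat (nat_lit 1239553679),Int.ofNat (nat_lit 1779990861),Int.negSucc (nat_lit 1902490612),Int.negSucc (nat_lit 123431650),Int.negSucc (nat_lit 55044212),Int.negSucc (nat_lit 144257361),Int.ofNat (nat_lit 69099237),Int.negSucc (nat_lit 109180670),Int.negSucc (nat_lit 1414035398),Int.negSucc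 (nat_lit 664997701),Int.negSucc (nat_lit 637264732),Int.negSucc (nat_lit 1827810547),Int.ofNat (nat_lit 121862007),Int.ofNat (nat_lit 68457883),Int.negSucc (nat_lit 7394911423),Int.negSucc (nat_lit 1861353338),Int.negSucc (nat_lit 2739349390),Int.ofNat (nat_lit 3672569565),Int.ofNat (nat_lit 3575359628),Int.negSucc (nat_lit 9558116058),Int.negSucc (nat_lit 2257339067),Int.ofNat (nat_lit 780137773),Int.negSucc (nat_lit 573073761),Int.negSucc (nat_lit 3785319567),Int.negSucc (nat_lit 7827967441),Int.ofNat (nat_lit 3146416647),Int.negSucc (nat_lit 2572074070),Int.negSucc (nat_lit 1769241003),Int.ofNat (nat_lit 1977384340),Int.ofNat (nat_lit 3080035647),Int.ofNat (nat_lit 196551195),Int.negSucc (nat_lit 318026942),Int.ofNat (nat_lit 513466561),Int.ofNat (nat_lit 577117578),Int.negSucc (nat_lit 480396277),Int.negSucc (nat_lit 337569570),Int.ofNat (nat_lit 27336951),Int.negSucc (nat_lit 1148008784),Int.ofNat (nat_lit 362237835),Int.negSucc (nat_lit 1411120810),Int.negSucc (nat_lit 604693584),Int.negSucc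 (nat_lit 1816963191),Int.negSucc (nat_lit 1340997248),Int.negSucc (nat_lit 470449053),Int.negSucc (nat_lit 110851618),Int.negSucc (nat_lit 572042031),Int.negSucc (nat_lit 322412826),Int.ofNat (nat_lit 326671743),Int.ofNat (nat_lit 1986397922),Int.ofNat (nat_lit 2796937902),Int.ofNat (nat_lit 938331467),Int.negSucc (nat_lit 100272819),Int.negSucc (nat_lit 2335258064),Int.ofNat (nat_lit 1789037219),Int.ofNat (nat_lit 4578295915),Int.negSucc (nat_lit 1878587091),Int.ofNat (nat_lit 4802217734),Int.negSucc (nat_lit 186051359),Int.negSucc (nat_lit 301830438),Int.ofNat (nat_lit 606750736),Int.ofNat (nat_lit 525998551),Int.negSucc (nat_lit 303134996),Int.ofNat (nat_lit 56848384),Int.negSucc (nat_lit 1342418382),Int.negSucc (nat_lit 312746159),Int.ofNat (nat_lit 726903792),Int.ofNat (nat_lit 3299340225),Int.negSucc (nat_lit 695758806),Int.ofNat (nat_lit 260062151),Int.negSucc (nat_lit 22297566),Int.ofNat (nat_lit 2853221096),Int.negSucc (nat_lit 1102797461),Int.negSucc (nat_lit 32346555),Int.negSucc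 (nat_lit 23559621),Int.ofNat (nat_lit 66958055),Int.ofNat (nat_lit 581698743),Int.ofNat (nat_lit 124521941),Int.negSucc (nat_lit 233464590),Int.ofNat (nat_lit 255156297),Int.negSucc (nat_lit 896956922),Int.ofNat (nat_lit 13681441),Int.negSucc (nat_lit 31451452),Int.ofNat (nat_lit 21247792),Int.ofNat (nat_lit 137654640)])

/-- A row. -/
noncomputable def sr0_c4_4 : List ℕ × List ℤ :=
  ([(nat_lit 5),(nat_lit 2),(nat_lit 0),(nat_lit 0),(nat_lit 0),(nat_lit 0),(nat_lit 0),(nat_lit 0),(nat_lit 0),(nat_lit 0),(nat_lit 0),(nat_lit 0)], [Int.negSucc (nat_lit 9957444785),Int.ofNat (nat_lit 4633025775),Int.ofNat (nat_lit 14230633749),Int.negSucc (nat_lit 17954567302),Int.ofNat (nat_lit 20690026812),Int.negSucc (nat_lit 3018951189),Int.negSucc (nat_lit 18986857399),Int.ofNat (nat_lit 7943104615),Int.ofNat (nat_lit 18501320555),Int.negSucc (nat_lit 13490926187),Int.ofNat (nat_lit 3711214984),Int.negSucc (nat_lit 12163034663),Int.ofNat (nat_lit 7581147495),Int.negSucc (nat_lit 3749249973),Int.ofNat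 (nat_lit 4342270641),Int.ofNat (nat_lit 4315305328),Int.ofNat (nat_lit 5691546778),Int.ofNat (nat_lit 10771697392),Int.negSucc (nat_lit 4403594234),Int.ofNat (nat_lit 7397672904),Int.ofNat (nat_lit 13611987292),Int.ofNat (nat_lit 5340517205),Int.ofNat (nat_lit 5547683228),Int.negSucc (nat_lit 11028612044),Int.ofNat (nat_lit 10480886325),Int.ofNat (nat_lit 13321133815),Int.negSucc (nat_lit 2570143839),Int.negSucc (nat_lit 21698039341),Int.ofNat (nat_lit 16371123628),Int.negSucc (nat_lit 108510339),Int.ofNat (nat_lit 19449842739),Int.ofNat (nat_lit 1485589784),Int.negSucc (nat_lit 1706034203),Int.negSucc (nat_lit 8289648572),Int.negSucc (nat_lit 15122681148),Int.ofNat (nat_lit 1730842271),Int.negSucc (nat_lit 12855140452),Int.negSucc (nat_lit 9282134048),Int.ofNat (nat_lit 3323673405),Int.negSucc (nat_lit 9412875842),Int.negSucc (nat_lit 2612164388),Int.negSucc (nat_lit 419334819),Int.negSucc (nat_lit 9013199933),Int.negSucc (nat_lit 16108997191),Int.ofNat (nat_lit 6303563570),Int.ofNat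 (nat_lit 3445265364),Int.ofNat (nat_lit 5613587619),Int.ofNat (nat_lit 7890175945),Int.negSucc (nat_lit 5802263268),Int.negSucc (nat_lit 6164486045),Int.ofNat (nat_lit 1008246553),Int.negSucc (nat_lit 10751875404),Int.ofNat (nat_lit 681173757),Int.negSucc (nat_lit 5734493958),Int.ofNat (nat_lit 17514092437),Int.ofNat (nat_lit 6436202581),Int.ofNat (nat_lit 6507980110),Int.negSucc (nat_lit 9795538461),Int.negSucc (nat_lit 10631761590),Int.ofNat (nat_lit 12649606806),Int.ofNat (nat_lit 2258229993),Int.negSucc (nat_lit 639053530),Int.negSucc (nat_lit 4420797559),Int.ofNat (nat_lit 16050653894),Int.negSucc (nat_lit 13883012163),Int.ofNat (nat_lit 7931671344),Int.negSucc (nat_lit 7329195210),Int.negSucc (nat_lit 2770929809),Int.ofNat (nat_lit 14742476785),Int.negSucc (nat_lit 3638680585),Int.negSucc (nat_lit 10043132364),Int.negSucc (nat_lit 292965380),Int.ofNat (nat_lit 8203247817),Int.negSucc (nat_lit 13847504676),Int.negSucc (nat_lit 4955199525),Int.ofNat (nat_lit 10203389691),Int.negSucc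 (nat_lit 8698786746),Int.negSucc (nat_lit 20327453381),Int.ofNat (nat_lit 5300514708),Int.negSucc (nat_lit 10481282589),Int.negSucc (nat_lit 6151732968),Int.ofNat (nat_lit 20292764057),Int.ofNat (nat_lit 2809701908),Int.negSucc (nat_lit 4349187433),Int.negSucc (nat_lit 11629455519),Int.negSucc (nat_lit 11897611034),Int.ofNat (nat_lit 2853904262),Int.ofNat (nat_lit 46321894),Int.negSucc (nat_lit 3530889222),Int.ofNat (nat_lit 692672163),Int.ofNat (nat_lit 4711091531),Int.negSucc (nat_lit 4659139355),Int.ofNat (nat_lit 7376434349),Int.ofNat (nat_lit 4615935141),Int.negSucc (nat_lit 50651362),Int.negSucc (nat_lit 3112822461),Int.ofNat (nat_lit 12216755761),Int.ofNat (nat_lit 5405336509),Int.negSucc (nat_lit 2306512091),Int.negSucc (nat_lit 10516499363),Int.ofNat (nat_lit 6340112220),Int.ofNat (nat_lit 22629719159),Int.ofNat (nat_lit 1973234811),Int.ofNat (nat_lit 7162471979),Int.ofNat (nat_lit 2674630313),Int.ofNat (nat_lit 14918146245),Int.negSucc (nat_lit 9682565976),Int.negSucc (nat_lit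 743437999),Int.negSucc (nat_lit 2256025660),Int.negSucc (nat_lit 1426938114),Int.ofNat (nat_lit 5315373184),Int.negSucc (nat_lit 2446221378),Int.negSucc (nat_lit 2099751664),Int.ofNat (nat_lit 9228167410),Int.ofNat (nat_lit 9994661712),Int.negSucc (nat_lit 6615129282),Int.ofNat (nat_lit 3648575393),Int.ofNat (nat_lit 2185288984),Int.ofNat (nat_lit 3604380495),Int.negSucc (nat_lit 5083899813),Int.negSucc (nat_lit 4157334353),Int.negSucc (nat_lit 5710564050),Int.ofNat (nat_lit 605048402),Int.ofNat (nat_lit 1192217377),Int.ofNat (nat_lit 1036873720)])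

/-- A row. -/
noncomputable def sr0_c4_5 : List ℕ × List ℤ :=
  ([(nat_lit 6),(nat_lit 0),(nat_lit 0),(nat_lit 0),(nat_lit 0),(nat_lit 0),(nat_lit 0),(nat_lit 0),(nat_lit 0),(nat_lit 0),(nat_lit 0),(nat_lit 0)], [Int.negSucc (nat_lit 2090169922),Int.negSucc (nat_lit 1308054682),Int.negSucc (nat_lit 1949567981),Int.negSucc (nat_lit 12212811165),Int.ofNat (nat_lit 8485149101),Int.negSucc (nat_lit 2950995830),Int.ofNat (nat_lit 6798628516),Int.ofNat (nat_lit 4206146862),Int.ofNat (nat_lit 2128703466),Int.ofNat (nat_lit 9242426605),Int.negSucc (nat_lit 1779547286),Int.ofNat (nat_lit 175683867),Int.ofNat (nat_lit 880870711),Int.negSucc (nat_lit 2742534939),Int.negSucc (nat_lit 3765574199),Int.ofNat (nat_lit 2633808722),Int.negSucc (nat_lit 2025557194),Int.ofNat (nat_lit 1048637734),Int.ofNat (nat_lit 606056052),Int.negSucc (nat_lit 4484824567),Int.ofNat (nat_lit 1010375784),Int.ofNat (nat_lit 1717595397),Int.negSucc (nat_lit 307535026),Int.negSucc (nat_lit 1672887743),Int.negSucc (nat_lit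 2343583725),Int.ofNat (nat_lit 2544128917),Int.negSucc (nat_lit 1483560199),Int.ofNat (nat_lit 999029915),Int.negSucc (nat_lit 2715102066),Int.negSucc (nat_lit 5567600732),Int.ofNat (nat_lit 1254121936),Int.ofNat (nat_lit 86233355),Int.ofNat (nat_lit 3680800072),Int.ofNat (nat_lit 1046158329),Int.negSucc (nat_lit 1019504919),Int.ofNat (nat_lit 1507382066),Int.ofNat (nat_lit 4326879055),Int.ofNat (nat_lit 1820770761),Int.negSucc (nat_lit 568123194),Int.ofNat (nat_lit 284107921),Int.negSucc (nat_lit 571860190),Int.ofNat (nat_lit 1636349510),Int.negSucc (nat_lit 3175319655),Int.negSucc (nat_lit 1629878228),Int.ofNat (nat_lit 504497743),Int.ofNat (nat_lit 266116440),Int.ofNat (nat_lit 167137827),Int.ofNat (nat_lit 559945345),Int.negSucc (nat_lit 240607508),Int.ofNat (nat_lit 2369088017),Int.ofNat (nat_lit 319849631),Int.negSucc (nat_lit 2239553459),Int.ofNat (nat_lit 172495189),Int.ofNat (nat_lit 902576695),Int.negSucc (nat_lit 5293446275),Int.negSucc (nat_lit 994225143),Int.negSucc (nat_lit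 2275850857),Int.ofNat (nat_lit 533595517),Int.negSucc (nat_lit 4049724699),Int.negSucc (nat_lit 2514874756),Int.negSucc (nat_lit 785737958),Int.ofNat (nat_lit 676889019),Int.ofNat (nat_lit 2119134830),Int.negSucc (nat_lit 2422419016),Int.ofNat (nat_lit 1506800896),Int.negSucc (nat_lit 1481800642),Int.ofNat (nat_lit 2192372578),Int.negSucc (nat_lit 1687315233),Int.ofNat (nat_lit 90034213),Int.negSucc (nat_lit 3815056279),Int.negSucc (nat_lit 145599648),Int.ofNat (nat_lit 7822620),Int.ofNat (nat_lit 777808191),Int.negSucc (nat_lit 371271197),Int.negSucc (nat_lit 828541936),Int.ofNat (nat_lit 114790977),Int.negSucc (nat_lit 725940680),Int.negSucc (nat_lit 1728621616),Int.ofNat (nat_lit 152775103),Int.negSucc (nat_lit 549019495),Int.negSucc (nat_lit 496953501),Int.negSucc (nat_lit 2499616557),Int.ofNat (nat_lit 1796139045),Int.ofNat (nat_lit 1081866420),Int.negSucc (nat_lit 698531559),Int.negSucc (nat_lit 1285980495),Int.negSucc (nat_lit 277440982),Int.ofNat (nat_lit 95651161),Int.negSucc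 (nat_lit 9494439203),Int.ofNat (nat_lit 1037757829),Int.ofNat (nat_lit 1779128327),Int.negSucc (nat_lit 3699808678),Int.negSucc (nat_lit 2534780730),Int.negSucc (nat_lit 3283348591),Int.ofNat (nat_lit 8407317047),Int.negSucc (nat_lit 657287123),Int.negSucc (nat_lit 4620673005),Int.ofNat (nat_lit 479604592),Int.negSucc (nat_lit 2841522542),Int.ofNat (nat_lit 414361091),Int.ofNat (nat_lit 1733202902),Int.negSucc (nat_lit 5544725629),Int.negSucc (nat_lit 484262852),Int.ofNat (nat_lit 1343768453),Int.negSucc (nat_lit 1467886553),Int.negSucc (nat_lit 1780655828),Int.ofNat (nat_lit 6415529876),Int.negSucc (nat_lit 308794048),Int.ofNat (nat_lit 118271593),Int.ofNat (nat_lit 634043502),Int.negSucc (nat_lit 1786563218),Int.ofNat (nat_lit 584075988),Int.negSucc (nat_lit 30755470),Int.ofNat (nat_lit 701543119),Int.ofNat (nat_lit 1990146108),Int.negSucc (nat_lit 74273148),Int.ofNat (nat_lit 432232273),Int.ofNat (nat_lit 1771644085),Int.ofNat (nat_lit 916823155),Int.negSucc (nat_lit 273150644),Int.negSucc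 (nat_lit 858861142),Int.ofNat (nat_lit 2080073690),Int.negSucc (nat_lit 2233571207),Int.negSucc (nat_lit 53082586),Int.negSucc (nat_lit 350717433),Int.ofNat (nat_lit 158453267)])

/-- A row. -/
noncomputable def sr0_c4_6 : List ℕ × List ℤ :=
  ([(nat_lit 7),(nat_lit 0),(nat_lit 0),(nat_lit 0),(nat_lit 0),(nat_lit 0),(nat_lit 0),(nat_lit 0),(nat_lit 0),(nat_lit 0),(nat_lit 0),(nat_lit 0)], [Int.ofNat (nat_lit 1227600318),Int.negSucc (nat_lit 561474376),Int.ofNat (nat_lit 181600975),Int.ofNat (nat_lit 387312801),Int.ofNat (nat_lit 1312134457),Int.ofNat (nat_lit 6639888032),Int.negSucc (nat_lit 6455074434),Int.negSucc (nat_lit 307209587),Int.negSucc (nat_lit 81793687),Int.negSucc (nat_lit 3116330469),Int.ofNat (nat_lit 3708044736),Int.ofNat (nat_lit 2419378557),Int.ofNat (nat_lit 1438196083),Int.ofNat (nat_lit 3364875439),Int.ofNat (nat_lit 8523449803),Int.negSucc (nat_lit 114753553),Int.ofNat (nat_lit 4340755971),Int.negSucc (nat_lit 142745973),Int.negSucc (nat_lit 902584633),Int.ofNat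 (nat_lit 2564998027),Int.ofNat (nat_lit 2657244929),Int.negSucc (nat_lit 4594785049),Int.negSucc (nat_lit 723516903),Int.ofNat (nat_lit 553185075),Int.ofNat (nat_lit 1852130124),Int.ofNat (nat_lit 465549564),Int.negSucc (nat_lit 239361289),Int.ofNat (nat_lit 69912552),Int.ofNat (nat_lit 3363466038),Int.ofNat (nat_lit 1542959458),Int.ofNat (nat_lit 642586175),Int.negSucc (nat_lit 74335367),Int.negSucc (nat_lit 1610394740),Int.negSucc (nat_lit 2200041458),Int.ofNat (nat_lit 1374448612),Int.negSucc (nat_lit 14813141),Int.negSucc (nat_lit 1727214131),Int.ofNat (nat_lit 424635694),Int.ofNat (nat_lit 368511440),Int.negSucc (nat_lit 1252488285),Int.negSucc (nat_lit 670161268),Int.negSucc (nat_lit 1623039777),Int.ofNat (nat_lit 2587813664),Int.ofNat (nat_lit 991100187),Int.ofNat (nat_lit 69683550),Int.negSucc (nat_lit 251956235),Int.negSucc (nat_lit 454527626),Int.negSucc (nat_lit 123593689),Int.ofNat (nat_lit 915317958),Int.negSucc (nat_lit 1141563616),Int.ofNat (nat_lit 115418906),Int.ofNat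 (nat_lit 1919760698),Int.negSucc (nat_lit 58621852),Int.negSucc (nat_lit 748301588),Int.ofNat (nat_lit 6047010532),Int.ofNat (nat_lit 1893771911),Int.ofNat (nat_lit 3072603483),Int.negSucc (nat_lit 2640563240),Int.ofNat (nat_lit 378007368),Int.ofNat (nat_lit 7553403213),Int.ofNat (nat_lit 2338723308),Int.negSucc (nat_lit 1644265182),Int.negSucc (nat_lit 557057611),Int.ofNat (nat_lit 2816434947),Int.negSucc (nat_lit 215778892),Int.negSucc (nat_lit 674014757),Int.ofNat (nat_lit 571629583),Int.ofNat (nat_lit 1699626599),Int.negSucc (nat_lit 673325236),Int.negSucc (nat_lit 153215400),Int.negSucc (nat_lit 209462008),Int.ofNat (nat_lit 407307800),Int.negSucc (nat_lit 1048240258),Int.negSucc (nat_lit 716933821),Int.ofNat (nat_lit 912108140),Int.ofNat (nat_lit 506356989),Int.ofNat (nat_lit 272196424),Int.ofNat (nat_lit 1965315134),Int.negSucc (nat_lit 345022758),Int.ofNat (nat_lit 825917561),Int.ofNat (nat_lit 647081192),Int.ofNat (nat_lit 1794302486),Int.ofNat (nat_lit 288586325),Int.negSucc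 (nat_lit 292004844),Int.ofNat (nat_lit 519954077),Int.ofNat (nat_lit 958329928),Int.ofNat (nat_lit 80295515),Int.negSucc (nat_lit 95855904),Int.ofNat (nat_lit 1670177788),Int.negSucc (nat_lit 2248013768),Int.negSucc (nat_lit 534008243),Int.ofNat (nat_lit 1878799198),Int.ofNat (nat_lit 2857693255),Int.ofNat (nat_lit 160494911),Int.negSucc (nat_lit 7301375796),Int.ofNat (nat_lit 881891784),Int.ofNat (nat_lit 460954847),Int.negSucc (nat_lit 185527502),Int.ofNat (nat_lit 2196124003),Int.negSucc (nat_lit 591147558),Int.negSucc (nat_lit 1228683103),Int.ofNat (nat_lit 3177044171),Int.ofNat (nat_lit 509742838),Int.negSucc (nat_lit 209732635),Int.ofNat (nat_lit 804861718),Int.ofNat (nat_lit 1002547229),Int.negSucc (nat_lit 5793103252),Int.ofNat (nat_lit 749334141),Int.negSucc (nat_lit 373251543),Int.negSucc (nat_lit 319526760),Int.ofNat (nat_lit 563404108),Int.ofNat (nat_lit 436685424),Int.negSucc (nat_lit 292824601),Int.negSucc (nat_lit 213093744),Int.negSucc (nat_lit 1311385222),Int.negSucc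 (nat_lit 751354956),Int.negSucc (nat_lit 349190190),Int.negSucc (nat_lit 78376633),Int.negSucc (nat_lit 529942683),Int.ofNat (nat_lit 551900822),Int.ofNat (nat_lit 476201614),Int.negSucc (nat_lit 1087821150),Int.ofNat (nat_lit 1310858776),Int.negSucc (nat_lit 85411352),Int.ofNat (nat_lit 348968785),Int.negSucc (nat_lit 166199168),Int.ofNat (nat_lit 10225949)])

/-- A part of a triangular factor. -/
noncomputable def sr0_c4 : Rows :=
  [sr0_c4_0,
   sr0_c4_1,
   sr0_c4_2,
   sr0_c4_3,
   sr0_c4_4,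
   sr0_c4_5,
   sr0_c4_6]

/-- A triangular factor. -/
noncomputable def sr0_rows : List Rows :=
  [sr0_c0, sr0_c1, sr0_c2, sr0_c3, sr0_c4]

end Vale.Agent.P142K.CertB
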