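import Vale.Agent.P142K.CertB.Sr1Rows
import Vale.Agent.P142K.Fast

/-!
# An expanded part of the certificate

Generated from a semidefinite program; only the checker is trusted.
-/

namespace Vale.Agent.P142K.CertB

open Vale.Agent.P142J (MP)

/-- A coefficient. -/
noncomputable def sr1_m0_0_0 : MP 10 :=
  [[[[[[[[[[Int.ofNat (nat_lit 9642523841749822500),Int.ofNat (nat_lit 0),Int.negSucc (nat_lit 48212619208749112499)],[],[Int.negSucc (nat_lit 48212619208749112499)]],[],[[Int.negSucc (nat_lit 38570095366999289999)]]],[],[[[Int.negSucc (nat_lit 38570095366999289999)]]]],[],[[[[Int.negSucc (nat_lit 28927571525249467499)]]]]],[],[[[[[Int.negSucc (nat_lit 28927571525249467499)]]]]]],[],[[[[[[Int.negSucc (nat_lit 19285047683499644999)]]]]]]],[],[[[[[[[Int.negSucc (nat_lit 19285047683499644999)]]]]]]]],[],[[[[[[[[Int.negSucc (nat_lit 9642523841749822499)]]]]]]]]],[],[[[[[[[[[Int.negSucc (nat_lit 9642523841749822499)]]]]]]]]]]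

/-- A coefficient. -/
noncomputable def sr1_m0_1_0 : MP 10 :=
  [[[[[[[[[[Int.negSucc (nat_lit 45921227819137259099),Int.ofNat (nat_lit 0),Int.ofNat (nat_lit 229606139095686295500)],[],[Int.ofNat (nat_lit 229606139095686295500)]],[],[[Int.ofNat (nat_lit 183684911276549036400)]]],[],[[[Int.ofNat (nat_lit 183684911276549036400)]]]],[],[[[[Int.ofNat (nat_lit 137763683457411777300)]]]]],[],[[[[[Int.ofNat (nat_lit 137763683457411777300)]]]]]],[],[[[[[[Int.ofNat (nat_lit 91842455638274518200)]]]]]]],[],[[[[[[[Int.ofNat (nat_lit 91842455638274518200)]]]]]]]],[],[[[[[[[[Int.ofNat (nat_lit 45921227819137259100)]]]]]]]]],[],[[[[[[[[[Int.ofNat (nat_lit 45921227819137259100)]]]]]]]]]]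

/-- A coefficient. -/
noncomputable def sr1_m0_2_0 : MP 10 :=
  [[[[[[[[[[Int.ofNat (nat_lit 57051827896488535058),Int.ofNat (nat_lit 0),Int.negSucc (nat_lit 285259139482442675289)],[],[Int.negSucc (nat_lit 285259139482442675289)]],[],[[Int.negSucc (nat_lit 228207311585954140231)]]],[],[[[Int.negSucc (nat_lit 228207311585954140231)]]]],[],[[[[Int.negSucc (nat_lit 171155483689465605173)]]]]],[],[[[[[Int.negSucc (nat_lit 171155483689465605173)]]]]]],[],[[[[[[Int.negSucc (nat_lit 114103655792977070115)]]]]]]],[],[[[[[[[Int.negSucc (nat_lit 114103655792977070115)]]]]]]]],[],[[[[[[[[Int.negSucc (nat_lit 57051827896488535057)]]]]]]]]],[],[[[[[[[[[Int.negSucc (nat_lit 57051827896488535057)]]]]]]]]]]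

/-- An expanded part. -/
noncomputable def sr1_m0 : R12 :=
  [[sr1_m0_0_0],
   [sr1_m0_1_0],
   [sr1_m0_2_0]]

set_option maxRecDepth 100000 in
theorem sr1_check0 : partOk 1 sr1_rows 0 sr1_m0 = true :=
  Fast.partOk_of_fast (by decide +kernel)

end Vale.Agent.P142K.CertB
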