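import Vale.Agent.P142K.CertB.Sr2Rows
import Vale.Agent.P142K.Fast

/-!
# An expanded part of the certificate

Generated from a semidefinite program; only the checker is trusted.
-/

namespace Vale.Agent.P142K.CertB

open Vale.Agent.P142J (MP)

/-- A coefficient. -/
noncomputable def sr2_m0_0_0 : MP 10 :=
  [[[[[[[[[[Int.ofNat (nat_lit 5453239880253201481)],[Int.ofNat (nat_lit 96784295684505680)],[Int.ofNat (nat_lit 55177428870530209)]]],[[[Int.negSucc (nat_lit 1881076973680014049)],[Int.negSucc (nat_lit 137586063012237733)]]],[[[Int.ofNat (nat_lit 1422573329979590550)]]]]],[[[[[Int.ofNat (nat_lit 6026461925069650536)],[Int.ofNat (nat_lit 239975318621876136)]]],[[[Int.negSucc (nat_lit 4135161620968733727)]]]]],[[[[[Int.ofNat (nat_lit 5228132629964560801)]]]]]],[],[[[[[[Int.negSucc (nat_lit 525870005098842123)],[Int.ofNat (nat_lit 36974119552317098)]]],[[[Int.ofNat (nat_lit 1297315446538430298)]]]]],[[[[[Int.negSucc (nat_lit 1684483345351522539)]]]]]],[],[[[[[[Int.ofNat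 (nat_lit 1491483193433929630)]]]]]]],[[[[[[[Int.negSucc (nat_lit 11254689814131188517)],[Int.negSucc (nat_lit 177325573173269727)]]],[[[Int.ofNat (nat_lit 912442881785899942)]]]]],[[[[[Int.negSucc (nat_lit 5036182146319413995)]]]]]],[],[[[[[[Int.negSucc (nat_lit 1591504657927765343)]]]]]]],[[[[[[[Int.ofNat (nat_lit 8482466363561265539)],[Int.ofNat (nat_lit 67823964862981846)]]],[[[Int.ofNat (nat_lit 1871587131186615118)]]]]],[[[[[Int.negSucc (nat_lit 3014921283499690003)]]]]]],[],[[[[[[Int.ofNat (nat_lit 3116931852434206396)]]]]]]],[[[[[[[Int.negSucc (nat_lit 2281793571376928675)]]]]]]],[[[[[[[Int.ofNat (nat_lit 2264647005973077166)]]]]]]]],[[[[[],[[[[Int.ofNat (nat_lit 604694004346790264)],[Int.negSucc (nat_lit 117005333165400279)]]],[[[Int.negSucc (nat_lit 937175791516656591)]]]]],[[],[[[[Int.ofNat (nat_lit 1707547873763258620)]]]]]],[[[[[[Int.negSucc (nat_lit 2538739269082554351)],[Int.ofNat (nat_lit 67708241779038182)]]],[[[Int.ofNat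 (nat_lit 117047169317823226)]]]]],[[[[[Int.negSucc (nat_lit 1615748100249473703)]]]]]],[[[],[[[[Int.negSucc (nat_lit 1127795521760154563)]]]]]],[[[[[[Int.negSucc (nat_lit 81993523764005787)]]]]]]],[[[[],[[[[Int.ofNat (nat_lit 158881048492522470)]]]]]],[[[[[[Int.ofNat (nat_lit 5601250724624798052)]]]]]]],[[[[],[[[[Int.negSucc (nat_lit 1720907331165495647)]]]]]],[[[[[[Int.ofNat (nat_lit 106100445151376344)]]]]]]]],[[[[[[[[Int.negSucc (nat_lit 1701372810337135825)],[Int.ofNat (nat_lit 178594287869161426)]]],[[[Int.negSucc (nat_lit 145299154424558719)]]]],[],[[[[Int.ofNat (nat_lit 975939021545029994)]]]]],[[[[[Int.negSucc (nat_lit 198933911808732515)]]]]]],[[[],[[[[Int.negSucc (nat_lit 1859030204069923235)]]]]]],[[[[[[Int.ofNat (nat_lit 8704407126183785821)]]]]]]],[[[[[[[Int.ofNat (nat_lit 1944198752654120646)]]]]]]],[[[[[[[Int.negSucc (nat_lit 4035457318501087)]]]]]]]],[[[[[],[[[[Int.ofNat (nat_lit 476103631762039456)]]]]]],[[[[[[Int.negSucc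 (nat_lit 6167749244113155055)]]]]]]]],[[[[[[[[Int.ofNat (nat_lit 7246802284878909088)]]]]]]]]],[[[[[[[[[Int.ofNat (nat_lit 17389969932767298950)],[Int.negSucc (nat_lit 226412152875617427)]]],[[[Int.ofNat (nat_lit 1109409378658523694)]]]]],[[[[[Int.ofNat (nat_lit 3481736146084357288)],[Int.ofNat (nat_lit 118049613855529898)]]],[[[Int.negSucc (nat_lit 778700214137112615)]]]]],[[[[[Int.ofNat (nat_lit 2436351314623611888)]]]]]],[],[[[[[[Int.ofNat (nat_lit 392095791767396580)]]]]],[[[[[Int.ofNat (nat_lit 31088850576707494)]]]]]]],[[[[[[[Int.negSucc (nat_lit 23985028920171329981)],[Int.ofNat (nat_lit 129327172310245794)]]],[[[Int.negSucc (nat_lit 2488254539531486391)]]]]],[[[[[Int.negSucc (nat_lit 2032105945483217107)]]]]]],[],[[[[[[Int.negSucc (nat_lit 2169204038411391171)]]]]]]],[[[[[[[Int.ofNat (nat_lit 16797137632453505708)]]]]],[[[[[Int.negSucc (nat_lit 332063199710853401)]]]]]]],[[[[[[[Int.negSucc (nat_lit 3407953382210393055)]]]]]]]],[[[[[],[[[[Int.negSucc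 (nat_lit 314209952602632875)]]]]],[[],[[[[Int.ofNat (nat_lit 482340879203124438)]]]]]],[[[[[[Int.negSucc (nat_lit 2244854602874346575)]]]]],[[[[[Int.negSucc (nat_lit 934953200042420569)]]]]]]],[[[[],[[[[Int.ofNat (nat_lit 929469631839441212)]]]]]],[[[[[[Int.ofNat (nat_lit 6261121894039583692)]]]]]]]],[[[[[[[[Int.negSucc (nat_lit 3891185957335100303)],[Int.negSucc (nat_lit 2918895569555845)]]],[[[Int.negSucc (nat_lit 1165406780196640513)]]]]],[[[[[Int.ofNat (nat_lit 422480725623491490)]]]]]],[],[[[[[[Int.negSucc (nat_lit 476030657686461625)]]]]]]],[[[[[[[Int.ofNat (nat_lit 5197222558327621208)]]]]]]],[[[[[[[Int.negSucc (nat_lit 999437327073345781)]]]]]]]],[[[[[],[[[[Int.ofNat (nat_lit 1386854250159386274)]]]]]],[[[[[[Int.negSucc (nat_lit 355253448426666689)]]]]]]]],[[[[[[[[Int.ofNat (nat_lit 4077063518609342134)]]]]]]]]],[[[[[[[[[Int.ofNat (nat_lit 26444925676930752508)],[Int.negSucc (nat_lit 444148403915508221)]]],[[[Int.ofNat (nat_lit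 1864782657779716590)]]]]],[[[[[Int.negSucc (nat_lit 3401488455426861749)]]]]],[[[[[Int.ofNat (nat_lit 822362372546547227)]]]]]],[],[[[[[[Int.ofNat (nat_lit 199024657378696358)]]]]]]],[[[[[[[Int.negSucc (nat_lit 19562723968699686487)]]]]],[[[[[Int.negSucc (nat_lit 1482235113417516701)]]]]]]],[[[[[[[Int.ofNat (nat_lit 11447928333849680751)]]]]]]]],[[[[[],[[[[Int.ofNat (nat_lit 523921795882534710)]]]]]],[[[[[[Int.negSucc (nat_lit 811051536067754603)]]]]]]]],[[[[[[[[Int.negSucc (nat_lit 172456533089181009)]]]]],[[[[[Int.negSucc (nat_lit 338400309243549387)]]]]]]],[[[[[[[Int.ofNat (nat_lit 5376436494798727842)]]]]]]]],[],[[[[[[[[Int.ofNat (nat_lit 3662991904214011845)]]]]]]]]],[[[[[[[[[Int.ofNat (nat_lit 22155433611310905594)],[Int.negSucc (nat_lit 135942459820147949)]]],[[[Int.negSucc (nat_lit 737249598974485819)]]]]],[[[[[Int.negSucc (nat_lit 2393770488656218729)]]]]]],[],[[[[[[Int.negSucc (nat_lit 524060550673010831)]]]]]]],[[[[[[[Int.negSucc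 (nat_lit 1286684085629144995)]]]]]]],[[[[[[[Int.negSucc (nat_lit 1182672428034553075)]]]]]]]],[[[[[],[[[[Int.ofNat (nat_lit 1286236255704419800)]]]]]],[[[[[[Int.negSucc (nat_lit 1143491461675217257)]]]]]]]],[[[[[[[[Int.ofNat (nat_lit 8031628904097616316)]]]]]]]]],[[[[[[[[[Int.ofNat (nat_lit 12269266109702342197)]]]]],[[[[[Int.negSucc (nat_lit 1029422081857184063)]]]]]]],[[[[[[[Int.ofNat (nat_lit 4715694849513422620)]]]]]]]],[],[[[[[[[[Int.ofNat (nat_lit 5789229691855320030)]]]]]]]]],[[[[[[[[[Int.ofNat (nat_lit 8472355723715262834)]]]]]]]]],[[[[[[[[[Int.ofNat (nat_lit 3944796822119347054)]]]]]]]]]]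

/-- A coefficient. -/
noncomputable def sr2_m0_0_1 : MP 10 :=
  [[[[[[[[[],[[Int.ofNat (nat_lit 1393193855137982566)],[Int.negSucc (nat_lit 2049218999940103)]]],[[],[[Int.negSucc (nat_lit 1793224637160320141)]]]],[[[[Int.negSucc (nat_lit 2111935137035630177)],[Int.ofNat (nat_lit 647575277964309192)]]],[[[Int.ofNat (nat_lit 1016291689360315926)]]]]],[[[[],[[Int.ofNat (nat_lit 2937141876490671560)]]]],[[[[Int.negSucc (nat_lit 4367394170304448893)]]]]]],[[[[[[Int.ofNat (nat_lit 12659911668392202766)],[Int.ofNat (nat_lit 228253031874925402)]]],[[[Int.negSucc (nat_lit 4608705844755185815)]]]]],[[[[[Int.ofNat (nat_lit 15804620319582891526)]]]]]],[[[[[],[[Int.negSucc (nat_lit 1895270441109513799)]]]],[[[[Int.ofNat (nat_lit 1523283961060923306)]]]]]],[[[[[[Int.ofNat (nat_lit 324996538534145084)]]]]]]],[[[[[[],[[Int.ofNat (nat_lit 894440736563936892)]]]],[[[[Int.ofNat (nat_lit 42971470613229658)]]]]]],[[[[[[Int.negSucc (nat_lit 20327064187972146877)]]]]]]],[[[[[[],[[Int.negSucc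 (nat_lit 3178245881831881191)]]]],[[[[Int.ofNat (nat_lit 3028728756192847106)]]]]]],[[[[[[Int.negSucc (nat_lit 2937501059086376995)]]]]]]]],[[[[[[[[Int.negSucc (nat_lit 9225376286128790785)],[Int.negSucc (nat_lit 2157370761077460619)]]],[[[Int.ofNat (nat_lit 7579575238986949338)]]]],[[[],[[Int.ofNat (nat_lit 1655431002589452970)]]]],[[[[Int.negSucc (nat_lit 3238580875859283817)]]]]],[[[[[Int.negSucc (nat_lit 18529753387416936299)]]]]]],[[[[[],[[Int.negSucc (nat_lit 1256882064131970985)]]]],[[[[Int.ofNat (nat_lit 11601016232414566608)]]]]]],[[[[[[Int.negSucc (nat_lit 29122952712782584335)]]]]]]],[[[[[[[Int.ofNat (nat_lit 21596351324537199380)],[Int.ofNat (nat_lit 729274630205579700)]]],[[[Int.ofNat (nat_lit 1533644458717116548)]]]]],[[[[[Int.negSucc (nat_lit 3774392275401435689)]]]]]],[],[[[[[[Int.negSucc (nat_lit 818933238050385179)]]]]]]],[[[[[[[Int.negSucc (nat_lit 2577567426243150585)]]]]]]],[[[[[[[Int.ofNat (nat_lit 1093851486058518300)]]]]]]]],[[[[[[[],[[Int.ofNat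 (nat_lit 1888406544869219872)]]]],[[[[Int.negSucc (nat_lit 5261204156729740383)]]]]]],[[[[[[Int.ofNat (nat_lit 37579893645475586920)]]]]]]],[[[[],[[[[Int.negSucc (nat_lit 1644754403142773705)]]]]]],[[[[[[Int.ofNat (nat_lit 2357032738603871202)]]]]]]]],[[[[[[[[Int.negSucc (nat_lit 23875275009705769877)]]]]]]],[[[[[[[Int.negSucc (nat_lit 816948000118476011)]]]]]]]]],[[[[[[[[],[[Int.ofNat (nat_lit 1220648903257265862)]]]],[[[[Int.negSucc (nat_lit 1229869684278974599)]]]]],[[[[],[[Int.ofNat (nat_lit 35854677671235608)]]]],[[[[Int.negSucc (nat_lit 408378862557806903)]]]]]],[[[[[[Int.ofNat (nat_lit 9629635585932492510)],[Int.ofNat (nat_lit 480235160655787538)]]],[[[Int.negSucc (nat_lit 4265810912936283857)]]]]],[[[[[Int.ofNat (nat_lit 14721922804663967498)]]]]]],[],[[[[[[Int.ofNat (nat_lit 2077726899746740196)]]]]]]],[[[[[[],[[Int.ofNat (nat_lit 2564894315812844490)]]]],[[[[Int.negSucc (nat_lit 186815523763763771)]]]]]],[[[[[[Int.negSucc (nat_lit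 21180893658202065837)]]]]]]],[[],[[[[[[Int.ofNat (nat_lit 480867613270011492)]]]]]]]],[[[[[[[[Int.ofNat (nat_lit 3817948173715461112)],[Int.negSucc (nat_lit 2246975186033382245)]]],[[[Int.ofNat (nat_lit 6238058479455689960)]]]]],[[[[[Int.negSucc (nat_lit 16852529371981105579)]]]]]],[[[],[[[[Int.ofNat (nat_lit 963859350570579052)]]]]]],[[[[[[Int.negSucc (nat_lit 3482779960085466801)]]]]]]],[[[[[[[Int.ofNat (nat_lit 27615299639142555592)]]]]],[[[[[Int.negSucc (nat_lit 1719971638447303893)]]]]]]],[[[[[[[Int.negSucc (nat_lit 8057883223374814905)]]]]]]]],[[[[[[[],[[Int.ofNat (nat_lit 2851751797792066062)]]]],[[[[Int.ofNat (nat_lit 1359288669483207540)]]]]]],[[[[[[Int.negSucc (nat_lit 4184260773971854507)]]]]]]]],[[[[[[[[Int.ofNat (nat_lit 5746542490855582878)]]]]]]],[[[[[[[Int.negSucc (nat_lit 3043415756986745607)]]]]]]]]],[[[[[[[[],[[Int.ofNat (nat_lit 3648960866823918170)]]]],[[[[Int.ofNat (nat_lit 274285568261131170)]]]]]],[[[[[[Int.negSucc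 (nat_lit 10898839120858181059)]]]]],[[[[[Int.ofNat (nat_lit 4454165225730372260)]]]]]]],[[],[[[[[[Int.ofNat (nat_lit 718926190334380348)]]]]]]]],[[[[[[[[Int.ofNat (nat_lit 27875466851938576954)]]]]],[[[[[Int.negSucc (nat_lit 7241590523091472409)]]]]]]],[[[[[[[Int.ofNat (nat_lit 809535250817024592)]]]]]]]],[[[],[[[[[[Int.ofNat (nat_lit 719639571319995124)]]]]]]]],[[[[[[[[Int.negSucc (nat_lit 5123205920495352823)]]]]]]]]],[[[[[[[[],[[Int.ofNat (nat_lit 3560209061480944784)]]]],[[[[Int.negSucc (nat_lit 451063129355681303)]]]]]],[[[[[[Int.negSucc (nat_lit 10750812132500040215)]]]]]]]],[[[[[[[[Int.ofNat (nat_lit 18016262066148485766)]]]]]]],[[[[[[[Int.negSucc (nat_lit 2903004596460727925)]]]]]]]]],[[[[],[[[[[[Int.negSucc (nat_lit 3029389701845775831)]]]]]]]],[[[[[[[[Int.ofNat (nat_lit 3422905551684810988)]]]]]]]]]]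

/-- A coefficient. -/
noncomputable def sr2_m0_0_2 : MP 10 :=
  [[[[[[[[[[Int.negSucc (nat_lit 11754569446061274436)],[Int.ofNat (nat_lit 1049645015959266396)],[Int.negSucc (nat_lit 55177428870530208)]],[],[[Int.ofNat (nat_lit 2528176402923731730)]]],[[[Int.negSucc (nat_lit 7353954836908918553)],[Int.ofNat (nat_lit 137586063012237734)]]],[[[Int.negSucc (nat_lit 1422573329979590549)]]]],[[[],[[Int.negSucc (nat_lit 1967441889344074703)]]]],[[[[Int.ofNat (nat_lit 12601451508556888767)]]]]],[[[[[Int.ofNat (nat_lit 13561132230047502962)],[Int.negSucc (nat_lit 150810754552050743)]]],[[[Int.ofNat (nat_lit 1157549997706632578)]]]]],[[[[[Int.negSucc (nat_lit 2053320365575074124)]]]]]],[[[[[],[[Int.ofNat (nat_lit 4063041757897563882)]]]],[[[[Int.negSucc (nat_lit 15710233004565722175)]]]]]],[[[[[[Int.ofNat (nat_lit 60470359391560418606)],[Int.negSucc (nat_lit 36974119552317097)]]],[[[Int.negSucc (nat_lit 1297315446538430297)]]]]],[[[[[Int.ofNat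 (nat_lit 455653384963580164)]]]]]],[],[[[[[[Int.negSucc (nat_lit 1491483193433929629)]]]]]]],[[[[[[[Int.ofNat (nat_lit 8337953452760423714)],[Int.negSucc (nat_lit 707198804507335239)]]],[[[Int.ofNat (nat_lit 7130904419293593964)]]]]],[[[[[Int.negSucc (nat_lit 2162911466099212669)]]]]]],[],[[[[[[Int.ofNat (nat_lit 2003878296699721152)]]]]]]],[[[[[[[Int.negSucc (nat_lit 15802453488098440480)],[Int.negSucc (nat_lit 67823964862981845)]]],[[[Int.negSucc (nat_lit 1871587131186615117)]]]]],[[[[[Int.negSucc (nat_lit 151849301907501647)]]]]]],[],[[[[[[Int.negSucc (nat_lit 3116931852434206395)]]]]]]],[[[[[[[Int.ofNat (nat_lit 2803226299531077588)]]]]]]],[[[[[[[Int.negSucc (nat_lit 2264647005973077165)]]]]]]]],[[[[[[[],[[Int.negSucc (nat_lit 735778301288372305)]]]],[[[[Int.ofNat (nat_lit 5703794564118396400)],[Int.ofNat (nat_lit 117005333165400280)]]],[[[Int.ofNat (nat_lit 937175791516656592)]]]]],[[],[[[[Int.ofNat (nat_lit 155727556832490040)]]]]]],[[[[[[Int.negSucc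 (nat_lit 104637069011084859869)],[Int.negSucc (nat_lit 67708241779038181)]]],[[[Int.negSucc (nat_lit 117047169317823225)]]]]],[[[[[Int.ofNat (nat_lit 626177136732635358)]]]]]],[[[],[[[[Int.ofNat (nat_lit 1127795521760154564)]]]]]],[[[[[[Int.ofNat (nat_lit 81993523764005788)]]]]]]],[[[[[[],[[Int.ofNat (nat_lit 565643144920503456)]]]],[[[[Int.ofNat (nat_lit 6482398653422310816)]]]]]],[[[[[[Int.negSucc (nat_lit 23627924993751070463)]]]]]]],[[[[],[[[[Int.ofNat (nat_lit 1720907331165495648)]]]]]],[[[[[[Int.negSucc (nat_lit 106100445151376343)]]]]]]]],[[[[[[[[Int.ofNat (nat_lit 129000852345379688573)],[Int.ofNat (nat_lit 386720624483540180)]]],[[[Int.negSucc (nat_lit 3954168157006257853)]]]],[],[[[[Int.negSucc (nat_lit 975939021545029993)]]]]],[[[[[Int.ofNat (nat_lit 7082651021016665934)]]]]]],[[[],[[[[Int.ofNat (nat_lit 1859030204069923236)]]]]]],[[[[[[Int.negSucc (nat_lit 9852685904098406926)]]]]]]],[[[[[[[Int.negSucc (nat_lit 11580017550445429479)]]]]]]],[[[[[[[Int.ofNat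 (nat_lit 21843704055578143888)]]]]]]]],[[[[[],[[[[Int.ofNat (nat_lit 1149226358331753524)]]]]]],[[[[[[Int.ofNat (nat_lit 9190163923524927738)]]]]]]]],[[[[[[[[Int.negSucc (nat_lit 27281224936302721517)]]]]]]]]],[[[[[[[[[Int.negSucc (nat_lit 91848338220211963373)],[Int.ofNat (nat_lit 906474474309926758)]]],[[[Int.negSucc (nat_lit 35714722984859033)]]]]],[[[[[Int.negSucc (nat_lit 2390710777926009869)],[Int.negSucc (nat_lit 118049613855529897)]]],[[[Int.ofNat (nat_lit 778700214137112616)]]]]],[[[[[Int.negSucc (nat_lit 2563439745064461569)]]]]]],[[[[[],[[Int.negSucc (nat_lit 1199946584381722603)]]]],[[[[Int.ofNat (nat_lit 567444221095790190)]]]]]],[[[[[[Int.ofNat (nat_lit 36435096015983334904)]]]]],[[[[[Int.negSucc (nat_lit 31088850576707493)]]]]]]],[[[[[[[Int.ofNat (nat_lit 57672253300881906758)],[Int.negSucc (nat_lit 129327172310245793)]]],[[[Int.ofNat (nat_lit 2488254539531486392)]]]]],[[[[[Int.ofNat (nat_lit 5698416918096185466)]]]]]],[],[[[[[[Int.ofNat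 (nat_lit 2169204038411391172)]]]]]]],[[[[[[[Int.negSucc (nat_lit 14618982231977400573)]]]]],[[[[[Int.ofNat (nat_lit 332063199710853402)]]]]]]],[[[[[[[Int.ofNat (nat_lit 3407953382210393056)]]]]]]]],[[[[[[[],[[Int.ofNat (nat_lit 5816635737486478710)]]]],[[[[Int.negSucc (nat_lit 21419927692777407861)]]]]],[[],[[[[Int.negSucc (nat_lit 482340879203124437)]]]]]],[[[[[[Int.negSucc (nat_lit 22089266331036733393)]]]]],[[[[[Int.ofNat (nat_lit 934953200042420570)]]]]]]],[[[[],[[[[Int.negSucc (nat_lit 929469631839441211)]]]]]],[[[[[[Int.negSucc (nat_lit 25444264876086612627)]]]]]]]],[[[[[[[[Int.ofNat (nat_lit 99292745843046799754)],[Int.ofNat (nat_lit 2918895569555846)]]],[[[Int.ofNat (nat_lit 1165406780196640514)]]]]],[[[[[Int.ofNat (nat_lit 10207413311806030750)]]]]]],[],[[[[[[Int.ofNat (nat_lit 476030657686461626)]]]]]]],[[[[[[[Int.negSucc (nat_lit 6348099945174511379)]]]]]]],[[[[[[[Int.ofNat (nat_lit 999437327073345782)]]]]]]]],[[[[[],[[[[Int.negSucc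 (nat_lit 1386854250159386273)]]]]]],[[[[[[Int.ofNat (nat_lit 355253448426666690)]]]]]]]],[[[[[[[[Int.negSucc (nat_lit 9188988065516340845)]]]]]]]]],[[[[[[[[[Int.negSucc (nat_lit 159803195570227580733)],[Int.negSucc (nat_lit 229958839105653129)]]],[[[Int.negSucc (nat_lit 1506243608570455061)]]]]],[[[[[Int.ofNat (nat_lit 19307019146379826794)]]]]],[[[[[Int.negSucc (nat_lit 822362372546547226)]]]]]],[],[[[[[[Int.ofNat (nat_lit 19913196242895363423)]]]]]]],[[[[[[[Int.ofNat (nat_lit 54521473543867730404)]]]]],[[[[[Int.ofNat (nat_lit 1482235113417516702)]]]]]]],[[[[[[[Int.negSucc (nat_lit 9361399332334779808)]]]]]]]],[[[[[],[[[[Int.negSucc (nat_lit 384776979774206609)]]]]]],[[[[[[Int.negSucc (nat_lit 34049662947936009447)]]]]]]]],[[[[[[[[Int.ofNat (nat_lit 80088734051758542820)]]]]],[[[[[Int.ofNat (nat_lit 338400309243549388)]]]]]]],[[[[[[[Int.negSucc (nat_lit 5376436494798727841)]]]]]]]],[],[[[[[[[[Int.negSucc (nat_lit 3662991904214011844)]]]]]]]]],[[[[[[[[[Int.negSucc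 (nat_lit 122457575795768977175)],[Int.ofNat (nat_lit 135942459820147950)]]],[[[Int.ofNat (nat_lit 737249598974485820)]]]]],[[[[[Int.ofNat (nat_lit 12305883383939267894)]]]]]],[],[[[[[[Int.ofNat (nat_lit 524060550673010832)]]]]]]],[[[[[[[Int.ofNat (nat_lit 8394162448837347168)]]]]]]],[[[[[[[Int.ofNat (nat_lit 1182672428034553076)]]]]]]]],[[[[[],[[[[Int.negSucc (nat_lit 1286236255704419799)]]]]]],[[[[[[Int.ofNat (nat_lit 1143491461675217258)]]]]]]]],[[[[[[[[Int.negSucc (nat_lit 20095777765483509247)]]]]]]]]],[[[[[[[[[Int.negSucc (nat_lit 53878278725920627238)]]]]],[[[[[Int.ofNat (nat_lit 1029422081857184064)]]]]]]],[[[[[[[Int.negSucc (nat_lit 4715694849513422619)]]]]]]]],[],[[[[[[[[Int.negSucc (nat_lit 5789229691855320029)]]]]]]]]],[[[[[[[[[Int.negSucc (nat_lit 14990627996855718267)]]]]]]]]],[[[[[[[[[Int.negSucc (nat_lit 3944796822119347053)]]]]]]]]]]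

/-- A coefficient. -/
noncomputable def sr2_m0_0_3 : MP 10 :=
  [[[[[[[[[],[[Int.negSucc (nat_lit 1555994611938909263)],[Int.ofNat (nat_lit 2049218999940104)]]],[[],[[Int.ofNat (nat_lit 1793224637160320142)]]]],[[[[Int.negSucc (nat_lit 12317394195442187119)],[Int.negSucc (nat_lit 647575277964309191)]]],[[[Int.negSucc (nat_lit 1016291689360315925)]]]]],[[[[],[[Int.ofNat (nat_lit 5081119954889230480)]]]],[[[[Int.ofNat (nat_lit 1810682906917335182)]]]]]],[[[[[[Int.ofNat (nat_lit 69733793871540391776)],[Int.negSucc (nat_lit 352042629154812977)]]],[[[Int.ofNat (nat_lit 2696301634757185710)]]]]],[[[[[Int.negSucc (nat_lit 15987818316629076693)]]]]]],[[[[[],[[Int.ofNat (nat_lit 1895270441109513800)]]]],[[[[Int.negSucc (nat_lit 1523283961060923305)]]]]]],[[[[[[Int.ofNat (nat_lit 150606563242635994)]]]]]]],[[[[[[],[[Int.negSucc (nat_lit 8662423355102751075)]]]],[[[[Int.ofNat (nat_lit 493277760374858092)]]]]]],[[[[[[Int.ofNat (nat_lit 40455998290486446472)]]]]]]],[[[[[[],[[Int.ofNat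 (nat_lit 3178245881831881192)]]]],[[[[Int.negSucc (nat_lit 3028728756192847105)]]]]]],[[[[[[Int.negSucc (nat_lit 66265991643557613)]]]]]]]],[[[[[[[[Int.negSucc (nat_lit 134319742245609062201)],[Int.ofNat (nat_lit 2699276114295448572)]]],[[[Int.negSucc (nat_lit 6769476630881533899)]]]],[[[],[[Int.negSucc (nat_lit 1655431002589452969)]]]],[[[[Int.ofNat (nat_lit 3238580875859283818)]]]]],[[[[[Int.ofNat (nat_lit 31276571707552518854)]]]]]],[[[[[],[[Int.ofNat (nat_lit 1256882064131970986)]]]],[[[[Int.negSucc (nat_lit 8869865560749370637)]]]]]],[[[[[[Int.ofNat (nat_lit 34868545534937752972)]]]]]]],[[[[[[[Int.negSucc (nat_lit 79486932950796294023)],[Int.negSucc (nat_lit 729274630205579699)]]],[[[Int.negSucc (nat_lit 1533644458717116547)]]]]],[[[[[Int.ofNat (nat_lit 4516214018887290352)]]]]]],[],[[[[[[Int.ofNat (nat_lit 818933238050385180)]]]]]]],[[[[[[[Int.negSucc (nat_lit 18689676055008871895)]]]]]]],[[[[[[[Int.negSucc (nat_lit 1093851486058518299)]]]]]]]],[[[[[[[],[[Int.negSucc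 (nat_lit 12518552021195370183)]]]],[[[[Int.ofNat (nat_lit 11141267300960397968)]]]]]],[[[[[[Int.negSucc (nat_lit 62796950665691270747)]]]]]]],[[[[],[[[[Int.ofNat (nat_lit 1644754403142773706)]]]]]],[[[[[[Int.negSucc (nat_lit 2357032738603871201)]]]]]]]],[[[[[[[[Int.ofNat (nat_lit 22296588229837637634)]]]]]]],[[[[[[[Int.negSucc (nat_lit 18582161523327513747)]]]]]]]]],[[[[[[[[],[[Int.negSucc (nat_lit 27432313944267106629)]]]],[[[[Int.ofNat (nat_lit 19196200915375235340)]]]]],[[[[],[[Int.negSucc (nat_lit 35854677671235607)]]]],[[[[Int.ofNat (nat_lit 408378862557806904)]]]]]],[[[[[[Int.ofNat (nat_lit 14636558587817862762)],[Int.negSucc (nat_lit 480235160655787537)]]],[[[Int.ofNat (nat_lit 4265810912936283858)]]]]],[[[[[Int.negSucc (nat_lit 16967874090288540665)]]]]]],[],[[[[[[Int.negSucc (nat_lit 2077726899746740195)]]]]]]],[[[[[[],[[Int.negSucc (nat_lit 2564894315812844489)]]]],[[[[Int.ofNat (nat_lit 186815523763763772)]]]]]],[[[[[[Int.ofNat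 (nat_lit 35609243299009335132)]]]]]]],[[],[[[[[[Int.negSucc (nat_lit 480867613270011491)]]]]]]]],[[[[[[[[Int.negSucc (nat_lit 121590905315789160953)],[Int.ofNat (nat_lit 2246975186033382246)]]],[[[Int.negSucc (nat_lit 6238058479455689959)]]]]],[[[[[Int.ofNat (nat_lit 22789105058088368676)]]]]]],[[[],[[[[Int.negSucc (nat_lit 963859350570579051)]]]]]],[[[[[[Int.ofNat (nat_lit 3482779960085466802)]]]]]]],[[[[[[[Int.negSucc (nat_lit 118506800178260705021)]]]]],[[[[[Int.ofNat (nat_lit 1719971638447303894)]]]]]]],[[[[[[[Int.ofNat (nat_lit 8057883223374814906)]]]]]]]],[[[[[[[],[[Int.negSucc (nat_lit 2851751797792066061)]]]],[[[[Int.negSucc (nat_lit 1359288669483207539)]]]]]],[[[[[[Int.ofNat (nat_lit 53866703711658615208)]]]]]]]],[[[[[[[[Int.negSucc (nat_lit 107036088153435228959)]]]]]]],[[[[[[[Int.ofNat (nat_lit 3043415756986745608)]]]]]]]]],[[[[[[[[],[[Int.negSucc (nat_lit 13386647918349229471)]]]],[[[[Int.ofNat (nat_lit 3985181681976918134)]]]]]],[[[[[[Int.ofNat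 (nat_lit 87714869640848575432)]]]]],[[[[[Int.negSucc (nat_lit 4454165225730372259)]]]]]]],[[],[[[[[[Int.negSucc (nat_lit 718926190334380347)]]]]]]]],[[[[[[[[Int.negSucc (nat_lit 208215033390683919041)]]]]],[[[[[Int.ofNat (nat_lit 7241590523091472410)]]]]]]],[[[[[[[Int.negSucc (nat_lit 28138085147965209643)]]]]]]]],[[[],[[[[[[Int.negSucc (nat_lit 719639571319995123)]]]]]]]],[[[[[[[[Int.ofNat (nat_lit 5123205920495352824)]]]]]]]]],[[[[[[[[],[[Int.negSucc (nat_lit 3560209061480944783)]]]],[[[[Int.ofNat (nat_lit 451063129355681304)]]]]]],[[[[[[Int.ofNat (nat_lit 39679475470911531112)]]]]]]]],[[[[[[[[Int.negSucc (nat_lit 18433614586084942931)]]]]]]],[[[[[[[Int.ofNat (nat_lit 2903004596460727926)]]]]]]]]],[[[[],[[[[[[Int.ofNat (nat_lit 3029389701845775832)]]]]]]]],[[[[[[[[Int.negSucc (nat_lit 3422905551684810987)]]]]]]]]]]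

/-- A coefficient. -/
noncomputable def sr2_m0_0_4 : MP 10 :=
  [[[[[[[[[[Int.ofNat (nat_lit 196973478391568696562)],[Int.negSucc (nat_lit 1575358390461937801)]],[],[[Int.negSucc (nat_lit 2528176402923731729)]]],[[[Int.ofNat (nat_lit 13306943631993680740)]]]],[[[],[[Int.ofNat (nat_lit 1967441889344074704)]]]],[[[[Int.negSucc (nat_lit 12601451508556888766)]]]]],[[[[[Int.negSucc (nat_lit 18340507444395710305)],[Int.negSucc (nat_lit 89164564069825391)]]],[[[Int.ofNat (nat_lit 2977611623262101150)]]]]],[[[[[Int.ofNat (nat_lit 16149778364989096604)]]]]]],[[[[[],[[Int.ofNat (nat_lit 10378596382639286406)]]]],[[[[Int.ofNat (nat_lit 10310556728147426344)]]]]]],[[[[[[Int.negSucc (nat_lit 101011126735863518435)]]]]],[[[[[Int.ofNat (nat_lit 1228829960387942376)]]]]]]],[[[[[[[Int.negSucc (nat_lit 107258707151633728739)],[Int.ofNat (nat_lit 884524377680604968)]]],[[[Int.negSucc (nat_lit 8043347301079493905)]]]]],[[[[[Int.negSucc (nat_lit 35337115296078886679)]]]]]],[],[[[[[[Int.negSucc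 (nat_lit 412373638771955807)]]]]]]],[[[[[[[Int.ofNat (nat_lit 146889255208905563463)]]]]],[[[[[Int.ofNat (nat_lit 3166770585407191652)]]]]]]],[[[[[[[Int.negSucc (nat_lit 521432728154148911)]]]]]]]],[[[[[[[],[[Int.ofNat (nat_lit 9842116865898956754)]]]],[[[[Int.negSucc (nat_lit 2760578260028576749)]]]]],[[],[[[[Int.negSucc (nat_lit 1863275430595748659)]]]]]],[[[[[[Int.ofNat (nat_lit 260275728277938163184)]]]]],[[[[[Int.ofNat (nat_lit 989570963516838346)]]]]]]],[[[[[[],[[Int.negSucc (nat_lit 565643144920503455)]]]],[[[[Int.negSucc (nat_lit 6641279701914833285)]]]]]],[[[[[[Int.ofNat (nat_lit 30226621187411839548)]]]]]]]],[[[[[[[[Int.negSucc (nat_lit 372369534768300070622)],[Int.negSucc (nat_lit 565314912352701605)]]],[[[Int.ofNat (nat_lit 4099467311430816574)]]]]],[[[[[Int.negSucc (nat_lit 44533645891091352891)]]]]]],[],[[[[[[Int.ofNat (nat_lit 1148278777914621106)]]]]]]],[[[[[[[Int.ofNat (nat_lit 78261433454112486846)]]]]]]],[[[[[[[Int.negSucc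 (nat_lit 21839668598259642799)]]]]]]]],[[[[[],[[[[Int.negSucc (nat_lit 1625329990093792979)]]]]]],[[[[[[Int.negSucc (nat_lit 3022414679411772681)]]]]]]]],[[[[[[[[Int.ofNat (nat_lit 146179866578499052845)]]]]]]]]],[[[[[[[[[Int.ofNat (nat_lit 462628250351258201244)],[Int.ofNat (nat_lit 174903318097512912)]]],[[[Int.negSucc (nat_lit 5000883042070441725)]]]]],[[[[[Int.negSucc (nat_lit 20255586532199007019)]]]]],[[[[[Int.ofNat (nat_lit 127088430440849682)]]]]]],[[[[[],[[Int.ofNat (nat_lit 1199946584381722604)]]]],[[[[Int.negSucc (nat_lit 567444221095790189)]]]]]],[[[[[[Int.negSucc (nat_lit 57450710728327662855)]]]]]]],[[[[[[[Int.negSucc (nat_lit 104336489324138409157)]]]]],[[[[[Int.negSucc (nat_lit 3666310972612968357)]]]]]]],[[[[[[[Int.negSucc (nat_lit 8516336650185694593)]]]]]]]],[[[[[[[],[[Int.negSucc (nat_lit 5816635737486478709)]]]],[[[[Int.ofNat (nat_lit 28511326415664215200)]]]]]],[[[[[[Int.ofNat (nat_lit 11501135371555389234)]]]]]]],[[],[[[[[[Int.ofNat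 (nat_lit 19183142982047028936)]]]]]]]],[[[[[[[[Int.ofNat (nat_lit 113186807658134173772)]]]]],[[[[[Int.negSucc (nat_lit 10629894037429522239)]]]]]]],[[[[[[[Int.ofNat (nat_lit 1150877386846890172)]]]]]]]],[],[[[[[[[[Int.ofNat (nat_lit 5111924546906998712)]]]]]]]]],[[[[[[[[[Int.ofNat (nat_lit 683724842883853722087)],[Int.ofNat (nat_lit 674107243021161352)]]],[[[Int.negSucc (nat_lit 358539049209261527)]]]]],[[[[[Int.negSucc (nat_lit 42940544333345196691)]]]]]],[],[[[[[[Int.negSucc (nat_lit 20112220900274059780)]]]]]]],[[[[[[[Int.negSucc (nat_lit 31587416129864256603)]]]]]]],[[[[[[[Int.negSucc (nat_lit 2086529001514900941)]]]]]]]],[[[[[],[[[[Int.negSucc (nat_lit 139144816108328099)]]]]]],[[[[[[Int.ofNat (nat_lit 34860714484003764052)]]]]]]]],[[[[[[[[Int.negSucc (nat_lit 19356781557883077187)]]]]]]]]],[[[[[[[[[Int.ofNat (nat_lit 385668705423488454924)]]]]],[[[[[Int.negSucc (nat_lit 9912112895283049163)]]]]]]],[[[[[[[Int.negSucc (nat_lit 7107478363208202171)]]]]]]]],[],[[[[[[[[Int.ofNat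 (nat_lit 12064148861385892932)]]]]]]]]],[[[[[[[[[Int.ofNat (nat_lit 133016156654743501933)]]]]]]]]],[[[[[[[[[Int.ofNat (nat_lit 6518272273140455434)]]]]]]]]]]

/-- A coefficient. -/
noncomputable def sr2_m0_0_5 : MP 10 :=
  [[[[[[[[[],[[Int.ofNat (nat_lit 3133333040875485664)]]]],[[[[Int.negSucc (nat_lit 2688497527564315287)]]]]],[[[[],[[Int.negSucc (nat_lit 8018261831379902039)]]]],[[[[Int.ofNat (nat_lit 2556711263387113712)]]]]]],[[[[[[Int.negSucc (nat_lit 226026667223435411607)],[Int.ofNat (nat_lit 123789597279887576)]]],[[[Int.ofNat (nat_lit 1912404209998000106)]]]]],[[[[[Int.ofNat (nat_lit 54843647329056347114)]]]]]],[],[[[[[[Int.negSucc (nat_lit 475603101776781077)]]]]]]],[[[[[[],[[Int.ofNat (nat_lit 7767982618538814184)]]]],[[[[Int.negSucc (nat_lit 536249230988087749)]]]]]],[[[[[[Int.negSucc (nat_lit 105271070154766403315)]]]]]]],[[],[[[[[[Int.ofNat (nat_lit 3003767050729934610)]]]]]]]],[[[[[[[[Int.ofNat (nat_lit 487984314926917018424)],[Int.negSucc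 (nat_lit 541905353217987951)]]],[[[Int.negSucc (nat_lit 810098608105415437)]]]]],[[[[[Int.ofNat (nat_lit 23533245921256104262)]]]]]],[[[],[[[[Int.negSucc (nat_lit 2731150671665195969)]]]]]],[[[[[[Int.negSucc (nat_lit 5745592822155168635)]]]]]]],[[[[[[[Int.ofNat (nat_lit 167203994590331477770)]]]]],[[[[[Int.negSucc (nat_lit 741821743485854661)]]]]]]],[[[[[[[Int.ofNat (nat_lit 21267243481252022482)]]]]]]]],[[[[[[[],[[Int.ofNat (nat_lit 10630145476326150312)]]]],[[[[Int.negSucc (nat_lit 5880063144230657583)]]]]]],[[[[[[Int.negSucc (nat_lit 102682365891322309223)]]]]]]]],[[[[[[[[Int.negSucc (nat_lit 273619414714485286085)]]]]]]],[[[[[[[Int.ofNat (nat_lit 19399109523445989760)]]]]]]]]],[[[[[[[[],[[Int.ofNat (nat_lit 36516088401565311898)]]]],[[[[Int.negSucc (nat_lit 29415683907758125399)]]]]]],[[[[[[Int.negSucc (nat_lit 132947620509425189587)]]]]],[[[[[Int.ofNat (nat_lit 2245951285624573168)]]]]]]],[[],[[[[[[Int.negSucc (nat_lit 14428349640807269293)]]]]]]]],[[[[[[[[Int.negSucc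 (nat_lit 201847676482104677629)]]]]],[[[[[Int.negSucc (nat_lit 5936575686107263095)]]]]]]],[[[[[[[Int.ofNat (nat_lit 113274394406471995742)]]]]]]]],[[[],[[[[[[Int.negSucc (nat_lit 49682442937686760699)]]]]]]]],[[[[[[[[Int.ofNat (nat_lit 101289545662579646082)]]]]]]]]],[[[[[[[[],[[Int.ofNat (nat_lit 9737687051525311302)]]]],[[[[Int.negSucc (nat_lit 4259467250238049303)]]]]]],[[[[[[Int.negSucc (nat_lit 162232784307526009397)]]]]]]]],[[[[[[[[Int.ofNat (nat_lit 143946410445460973366)]]]]]]],[[[[[[[Int.ofNat (nat_lit 27328549897148185052)]]]]]]]]],[[[[],[[[[[[Int.negSucc (nat_lit 28928663338411490895)]]]]]]]],[[[[[[[[Int.ofNat (nat_lit 417352519936457166)]]]]]]]]]]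

/-- A coefficient. -/
noncomputable def sr2_m0_0_6 : MP 10 :=
  [[[[[[[[[[Int.negSucc (nat_lit 637043843427369961939)],[Int.ofNat (nat_lit 1172852379353082024)]]],[[[Int.negSucc (nat_lit 4691665007248715427)]]]]],[[[[[Int.negSucc (nat_lit 4260491416431059637)]]]]],[[[[[Int.negSucc (nat_lit 19324590629378583279)]]]]]],[[[[[],[[Int.negSucc (nat_lit 14441638140536850287)]]]],[[[[Int.ofNat (nat_lit 5399676276418295832)]]]]]],[[[[[[Int.ofNat (nat_lit 190279653364623684021)]]]]]]],[[[[[[[Int.ofNat (nat_lit 12034493593132158168)]]]]],[[[[[Int.ofNat (nat_lit 42536208908497513346)]]]]]]],[[[[[[[Int.negSucc (nat_lit 143946103699391655320)]]]]]]]],[[[[[[[],[[Int.negSucc (nat_lit 9106338564610584447)]]]],[[[[Int.negSucc (nat_lit 343370805501868089)]]]]]],[[[[[[Int.negSucc (nat_lit 157624363450091958907)]]]]]]],[[],[[[[[[Int.negSucc (nat_lit 12199946918285567135)]]]]]]]],[[[[[[[[Int.ofNat (nat_lit 387931037947991008416)]]]]],[[[[[Int.ofNat (nat_lit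 37649928781883419474)]]]]]]],[[[[[[[Int.negSucc (nat_lit 68625614656321178011)]]]]]]]],[],[[[[[[[[Int.negSucc (nat_lit 126145443927075240414)]]]]]]]]],[[[[[[[[[Int.negSucc (nat_lit 722987884072107601681)],[Int.negSucc (nat_lit 854965639531822241)]]],[[[Int.ofNat (nat_lit 3927188386396777066)]]]]],[[[[[Int.ofNat (nat_lit 2530279234760226820)]]]]]],[],[[[[[[Int.ofNat (nat_lit 20623518920576931372)]]]]]]],[[[[[[[Int.ofNat (nat_lit 115415234489446771560)]]]]]]],[[[[[[[Int.ofNat (nat_lit 6338181249709589460)]]]]]]]],[[[[[],[[[[Int.negSucc (nat_lit 6777188770284174461)]]]]]],[[[[[[Int.ofNat (nat_lit 12832985562355690736)]]]]]]]],[[[[[[[[Int.negSucc (nat_lit 183066277350283236783)]]]]]]]]],[[[[[[[[[Int.negSucc (nat_lit 1059422723115218278492)]]]]],[[[[[Int.ofNat (nat_lit 27035013642392231648)]]]]]]],[[[[[[[Int.negSucc (nat_lit 3371333445303787311)]]]]]]]],[],[[[[[[[[Int.negSucc (nat_lit 60559495960786284621)]]]]]]]]],[[[[[[[[[Int.negSucc (nat_lit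 370592610600703057603)]]]]]]]]],[[[[[[[[[Int.negSucc (nat_lit 91407144038525216890)]]]]]]]]]]

/-- A coefficient. -/
noncomputable def sr2_m0_0_7 : MP 10 :=
  [[[[[[[[[],[[Int.ofNat (nat_lit 4160359279743398628)]]]],[[[[Int.ofNat (nat_lit 43708937595908021446)]]]]]],[[[[[[Int.ofNat (nat_lit 381240083829012000596)]]]]],[[[[[Int.negSucc (nat_lit 54660449332010161945)]]]]]]],[[],[[[[[[Int.ofNat (nat_lit 85142136052252103722)]]]]]]]],[[[[[[[[Int.negSucc (nat_lit 435636549417903642485)]]]]],[[[[[Int.negSucc (nat_lit 36280064241391686815)]]]]]]],[[[[[[[Int.negSucc (nat_lit 103587040388570638079)]]]]]]]],[[[],[[[[[[Int.ofNat (nat_lit 127899422911537993052)]]]]]]]],[[[[[[[[Int.ofNat (nat_lit 275198101494353418330)]]]]]]]]],[[[[[[[[],[[Int.negSucc (nat_lit 10304423360555471129)]]]],[[[[Int.ofNat (nat_lit 11449352676661864660)]]]]]],[[[[[[Int.ofNat (nat_lit 105576883447777909436)]]]]]]]],[[[[[[[[Int.ofNat (nat_lit 365923552141799713816)]]]]]]],[[[[[[[Int.negSucc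 (nat_lit 22382893867353846311)]]]]]]]]],[[[[],[[[[[[Int.ofNat (nat_lit 85416753787535615026)]]]]]]]],[[[[[[[[Int.ofNat (nat_lit 36393156093284368722)]]]]]]]]]]

/-- A coefficient. -/
noncomputable def sr2_m0_0_8 : MP 10 :=
  [[[[[[[[[[Int.ofNat (nat_lit 566597974134836415262)],[Int.negSucc (nat_lit 743923300534916297)]]],[[[Int.ofNat (nat_lit 619753185843967292)]]]]],[[[[[Int.ofNat (nat_lit 15122375152012750192)]]]]]],[],[[[[[[Int.negSucc (nat_lit 149213016015221742066)]]]]]]],[[[[[[[Int.ofNat (nat_lit 137972610474749113206)]]]]]]],[[[[[[[Int.ofNat (nat_lit 4376835615023266800)]]]]]]]],[[[[[],[[[[Int.negSucc (nat_lit 3204539502934741823)]]]]]],[[[[[[Int.ofNat (nat_lit 4524443452321209946)]]]]]]]],[[[[[[[[Int.negSucc (nat_lit 291712692072935199369)]]]]]]]]],[[[[[[[[[Int.ofNat (nat_lit 61766833581219466662)]]]]],[[[[[Int.ofNat (nat_lit 16634281929280432782)]]]]]]],[[[[[[[Int.negSucc (nat_lit 44765969546018939177)]]]]]]]],[],[[[[[[[[Int.negSucc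 (nat_lit 25522090193562636437)]]]]]]]]],[[[[[[[[[Int.ofNat (nat_lit 380645863838697647052)]]]]]]]]],[[[[[[[[[Int.ofNat (nat_lit 85226047361672674262)]]]]]]]]]]

/-- A coefficient. -/
noncomputable def sr2_m0_0_9 : MP 10 :=
  [[[[[[[[[],[[Int.negSucc (nat_lit 7130891563817957593)]]]],[[[[Int.negSucc (nat_lit 26591110735865888859)]]]]]],[[[[[[Int.negSucc (nat_lit 286885880286764746195)]]]]]]]],[[[[[[[[Int.ofNat (nat_lit 91197353022724477050)]]]]]]],[[[[[[[Int.negSucc (nat_lit 5726372575501745045)]]]]]]]]],[[[[],[[[[[[Int.ofNat (nat_lit 3104542887896924880)]]]]]]]],[[[[[[[[Int.negSucc (nat_lit 46302918517621336343)]]]]]]]]]]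

/-- A coefficient. -/
noncomputable def sr2_m0_0_10 : MP 10 :=
  [[[[[[[[[[Int.negSucc (nat_lit 120226279533227076927)]]]]],[[[[[Int.negSucc (nat_lit 12108970446303133745)]]]]]]],[[[[[[[Int.negSucc (nat_lit 39831660554876777829)]]]]]]]],[],[[[[[[[[Int.ofNat (nat_lit 148851709358201708830)]]]]]]]]],[[[[[[[[[Int.ofNat (nat_lit 273051168427074598200)]]]]]]]]],[[[[[[[[[Int.ofNat (nat_lit 128410286285963737580)]]]]]]]]]]

/-- A coefficient. -/
noncomputable def sr2_m0_0_11 : MP 10 :=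
  [[[[[],[[[[[[Int.ofNat (nat_lit 49278758141255562666)]]]]]]]]]]

/-- A coefficient. -/
noncomputable def sr2_m0_1_0 : MP 10 :=
  [[[[[[[[[[Int.negSucc (nat_lit 40309999220185092319)],[Int.negSucc (nat_lit 620413301492938141)]]],[[[Int.ofNat (nat_lit 6481331983780612978)],[Int.ofNat (nat_lit 263081980494517230)]]],[[[Int.negSucc (nat_lit 4352463748887995257)]]]]],[[[[[Int.negSucc (nat_lit 32454148341216523077)],[Int.negSucc (nat_lit 454372863534637787)]]],[[[Int.ofNat (nat_lit 13194049466317411834)]]]]],[[[[[Int.negSucc (nat_lit 23483400793537580885)]]]]]],[],[[[[[[Int.negSucc (nat_lit 5343962005807221839)]]],[[[Int.negSucc (nat_lit 1367128233354448063)]]]]],[[[[[Int.ofNat (nat_lit 739173447268247452)]]]]]]],[[[[[[[Int.ofNat (nat_lit 75616111249116949982)],[Int.ofNat (nat_lit 1219752823863640992)]]],[[[Int.negSucc (nat_lit 4559874193865777951)]]]]],[[[[[Int.ofNat (nat_lit 28240507142648837126)]]]]]],[],[[[[[[Int.ofNat (nat_lit 7998025694099260772)]]]]]]],[[[[[[[Int.negSucc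 (nat_lit 64903302423645516841)]]],[[[Int.negSucc (nat_lit 2205028187459913643)]]]]],[[[[[Int.ofNat (nat_lit 3413251563604805280)]]]]]]],[[[[[[[Int.ofNat (nat_lit 10505242677698125624)]]]]]]]],[[[[[],[[[[Int.ofNat (nat_lit 2818458838213713540)]]],[[[Int.ofNat (nat_lit 1231116916750854940)]]]]],[[],[[[[Int.negSucc (nat_lit 1620570290148151153)]]]]]],[[[[[[Int.ofNat (nat_lit 4416333394928789592)],[Int.negSucc (nat_lit 243481054133696329)]]],[[[Int.negSucc (nat_lit 1512565615005693233)]]]]],[[[[[Int.ofNat (nat_lit 7566502500856782472)]]]]]],[],[[[[[[Int.negSucc (nat_lit 3534315967847619761)]]]]]]],[[[[],[[[[Int.negSucc (nat_lit 2825580407696174003)]]]]]],[[[[[[Int.negSucc (nat_lit 17668982868384529281)]]]]]]],[[],[[[[[[Int.negSucc (nat_lit 2290008881083659241)]]]]]]]],[[[[[[[[Int.ofNat (nat_lit 15583874340756826600)],[Int.negSucc (nat_lit 558036837413260489)]]],[[[Int.ofNat (nat_lit 4324250453200996170)]]]]],[[[[[Int.negSucc (nat_lit 3493543367525634505)]]]]]],[[[],[[[[Int.ofNat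 (nat_lit 2712894247054555528)]]]]]],[[[[[[Int.negSucc (nat_lit 21196333375486561927)]]]]]]],[[[[[[[Int.negSucc (nat_lit 20389071395464775353)]]]]]]],[[[[[[[Int.ofNat (nat_lit 5454592581849057196)]]]]]]]],[[[[[],[[[[Int.negSucc (nat_lit 627019455396258119)]]]]]],[[[[[[Int.ofNat (nat_lit 10163002332288544738)]]]]]]]],[[[[[[[[Int.negSucc (nat_lit 37684721844189053581)]]]]]]]]],[[[[[[[[[Int.negSucc (nat_lit 106995765486423355489)],[Int.ofNat (nat_lit 1564002310492450062)]]],[[[Int.negSucc (nat_lit 10181677344959629279)]]]]],[[[[[Int.negSucc (nat_lit 8288016902440638211)]]],[[[Int.ofNat (nat_lit 1440009305275286242)]]]]],[[[[[Int.negSucc (nat_lit 3354764729705677651)]]]]]],[],[[[[[[Int.negSucc (nat_lit 2892948850310053673)]]]]]]],[[[[[[[Int.ofNat (nat_lit 100529640292368513308)],[Int.negSucc (nat_lit 295257321494650569)]]],[[[Int.ofNat (nat_lit 4014795469626511520)]]]]],[[[[[Int.ofNat (nat_lit 14947107019599113004)]]]]]],[],[[[[[[Int.negSucc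 (nat_lit 1881375740838905891)]]]]]]],[[[[[[[Int.negSucc (nat_lit 65089344124988123781)]]]]]]],[[[[[[[Int.negSucc (nat_lit 2163580108837490471)]]]]]]]],[[[[[],[[[[Int.ofNat (nat_lit 4020111790331434118)]]]]]],[[[[[[Int.negSucc (nat_lit 1172532084497660373)]]]]],[[[[[Int.ofNat (nat_lit 896118849892539290)]]]]]]],[[[[],[[[[Int.ofNat (nat_lit 1485394553057032214)]]]]]],[[[[[[Int.negSucc (nat_lit 19029203190396348321)]]]]]]]],[[[[[[[[Int.ofNat (nat_lit 27553937017611874364)]]],[[[Int.ofNat (nat_lit 1417794821727385208)]]]]],[[[[[Int.ofNat (nat_lit 323105664767458384)]]]]]]],[[[[[[[Int.negSucc (nat_lit 22376742220448876419)]]]]]]]],[[[],[[[[[[Int.ofNat (nat_lit 30136282587410814)]]]]]]]],[[[[[[[[Int.negSucc (nat_lit 2671368145857845143)]]]]]]]]],[[[[[[[[[Int.negSucc (nat_lit 141524093528309404711)],[Int.ofNat (nat_lit 1713833466658413728)]]],[[[Int.negSucc (nat_lit 5283561695054301811)]]]]],[[[[[Int.ofNat (nat_lit 14566147314306307246)]]]]]],[],[[[[[[Int.ofNat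 (nat_lit 6953100884101715220)]]]]]]],[[[[[[[Int.ofNat (nat_lit 37373630575940821268)]]]]],[[[[[Int.ofNat (nat_lit 1733357306006856978)]]]]]]],[[[[[[[Int.negSucc (nat_lit 19337260456426627375)]]]]]]]],[[[[[],[[[[Int.negSucc (nat_lit 3040320408340068429)]]]]]],[[[[[[Int.negSucc (nat_lit 506457791852976799)]]]]]]]],[[[[[[[[Int.ofNat (nat_lit 4463329864819479814)]]]]]]],[[[[[[[Int.negSucc (nat_lit 3485256275223956295)]]]]]]]]],[[[[[[[[[Int.negSucc (nat_lit 103141670400788667019)]]],[[[Int.ofNat (nat_lit 541399602755263790)]]]]],[[[[[Int.ofNat (nat_lit 5957635885744703298)]]]]]]],[[[[[[[Int.negSucc (nat_lit 8693518141579464237)]]]]]]]],[[[],[[[[[[Int.ofNat (nat_lit 1675740032552984000)]]]]]]]],[[[[[[[[Int.negSucc (nat_lit 8786624238597268355)]]]]]]]]],[[[[[[[[[Int.negSucc (nat_lit 39790803159110608689)]]]]]]],[[[[[[[Int.negSucc (nat_lit 1742667313295375305)]]]]]]]]],[[[[[[[[[Int.negSucc (nat_lit 8997724075768776743)]]]]]]]]]]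

/-- A coefficient. -/
noncomputable def sr2_m0_1_1 : MP 10 :=
  [[[[[[[[[],[[Int.ofNat (nat_lit 2299449386393578872)]]],[[],[[Int.ofNat (nat_lit 2268922819897057156)]]]],[[[[Int.negSucc (nat_lit 927569011319940985)],[Int.negSucc (nat_lit 1146534092901739247)]]],[[[Int.ofNat (nat_lit 4412264250710909502)]]]]],[[[[],[[Int.negSucc (nat_lit 6266920869398872763)]]]],[[[[Int.ofNat (nat_lit 7365912962871954088)]]]]]],[[[[[[Int.negSucc (nat_lit 50750868015893214501)],[Int.negSucc (nat_lit 277039178296293887)]]],[[[Int.ofNat (nat_lit 7606430743945825176)]]]]],[[[[[Int.negSucc (nat_lit 57174725136995911541)]]]]]],[[[],[[[[Int.ofNat (nat_lit 5618655420730037082)]]]]]],[[[[[[Int.negSucc (nat_lit 2470679155075254063)]]]]]]],[[[[[[],[[Int.negSucc (nat_lit 4269026766649160195)]]]],[[[[Int.ofNat (nat_lit 6483443779356243890)]]]]]],[[[[[[Int.ofNat (nat_lit 96963136781027418316)]]]]]]],[[[[],[[[[Int.ofNat (nat_lit 7389542732932206710)]]]]]],[[[[[[Int.ofNat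 (nat_lit 1572353205539131052)]]]]]]]],[[[[[[[[Int.ofNat (nat_lit 37642389668862353984)],[Int.ofNat (nat_lit 2879216403082478146)]]],[[[Int.negSucc (nat_lit 31249620077543899047)]]]],[],[[[[Int.negSucc (nat_lit 3576719240776838439)]]]]],[[[[[Int.ofNat (nat_lit 68944712644117224836)]]]]]],[[[[[],[[Int.ofNat (nat_lit 2255397749266266248)]]]],[[[[Int.negSucc (nat_lit 16215015586963261665)]]]]]],[[[[[[Int.ofNat (nat_lit 59272131254895562894)]]]]]]],[[[[[[[Int.negSucc (nat_lit 91018950920018260995)]]],[[[Int.negSucc (nat_lit 1960472363458773769)]]]]],[[[[[Int.ofNat (nat_lit 3272344214136802628)]]]]]]],[[[[[[[Int.ofNat (nat_lit 5647463248068502640)]]]]]]]],[[[[[[[],[[Int.negSucc (nat_lit 3444926061653548497)]]]],[[[[Int.ofNat (nat_lit 5699734779887783762)]]]]]],[[[[[[Int.negSucc (nat_lit 69908844198844183073)]]]]]]],[[],[[[[[[Int.negSucc (nat_lit 3342829550655469481)]]]]]]]],[[[[[[[[Int.ofNat (nat_lit 91704517796516996480)]]]]]]],[[[[[[[Int.ofNat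 (nat_lit 4696788628638691032)]]]]]]]]],[[[[[[[[],[[Int.ofNat (nat_lit 4397392036910918682)]]]],[[[[Int.ofNat (nat_lit 5462829816454555924)]]]]],[[],[[[[Int.negSucc (nat_lit 1043634340978740753)]]]]]],[[[[[[Int.negSucc (nat_lit 14554499335381795033)]]],[[[Int.ofNat (nat_lit 7840385990591602164)]]]]],[[[[[Int.negSucc (nat_lit 20312307582601781001)]]]]]]],[[[[[[],[[Int.ofNat (nat_lit 1878270776482413908)]]]],[[[[Int.negSucc (nat_lit 12745337558842629513)]]]]]],[[[[[[Int.ofNat (nat_lit 86673701550505747238)]]]]]]]],[[[[[[[[Int.negSucc (nat_lit 44385592734116967817)],[Int.ofNat (nat_lit 1663818451923994856)]]],[[[Int.negSucc (nat_lit 16154086245164188481)]]]]],[[[[[Int.ofNat (nat_lit 29283144190885598252)]]]]]],[],[[[[[[Int.negSucc (nat_lit 2598906842783804411)]]]]]]],[[[[[[[Int.negSucc (nat_lit 93636805214977071429)]]]]]]],[[[[[[[Int.ofNat (nat_lit 5846945252285939738)]]]]]]]],[[[[[],[[[[Int.negSucc (nat_lit 13047787458580067791)]]]]]],[[[[[[Int.ofNat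 (nat_lit 12454852173561791674)]]]]]]]],[[[[[[[[Int.negSucc (nat_lit 45267248925728394809)]]]]]]]]],[[[[[[[[],[[Int.negSucc (nat_lit 5697507300893901583)]]]],[[[[Int.ofNat (nat_lit 2937769924105114004)]]]]]],[[[[[[Int.ofNat (nat_lit 49818198996398884648)]]]]]]],[[],[[[[[[Int.negSucc (nat_lit 4962371989721826389)]]]]]]]],[[[[[[[[Int.negSucc (nat_lit 125318124645895978103)]]]]],[[[[[Int.ofNat (nat_lit 9795246656673558294)]]]]]]],[[[[[[[Int.negSucc (nat_lit 3603637947258235601)]]]]]]]],[],[[[[[[[[Int.negSucc (nat_lit 16670176274768913723)]]]]]]]]],[[[[[[],[[[[Int.negSucc (nat_lit 10471172564849944581)]]]]]],[[[[[[Int.ofNat (nat_lit 23687124223339702786)]]]]]]]],[[[[[[[[Int.negSucc (nat_lit 74088587575927001697)]]]]]]]]],[[],[[[[[[[[Int.negSucc (nat_lit 15038888433892466467)]]]]]]]]]]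

/-- A coefficient. -/
noncomputable def sr2_m0_1_2 : MP 10 :=
  [[[[[[[[[[Int.ofNat (nat_lit 106176000564854167716)],[Int.ofNat (nat_lit 163062458942599216)]]],[[[Int.ofNat (nat_lit 23166508583715057904)],[Int.negSucc (nat_lit 263081980494517229)]]],[[[Int.ofNat (nat_lit 4352463748887995258)]]]],[[[],[[Int.negSucc (nat_lit 12042315436155956019)]]]],[[[[Int.negSucc (nat_lit 31147633957546486265)]]]]],[[[[[Int.negSucc (nat_lit 11997689703267189949)],[Int.ofNat (nat_lit 454372863534637788)]]],[[[Int.negSucc (nat_lit 9531129436111928463)]]]]],[[[[[Int.ofNat (nat_lit 12555148738031254286)]]]]]],[[[[[],[[Int.negSucc (nat_lit 7738546351117729333)]]]],[[[[Int.ofNat (nat_lit 3036240208949433288)]]]]]],[[[[[[Int.negSucc (nat_lit 189632916311779215535)]]],[[[Int.ofNat (nat_lit 1367128233354448064)]]]]],[[[[[Int.negSucc (nat_lit 739173447268247451)]]]]]]],[[[[[[[Int.negSucc (nat_lit 57735115856182729841)],[Int.negSucc (nat_lit 1969259619542127251)]]],[[[Int.negSucc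 (nat_lit 31541901385348158111)]]]]],[[[[[Int.ofNat (nat_lit 32853253052066311946)]]]]]],[],[[[[[[Int.negSucc (nat_lit 19843954846139876499)]]]]]]],[[[[[[[Int.ofNat (nat_lit 100567645252678078238)]]],[[[Int.ofNat (nat_lit 2205028187459913644)]]]]],[[[[[Int.negSucc (nat_lit 3413251563604805279)]]]]]]],[[[[[[[Int.negSucc (nat_lit 28465370060087023843)]]]]]]]],[[[[[[[],[[Int.ofNat (nat_lit 3975131373591314880)]]]],[[[[Int.ofNat (nat_lit 26269985948115462482)]]],[[[Int.negSucc (nat_lit 1231116916750854939)]]]]],[[],[[[[Int.ofNat (nat_lit 1620570290148151154)]]]]]],[[[[[[Int.ofNat (nat_lit 224418898391325202394)],[Int.ofNat (nat_lit 243481054133696330)]]],[[[Int.ofNat (nat_lit 1512565615005693234)]]]]],[[[[[Int.negSucc (nat_lit 7894207814399113783)]]]]]],[],[[[[[[Int.ofNat (nat_lit 3534315967847619762)]]]]]]],[[[[],[[[[Int.ofNat (nat_lit 557789946119998090)]]]]]],[[[[[[Int.ofNat (nat_lit 15078426506065703736)]]]]]]],[[],[[[[[[Int.ofNat (nat_lit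 2290008881083659242)]]]]]]]],[[[[[[[[Int.negSucc (nat_lit 499429798595406987703)],[Int.ofNat (nat_lit 558036837413260490)]]],[[[Int.ofNat (nat_lit 2690611850752938322)]]]]],[[[[[Int.ofNat (nat_lit 33717367336496509350)]]]]]],[[[],[[[[Int.negSucc (nat_lit 2712894247054555527)]]]]]],[[[[[[Int.ofNat (nat_lit 21196333375486561928)]]]]]]],[[[[[[[Int.ofNat (nat_lit 23733812708487735176)]]]]]]],[[[[[[[Int.negSucc (nat_lit 5454592581849057195)]]]]]]]],[[[[[],[[[[Int.ofNat (nat_lit 627019455396258120)]]]]]],[[[[[[Int.negSucc (nat_lit 11429736938809322427)]]]]]]]],[[[[[[[[Int.ofNat (nat_lit 46590976851074023386)]]]]]]]]],[[[[[[[[[Int.ofNat (nat_lit 532748740211656057070)],[Int.negSucc (nat_lit 621088323495718883)]]],[[[Int.ofNat (nat_lit 2003871514416585788)]]]]],[[[[[Int.ofNat (nat_lit 91111349963741181442)]]],[[[Int.negSucc (nat_lit 1440009305275286241)]]]]],[[[[[Int.ofNat (nat_lit 3354764729705677652)]]]]]],[[[],[[[[Int.negSucc (nat_lit 473908232779593725)]]]]]],[[[[[[Int.ofNat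 (nat_lit 4671851014707644442)]]]]]]],[[[[[[[Int.negSucc (nat_lit 265508170060783495559)],[Int.ofNat (nat_lit 295257321494650570)]]],[[[Int.negSucc (nat_lit 4014795469626511519)]]]]],[[[[[Int.negSucc (nat_lit 8336074241009375521)]]]]]],[],[[[[[[Int.ofNat (nat_lit 1881375740838905892)]]]]]]],[[[[[[[Int.ofNat (nat_lit 113596629840879410310)]]]]]]],[[[[[[[Int.ofNat (nat_lit 2163580108837490472)]]]]]]]],[[[[[[[],[[Int.negSucc (nat_lit 10871444328146160587)]]]],[[[[Int.ofNat (nat_lit 15250578327562837470)]]]]]],[[[[[[Int.ofNat (nat_lit 21823887521436917700)]]]]],[[[[[Int.negSucc (nat_lit 896118849892539289)]]]]]]],[[[[],[[[[Int.negSucc (nat_lit 1485394553057032213)]]]]]],[[[[[[Int.ofNat (nat_lit 19029203190396348322)]]]]]]]],[[[[[[[[Int.negSucc (nat_lit 384164246879002071715)]]],[[[Int.negSucc (nat_lit 1417794821727385207)]]]]],[[[[[Int.negSucc (nat_lit 323105664767458383)]]]]]]],[[[[[[[Int.ofNat (nat_lit 8970189883677593198)]]]]]]]],[[[],[[[[[[Int.negSucc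 (nat_lit 30136282587410813)]]]]]]]],[[[[[[[[Int.ofNat (nat_lit 2671368145857845144)]]]]]]]]],[[[[[[[[[Int.ofNat (nat_lit 677571594477959026584)],[Int.negSucc (nat_lit 1713833466658413727)]]],[[[Int.ofNat (nat_lit 5637142460455473626)]]]]],[[[[[Int.negSucc (nat_lit 253081777557928011)]]]]]],[],[[[[[[Int.negSucc (nat_lit 6953100884101715219)]]]]]]],[[[[[[[Int.negSucc (nat_lit 186699411722478761047)]]]]],[[[[[Int.negSucc (nat_lit 1733357306006856977)]]]]]]],[[[[[[[Int.ofNat (nat_lit 19337260456426627376)]]]]]]]],[[[[[],[[[[Int.ofNat (nat_lit 3040320408340068430)]]]]]],[[[[[[Int.ofNat (nat_lit 25416671955872028084)]]]]]]]],[[[[[[[[Int.negSucc (nat_lit 268500109061981765757)]]]]]]],[[[[[[[Int.ofNat (nat_lit 3485256275223956296)]]]]]]]]],[[[[[[[[[Int.ofNat (nat_lit 335714515323192077854)]]],[[[Int.negSucc (nat_lit 541399602755263789)]]]]],[[[[[Int.negSucc (nat_lit 5957635885744703297)]]]]]]],[[[[[[[Int.negSucc (nat_lit 3542595650673794745)]]]]]]]],[[[],[[[[[[Int.negSucc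 (nat_lit 1675740032552983999)]]]]]]]],[[[[[[[[Int.ofNat (nat_lit 8786624238597268356)]]]]]]]]],[[[[[[[[[Int.ofNat (nat_lit 53904695596682842492)]]]]]]],[[[[[[[Int.ofNat (nat_lit 1742667313295375306)]]]]]]]]],[[[[[[[[[Int.ofNat (nat_lit 8997724075768776744)]]]]]]]]]]

/-- A coefficient. -/
noncomputable def sr2_m0_1_3 : MP 10 :=
  [[[[[[[[[],[[Int.negSucc (nat_lit 3146507982805306043)]]],[[],[[Int.negSucc (nat_lit 2268922819897057155)]]]],[[[[Int.ofNat (nat_lit 2596103839600697032)],[Int.ofNat (nat_lit 1146534092901739248)]]],[[[Int.negSucc (nat_lit 4412264250710909501)]]]]],[[[[],[[Int.ofNat (nat_lit 6266920869398872764)]]]],[[[[Int.negSucc (nat_lit 26472056137643329843)]]]]]],[[[[[[Int.negSucc (nat_lit 60319549322900522781)],[Int.ofNat (nat_lit 277039178296293888)]]],[[[Int.negSucc (nat_lit 6435517582022090991)]]]]],[[[[[Int.ofNat (nat_lit 48052161166247818930)]]]]]],[[[],[[[[Int.negSucc (nat_lit 5618655420730037081)]]]]]],[[[[[[Int.ofNat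 (nat_lit 2470679155075254064)]]]]]]],[[[[[[],[[Int.ofNat (nat_lit 19387619167202188146)]]]],[[[[Int.negSucc (nat_lit 10098090505045823073)]]]]]],[[[[[[Int.negSucc (nat_lit 91487123228253442199)]]]]]]],[[[[],[[[[Int.negSucc (nat_lit 7389542732932206709)]]]]]],[[[[[[Int.negSucc (nat_lit 1572353205539131051)]]]]]]]],[[[[[[[[Int.ofNat (nat_lit 378164083888476702038)],[Int.negSucc (nat_lit 6774404182298363763)]]],[[[Int.ofNat (nat_lit 51812028239146500728)]]]],[],[[[[Int.ofNat (nat_lit 3576719240776838440)]]]]],[[[[[Int.negSucc (nat_lit 104324112709563649693)]]]]]],[[[[[],[[Int.negSucc (nat_lit 2255397749266266247)]]]],[[[[Int.ofNat (nat_lit 16215015586963261666)]]]]]],[[[[[[Int.negSucc (nat_lit 77243177193850015559)]]]]]]],[[[[[[[Int.ofNat (nat_lit 170159924272608347792)]]],[[[Int.ofNat (nat_lit 1960472363458773770)]]]]],[[[[[Int.negSucc (nat_lit 3272344214136802627)]]]]]]],[[[[[[[Int.negSucc (nat_lit 103672277802786219855)]]]]]]]],[[[[[[[],[[Int.ofNat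 (nat_lit 3444926061653548498)]]]],[[[[Int.negSucc (nat_lit 10846227625735428433)]]]]]],[[[[[[Int.ofNat (nat_lit 192812507583694501530)]]]]]]],[[],[[[[[[Int.ofNat (nat_lit 3342829550655469482)]]]]]]]],[[[[[[[[Int.ofNat (nat_lit 15620291276981917006)]]]]]]],[[[[[[[Int.negSucc (nat_lit 4696788628638691031)]]]]]]]]],[[[[[[[[],[[Int.ofNat (nat_lit 35980641968323324420)]]]],[[[[Int.ofNat (nat_lit 50383925067521559900)]]]]],[[],[[[[Int.ofNat (nat_lit 1043634340978740754)]]]]]],[[[[[[Int.ofNat (nat_lit 192126103993216164114)]]],[[[Int.negSucc (nat_lit 7840385990591602163)]]]]],[[[[[Int.ofNat (nat_lit 20312307582601781002)]]]]]]],[[[[[[],[[Int.negSucc (nat_lit 1878270776482413907)]]]],[[[[Int.ofNat (nat_lit 12745337558842629514)]]]]]],[[[[[[Int.negSucc (nat_lit 55370829959276587809)]]]]]]]],[[[[[[[[Int.ofNat (nat_lit 344608280761160819440)],[Int.negSucc (nat_lit 1663818451923994855)]]],[[[Int.ofNat (nat_lit 16154086245164188482)]]]]],[[[[[Int.negSucc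 (nat_lit 62678208536294297427)]]]]]],[],[[[[[[Int.ofNat (nat_lit 2598906842783804412)]]]]]]],[[[[[[[Int.ofNat (nat_lit 264715202529248320030)]]]]]]],[[[[[[[Int.negSucc (nat_lit 5846945252285939737)]]]]]]]],[[[[[],[[[[Int.ofNat (nat_lit 13047787458580067792)]]]]]],[[[[[[Int.negSucc (nat_lit 12454852173561791673)]]]]]]]],[[[[[[[[Int.ofNat (nat_lit 179657718440409346822)]]]]]]]]],[[[[[[[[],[[Int.ofNat (nat_lit 5697507300893901584)]]]],[[[[Int.ofNat (nat_lit 8226497101430158194)]]]]]],[[[[[[Int.negSucc (nat_lit 14795461709842149113)]]]]]]],[[],[[[[[[Int.ofNat (nat_lit 4962371989721826390)]]]]]]]],[[[[[[[[Int.ofNat (nat_lit 483590749179900668966)]]]]],[[[[[Int.negSucc (nat_lit 9795246656673558293)]]]]]]],[[[[[[[Int.ofNat (nat_lit 3603637947258235602)]]]]]]]],[],[[[[[[[[Int.ofNat (nat_lit 16670176274768913724)]]]]]]]]],[[[[[[],[[[[Int.ofNat (nat_lit 10471172564849944582)]]]]]],[[[[[[Int.negSucc (nat_lit 23687124223339702785)]]]]]]]],[[[[[[[[Int.ofNat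 (nat_lit 88683409873424135124)]]]]]]]]],[[],[[[[[[[[Int.ofNat (nat_lit 15038888433892466468)]]]]]]]]]]

/-- A coefficient. -/
noncomputable def sr2_m0_1_4 : MP 10 :=
  [[[[[[[[[[Int.negSucc (nat_lit 882008639743809381481)],[Int.ofNat (nat_lit 3429232944961038032)]]],[[[Int.negSucc (nat_lit 54493285945015042175)]]]],[[[],[[Int.ofNat (nat_lit 12042315436155956020)]]]],[[[[Int.ofNat (nat_lit 31147633957546486266)]]]]],[[[[[Int.ofNat (nat_lit 73971154012513072390)]]],[[[Int.negSucc (nat_lit 3662920030205483369)]]]]],[[[[[Int.ofNat (nat_lit 10928252055506326600)]]]]]],[[[[[],[[Int.ofNat (nat_lit 7738546351117729334)]]]],[[[[Int.negSucc (nat_lit 32063745377863831311)]]]]]],[[[[[[Int.ofNat (nat_lit 196503507307429466096)]]]]]]],[[[[[[[Int.ofNat (nat_lit 483516001122662532980)],[Int.ofNat (nat_lit 749506795678486260)]]],[[[Int.ofNat (nat_lit 36101775579213936064)]]]]],[[[[[Int.negSucc (nat_lit 45548115531642318617)]]]]]],[],[[[[[[Int.ofNat (nat_lit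 11845929152040615728)]]]]]]],[[[[[[[Int.negSucc (nat_lit 427945523150216796099)]]]]]]],[[[[[[[Int.ofNat (nat_lit 17960127382388898220)]]]]]]]],[[[[[[[],[[Int.negSucc (nat_lit 13434860367540715477)]]]],[[[[Int.negSucc (nat_lit 43939834338607828861)]]]]]],[[[[[[Int.negSucc (nat_lit 307427211943709469475)]]]]],[[[[[Int.ofNat (nat_lit 327705313542331312)]]]]]]],[[[[],[[[[Int.ofNat (nat_lit 2267790461576175914)]]]]]],[[[[[[Int.ofNat (nat_lit 2590556362318825546)]]]]]]]],[[[[[[[[Int.ofNat (nat_lit 818024091765774687952)]]],[[[Int.negSucc (nat_lit 7014862303953934491)]]]]],[[[[[Int.negSucc (nat_lit 30223823968970874843)]]]]]]],[[[[[[[Int.ofNat (nat_lit 36496472139061954474)]]]]]]]],[[[],[[[[[[Int.ofNat (nat_lit 1266734606520777690)]]]]]]]],[[[[[[[[Int.negSucc (nat_lit 8906255006884969803)]]]]]]]]],[[[[[[[[[Int.negSucc (nat_lit 1880924357572471558491)],[Int.negSucc (nat_lit 942913986996731177)]]],[[[Int.ofNat (nat_lit 8177805830543043492)]]]]],[[[[[Int.ofNat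 (nat_lit 67843330496225710298)]]]]]],[[[],[[[[Int.ofNat (nat_lit 473908232779593726)]]]]]],[[[[[[Int.negSucc (nat_lit 1778902164397590767)]]]]]]],[[[[[[[Int.ofNat (nat_lit 233522390200797583772)]]]]],[[[[[Int.negSucc (nat_lit 6611032778589737481)]]]]]]],[[[[[[[Int.negSucc (nat_lit 48507285715891286527)]]]]]]]],[[[[[[[],[[Int.ofNat (nat_lit 10871444328146160588)]]]],[[[[Int.negSucc (nat_lit 19270690117894271587)]]]]]],[[[[[[Int.negSucc (nat_lit 180663086976727697077)]]]]]]]],[[[[[[[[Int.ofNat (nat_lit 303399323165912233440)]]]]]]],[[[[[[[Int.ofNat (nat_lit 13406552336771283222)]]]]]]]]],[[[[[[[[[Int.negSucc (nat_lit 2029091391970494546073)]]],[[[Int.negSucc (nat_lit 353580765401171813)]]]]],[[[[[Int.negSucc (nat_lit 14313065536748379233)]]]]]]],[[[[[[[Int.ofNat (nat_lit 214176361222028398026)]]]]]]]],[[[],[[[[[[Int.negSucc (nat_lit 24910214164019051283)]]]]]]]],[[[[[[[[Int.ofNat (nat_lit 264036779197162285944)]]]]]]]]],[[[[[[[[[Int.negSucc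 (nat_lit 657119165850909496065)]]]]]]],[[[[[[[Int.ofNat (nat_lit 12236113792253258984)]]]]]]]]],[[[[[[[[[Int.negSucc (nat_lit 14113892437572233801)]]]]]]]]]]

/-- A coefficient. -/
noncomputable def sr2_m0_1_5 : MP 10 :=
  [[[[[[[[[],[[Int.ofNat (nat_lit 25468571259317411120)]]]],[[[[Int.ofNat (nat_lit 11662957364461351128)]]]]],[[],[[[[Int.ofNat (nat_lit 19106143174771375756)]]]]]],[[[[[[Int.ofNat (nat_lit 182167437082484053284)]]],[[[Int.negSucc (nat_lit 1170913161923734183)]]]]],[[[[[Int.ofNat (nat_lit 9122563970748092612)]]]]]]],[[[[[[],[[Int.negSucc (nat_lit 15118592400553027949)]]]],[[[[Int.ofNat (nat_lit 3614646725689579184)]]]]]],[[[[[[Int.negSucc (nat_lit 10888303680672912953)]]]]]]]],[[[[[[[[Int.negSucc (nat_lit 599827304604692881371)],[Int.ofNat (nat_lit 3895187779215885618)]]],[[[Int.negSucc (nat_lit 20562408161602601679)]]]]],[[[[[Int.negSucc (nat_lit 23804774227067245975)]]]]]],[],[[[[[[Int.ofNat (nat_lit 17971045938954452666)]]]]]]],[[[[[[[Int.negSucc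 (nat_lit 168440739031906137123)]]]]]]],[[[[[[[Int.ofNat (nat_lit 98024814554717717216)]]]]]]]],[[[[[],[[[[Int.ofNat (nat_lit 5146492845847644672)]]]]]],[[[[[[Int.negSucc (nat_lit 122903663384850318455)]]]]]]]],[[[[[[[[Int.negSucc (nat_lit 528249222687199429173)]]]]]]]]],[[[[[[[[],[[Int.negSucc (nat_lit 40378034005234243101)]]]],[[[[Int.negSucc (nat_lit 55846754883976115823)]]]]]],[[[[[[Int.ofNat (nat_lit 227943937888484870558)]]]]]]],[[],[[[[[[Int.negSucc (nat_lit 31302871591229159427)]]]]]]]],[[[[[[[[Int.negSucc (nat_lit 258906430237818906355)]]]]],[[[[[Int.ofNat (nat_lit 33395064345408699176)]]]]]]],[[[[[[[Int.negSucc (nat_lit 171078397314271248599)]]]]]]]],[],[[[[[[[[Int.negSucc (nat_lit 134390469514680952011)]]]]]]]]],[[[[[[],[[[[Int.negSucc (nat_lit 11164267025535272197)]]]]]],[[[[[[Int.negSucc (nat_lit 35022737286556735533)]]]]]]]],[[[[[[[[Int.negSucc (nat_lit 227708186521309899687)]]]]]]]]],[[],[[[[[[[[Int.negSucc (nat_lit 14594822297497133425)]]]]]]]]]]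

/-- A coefficient. -/
noncomputable def sr2_m0_1_6 : MP 10 :=
  [[[[[[[[[[Int.ofNat (nat_lit 1285626334042284472640)],[Int.negSucc (nat_lit 2971882102410699105)]]],[[[Int.ofNat (nat_lit 24845445377519371294)]]]]],[[[[[Int.ofNat (nat_lit 71205288801042241512)]]]]]],[[[],[[[[Int.ofNat (nat_lit 29027505168914398024)]]]]]],[[[[[[Int.negSucc (nat_lit 1526628989843028719)]]]]]]],[[[[[[[Int.negSucc (nat_lit 743830572635020205531)]]]]],[[[[[Int.negSucc (nat_lit 15545644663072830453)]]]]]]],[[[[[[[Int.ofNat (nat_lit 392281180321184234704)]]]]]]]],[[[[[[[],[[Int.ofNat (nat_lit 9459728993949400598)]]]],[[[[Int.ofNat (nat_lit 14851389552278652840)]]]]]],[[[[[[Int.ofNat (nat_lit 28610725470782117304)]]]]]]]],[[[[[[[[Int.negSucc (nat_lit 224665739378153589251)]]]]]]],[[[[[[[Int.negSucc (nat_lit 39841213452084914295)]]]]]]]]],[[[[[[[[[Int.ofNat (nat_lit 1480947276283620609276)]]]]],[[[[[Int.negSucc (nat_lit 150666663557526253527)]]]]]]],[[[[[[[Int.negSucc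 (nat_lit 68543860432382601519)]]]]]]]],[[[],[[[[[[Int.ofNat (nat_lit 160011731539788439752)]]]]]]]],[[[[[[[[Int.ofNat (nat_lit 53210986695477963912)]]]]]]]]],[[[[[[[[[Int.ofNat (nat_lit 1326357595377348699936)]]]]]]],[[[[[[[Int.negSucc (nat_lit 64850580075490458245)]]]]]]]]],[[[[[[[[[Int.ofNat (nat_lit 424546320928506085232)]]]]]]]]]]

/-- A coefficient. -/
noncomputable def sr2_m0_1_7 : MP 10 :=
  [[[[[[[[[],[[Int.negSucc (nat_lit 24621512662905683947)]]]],[[[[Int.negSucc (nat_lit 13331492192742107173)]]]]]],[[[[[[Int.ofNat (nat_lit 127983281177612320746)]]]]]]],[[],[[[[[[Int.ofNat (nat_lit 5412290127898936838)]]]]]]]],[[[[[[[[Int.ofNat (nat_lit 184020831047353825350)]]]]],[[[[[Int.ofNat (nat_lit 59184174292513670834)]]]]]]],[[[[[[[Int.ofNat (nat_lit 89299765679316050328)]]]]]]]],[],[[[[[[[[Int.ofNat (nat_lit 420924413613700515688)]]]]]]]]],[[[[],[[[[[[Int.negSucc (nat_lit 405515542546319239637)]]]]]]]],[[[[[[[[Int.negSucc (nat_lit 41316257789224945265)]]]]]]]]],[[],[[[[[[[[Int.negSucc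 (nat_lit 130564438012694791173)]]]]]]]]]]

/-- A coefficient. -/
noncomputable def sr2_m0_1_8 : MP 10 :=
  [[[[[[[[[[Int.negSucc (nat_lit 469483695643144166553)]]]]],[[[[[Int.negSucc (nat_lit 100724604769071600873)]]]]]]],[[[[[[[Int.ofNat (nat_lit 242433576119423452412)]]]]]]]],[[[],[[[[[[Int.ofNat (nat_lit 49981254686673360186)]]]]]]]],[[[[[[[[Int.negSucc (nat_lit 109512428132970937595)]]]]]]]]],[[[[[[[[[Int.negSucc (nat_lit 25775893436381752363)]]]]]]]]],[[[[[[[[[Int.ofNat (nat_lit 166686295643496224266)]]]]]]]]]]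

/-- A coefficient. -/
noncomputable def sr2_m0_1_9 : MP 10 :=
  [[[[[],[[[[[[Int.negSucc (nat_lit 199080300921302636745)]]]]]]]]]]

/-- A coefficient. -/
noncomputable def sr2_m0_2_0 : MP 10 :=
  [[[[[[[[[[Int.ofNat (nat_lit 23054959135999169695)],[Int.ofNat (nat_lit 647975944409967084)],[Int.negSucc (nat_lit 55177428870530208)]]],[[[Int.negSucc (nat_lit 3391485162046886849)],[Int.ofNat (nat_lit 137586063012237734)]]],[[[Int.negSucc (nat_lit 1422573329979590549)]]]]],[[[[[Int.ofNat (nat_lit 15604731292233365484)],[Int.negSucc (nat_lit 98870354662822431)]]],[[[Int.ofNat (nat_lit 2523726516436091210)]]]]],[[[[[Int.ofNat (nat_lit 7506622588636566021)]]]]]],[],[[[[[[Int.ofNat (nat_lit 2705174405435107532)],[Int.negSucc (nat_lit 36974119552317097)]]],[[[Int.negSucc (nat_lit 1297315446538430297)]]]]],[[[[[Int.ofNat (nat_lit 2361940760513777246)]]]]]],[],[[[[[[Int.negSucc (nat_lit 1491483193433929629)]]]]]]],[[[[[[[Int.negSucc (nat_lit 37040459352776754249)],[Int.negSucc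 (nat_lit 2512279761627247701)]]],[[[Int.ofNat (nat_lit 10123455273560876888)]]]]],[[[[[Int.negSucc (nat_lit 20501040058366155509)]]]]]],[],[[[[[[Int.negSucc (nat_lit 2172855561524839709)]]]]]]],[[[[[[[Int.ofNat (nat_lit 39694594737565993225)],[Int.negSucc (nat_lit 67823964862981845)]]],[[[Int.negSucc (nat_lit 1871587131186615117)]]]]],[[[[[Int.ofNat (nat_lit 2091262005881552414)]]]]]],[],[[[[[[Int.negSucc (nat_lit 3116931852434206395)]]]]]]],[[[[[[[Int.negSucc (nat_lit 3022273886585786717)]]]]]]],[[[[[[[Int.negSucc (nat_lit 2264647005973077165)]]]]]]]],[[[[[],[[[[Int.negSucc (nat_lit 6147163383448795927)],[Int.ofNat (nat_lit 117005333165400280)]]],[[[Int.ofNat (nat_lit 937175791516656592)]]]]],[[],[[[[Int.negSucc (nat_lit 2109906921792915747)]]]]]],[[[[[[Int.ofNat (nat_lit 22792582915031800706)],[Int.negSucc (nat_lit 67708241779038181)]]],[[[Int.negSucc (nat_lit 117047169317823225)]]]]],[[[[[Int.negSucc (nat_lit 1103758273126907677)]]]]]],[[[],[[[[Int.ofNat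 (nat_lit 1127795521760154564)]]]]]],[[[[[[Int.ofNat (nat_lit 81993523764005788)]]]]]]],[[[[],[[[[Int.ofNat (nat_lit 5198845119622742)]]]]]],[[[[[[Int.negSucc (nat_lit 13602277450780625237)]]]]]]],[[[[],[[[[Int.ofNat (nat_lit 1720907331165495648)]]]]]],[[[[[[Int.negSucc (nat_lit 106100445151376343)]]]]]]]],[[[[[[[[Int.negSucc (nat_lit 23326452790681864113)],[Int.ofNat (nat_lit 377929512727594308)]]],[[[Int.negSucc (nat_lit 1317780780560312281)]]]],[],[[[[Int.negSucc (nat_lit 975939021545029993)]]]]],[[[[[Int.ofNat (nat_lit 2487321004946434404)]]]]]],[[[],[[[[Int.ofNat (nat_lit 1859030204069923236)]]]]]],[[[[[[Int.negSucc (nat_lit 7304085577640168726)]]]]]]],[[[[[[[Int.ofNat (nat_lit 13103758060004267758)]]]]]]],[[[[[[[Int.ofNat (nat_lit 1146769910943982038)]]]]]]]],[[[[[],[[[[Int.negSucc (nat_lit 2937447815076463349)]]]]]],[[[[[[Int.ofNat (nat_lit 15662681793784653854)]]]]]]]],[[[[[[[[Int.ofNat (nat_lit 15872358036555117296)]]]]]]]]],[[[[[[[[[Int.ofNat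 (nat_lit 10194538121855657604)],[Int.negSucc (nat_lit 2605792812303331253)]]],[[[Int.ofNat (nat_lit 9244340448218291426)]]]]],[[[[[Int.negSucc (nat_lit 13812804194315833069)],[Int.negSucc (nat_lit 118049613855529897)]]],[[[Int.ofNat (nat_lit 778700214137112616)]]]]],[[[[[Int.negSucc (nat_lit 2889917602780911655)]]]]]],[],[[[[[[Int.negSucc (nat_lit 3567729343217599741)]]]]],[[[[[Int.negSucc (nat_lit 31088850576707493)]]]]]]],[[[[[[[Int.ofNat (nat_lit 65552236509157477634)],[Int.negSucc (nat_lit 129327172310245793)]]],[[[Int.ofNat (nat_lit 2488254539531486392)]]]]],[[[[[Int.negSucc (nat_lit 11540972366655155393)]]]]]],[],[[[[[[Int.ofNat (nat_lit 2169204038411391172)]]]]]]],[[[[[[[Int.negSucc (nat_lit 17370862007387409987)]]]]],[[[[[Int.ofNat (nat_lit 332063199710853402)]]]]]]],[[[[[[[Int.ofNat (nat_lit 3407953382210393056)]]]]]]]],[[[[[],[[[[Int.negSucc (nat_lit 2603932896209261077)]]]]],[[],[[[[Int.negSucc (nat_lit 482340879203124437)]]]]]],[[[[[[Int.ofNat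 (nat_lit 16362034903800202002)]]]]],[[[[[Int.ofNat (nat_lit 934953200042420570)]]]]]]],[[[[],[[[[Int.negSucc (nat_lit 929469631839441211)]]]]]],[[[[[[Int.negSucc (nat_lit 6261121894039583691)]]]]]]]],[[[[[[[[Int.negSucc (nat_lit 19942273463946375555)],[Int.ofNat (nat_lit 2918895569555846)]]],[[[Int.ofNat (nat_lit 1165406780196640514)]]]]],[[[[[Int.ofNat (nat_lit 141334620956178518)]]]]]],[],[[[[[[Int.ofNat (nat_lit 476030657686461626)]]]]]]],[[[[[[[Int.negSucc (nat_lit 5910919131494107813)]]]]]]],[[[[[[[Int.ofNat (nat_lit 999437327073345782)]]]]]]]],[[[[[],[[[[Int.negSucc (nat_lit 1386854250159386273)]]]]]],[[[[[[Int.ofNat (nat_lit 355253448426666690)]]]]]]]],[[[[[[[[Int.negSucc (nat_lit 14186418139758126531)]]]]]]]]],[[[[[[[[[Int.negSucc (nat_lit 14420726600927634793)],[Int.negSucc (nat_lit 630398756785094175)]]],[[[Int.ofNat (nat_lit 1647697804683492962)]]]]],[[[[[Int.negSucc (nat_lit 3991258143745209353)]]]]],[[[[[Int.negSucc (nat_lit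 822362372546547226)]]]]]],[],[[[[[[Int.negSucc (nat_lit 1268324929426117)]]]]]]],[[[[[[[Int.ofNat (nat_lit 77218937087739789312)]]]]],[[[[[Int.ofNat (nat_lit 1482235113417516702)]]]]]]],[[[[[[[Int.negSucc (nat_lit 7263013768149118242)]]]]]]]],[[[[[],[[[[Int.negSucc (nat_lit 3589976796929973637)]]]]]],[[[[[[Int.ofNat (nat_lit 5672180007211975726)]]]]]]]],[[[[[[[[Int.negSucc (nat_lit 22741926428985383959)]]]]],[[[[[Int.ofNat (nat_lit 338400309243549388)]]]]]]],[[[[[[[Int.negSucc (nat_lit 5376436494798727841)]]]]]]]],[],[[[[[[[[Int.negSucc (nat_lit 3662991904214011844)]]]]]]]]],[[[[[[[[[Int.negSucc (nat_lit 10776904256492426417)],[Int.ofNat (nat_lit 135942459820147950)]]],[[[Int.ofNat (nat_lit 737249598974485820)]]]]],[[[[[Int.ofNat (nat_lit 3626073973864664636)]]]]]],[],[[[[[[Int.ofNat (nat_lit 524060550673010832)]]]]]]],[[[[[[[Int.ofNat (nat_lit 5556922299152416062)]]]]]]],[[[[[[[Int.ofNat (nat_lit 1182672428034553076)]]]]]]]],[[[[[],[[[[Int.negSucc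 (nat_lit 1286236255704419799)]]]]]],[[[[[[Int.ofNat (nat_lit 1143491461675217258)]]]]]]]],[[[[[[[[Int.negSucc (nat_lit 31858831912559356855)]]]]]]]]],[[[[[[[[[Int.negSucc (nat_lit 34756181259240096748)]]]]],[[[[[Int.ofNat (nat_lit 1029422081857184064)]]]]]]],[[[[[[[Int.negSucc (nat_lit 4715694849513422619)]]]]]]]],[],[[[[[[[[Int.negSucc (nat_lit 5789229691855320029)]]]]]]]]],[[[[[[[[[Int.negSucc (nat_lit 31621192597518668399)]]]]]]]]],[[[[[[[[[Int.negSucc (nat_lit 3944796822119347053)]]]]]]]]]]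

/-- A coefficient. -/
noncomputable def sr2_m0_2_1 : MP 10 :=
  [[[[[[[[[],[[Int.negSucc (nat_lit 10038668757265819501)],[Int.ofNat (nat_lit 2049218999940104)]]],[[],[[Int.ofNat (nat_lit 1793224637160320142)]]]],[[[[Int.ofNat (nat_lit 14166312687182580638)],[Int.negSucc (nat_lit 647575277964309191)]]],[[[Int.negSucc (nat_lit 1016291689360315925)]]]]],[[[[],[[Int.ofNat (nat_lit 1797694952237170010)]]]],[[[[Int.negSucc (nat_lit 3127474271382555735)]]]]]],[[[[[[Int.negSucc (nat_lit 25334126035168204935)],[Int.ofNat (nat_lit 10160434803679540)]]],[[[Int.ofNat (nat_lit 13749712781717140144)]]]]],[[[[[Int.ofNat (nat_lit 3517577242460828324)]]]]]],[[[[[],[[Int.ofNat (nat_lit 1895270441109513800)]]]],[[[[Int.negSucc (nat_lit 1523283961060923305)]]]]]],[[[[[[Int.ofNat (nat_lit 5649932636744510358)]]]]]]],[[[[[[],[[Int.negSucc (nat_lit 2027465551914655127)]]]],[[[[Int.negSucc (nat_lit 25883448398435429841)]]]]]],[[[[[[Int.negSucc (nat_lit 26905318351722447557)]]]]]]],[[[[[[],[[Int.ofNat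 (nat_lit 3178245881831881192)]]]],[[[[Int.negSucc (nat_lit 3028728756192847105)]]]]]],[[[[[[Int.ofNat (nat_lit 880420632943954378)]]]]]]]],[[[[[[[[Int.negSucc (nat_lit 3770837224028549137)],[Int.ofNat (nat_lit 7754279377190143734)]]],[[[Int.negSucc (nat_lit 4671809575434350303)]]]],[[[],[[Int.negSucc (nat_lit 1655431002589452969)]]]],[[[[Int.ofNat (nat_lit 3238580875859283818)]]]]],[[[[[Int.ofNat (nat_lit 24534764401584439500)]]]]]],[[[[[],[[Int.ofNat (nat_lit 1256882064131970986)]]]],[[[[Int.negSucc (nat_lit 11745979307603588691)]]]]]],[[[[[[Int.ofNat (nat_lit 60482333905281781324)]]]]]]],[[[[[[[Int.ofNat (nat_lit 11677902297148795546)],[Int.negSucc (nat_lit 729274630205579699)]]],[[[Int.negSucc (nat_lit 1533644458717116547)]]]]],[[[[[Int.ofNat (nat_lit 6905866368179824356)]]]]]],[],[[[[[[Int.ofNat (nat_lit 818933238050385180)]]]]]]],[[[[[[[Int.ofNat (nat_lit 20398151194334485622)]]]]]]],[[[[[[[Int.negSucc (nat_lit 1093851486058518299)]]]]]]]],[[[[[[[],[[Int.negSucc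 (nat_lit 7760937003635075407)]]]],[[[[Int.negSucc (nat_lit 12768200831472546685)]]]]]],[[[[[[Int.negSucc (nat_lit 41963174963563495457)]]]]]]],[[[[],[[[[Int.ofNat (nat_lit 1644754403142773706)]]]]]],[[[[[[Int.negSucc (nat_lit 2357032738603871201)]]]]]]]],[[[[[[[[Int.negSucc (nat_lit 5285597939346615421)]]]]]]],[[[[[[[Int.negSucc (nat_lit 2078108910742568419)]]]]]]]]],[[[[[[[[],[[Int.negSucc (nat_lit 20071684488423607687)]]]],[[[[Int.negSucc (nat_lit 4198832500151937227)]]]]],[[[[],[[Int.negSucc (nat_lit 35854677671235607)]]]],[[[[Int.ofNat (nat_lit 408378862557806904)]]]]]],[[[[[[Int.negSucc (nat_lit 60687493625179664985)],[Int.negSucc (nat_lit 480235160655787537)]]],[[[Int.ofNat (nat_lit 4265810912936283858)]]]]],[[[[[Int.negSucc (nat_lit 16855429273257070843)]]]]]],[],[[[[[[Int.negSucc (nat_lit 2077726899746740195)]]]]]]],[[[[[[],[[Int.negSucc (nat_lit 2564894315812844489)]]]],[[[[Int.ofNat (nat_lit 186815523763763772)]]]]]],[[[[[[Int.negSucc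 (nat_lit 31008029435345666155)]]]]]]],[[],[[[[[[Int.negSucc (nat_lit 480867613270011491)]]]]]]]],[[[[[[[[Int.negSucc (nat_lit 664184682456041789)],[Int.ofNat (nat_lit 2246975186033382246)]]],[[[Int.negSucc (nat_lit 6238058479455689959)]]]]],[[[[[Int.ofNat (nat_lit 39887997025709216144)]]]]]],[[[],[[[[Int.negSucc (nat_lit 963859350570579051)]]]]]],[[[[[[Int.ofNat (nat_lit 3482779960085466802)]]]]]]],[[[[[[[Int.negSucc (nat_lit 5166032978169739551)]]]]],[[[[[Int.ofNat (nat_lit 1719971638447303894)]]]]]]],[[[[[[[Int.ofNat (nat_lit 8057883223374814906)]]]]]]]],[[[[[[[],[[Int.negSucc (nat_lit 2851751797792066061)]]]],[[[[Int.negSucc (nat_lit 1359288669483207539)]]]]]],[[[[[[Int.ofNat (nat_lit 25534402920620649562)]]]]]]]],[[[[[[[[Int.negSucc (nat_lit 49545221896919988549)]]]]]]],[[[[[[[Int.ofNat (nat_lit 3043415756986745608)]]]]]]]]],[[[[[[[[],[[Int.negSucc (nat_lit 17831289820545366505)]]]],[[[[Int.negSucc (nat_lit 10605843701734759239)]]]]]],[[[[[[Int.negSucc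 (nat_lit 9131549772455345199)]]]]],[[[[[Int.negSucc (nat_lit 4454165225730372259)]]]]]]],[[],[[[[[[Int.negSucc (nat_lit 718926190334380347)]]]]]]]],[[[[[[[[Int.negSucc (nat_lit 48998383284277465791)]]]]],[[[[[Int.ofNat (nat_lit 7241590523091472410)]]]]]]],[[[[[[[Int.negSucc (nat_lit 5886990455217875595)]]]]]]]],[[[],[[[[[[Int.negSucc (nat_lit 719639571319995123)]]]]]]]],[[[[[[[[Int.ofNat (nat_lit 5123205920495352824)]]]]]]]]],[[[[[[[[],[[Int.negSucc (nat_lit 3560209061480944783)]]]],[[[[Int.ofNat (nat_lit 451063129355681304)]]]]]],[[[[[[Int.ofNat (nat_lit 29384378236220424952)]]]]]]]],[[[[[[[[Int.negSucc (nat_lit 62106108062821799793)]]]]]]],[[[[[[[Int.ofNat (nat_lit 2903004596460727926)]]]]]]]]],[[[[],[[[[[[Int.ofNat (nat_lit 3029389701845775832)]]]]]]]],[[[[[[[[Int.negSucc (nat_lit 3422905551684810987)]]]]]]]]]]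

/-- A coefficient. -/
noncomputable def sr2_m0_2_2 : MP 10 :=
  [[[[[[[[[[Int.negSucc (nat_lit 78314255428478351389)],[Int.negSucc (nat_lit 5026141439313042937)]],[],[[Int.negSucc (nat_lit 2528176402923731729)]]],[[[Int.ofNat (nat_lit 44082952059722803604)]]]],[[[],[[Int.ofNat (nat_lit 1967441889344074704)]]]],[[[[Int.negSucc (nat_lit 12601451508556888766)]]]]],[[[[[Int.negSucc (nat_lit 122884366709337467743)],[Int.negSucc (nat_lit 230269528028879095)]]],[[[Int.ofNat (nat_lit 4589046727794743668)]]]]],[[[[[Int.negSucc (nat_lit 6570983707801445255)]]]]]],[[[[[],[[Int.ofNat (nat_lit 14633792766640236454)]]]],[[[[Int.ofNat (nat_lit 49846599139152799540)]]]]]],[[[[[[Int.negSucc (nat_lit 1107706004070382163)]]]]],[[[[[Int.ofNat (nat_lit 551372545225687670)]]]]]]],[[[[[[[Int.negSucc (nat_lit 48117173194114639065)],[Int.ofNat (nat_lit 3574129712481122398)]]],[[[Int.negSucc (nat_lit 19079245456426270735)]]]]],[[[[[Int.ofNat (nat_lit 6016726975022518972)]]]]]],[],[[[[[[Int.ofNat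 (nat_lit 3351986580680649246)]]]]]]],[[[[[[[Int.negSucc (nat_lit 1363498948749170695)]]]]],[[[[[Int.ofNat (nat_lit 4090429863025329242)]]]]]]],[[[[[[[Int.ofNat (nat_lit 4782634729808566482)]]]]]]]],[[[[[[[],[[Int.negSucc (nat_lit 36624033062349543959)]]]],[[[[Int.ofNat (nat_lit 9596096656534637138)]]]]],[[],[[[[Int.negSucc (nat_lit 1460916382566091531)]]]]]],[[[[[[Int.ofNat (nat_lit 156957486086702569388)]]]]],[[[[[Int.ofNat (nat_lit 3709077336893219728)]]]]]]],[[[[[[],[[Int.negSucc (nat_lit 565643144920503455)]]]],[[[[Int.negSucc (nat_lit 6805359595526978497)]]]]]],[[[[[[Int.ofNat (nat_lit 57821574285403032096)]]]]]]]],[[[[[[[[Int.negSucc (nat_lit 19168014728421271188)],[Int.negSucc (nat_lit 1121838712949457339)]]],[[[Int.ofNat (nat_lit 5562547246415687576)]]]]],[[[[[Int.negSucc (nat_lit 73435656334192925723)]]]]]],[],[[[[[[Int.negSucc (nat_lit 252042770628995987)]]]]]]],[[[[[[[Int.ofNat (nat_lit 17866826067303040000)]]]]]]],[[[[[[[Int.negSucc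 (nat_lit 22982403051885123749)]]]]]]]],[[[[[],[[[[Int.ofNat (nat_lit 836014193220630914)]]]]]],[[[[[[Int.negSucc (nat_lit 12517347229083271479)]]]]]]]],[[[[[[[[Int.ofNat (nat_lit 25344633211904834160)]]]]]]]]],[[[[[[[[[Int.negSucc (nat_lit 140617095730424324929)],[Int.ofNat (nat_lit 2952505931637219700)]]],[[[Int.negSucc (nat_lit 858929793979652673)]]]]],[[[[[Int.negSucc (nat_lit 161791176825374339805)]]]]],[[[[[Int.ofNat (nat_lit 580654718598149450)]]]]]],[[[[[],[[Int.ofNat (nat_lit 1199946584381722604)]]]],[[[[Int.negSucc (nat_lit 567444221095790189)]]]]]],[[[[[[Int.negSucc (nat_lit 89455366884791959581)]]]]]]],[[[[[[[Int.negSucc (nat_lit 97959245206683646951)]]]]],[[[[[Int.ofNat (nat_lit 9906767339525404144)]]]]]]],[[[[[[[Int.negSucc (nat_lit 7924418052719623055)]]]]]]]],[[[[[[[],[[Int.negSucc (nat_lit 5816635737486478709)]]]],[[[[Int.ofNat (nat_lit 38146081678989507176)]]]]]],[[[[[[Int.ofNat (nat_lit 47777038093157796538)]]]]]]],[[],[[[[[[Int.ofNat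 (nat_lit 19183142982047028936)]]]]]]]],[[[[[[[[Int.ofNat (nat_lit 68020204354436384234)]]]]],[[[[[Int.negSucc (nat_lit 11193709384009192247)]]]]]]],[[[[[[[Int.ofNat (nat_lit 1864573960013376778)]]]]]]]],[],[[[[[[[[Int.ofNat (nat_lit 15221279168055783110)]]]]]]]]],[[[[[[[[[Int.ofNat (nat_lit 227600637894270902048)],[Int.ofNat (nat_lit 1748654403721763750)]]],[[[Int.negSucc (nat_lit 3871019511672471079)]]]]],[[[[[Int.negSucc (nat_lit 86971603704801055721)]]]]]],[],[[[[[[Int.negSucc (nat_lit 20309977232723330020)]]]]]]],[[[[[[[Int.negSucc (nat_lit 44736730438443338549)]]]]]]],[[[[[[[Int.negSucc (nat_lit 6271443567215463449)]]]]]]]],[[[[[],[[[[Int.ofNat (nat_lit 2926910184939110828)]]]]]],[[[[[[Int.ofNat (nat_lit 29999586012859542930)]]]]]]]],[[[[[[[[Int.ofNat (nat_lit 62864034482155601420)]]]]]]]]],[[[[[[[[[Int.ofNat (nat_lit 378369932796532252822)]]]]],[[[[[Int.negSucc (nat_lit 11144416380491495069)]]]]]]],[[[[[[[Int.negSucc (nat_lit 11377716576731473237)]]]]]]]],[],[[[[[[[[Int.ofNat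 (nat_lit 35891351869847633472)]]]]]]]]],[[[[[[[[[Int.ofNat (nat_lit 163337985561482929464)]]]]]]]]],[[[[[[[[[Int.ofNat (nat_lit 29667109146943861000)]]]]]]]]]]

/-- A coefficient. -/
noncomputable def sr2_m0_2_3 : MP 10 :=
  [[[[[[[[[],[[Int.ofNat (nat_lit 35266264505775803734)]]]],[[[[Int.ofNat (nat_lit 18038206401414779110)]]]]],[[[[],[[Int.negSucc (nat_lit 12753098660107743609)]]]],[[[[Int.ofNat (nat_lit 10051579705074118342)]]]]]],[[[[[[Int.negSucc (nat_lit 272116015593942000259)],[Int.negSucc (nat_lit 114623869398717365)]]],[[[Int.negSucc (nat_lit 7228602726963954221)]]]]],[[[[[Int.ofNat (nat_lit 32413903436374909016)]]]]]],[],[[[[[[Int.negSucc (nat_lit 6450532277055436519)]]]]]]],[[[[[[],[[Int.ofNat (nat_lit 8901007433889532420)]]]],[[[[Int.ofNat (nat_lit 25304227696834112434)]]]]]],[[[[[[Int.ofNat (nat_lit 5764981940961190756)]]]]]]],[[],[[[[[[Int.ofNat (nat_lit 5060847476872357228)]]]]]]]],[[[[[[[[Int.ofNat (nat_lit 458196239874817481720)],[Int.negSucc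 (nat_lit 6138813969330671065)]]],[[[Int.negSucc (nat_lit 3717864271658014471)]]]]],[[[[[Int.negSucc (nat_lit 124410090163619378539)]]]]]],[[[],[[[[Int.negSucc (nat_lit 2586187596476173885)]]]]]],[[[[[[Int.negSucc (nat_lit 37104974014654365623)]]]]]]],[[[[[[[Int.ofNat (nat_lit 228509730820941860122)]]]]],[[[[[Int.negSucc (nat_lit 3873295836264243327)]]]]]]],[[[[[[[Int.ofNat (nat_lit 3446659713160687446)]]]]]]]],[[[[[[[],[[Int.ofNat (nat_lit 16502675935092005848)]]]],[[[[Int.ofNat (nat_lit 12149341843971629486)]]]]]],[[[[[[Int.negSucc (nat_lit 173272140872419523447)]]]]]]]],[[[[[[[[Int.ofNat (nat_lit 184791129230570903452)]]]]]]],[[[[[[[Int.ofNat (nat_lit 22294166434307034192)]]]]]]]]],[[[[[[[[],[[Int.ofNat (nat_lit 44554638672213829976)]]]],[[[[Int.negSucc (nat_lit 59465416968866873443)]]]]]],[[[[[[Int.negSucc (nat_lit 473083931957062034885)]]]]],[[[[[Int.ofNat (nat_lit 4379457754217676514)]]]]]]],[[],[[[[[[Int.ofNat (nat_lit 37760573452740462700)]]]]]]]],[[[[[[[[Int.ofNat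 (nat_lit 642407983397755617098)]]]]],[[[[[Int.negSucc (nat_lit 28972043339835373659)]]]]]]],[[[[[[[Int.ofNat (nat_lit 158940923831781053240)]]]]]]]],[[[],[[[[[[Int.negSucc (nat_lit 71032585084335555753)]]]]]]]],[[[[[[[[Int.ofNat (nat_lit 145088225068644051754)]]]]]]]]],[[[[[[[[],[[Int.ofNat (nat_lit 23920016005246759638)]]]],[[[[Int.ofNat (nat_lit 6072090883235578766)]]]]]],[[[[[[Int.negSucc (nat_lit 269432204576893764975)]]]]]]]],[[[[[[[[Int.ofNat (nat_lit 456206804583407185110)]]]]]]],[[[[[[[Int.ofNat (nat_lit 32406005101549036056)]]]]]]]]],[[[[],[[[[[[Int.negSucc (nat_lit 47562229442131875631)]]]]]]]],[[[[[[[[Int.ofNat (nat_lit 44507198516609771194)]]]]]]]]]]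

/-- A coefficient. -/
noncomputable def sr2_m0_2_4 : MP 10 :=
  [[[[[[[[[[Int.negSucc (nat_lit 139923091018127699779)],[Int.negSucc (nat_lit 538877420872580605)]]],[[[Int.negSucc (nat_lit 46218324054152001779)]]]]],[[[[[Int.ofNat (nat_lit 125390944204507212046)]]]]],[[[[[Int.negSucc (nat_lit 28663174404567751521)]]]]]],[[[[[],[[Int.negSucc (nat_lit 33138472665074650623)]]]],[[[[Int.negSucc (nat_lit 28736689858168781531)]]]]]],[[[[[[Int.ofNat (nat_lit 123240047244496516846)]]]]]]],[[[[[[[Int.ofNat (nat_lit 287543204921028309782)]]]]],[[[[[Int.ofNat (nat_lit 69255797750579190546)]]]]]]],[[[[[[[Int.negSucc (nat_lit 173473616067821902964)]]]]]]]],[[[[[[[],[[Int.ofNat (nat_lit 28253472799027331818)]]]],[[[[Int.ofNat (nat_lit 9184941382566108952)]]]]]],[[[[[[Int.negSucc (nat_lit 428887569816129790245)]]]]]]],[[],[[[[[[Int.negSucc (nat_lit 43993820208406499633)]]]]]]]],[[[[[[[[Int.ofNat (nat_lit 23827132354069473732)]]]]],[[[[[Int.ofNat (nat_lit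 101913480913730709892)]]]]]]],[[[[[[[Int.negSucc (nat_lit 91904578738491297581)]]]]]]]],[],[[[[[[[[Int.negSucc (nat_lit 154574814808990288528)]]]]]]]]],[[[[[[[[[Int.negSucc (nat_lit 255190404560693853939)],[Int.negSucc (nat_lit 1655328927424402589)]]],[[[Int.negSucc (nat_lit 6641326302174050039)]]]]],[[[[[Int.ofNat (nat_lit 160623555388534491342)]]]]]],[],[[[[[[Int.ofNat (nat_lit 76427327549068362632)]]]]]]],[[[[[[[Int.ofNat (nat_lit 337356329159669182692)]]]]]]],[[[[[[[Int.ofNat (nat_lit 12658168276887011662)]]]]]]]],[[[[[],[[[[Int.negSucc (nat_lit 20270989955081746945)]]]]]],[[[[[[Int.negSucc (nat_lit 24727111897816881257)]]]]]]]],[[[[[[[[Int.negSucc (nat_lit 280736354108767456419)]]]]]]]]],[[[[[[[[[Int.negSucc (nat_lit 956850284430294475748)]]]]],[[[[[Int.ofNat (nat_lit 105493833255412393430)]]]]]]],[[[[[[[Int.negSucc (nat_lit 51249565701068595501)]]]]]]]],[],[[[[[[[[Int.negSucc (nat_lit 180425424999536682881)]]]]]]]]],[[[[[[[[[Int.negSucc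 (nat_lit 776307993009433390273)]]]]]]]]],[[[[[[[[[Int.negSucc (nat_lit 190649201834252106760)]]]]]]]]]]

/-- A coefficient. -/
noncomputable def sr2_m0_2_5 : MP 10 :=
  [[[[[[[[[],[[Int.negSucc (nat_lit 50447832518993186953)]]]],[[[[Int.negSucc (nat_lit 40148709479753551867)]]]]]],[[[[[[Int.ofNat (nat_lit 428889483784443332000)]]]]],[[[[[Int.negSucc (nat_lit 106213352333382605643)]]]]]]],[[],[[[[[[Int.ofNat (nat_lit 106480602548471207808)]]]]]]]],[[[[[[[[Int.negSucc (nat_lit 1006229073213718222837)]]]]],[[[[[Int.ofNat (nat_lit 69378196587924605970)]]]]]]],[[[[[[[Int.negSucc (nat_lit 627714234815952550693)]]]]]]]],[[[],[[[[[[Int.ofNat (nat_lit 330771902122261108866)]]]]]]]],[[[[[[[[Int.ofNat (nat_lit 121146531992703032422)]]]]]]]]],[[[[[[[[],[[Int.negSucc (nat_lit 9796361406593118511)]]]],[[[[Int.ofNat (nat_lit 58377140598863389192)]]]]]],[[[[[[Int.ofNat (nat_lit 752417818619877372050)]]]]]]]],[[[[[[[[Int.negSucc (nat_lit 393062396374086010619)]]]]]]],[[[[[[[Int.negSucc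 (nat_lit 112881583820989566161)]]]]]]]]],[[[[],[[[[[[Int.ofNat (nat_lit 298063316737752511890)]]]]]]]],[[[[[[[[Int.negSucc (nat_lit 218351165519038585461)]]]]]]]]]]

/-- A coefficient. -/
noncomputable def sr2_m0_2_6 : MP 10 :=
  [[[[[[[[[[Int.ofNat (nat_lit 603580933128243680516)],[Int.ofNat (nat_lit 3358835086730628132)]]],[[[Int.ofNat (nat_lit 13190807305184250836)]]]]],[[[[[Int.negSucc (nat_lit 62820279691885824741)]]]]]],[],[[[[[[Int.negSucc (nat_lit 292402513693043776684)]]]]]]],[[[[[[[Int.ofNat (nat_lit 531867403341042857356)]]]]]]],[[[[[[[Int.negSucc (nat_lit 1212391429364131881)]]]]]]]],[[[[[],[[[[Int.negSucc (nat_lit 26299507039835278827)]]]]]],[[[[[[Int.ofNat (nat_lit 210276571818195849710)]]]]]]]],[[[[[[[[Int.ofNat (nat_lit 539065487333774585120)]]]]]]]]],[[[[[[[[[Int.ofNat (nat_lit 999595539388568131060)]]]]],[[[[[Int.ofNat (nat_lit 46206507210234069212)]]]]]]],[[[[[[[Int.negSucc (nat_lit 288768220525273366963)]]]]]]]],[],[[[[[[[[Int.negSucc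 (nat_lit 92962408447507661063)]]]]]]]]],[[[[[[[[[Int.ofNat (nat_lit 1076410146042713782970)]]]]]]]]],[[[[[[[[[Int.ofNat (nat_lit 286721157165183020778)]]]]]]]]]]

/-- A coefficient. -/
noncomputable def sr2_m0_2_7 : MP 10 :=
  [[[[[[[[[],[[Int.ofNat (nat_lit 13888419824253630294)]]]],[[[[Int.ofNat (nat_lit 15012170984845883322)]]]]]],[[[[[[Int.negSucc (nat_lit 226444215908541933003)]]]]]]]],[[[[[[[[Int.ofNat (nat_lit 451332322008341245644)]]]]]]],[[[[[[[Int.ofNat (nat_lit 308781046460009662118)]]]]]]]]],[[[[],[[[[[[Int.negSucc (nat_lit 140756253573746760763)]]]]]]]],[[[[[[[[Int.ofNat (nat_lit 138591321733701715170)]]]]]]]]]]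

/-- A coefficient. -/
noncomputable def sr2_m0_2_8 : MP 10 :=
  [[[[[[[[[[Int.negSucc (nat_lit 272077189889460289765)]]]]],[[[[[Int.ofNat (nat_lit 8752262372980950430)]]]]]]],[[[[[[[Int.negSucc (nat_lit 551596816661677769409)]]]]]]]],[],[[[[[[[[Int.negSucc (nat_lit 394935477016720604303)]]]]]]]]],[[[[[[[[[Int.negSucc (nat_lit 337214890493073118077)]]]]]]]]],[[[[[[[[[Int.negSucc (nat_lit 138726565269328270405)]]]]]]]]]]

/-- A coefficient. -/
noncomputable def sr2_m0_2_9 : MP 10 :=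
  [[[[[],[[[[[[Int.negSucc (nat_lit 44744145775866794905)]]]]]]]]]]

/-- A coefficient. -/
noncomputable def sr2_m0_3_0 : MP 10 :=
  [[[[[[[[[[Int.ofNat (nat_lit 90038985669369102810)],[Int.ofNat (nat_lit 1842564180166061274)]]],[[[Int.negSucc (nat_lit 7360951409867465259)],[Int.negSucc (nat_lit 263081980494517229)]]],[[[Int.ofNat (nat_lit 4352463748887995258)]]]]],[[[[[Int.ofNat (nat_lit 51033890686190396762)],[Int.ofNat (nat_lit 454372863534637788)]]],[[[Int.negSucc (nat_lit 13194049466317411833)]]]]],[[[[[Int.ofNat (nat_lit 23483400793537580886)]]]]]],[],[[[[[[Int.ofNat (nat_lit 21735066800140617830)]]],[[[Int.ofNat (nat_lit 1367128233354448064)]]]]],[[[[[Int.negSucc (nat_lit 739173447268247451)]]]]]]],[[[[[[[Int.negSucc (nat_lit 120942714007837581365)],[Int.ofNat (nat_lit 756184072339020724)]]],[[[Int.negSucc (nat_lit 5240720314278744947)]]]]],[[[[[Int.negSucc (nat_lit 22231592581880926231)]]]]]],[],[[[[[[Int.negSucc (nat_lit 5820190290072594969)]]]]]]],[[[[[[[Int.ofNat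 (nat_lit 78018577577133469456)]]],[[[Int.ofNat (nat_lit 2205028187459913644)]]]]],[[[[[Int.negSucc (nat_lit 3413251563604805279)]]]]]]],[[[[[[[Int.negSucc (nat_lit 6871079746242292701)]]]]]]]],[[[[[],[[[[Int.negSucc (nat_lit 5541671910055250715)]]],[[[Int.negSucc (nat_lit 1231116916750854939)]]]]],[[],[[[[Int.ofNat (nat_lit 1620570290148151154)]]]]]],[[[[[[Int.negSucc (nat_lit 7983796345128267099)],[Int.ofNat (nat_lit 243481054133696330)]]],[[[Int.ofNat (nat_lit 1512565615005693234)]]]]],[[[[[Int.negSucc (nat_lit 7566502500856782471)]]]]]],[],[[[[[[Int.ofNat (nat_lit 3534315967847619762)]]]]]]],[[[[],[[[[Int.ofNat (nat_lit 3930594862535099968)]]]]]],[[[[[[Int.ofNat (nat_lit 31562828267739041480)]]]]]]],[[],[[[[[[Int.ofNat (nat_lit 2290008881083659242)]]]]]]]],[[[[[[[[Int.ofNat (nat_lit 1824916157252118484)],[Int.ofNat (nat_lit 558036837413260490)]]],[[[Int.negSucc (nat_lit 4324250453200996169)]]]]],[[[[[Int.ofNat (nat_lit 3493543367525634506)]]]]]],[[[],[[[[Int.negSucc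 (nat_lit 2712894247054555527)]]]]]],[[[[[[Int.ofNat (nat_lit 21196333375486561928)]]]]]]],[[[[[[[Int.ofNat (nat_lit 19230009938196831114)]]]]]]],[[[[[[[Int.negSucc (nat_lit 5454592581849057195)]]]]]]]],[[[[[],[[[[Int.ofNat (nat_lit 627019455396258120)]]]]]],[[[[[[Int.negSucc (nat_lit 10163002332288544737)]]]]]]]],[[[[[[[[Int.ofNat (nat_lit 37684721844189053582)]]]]]]]]],[[[[[[[[[Int.ofNat (nat_lit 276057318829009788606)],[Int.ofNat (nat_lit 449362347976064138)]]],[[[Int.ofNat (nat_lit 984844025000931838)]]]]],[[[[[Int.ofNat (nat_lit 38242963261041419412)]]],[[[Int.negSucc (nat_lit 1440009305275286241)]]]]],[[[[[Int.ofNat (nat_lit 3354764729705677652)]]]]]],[],[[[[[[Int.ofNat (nat_lit 5504118381531581992)]]]]]]],[[[[[[[Int.negSucc (nat_lit 217190483363214746441)],[Int.ofNat (nat_lit 295257321494650570)]]],[[[Int.negSucc (nat_lit 4014795469626511519)]]]]],[[[[[Int.negSucc (nat_lit 10270082034980821605)]]]]]],[],[[[[[[Int.ofNat (nat_lit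 1881375740838905892)]]]]]]],[[[[[[[Int.ofNat (nat_lit 98976259196339488430)]]]]]]],[[[[[[[Int.ofNat (nat_lit 2163580108837490472)]]]]]]]],[[[[[],[[[[Int.negSucc (nat_lit 7530345191795848719)]]]]]],[[[[[[Int.ofNat (nat_lit 29060935426120192278)]]]]],[[[[[Int.negSucc (nat_lit 896118849892539289)]]]]]]],[[[[],[[[[Int.negSucc (nat_lit 1485394553057032213)]]]]]],[[[[[[Int.ofNat (nat_lit 19029203190396348322)]]]]]]]],[[[[[[[[Int.negSucc (nat_lit 38035595842522964787)]]],[[[Int.negSucc (nat_lit 1417794821727385207)]]]]],[[[[[Int.negSucc (nat_lit 323105664767458383)]]]]]]],[[[[[[[Int.ofNat (nat_lit 34781069282529198708)]]]]]]]],[[[],[[[[[[Int.negSucc (nat_lit 30136282587410813)]]]]]]]],[[[[[[[[Int.ofNat (nat_lit 2671368145857845144)]]]]]]]]],[[[[[[[[[Int.ofNat (nat_lit 317089750583872976450)],[Int.negSucc (nat_lit 1713833466658413727)]]],[[[Int.ofNat (nat_lit 5283561695054301812)]]]]],[[[[[Int.negSucc (nat_lit 12776698217763414817)]]]]]],[],[[[[[[Int.negSucc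 (nat_lit 6953100884101715219)]]]]]]],[[[[[[[Int.negSucc (nat_lit 86596964833230527573)]]]]],[[[[[Int.negSucc (nat_lit 1733357306006856977)]]]]]]],[[[[[[[Int.ofNat (nat_lit 19337260456426627376)]]]]]]]],[[[[[],[[[[Int.ofNat (nat_lit 3040320408340068430)]]]]]],[[[[[[Int.ofNat (nat_lit 506457791852976800)]]]]]]]],[[[[[[[[Int.negSucc (nat_lit 6868103020305816337)]]]]]]],[[[[[[[Int.ofNat (nat_lit 3485256275223956296)]]]]]]]]],[[[[[[[[[Int.ofNat (nat_lit 145454064615126177180)]]],[[[Int.negSucc (nat_lit 541399602755263789)]]]]],[[[[[Int.negSucc (nat_lit 5957635885744703297)]]]]]]],[[[[[[[Int.ofNat (nat_lit 12025107989032235058)]]]]]]]],[[[],[[[[[[Int.negSucc (nat_lit 1675740032552983999)]]]]]]]],[[[[[[[[Int.ofNat (nat_lit 8786624238597268356)]]]]]]]]],[[[[[[[[[Int.ofNat (nat_lit 24727548513949090002)]]]]]]],[[[[[[[Int.ofNat (nat_lit 1742667313295375306)]]]]]]]]],[[[[[[[[[Int.ofNat (nat_lit 8997724075768776744)]]]]]]]]]]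

/-- A coefficient. -/
noncomputable def sr2_m0_3_1 : MP 10 :=
  [[[[[[[[[],[[Int.negSucc (nat_lit 1694439875528621629)]]],[[],[[Int.negSucc (nat_lit 2268922819897057155)]]]],[[[[Int.negSucc (nat_lit 15203875893296410947)],[Int.ofNat (nat_lit 1146534092901739248)]]],[[[Int.negSucc (nat_lit 4412264250710909501)]]]]],[[[[],[[Int.ofNat (nat_lit 6266920869398872764)]]]],[[[[Int.negSucc (nat_lit 7365912962871954087)]]]]]],[[[[[[Int.ofNat (nat_lit 101640840536552715764)],[Int.ofNat (nat_lit 277039178296293888)]]],[[[Int.negSucc (nat_lit 7606430743945825175)]]]]],[[[[[Int.ofNat (nat_lit 57174725136995911542)]]]]]],[[[],[[[[Int.negSucc (nat_lit 5618655420730037081)]]]]]],[[[[[[Int.ofNat (nat_lit 2470679155075254064)]]]]]]],[[[[[[],[[Int.ofNat (nat_lit 4106162880423295926)]]]],[[[[Int.ofNat (nat_lit 12701052951218276102)]]]]]],[[[[[[Int.negSucc (nat_lit 95667133579448884315)]]]]]]],[[[[],[[[[Int.negSucc (nat_lit 7389542732932206709)]]]]]],[[[[[[Int.negSucc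 (nat_lit 1572353205539131051)]]]]]]]],[[[[[[[[Int.negSucc (nat_lit 54625533317706916615)],[Int.negSucc (nat_lit 10477272228181755933)]]],[[[Int.ofNat (nat_lit 37913012211277679754)]]]],[],[[[[Int.ofNat (nat_lit 3576719240776838440)]]]]],[[[[[Int.negSucc (nat_lit 112930436052021492123)]]]]]],[[[[[],[[Int.negSucc (nat_lit 2255397749266266247)]]]],[[[[Int.ofNat (nat_lit 16215015586963261666)]]]]]],[[[[[[Int.negSucc (nat_lit 76010821194511725745)]]]]]]],[[[[[[[Int.ofNat (nat_lit 133571657633032086990)]]],[[[Int.ofNat (nat_lit 1960472363458773770)]]]]],[[[[[Int.negSucc (nat_lit 3272344214136802627)]]]]]]],[[[[[[[Int.negSucc (nat_lit 35622261707297135203)]]]]]]]],[[[[[[[],[[Int.ofNat (nat_lit 3444926061653548498)]]]],[[[[Int.ofNat (nat_lit 11740047572262595528)]]]]]],[[[[[[Int.ofNat (nat_lit 21746810117559272268)]]]]]]],[[],[[[[[[Int.ofNat (nat_lit 3342829550655469482)]]]]]]]],[[[[[[[[Int.negSucc (nat_lit 111416644084780776615)]]]]]]],[[[[[[[Int.negSucc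 (nat_lit 4696788628638691031)]]]]]]]]],[[[[[[[[],[[Int.ofNat (nat_lit 4922450928931434348)]]]],[[[[Int.negSucc (nat_lit 4532803969662626385)]]]]],[[],[[[[Int.ofNat (nat_lit 1043634340978740754)]]]]]],[[[[[[Int.ofNat (nat_lit 69117120837732892642)]]],[[[Int.negSucc (nat_lit 7840385990591602163)]]]]],[[[[[Int.ofNat (nat_lit 20312307582601781002)]]]]]]],[[[[[[],[[Int.negSucc (nat_lit 1878270776482413907)]]]],[[[[Int.ofNat (nat_lit 12745337558842629514)]]]]]],[[[[[[Int.negSucc (nat_lit 52102806184234831319)]]]]]]]],[[[[[[[[Int.ofNat (nat_lit 87282714868364515060)],[Int.negSucc (nat_lit 1663818451923994855)]]],[[[Int.ofNat (nat_lit 16154086245164188482)]]]]],[[[[[Int.negSucc (nat_lit 50634908512890835297)]]]]]],[],[[[[[[Int.ofNat (nat_lit 2598906842783804412)]]]]]]],[[[[[[[Int.ofNat (nat_lit 100062205511028273750)]]]]]]],[[[[[[[Int.negSucc (nat_lit 5846945252285939737)]]]]]]]],[[[[[],[[[[Int.ofNat (nat_lit 13047787458580067792)]]]]]],[[[[[[Int.negSucc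 (nat_lit 12454852173561791673)]]]]]]]],[[[[[[[[Int.ofNat (nat_lit 114472625713561974980)]]]]]]]]],[[[[[[[[],[[Int.ofNat (nat_lit 5697507300893901584)]]]],[[[[Int.negSucc (nat_lit 2937769924105114003)]]]]]],[[[[[[Int.negSucc (nat_lit 15150108546373539983)]]]]]]],[[],[[[[[[Int.ofNat (nat_lit 4962371989721826390)]]]]]]]],[[[[[[[[Int.ofNat (nat_lit 196296858947837395996)]]]]],[[[[[Int.negSucc (nat_lit 9795246656673558293)]]]]]]],[[[[[[[Int.ofNat (nat_lit 3603637947258235602)]]]]]]]],[],[[[[[[[[Int.ofNat (nat_lit 16670176274768913724)]]]]]]]]],[[[[[[],[[[[Int.ofNat (nat_lit 10471172564849944582)]]]]]],[[[[[[Int.negSucc (nat_lit 23687124223339702785)]]]]]]]],[[[[[[[[Int.ofNat (nat_lit 134738385943000217406)]]]]]]]]],[[],[[[[[[[[Int.ofNat (nat_lit 15038888433892466468)]]]]]]]]]]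

/-- A coefficient. -/
noncomputable def sr2_m0_3_2 : MP 10 :=
  [[[[[[[[[[Int.negSucc (nat_lit 100449090582119798609)],[Int.ofNat (nat_lit 1043274781600268038)]]],[[[Int.negSucc (nat_lit 86931807651492801871)]]]],[[[],[[Int.ofNat (nat_lit 12042315436155956020)]]]],[[[[Int.ofNat (nat_lit 31147633957546486266)]]]]],[[[[[Int.ofNat (nat_lit 124807896071481969316)]]],[[[Int.negSucc (nat_lit 3662920030205483369)]]]]],[[[[[Int.ofNat (nat_lit 10928252055506326600)]]]]]],[[[[[],[[Int.ofNat (nat_lit 7738546351117729334)]]]],[[[[Int.negSucc (nat_lit 3036240208949433287)]]]]]],[[[[[[Int.ofNat (nat_lit 124309039120280726898)]]]]]]],[[[[[[[Int.ofNat (nat_lit 118359879475693939916)],[Int.negSucc (nat_lit 1226430100524175455)]]],[[[Int.ofNat (nat_lit 45902370087358458964)]]]]],[[[[[Int.negSucc (nat_lit 58000877154598968949)]]]]]],[],[[[[[[Int.ofNat (nat_lit 9668093748013949926)]]]]]]],[[[[[[[Int.negSucc (nat_lit 180979974734267548021)]]]]]]],[[[[[[[Int.ofNat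 (nat_lit 14325964450933065298)]]]]]]]],[[[[[[[],[[Int.ofNat (nat_lit 35086197598054452456)]]]],[[[[Int.negSucc (nat_lit 49756889736773596175)]]]]]],[[[[[[Int.negSucc (nat_lit 245824292736675659579)]]]]],[[[[[Int.ofNat (nat_lit 327705313542331312)]]]]]]],[[[[],[[[[Int.ofNat (nat_lit 1162776006737249950)]]]]]],[[[[[[Int.negSucc (nat_lit 11303289037035686651)]]]]]]]],[[[[[[[[Int.ofNat (nat_lit 539286855177609837718)]]],[[[Int.negSucc (nat_lit 7014862303953934491)]]]]],[[[[[Int.negSucc (nat_lit 30223823968970874843)]]]]]]],[[[[[[[Int.ofNat (nat_lit 31873576265409997818)]]]]]]]],[[[],[[[[[[Int.ofNat (nat_lit 1266734606520777690)]]]]]]]],[[[[[[[[Int.negSucc (nat_lit 8906255006884969803)]]]]]]]]],[[[[[[[[[Int.negSucc (nat_lit 682269811428927220933)],[Int.negSucc (nat_lit 2956278645465245377)]]],[[[Int.ofNat (nat_lit 17374639150501740934)]]]]],[[[[[Int.negSucc (nat_lit 68041595332690389549)]]]]]],[[[],[[[[Int.ofNat (nat_lit 473908232779593726)]]]]]],[[[[[[Int.negSucc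 (nat_lit 4390071695619119085)]]]]]]],[[[[[[[Int.ofNat (nat_lit 408989161705386368342)]]]]],[[[[[Int.negSucc (nat_lit 11288057763208028879)]]]]]]],[[[[[[[Int.negSucc (nat_lit 82394200787242651175)]]]]]]]],[[[[[[[],[[Int.ofNat (nat_lit 10871444328146160588)]]]],[[[[Int.negSucc (nat_lit 15760456716429856985)]]]]]],[[[[[[Int.negSucc (nat_lit 123070799840836400997)]]]]]]]],[[[[[[[[Int.ofNat (nat_lit 517258775471337652680)]]]]]]],[[[[[[[Int.ofNat (nat_lit 1002225274690960934)]]]]]]]]],[[[[[[[[[Int.negSucc (nat_lit 953283708445453896771)]]],[[[Int.negSucc (nat_lit 353580765401171813)]]]]],[[[[[Int.negSucc (nat_lit 16102514633291271661)]]]]]]],[[[[[[[Int.ofNat (nat_lit 197592649674622312462)]]]]]]]],[[[],[[[[[[Int.negSucc (nat_lit 24910214164019051283)]]]]]]]],[[[[[[[[Int.ofNat (nat_lit 266441552352648622468)]]]]]]]]],[[[[[[[[[Int.negSucc (nat_lit 395863314394846608523)]]]]]]],[[[[[[[Int.ofNat (nat_lit 8904523944800488164)]]]]]]]]],[[[[[[[[[Int.ofNat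 (nat_lit 949362207589284886)]]]]]]]]]]

/-- A coefficient. -/
noncomputable def sr2_m0_3_3 : MP 10 :=
  [[[[[[[[[],[[Int.ofNat (nat_lit 60890009259239623480)]]]],[[[[Int.ofNat (nat_lit 40915214961846123568)]]]]],[[],[[[[Int.ofNat (nat_lit 19106143174771375756)]]]]]],[[[[[[Int.ofNat (nat_lit 105871315574986161628)]]],[[[Int.negSucc (nat_lit 1170913161923734183)]]]]],[[[[[Int.ofNat (nat_lit 9122563970748092612)]]]]]]],[[[[[[],[[Int.negSucc (nat_lit 14955728514327163679)]]]],[[[[Int.negSucc (nat_lit 15569850004884940807)]]]]]],[[[[[[Int.ofNat (nat_lit 2523328380926488470)]]]]]]]],[[[[[[[[Int.negSucc (nat_lit 588881314357728115705)],[Int.ofNat (nat_lit 11493243604315163406)]]],[[[Int.negSucc (nat_lit 27225800295336382385)]]]]],[[[[[Int.ofNat (nat_lit 197434861868544269508)]]]]]],[],[[[[[[Int.ofNat (nat_lit 34709735878570615518)]]]]]]],[[[[[[[Int.negSucc (nat_lit 236601544366191371565)]]]]]]],[[[[[[[Int.ofNat (nat_lit 127999613013946349780)]]]]]]]],[[[[[],[[[[Int.negSucc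 (nat_lit 12293289506302734617)]]]]]],[[[[[[Int.negSucc (nat_lit 74741629303565407649)]]]]]]]],[[[[[[[[Int.negSucc (nat_lit 336222748590259179917)]]]]]]]]],[[[[[[[[],[[Int.negSucc (nat_lit 49697876971076596131)]]]],[[[[Int.negSucc (nat_lit 56776780730768045361)]]]]]],[[[[[[Int.negSucc (nat_lit 32105069083311975017)]]]]]]],[[],[[[[[[Int.negSucc (nat_lit 65873766957500075345)]]]]]]]],[[[[[[[[Int.negSucc (nat_lit 610598872574732693277)]]]]],[[[[[Int.ofNat (nat_lit 54746828667413936222)]]]]]]],[[[[[[[Int.negSucc (nat_lit 177503797610322450919)]]]]]]]],[],[[[[[[[[Int.negSucc (nat_lit 203595846302514532181)]]]]]]]]],[[[[[[],[[[[Int.negSucc (nat_lit 11164267025535272197)]]]]]],[[[[[[Int.negSucc (nat_lit 69690827736582080197)]]]]]]]],[[[[[[[[Int.negSucc (nat_lit 470545950367330305183)]]]]]]]]],[[],[[[[[[[[Int.negSucc (nat_lit 75244620664570349133)]]]]]]]]]]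

/-- A coefficient. -/
noncomputable def sr2_m0_3_4 : MP 10 :=
  [[[[[[[[[[Int.ofNat (nat_lit 1361569065087653438170)],[Int.negSucc (nat_lit 4779956920133751349)]]],[[[Int.ofNat (nat_lit 83009031887603354566)]]]]],[[[[[Int.ofNat (nat_lit 14471290798200221162)]]]]]],[[[],[[[[Int.ofNat (nat_lit 29027505168914398024)]]]]]],[[[[[[Int.ofNat (nat_lit 52750105413129285768)]]]]]]],[[[[[[[Int.negSucc (nat_lit 973242940961602329195)]]]]],[[[[[Int.negSucc (nat_lit 24647442263956921469)]]]]]]],[[[[[[[Int.ofNat (nat_lit 524481537072931268716)]]]]]]]],[[[[[[[],[[Int.negSucc (nat_lit 29601599977696366737)]]]],[[[[Int.ofNat (nat_lit 38243047574564610170)]]]]]],[[[[[[Int.ofNat (nat_lit 302393691763136430764)]]]]]]]],[[[[[[[[Int.negSucc (nat_lit 401988941431869109925)]]]]]]],[[[[[[[Int.negSucc (nat_lit 73900469573249927695)]]]]]]]]],[[[[[[[[[Int.ofNat (nat_lit 1717062250702294158198)]]]]],[[[[[Int.negSucc (nat_lit 195403347644737188407)]]]]]]],[[[[[[[Int.negSucc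 (nat_lit 195893649298507754475)]]]]]]]],[[[],[[[[[[Int.ofNat (nat_lit 234542772602063051520)]]]]]]]],[[[[[[[[Int.negSucc (nat_lit 96955820089558400991)]]]]]]]]],[[[[[[[[[Int.ofNat (nat_lit 1587517613401688429282)]]]]]]],[[[[[[[Int.negSucc (nat_lit 63894114346285124621)]]]]]]]]],[[[[[[[[[Int.ofNat (nat_lit 545524396186611772762)]]]]]]]]]]

/-- A coefficient. -/
noncomputable def sr2_m0_3_5 : MP 10 :=
  [[[[[[[[[],[[Int.negSucc (nat_lit 85269472836598537497)]]]],[[[[Int.negSucc (nat_lit 39783797078252634853)]]]]]],[[[[[[Int.ofNat (nat_lit 48734665675587235142)]]]]]]],[[],[[[[[[Int.negSucc (nat_lit 3883055007380061747)]]]]]]]],[[[[[[[[Int.ofNat (nat_lit 374078815496587447666)]]]]],[[[[[Int.negSucc (nat_lit 58885564102679906527)]]]]]]],[[[[[[[Int.ofNat (nat_lit 204207629979903509104)]]]]]]]],[],[[[[[[[[Int.ofNat (nat_lit 669534479418724562256)]]]]]]]]],[[[[],[[[[[[Int.negSucc (nat_lit 605544699623192731307)]]]]]]]],[[[[[[[[Int.ofNat (nat_lit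 226162804624216349148)]]]]]]]]],[[],[[[[[[[[Int.negSucc (nat_lit 89269846481310594743)]]]]]]]]]]

/-- A coefficient. -/
noncomputable def sr2_m0_3_6 : MP 10 :=
  [[[[[[[[[[Int.negSucc (nat_lit 1030056019543390585913)]]]]],[[[[[Int.negSucc (nat_lit 243651011907273311369)]]]]]]],[[[[[[[Int.ofNat (nat_lit 623365248455521499816)]]]]]]]],[[[],[[[[[[Int.negSucc (nat_lit 153263933018386447985)]]]]]]]],[[[[[[[[Int.negSucc (nat_lit 114551375633194976215)]]]]]]]]],[[[[[[[[[Int.negSucc (nat_lit 200211477930328967411)]]]]]]]]],[[[[[[[[[Int.ofNat (nat_lit 313883123702893422348)]]]]]]]]]]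

/-- A coefficient. -/
noncomputable def sr2_m0_3_7 : MP 10 :=
  [[[[[],[[[[[[Int.negSucc (nat_lit 364602857097432113493)]]]]]]]]]]

/-- A coefficient. -/
noncomputable def sr2_m0_4_0 : MP 10 :=
  [[[[[[[[[[Int.negSucc (nat_lit 99608574794302690761)],[Int.negSucc (nat_lit 3853556982725076171)]]],[[[Int.ofNat (nat_lit 26494864293471135762)]]]]],[[[[[Int.negSucc (nat_lit 64741325186343444429)],[Int.negSucc (nat_lit 141104963959053703)]]],[[[Int.ofNat (nat_lit 1611435104532642518)]]]]],[[[[[Int.negSucc (nat_lit 12734755218601126821)]]]]]],[],[[[[[[Int.negSucc (nat_lit 9182234564897215109)]]]]],[[[[[Int.negSucc (nat_lit 677457415162254705)]]]]]]],[[[[[[[Int.ofNat (nat_lit 93377042029935475912)],[Int.ofNat (nat_lit 2689605334800517430)]]],[[[Int.negSucc (nat_lit 11035898155346776829)]]]]],[[[[[Int.ofNat (nat_lit 25537222204685569506)]]]]]],[],[[[[[[Int.ofNat (nat_lit 3764360219452605054)]]]]]]],[[[[[[[Int.negSucc (nat_lit 60263943260071360801)]]]]],[[[[[Int.ofNat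 (nat_lit 923659277618137590)]]]]]]],[[[[[[[Int.ofNat (nat_lit 5304067457962715394)]]]]]]]],[[[[[],[[[[Int.ofNat (nat_lit 14694443789409504168)]]]]],[[],[[[[Int.ofNat (nat_lit 402359048029657128)]]]]]],[[[[[[Int.negSucc (nat_lit 71532436812861145213)]]]]],[[[[[Int.ofNat (nat_lit 2719506373376381382)]]]]]]],[[[[],[[[[Int.negSucc (nat_lit 164079893612145211)]]]]]],[[[[[[Int.ofNat (nat_lit 8001026726155827186)]]]]]]]],[[[[[[[[Int.ofNat (nat_lit 35331563789168391446)],[Int.negSucc (nat_lit 556523800596755733)]]],[[[Int.ofNat (nat_lit 1463079934984871002)]]]]],[[[[[Int.negSucc (nat_lit 2288387093137701887)]]]]]],[],[[[[[[Int.negSucc (nat_lit 1400321548543617093)]]]]]]],[[[[[[[Int.negSucc (nat_lit 15047956812658388403)]]]]]]],[[[[[[[Int.negSucc (nat_lit 1142734453625480949)]]]]]]]],[[[[[],[[[[Int.ofNat (nat_lit 2461344183314423894)]]]]]],[[[[[[Int.negSucc (nat_lit 9494932549671498797)]]]]]]]],[[[[[[[[Int.negSucc (nat_lit 23119160321434026383)]]]]]]]]],[[[[[[[[[Int.negSucc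 (nat_lit 161906883699221722565)],[Int.ofNat (nat_lit 1920995644792849230)]]],[[[Int.negSucc (nat_lit 5311356323361308811)]]]]],[[[[[Int.negSucc (nat_lit 7100340341296200575)]]]]],[[[[[Int.ofNat (nat_lit 453566288157299768)]]]]]],[],[[[[[[Int.negSucc (nat_lit 3661245880034405669)]]]]]]],[[[[[[[Int.negSucc (nat_lit 46699189101849963549)]]]]],[[[[[Int.ofNat (nat_lit 13573078312138372502)]]]]]]],[[[[[[[Int.negSucc (nat_lit 12712928790177865535)]]]]]]]],[[[[[],[[[[Int.ofNat (nat_lit 10225670371075617314)]]]]]],[[[[[[Int.negSucc (nat_lit 48720511109067413569)]]]]]]]],[[[[[[[[Int.ofNat (nat_lit 51429333845213187396)]]]]],[[[[[Int.negSucc (nat_lit 563815346579670007)]]]]]]],[[[[[[[Int.ofNat (nat_lit 713696573166486606)]]]]]]]],[],[[[[[[[[Int.ofNat (nat_lit 10109354621148784398)]]]]]]]]],[[[[[[[[[Int.negSucc (nat_lit 58363447359813554651)],[Int.ofNat (nat_lit 1074547160700602398)]]],[[[Int.negSucc (nat_lit 3512480462463209551)]]]]],[[[[[Int.ofNat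 (nat_lit 932411127425182552)]]]]]],[],[[[[[[Int.negSucc (nat_lit 197756332449270239)]]]]]]],[[[[[[[Int.negSucc (nat_lit 72781134482518742537)]]]]]]],[[[[[[[Int.negSucc (nat_lit 4184914565700562507)]]]]]]]],[[[[[],[[[[Int.ofNat (nat_lit 3066055001047438928)]]]]]],[[[[[[Int.negSucc (nat_lit 4861128471144221121)]]]]]]]],[[[[[[[[Int.ofNat (nat_lit 39511869010552785442)]]]]]]]]],[[[[[[[[[Int.ofNat (nat_lit 55500591002345512866)]]]]],[[[[[Int.negSucc (nat_lit 1232303485208445905)]]]]]]],[[[[[[[Int.negSucc (nat_lit 4270238213523271065)]]]]]]]],[],[[[[[[[[Int.ofNat (nat_lit 23827203008461740540)]]]]]]]]],[[[[[[[[[Int.ofNat (nat_lit 69992671080351787194)]]]]]]]]],[[[[[[[[[Int.ofNat (nat_lit 23148836873803405566)]]]]]]]]]]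

/-- A coefficient. -/
noncomputable def sr2_m0_4_1 : MP 10 :=
  [[[[[[[[[],[[Int.ofNat (nat_lit 24004646394687520474)]]]],[[[[Int.negSucc (nat_lit 3685047386488531991)]]]]],[[[[],[[Int.negSucc (nat_lit 4734836828727841569)]]]],[[[[Int.ofNat (nat_lit 7494868441687004630)]]]]]],[[[[[[Int.ofNat (nat_lit 12123578589384314602)],[Int.negSucc (nat_lit 238413466678604941)]]],[[[Int.negSucc (nat_lit 9141006936961954327)]]]]],[[[[[Int.negSucc (nat_lit 19322197562043719849)]]]]]],[],[[[[[[Int.negSucc (nat_lit 5974929175278655441)]]]]]]],[[[[[[],[[Int.ofNat (nat_lit 1133024815350718236)]]]],[[[[Int.ofNat (nat_lit 25840476927822200184)]]]]]],[[[[[[Int.ofNat (nat_lit 47232382539694594436)]]]]]]],[[],[[[[[[Int.ofNat (nat_lit 2057080426142422618)]]]]]]]],[[[[[[[[Int.ofNat (nat_lit 70597954891045497260)],[Int.negSucc (nat_lit 5596908616112683113)]]],[[[Int.negSucc (nat_lit 2907765663552599033)]]]]],[[[[[Int.negSucc (nat_lit 6005011014167503199)]]]]]],[[[],[[[[Int.ofNat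 (nat_lit 144963075189022084)]]]]]],[[[[[[Int.negSucc (nat_lit 31359381192499196987)]]]]]]],[[[[[[[Int.negSucc (nat_lit 62408940263420412157)]]]]],[[[[[Int.negSucc (nat_lit 3131474092778388665)]]]]]]],[[[[[[[Int.negSucc (nat_lit 17820583768091335035)]]]]]]]],[[[[[[[],[[Int.ofNat (nat_lit 5872530458765855536)]]]],[[[[Int.ofNat (nat_lit 18029404988202287070)]]]]]],[[[[[[Int.ofNat (nat_lit 4383281318087908538)]]]]]]]],[[[[[[[[Int.ofNat (nat_lit 29160872949052385300)]]]]]]],[[[[[[[Int.ofNat (nat_lit 2895056910861044432)]]]]]]]]],[[[[[[[[],[[Int.ofNat (nat_lit 40130331747233096920)]]]],[[[[Int.ofNat (nat_lit 10219852177713345754)]]]]]],[[[[[[Int.negSucc (nat_lit 6060881421212473183)]]]]],[[[[[Int.ofNat (nat_lit 2133506468593103346)]]]]]]],[[],[[[[[[Int.ofNat (nat_lit 52188923093547731994)]]]]]]]],[[[[[[[[Int.ofNat (nat_lit 155875449253450152486)]]]]],[[[[[Int.negSucc (nat_lit 23035467653728110563)]]]]]]],[[[[[[[Int.negSucc (nat_lit 37884087287782864387)]]]]]]]],[[[],[[[[[[Int.negSucc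 (nat_lit 21350142146648795053)]]]]]]]],[[[[[[[[Int.ofNat (nat_lit 43798679406064405672)]]]]]]]]],[[[[[[[[],[[Int.ofNat (nat_lit 14182328953721448336)]]]],[[[[Int.ofNat (nat_lit 10331558133473628070)]]]]]],[[[[[[Int.negSucc (nat_lit 32036107384970395725)]]]]]]]],[[[[[[[[Int.ofNat (nat_lit 113203324933625867906)]]]]]]],[[[[[[[Int.ofNat (nat_lit 5077455204400851004)]]]]]]]]],[[[[],[[[[[[Int.negSucc (nat_lit 18633566103720384735)]]]]]]]],[[[[[[[[Int.ofNat (nat_lit 44089845996673314028)]]]]]]]]]]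

/-- A coefficient. -/
noncomputable def sr2_m0_4_2 : MP 10 :=
  [[[[[[[[[[Int.ofNat (nat_lit 22174535111940362220)],[Int.ofNat (nat_lit 7836607590606678176)]]],[[[Int.negSucc (nat_lit 33449334124620471073)]]]]],[[[[[Int.ofNat (nat_lit 150071881250978415994)]]]]],[[[[[Int.negSucc (nat_lit 9338583775189168241)]]]]]],[[[[[],[[Int.negSucc (nat_lit 18696834524537800335)]]]],[[[[Int.negSucc (nat_lit 34136366134587077363)]]]]]],[[[[[[Int.ofNat (nat_lit 19866286465189524708)]]]]]]],[[[[[[[Int.ofNat (nat_lit 131474400910930716956)]]]]],[[[[[Int.ofNat (nat_lit 26719588842081677200)]]]]]]],[[[[[[[Int.ofNat (nat_lit 59857928243549052080)]]]]]]]],[[[[[[[],[[Int.ofNat (nat_lit 37359811363637916266)]]]],[[[[Int.negSucc (nat_lit 41989683351601797859)]]]]]],[[[[[[Int.ofNat (nat_lit 365886892447134894)]]]]]]],[[],[[[[[[Int.negSucc (nat_lit 31793873290120932497)]]]]]]]],[[[[[[[[Int.negSucc (nat_lit 47527624367505258015)]]]]],[[[[[Int.ofNat (nat_lit 64263552131847290418)]]]]]]],[[[[[[[Int.negSucc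 (nat_lit 23278964082170119569)]]]]]]]],[],[[[[[[[[Int.negSucc (nat_lit 28429370881915048113)]]]]]]]]],[[[[[[[[[Int.ofNat (nat_lit 116941654326839319436)],[Int.ofNat (nat_lit 110846032493519104)]]],[[[Int.negSucc (nat_lit 15610908192086333413)]]]]],[[[[[Int.ofNat (nat_lit 250660159127384688746)]]]]]],[],[[[[[[Int.ofNat (nat_lit 62640688059976040092)]]]]]]],[[[[[[[Int.ofNat (nat_lit 37510980518991978332)]]]]]]],[[[[[[[Int.ofNat (nat_lit 19606640192289192018)]]]]]]]],[[[[[],[[[[Int.negSucc (nat_lit 20801328707061295843)]]]]]],[[[[[[Int.negSucc (nat_lit 2956766652031013849)]]]]]]]],[[[[[[[[Int.negSucc (nat_lit 281377713460366152671)]]]]]]]]],[[[[[[[[[Int.negSucc (nat_lit 398575363016340013675)]]]]],[[[[[Int.ofNat (nat_lit 84919155084767050334)]]]]]]],[[[[[[[Int.negSucc (nat_lit 32753310892286168475)]]]]]]]],[],[[[[[[[[Int.negSucc (nat_lit 136463415087228618731)]]]]]]]]],[[[[[[[[[Int.negSucc (nat_lit 507553784970142834751)]]]]]]]]],[[[[[[[[[Int.negSucc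 (nat_lit 146747813726540922511)]]]]]]]]]]

/-- A coefficient. -/
noncomputable def sr2_m0_4_3 : MP 10 :=
  [[[[[[[[[],[[Int.negSucc (nat_lit 134654205143147589867)]]]],[[[[Int.negSucc (nat_lit 13511437997549175435)]]]]]],[[[[[[Int.ofNat (nat_lit 343928940979827330960)]]]]],[[[[[Int.negSucc (nat_lit 51552903001372443697)]]]]]]],[[],[[[[[[Int.ofNat (nat_lit 21338466496219104086)]]]]]]]],[[[[[[[[Int.negSucc (nat_lit 757574718372949796681)]]]]],[[[[[Int.ofNat (nat_lit 105658260829316292786)]]]]]]],[[[[[[[Int.negSucc (nat_lit 378593353884863664815)]]]]]]]],[[[],[[[[[[Int.ofNat (nat_lit 202872479210723115814)]]]]]]]],[[[[[[[[Int.negSucc (nat_lit 154051569501650385907)]]]]]]]]],[[[[[[[[],[[Int.negSucc (nat_lit 20771234208104402475)]]]],[[[[Int.ofNat (nat_lit 42136637928919090606)]]]]]],[[[[[[Int.ofNat (nat_lit 714973776868882781556)]]]]]]]],[[[[[[[[Int.negSucc (nat_lit 1171708288747449856039)]]]]]]],[[[[[[[Int.negSucc (nat_lit 75063869326825671501)]]]]]]]]],[[[[],[[[[[[Int.ofNat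 (nat_lit 264713059228500818850)]]]]]]]],[[[[[[[[Int.negSucc (nat_lit 346824730113609933251)]]]]]]]]]]

/-- A coefficient. -/
noncomputable def sr2_m0_4_4 : MP 10 :=
  [[[[[[[[[[Int.ofNat (nat_lit 131807139487738518058)],[Int.ofNat (nat_lit 2509899426864267760)]]],[[[Int.negSucc (nat_lit 4777272027190450343)]]]]],[[[[[Int.negSucc (nat_lit 293594861307068673707)]]]]]],[],[[[[[[Int.negSucc (nat_lit 217068941761178069349)]]]]]]],[[[[[[[Int.negSucc (nat_lit 77495572472044243841)]]]]]]],[[[[[[[Int.negSucc (nat_lit 92853848156833261849)]]]]]]]],[[[[[],[[[[Int.negSucc (nat_lit 619374441504055785)]]]]]],[[[[[[Int.ofNat (nat_lit 186629313187855002210)]]]]]]]],[[[[[[[[Int.ofNat (nat_lit 473005901547996535740)]]]]]]]]],[[[[[[[[[Int.ofNat (nat_lit 1053619211787087217324)]]]]],[[[[[Int.negSucc (nat_lit 32625305951455907787)]]]]]]],[[[[[[[Int.negSucc (nat_lit 253676436748395667695)]]]]]]]],[],[[[[[[[[Int.ofNat (nat_lit 46753215963622808686)]]]]]]]]],[[[[[[[[[Int.ofNat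 (nat_lit 1202436109337030352966)]]]]]]]]],[[[[[[[[[Int.ofNat (nat_lit 352723454449596528810)]]]]]]]]]]

/-- A coefficient. -/
noncomputable def sr2_m0_4_5 : MP 10 :=
  [[[[[[[[[],[[Int.ofNat (nat_lit 113856356191812454118)]]]],[[[[Int.ofNat (nat_lit 31082134935518616878)]]]]]],[[[[[[Int.negSucc (nat_lit 506859418790362544819)]]]]]]]],[[[[[[[[Int.ofNat (nat_lit 758453038144756119132)]]]]]]],[[[[[[[Int.ofNat (nat_lit 518342056745740728808)]]]]]]]]],[[[[],[[[[[[Int.negSucc (nat_lit 301840238047507969449)]]]]]]]],[[[[[[[[Int.ofNat (nat_lit 669784526507121999168)]]]]]]]]]]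

/-- A coefficient. -/
noncomputable def sr2_m0_4_6 : MP 10 :=
  [[[[[[[[[[Int.negSucc (nat_lit 173266495029426591015)]]]]],[[[[[Int.ofNat (nat_lit 244187472603020711514)]]]]]]],[[[[[[[Int.negSucc (nat_lit 589535521371952120799)]]]]]]]],[],[[[[[[[[Int.negSucc (nat_lit 924533557275579501455)]]]]]]]]],[[[[[[[[[Int.negSucc (nat_lit 1404502114966103104305)]]]]]]]]],[[[[[[[[[Int.negSucc (nat_lit 830707772306388711521)]]]]]]]]]]

/-- A coefficient. -/
noncomputable def sr2_m0_4_7 : MP 10 :=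
  [[[[[],[[[[[[Int.ofNat (nat_lit 188994736411434844698)]]]]]]]]]]

/-- A coefficient. -/
noncomputable def sr2_m0_5_0 : MP 10 :=
  [[[[[[[[[[Int.negSucc (nat_lit 33090451690659459627)],[Int.negSucc (nat_lit 360700718452831287)]]],[[[Int.negSucc (nat_lit 16130888737259580259)]]]]],[[[[[Int.ofNat (nat_lit 6606618554063615836)]]]]]],[],[[[[[[Int.negSucc (nat_lit 34875429629597782519)]]]]]]],[[[[[[[Int.ofNat (nat_lit 34728892042452718302)],[Int.negSucc (nat_lit 1975936896202661715)]]],[[[Int.ofNat (nat_lit 9800594508144522900)]]]]],[[[[[Int.negSucc (nat_lit 6008914560767910893)]]]]]],[],[[[[[[Int.negSucc (nat_lit 2177835404026665801)]]]]]]],[[[[[[[Int.negSucc (nat_lit 30835811077826850887)]]]]]]],[[[[[[[Int.negSucc (nat_lit 3634162931455832921)]]]]]]]],[[[[[],[[[[Int.negSucc (nat_lit 1139666401285730037)]]]]]],[[[[[[Int.ofNat (nat_lit 34581914783469573286)]]]]]]],[[[[],[[[[Int.negSucc (nat_lit 1105014454838925963)]]]]]],[[[[[[Int.negSucc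 (nat_lit 13893845399354512197)]]]]]]]],[[[[[[[[Int.negSucc (nat_lit 47945514243786027391)]]]]]]],[[[[[[[Int.ofNat (nat_lit 1159061457267944240)]]]]]]]]],[[[[[[[[[Int.negSucc (nat_lit 166802187653916972881)],[Int.negSucc (nat_lit 2013364658468514199)]]],[[[Int.ofNat (nat_lit 9196833319958697442)]]]]],[[[[[Int.negSucc (nat_lit 30076256169493681291)]]]]]],[],[[[[[[Int.negSucc (nat_lit 2611169531221528317)]]]]]]],[[[[[[[Int.ofNat (nat_lit 126508851498852792126)]]]]],[[[[[Int.negSucc (nat_lit 4677024984618291397)]]]]]]],[[[[[[[Int.negSucc (nat_lit 33886915071351364647)]]]]]]]],[[[[[],[[[[Int.ofNat (nat_lit 3510233401464414602)]]]]]],[[[[[[Int.negSucc (nat_lit 27888403341622531903)]]]]]]]],[[[[[[[[Int.negSucc (nat_lit 8212597067490271401)]]]]]]],[[[[[[[Int.negSucc (nat_lit 12404327062080322287)]]]]]]]]],[[[[[[[[[Int.negSucc (nat_lit 208425688243184256749)]]]]],[[[[[Int.negSucc (nat_lit 1789449096542892427)]]]]]]],[[[[[[[Int.ofNat (nat_lit 49223334257289706306)]]]]]]]],[],[[[[[[[[Int.ofNat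 (nat_lit 2404773155486336524)]]]]]]]]],[[[[[[[[[Int.negSucc (nat_lit 62535033391736610575)]]]]]]],[[[[[[[Int.negSucc (nat_lit 3331589847452770819)]]]]]]]]],[[[[[[[[[Int.ofNat (nat_lit 15063254645161518688)]]]]]]]]]]

/-- A coefficient. -/
noncomputable def sr2_m0_5_1 : MP 10 :=
  [[[[[[[[[],[[Int.negSucc (nat_lit 1714715759500552225)]]]],[[[[Int.ofNat (nat_lit 16747000636019121950)]]]]]],[[[[[[Int.negSucc (nat_lit 62069726560560973209)]]]]]]],[[[[[[],[[Int.ofNat (nat_lit 162863886225864270)]]]],[[[[Int.negSucc (nat_lit 19184496730574519991)]]]]]],[[[[[[Int.negSucc (nat_lit 1296003201578533999)]]]]]]]],[[[[[[[[Int.negSucc (nat_lit 4347012062494104507)],[Int.ofNat (nat_lit 7598055825099277788)]]],[[[Int.negSucc (nat_lit 6663392133733780705)]]]]],[[[[[Int.ofNat (nat_lit 43985723407904267288)]]]]]],[],[[[[[[Int.ofNat (nat_lit 16738689939616162852)]]]]]]],[[[[[[[Int.negSucc (nat_lit 57953180620155628117)]]]]]]],[[[[[[[Int.ofNat (nat_lit 29974798459228632564)]]]]]]]],[[[[[],[[[[Int.negSucc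 (nat_lit 17439782352150379289)]]]]]],[[[[[[Int.ofNat (nat_lit 48162034081284910806)]]]]]]]],[[[[[[[[Int.ofNat (nat_lit 19712126288263780136)]]]]]]]]],[[[[[[[[],[[Int.negSucc (nat_lit 9319842965842353029)]]]],[[[[Int.negSucc (nat_lit 930025846791929537)]]]]]],[[[[[[Int.negSucc (nat_lit 39658302207101081147)]]]]]]],[[],[[[[[[Int.negSucc (nat_lit 34570895366270915917)]]]]]]]],[[[[[[[[Int.negSucc (nat_lit 108617582599535974011)]]]]],[[[[[Int.ofNat (nat_lit 21351764322005237046)]]]]]]],[[[[[[[Int.negSucc (nat_lit 6425400296051202319)]]]]]]]],[],[[[[[[[[Int.negSucc (nat_lit 69205376787833580169)]]]]]]]]],[[[[],[[[[[[Int.negSucc (nat_lit 34668090450025344663)]]]]]]]],[[[[[[[[Int.negSucc (nat_lit 70978734301941417891)]]]]]]]]],[[],[[[[[[[[Int.negSucc (nat_lit 60649798367073215707)]]]]]]]]]]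

/-- A coefficient. -/
noncomputable def sr2_m0_5_2 : MP 10 :=
  [[[[[[[[[[Int.negSucc (nat_lit 3879750170944957253)],[Int.negSucc (nat_lit 2669524977943344087)]]],[[[Int.ofNat (nat_lit 75174094673430415814)]]]]],[[[[[Int.negSucc (nat_lit 120614614626740159403)]]]]]],[],[[[[[[Int.ofNat (nat_lit 72761059238236701018)]]]]]]],[[[[[[[Int.negSucc (nat_lit 108954925809374279269)]]]]],[[[[[Int.negSucc (nat_lit 9101797600884091015)]]]]]]],[[[[[[[Int.ofNat (nat_lit 149920892676085932286)]]]]]]]],[[[[[[[],[[Int.negSucc (nat_lit 39061328971645767335)]]]],[[[[Int.ofNat (nat_lit 27254537495413224544)]]]]]],[[[[[[Int.negSucc (nat_lit 10457927932648950675)]]]]]]]],[[[[[[[[Int.ofNat (nat_lit 15662733686792176254)]]]]]]],[[[[[[[Int.negSucc (nat_lit 34059256121165013399)]]]]]]]]],[[[[[[[[[Int.negSucc (nat_lit 3655276028449059027)]]]]],[[[[[Int.negSucc (nat_lit 44615374276318034787)]]]]]]],[[[[[[[Int.negSucc (nat_lit 137197797294131711947)]]]]]]]],[[[],[[[[[[Int.ofNat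 (nat_lit 74531041062274611768)]]]]]]]],[[[[[[[[Int.negSucc (nat_lit 131472550892635003077)]]]]]]]]],[[[[[[[[[Int.ofNat (nat_lit 225970752538708462930)]]]]]]],[[[[[[[Int.ofNat (nat_lit 956465729205333624)]]]]]]]]],[[[[[[[[[Int.ofNat (nat_lit 141200714435504787946)]]]]]]]]]]

/-- A coefficient. -/
noncomputable def sr2_m0_5_3 : MP 10 :=
  [[[[[[[[[],[[Int.negSucc (nat_lit 59538253925057258565)]]]],[[[[Int.negSucc (nat_lit 27067860616913297695)]]]]]],[[[[[[Int.negSucc (nat_lit 62957416558867963801)]]]]]]],[[],[[[[[[Int.negSucc (nat_lit 9295345135278998585)]]]]]]]],[[[[[[[[Int.ofNat (nat_lit 211388140160572289456)]]]]],[[[[[Int.negSucc (nat_lit 118069738395193577361)]]]]]]],[[[[[[[Int.ofNat (nat_lit 130308338207729260900)]]]]]]]],[],[[[[[[[[Int.ofNat (nat_lit 248610065805024046568)]]]]]]]]],[[[[],[[[[[[Int.negSucc (nat_lit 214933476372123508129)]]]]]]]],[[[[[[[[Int.ofNat (nat_lit 333199522878729721184)]]]]]]]]],[[],[[[[[[[[Int.ofNat (nat_lit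 41294591531384196430)]]]]]]]]]]

/-- A coefficient. -/
noncomputable def sr2_m0_5_4 : MP 10 :=
  [[[[[[[[[[Int.negSucc (nat_lit 588477005699559300243)]]]]],[[[[[Int.negSucc (nat_lit 146433953782471170583)]]]]]]],[[[[[[[Int.ofNat (nat_lit 409570036751832711084)]]]]]]]],[[[],[[[[[[Int.negSucc (nat_lit 203245187705059808171)]]]]]]]],[[[[[[[[Int.negSucc (nat_lit 63014678862207754263)]]]]]]]]],[[[[[[[[[Int.negSucc (nat_lit 85584390793059530015)]]]]]]]]],[[[[[[[[[Int.ofNat (nat_lit 195756657148550123326)]]]]]]]]]]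

/-- A coefficient. -/
noncomputable def sr2_m0_5_5 : MP 10 :=
  [[[[[],[[[[[[Int.negSucc (nat_lit 137076256334211966603)]]]]]]]]]]

/-- A coefficient. -/
noncomputable def sr2_m0_6_0 : MP 10 :=
  [[[[[[[[[[Int.ofNat (nat_lit 75972635302339642840)],[Int.ofNat (nat_lit 4267157527376062606)]]],[[[Int.negSucc (nat_lit 23054863831598708673)]]]]],[[[[[Int.ofNat (nat_lit 44892997107716385730)]]]]]],[],[[[[[[Int.ofNat (nat_lit 22861954383262958906)]]]]]]],[[[[[[[Int.negSucc (nat_lit 42829415681507581025)]]]]]]],[[[[[[[Int.ofNat (nat_lit 31017639706036313650)]]]]]]]],[[[[[],[[[[Int.negSucc (nat_lit 9853967846156785375)]]]]]],[[[[[[Int.ofNat (nat_lit 59656162195892999752)]]]]]]]],[[[[[[[[Int.ofNat (nat_lit 3858363380548406552)]]]]]]]]],[[[[[[[[[Int.ofNat (nat_lit 134806170599776481952)],[Int.ofNat (nat_lit 911209320386099452)]]],[[[Int.negSucc (nat_lit 5042393503515506307)]]]]],[[[[[Int.ofNat (nat_lit 26548268431080176018)]]]]]],[],[[[[[[Int.ofNat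 (nat_lit 6836879431484608832)]]]]]]],[[[[[[[Int.ofNat (nat_lit 27229241284701682034)]]]]]]],[[[[[[[Int.ofNat (nat_lit 13286653165111769816)]]]]]]]],[[[[[],[[[[Int.negSucc (nat_lit 7307527522263723359)]]]]]],[[[[[[Int.ofNat (nat_lit 34603330808141558144)]]]]]]]],[[[[[[[[Int.negSucc (nat_lit 25319183621593390751)]]]]]]]]],[[[[[[[[[Int.ofNat (nat_lit 24916550728416826038)]]]]],[[[[[Int.ofNat (nat_lit 6460335471746888552)]]]]]]],[[[[[[[Int.ofNat (nat_lit 15124921363478639714)]]]]]]]],[],[[[[[[[[Int.negSucc (nat_lit 16597486048478220471)]]]]]]]]],[[[[[[[[[Int.negSucc (nat_lit 86372867838908203091)]]]]]]]]],[[[[[[[[[Int.negSucc (nat_lit 47505755930814032641)]]]]]]]]]]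

/-- A coefficient. -/
noncomputable def sr2_m0_6_1 : MP 10 :=
  [[[[[[[[[],[[Int.negSucc (nat_lit 29906728328826434915)]]]],[[[[Int.negSucc (nat_lit 10180573387771611939)]]]]]],[[[[[[Int.negSucc (nat_lit 4788399397247816567)]]]]]]]],[[[[[[[[Int.negSucc (nat_lit 100175293338328089985)]]]]]]],[[[[[[[Int.ofNat (nat_lit 30265927392294696314)]]]]]]]]],[[[[[[[[],[[Int.negSucc (nat_lit 21279296162066755093)]]]],[[[[Int.negSucc (nat_lit 4791149993282433925)]]]]]],[[[[[[Int.ofNat (nat_lit 110865434870333360982)]]]]]]]],[[[[[[[[Int.negSucc (nat_lit 247306321792437689503)]]]]]]],[[[[[[[Int.ofNat (nat_lit 15434820626810048348)]]]]]]]]],[[[[],[[[[[[Int.ofNat (nat_lit 52066496278283921986)]]]]]]]],[[[[[[[[Int.negSucc (nat_lit 92080408501286979067)]]]]]]]]]]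

/-- A coefficient. -/
noncomputable def sr2_m0_6_2 : MP 10 :=
  [[[[[[[[[[Int.ofNat (nat_lit 181766838992691143326)],[Int.negSucc (nat_lit 2751219745146735867)]]],[[[Int.negSucc (nat_lit 15515764472676260075)]]]]],[[[[[Int.negSucc (nat_lit 56499254106464785319)]]]]]],[],[[[[[[Int.negSucc (nat_lit 89738468302058043935)]]]]]]],[[[[[[[Int.negSucc (nat_lit 106069364660770208819)]]]]]]],[[[[[[[Int.negSucc (nat_lit 106195378659538074779)]]]]]]]],[[[[[],[[[[Int.ofNat (nat_lit 23177586531245768090)]]]]]],[[[[[[Int.negSucc (nat_lit 27500384207000738445)]]]]]]]],[[[[[[[[Int.ofNat (nat_lit 9567783271187043472)]]]]]]]]],[[[[[[[[[Int.ofNat (nat_lit 481890182724155617628)]]]]],[[[[[Int.negSucc (nat_lit 71314391273962043877)]]]]]]],[[[[[[[Int.negSucc (nat_lit 31771445540979106045)]]]]]]]],[],[[[[[[[[Int.ofNat (nat_lit 111916843415229512528)]]]]]]]]],[[[[[[[[[Int.ofNat (nat_lit 463899558168219048358)]]]]]]]]],[[[[[[[[[Int.ofNat (nat_lit 170722092127830393344)]]]]]]]]]]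

/-- A coefficient. -/
noncomputable def sr2_m0_6_3 : MP 10 :=
  [[[[[[[[[],[[Int.ofNat (nat_lit 107384601640007617608)]]]],[[[[Int.negSucc (nat_lit 8709903561079961831)]]]]]],[[[[[[Int.negSucc (nat_lit 140801909553734800525)]]]]]]]],[[[[[[[[Int.ofNat (nat_lit 440891621116579283188)]]]]]]],[[[[[[[Int.ofNat (nat_lit 202703396959669042562)]]]]]]]]],[[[[],[[[[[[Int.negSucc (nat_lit 211726136995737999127)]]]]]]]],[[[[[[[[Int.ofNat (nat_lit 573167395303527065350)]]]]]]]]]]

/-- A coefficient. -/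
noncomputable def sr2_m0_6_4 : MP 10 :=
  [[[[[[[[[[Int.negSucc (nat_lit 103021456546029834221)]]]]],[[[[[Int.ofNat (nat_lit 252746458806504765980)]]]]]]],[[[[[[[Int.negSucc (nat_lit 51180712837465775979)]]]]]]]],[],[[[[[[[[Int.negSucc (nat_lit 450356008766788444959)]]]]]]]]],[[[[[[[[[Int.negSucc (nat_lit 1071738356444283242219)]]]]]]]]],[[[[[[[[[Int.negSucc (nat_lit 667399737140748881915)]]]]]]]]]]

/-- A coefficient. -/
noncomputable def sr2_m0_6_5 : MP 10 :=
  [[[[[],[[[[[[Int.ofNat (nat_lit 288176804275281271428)]]]]]]]]]]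

/-- A coefficient. -/
noncomputable def sr2_m0_7_0 : MP 10 :=
  [[[[[[[[[[Int.negSucc (nat_lit 16638534758524550861)],[Int.negSucc (nat_lit 861450160220291843)]]],[[[Int.ofNat (nat_lit 17010508163346432542)]]]]],[[[[[Int.negSucc (nat_lit 25186360899037489519)]]]]]],[],[[[[[[Int.ofNat (nat_lit 18484324835264386530)]]]]]]],[[[[[[[Int.ofNat (nat_lit 10597710716267913082)]]]]]]],[[[[[[[Int.ofNat (nat_lit 17720535924338898274)]]]]]]]],[[[[[],[[[[Int.ofNat (nat_lit 3862879473127267214)]]]]]],[[[[[[Int.negSucc (nat_lit 31014451833270095777)]]]]]]]],[[[[[[[[Int.ofNat (nat_lit 30536723745777082308)]]]]]]]]],[[[[[[[[[Int.negSucc (nat_lit 2259365688669460233)]]]]],[[[[[Int.ofNat (nat_lit 121309810892900092)]]]]]]],[[[[[[[Int.negSucc (nat_lit 9848008428006558991)]]]]]]]],[],[[[[[[[[Int.ofNat (nat_lit 18694255892401361826)]]]]]]]]],[[[[[[[[[Int.ofNat (nat_lit 32860031187620685012)]]]]]]]]],[[[[[[[[[Int.ofNat (nat_lit 20222639177399100416)]]]]]]]]]]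

/-- A coefficient. -/
noncomputable def sr2_m0_7_1 : MP 10 :=
  [[[[[[[[[],[[Int.ofNat (nat_lit 1109706248635594984)]]]],[[[[Int.negSucc (nat_lit 615555731402770015)]]]]]],[[[[[[Int.ofNat (nat_lit 11179754039901471948)]]]]]]]],[[[[[[[[Int.ofNat (nat_lit 21330155711338667140)]]]]]]],[[[[[[[Int.ofNat (nat_lit 15400473907141802124)]]]]]]]]],[[[[],[[[[[[Int.negSucc (nat_lit 14904319295250016459)]]]]]]]],[[[[[[[[Int.ofNat (nat_lit 65720460465288426770)]]]]]]]]]]

/-- A coefficient. -/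
noncomputable def sr2_m0_7_2 : MP 10 :=
  [[[[[[[[[[Int.negSucc (nat_lit 27904681799312880883)]]]]],[[[[[Int.negSucc (nat_lit 3507546644269460087)]]]]]]],[[[[[[[Int.ofNat (nat_lit 28638364415734663680)]]]]]]]],[],[[[[[[[[Int.negSucc (nat_lit 57975731361983715643)]]]]]]]]],[[[[[[[[[Int.ofNat (nat_lit 88851193700887685032)]]]]]]]]],[[[[[[[[[Int.ofNat (nat_lit 48559829089152925244)]]]]]]]]]]

/-- A coefficient. -/
noncomputable def sr2_m0_7_3 : MP 10 :=
  [[[[[],[[[[[[Int.ofNat (nat_lit 28446299841917510144)]]]]]]]]]]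

/-- A coefficient. -/
noncomputable def sr2_m0_8_0 : MP 10 :=
  [[[[[[[[[[Int.negSucc (nat_lit 4872259524289323253)],[Int.negSucc (nat_lit 1158360784745459197)]]],[[[Int.ofNat (nat_lit 1832561673854473812)]]]]],[[[[[Int.negSucc (nat_lit 1782865138675957319)]]]]]],[],[[[[[[Int.negSucc (nat_lit 15859024218702009203)]]]]]]],[[[[[[[Int.negSucc (nat_lit 2252477181519952117)]]]]]]],[[[[[[[Int.negSucc (nat_lit 18930757547092211611)]]]]]]]],[[[[[],[[[[Int.ofNat (nat_lit 701993435849286872)]]]]]],[[[[[[Int.negSucc (nat_lit 8377569028981100891)]]]]]]]],[[[[[[[[Int.negSucc (nat_lit 14162101568697798057)]]]]]]]]],[[[[[[[[[Int.negSucc (nat_lit 483794955177715939)]]]]],[[[[[Int.negSucc (nat_lit 9116860041552499659)]]]]]]],[[[[[[[Int.negSucc (nat_lit 22097259771837866135)]]]]]]]],[],[[[[[[[[Int.negSucc (nat_lit 2276690802338320783)]]]]]]]]],[[[[[[[[[Int.ofNat (nat_lit 21422697555393610900)]]]]]]]]],[[[[[[[[[Int.ofNat (nat_lit 19493747481744211050)]]]]]]]]]]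

/-- A coefficient. -/
noncomputable def sr2_m0_8_1 : MP 10 :=
  [[[[[[[[[],[[Int.ofNat (nat_lit 14547556836266751378)]]]],[[[[Int.ofNat (nat_lit 1811243224113193472)]]]]]],[[[[[[Int.ofNat (nat_lit 5339035174639504136)]]]]]]]],[[[[[[[[Int.ofNat (nat_lit 42573551957439932650)]]]]]]],[[[[[[[Int.negSucc (nat_lit 1131240750560279081)]]]]]]]]],[[[[],[[[[[[Int.negSucc (nat_lit 53746695409873715321)]]]]]]]],[[[[[[[[Int.ofNat (nat_lit 88277109047728117696)]]]]]]]]]]

/-- A coefficient. -/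
noncomputable def sr2_m0_8_2 : MP 10 :=
  [[[[[[[[[[Int.negSucc (nat_lit 81605871872836456043)]]]]],[[[[[Int.ofNat (nat_lit 29420219022768138642)]]]]]]],[[[[[[[Int.ofNat (nat_lit 26589652427685353240)]]]]]]]],[],[[[[[[[[Int.negSucc (nat_lit 69609637866131256637)]]]]]]]]],[[[[[[[[[Int.negSucc (nat_lit 277502300398327854191)]]]]]]]]],[[[[[[[[[Int.negSucc (nat_lit 103828816389652178379)]]]]]]]]]]

/-- A coefficient. -/
noncomputable def sr2_m0_8_3 : MP 10 :=
  [[[[[],[[[[[[Int.ofNat (nat_lit 5159163946724069158)]]]]]]]]]]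

/-- An expanded part. -/
noncomputable def sr2_m0 : R12 :=
  [[sr2_m0_0_0, sr2_m0_0_1, sr2_m0_0_2, sr2_m0_0_3, sr2_m0_0_4, sr2_m0_0_5, sr2_m0_0_6, sr2_m0_0_7, sr2_m0_0_8, sr2_m0_0_9, sr2_m0_0_10, sr2_m0_0_11],
   [sr2_m0_1_0, sr2_m0_1_1, sr2_m0_1_2, sr2_m0_1_3, sr2_m0_1_4, sr2_m0_1_5, sr2_m0_1_6, sr2_m0_1_7, sr2_m0_1_8, sr2_m0_1_9],
   [sr2_m0_2_0, sr2_m0_2_1, sr2_m0_2_2, sr2_m0_2_3, sr2_m0_2_4, sr2_m0_2_5, sr2_m0_2_6, sr2_m0_2_7, sr2_m0_2_8, sr2_m0_2_9],
   [sr2_m0_3_0, sr2_m0_3_1, sr2_m0_3_2, sr2_m0_3_3, sr2_m0_3_4, sr2_m0_3_5, sr2_m0_3_6, sr2_m0_3_7],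
   [sr2_m0_4_0, sr2_m0_4_1, sr2_m0_4_2, sr2_m0_4_3, sr2_m0_4_4, sr2_m0_4_5, sr2_m0_4_6, sr2_m0_4_7],
   [sr2_m0_5_0, sr2_m0_5_1, sr2_m0_5_2, sr2_m0_5_3, sr2_m0_5_4, sr2_m0_5_5],
   [sr2_m0_6_0, sr2_m0_6_1, sr2_m0_6_2, sr2_m0_6_3, sr2_m0_6_4, sr2_m0_6_5],
   [sr2_m0_7_0, sr2_m0_7_1, sr2_m0_7_2, sr2_m0_7_3],
   [sr2_m0_8_0, sr2_m0_8_1, sr2_m0_8_2, sr2_m0_8_3]]

set_option maxRecDepth 100000 in
theorem sr2_check0 : partOk 2 sr2_rows 0 sr2_m0 = true :=
  Fast.partOk_of_fast (by decide +kernel)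

end Vale.Agent.P142K.CertB
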