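import Vale.Agent.P142K.Checker

/-!
# A factor of the certificate

Generated from a semidefinite program; only the checker is trusted.
-/

namespace Vale.Agent.P142K.CertB

open Vale.Agent.P142J (MP)

/-- A row. -/
noncomputable def sr2_c0_0 : List ℕ × List ℤ :=
  ([(nat_lit 0),(nat_lit 0),(nat_lit 0),(nat_lit 0),(nat_lit 0),(nat_lit 0),(nat_lit 0),(nat_lit 0),(nat_lit 0),(nat_lit 0),(nat_lit 0),(nat_lit 0)], [Int.ofNat (nat_lit 2335217309)])

/-- A row. -/
noncomputable def sr2_c0_1 : List ℕ × List ℤ :=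
  ([(nat_lit 0),(nat_lit 0),(nat_lit 0),(nat_lit 0),(nat_lit 0),(nat_lit 0),(nat_lit 0),(nat_lit 0),(nat_lit 0),(nat_lit 0),(nat_lit 1),(nat_lit 0)], [Int.ofNat (nat_lit 20722760),Int.ofNat (nat_lit 233982897)])

/-- A row. -/
noncomputable def sr2_c0_2 : List ℕ × List ℤ :=
  ([(nat_lit 0),(nat_lit 0),(nat_lit 0),(nat_lit 0),(nat_lit 0),(nat_lit 0),(nat_lit 0),(nat_lit 0),(nat_lit 1),(nat_lit 0),(nat_lit 0),(nat_lit 0)], [Int.negSucc (nat_lit 402762724),Int.negSucc (nat_lit 258338010),Int.ofNat (nat_lit 1092527798)])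

/-- A row. -/
noncomputable def sr2_c0_3 : List ℕ × List ℤ :=
  ([(nat_lit 0),(nat_lit 0),(nat_lit 0),(nat_lit 0),(nat_lit 0),(nat_lit 0),(nat_lit 1),(nat_lit 0),(nat_lit 0),(nat_lit 0),(nat_lit 0),(nat_lit 0)], [Int.ofNat (nat_lit 1290342852),Int.ofNat (nat_lit 398525684),Int.negSucc (nat_lit 1322551679),Int.ofNat (nat_lit 1286538879)])

/-- A row. -/
noncomputable def sr2_c0_4 : List ℕ × List ℤ :=
  ([(nat_lit 0),(nat_lit 0),(nat_lit 0),(nat_lit 0),(nat_lit 0),(nat_lit 2),(nat_lit 0),(nat_lit 0),(nat_lit 0),(nat_lit 0),(nat_lit 0),(nat_lit 0)], [Int.negSucc (nat_lit 112595517),Int.ofNat (nat_lit 88982357),Int.ofNat (nat_lit 573254037),Int.ofNat (nat_lit 20008322),Int.ofNat (nat_lit 1068581798)])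

/-- A row. -/
noncomputable def sr2_c0_5 : List ℕ × List ℤ :=
  ([(nat_lit 0),(nat_lit 0),(nat_lit 0),(nat_lit 0),(nat_lit 1),(nat_lit 0),(nat_lit 0),(nat_lit 0),(nat_lit 0),(nat_lit 0),(nat_lit 0),(nat_lit 0)], [Int.negSucc (nat_lit 2409773550),Int.negSucc (nat_lit 165506231),Int.negSucc (nat_lit 509920271),Int.negSucc (nat_lit 13287141),Int.negSucc (nat_lit 711012660),Int.ofNat (nat_lit 1612600321)])

/-- A row. -/
noncomputable def sr2_c0_6 : List ℕ × List ℤ :=
  ([(nat_lit 0),(nat_lit 0),(nat_lit 0),(nat_lit 0),(nat_lit 2),(nat_lit 0),(nat_lit 0),(nat_lit 0),(nat_lit 0),(nat_lit 0),(nat_lit 0),(nat_lit 0)], [Int.negSucc (nat_lit 153764821),Int.ofNat (nat_lit 158551819),Int.ofNat (nat_lit 837345091),Int.negSucc (nat_lit 205828305),Int.ofNat (nat_lit 983688108),Int.negSucc (nat_lit 224193683),Int.ofNat (nat_lit 674127222)])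

/-- A row. -/
noncomputable def sr2_c0_7 : List ℕ × List ℤ :=
  ([(nat_lit 0),(nat_lit 0),(nat_lit 0),(nat_lit 1),(nat_lit 0),(nat_lit 0),(nat_lit 0),(nat_lit 1),(nat_lit 0),(nat_lit 0),(nat_lit 0),(nat_lit 0)], [Int.ofNat (nat_lit 129472748),Int.negSucc (nat_lit 261496459),Int.negSucc (nat_lit 443005271),Int.ofNat (nat_lit 159361986),Int.negSucc (nat_lit 257617286),Int.negSucc (nat_lit 36455295),Int.negSucc (nat_lit 222647973),Int.ofNat (nat_lit 742884743)])

/-- A row. -/
noncomputable def sr2_c0_8 : List ℕ × List ℤ :=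
  ([(nat_lit 0),(nat_lit 0),(nat_lit 0),(nat_lit 1),(nat_lit 0),(nat_lit 1),(nat_lit 0),(nat_lit 0),(nat_lit 0),(nat_lit 0),(nat_lit 0),(nat_lit 0)], [Int.negSucc (nat_lit 543576663),Int.ofNat (nat_lit 192828323),Int.negSucc (nat_lit 101227582),Int.negSucc (nat_lit 246552623),Int.negSucc (nat_lit 52777570),Int.ofNat (nat_lit 886905123),Int.ofNat (nat_lit 331783188),Int.negSucc (nat_lit 971428244),Int.ofNat (nat_lit 2478546146)])

/-- A row. -/
noncomputable def sr2_c0_9 : List ℕ × List ℤ :=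
  ([(nat_lit 0),(nat_lit 0),(nat_lit 0),(nat_lit 2),(nat_lit 0),(nat_lit 0),(nat_lit 0),(nat_lit 0),(nat_lit 0),(nat_lit 0),(nat_lit 0),(nat_lit 0)], [Int.negSucc (nat_lit 364285756),Int.ofNat (nat_lit 413902689),Int.negSucc (nat_lit 102920496),Int.ofNat (nat_lit 54034930),Int.ofNat (nat_lit 128453616),Int.ofNat (nat_lit 125465396),Int.negSucc (nat_lit 184809242),Int.ofNat (nat_lit 451973062),Int.negSucc (nat_lit 1195426761),Int.ofNat (nat_lit 2286820760)])

/-- A row. -/
noncomputable def sr2_c0_10 : List ℕ × List ℤ :=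
  ([(nat_lit 0),(nat_lit 0),(nat_lit 1),(nat_lit 0),(nat_lit 0),(nat_lit 0),(nat_lit 0),(nat_lit 0),(nat_lit 0),(nat_lit 0),(nat_lit 0),(nat_lit 0)], [Int.ofNat (nat_lit 3723415775),Int.negSucc (nat_lit 813587361),Int.ofNat (nat_lit 1687991130),Int.negSucc (nat_lit 934610238),Int.negSucc (nat_lit 244496960),Int.ofNat (nat_lit 1011556528),Int.ofNat (nat_lit 164830563),Int.ofNat (nat_lit 74551793),Int.ofNat (nat_lit 42982073),Int.ofNat (nat_lit 311383205),Int.ofNat (nat_lit 1407720981)])

/-- A row. -/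
noncomputable def sr2_c0_11 : List ℕ × List ℤ :=
  ([(nat_lit 0),(nat_lit 0),(nat_lit 1),(nat_lit 0),(nat_lit 0),(nat_lit 0),(nat_lit 1),(nat_lit 0),(nat_lit 0),(nat_lit 0),(nat_lit 0),(nat_lit 0)], [Int.ofNat (nat_lit 297826037),Int.ofNat (nat_lit 225884157),Int.negSucc (nat_lit 193168921),Int.ofNat (nat_lit 379608768),Int.ofNat (nat_lit 123638759),Int.negSucc (nat_lit 188632156),Int.negSucc (nat_lit 118790059),Int.ofNat (nat_lit 153636764),Int.ofNat (nat_lit 35255003),Int.negSucc (nat_lit 67161095),Int.ofNat (nat_lit 25173255),Int.ofNat (nat_lit 637377545)])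

/-- A row. -/
noncomputable def sr2_c0_12 : List ℕ × List ℤ :=
  ([(nat_lit 0),(nat_lit 0),(nat_lit 1),(nat_lit 0),(nat_lit 1),(nat_lit 0),(nat_lit 0),(nat_lit 0),(nat_lit 0),(nat_lit 0),(nat_lit 0),(nat_lit 0)], [Int.negSucc (nat_lit 1760578592),Int.ofNat (nat_lit 432286441),Int.negSucc (nat_lit 1685583364),Int.negSucc (nat_lit 71612776),Int.negSucc (nat_lit 330906650),Int.ofNat (nat_lit 1602181296),Int.ofNat (nat_lit 56593676),Int.ofNat (nat_lit 75616525),Int.ofNat (nat_lit 209050996),Int.ofNat (nat_lit 31599918),Int.negSucc (nat_lit 833136840),Int.negSucc (nat_lit 406147828),Int.ofNat (nat_lit 1166714923)])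

/-- A row. -/
noncomputable def sr2_c0_13 : List ℕ × List ℤ :=
  ([(nat_lit 0),(nat_lit 0),(nat_lit 1),(nat_lit 2),(nat_lit 0),(nat_lit 0),(nat_lit 0),(nat_lit 0),(nat_lit 0),(nat_lit 0),(nat_lit 0),(nat_lit 0)], [Int.negSucc (nat_lit 337299157),Int.ofNat (nat_lit 23635581),Int.negSucc (nat_lit 652110591),Int.negSucc (nat_lit 107784484),Int.ofNat (nat_lit 91602500),Int.ofNat (nat_lit 326432309),Int.negSucc (nat_lit 71794453),Int.ofNat (nat_lit 661045745),Int.negSucc (nat_lit 30993830),Int.ofNat (nat_lit 630905413),Int.ofNat (nat_lit 272868961),Int.negSucc (nat_lit 286137393),Int.ofNat (nat_lit 459670831),Int.ofNat (nat_lit 1337191169)])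

/-- A row. -/
noncomputable def sr2_c0_14 : List ℕ × List ℤ :=
  ([(nat_lit 0),(nat_lit 0),(nat_lit 2),(nat_lit 0),(nat_lit 0),(nat_lit 0),(nat_lit 0),(nat_lit 0),(nat_lit 0),(nat_lit 0),(nat_lit 0),(nat_lit 0)], [Int.ofNat (nat_lit 1070591610),Int.negSucc (nat_lit 1043921662),Int.ofNat (nat_lit 1001256974),Int.negSucc (nat_lit 1067284076),Int.negSucc (nat_lit 224291002),Int.ofNat (nat_lit 1293235216),Int.negSucc (nat_lit 51953830),Int.ofNat (nat_lit 594721982),Int.negSucc (nat_lit 140370066),Int.ofNat (nat_lit 729214244),Int.ofNat (nat_lit 1975339768),Int.negSucc (nat_lit 721704917),Int.ofNat (nat_lit 735063118),Int.ofNat (nat_lit 798648946),Int.ofNat (nat_lit 993468136)])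

/-- A row. -/
noncomputable def sr2_c0_15 : List ℕ × List ℤ :=
  ([(nat_lit 0),(nat_lit 0),(nat_lit 3),(nat_lit 0),(nat_lit 0),(nat_lit 0),(nat_lit 0),(nat_lit 0),(nat_lit 0),(nat_lit 0),(nat_lit 0),(nat_lit 0)], [Int.negSucc (nat_lit 362288246),Int.negSucc (nat_lit 258410414),Int.negSucc (nat_lit 532067224),Int.negSucc (nat_lit 137006799),Int.ofNat (nat_lit 26130541),Int.ofNat (nat_lit 277045049),Int.negSucc (nat_lit 225981841),Int.ofNat (nat_lit 504914533),Int.negSucc (nat_lit 195822836),Int.ofNat (nat_lit 398235630),Int.ofNat (nat_lit 607733114),Int.negSucc (nat_lit 684443844),Int.ofNat (nat_lit 618089768),Int.ofNat (nat_lit 800820849),Int.ofNat (nat_lit 976479144),Int.ofNat (nat_lit 223286453)])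

/-- A row. -/
noncomputable def sr2_c0_16 : List ℕ × List ℤ :=
  ([(nat_lit 0),(nat_lit 1),(nat_lit 0),(nat_lit 0),(nat_lit 0),(nat_lit 0),(nat_lit 0),(nat_lit 0),(nat_lit 0),(nat_lit 1),(nat_lit 0),(nat_lit 0)], [Int.ofNat (nat_lit 298300687),Int.negSucc (nat_lit 30798075),Int.negSucc (nat_lit 717990183),Int.ofNat (nat_lit 113759080),Int.negSucc (nat_lit 469774772),Int.ofNat (nat_lit 286703510),Int.negSucc (nat_lit 574613094),Int.ofNat (nat_lit 277743100),Int.negSucc (nat_lit 130561916),Int.ofNat (nat_lit 272056293),Int.ofNat (nat_lit 271987002),Int.negSucc (nat_lit 358615004),Int.ofNat (nat_lit 98756408),Int.ofNat (nat_lit 297599461),Int.ofNat (nat_lit 321135427),Int.ofNat (nat_lit 84812537),Int.ofNat (nat_lit 835046575)])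

/-- A row. -/
noncomputable def sr2_c0_17 : List ℕ × List ℤ :=
  ([(nat_lit 0),(nat_lit 1),(nat_lit 0),(nat_lit 0),(nat_lit 0),(nat_lit 0),(nat_lit 0),(nat_lit 1),(nat_lit 0),(nat_lit 0),(nat_lit 0),(nat_lit 0)], [Int.negSucc (nat_lit 452192420),Int.ofNat (nat_lit 1423857548),Int.ofNat (nat_lit 635092417),Int.negSucc (nat_lit 1032005412),Int.ofNat (nat_lit 225166052),Int.negSucc (nat_lit 224673335),Int.ofNat (nat_lit 301140387),Int.negSucc (nat_lit 842302910),Int.ofNat (nat_lit 809528945),Int.negSucc (nat_lit 213995170),Int.ofNat (nat_lit 367945346),Int.ofNat (nat_lit 260573406),Int.ofNat (nat_lit 190782982),Int.ofNat (nat_lit 739714217),Int.ofNat (nat_lit 229368607),Int.negSucc (nat_lit 49196296),Int.ofNat (nat_lit 232803291),Int.ofNat (nat_lit 2530350148)])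

/-- A row. -/
noncomputable def sr2_c0_18 : List ℕ × List ℤ :=
  ([(nat_lit 0),(nat_lit 1),(nat_lit 0),(nat_lit 0),(nat_lit 0),(nat_lit 1),(nat_lit 0),(nat_lit 0),(nat_lit 0),(nat_lit 0),(nat_lit 0),(nat_lit 0)], [Int.ofNat (nat_lit 2710649587),Int.ofNat (nat_lit 247686373),Int.negSucc (nat_lit 1051339384),Int.ofNat (nat_lit 2266144333),Int.ofNat (nat_lit 938635067),Int.negSucc (nat_lit 2126437652),Int.negSucc (nat_lit 1697760582),Int.ofNat (nat_lit 1413069993),Int.negSucc (nat_lit 3521454860),Int.ofNat (nat_lit 588519319),Int.negSucc (nat_lit 559317237),Int.ofNat (nat_lit 139645861),Int.negSucc (nat_lit 537961292),Int.negSucc (nat_lit 334278290),Int.negSucc (nat_lit 170536432),Int.ofNat (nat_lit 166242697),Int.negSucc (nat_lit 387888789),Int.ofNat (nat_lit 264897930),Int.ofNat (nat_lit 4528853613)])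

/-- A row. -/
noncomputable def sr2_c0_19 : List ℕ × List ℤ :=
  ([(nat_lit 0),(nat_lit 1),(nat_lit 0),(nat_lit 1),(nat_lit 0),(nat_lit 0),(nat_lit 0),(nat_lit 0),(nat_lit 0),(nat_lit 0),(nat_lit 0),(nat_lit 0)], [Int.negSucc (nat_lit 1975271476),Int.negSucc (nat_lit 4435163069),Int.ofNat (nat_lit 1691902663),Int.negSucc (nat_lit 2107160693),Int.negSucc (nat_lit 785542734),Int.ofNat (nat_lit 2588752828),Int.ofNat (nat_lit 185491857),Int.negSucc (nat_lit 1691015935),Int.ofNat (nat_lit 3418984416),Int.negSucc (nat_lit 2567606771),Int.ofNat (nat_lit 467486814),Int.negSucc (nat_lit 1021516613),Int.ofNat (nat_lit 405906302),Int.ofNat (nat_lit 980373655),Int.ofNat (nat_lit 66875316),Int.negSucc (nat_lit 318475344),Int.ofNat (nat_lit 1591973606),Int.negSucc (nat_lit 455634142),Int.negSucc (nat_lit 1848114495),Int.ofNat (nat_lit 7197081994)])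

/-- A row. -/
noncomputable def sr2_c0_20 : List ℕ × List ℤ :=
  ([(nat_lit 0),(nat_lit 1),(nat_lit 0),(nat_lit 1),(nat_lit 1),(nat_lit 0),(nat_lit 0),(nat_lit 0),(nat_lit 0),(nat_lit 0),(nat_lit 0),(nat_lit 0)], [Int.ofNat (nat_lit 601980132),Int.ofNat (nat_lit 1505078490),Int.ofNat (nat_lit 1279689518),Int.negSucc (nat_lit 1221349650),Int.negSucc (nat_lit 1108723555),Int.ofNat (nat_lit 22366994),Int.ofNat (nat_lit 257486752),Int.ofNat (nat_lit 36774651),Int.ofNat (nat_lit 369519405),Int.negSucc (nat_lit 928795),Int.negSucc (nat_lit 196743666),Int.negSucc (nat_lit 800644964),Int.negSucc (nat_lit 206510188),Int.negSucc (nat_lit 472171918),Int.negSucc (nat_lit 111875115),Int.negSucc (nat_lit 41337950),Int.ofNat (nat_lit 997618672),Int.negSucc (nat_lit 310913820),Int.negSucc (nat_lit 311062210),Int.negSucc (nat_lit 776570891),Int.ofNat (nat_lit 3495490972)])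

/-- A row. -/
noncomputable def sr2_c0_21 : List ℕ × List ℤ :=
  ([(nat_lit 0),(nat_lit 1),(nat_lit 1),(nat_lit 0),(nat_lit 0),(nat_lit 1),(nat_lit 0),(nat_lit 0),(nat_lit 0),(nat_lit 0),(nat_lit 0),(nat_lit 0)], [Int.ofNat (nat_lit 910638320),Int.ofNat (nat_lit 945567577),Int.negSucc (nat_lit 1392969808),Int.ofNat (nat_lit 927323587),Int.ofNat (nat_lit 1719316006),Int.negSucc (nat_lit 10495956),Int.negSucc (nat_lit 156975525),Int.ofNat (nat_lit 341922374),Int.ofNat (nat_lit 379154854),Int.negSucc (nat_lit 433826580),Int.negSucc (nat_lit 233624794),Int.ofNat (nat_lit 1253304595),Int.ofNat (nat_lit 77147323),Int.ofNat (nat_lit 87649530),Int.negSucc (nat_lit 680932279),Int.negSucc (nat_lit 48473937),Int.negSucc (nat_lit 542469675),Int.ofNat (nat_lit 275356411),Int.ofNat (nat_lit 1030770843),Int.ofNat (nat_lit 160036223),Int.negSucc (nat_lit 1386246645),Int.ofNat (nat_lit 2415644596)])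

/-- A row. -/
noncomputable def sr2_c0_22 : List ℕ × List ℤ :=
  ([(nat_lit 0),(nat_lit 1),(nat_lit 1),(nat_lit 1),(nat_lit 0),(nat_lit 0),(nat_lit 0),(nat_lit 0),(nat_lit 0),(nat_lit 0),(nat_lit 0),(nat_lit 0)], [Int.negSucc (nat_lit 809658140),Int.negSucc (nat_lit 4729872378),Int.ofNat (nat_lit 1437971007),Int.ofNat (nat_lit 260936460),Int.negSucc (nat_lit 2149010302),Int.ofNat (nat_lit 994808847),Int.negSucc (nat_lit 717332516),Int.negSucc (nat_lit 980902637),Int.negSucc (nat_lit 769025496),Int.ofNat (nat_lit 2052604192),Int.negSucc (nat_lit 318785048),Int.negSucc (nat_lit 2260356644),Int.negSucc (nat_lit 1073350405),Int.negSucc (nat_lit 1999160643),Int.ofNat (nat_lit 966628030),Int.ofNat (nat_lit 490752841),Int.ofNat (nat_lit 1842537985),Int.ofNat (nat_lit 192117216),Int.negSucc (nat_lit 248299851),Int.ofNat (nat_lit 5884898389),Int.ofNat (nat_lit 310581588),Int.negSucc (nat_lit 981812394),Int.ofNat (nat_lit 5151978559)])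

/-- A row. -/
noncomputable def sr2_c0_23 : List ℕ × List ℤ :=
  ([(nat_lit 0),(nat_lit 2),(nat_lit 0),(nat_lit 0),(nat_lit 0),(nat_lit 0),(nat_lit 0),(nat_lit 0),(nat_lit 0),(nat_lit 0),(nat_lit 0),(nat_lit 0)], [Int.negSucc (nat_lit 1349195541),Int.ofNat (nat_lit 2569306214),Int.negSucc (nat_lit 4116299950),Int.ofNat (nat_lit 3093997566),Int.ofNat (nat_lit 2610473112),Int.negSucc (nat_lit 2896147038),Int.ofNat (nat_lit 330609899),Int.ofNat (nat_lit 674850173),Int.negSucc (nat_lit 2255976066),Int.ofNat (nat_lit 894475148),Int.ofNat (nat_lit 1821589262),Int.ofNat (nat_lit 1747423076),Int.ofNat (nat_lit 1053729977),Int.negSucc (nat_lit 1748302549),Int.negSucc (nat_lit 1822666662),Int.ofNat (nat_lit 316040872),Int.negSucc (nat_lit 335273487),Int.negSucc (nat_lit 1560833158),Int.ofNat (nat_lit 3112292515),Int.negSucc (nat_lit 4124121278),Int.negSucc (nat_lit 154353366),Int.negSucc (nat_lit 930520207),Int.ofNat (nat_lit 271179324),Int.ofNat (nat_lit 9708704681)])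

/-- A row. -/
noncomputable def sr2_c0_24 : List ℕ × List ℤ :=
  ([(nat_lit 0),(nat_lit 2),(nat_lit 0),(nat_lit 0),(nat_lit 0),(nat_lit 0),(nat_lit 1),(nat_lit 0),(nat_lit 0),(nat_lit 0),(nat_lit 0),(nat_lit 0)], [Int.ofNat (nat_lit 465147207),Int.ofNat (nat_lit 149340608),Int.negSucc (nat_lit 1155926193),Int.negSucc (nat_lit 467208141),Int.ofNat (nat_lit 90453758),Int.ofNat (nat_lit 636551223),Int.negSucc (nat_lit 904967606),Int.ofNat (nat_lit 427870678),Int.negSucc (nat_lit 139932973),Int.ofNat (nat_lit 151722179),Int.ofNat (nat_lit 980528927),Int.negSucc (nat_lit 557990905),Int.ofNat (nat_lit 189160376),Int.ofNat (nat_lit 601776003),Int.ofNat (nat_lit 704525731),Int.ofNat (nat_lit 603090365),Int.ofNat (nat_lit 1578140020),Int.negSucc (nat_lit 522979752),Int.negSucc (nat_lit 295027226),Int.negSucc (nat_lit 189934575),Int.negSucc (nat_lit 192597298),Int.ofNat (nat_lit 264454588),Int.ofNat (nat_lit 361329002),Int.ofNat (nat_lit 916204488),Int.ofNat (nat_lit 3094916291)])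

/-- A row. -/
noncomputable def sr2_c0_25 : List ℕ × List ℤ :=
  ([(nat_lit 0),(nat_lit 2),(nat_lit 0),(nat_lit 0),(nat_lit 1),(nat_lit 0),(nat_lit 0),(nat_lit 0),(nat_lit 0),(nat_lit 0),(nat_lit 0),(nat_lit 0)], [Int.ofNat (nat_lit 78855595),Int.negSucc (nat_lit 1897131371),Int.ofNat (nat_lit 3261548682),Int.ofNat (nat_lit 743167549),Int.negSucc (nat_lit 1404374152),Int.negSucc (nat_lit 1910438323),Int.negSucc (nat_lit 1559473742),Int.ofNat (nat_lit 773646615),Int.ofNat (nat_lit 516623840),Int.negSucc (nat_lit 406516096),Int.negSucc (nat_lit 1189147486),Int.ofNat (nat_lit 431718922),Int.ofNat (nat_lit 1151640872),Int.negSucc (nat_lit 153316531),Int.negSucc (nat_lit 40907721),Int.negSucc (nat_lit 298349509),Int.negSucc (nat_lit 2760405809),Int.ofNat (nat_lit 1209208033),Int.ofNat (nat_lit 653051478),Int.negSucc (nat_lit 1256754467),Int.negSucc (nat_lit 2252130171),Int.ofNat (nat_lit 1593315569),Int.negSucc (nat_lit 531794317),Int.negSucc (nat_lit 5189285809),Int.negSucc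 (nat_lit 2147112457),Int.ofNat (nat_lit 7653449950)])

/-- A row. -/
noncomputable def sr2_c0_26 : List ℕ × List ℤ :=
  ([(nat_lit 0),(nat_lit 2),(nat_lit 0),(nat_lit 2),(nat_lit 0),(nat_lit 0),(nat_lit 0),(nat_lit 0),(nat_lit 0),(nat_lit 0),(nat_lit 0),(nat_lit 0)], [Int.negSucc (nat_lit 1440466541),Int.ofNat (nat_lit 1335601459),Int.negSucc (nat_lit 2091354805),Int.ofNat (nat_lit 816074315),Int.ofNat (nat_lit 306363890),Int.negSucc (nat_lit 1501904209),Int.ofNat (nat_lit 1019577192),Int.ofNat (nat_lit 731025714),Int.ofNat (nat_lit 879644772),Int.negSucc (nat_lit 4502077321),Int.negSucc (nat_lit 1791481883),Int.ofNat (nat_lit 2344347741),Int.ofNat (nat_lit 314054757),Int.negSucc (nat_lit 309705638),Int.negSucc (nat_lit 1038263109),Int.negSucc (nat_lit 1214264347),Int.negSucc (nat_lit 2773618415),Int.ofNat (nat_lit 359520134),Int.ofNat (nat_lit 137297912),Int.negSucc (nat_lit 1510063308),Int.negSucc (nat_lit 1255719130),Int.ofNat (nat_lit 1778907203),Int.negSucc (nat_lit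 1064055162),Int.negSucc (nat_lit 1835423515),Int.negSucc (nat_lit 2493773118),Int.negSucc (nat_lit 507969365),Int.ofNat (nat_lit 7415386911)])

/-- A row. -/
noncomputable def sr2_c0_27 : List ℕ × List ℤ :=
  ([(nat_lit 0),(nat_lit 2),(nat_lit 1),(nat_lit 0),(nat_lit 0),(nat_lit 0),(nat_lit 0),(nat_lit 0),(nat_lit 0),(nat_lit 0),(nat_lit 0),(nat_lit 0)], [Int.negSucc (nat_lit 8375253806),Int.ofNat (nat_lit 2194987505),Int.negSucc (nat_lit 2077149904),Int.ofNat (nat_lit 1249029711),Int.ofNat (nat_lit 5692238836),Int.negSucc (nat_lit 3955915506),Int.ofNat (nat_lit 2736635594),Int.negSucc (nat_lit 317203478),Int.ofNat (nat_lit 1575507155),Int.negSucc (nat_lit 3184957005),Int.negSucc (nat_lit 990458134),Int.ofNat (nat_lit 7145195819),Int.ofNat (nat_lit 2101093238),Int.ofNat (nat_lit 833336243),Int.negSucc (nat_lit 1815830821),Int.negSucc (nat_lit 4051703765),Int.negSucc (nat_lit 2789395351),Int.negSucc (nat_lit 864757060),Int.ofNat (nat_lit 154776842),Int.negSucc (nat_lit 2315421000),Int.negSucc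 (nat_lit 1280320866),Int.ofNat (nat_lit 889762435),Int.negSucc (nat_lit 5567113329),Int.ofNat (nat_lit 11121741403),Int.negSucc (nat_lit 1905036104),Int.ofNat (nat_lit 2552870278),Int.ofNat (nat_lit 1266206327),Int.ofNat (nat_lit 7866158294)])

/-- A row. -/
noncomputable def sr2_c0_28 : List ℕ × List ℤ :=
  ([(nat_lit 0),(nat_lit 2),(nat_lit 2),(nat_lit 0),(nat_lit 0),(nat_lit 0),(nat_lit 0),(nat_lit 0),(nat_lit 0),(nat_lit 0),(nat_lit 0),(nat_lit 0)], [Int.negSucc (nat_lit 3052207821),Int.negSucc (nat_lit 1170185747),Int.negSucc (nat_lit 1237816992),Int.ofNat (nat_lit 1081611575),Int.ofNat (nat_lit 812048645),Int.negSucc (nat_lit 1428763476),Int.ofNat (nat_lit 1334260472),Int.negSucc (nat_lit 145102382),Int.ofNat (nat_lit 341465931),Int.negSucc (nat_lit 275451741),Int.negSucc (nat_lit 2742953803),Int.ofNat (nat_lit 2778294307),Int.negSucc (nat_lit 44628173),Int.negSucc (nat_lit 226917580),Int.negSucc (nat_lit 188404813),Int.negSucc (nat_lit 1298385069),Int.negSucc (nat_lit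 1561143342),Int.ofNat (nat_lit 1485681504),Int.negSucc (nat_lit 172676174),Int.ofNat (nat_lit 924988727),Int.negSucc (nat_lit 719608987),Int.ofNat (nat_lit 158596195),Int.negSucc (nat_lit 343945823),Int.ofNat (nat_lit 1451613835),Int.negSucc (nat_lit 1300679986),Int.ofNat (nat_lit 1636120015),Int.ofNat (nat_lit 1168550566),Int.ofNat (nat_lit 6144455877),Int.ofNat (nat_lit 3751268935)])

/-- A row. -/
noncomputable def sr2_c0_29 : List ℕ × List ℤ :=
  ([(nat_lit 0),(nat_lit 3),(nat_lit 0),(nat_lit 0),(nat_lit 0),(nat_lit 1),(nat_lit 0),(nat_lit 0),(nat_lit 0),(nat_lit 0),(nat_lit 0),(nat_lit 0)], [Int.ofNat (nat_lit 851734519),Int.negSucc (nat_lit 339961123),Int.negSucc (nat_lit 641613028),Int.negSucc (nat_lit 1380833261),Int.ofNat (nat_lit 710651257),Int.ofNat (nat_lit 3306338281),Int.negSucc (nat_lit 1515704027),Int.ofNat (nat_lit 1438117880),Int.ofNat (nat_lit 1473056200),Int.ofNat (nat_lit 1788539579),Int.ofNat (nat_lit 2102819400),Int.negSucc (nat_lit 1585788741),Int.ofNat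 (nat_lit 186602654),Int.ofNat (nat_lit 1471859241),Int.ofNat (nat_lit 733405359),Int.ofNat (nat_lit 958992277),Int.ofNat (nat_lit 3065730330),Int.negSucc (nat_lit 1472893400),Int.negSucc (nat_lit 2928366676),Int.ofNat (nat_lit 637282771),Int.ofNat (nat_lit 517543259),Int.negSucc (nat_lit 340086128),Int.ofNat (nat_lit 452979994),Int.ofNat (nat_lit 650053989),Int.ofNat (nat_lit 3067303280),Int.negSucc (nat_lit 1043121979),Int.negSucc (nat_lit 2728225833),Int.negSucc (nat_lit 658129275),Int.negSucc (nat_lit 438090028),Int.ofNat (nat_lit 8947687902)])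

/-- A part of a triangular factor. -/
noncomputable def sr2_c0 : Rows :=
  [sr2_c0_0,
   sr2_c0_1,
   sr2_c0_2,
   sr2_c0_3,
   sr2_c0_4,
   sr2_c0_5,
   sr2_c0_6,
   sr2_c0_7,
   sr2_c0_8,
   sr2_c0_9,
   sr2_c0_10,
   sr2_c0_11,
   sr2_c0_12,
   sr2_c0_13,
   sr2_c0_14,
   sr2_c0_15,
   sr2_c0_16,
   sr2_c0_17,
   sr2_c0_18,
   sr2_c0_19,
   sr2_c0_20,
   sr2_c0_21,
   sr2_c0_22,
   sr2_c0_23,
   sr2_c0_24,
   sr2_c0_25,
   sr2_c0_26,
   sr2_c0_27,
   sr2_c0_28,
   sr2_c0_29]

/-- A row. -/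
noncomputable def sr2_c1_0 : List ℕ × List ℤ :=
  ([(nat_lit 0),(nat_lit 3),(nat_lit 0),(nat_lit 1),(nat_lit 0),(nat_lit 0),(nat_lit 0),(nat_lit 0),(nat_lit 0),(nat_lit 0),(nat_lit 0),(nat_lit 0)], [Int.ofNat (nat_lit 3758838499),Int.ofNat (nat_lit 825099488),Int.ofNat (nat_lit 1951551169),Int.ofNat (nat_lit 2356152562),Int.negSucc (nat_lit 2307879343),Int.negSucc (nat_lit 3331927709),Int.negSucc (nat_lit 1651992980),Int.ofNat (nat_lit 67744270),Int.negSucc (nat_lit 4174600678),Int.ofNat (nat_lit 5876014034),Int.ofNat (nat_lit 2091464023),Int.negSucc (nat_lit 1506862437),Int.negSucc (nat_lit 1621534851),Int.negSucc (nat_lit 1299379261),Int.ofNat (nat_lit 2573182822),Int.ofNat (nat_lit 2927340918),Int.negSucc (nat_lit 343899096),Int.ofNat (nat_lit 3929494780),Int.ofNat (nat_lit 300626648),Int.negSucc (nat_lit 9336344634),Int.negSucc (nat_lit 670255308),Int.negSucc (nat_lit 1783078923),Int.ofNat (nat_lit 9264895720),Int.negSucc (nat_lit 197109130),Int.ofNat (nat_lit 3768246846),Int.ofNat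 (nat_lit 3614470657),Int.negSucc (nat_lit 11260063926),Int.negSucc (nat_lit 379422001),Int.negSucc (nat_lit 1341890803),Int.negSucc (nat_lit 3646731370),Int.ofNat (nat_lit 14807001805)])

/-- A row. -/
noncomputable def sr2_c1_1 : List ℕ × List ℤ :=
  ([(nat_lit 0),(nat_lit 4),(nat_lit 0),(nat_lit 0),(nat_lit 0),(nat_lit 0),(nat_lit 0),(nat_lit 0),(nat_lit 0),(nat_lit 0),(nat_lit 0),(nat_lit 0)], [Int.negSucc (nat_lit 931143248),Int.negSucc (nat_lit 834115158),Int.ofNat (nat_lit 1323025803),Int.negSucc (nat_lit 4499595391),Int.ofNat (nat_lit 1579437785),Int.ofNat (nat_lit 3340934849),Int.negSucc (nat_lit 1591935316),Int.ofNat (nat_lit 562481049),Int.ofNat (nat_lit 1798587938),Int.negSucc (nat_lit 3809429017),Int.negSucc (nat_lit 4710285579),Int.negSucc (nat_lit 748828170),Int.negSucc (nat_lit 3813000711),Int.ofNat (nat_lit 2590699119),Int.ofNat (nat_lit 2375715160),Int.negSucc (nat_lit 5605514331),Int.ofNat (nat_lit 4208313836),Int.negSucc (nat_lit 6030893276),Int.negSucc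 (nat_lit 5998644539),Int.ofNat (nat_lit 8749992131),Int.ofNat (nat_lit 2220255173),Int.negSucc (nat_lit 409647155),Int.negSucc (nat_lit 8947760501),Int.negSucc (nat_lit 12806859088),Int.ofNat (nat_lit 168405224),Int.negSucc (nat_lit 9659705657),Int.ofNat (nat_lit 6124179798),Int.ofNat (nat_lit 8646125195),Int.negSucc (nat_lit 2836329907),Int.ofNat (nat_lit 6676877025),Int.negSucc (nat_lit 11512425040),Int.ofNat (nat_lit 16218758530)])

/-- A row. -/
noncomputable def sr2_c1_2 : List ℕ × List ℤ :=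
  ([(nat_lit 0),(nat_lit 4),(nat_lit 1),(nat_lit 0),(nat_lit 0),(nat_lit 0),(nat_lit 0),(nat_lit 0),(nat_lit 0),(nat_lit 0),(nat_lit 0),(nat_lit 0)], [Int.ofNat (nat_lit 5919088584),Int.ofNat (nat_lit 1302757473),Int.ofNat (nat_lit 692838965),Int.ofNat (nat_lit 1310360213),Int.negSucc (nat_lit 2382697065),Int.negSucc (nat_lit 2185760402),Int.negSucc (nat_lit 1367896964),Int.ofNat (nat_lit 2776936707),Int.negSucc (nat_lit 1376055500),Int.negSucc (nat_lit 401355690),Int.negSucc (nat_lit 1797137422),Int.negSucc (nat_lit 3779322213),Int.negSucc (nat_lit 4529456138),Int.negSucc (nat_lit 3455786902),Int.ofNat (nat_lit 671209731),Int.ofNat (nat_lit 2318591641),Int.ofNat (nat_lit 2217439599),Int.ofNat (nat_lit 1716771512),Int.negSucc (nat_lit 1989843122),Int.ofNat (nat_lit 8990010),Int.negSucc (nat_lit 1006829880),Int.ofNat (nat_lit 768607178),Int.ofNat (nat_lit 3305490471),Int.negSucc (nat_lit 11526592205),Int.negSucc (nat_lit 1473892816),Int.negSucc (nat_lit 4706400717),Int.ofNat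 (nat_lit 846410553),Int.negSucc (nat_lit 2517118532),Int.ofNat (nat_lit 6016491241),Int.negSucc (nat_lit 680204643),Int.ofNat (nat_lit 46805768),Int.ofNat (nat_lit 13061358926),Int.ofNat (nat_lit 12027315115)])

/-- A row. -/
noncomputable def sr2_c1_3 : List ℕ × List ℤ :=
  ([(nat_lit 0),(nat_lit 6),(nat_lit 0),(nat_lit 0),(nat_lit 0),(nat_lit 0),(nat_lit 0),(nat_lit 0),(nat_lit 0),(nat_lit 0),(nat_lit 0),(nat_lit 0)], [Int.ofNat (nat_lit 3532882269),Int.ofNat (nat_lit 1276805197),Int.ofNat (nat_lit 1320684027),Int.ofNat (nat_lit 1697786959),Int.negSucc (nat_lit 3234830285),Int.negSucc (nat_lit 457814641),Int.ofNat (nat_lit 705185406),Int.ofNat (nat_lit 1481003940),Int.ofNat (nat_lit 825224792),Int.ofNat (nat_lit 2546126793),Int.ofNat (nat_lit 3568052672),Int.negSucc (nat_lit 1958753410),Int.ofNat (nat_lit 781702791),Int.negSucc (nat_lit 2166628794),Int.negSucc (nat_lit 1357362063),Int.ofNat (nat_lit 5353648901),Int.ofNat (nat_lit 243188172),Int.ofNat (nat_lit 6597942639),Int.ofNat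 (nat_lit 4055871645),Int.negSucc (nat_lit 2338756470),Int.negSucc (nat_lit 1522195252),Int.ofNat (nat_lit 2198385941),Int.ofNat (nat_lit 5467390627),Int.ofNat (nat_lit 4515315960),Int.negSucc (nat_lit 651986277),Int.ofNat (nat_lit 2893645506),Int.negSucc (nat_lit 5788917641),Int.negSucc (nat_lit 9520470295),Int.ofNat (nat_lit 4800390281),Int.negSucc (nat_lit 3936153981),Int.ofNat (nat_lit 3770263196),Int.negSucc (nat_lit 11877737909),Int.ofNat (nat_lit 11484001649),Int.ofNat (nat_lit 11301052011)])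

/-- A row. -/
noncomputable def sr2_c1_4 : List ℕ × List ℤ :=
  ([(nat_lit 1),(nat_lit 0),(nat_lit 0),(nat_lit 0),(nat_lit 0),(nat_lit 0),(nat_lit 0),(nat_lit 0),(nat_lit 0),(nat_lit 0),(nat_lit 0),(nat_lit 0)], [Int.negSucc (nat_lit 8630888239),Int.negSucc (nat_lit 561369342),Int.negSucc (nat_lit 1766704820),Int.ofNat (nat_lit 1158658198),Int.negSucc (nat_lit 2437099815),Int.negSucc (nat_lit 1294932363),Int.negSucc (nat_lit 1461296053),Int.ofNat (nat_lit 554852866),Int.negSucc (nat_lit 1048761994),Int.negSucc (nat_lit 9928856),Int.ofNat (nat_lit 1120636793),Int.ofNat (nat_lit 223160885),Int.negSucc (nat_lit 1444833000),Int.ofNat (nat_lit 19310330),Int.ofNat (nat_lit 414887488),Int.negSucc (nat_lit 950879750),Int.ofNat (nat_lit 316979176),Int.ofNat (nat_lit 114619845),Int.negSucc (nat_lit 260767052),Int.ofNat (nat_lit 907104205),Int.ofNat (nat_lit 612274973),Int.ofNat (nat_lit 423398061),Int.negSucc (nat_lit 201080334),Int.negSucc (nat_lit 913781089),Int.negSucc (nat_lit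 322061471),Int.ofNat (nat_lit 638763079),Int.ofNat (nat_lit 100337534),Int.ofNat (nat_lit 248675157),Int.ofNat (nat_lit 644607154),Int.negSucc (nat_lit 126651762),Int.ofNat (nat_lit 60465813),Int.ofNat (nat_lit 140366629),Int.negSucc (nat_lit 331930073),Int.ofNat (nat_lit 9818390),Int.ofNat (nat_lit 3418736194)])

/-- A row. -/
noncomputable def sr2_c1_5 : List ℕ × List ℤ :=
  ([(nat_lit 1),(nat_lit 0),(nat_lit 0),(nat_lit 0),(nat_lit 0),(nat_lit 0),(nat_lit 0),(nat_lit 0),(nat_lit 1),(nat_lit 0),(nat_lit 0),(nat_lit 0)], [Int.ofNat (nat_lit 663585786),Int.ofNat (nat_lit 503411415),Int.negSucc (nat_lit 1628255092),Int.ofNat (nat_lit 19366886),Int.ofNat (nat_lit 261443945),Int.negSucc (nat_lit 65215909),Int.ofNat (nat_lit 22699912),Int.ofNat (nat_lit 9287651),Int.negSucc (nat_lit 34468162),Int.ofNat (nat_lit 15550975),Int.negSucc (nat_lit 67134336),Int.ofNat (nat_lit 74322521),Int.negSucc (nat_lit 27998803),Int.negSucc (nat_lit 78136270),Int.negSucc (nat_lit 47391703),Int.negSucc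 (nat_lit 26570495),Int.ofNat (nat_lit 14846451),Int.ofNat (nat_lit 73302925),Int.ofNat (nat_lit 23538293),Int.negSucc (nat_lit 19395272),Int.ofNat (nat_lit 75895832),Int.ofNat (nat_lit 25822935),Int.ofNat (nat_lit 4845585),Int.negSucc (nat_lit 18155072),Int.negSucc (nat_lit 47937331),Int.ofNat (nat_lit 14955316),Int.negSucc (nat_lit 32039999),Int.negSucc (nat_lit 4175994),Int.negSucc (nat_lit 6789202),Int.negSucc (nat_lit 13509113),Int.ofNat (nat_lit 7404539),Int.negSucc (nat_lit 6087888),Int.negSucc (nat_lit 2687554),Int.ofNat (nat_lit 3092833),Int.ofNat (nat_lit 42981575),Int.ofNat (nat_lit 264804262)])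

/-- A row. -/
noncomputable def sr2_c1_6 : List ℕ × List ℤ :=
  ([(nat_lit 1),(nat_lit 0),(nat_lit 0),(nat_lit 0),(nat_lit 0),(nat_lit 0),(nat_lit 1),(nat_lit 0),(nat_lit 0),(nat_lit 0),(nat_lit 0),(nat_lit 0)], [Int.negSucc (nat_lit 3722893940),Int.negSucc (nat_lit 641234021),Int.ofNat (nat_lit 1552988758),Int.negSucc (nat_lit 3597586336),Int.negSucc (nat_lit 758773304),Int.negSucc (nat_lit 331193089),Int.negSucc (nat_lit 197118961),Int.ofNat (nat_lit 691780862),Int.ofNat (nat_lit 311921654),Int.negSucc (nat_lit 166860171),Int.negSucc (nat_lit 84156104),Int.ofNat (nat_lit 1762625667),Int.ofNat (nat_lit 87990229),Int.ofNat (nat_lit 290010755),Int.negSucc (nat_lit 166152693),Int.negSucc (nat_lit 210003349),Int.negSucc (nat_lit 440688961),Int.ofNat (nat_lit 16403645),Int.negSucc (nat_lit 135254619),Int.ofNat (nat_lit 143300272),Int.negSucc (nat_lit 121975029),Int.negSucc (nat_lit 108549170),Int.ofNat (nat_lit 56499577),Int.negSucc (nat_lit 210408384),Int.negSucc (nat_lit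 536616091),Int.negSucc (nat_lit 24281245),Int.ofNat (nat_lit 281528676),Int.ofNat (nat_lit 87094015),Int.ofNat (nat_lit 182506894),Int.negSucc (nat_lit 63216567),Int.ofNat (nat_lit 128552361),Int.negSucc (nat_lit 52729188),Int.ofNat (nat_lit 37424906),Int.ofNat (nat_lit 97092091),Int.ofNat (nat_lit 329144353),Int.negSucc (nat_lit 248256081),Int.ofNat (nat_lit 1355308739)])

/-- A row. -/
noncomputable def sr2_c1_7 : List ℕ × List ℤ :=
  ([(nat_lit 1),(nat_lit 0),(nat_lit 0),(nat_lit 0),(nat_lit 1),(nat_lit 0),(nat_lit 0),(nat_lit 0),(nat_lit 0),(nat_lit 0),(nat_lit 0),(nat_lit 0)], [Int.ofNat (nat_lit 7017152283),Int.ofNat (nat_lit 1985023928),Int.ofNat (nat_lit 2016022678),Int.negSucc (nat_lit 1086514906),Int.ofNat (nat_lit 3255274274),Int.negSucc (nat_lit 5155287779),Int.negSucc (nat_lit 375027742),Int.negSucc (nat_lit 227232283),Int.ofNat (nat_lit 1264663491),Int.negSucc (nat_lit 72117054),Int.negSucc (nat_lit 1373694243),Int.negSucc (nat_lit 733615122),Int.ofNat (nat_lit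 2315707116),Int.ofNat (nat_lit 387667886),Int.ofNat (nat_lit 166618751),Int.ofNat (nat_lit 1090030306),Int.ofNat (nat_lit 77419736),Int.ofNat (nat_lit 41946559),Int.ofNat (nat_lit 790466870),Int.negSucc (nat_lit 493434222),Int.negSucc (nat_lit 438048039),Int.negSucc (nat_lit 671417448),Int.ofNat (nat_lit 715657586),Int.ofNat (nat_lit 986888106),Int.ofNat (nat_lit 539462595),Int.negSucc (nat_lit 1047960174),Int.negSucc (nat_lit 439523248),Int.negSucc (nat_lit 801482866),Int.negSucc (nat_lit 917736997),Int.ofNat (nat_lit 99658318),Int.negSucc (nat_lit 81334529),Int.ofNat (nat_lit 82798287),Int.ofNat (nat_lit 454584659),Int.negSucc (nat_lit 113204690),Int.negSucc (nat_lit 2695881528),Int.negSucc (nat_lit 295975920),Int.negSucc (nat_lit 602877794),Int.ofNat (nat_lit 2922701314)])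

/-- A row. -/
noncomputable def sr2_c1_8 : List ℕ × List ℤ :=
  ([(nat_lit 1),(nat_lit 0),(nat_lit 0),(nat_lit 1),(nat_lit 0),(nat_lit 1),(nat_lit 0),(nat_lit 0),(nat_lit 0),(nat_lit 0),(nat_lit 0),(nat_lit 0)], [Int.ofNat (nat_lit 1016947018),Int.negSucc (nat_lit 610362884),Int.negSucc (nat_lit 221711081),Int.ofNat (nat_lit 7179935),Int.negSucc (nat_lit 1376955575),Int.negSucc (nat_lit 1671764186),Int.ofNat (nat_lit 407879621),Int.ofNat (nat_lit 862785832),Int.negSucc (nat_lit 4032077350),Int.negSucc (nat_lit 71365269),Int.ofNat (nat_lit 233313796),Int.ofNat (nat_lit 219307774),Int.ofNat (nat_lit 36638379),Int.ofNat (nat_lit 195782196),Int.ofNat (nat_lit 138038389),Int.ofNat (nat_lit 90475861),Int.negSucc (nat_lit 159264831),Int.ofNat (nat_lit 132903094),Int.negSucc (nat_lit 196985706),Int.ofNat (nat_lit 126748019),Int.negSucc (nat_lit 180397160),Int.negSucc (nat_lit 113487694),Int.ofNat (nat_lit 181156656),Int.negSucc (nat_lit 82872185),Int.negSucc (nat_lit 82004873),Int.ofNat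 (nat_lit 23682786),Int.ofNat (nat_lit 138324853),Int.negSucc (nat_lit 177996959),Int.negSucc (nat_lit 89683797),Int.negSucc (nat_lit 40503519),Int.ofNat (nat_lit 46526777),Int.ofNat (nat_lit 5974171),Int.ofNat (nat_lit 101494157),Int.ofNat (nat_lit 13194912),Int.negSucc (nat_lit 210014217),Int.negSucc (nat_lit 351902726),Int.ofNat (nat_lit 248172222),Int.ofNat (nat_lit 250490746),Int.ofNat (nat_lit 907279029)])

/-- A row. -/
noncomputable def sr2_c1_9 : List ℕ × List ℤ :=
  ([(nat_lit 1),(nat_lit 0),(nat_lit 0),(nat_lit 2),(nat_lit 0),(nat_lit 0),(nat_lit 0),(nat_lit 0),(nat_lit 0),(nat_lit 0),(nat_lit 0),(nat_lit 0)], [Int.ofNat (nat_lit 1438586854),Int.negSucc (nat_lit 1319882404),Int.ofNat (nat_lit 1979933733),Int.negSucc (nat_lit 505733453),Int.ofNat (nat_lit 1228453728),Int.negSucc (nat_lit 700951954),Int.ofNat (nat_lit 44833855),Int.ofNat (nat_lit 556887658),Int.ofNat (nat_lit 1380413883),Int.negSucc (nat_lit 7085811669),Int.ofNat (nat_lit 743830028),Int.negSucc (nat_lit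 1564806860),Int.ofNat (nat_lit 934338109),Int.ofNat (nat_lit 2693557812),Int.negSucc (nat_lit 93285748),Int.ofNat (nat_lit 1176812074),Int.ofNat (nat_lit 379358895),Int.negSucc (nat_lit 608300967),Int.ofNat (nat_lit 362115065),Int.negSucc (nat_lit 154952276),Int.ofNat (nat_lit 276853344),Int.negSucc (nat_lit 313792752),Int.ofNat (nat_lit 903954240),Int.ofNat (nat_lit 676311626),Int.ofNat (nat_lit 1008321988),Int.ofNat (nat_lit 285231499),Int.negSucc (nat_lit 1149755780),Int.negSucc (nat_lit 430869718),Int.negSucc (nat_lit 546501572),Int.negSucc (nat_lit 261939929),Int.negSucc (nat_lit 86689618),Int.negSucc (nat_lit 24362789),Int.ofNat (nat_lit 360163673),Int.negSucc (nat_lit 28834476),Int.negSucc (nat_lit 1018874988),Int.negSucc (nat_lit 62538878),Int.negSucc (nat_lit 1158819919),Int.ofNat (nat_lit 866559320),Int.negSucc (nat_lit 408350504),Int.ofNat (nat_lit 2691814227)])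

/-- A row. -/
noncomputable def sr2_c1_10 : List ℕ × List ℤ :=
  ([(nat_lit 1),(nat_lit 0),(nat_lit 1),(nat_lit 0),(nat_lit 0),(nat_lit 0),(nat_lit 0),(nat_lit 0),(nat_lit 0),(nat_lit 0),(nat_lit 0),(nat_lit 0)], [Int.negSucc (nat_lit 7866070487),Int.ofNat (nat_lit 4038790263),Int.negSucc (nat_lit 5760657261),Int.ofNat (nat_lit 4665011446),Int.ofNat (nat_lit 484231715),Int.negSucc (nat_lit 6891928091),Int.negSucc (nat_lit 2746972731),Int.ofNat (nat_lit 68774136),Int.negSucc (nat_lit 310574214),Int.negSucc (nat_lit 1433432529),Int.negSucc (nat_lit 2159236232),Int.negSucc (nat_lit 1190524111),Int.negSucc (nat_lit 1472526169),Int.negSucc (nat_lit 271577603),Int.ofNat (nat_lit 1534626705),Int.ofNat (nat_lit 375734911),Int.ofNat (nat_lit 981919457),Int.ofNat (nat_lit 21312318),Int.ofNat (nat_lit 259820226),Int.ofNat (nat_lit 1110761207),Int.ofNat (nat_lit 941984528),Int.ofNat (nat_lit 1148479004),Int.ofNat (nat_lit 344291647),Int.negSucc (nat_lit 779986877),Int.ofNat (nat_lit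 498445772),Int.ofNat (nat_lit 661333307),Int.negSucc (nat_lit 1037555105),Int.negSucc (nat_lit 1311868641),Int.negSucc (nat_lit 340452801),Int.ofNat (nat_lit 106510516),Int.negSucc (nat_lit 65480503),Int.negSucc (nat_lit 26206179),Int.negSucc (nat_lit 181740061),Int.ofNat (nat_lit 247783552),Int.ofNat (nat_lit 2738825861),Int.ofNat (nat_lit 450257709),Int.negSucc (nat_lit 1105096826),Int.ofNat (nat_lit 1794906641),Int.ofNat (nat_lit 183112884),Int.ofNat (nat_lit 2005645367),Int.ofNat (nat_lit 2769152529)])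

/-- A row. -/
noncomputable def sr2_c1_11 : List ℕ × List ℤ :=
  ([(nat_lit 1),(nat_lit 0),(nat_lit 1),(nat_lit 0),(nat_lit 1),(nat_lit 0),(nat_lit 0),(nat_lit 0),(nat_lit 0),(nat_lit 0),(nat_lit 0),(nat_lit 0)], [Int.ofNat (nat_lit 2574314291),Int.negSucc (nat_lit 858932684),Int.ofNat (nat_lit 1128112045),Int.ofNat (nat_lit 95028993),Int.negSucc (nat_lit 1144505662),Int.negSucc (nat_lit 1966222146),Int.negSucc (nat_lit 1171593599),Int.ofNat (nat_lit 56569816),Int.negSucc (nat_lit 316093996),Int.ofNat (nat_lit 175194112),Int.ofNat (nat_lit 1551878810),Int.ofNat (nat_lit 129333712),Int.negSucc (nat_lit 1609827708),Int.ofNat (nat_lit 561074013),Int.ofNat (nat_lit 298069710),Int.ofNat (nat_lit 10242006),Int.negSucc (nat_lit 345086273),Int.ofNat (nat_lit 106551103),Int.negSucc (nat_lit 62209831),Int.negSucc (nat_lit 37225112),Int.negSucc (nat_lit 67770014),Int.negSucc (nat_lit 145595612),Int.negSucc (nat_lit 30443199),Int.ofNat (nat_lit 2331519),Int.negSucc (nat_lit 107704556),Int.negSucc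 (nat_lit 97819714),Int.ofNat (nat_lit 103133650),Int.negSucc (nat_lit 28366085),Int.ofNat (nat_lit 29131079),Int.ofNat (nat_lit 21269891),Int.negSucc (nat_lit 9349391),Int.ofNat (nat_lit 89547898),Int.ofNat (nat_lit 121086432),Int.negSucc (nat_lit 2560229),Int.negSucc (nat_lit 81398657),Int.negSucc (nat_lit 245873960),Int.ofNat (nat_lit 183535799),Int.ofNat (nat_lit 154476294),Int.ofNat (nat_lit 273807595),Int.negSucc (nat_lit 119379953),Int.negSucc (nat_lit 191975869),Int.ofNat (nat_lit 610830903)])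

/-- A row. -/
noncomputable def sr2_c1_12 : List ℕ × List ℤ :=
  ([(nat_lit 1),(nat_lit 0),(nat_lit 2),(nat_lit 0),(nat_lit 0),(nat_lit 0),(nat_lit 0),(nat_lit 0),(nat_lit 0),(nat_lit 0),(nat_lit 0),(nat_lit 0)], [Int.negSucc (nat_lit 960495990),Int.ofNat (nat_lit 3747371592),Int.negSucc (nat_lit 142517929),Int.ofNat (nat_lit 2836368527),Int.ofNat (nat_lit 2863515878),Int.negSucc (nat_lit 5193349594),Int.negSucc (nat_lit 1125570847),Int.negSucc (nat_lit 852438064),Int.ofNat (nat_lit 894658304),Int.negSucc (nat_lit 2069804986),Int.negSucc (nat_lit 2221406915),Int.negSucc (nat_lit 459065424),Int.negSucc (nat_lit 1575580441),Int.negSucc (nat_lit 319052186),Int.ofNat (nat_lit 692683583),Int.ofNat (nat_lit 2519435447),Int.ofNat (nat_lit 582287374),Int.ofNat (nat_lit 121608182),Int.ofNat (nat_lit 354250226),Int.ofNat (nat_lit 72611938),Int.ofNat (nat_lit 429894692),Int.ofNat (nat_lit 722174395),Int.ofNat (nat_lit 784484755),Int.ofNat (nat_lit 158577537),Int.ofNat (nat_lit 724688453),Int.ofNat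 (nat_lit 15869709),Int.negSucc (nat_lit 1082915722),Int.negSucc (nat_lit 1533253445),Int.negSucc (nat_lit 1316697241),Int.ofNat (nat_lit 156676138),Int.negSucc (nat_lit 159216193),Int.negSucc (nat_lit 254043795),Int.ofNat (nat_lit 222934123),Int.ofNat (nat_lit 97538270),Int.negSucc (nat_lit 773670023),Int.ofNat (nat_lit 512677014),Int.negSucc (nat_lit 844220625),Int.ofNat (nat_lit 1663628498),Int.ofNat (nat_lit 38341199),Int.ofNat (nat_lit 1928969151),Int.ofNat (nat_lit 2352468290),Int.negSucc (nat_lit 200942080),Int.ofNat (nat_lit 1094288726)])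

/-- A row. -/
noncomputable def sr2_c1_13 : List ℕ × List ℤ :=
  ([(nat_lit 1),(nat_lit 1),(nat_lit 0),(nat_lit 0),(nat_lit 0),(nat_lit 0),(nat_lit 0),(nat_lit 1),(nat_lit 0),(nat_lit 0),(nat_lit 0),(nat_lit 0)], [Int.ofNat (nat_lit 20420943),Int.negSucc (nat_lit 2451846831),Int.ofNat (nat_lit 1891128739),Int.ofNat (nat_lit 1200806957),Int.ofNat (nat_lit 1798341329),Int.negSucc (nat_lit 37516558),Int.ofNat (nat_lit 1443156237),Int.negSucc (nat_lit 1349474306),Int.negSucc (nat_lit 1162828153),Int.negSucc (nat_lit 318351043),Int.negSucc (nat_lit 1144956178),Int.ofNat (nat_lit 208952587),Int.negSucc (nat_lit 544060658),Int.negSucc (nat_lit 2018830637),Int.negSucc (nat_lit 1022861428),Int.negSucc (nat_lit 136276214),Int.negSucc (nat_lit 1803749325),Int.negSucc (nat_lit 4163409660),Int.ofNat (nat_lit 71491049),Int.ofNat (nat_lit 27986361),Int.negSucc (nat_lit 139408790),Int.ofNat (nat_lit 151088559),Int.negSucc (nat_lit 34926620),Int.negSucc (nat_lit 89161468),Int.negSucc (nat_lit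 237872286),Int.negSucc (nat_lit 80369082),Int.ofNat (nat_lit 170329152),Int.negSucc (nat_lit 133591854),Int.negSucc (nat_lit 76922919),Int.ofNat (nat_lit 25851457),Int.negSucc (nat_lit 97564665),Int.negSucc (nat_lit 104349806),Int.ofNat (nat_lit 45352197),Int.negSucc (nat_lit 31912522),Int.negSucc (nat_lit 118402166),Int.ofNat (nat_lit 105838300),Int.negSucc (nat_lit 266056365),Int.negSucc (nat_lit 63957045),Int.ofNat (nat_lit 282639297),Int.negSucc (nat_lit 6287807),Int.negSucc (nat_lit 73032053),Int.negSucc (nat_lit 20804531),Int.negSucc (nat_lit 155988303),Int.ofNat (nat_lit 852517079)])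

/-- A row. -/
noncomputable def sr2_c1_14 : List ℕ × List ℤ :=
  ([(nat_lit 1),(nat_lit 1),(nat_lit 0),(nat_lit 0),(nat_lit 0),(nat_lit 1),(nat_lit 0),(nat_lit 0),(nat_lit 0),(nat_lit 0),(nat_lit 0),(nat_lit 0)], [Int.negSucc (nat_lit 5316551042),Int.negSucc (nat_lit 121145511),Int.negSucc (nat_lit 2517822995),Int.negSucc (nat_lit 3720001234),Int.negSucc (nat_lit 285795999),Int.ofNat (nat_lit 3931776802),Int.ofNat (nat_lit 3698270391),Int.negSucc (nat_lit 330167593),Int.ofNat (nat_lit 1992751222),Int.negSucc (nat_lit 2731188648),Int.negSucc (nat_lit 144527334),Int.ofNat (nat_lit 2067890490),Int.ofNat (nat_lit 1500246316),Int.negSucc (nat_lit 545585236),Int.negSucc (nat_lit 1245025717),Int.negSucc (nat_lit 1688539752),Int.negSucc (nat_lit 449149237),Int.negSucc (nat_lit 3503538197),Int.negSucc (nat_lit 13607920064),Int.ofNat (nat_lit 294306253),Int.negSucc (nat_lit 1939423915),Int.ofNat (nat_lit 4710383214),Int.negSucc (nat_lit 257252430),Int.ofNat (nat_lit 253092513),Int.negSucc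 (nat_lit 804187554),Int.ofNat (nat_lit 393953328),Int.ofNat (nat_lit 593668037),Int.ofNat (nat_lit 674229894),Int.ofNat (nat_lit 277319698),Int.negSucc (nat_lit 2975922005),Int.negSucc (nat_lit 112705763),Int.ofNat (nat_lit 160584899),Int.negSucc (nat_lit 426952938),Int.negSucc (nat_lit 244039272),Int.ofNat (nat_lit 1603421430),Int.ofNat (nat_lit 812384231),Int.ofNat (nat_lit 515662036),Int.negSucc (nat_lit 991897173),Int.negSucc (nat_lit 1271005686),Int.ofNat (nat_lit 93100099),Int.negSucc (nat_lit 661231951),Int.negSucc (nat_lit 341888994),Int.negSucc (nat_lit 197847510),Int.ofNat (nat_lit 373465224),Int.ofNat (nat_lit 2955583028)])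

/-- A row. -/
noncomputable def sr2_c1_15 : List ℕ × List ℤ :=
  ([(nat_lit 1),(nat_lit 1),(nat_lit 0),(nat_lit 1),(nat_lit 0),(nat_lit 0),(nat_lit 0),(nat_lit 0),(nat_lit 0),(nat_lit 0),(nat_lit 0),(nat_lit 0)], [Int.ofNat (nat_lit 1455628333),Int.ofNat (nat_lit 6023703369),Int.negSucc (nat_lit 5690422258),Int.ofNat (nat_lit 2430049642),Int.negSucc (nat_lit 339097447),Int.negSucc (nat_lit 3812880260),Int.ofNat (nat_lit 410340943),Int.negSucc (nat_lit 46571994),Int.negSucc (nat_lit 945868695),Int.ofNat (nat_lit 5400787099),Int.negSucc (nat_lit 604018594),Int.ofNat (nat_lit 3312793632),Int.negSucc (nat_lit 916691407),Int.negSucc (nat_lit 3557418793),Int.ofNat (nat_lit 1296098735),Int.negSucc (nat_lit 953818928),Int.negSucc (nat_lit 1038590496),Int.ofNat (nat_lit 5061134858),Int.ofNat (nat_lit 1657967598),Int.negSucc (nat_lit 22439408404),Int.negSucc (nat_lit 3503522106),Int.negSucc (nat_lit 1464397904),Int.ofNat (nat_lit 5461738987),Int.ofNat (nat_lit 665995),Int.negSucc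 (nat_lit 696253520),Int.negSucc (nat_lit 1526274720),Int.negSucc (nat_lit 956707949),Int.ofNat (nat_lit 2435658282),Int.ofNat (nat_lit 994147025),Int.ofNat (nat_lit 1243133536),Int.negSucc (nat_lit 3101471994),Int.ofNat (nat_lit 1239131961),Int.negSucc (nat_lit 2764999323),Int.negSucc (nat_lit 358723780),Int.ofNat (nat_lit 1484734748),Int.ofNat (nat_lit 673617979),Int.ofNat (nat_lit 2114549315),Int.negSucc (nat_lit 2402878844),Int.ofNat (nat_lit 90365261),Int.negSucc (nat_lit 7490048429),Int.negSucc (nat_lit 759755463),Int.ofNat (nat_lit 383736162),Int.negSucc (nat_lit 66974898),Int.negSucc (nat_lit 2286692272),Int.ofNat (nat_lit 690326027),Int.ofNat (nat_lit 9179525525)])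

/-- A row. -/
noncomputable def sr2_c1_16 : List ℕ × List ℤ :=
  ([(nat_lit 1),(nat_lit 1),(nat_lit 1),(nat_lit 1),(nat_lit 0),(nat_lit 0),(nat_lit 0),(nat_lit 0),(nat_lit 0),(nat_lit 0),(nat_lit 0),(nat_lit 0)], [Int.ofNat (nat_lit 1667566559),Int.ofNat (nat_lit 3407739004),Int.negSucc (nat_lit 551147973),Int.ofNat (nat_lit 940126812),Int.ofNat (nat_lit 1662382047),Int.negSucc (nat_lit 2675510405),Int.negSucc (nat_lit 581889677),Int.negSucc (nat_lit 382494885),Int.ofNat (nat_lit 599200648),Int.negSucc (nat_lit 5183174871),Int.ofNat (nat_lit 620710891),Int.ofNat (nat_lit 3235824492),Int.negSucc (nat_lit 275095090),Int.negSucc (nat_lit 2249073541),Int.ofNat (nat_lit 663174458),Int.negSucc (nat_lit 435254441),Int.negSucc (nat_lit 2407771565),Int.negSucc (nat_lit 721325048),Int.negSucc (nat_lit 438522498),Int.negSucc (nat_lit 8899293765),Int.negSucc (nat_lit 3510782431),Int.negSucc (nat_lit 1662328644),Int.negSucc (nat_lit 8714991277),Int.ofNat (nat_lit 38686987),Int.ofNat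 (nat_lit 190801631),Int.ofNat (nat_lit 210432068),Int.negSucc (nat_lit 115332246),Int.ofNat (nat_lit 166417737),Int.ofNat (nat_lit 183585135),Int.ofNat (nat_lit 85604617),Int.negSucc (nat_lit 129355054),Int.ofNat (nat_lit 107066801),Int.ofNat (nat_lit 61429519),Int.negSucc (nat_lit 30910585),Int.negSucc (nat_lit 312514642),Int.ofNat (nat_lit 8981024),Int.ofNat (nat_lit 194852274),Int.ofNat (nat_lit 20299990),Int.ofNat (nat_lit 46852946),Int.negSucc (nat_lit 280164750),Int.negSucc (nat_lit 878763921),Int.ofNat (nat_lit 916329240),Int.negSucc (nat_lit 248083689),Int.negSucc (nat_lit 268133925),Int.ofNat (nat_lit 235887279),Int.ofNat (nat_lit 548290320),Int.ofNat (nat_lit 2911556082)])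

/-- A row. -/
noncomputable def sr2_c1_17 : List ℕ × List ℤ :=
  ([(nat_lit 1),(nat_lit 2),(nat_lit 0),(nat_lit 0),(nat_lit 0),(nat_lit 0),(nat_lit 0),(nat_lit 0),(nat_lit 0),(nat_lit 0),(nat_lit 0),(nat_lit 0)], [Int.ofNat (nat_lit 11421081665),Int.negSucc (nat_lit 1988828078),Int.ofNat (nat_lit 9846027634),Int.negSucc (nat_lit 3424403782),Int.ofNat (nat_lit 4985708974),Int.ofNat (nat_lit 13491358238),Int.ofNat (nat_lit 196780145),Int.ofNat (nat_lit 2968276927),Int.negSucc (nat_lit 1408129913),Int.ofNat (nat_lit 1782477793),Int.negSucc (nat_lit 8451720854),Int.negSucc (nat_lit 2269400977),Int.negSucc (nat_lit 3173626037),Int.ofNat (nat_lit 3127991565),Int.ofNat (nat_lit 5898734826),Int.ofNat (nat_lit 3547492514),Int.negSucc (nat_lit 798156491),Int.ofNat (nat_lit 130214957),Int.negSucc (nat_lit 322313866),Int.ofNat (nat_lit 3659955214),Int.negSucc (nat_lit 2191353687),Int.ofNat (nat_lit 6692463939),Int.negSucc (nat_lit 6081278659),Int.negSucc (nat_lit 25976436822),Int.ofNat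 (nat_lit 8678731427),Int.negSucc (nat_lit 1768838166),Int.negSucc (nat_lit 5218674597),Int.ofNat (nat_lit 2111862815),Int.negSucc (nat_lit 1738680608),Int.ofNat (nat_lit 1607451135),Int.ofNat (nat_lit 4011655160),Int.negSucc (nat_lit 11331812353),Int.ofNat (nat_lit 207843409),Int.ofNat (nat_lit 5050693540),Int.negSucc (nat_lit 6294675613),Int.ofNat (nat_lit 297130170),Int.ofNat (nat_lit 1373449332),Int.negSucc (nat_lit 612664348),Int.ofNat (nat_lit 2945794013),Int.ofNat (nat_lit 10861411808),Int.ofNat (nat_lit 6303352481),Int.negSucc (nat_lit 1258684641),Int.ofNat (nat_lit 1529925969),Int.ofNat (nat_lit 827973248),Int.negSucc (nat_lit 1517821954),Int.negSucc (nat_lit 7558139884),Int.ofNat (nat_lit 825510161),Int.ofNat (nat_lit 17480163978)])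

/-- A row. -/
noncomputable def sr2_c1_18 : List ℕ × List ℤ :=
  ([(nat_lit 1),(nat_lit 2),(nat_lit 0),(nat_lit 0),(nat_lit 1),(nat_lit 0),(nat_lit 0),(nat_lit 0),(nat_lit 0),(nat_lit 0),(nat_lit 0),(nat_lit 0)], [Int.negSucc (nat_lit 1194974189),Int.negSucc (nat_lit 1495794089),Int.negSucc (nat_lit 11709443763),Int.ofNat (nat_lit 3898673404),Int.ofNat (nat_lit 664493787),Int.ofNat (nat_lit 1018295118),Int.ofNat (nat_lit 1862104722),Int.negSucc (nat_lit 2607160163),Int.negSucc (nat_lit 2811493249),Int.ofNat (nat_lit 1098026562),Int.ofNat (nat_lit 1493882072),Int.ofNat (nat_lit 1329214576),Int.negSucc (nat_lit 2651901816),Int.ofNat (nat_lit 1836377478),Int.negSucc (nat_lit 549562980),Int.negSucc (nat_lit 936711404),Int.ofNat (nat_lit 250424788),Int.ofNat (nat_lit 691610831),Int.ofNat (nat_lit 203051449),Int.ofNat (nat_lit 5409862708),Int.negSucc (nat_lit 6671089201),Int.negSucc (nat_lit 4434727706),Int.negSucc (nat_lit 139113999),Int.ofNat (nat_lit 7291767136),Int.negSucc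 (nat_lit 2485506142),Int.negSucc (nat_lit 14282802453),Int.ofNat (nat_lit 2432561484),Int.ofNat (nat_lit 280600950),Int.ofNat (nat_lit 599319433),Int.negSucc (nat_lit 769137019),Int.negSucc (nat_lit 1190301247),Int.negSucc (nat_lit 41657799),Int.ofNat (nat_lit 641356207),Int.ofNat (nat_lit 69754636),Int.ofNat (nat_lit 37310457),Int.ofNat (nat_lit 349201919),Int.ofNat (nat_lit 162039677),Int.ofNat (nat_lit 201998385),Int.negSucc (nat_lit 367646385),Int.negSucc (nat_lit 978691236),Int.ofNat (nat_lit 152556358),Int.ofNat (nat_lit 313684856),Int.negSucc (nat_lit 446227228),Int.ofNat (nat_lit 1621927843),Int.negSucc (nat_lit 618252101),Int.negSucc (nat_lit 1136042078),Int.negSucc (nat_lit 742655919),Int.negSucc (nat_lit 1632462231),Int.ofNat (nat_lit 4736648297)])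

/-- A row. -/
noncomputable def sr2_c1_19 : List ℕ × List ℤ :=
  ([(nat_lit 1),(nat_lit 2),(nat_lit 1),(nat_lit 0),(nat_lit 0),(nat_lit 0),(nat_lit 0),(nat_lit 0),(nat_lit 0),(nat_lit 0),(nat_lit 0),(nat_lit 0)], [Int.ofNat (nat_lit 16003581126),Int.ofNat (nat_lit 597559157),Int.ofNat (nat_lit 1365570766),Int.negSucc (nat_lit 7066291248),Int.ofNat (nat_lit 2986482909),Int.ofNat (nat_lit 18904060722),Int.negSucc (nat_lit 1207524287),Int.negSucc (nat_lit 3159018354),Int.ofNat (nat_lit 812739511),Int.ofNat (nat_lit 6173972112),Int.negSucc (nat_lit 392424238),Int.negSucc (nat_lit 6629818908),Int.negSucc (nat_lit 2169317626),Int.ofNat (nat_lit 5766131104),Int.ofNat (nat_lit 1286553946),Int.ofNat (nat_lit 11417466633),Int.ofNat (nat_lit 7971858861),Int.ofNat (nat_lit 3493916653),Int.ofNat (nat_lit 3789725158),Int.negSucc (nat_lit 6265534670),Int.ofNat (nat_lit 1431620800),Int.ofNat (nat_lit 1452574158),Int.ofNat (nat_lit 941968016),Int.negSucc (nat_lit 17492341020),Int.ofNat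 (nat_lit 14026320033),Int.negSucc (nat_lit 10401945182),Int.negSucc (nat_lit 8435788131),Int.negSucc (nat_lit 7361903446),Int.ofNat (nat_lit 8384069420),Int.ofNat (nat_lit 3138739578),Int.ofNat (nat_lit 2850257946),Int.negSucc (nat_lit 8353921882),Int.negSucc (nat_lit 8903013993),Int.ofNat (nat_lit 1147598877),Int.negSucc (nat_lit 2303457770),Int.negSucc (nat_lit 291539968),Int.ofNat (nat_lit 998599401),Int.negSucc (nat_lit 2082982323),Int.ofNat (nat_lit 796604996),Int.ofNat (nat_lit 1664187169),Int.ofNat (nat_lit 3224173798),Int.negSucc (nat_lit 4036530527),Int.ofNat (nat_lit 4422377515),Int.negSucc (nat_lit 4203676826),Int.negSucc (nat_lit 1778771343),Int.ofNat (nat_lit 3201932276),Int.negSucc (nat_lit 2346567439),Int.ofNat (nat_lit 14492786604),Int.negSucc (nat_lit 4274532537),Int.ofNat (nat_lit 11262961190)])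

/-- A row. -/
noncomputable def sr2_c1_20 : List ℕ × List ℤ :=
  ([(nat_lit 1),(nat_lit 3),(nat_lit 0),(nat_lit 1),(nat_lit 0),(nat_lit 0),(nat_lit 0),(nat_lit 0),(nat_lit 0),(nat_lit 0),(nat_lit 0),(nat_lit 0)], [Int.negSucc (nat_lit 2734857458),Int.negSucc (nat_lit 8081445776),Int.ofNat (nat_lit 6491332141),Int.negSucc (nat_lit 2062475125),Int.negSucc (nat_lit 1144545496),Int.ofNat (nat_lit 3169634577),Int.ofNat (nat_lit 1539068744),Int.negSucc (nat_lit 8650486866),Int.negSucc (nat_lit 50636067),Int.ofNat (nat_lit 8874637446),Int.negSucc (nat_lit 209839454),Int.negSucc (nat_lit 3611142865),Int.negSucc (nat_lit 474081895),Int.ofNat (nat_lit 1115661746),Int.negSucc (nat_lit 3297716045),Int.negSucc (nat_lit 2184397269),Int.negSucc (nat_lit 151996262),Int.negSucc (nat_lit 3887109909),Int.ofNat (nat_lit 4754558025),Int.ofNat (nat_lit 25357591666),Int.ofNat (nat_lit 2608132401),Int.negSucc (nat_lit 5793271909),Int.negSucc (nat_lit 15368810202),Int.ofNat (nat_lit 10628323106),Int.negSucc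 (nat_lit 4918106721),Int.negSucc (nat_lit 3853184402),Int.negSucc (nat_lit 12790849084),Int.ofNat (nat_lit 3881537631),Int.ofNat (nat_lit 6551300689),Int.negSucc (nat_lit 7407241438),Int.negSucc (nat_lit 29329400424),Int.negSucc (nat_lit 2451529697),Int.ofNat (nat_lit 2070437872),Int.ofNat (nat_lit 2418245677),Int.ofNat (nat_lit 1631233445),Int.negSucc (nat_lit 2985870859),Int.negSucc (nat_lit 51168287),Int.negSucc (nat_lit 1209933057),Int.negSucc (nat_lit 5735627050),Int.negSucc (nat_lit 268385023),Int.negSucc (nat_lit 179005847),Int.ofNat (nat_lit 1613401851),Int.negSucc (nat_lit 504747023),Int.ofNat (nat_lit 3927297530),Int.negSucc (nat_lit 1862986406),Int.negSucc (nat_lit 4465541546),Int.ofNat (nat_lit 1855071447),Int.negSucc (nat_lit 5490760797),Int.ofNat (nat_lit 4993792381),Int.negSucc (nat_lit 408523558),Int.ofNat (nat_lit 12155896851)])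

/-- A row. -/
noncomputable def sr2_c1_21 : List ℕ × List ℤ :=
  ([(nat_lit 1),(nat_lit 4),(nat_lit 0),(nat_lit 0),(nat_lit 0),(nat_lit 0),(nat_lit 0),(nat_lit 0),(nat_lit 0),(nat_lit 0),(nat_lit 0),(nat_lit 0)], [Int.negSucc (nat_lit 1557109231),Int.ofNat (nat_lit 6488545409),Int.negSucc (nat_lit 10410380725),Int.negSucc (nat_lit 5519596028),Int.negSucc (nat_lit 3627841637),Int.negSucc (nat_lit 250016287),Int.ofNat (nat_lit 702557533),Int.negSucc (nat_lit 86481117),Int.ofNat (nat_lit 3620149166),Int.negSucc (nat_lit 2246854240),Int.ofNat (nat_lit 9130108105),Int.negSucc (nat_lit 851326407),Int.ofNat (nat_lit 7298064171),Int.negSucc (nat_lit 2289471342),Int.negSucc (nat_lit 7369206544),Int.ofNat (nat_lit 7552583377),Int.ofNat (nat_lit 5874511627),Int.negSucc (nat_lit 2939949004),Int.negSucc (nat_lit 5905296971),Int.negSucc (nat_lit 8672649819),Int.ofNat (nat_lit 8859663145),Int.negSucc (nat_lit 4616249596),Int.ofNat (nat_lit 2651873403),Int.ofNat (nat_lit 14691450726),Int.ofNat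 (nat_lit 979113191),Int.ofNat (nat_lit 6047686648),Int.ofNat (nat_lit 12128328668),Int.negSucc (nat_lit 21966032553),Int.ofNat (nat_lit 17969244408),Int.ofNat (nat_lit 5640449879),Int.ofNat (nat_lit 6650388587),Int.negSucc (nat_lit 1446407941),Int.negSucc (nat_lit 2098554586),Int.negSucc (nat_lit 26617091175),Int.ofNat (nat_lit 6625252676),Int.negSucc (nat_lit 1073007878),Int.negSucc (nat_lit 1362408176),Int.negSucc (nat_lit 1901413763),Int.negSucc (nat_lit 2134542598),Int.negSucc (nat_lit 14844870379),Int.negSucc (nat_lit 6945563665),Int.negSucc (nat_lit 3894529676),Int.ofNat (nat_lit 2981324168),Int.negSucc (nat_lit 11078494637),Int.ofNat (nat_lit 5091278092),Int.ofNat (nat_lit 9325350916),Int.negSucc (nat_lit 2467194448),Int.negSucc (nat_lit 12922418171),Int.negSucc (nat_lit 14555285850),Int.ofNat (nat_lit 19257554023),Int.negSucc (nat_lit 8046835763),Int.ofNat (nat_lit 22288451660)])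

/-- A row. -/
noncomputable def sr2_c1_22 : List ℕ × List ℤ :=
  ([(nat_lit 2),(nat_lit 0),(nat_lit 0),(nat_lit 0),(nat_lit 0),(nat_lit 0),(nat_lit 0),(nat_lit 0),(nat_lit 0),(nat_lit 0),(nat_lit 0),(nat_lit 0)], [Int.ofNat (nat_lit 6103971332),Int.ofNat (nat_lit 1050884446),Int.ofNat (nat_lit 85722722),Int.negSucc (nat_lit 2736106704),Int.ofNat (nat_lit 1580623823),Int.ofNat (nat_lit 1739353539),Int.ofNat (nat_lit 2756249804),Int.negSucc (nat_lit 2326666370),Int.ofNat (nat_lit 3204481097),Int.negSucc (nat_lit 1123190778),Int.negSucc (nat_lit 3711832848),Int.ofNat (nat_lit 390177045),Int.ofNat (nat_lit 4131142880),Int.negSucc (nat_lit 297732908),Int.negSucc (nat_lit 1695232643),Int.ofNat (nat_lit 3664531096),Int.negSucc (nat_lit 1768592940),Int.ofNat (nat_lit 197828706),Int.ofNat (nat_lit 261175464),Int.negSucc (nat_lit 3385299909),Int.negSucc (nat_lit 3691070446),Int.negSucc (nat_lit 2099670631),Int.ofNat (nat_lit 533311780),Int.ofNat (nat_lit 1536975714),Int.ofNat (nat_lit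 428623810),Int.negSucc (nat_lit 3143304971),Int.ofNat (nat_lit 647697540),Int.negSucc (nat_lit 357814673),Int.negSucc (nat_lit 2566257450),Int.ofNat (nat_lit 144206192),Int.negSucc (nat_lit 206752256),Int.negSucc (nat_lit 417185808),Int.ofNat (nat_lit 1020648749),Int.negSucc (nat_lit 208184583),Int.negSucc (nat_lit 12857134036),Int.ofNat (nat_lit 207144491),Int.ofNat (nat_lit 3158187815),Int.negSucc (nat_lit 3296144555),Int.negSucc (nat_lit 1760459525),Int.negSucc (nat_lit 1895096704),Int.ofNat (nat_lit 1464984577),Int.negSucc (nat_lit 955253892),Int.ofNat (nat_lit 293424822),Int.negSucc (nat_lit 618269659),Int.ofNat (nat_lit 74449394),Int.ofNat (nat_lit 705007231),Int.negSucc (nat_lit 135982280),Int.negSucc (nat_lit 2091333112),Int.ofNat (nat_lit 389204254),Int.negSucc (nat_lit 744448819),Int.negSucc (nat_lit 414004612),Int.ofNat (nat_lit 72880081),Int.ofNat (nat_lit 4001106843)])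

/-- A row. -/
noncomputable def sr2_c1_23 : List ℕ × List ℤ :=
  ([(nat_lit 2),(nat_lit 0),(nat_lit 0),(nat_lit 0),(nat_lit 0),(nat_lit 0),(nat_lit 1),(nat_lit 0),(nat_lit 0),(nat_lit 0),(nat_lit 0),(nat_lit 0)], [Int.ofNat (nat_lit 2635325093),Int.ofNat (nat_lit 68130076),Int.ofNat (nat_lit 250148099),Int.ofNat (nat_lit 2542159409),Int.ofNat (nat_lit 407202683),Int.ofNat (nat_lit 664936954),Int.negSucc (nat_lit 7578957),Int.negSucc (nat_lit 930720006),Int.negSucc (nat_lit 305884708),Int.ofNat (nat_lit 324741265),Int.ofNat (nat_lit 209389567),Int.negSucc (nat_lit 2665999707),Int.negSucc (nat_lit 57974993),Int.negSucc (nat_lit 215722773),Int.ofNat (nat_lit 345240283),Int.ofNat (nat_lit 309806894),Int.ofNat (nat_lit 622820230),Int.negSucc (nat_lit 6172839),Int.ofNat (nat_lit 201052151),Int.negSucc (nat_lit 205182456),Int.ofNat (nat_lit 106385780),Int.ofNat (nat_lit 202954244),Int.negSucc (nat_lit 124782130),Int.ofNat (nat_lit 228930795),Int.ofNat (nat_lit 518120830),Int.ofNat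 (nat_lit 60047070),Int.negSucc (nat_lit 406784168),Int.negSucc (nat_lit 123366326),Int.negSucc (nat_lit 265174395),Int.ofNat (nat_lit 180101720),Int.negSucc (nat_lit 152796086),Int.ofNat (nat_lit 107999861),Int.negSucc (nat_lit 52773151),Int.negSucc (nat_lit 136339801),Int.negSucc (nat_lit 560724370),Int.negSucc (nat_lit 29242958),Int.negSucc (nat_lit 1928847456),Int.ofNat (nat_lit 78670306),Int.ofNat (nat_lit 80039544),Int.negSucc (nat_lit 75233564),Int.ofNat (nat_lit 6815708),Int.ofNat (nat_lit 44582830),Int.ofNat (nat_lit 32836818),Int.negSucc (nat_lit 110527760),Int.ofNat (nat_lit 20237435),Int.ofNat (nat_lit 87312173),Int.ofNat (nat_lit 52678384),Int.ofNat (nat_lit 9031421),Int.negSucc (nat_lit 57414975),Int.negSucc (nat_lit 27489744),Int.negSucc (nat_lit 16568768),Int.negSucc (nat_lit 1196555),Int.negSucc (nat_lit 23572807),Int.ofNat (nat_lit 279208144)])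

/-- A row. -/
noncomputable def sr2_c1_24 : List ℕ × List ℤ :=
  ([(nat_lit 2),(nat_lit 0),(nat_lit 0),(nat_lit 0),(nat_lit 1),(nat_lit 0),(nat_lit 0),(nat_lit 0),(nat_lit 0),(nat_lit 0),(nat_lit 0),(nat_lit 0)], [Int.negSucc (nat_lit 4683992257),Int.negSucc (nat_lit 5332600954),Int.ofNat (nat_lit 2062920570),Int.ofNat (nat_lit 3007477967),Int.negSucc (nat_lit 2973868149),Int.ofNat (nat_lit 4967179970),Int.ofNat (nat_lit 599061122),Int.negSucc (nat_lit 973260037),Int.negSucc (nat_lit 4145414567),Int.negSucc (nat_lit 151463023),Int.ofNat (nat_lit 4516306215),Int.ofNat (nat_lit 289643801),Int.negSucc (nat_lit 7041483280),Int.negSucc (nat_lit 1783617802),Int.ofNat (nat_lit 90963140),Int.negSucc (nat_lit 2566491544),Int.negSucc (nat_lit 731658842),Int.negSucc (nat_lit 234854209),Int.negSucc (nat_lit 2316590027),Int.ofNat (nat_lit 1327297750),Int.ofNat (nat_lit 2446916576),Int.ofNat (nat_lit 2040874367),Int.negSucc (nat_lit 1916542233),Int.negSucc (nat_lit 2068788997),Int.negSucc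 (nat_lit 555377210),Int.ofNat (nat_lit 2687515535),Int.ofNat (nat_lit 822541521),Int.ofNat (nat_lit 2087893168),Int.ofNat (nat_lit 2530097151),Int.negSucc (nat_lit 448099187),Int.negSucc (nat_lit 51759351),Int.negSucc (nat_lit 183266512),Int.negSucc (nat_lit 1152857200),Int.ofNat (nat_lit 314663020),Int.ofNat (nat_lit 7581483750),Int.ofNat (nat_lit 1360312652),Int.negSucc (nat_lit 559404932),Int.negSucc (nat_lit 8981764671),Int.ofNat (nat_lit 464161346),Int.ofNat (nat_lit 866553026),Int.negSucc (nat_lit 416518148),Int.ofNat (nat_lit 1262650933),Int.ofNat (nat_lit 215523606),Int.ofNat (nat_lit 284859369),Int.ofNat (nat_lit 180160511),Int.negSucc (nat_lit 695930928),Int.ofNat (nat_lit 182990835),Int.ofNat (nat_lit 200026282),Int.negSucc (nat_lit 665837432),Int.ofNat (nat_lit 141761542),Int.ofNat (nat_lit 375871460),Int.ofNat (nat_lit 19715019),Int.negSucc (nat_lit 449044839),Int.negSucc (nat_lit 697024038),Int.ofNat (nat_lit 1435591607)])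

/-- A row. -/
noncomputable def sr2_c1_25 : List ℕ × List ℤ :=
  ([(nat_lit 2),(nat_lit 0),(nat_lit 0),(nat_lit 2),(nat_lit 0),(nat_lit 0),(nat_lit 0),(nat_lit 0),(nat_lit 0),(nat_lit 0),(nat_lit 0),(nat_lit 0)], [Int.negSucc (nat_lit 1297376059),Int.ofNat (nat_lit 1304142811),Int.negSucc (nat_lit 839488959),Int.ofNat (nat_lit 920051720),Int.ofNat (nat_lit 843050190),Int.ofNat (nat_lit 649825699),Int.ofNat (nat_lit 554502501),Int.negSucc (nat_lit 1178991872),Int.ofNat (nat_lit 835775751),Int.ofNat (nat_lit 5184357231),Int.negSucc (nat_lit 1396305539),Int.ofNat (nat_lit 2270310286),Int.negSucc (nat_lit 1582026667),Int.negSucc (nat_lit 5181491027),Int.ofNat (nat_lit 97302470),Int.negSucc (nat_lit 1842955482),Int.negSucc (nat_lit 772116149),Int.ofNat (nat_lit 710639610),Int.negSucc (nat_lit 380464168),Int.ofNat (nat_lit 103282012),Int.negSucc (nat_lit 73558360),Int.ofNat (nat_lit 598952123),Int.negSucc (nat_lit 1645361397),Int.negSucc (nat_lit 861427991),Int.negSucc (nat_lit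 1312716304),Int.negSucc (nat_lit 549135903),Int.ofNat (nat_lit 1404821373),Int.ofNat (nat_lit 638852396),Int.ofNat (nat_lit 896806188),Int.ofNat (nat_lit 316031473),Int.ofNat (nat_lit 3672911),Int.negSucc (nat_lit 62803946),Int.negSucc (nat_lit 630497457),Int.ofNat (nat_lit 98320486),Int.ofNat (nat_lit 1780758686),Int.ofNat (nat_lit 470022838),Int.ofNat (nat_lit 1103479247),Int.negSucc (nat_lit 1792737080),Int.negSucc (nat_lit 223030601),Int.negSucc (nat_lit 4311383433),Int.negSucc (nat_lit 137230418),Int.ofNat (nat_lit 134871212),Int.negSucc (nat_lit 38777670),Int.ofNat (nat_lit 187593694),Int.ofNat (nat_lit 128611891),Int.negSucc (nat_lit 296014070),Int.ofNat (nat_lit 49533764),Int.ofNat (nat_lit 51380912),Int.negSucc (nat_lit 226562308),Int.ofNat (nat_lit 148591654),Int.ofNat (nat_lit 156507843),Int.ofNat (nat_lit 16714654),Int.negSucc (nat_lit 161503148),Int.negSucc (nat_lit 328509933),Int.ofNat (nat_lit 415889424),Int.ofNat (nat_lit 737353385)])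

/-- A row. -/
noncomputable def sr2_c1_26 : List ℕ × List ℤ :=
  ([(nat_lit 2),(nat_lit 0),(nat_lit 1),(nat_lit 0),(nat_lit 0),(nat_lit 0),(nat_lit 0),(nat_lit 0),(nat_lit 0),(nat_lit 0),(nat_lit 0),(nat_lit 0)], [Int.negSucc (nat_lit 2997107208),Int.negSucc (nat_lit 5786722732),Int.ofNat (nat_lit 2265225114),Int.negSucc (nat_lit 4050297590),Int.negSucc (nat_lit 2459213860),Int.ofNat (nat_lit 7494302397),Int.ofNat (nat_lit 4975794225),Int.negSucc (nat_lit 252722351),Int.negSucc (nat_lit 1168808017),Int.ofNat (nat_lit 56866688),Int.negSucc (nat_lit 3647307504),Int.ofNat (nat_lit 5943055657),Int.ofNat (nat_lit 1420261769),Int.negSucc (nat_lit 870365139),Int.negSucc (nat_lit 3705956196),Int.negSucc (nat_lit 89571488),Int.negSucc (nat_lit 3263787786),Int.ofNat (nat_lit 714358296),Int.negSucc (nat_lit 2164247455),Int.negSucc (nat_lit 3193239533),Int.negSucc (nat_lit 3520364770),Int.negSucc (nat_lit 3328127670),Int.negSucc (nat_lit 788172457),Int.ofNat (nat_lit 120844536),Int.negSucc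 (nat_lit 2290338392),Int.negSucc (nat_lit 2459706260),Int.ofNat (nat_lit 3670201800),Int.ofNat (nat_lit 3280041060),Int.negSucc (nat_lit 110425371),Int.negSucc (nat_lit 992872627),Int.negSucc (nat_lit 140237198),Int.negSucc (nat_lit 414060834),Int.ofNat (nat_lit 570273871),Int.negSucc (nat_lit 1216979397),Int.negSucc (nat_lit 7484979025),Int.negSucc (nat_lit 10084021),Int.ofNat (nat_lit 6442615661),Int.negSucc (nat_lit 9872029166),Int.negSucc (nat_lit 2517653431),Int.negSucc (nat_lit 6682236053),Int.negSucc (nat_lit 6102957020),Int.negSucc (nat_lit 1662951578),Int.ofNat (nat_lit 2898610686),Int.negSucc (nat_lit 323668730),Int.ofNat (nat_lit 660466112),Int.ofNat (nat_lit 721154032),Int.negSucc (nat_lit 367292913),Int.negSucc (nat_lit 2018773590),Int.ofNat (nat_lit 658338958),Int.negSucc (nat_lit 1394677407),Int.negSucc (nat_lit 403729665),Int.ofNat (nat_lit 47808530),Int.ofNat (nat_lit 3608278651),Int.negSucc (nat_lit 219452892),Int.negSucc (nat_lit 18326883),Int.ofNat (nat_lit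 235904796),Int.ofNat (nat_lit 2073840067)])

/-- A row. -/
noncomputable def sr2_c1_27 : List ℕ × List ℤ :=
  ([(nat_lit 2),(nat_lit 0),(nat_lit 2),(nat_lit 0),(nat_lit 0),(nat_lit 0),(nat_lit 0),(nat_lit 0),(nat_lit 0),(nat_lit 0),(nat_lit 0),(nat_lit 0)], [Int.negSucc (nat_lit 2600160),Int.negSucc (nat_lit 2295978486),Int.ofNat (nat_lit 1063638353),Int.negSucc (nat_lit 1359008136),Int.negSucc (nat_lit 261708116),Int.ofNat (nat_lit 3626406339),Int.ofNat (nat_lit 3495172456),Int.negSucc (nat_lit 810805742),Int.negSucc (nat_lit 1021924362),Int.ofNat (nat_lit 541473907),Int.negSucc (nat_lit 1915079747),Int.ofNat (nat_lit 4113540485),Int.negSucc (nat_lit 182510157),Int.negSucc (nat_lit 3189922596),Int.negSucc (nat_lit 4572396911),Int.negSucc (nat_lit 3993653663),Int.negSucc (nat_lit 816920551),Int.negSucc (nat_lit 325954231),Int.negSucc (nat_lit 632682514),Int.negSucc (nat_lit 139993670),Int.negSucc (nat_lit 532534453),Int.negSucc (nat_lit 994015261),Int.negSucc (nat_lit 1214258523),Int.negSucc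 (nat_lit 378900767),Int.negSucc (nat_lit 927397153),Int.negSucc (nat_lit 35815765),Int.ofNat (nat_lit 1440859739),Int.ofNat (nat_lit 1735894708),Int.ofNat (nat_lit 1614235320),Int.negSucc (nat_lit 264255276),Int.ofNat (nat_lit 166593851),Int.ofNat (nat_lit 198424707),Int.negSucc (nat_lit 404168400),Int.negSucc (nat_lit 118859852),Int.ofNat (nat_lit 1345193329),Int.negSucc (nat_lit 228640636),Int.ofNat (nat_lit 809424104),Int.negSucc (nat_lit 2861833115),Int.negSucc (nat_lit 38951294),Int.negSucc (nat_lit 2835328708),Int.negSucc (nat_lit 3393815709),Int.negSucc (nat_lit 245398381),Int.negSucc (nat_lit 1655954752),Int.ofNat (nat_lit 207087254),Int.ofNat (nat_lit 180707111),Int.negSucc (nat_lit 137710064),Int.ofNat (nat_lit 91446061),Int.negSucc (nat_lit 100737519),Int.negSucc (nat_lit 77163922),Int.negSucc (nat_lit 75960488),Int.ofNat (nat_lit 127725430),Int.negSucc (nat_lit 1513691),Int.negSucc (nat_lit 97120533),Int.negSucc (nat_lit 296339510),Int.ofNat (nat_lit 362630810),Int.ofNat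 (nat_lit 417911702),Int.ofNat (nat_lit 285159646),Int.ofNat (nat_lit 496538715)])

/-- A row. -/
noncomputable def sr2_c1_28 : List ℕ × List ℤ :=
  ([(nat_lit 2),(nat_lit 1),(nat_lit 0),(nat_lit 0),(nat_lit 0),(nat_lit 1),(nat_lit 0),(nat_lit 0),(nat_lit 0),(nat_lit 0),(nat_lit 0),(nat_lit 0)], [Int.ofNat (nat_lit 1048211915),Int.ofNat (nat_lit 416632543),Int.ofNat (nat_lit 4668362844),Int.ofNat (nat_lit 1904615138),Int.ofNat (nat_lit 331420212),Int.ofNat (nat_lit 646079049),Int.negSucc (nat_lit 6870504665),Int.ofNat (nat_lit 329211574),Int.ofNat (nat_lit 5632308635),Int.ofNat (nat_lit 3571393946),Int.ofNat (nat_lit 2029991241),Int.negSucc (nat_lit 5014715499),Int.negSucc (nat_lit 425291346),Int.ofNat (nat_lit 2949102132),Int.ofNat (nat_lit 3307119027),Int.ofNat (nat_lit 2455871734),Int.ofNat (nat_lit 4098176173),Int.ofNat (nat_lit 4520664447),Int.ofNat (nat_lit 10916190215),Int.negSucc (nat_lit 921239652),Int.ofNat (nat_lit 2626501894),Int.negSucc (nat_lit 7292756667),Int.negSucc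 (nat_lit 144092514),Int.negSucc (nat_lit 86200674),Int.ofNat (nat_lit 1847857419),Int.negSucc (nat_lit 513228880),Int.negSucc (nat_lit 907606205),Int.negSucc (nat_lit 267098320),Int.negSucc (nat_lit 30338242),Int.ofNat (nat_lit 3320691200),Int.ofNat (nat_lit 331606976),Int.negSucc (nat_lit 48599782),Int.ofNat (nat_lit 167061687),Int.ofNat (nat_lit 359328968),Int.negSucc (nat_lit 2007675596),Int.negSucc (nat_lit 1512073221),Int.negSucc (nat_lit 860597374),Int.ofNat (nat_lit 1072482594),Int.negSucc (nat_lit 1105669304),Int.negSucc (nat_lit 107221368),Int.ofNat (nat_lit 1219550026),Int.ofNat (nat_lit 372454878),Int.ofNat (nat_lit 684601831),Int.negSucc (nat_lit 2116561269),Int.negSucc (nat_lit 4850504309),Int.ofNat (nat_lit 207583626),Int.ofNat (nat_lit 11082316),Int.ofNat (nat_lit 232920614),Int.negSucc (nat_lit 224479384),Int.ofNat (nat_lit 182842814),Int.negSucc (nat_lit 127318854),Int.ofNat (nat_lit 41303898),Int.ofNat (nat_lit 336257786),Int.ofNat (nat_lit 217238279),Int.negSucc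 (nat_lit 199242867),Int.ofNat (nat_lit 29808009),Int.negSucc (nat_lit 130597626),Int.negSucc (nat_lit 321728921),Int.ofNat (nat_lit 889977319)])

/-- A row. -/
noncomputable def sr2_c1_29 : List ℕ × List ℤ :=
  ([(nat_lit 2),(nat_lit 1),(nat_lit 0),(nat_lit 1),(nat_lit 0),(nat_lit 0),(nat_lit 0),(nat_lit 0),(nat_lit 0),(nat_lit 0),(nat_lit 0),(nat_lit 0)], [Int.ofNat (nat_lit 5371845502),Int.ofNat (nat_lit 11484321621),Int.ofNat (nat_lit 6026664751),Int.ofNat (nat_lit 5561366303),Int.ofNat (nat_lit 1134230416),Int.negSucc (nat_lit 3077210142),Int.ofNat (nat_lit 4797370844),Int.negSucc (nat_lit 4148584179),Int.negSucc (nat_lit 1425692628),Int.ofNat (nat_lit 2783458586),Int.negSucc (nat_lit 1501333350),Int.ofNat (nat_lit 1484424535),Int.negSucc (nat_lit 4268264023),Int.negSucc (nat_lit 8406417452),Int.ofNat (nat_lit 197207075),Int.ofNat (nat_lit 1520532406),Int.negSucc (nat_lit 9798253842),Int.negSucc (nat_lit 3718874122),Int.ofNat (nat_lit 5534133279),Int.ofNat (nat_lit 18458290656),Int.ofNat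 (nat_lit 5726439125),Int.negSucc (nat_lit 653179961),Int.negSucc (nat_lit 21735874735),Int.negSucc (nat_lit 3686046396),Int.negSucc (nat_lit 598843881),Int.ofNat (nat_lit 2645142453),Int.ofNat (nat_lit 7909224263),Int.negSucc (nat_lit 7321303507),Int.negSucc (nat_lit 1502410287),Int.ofNat (nat_lit 1792025093),Int.ofNat (nat_lit 8293461131),Int.negSucc (nat_lit 3206096393),Int.ofNat (nat_lit 7536463135),Int.ofNat (nat_lit 789597981),Int.negSucc (nat_lit 2811614790),Int.negSucc (nat_lit 698273739),Int.negSucc (nat_lit 3832008284),Int.ofNat (nat_lit 5394859918),Int.ofNat (nat_lit 7583528131),Int.ofNat (nat_lit 8871465073),Int.ofNat (nat_lit 3834341627),Int.ofNat (nat_lit 1142445868),Int.ofNat (nat_lit 186434384),Int.ofNat (nat_lit 6921352891),Int.negSucc (nat_lit 5973806802),Int.negSucc (nat_lit 28202892758),Int.ofNat (nat_lit 3911009035),Int.ofNat (nat_lit 208947752),Int.negSucc (nat_lit 374089603),Int.ofNat (nat_lit 200465567),Int.negSucc (nat_lit 2962838071),Int.ofNat (nat_lit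 359953943),Int.negSucc (nat_lit 2046811841),Int.negSucc (nat_lit 330243893),Int.ofNat (nat_lit 276926829),Int.negSucc (nat_lit 1741499379),Int.negSucc (nat_lit 716212282),Int.negSucc (nat_lit 1339369508),Int.ofNat (nat_lit 401883185),Int.ofNat (nat_lit 4443780214)])

/-- A part of a triangular factor. -/
noncomputable def sr2_c1 : Rows :=
  [sr2_c1_0,
   sr2_c1_1,
   sr2_c1_2,
   sr2_c1_3,
   sr2_c1_4,
   sr2_c1_5,
   sr2_c1_6,
   sr2_c1_7,
   sr2_c1_8,
   sr2_c1_9,
   sr2_c1_10,
   sr2_c1_11,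
   sr2_c1_12,
   sr2_c1_13,
   sr2_c1_14,
   sr2_c1_15,
   sr2_c1_16,
   sr2_c1_17,
   sr2_c1_18,
   sr2_c1_19,
   sr2_c1_20,
   sr2_c1_21,
   sr2_c1_22,
   sr2_c1_23,
   sr2_c1_24,
   sr2_c1_25,
   sr2_c1_26,
   sr2_c1_27,
   sr2_c1_28,
   sr2_c1_29]

/-- A row. -/
noncomputable def sr2_c2_0 : List ℕ × List ℤ :=
  ([(nat_lit 2),(nat_lit 2),(nat_lit 0),(nat_lit 0),(nat_lit 0),(nat_lit 0),(nat_lit 0),(nat_lit 0),(nat_lit 0),(nat_lit 0),(nat_lit 0),(nat_lit 0)], [Int.negSucc (nat_lit 16951939860),Int.negSucc (nat_lit 5197751536),Int.ofNat (nat_lit 6056864441),Int.negSucc (nat_lit 8095583940),Int.negSucc (nat_lit 15191181875),Int.negSucc (nat_lit 15242716639),Int.negSucc (nat_lit 6483013628),Int.ofNat (nat_lit 9219856555),Int.negSucc (nat_lit 1799504213),Int.negSucc (nat_lit 5012033306),Int.ofNat (nat_lit 9785974677),Int.negSucc (nat_lit 8337786498),Int.ofNat (nat_lit 6550242630),Int.ofNat (nat_lit 11704785868),Int.negSucc (nat_lit 3522969491),Int.negSucc (nat_lit 4531034101),Int.ofNat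 (nat_lit 8628802876),Int.negSucc (nat_lit 2883287996),Int.negSucc (nat_lit 11232394285),Int.ofNat (nat_lit 12631356074),Int.ofNat (nat_lit 15003844461),Int.negSucc (nat_lit 1683215368),Int.ofNat (nat_lit 14825011771),Int.ofNat (nat_lit 12457897014),Int.negSucc (nat_lit 12353562585),Int.ofNat (nat_lit 10800279979),Int.ofNat (nat_lit 2274760487),Int.negSucc (nat_lit 11103910905),Int.ofNat (nat_lit 4699019547),Int.negSucc (nat_lit 10066644164),Int.negSucc (nat_lit 8640314256),Int.ofNat (nat_lit 17647702594),Int.ofNat (nat_lit 3117580159),Int.negSucc (nat_lit 16006883101),Int.ofNat (nat_lit 17011546174),Int.negSucc (nat_lit 2335915003),Int.negSucc (nat_lit 5320993330),Int.ofNat (nat_lit 5155376185),Int.negSucc (nat_lit 11726005429),Int.negSucc (nat_lit 13378580996),Int.negSucc (nat_lit 20899403086),Int.negSucc (nat_lit 1462781539),Int.ofNat (nat_lit 3909503030),Int.negSucc (nat_lit 2237687829),Int.ofNat (nat_lit 9481219935),Int.ofNat (nat_lit 13599356435),Int.negSucc (nat_lit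 6153503246),Int.negSucc (nat_lit 42132940674),Int.negSucc (nat_lit 9001869653),Int.ofNat (nat_lit 7833855530),Int.ofNat (nat_lit 516995968),Int.negSucc (nat_lit 7967314735),Int.negSucc (nat_lit 2787157673),Int.ofNat (nat_lit 1817211510),Int.negSucc (nat_lit 3894804813),Int.ofNat (nat_lit 3675924201),Int.ofNat (nat_lit 9873675782),Int.negSucc (nat_lit 16610926),Int.negSucc (nat_lit 2559690464),Int.negSucc (nat_lit 1915704312),Int.ofNat (nat_lit 13118667954)])

/-- A row. -/
noncomputable def sr2_c2_1 : List ℕ × List ℤ :=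
  ([(nat_lit 2),(nat_lit 2),(nat_lit 1),(nat_lit 0),(nat_lit 0),(nat_lit 0),(nat_lit 0),(nat_lit 0),(nat_lit 0),(nat_lit 0),(nat_lit 0),(nat_lit 0)], [Int.negSucc (nat_lit 3888451364),Int.ofNat (nat_lit 2054684742),Int.ofNat (nat_lit 3889088455),Int.ofNat (nat_lit 2219807082),Int.negSucc (nat_lit 9089220867),Int.negSucc (nat_lit 12397357255),Int.negSucc (nat_lit 1070621740),Int.ofNat (nat_lit 8244770448),Int.negSucc (nat_lit 3208814176),Int.ofNat (nat_lit 1370827463),Int.ofNat (nat_lit 5021465389),Int.negSucc (nat_lit 6732864351),Int.ofNat (nat_lit 4969931159),Int.negSucc (nat_lit 2027609381),Int.negSucc (nat_lit 1090407445),Int.negSucc (nat_lit 6755246379),Int.negSucc (nat_lit 4368775144),Int.negSucc (nat_lit 6921721383),Int.negSucc (nat_lit 3579977853),Int.ofNat (nat_lit 12734642948),Int.ofNat (nat_lit 11397086459),Int.ofNat (nat_lit 7372315971),Int.ofNat (nat_lit 14800788781),Int.ofNat (nat_lit 3489224775),Int.negSucc (nat_lit 8301747928),Int.ofNat (nat_lit 11290889025),Int.ofNat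 (nat_lit 5842489965),Int.negSucc (nat_lit 11441012556),Int.negSucc (nat_lit 17663539292),Int.negSucc (nat_lit 4164415600),Int.negSucc (nat_lit 3154779778),Int.ofNat (nat_lit 8856294895),Int.ofNat (nat_lit 9890132978),Int.negSucc (nat_lit 2075488983),Int.ofNat (nat_lit 4580348846),Int.ofNat (nat_lit 1291897379),Int.negSucc (nat_lit 3790316228),Int.ofNat (nat_lit 1648020285),Int.negSucc (nat_lit 748750828),Int.negSucc (nat_lit 1166059333),Int.negSucc (nat_lit 3663757549),Int.ofNat (nat_lit 2364888627),Int.negSucc (nat_lit 6495085805),Int.ofNat (nat_lit 7979359570),Int.ofNat (nat_lit 3818380196),Int.negSucc (nat_lit 5503234449),Int.negSucc (nat_lit 4467595989),Int.negSucc (nat_lit 19780034256),Int.ofNat (nat_lit 1580053063),Int.negSucc (nat_lit 17278016602),Int.negSucc (nat_lit 526655648),Int.negSucc (nat_lit 154875215),Int.ofNat (nat_lit 65108518),Int.ofNat (nat_lit 673638042),Int.ofNat (nat_lit 534847397),Int.ofNat (nat_lit 613546900),Int.ofNat (nat_lit 444232229),Int.ofNat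 (nat_lit 1099022369),Int.negSucc (nat_lit 784593847),Int.ofNat (nat_lit 844534207),Int.ofNat (nat_lit 1423049835),Int.ofNat (nat_lit 4096769449)])

/-- A row. -/
noncomputable def sr2_c2_2 : List ℕ × List ℤ :=
  ([(nat_lit 2),(nat_lit 4),(nat_lit 0),(nat_lit 0),(nat_lit 0),(nat_lit 0),(nat_lit 0),(nat_lit 0),(nat_lit 0),(nat_lit 0),(nat_lit 0),(nat_lit 0)], [Int.negSucc (nat_lit 1636292402),Int.negSucc (nat_lit 8622299854),Int.negSucc (nat_lit 8395239423),Int.ofNat (nat_lit 17120424262),Int.ofNat (nat_lit 15595370626),Int.ofNat (nat_lit 4926005911),Int.ofNat (nat_lit 336835336),Int.ofNat (nat_lit 9866092776),Int.negSucc (nat_lit 968801046),Int.negSucc (nat_lit 8858510306),Int.negSucc (nat_lit 7714572419),Int.ofNat (nat_lit 9027704693),Int.ofNat (nat_lit 2427096943),Int.ofNat (nat_lit 2952129468),Int.ofNat (nat_lit 7938537034),Int.negSucc (nat_lit 5434453431),Int.negSucc (nat_lit 12553195803),Int.ofNat (nat_lit 6758622666),Int.ofNat (nat_lit 7095694673),Int.negSucc (nat_lit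 18300417972),Int.negSucc (nat_lit 23935997438),Int.ofNat (nat_lit 19502936664),Int.ofNat (nat_lit 21028864595),Int.negSucc (nat_lit 8706714354),Int.ofNat (nat_lit 1060747659),Int.ofNat (nat_lit 9348238376),Int.ofNat (nat_lit 7491378668),Int.ofNat (nat_lit 19372927087),Int.negSucc (nat_lit 32479574760),Int.ofNat (nat_lit 20851523230),Int.ofNat (nat_lit 26330122806),Int.negSucc (nat_lit 25585805965),Int.negSucc (nat_lit 8794655491),Int.ofNat (nat_lit 25119253036),Int.negSucc (nat_lit 14308655288),Int.ofNat (nat_lit 8907376924),Int.ofNat (nat_lit 87444989),Int.ofNat (nat_lit 3240578778),Int.ofNat (nat_lit 18686195013),Int.ofNat (nat_lit 26793446940),Int.ofNat (nat_lit 11497853932),Int.ofNat (nat_lit 3476721427),Int.negSucc (nat_lit 5294680152),Int.ofNat (nat_lit 17632312713),Int.negSucc (nat_lit 4730247357),Int.negSucc (nat_lit 2886259535),Int.negSucc (nat_lit 520151640),Int.ofNat (nat_lit 33386745014),Int.ofNat (nat_lit 20819720347),Int.negSucc (nat_lit 35753845479),Int.negSucc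 (nat_lit 18435240135),Int.negSucc (nat_lit 37741662707),Int.ofNat (nat_lit 2210061944),Int.negSucc (nat_lit 2589111512),Int.negSucc (nat_lit 1716151476),Int.negSucc (nat_lit 8305791250),Int.ofNat (nat_lit 1572828486),Int.negSucc (nat_lit 779229660),Int.ofNat (nat_lit 2407670709),Int.negSucc (nat_lit 483155606),Int.negSucc (nat_lit 757485015),Int.ofNat (nat_lit 2141584353),Int.ofNat (nat_lit 16143080327)])

/-- A row. -/
noncomputable def sr2_c2_3 : List ℕ × List ℤ :=
  ([(nat_lit 3),(nat_lit 0),(nat_lit 0),(nat_lit 0),(nat_lit 0),(nat_lit 0),(nat_lit 0),(nat_lit 0),(nat_lit 0),(nat_lit 0),(nat_lit 0),(nat_lit 0)], [Int.ofNat (nat_lit 10647614305),Int.ofNat (nat_lit 1668615478),Int.ofNat (nat_lit 3917263479),Int.ofNat (nat_lit 51763250),Int.ofNat (nat_lit 6550107742),Int.ofNat (nat_lit 6999009267),Int.ofNat (nat_lit 2497563400),Int.ofNat (nat_lit 2587108282),Int.negSucc (nat_lit 34541839),Int.ofNat (nat_lit 4296075023),Int.negSucc (nat_lit 166614842),Int.ofNat (nat_lit 454594353),Int.negSucc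 (nat_lit 1568386179),Int.negSucc (nat_lit 1665337459),Int.negSucc (nat_lit 1512317551),Int.negSucc (nat_lit 6915715838),Int.ofNat (nat_lit 3028736019),Int.negSucc (nat_lit 1902419977),Int.ofNat (nat_lit 1734125127),Int.ofNat (nat_lit 3272094329),Int.ofNat (nat_lit 5065390612),Int.ofNat (nat_lit 2987479136),Int.negSucc (nat_lit 1955103833),Int.ofNat (nat_lit 2152575792),Int.negSucc (nat_lit 281989205),Int.ofNat (nat_lit 4834152866),Int.negSucc (nat_lit 1490214126),Int.negSucc (nat_lit 277014296),Int.ofNat (nat_lit 4668946012),Int.ofNat (nat_lit 1459488774),Int.ofNat (nat_lit 855039431),Int.ofNat (nat_lit 1099038549),Int.negSucc (nat_lit 1208333166),Int.ofNat (nat_lit 703482982),Int.ofNat (nat_lit 12770029424),Int.negSucc (nat_lit 1877038190),Int.negSucc (nat_lit 8398370876),Int.ofNat (nat_lit 11045449335),Int.ofNat (nat_lit 5894820783),Int.ofNat (nat_lit 3160299954),Int.negSucc (nat_lit 5250234290),Int.ofNat (nat_lit 2102005898),Int.negSucc (nat_lit 3434945799),Int.ofNat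 (nat_lit 2060044991),Int.negSucc (nat_lit 796681495),Int.negSucc (nat_lit 1830210305),Int.ofNat (nat_lit 1120706155),Int.ofNat (nat_lit 5441715295),Int.negSucc (nat_lit 901903292),Int.ofNat (nat_lit 2889822867),Int.ofNat (nat_lit 658444915),Int.negSucc (nat_lit 767924347),Int.negSucc (nat_lit 13805458808),Int.ofNat (nat_lit 1168777003),Int.negSucc (nat_lit 1621344307),Int.negSucc (nat_lit 787894678),Int.ofNat (nat_lit 518272775),Int.ofNat (nat_lit 115665449),Int.ofNat (nat_lit 42846169),Int.ofNat (nat_lit 299083739),Int.negSucc (nat_lit 1231719482),Int.negSucc (nat_lit 488625307),Int.negSucc (nat_lit 214808732),Int.ofNat (nat_lit 2414156839)])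

/-- A row. -/
noncomputable def sr2_c2_4 : List ℕ × List ℤ :=
  ([(nat_lit 3),(nat_lit 0),(nat_lit 0),(nat_lit 0),(nat_lit 1),(nat_lit 0),(nat_lit 0),(nat_lit 0),(nat_lit 0),(nat_lit 0),(nat_lit 0),(nat_lit 0)], [Int.negSucc (nat_lit 582391621),Int.ofNat (nat_lit 4273975674),Int.negSucc (nat_lit 3689363806),Int.negSucc (nat_lit 2197151814),Int.ofNat (nat_lit 2622109612),Int.negSucc (nat_lit 1636569357),Int.ofNat (nat_lit 1098711875),Int.ofNat (nat_lit 1779200030),Int.ofNat (nat_lit 3165051854),Int.ofNat (nat_lit 100277530),Int.negSucc (nat_lit 3889575837),Int.ofNat (nat_lit 1388900203),Int.ofNat (nat_lit 5348831534),Int.ofNat (nat_lit 1117035403),Int.negSucc (nat_lit 611792547),Int.ofNat (nat_lit 1438336463),Int.ofNat (nat_lit 980660635),Int.ofNat (nat_lit 76338824),Int.ofNat (nat_lit 1692037372),Int.negSucc (nat_lit 1035694687),Int.negSucc (nat_lit 2321928385),Int.negSucc (nat_lit 1340458365),Int.ofNat (nat_lit 1293495428),Int.ofNat (nat_lit 873988145),Int.ofNat (nat_lit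 84015891),Int.negSucc (nat_lit 1375779320),Int.negSucc (nat_lit 461057314),Int.negSucc (nat_lit 1377285604),Int.negSucc (nat_lit 1788523050),Int.ofNat (nat_lit 389935303),Int.ofNat (nat_lit 248218488),Int.ofNat (nat_lit 3303525),Int.ofNat (nat_lit 689599801),Int.negSucc (nat_lit 242755969),Int.negSucc (nat_lit 5158440464),Int.negSucc (nat_lit 673525241),Int.ofNat (nat_lit 1745844847),Int.ofNat (nat_lit 6576403446),Int.negSucc (nat_lit 688294687),Int.negSucc (nat_lit 1015442025),Int.ofNat (nat_lit 527353059),Int.negSucc (nat_lit 1997526126),Int.negSucc (nat_lit 410071560),Int.negSucc (nat_lit 264271397),Int.negSucc (nat_lit 182475734),Int.ofNat (nat_lit 942225054),Int.negSucc (nat_lit 114302270),Int.negSucc (nat_lit 151794681),Int.ofNat (nat_lit 550790671),Int.negSucc (nat_lit 214315737),Int.negSucc (nat_lit 421810016),Int.negSucc (nat_lit 39308411),Int.ofNat (nat_lit 627447569),Int.ofNat (nat_lit 537291051),Int.negSucc (nat_lit 2000769652),Int.ofNat (nat_lit 205934903),Int.ofNat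 (nat_lit 46220324),Int.ofNat (nat_lit 90562155),Int.negSucc (nat_lit 39495707),Int.negSucc (nat_lit 63854649),Int.ofNat (nat_lit 68622798),Int.ofNat (nat_lit 19550212),Int.ofNat (nat_lit 123629084),Int.ofNat (nat_lit 1255465),Int.ofNat (nat_lit 272249584)])

/-- A row. -/
noncomputable def sr2_c2_5 : List ℕ × List ℤ :=
  ([(nat_lit 3),(nat_lit 0),(nat_lit 1),(nat_lit 0),(nat_lit 0),(nat_lit 0),(nat_lit 0),(nat_lit 0),(nat_lit 0),(nat_lit 0),(nat_lit 0),(nat_lit 0)], [Int.ofNat (nat_lit 13914878183),Int.ofNat (nat_lit 3070000660),Int.ofNat (nat_lit 1646709093),Int.negSucc (nat_lit 3435822151),Int.ofNat (nat_lit 1613282382),Int.ofNat (nat_lit 7290434002),Int.ofNat (nat_lit 1513021005),Int.negSucc (nat_lit 617355846),Int.ofNat (nat_lit 5145400706),Int.ofNat (nat_lit 2889872129),Int.ofNat (nat_lit 2247461941),Int.negSucc (nat_lit 1434244679),Int.ofNat (nat_lit 2575430921),Int.negSucc (nat_lit 1316277271),Int.negSucc (nat_lit 4657764179),Int.negSucc (nat_lit 5286055122),Int.ofNat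 (nat_lit 3265480707),Int.negSucc (nat_lit 2124726953),Int.ofNat (nat_lit 4144448634),Int.ofNat (nat_lit 2202516216),Int.ofNat (nat_lit 2509922581),Int.ofNat (nat_lit 1786962503),Int.negSucc (nat_lit 899587307),Int.ofNat (nat_lit 2674095695),Int.ofNat (nat_lit 1394033755),Int.ofNat (nat_lit 3332411982),Int.negSucc (nat_lit 2598163192),Int.negSucc (nat_lit 771608197),Int.ofNat (nat_lit 3070548863),Int.ofNat (nat_lit 2268350660),Int.ofNat (nat_lit 1323725145),Int.ofNat (nat_lit 1776359807),Int.negSucc (nat_lit 803900501),Int.ofNat (nat_lit 2041476181),Int.ofNat (nat_lit 5838211412),Int.negSucc (nat_lit 3243801427),Int.negSucc (nat_lit 8230589455),Int.ofNat (nat_lit 15773198846),Int.ofNat (nat_lit 5135242116),Int.ofNat (nat_lit 3898083475),Int.negSucc (nat_lit 742074594),Int.ofNat (nat_lit 2267458568),Int.negSucc (nat_lit 9441260276),Int.ofNat (nat_lit 804715241),Int.negSucc (nat_lit 1897718452),Int.negSucc (nat_lit 1241418287),Int.ofNat (nat_lit 1747737878),Int.ofNat (nat_lit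 4213685072),Int.negSucc (nat_lit 1017035198),Int.ofNat (nat_lit 2876859631),Int.ofNat (nat_lit 597245212),Int.negSucc (nat_lit 272623673),Int.negSucc (nat_lit 9626440036),Int.ofNat (nat_lit 1666794861),Int.negSucc (nat_lit 1211671826),Int.negSucc (nat_lit 618111389),Int.negSucc (nat_lit 5500997026),Int.ofNat (nat_lit 1193625361),Int.ofNat (nat_lit 297792786),Int.ofNat (nat_lit 146541211),Int.negSucc (nat_lit 740925871),Int.negSucc (nat_lit 614819386),Int.negSucc (nat_lit 310186569),Int.ofNat (nat_lit 352827620),Int.negSucc (nat_lit 432240946),Int.ofNat (nat_lit 1099055864)])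

/-- A row. -/
noncomputable def sr2_c2_6 : List ℕ × List ℤ :=
  ([(nat_lit 3),(nat_lit 1),(nat_lit 0),(nat_lit 1),(nat_lit 0),(nat_lit 0),(nat_lit 0),(nat_lit 0),(nat_lit 0),(nat_lit 0),(nat_lit 0),(nat_lit 0)], [Int.negSucc (nat_lit 4202433302),Int.negSucc (nat_lit 15864159061),Int.negSucc (nat_lit 2250929197),Int.negSucc (nat_lit 10279500679),Int.negSucc (nat_lit 5553959519),Int.ofNat (nat_lit 2363298802),Int.negSucc (nat_lit 1662730892),Int.ofNat (nat_lit 5440566141),Int.negSucc (nat_lit 9126704009),Int.negSucc (nat_lit 7764760685),Int.ofNat (nat_lit 2101004324),Int.negSucc (nat_lit 3964639089),Int.ofNat (nat_lit 6999210229),Int.ofNat (nat_lit 19964759993),Int.negSucc (nat_lit 4858409268),Int.ofNat (nat_lit 935656259),Int.ofNat (nat_lit 9426404413),Int.negSucc (nat_lit 3499373977),Int.negSucc (nat_lit 7550618818),Int.negSucc (nat_lit 886297789),Int.ofNat (nat_lit 161831352),Int.ofNat (nat_lit 3989254449),Int.ofNat (nat_lit 23173138292),Int.ofNat (nat_lit 4180301594),Int.ofNat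 (nat_lit 1272852021),Int.ofNat (nat_lit 201675150),Int.negSucc (nat_lit 8158543385),Int.ofNat (nat_lit 4312220011),Int.negSucc (nat_lit 1261861957),Int.negSucc (nat_lit 3648717470),Int.negSucc (nat_lit 4542255268),Int.ofNat (nat_lit 2371887829),Int.negSucc (nat_lit 3948592393),Int.negSucc (nat_lit 983477767),Int.negSucc (nat_lit 954903073),Int.negSucc (nat_lit 1096683185),Int.ofNat (nat_lit 3432646329),Int.ofNat (nat_lit 45570976),Int.negSucc (nat_lit 3180328416),Int.ofNat (nat_lit 5558911018),Int.negSucc (nat_lit 3796564991),Int.negSucc (nat_lit 3141287736),Int.negSucc (nat_lit 554750776),Int.negSucc (nat_lit 3481434390),Int.ofNat (nat_lit 7194799311),Int.ofNat (nat_lit 22595058846),Int.negSucc (nat_lit 7146780282),Int.negSucc (nat_lit 399632979),Int.ofNat (nat_lit 1678030696),Int.negSucc (nat_lit 1491471687),Int.ofNat (nat_lit 2665703682),Int.negSucc (nat_lit 675118115),Int.ofNat (nat_lit 3426470645),Int.ofNat (nat_lit 908842913),Int.negSucc (nat_lit 2377553944),Int.negSucc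 (nat_lit 1156801314),Int.ofNat (nat_lit 1631707035),Int.ofNat (nat_lit 2735183572),Int.negSucc (nat_lit 1884158912),Int.negSucc (nat_lit 6803030297),Int.negSucc (nat_lit 101679573),Int.negSucc (nat_lit 44746463),Int.ofNat (nat_lit 215550548),Int.negSucc (nat_lit 367930553),Int.ofNat (nat_lit 643416957),Int.negSucc (nat_lit 211107459),Int.ofNat (nat_lit 1076091861)])

/-- A row. -/
noncomputable def sr2_c2_7 : List ℕ × List ℤ :=
  ([(nat_lit 3),(nat_lit 2),(nat_lit 0),(nat_lit 0),(nat_lit 0),(nat_lit 0),(nat_lit 0),(nat_lit 0),(nat_lit 0),(nat_lit 0),(nat_lit 0),(nat_lit 0)], [Int.ofNat (nat_lit 7413081574),Int.ofNat (nat_lit 3207148506),Int.negSucc (nat_lit 23127605539),Int.ofNat (nat_lit 3839135286),Int.negSucc (nat_lit 12547367466),Int.ofNat (nat_lit 2725177131),Int.negSucc (nat_lit 13354144833),Int.negSucc (nat_lit 17099755746),Int.ofNat (nat_lit 14060079162),Int.negSucc (nat_lit 6917742473),Int.ofNat (nat_lit 14658631964),Int.negSucc (nat_lit 2350240490),Int.ofNat (nat_lit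 3312971862),Int.negSucc (nat_lit 8453209425),Int.negSucc (nat_lit 7484398903),Int.ofNat (nat_lit 1881827304),Int.ofNat (nat_lit 5855659591),Int.ofNat (nat_lit 4798204552),Int.negSucc (nat_lit 399440831),Int.negSucc (nat_lit 10992718788),Int.negSucc (nat_lit 6974479803),Int.negSucc (nat_lit 4332582575),Int.ofNat (nat_lit 9779064893),Int.ofNat (nat_lit 17713717255),Int.ofNat (nat_lit 1376625589),Int.negSucc (nat_lit 5331381776),Int.ofNat (nat_lit 1502761082),Int.ofNat (nat_lit 5819946976),Int.negSucc (nat_lit 14090919215),Int.ofNat (nat_lit 2010669381),Int.ofNat (nat_lit 4599789716),Int.ofNat (nat_lit 13089352359),Int.negSucc (nat_lit 11155142701),Int.ofNat (nat_lit 22524085231),Int.negSucc (nat_lit 9612942710),Int.ofNat (nat_lit 3433448400),Int.ofNat (nat_lit 1304317994),Int.negSucc (nat_lit 6779167588),Int.negSucc (nat_lit 6104718404),Int.negSucc (nat_lit 3524486525),Int.ofNat (nat_lit 17308275607),Int.ofNat (nat_lit 5269590518),Int.negSucc (nat_lit 21175443860),Int.negSucc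 (nat_lit 7446249668),Int.negSucc (nat_lit 3283415236),Int.ofNat (nat_lit 11076226878),Int.ofNat (nat_lit 1948494555),Int.ofNat (nat_lit 11359035324),Int.ofNat (nat_lit 13628370415),Int.negSucc (nat_lit 25085446230),Int.ofNat (nat_lit 6242859029),Int.ofNat (nat_lit 17300909007),Int.ofNat (nat_lit 12004126698),Int.negSucc (nat_lit 961670580),Int.ofNat (nat_lit 14000069850),Int.ofNat (nat_lit 1113299157),Int.negSucc (nat_lit 32504972775),Int.ofNat (nat_lit 6017800380),Int.ofNat (nat_lit 6602027361),Int.negSucc (nat_lit 6368326915),Int.negSucc (nat_lit 36287291672),Int.ofNat (nat_lit 6556505966),Int.negSucc (nat_lit 9163410063),Int.ofNat (nat_lit 1119584154),Int.negSucc (nat_lit 2929267844),Int.ofNat (nat_lit 2963931974),Int.ofNat (nat_lit 854736052),Int.ofNat (nat_lit 7327406571)])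

/-- A row. -/
noncomputable def sr2_c2_8 : List ℕ × List ℤ :=
  ([(nat_lit 4),(nat_lit 0),(nat_lit 0),(nat_lit 0),(nat_lit 0),(nat_lit 0),(nat_lit 0),(nat_lit 0),(nat_lit 0),(nat_lit 0),(nat_lit 0),(nat_lit 0)], [Int.negSucc (nat_lit 15223503076),Int.negSucc (nat_lit 5294939871),Int.ofNat (nat_lit 2848263693),Int.ofNat (nat_lit 3082392553),Int.negSucc (nat_lit 6025611929),Int.negSucc (nat_lit 11045227226),Int.negSucc (nat_lit 8669344818),Int.ofNat (nat_lit 2756573906),Int.negSucc (nat_lit 6783379992),Int.negSucc (nat_lit 3005464792),Int.ofNat (nat_lit 7265400369),Int.negSucc (nat_lit 4281218734),Int.negSucc (nat_lit 3294179414),Int.ofNat (nat_lit 6793245469),Int.ofNat (nat_lit 9078787137),Int.ofNat (nat_lit 6198657605),Int.negSucc (nat_lit 450314056),Int.ofNat (nat_lit 2861715337),Int.negSucc (nat_lit 3424062645),Int.ofNat (nat_lit 902380892),Int.ofNat (nat_lit 1047788877),Int.negSucc (nat_lit 132975564),Int.ofNat (nat_lit 4405516674),Int.negSucc (nat_lit 3564076904),Int.negSucc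 (nat_lit 73055881),Int.negSucc (nat_lit 1648097967),Int.ofNat (nat_lit 259397139),Int.ofNat (nat_lit 1795773139),Int.negSucc (nat_lit 4447562770),Int.negSucc (nat_lit 2921653112),Int.negSucc (nat_lit 1484860731),Int.negSucc (nat_lit 1540119518),Int.ofNat (nat_lit 1040516054),Int.negSucc (nat_lit 1105307639),Int.ofNat (nat_lit 3876973883),Int.ofNat (nat_lit 2308800315),Int.ofNat (nat_lit 4659628528),Int.negSucc (nat_lit 7812841744),Int.negSucc (nat_lit 4379253657),Int.ofNat (nat_lit 670856089),Int.ofNat (nat_lit 2281835296),Int.negSucc (nat_lit 215915651),Int.ofNat (nat_lit 8283074877),Int.negSucc (nat_lit 1688168042),Int.ofNat (nat_lit 1811554737),Int.ofNat (nat_lit 1511683741),Int.negSucc (nat_lit 2421919819),Int.ofNat (nat_lit 30240754),Int.ofNat (nat_lit 1741577981),Int.negSucc (nat_lit 4409609264),Int.ofNat (nat_lit 551826379),Int.ofNat (nat_lit 2757159538),Int.ofNat (nat_lit 10599234558),Int.negSucc (nat_lit 1285953550),Int.ofNat (nat_lit 3190723085),Int.ofNat (nat_lit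 225363491),Int.negSucc (nat_lit 1974172631),Int.ofNat (nat_lit 276758822),Int.negSucc (nat_lit 205599941),Int.negSucc (nat_lit 706002917),Int.ofNat (nat_lit 2744670508),Int.ofNat (nat_lit 49085759),Int.ofNat (nat_lit 697999151),Int.negSucc (nat_lit 9433554743),Int.negSucc (nat_lit 818437408),Int.ofNat (nat_lit 1431551645),Int.ofNat (nat_lit 150428111),Int.negSucc (nat_lit 1743651336),Int.ofNat (nat_lit 1343553931)])

/-- A row. -/
noncomputable def sr2_c2_9 : List ℕ × List ℤ :=
  ([(nat_lit 4),(nat_lit 0),(nat_lit 1),(nat_lit 0),(nat_lit 0),(nat_lit 0),(nat_lit 0),(nat_lit 0),(nat_lit 0),(nat_lit 0),(nat_lit 0),(nat_lit 0)], [Int.negSucc (nat_lit 6333375831),Int.negSucc (nat_lit 1386253597),Int.negSucc (nat_lit 354931887),Int.ofNat (nat_lit 3451884090),Int.negSucc (nat_lit 3625176484),Int.negSucc (nat_lit 9057548043),Int.negSucc (nat_lit 7200851618),Int.ofNat (nat_lit 722276745),Int.negSucc (nat_lit 3521931715),Int.negSucc (nat_lit 1146726107),Int.ofNat (nat_lit 4868123949),Int.negSucc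 (nat_lit 7392486061),Int.negSucc (nat_lit 2548745621),Int.ofNat (nat_lit 5214256410),Int.ofNat (nat_lit 9863385194),Int.ofNat (nat_lit 6777697799),Int.negSucc (nat_lit 923496985),Int.ofNat (nat_lit 1781360965),Int.negSucc (nat_lit 2142789171),Int.ofNat (nat_lit 269415475),Int.ofNat (nat_lit 440309399),Int.ofNat (nat_lit 794468357),Int.ofNat (nat_lit 1927206186),Int.negSucc (nat_lit 1648536538),Int.ofNat (nat_lit 590988797),Int.negSucc (nat_lit 1895777471),Int.negSucc (nat_lit 511828089),Int.negSucc (nat_lit 1340817501),Int.negSucc (nat_lit 2876882542),Int.negSucc (nat_lit 1319320451),Int.negSucc (nat_lit 1287736651),Int.negSucc (nat_lit 1285368361),Int.ofNat (nat_lit 644256569),Int.negSucc (nat_lit 1111489938),Int.negSucc (nat_lit 1602334434),Int.ofNat (nat_lit 1956421083),Int.ofNat (nat_lit 2499112131),Int.negSucc (nat_lit 6716866466),Int.negSucc (nat_lit 2653296340),Int.ofNat (nat_lit 2084732765),Int.ofNat (nat_lit 5701824670),Int.ofNat (nat_lit 662973803),Int.ofNat (nat_lit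 7818703188),Int.negSucc (nat_lit 886192135),Int.ofNat (nat_lit 1140985967),Int.ofNat (nat_lit 650964444),Int.negSucc (nat_lit 1777776366),Int.negSucc (nat_lit 1920895823),Int.ofNat (nat_lit 565740721),Int.negSucc (nat_lit 1122045852),Int.negSucc (nat_lit 269923163),Int.ofNat (nat_lit 334655568),Int.ofNat (nat_lit 6382979210),Int.negSucc (nat_lit 981703415),Int.ofNat (nat_lit 1255670938),Int.negSucc (nat_lit 272467051),Int.ofNat (nat_lit 3264831272),Int.negSucc (nat_lit 2259580978),Int.negSucc (nat_lit 450416164),Int.negSucc (nat_lit 232737407),Int.ofNat (nat_lit 834410838),Int.ofNat (nat_lit 468508700),Int.ofNat (nat_lit 240433375),Int.negSucc (nat_lit 473300485),Int.ofNat (nat_lit 349068152),Int.negSucc (nat_lit 1516442893),Int.negSucc (nat_lit 12304653),Int.negSucc (nat_lit 83916269),Int.ofNat (nat_lit 9428836),Int.ofNat (nat_lit 192374176)])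

/-- A row. -/
noncomputable def sr2_c2_10 : List ℕ × List ℤ :=
  ([(nat_lit 4),(nat_lit 2),(nat_lit 0),(nat_lit 0),(nat_lit 0),(nat_lit 0),(nat_lit 0),(nat_lit 0),(nat_lit 0),(nat_lit 0),(nat_lit 0),(nat_lit 0)], [Int.negSucc (nat_lit 3772463634),Int.ofNat (nat_lit 3737902855),Int.ofNat (nat_lit 7432669213),Int.ofNat (nat_lit 13144797497),Int.ofNat (nat_lit 29626687657),Int.ofNat (nat_lit 4278664328),Int.ofNat (nat_lit 15957341912),Int.ofNat (nat_lit 3724952500),Int.ofNat (nat_lit 2774323131),Int.ofNat (nat_lit 14373028156),Int.negSucc (nat_lit 20356829376),Int.ofNat (nat_lit 14203271634),Int.negSucc (nat_lit 14254795282),Int.negSucc (nat_lit 16526225408),Int.ofNat (nat_lit 12778011584),Int.negSucc (nat_lit 3939345601),Int.negSucc (nat_lit 13019777632),Int.ofNat (nat_lit 7575922117),Int.ofNat (nat_lit 13918906402),Int.negSucc (nat_lit 5300489674),Int.negSucc (nat_lit 16532937060),Int.negSucc (nat_lit 10922489546),Int.negSucc (nat_lit 34228126685),Int.negSucc (nat_lit 13557283248),Int.negSucc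 (nat_lit 1318249663),Int.negSucc (nat_lit 13160153043),Int.ofNat (nat_lit 5678315800),Int.ofNat (nat_lit 7797832341),Int.ofNat (nat_lit 18736889928),Int.ofNat (nat_lit 7819838504),Int.negSucc (nat_lit 1015418677),Int.negSucc (nat_lit 21246674324),Int.ofNat (nat_lit 7405884541),Int.negSucc (nat_lit 11386347868),Int.ofNat (nat_lit 583046527),Int.negSucc (nat_lit 1487999450),Int.ofNat (nat_lit 3132710517),Int.negSucc (nat_lit 2586765812),Int.ofNat (nat_lit 8825813759),Int.negSucc (nat_lit 7172074125),Int.negSucc (nat_lit 221572624),Int.ofNat (nat_lit 634283046),Int.ofNat (nat_lit 19584914125),Int.ofNat (nat_lit 4385415602),Int.negSucc (nat_lit 11529427440),Int.negSucc (nat_lit 23433472135),Int.ofNat (nat_lit 10884571139),Int.ofNat (nat_lit 17971474888),Int.negSucc (nat_lit 3138185359),Int.ofNat (nat_lit 25473148514),Int.negSucc (nat_lit 6565041475),Int.negSucc (nat_lit 6683847330),Int.negSucc (nat_lit 12648855803),Int.negSucc (nat_lit 2614576792),Int.negSucc (nat_lit 7932084723),Int.ofNat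 (nat_lit 85173555),Int.ofNat (nat_lit 23993327548),Int.negSucc (nat_lit 10765729839),Int.negSucc (nat_lit 654292665),Int.ofNat (nat_lit 13720511529),Int.ofNat (nat_lit 24297427777),Int.negSucc (nat_lit 11783661241),Int.ofNat (nat_lit 8426629450),Int.negSucc (nat_lit 676921059),Int.ofNat (nat_lit 2472115954),Int.negSucc (nat_lit 4194341414),Int.negSucc (nat_lit 4594825497),Int.negSucc (nat_lit 10651341502),Int.ofNat (nat_lit 744184406),Int.ofNat (nat_lit 1215594829),Int.ofNat (nat_lit 1509567389)])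

/-- A row. -/
noncomputable def sr2_c2_11 : List ℕ × List ℤ :=
  ([(nat_lit 5),(nat_lit 0),(nat_lit 0),(nat_lit 0),(nat_lit 0),(nat_lit 0),(nat_lit 0),(nat_lit 0),(nat_lit 0),(nat_lit 0),(nat_lit 0),(nat_lit 0)], [Int.ofNat (nat_lit 3562523859),Int.ofNat (nat_lit 1525324106),Int.negSucc (nat_lit 6110922834),Int.negSucc (nat_lit 539112227),Int.negSucc (nat_lit 5112259282),Int.negSucc (nat_lit 1996562118),Int.ofNat (nat_lit 1532231106),Int.negSucc (nat_lit 7623959443),Int.ofNat (nat_lit 4028386591),Int.negSucc (nat_lit 2514366579),Int.ofNat (nat_lit 435129902),Int.negSucc (nat_lit 1812195377),Int.ofNat (nat_lit 907187355),Int.negSucc (nat_lit 3961972399),Int.negSucc (nat_lit 4358863717),Int.ofNat (nat_lit 1273981783),Int.negSucc (nat_lit 2281406595),Int.negSucc (nat_lit 887178759),Int.ofNat (nat_lit 1506054691),Int.negSucc (nat_lit 1631624695),Int.negSucc (nat_lit 4145207148),Int.negSucc (nat_lit 1877743123),Int.negSucc (nat_lit 2809806896),Int.negSucc (nat_lit 1457978035),Int.ofNat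 (nat_lit 2674689391),Int.negSucc (nat_lit 1993156252),Int.negSucc (nat_lit 344930911),Int.negSucc (nat_lit 2705814261),Int.ofNat (nat_lit 1450059263),Int.ofNat (nat_lit 784926775),Int.ofNat (nat_lit 201946985),Int.ofNat (nat_lit 199951453),Int.negSucc (nat_lit 795081389),Int.ofNat (nat_lit 514746855),Int.negSucc (nat_lit 10657518828),Int.ofNat (nat_lit 841548633),Int.ofNat (nat_lit 2100176827),Int.negSucc (nat_lit 6593766756),Int.negSucc (nat_lit 2830746763),Int.ofNat (nat_lit 356233450),Int.ofNat (nat_lit 8781040025),Int.negSucc (nat_lit 421688527),Int.negSucc (nat_lit 5208762228),Int.negSucc (nat_lit 1169702649),Int.negSucc (nat_lit 1519894108),Int.negSucc (nat_lit 435016299),Int.ofNat (nat_lit 1058124512),Int.negSucc (nat_lit 8387225241),Int.negSucc (nat_lit 2856549993),Int.ofNat (nat_lit 3404127754),Int.negSucc (nat_lit 1298546703),Int.negSucc (nat_lit 3720961439),Int.ofNat (nat_lit 7480871506),Int.negSucc (nat_lit 1902052638),Int.negSucc (nat_lit 213367862),Int.ofNat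 (nat_lit 1363038342),Int.ofNat (nat_lit 2791899487),Int.negSucc (nat_lit 2711677128),Int.ofNat (nat_lit 207628539),Int.ofNat (nat_lit 242704836),Int.negSucc (nat_lit 502453402),Int.ofNat (nat_lit 2459422991),Int.negSucc (nat_lit 247525329),Int.ofNat (nat_lit 11801608561),Int.ofNat (nat_lit 2071790588),Int.negSucc (nat_lit 4361907252),Int.negSucc (nat_lit 184318734),Int.ofNat (nat_lit 4133266491),Int.negSucc (nat_lit 3537770517),Int.ofNat (nat_lit 84927620),Int.negSucc (nat_lit 381672715),Int.ofNat (nat_lit 272731203)])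

/-- A row. -/
noncomputable def sr2_c2_12 : List ℕ × List ℤ :=
  ([(nat_lit 6),(nat_lit 0),(nat_lit 0),(nat_lit 0),(nat_lit 0),(nat_lit 0),(nat_lit 0),(nat_lit 0),(nat_lit 0),(nat_lit 0),(nat_lit 0),(nat_lit 0)], [Int.ofNat (nat_lit 1043213303),Int.ofNat (nat_lit 2382918327),Int.ofNat (nat_lit 109365617),Int.negSucc (nat_lit 979125275),Int.ofNat (nat_lit 7291750570),Int.ofNat (nat_lit 5743406518),Int.ofNat (nat_lit 4553578064),Int.ofNat (nat_lit 4634970278),Int.ofNat (nat_lit 947630653),Int.ofNat (nat_lit 2082008083),Int.negSucc (nat_lit 6120199338),Int.ofNat (nat_lit 6861606216),Int.ofNat (nat_lit 1710878348),Int.negSucc (nat_lit 1732994445),Int.negSucc (nat_lit 3044293607),Int.negSucc (nat_lit 3792315720),Int.ofNat (nat_lit 1335258273),Int.negSucc (nat_lit 563840989),Int.ofNat (nat_lit 363539538),Int.negSucc (nat_lit 387244356),Int.ofNat (nat_lit 833220271),Int.ofNat (nat_lit 572660815),Int.negSucc (nat_lit 125247404),Int.ofNat (nat_lit 2092833384),Int.negSucc (nat_lit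 2421422293),Int.ofNat (nat_lit 1707689340),Int.ofNat (nat_lit 943944832),Int.ofNat (nat_lit 1225022685),Int.ofNat (nat_lit 198554422),Int.ofNat (nat_lit 713156017),Int.ofNat (nat_lit 738320270),Int.ofNat (nat_lit 523266975),Int.ofNat (nat_lit 225760409),Int.ofNat (nat_lit 148890113),Int.ofNat (nat_lit 3360422474),Int.negSucc (nat_lit 894480018),Int.negSucc (nat_lit 1092657821),Int.ofNat (nat_lit 6905942886),Int.ofNat (nat_lit 2913512370),Int.negSucc (nat_lit 2704312424),Int.negSucc (nat_lit 7880115514),Int.negSucc (nat_lit 1342392251),Int.negSucc (nat_lit 642715397),Int.ofNat (nat_lit 1613514329),Int.ofNat (nat_lit 360135239),Int.ofNat (nat_lit 41847740),Int.ofNat (nat_lit 680114073),Int.ofNat (nat_lit 4848693823),Int.ofNat (nat_lit 1492632340),Int.negSucc (nat_lit 1432390902),Int.ofNat (nat_lit 450010424),Int.ofNat (nat_lit 1549910369),Int.negSucc (nat_lit 8541320911),Int.ofNat (nat_lit 1865406455),Int.negSucc (nat_lit 1776209306),Int.negSucc (nat_lit 562322419),Int.negSucc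 (nat_lit 1448944346),Int.ofNat (nat_lit 2902899275),Int.ofNat (nat_lit 100120131),Int.ofNat (nat_lit 278722814),Int.negSucc (nat_lit 1137454818),Int.negSucc (nat_lit 1881290394),Int.negSucc (nat_lit 162068615),Int.negSucc (nat_lit 4680873462),Int.negSucc (nat_lit 1159323470),Int.ofNat (nat_lit 3353762466),Int.ofNat (nat_lit 28158266),Int.negSucc (nat_lit 2284275752),Int.ofNat (nat_lit 2224406075),Int.negSucc (nat_lit 279030366),Int.ofNat (nat_lit 363218524),Int.negSucc (nat_lit 311499137),Int.ofNat (nat_lit 34589436)])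

/-- A part of a triangular factor. -/
noncomputable def sr2_c2 : Rows :=
  [sr2_c2_0,
   sr2_c2_1,
   sr2_c2_2,
   sr2_c2_3,
   sr2_c2_4,
   sr2_c2_5,
   sr2_c2_6,
   sr2_c2_7,
   sr2_c2_8,
   sr2_c2_9,
   sr2_c2_10,
   sr2_c2_11,
   sr2_c2_12]

/-- A triangular factor. -/
noncomputable def sr2_rows : List Rows :=
  [sr2_c0, sr2_c1, sr2_c2]

end Vale.Agent.P142K.CertB
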