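import Vale.Agent.P142K.CertB.Sr3Rows
import Vale.Agent.P142K.Fast

/-!
# An expanded part of the certificate

Generated from a semidefinite program; only the checker is trusted.
-/

namespace Vale.Agent.P142K.CertB

open Vale.Agent.P142J (MP)

/-- A coefficient. -/
noncomputable def sr3_m0_0_0 : MP 10 :=
  [[[[[[[[[[Int.ofNat (nat_lit 0),Int.ofNat (nat_lit 0),Int.ofNat (nat_lit 46715577396766998784)]],[[Int.ofNat (nat_lit 0),Int.ofNat (nat_lit 795802268160747328)]],[[Int.ofNat (nat_lit 2630694739512396580)]]]],[[[[Int.ofNat (nat_lit 0),Int.negSucc (nat_lit 10130919623501096671)]],[[Int.negSucc (nat_lit 598968599502623211)]]]],[[[[Int.ofNat (nat_lit 13595860931610314885)]]]]]],[[[[[[Int.ofNat (nat_lit 0),Int.negSucc (nat_lit 74970960713443489279)]],[[Int.ofNat (nat_lit 2300567936122263488)]]]],[[[[Int.negSucc (nat_lit 15313803346605828815)]]]]],[[[[[Int.ofNat (nat_lit 0),Int.ofNat (nat_lit 2976027144061721856)]],[[Int.ofNat (nat_lit 555851786334392352)]]]],[[[[Int.ofNat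 (nat_lit 8416583979871937180)]]]]]],[[[[[[Int.ofNat (nat_lit 60121089846434217544)]]]]],[[[[[Int.ofNat (nat_lit 1328342259286361120)]]]]],[[[[[Int.ofNat (nat_lit 16874866715613691157)]]]]]]],[[[[],[[[[Int.ofNat (nat_lit 0),Int.negSucc (nat_lit 1852403141692670207)]],[[Int.negSucc (nat_lit 1267011994872416735)]]]],[[[[Int.negSucc (nat_lit 12219621778409981559)]]]]]],[[[[[[Int.ofNat (nat_lit 0),Int.ofNat (nat_lit 41119670920912606816)]],[[Int.ofNat (nat_lit 275201465859653276)]]]],[[[[Int.ofNat (nat_lit 9849473995569386278)]]]]],[[],[[[[Int.negSucc (nat_lit 33018444138409887591)]]]]]],[[[[[[Int.negSucc (nat_lit 79812928068453280635)]]]]],[[[[[Int.ofNat (nat_lit 4421446303954834658)]]]]]]],[[[[],[],[[[[Int.ofNat (nat_lit 17523449361799351801)]]]]]],[[[],[[[[Int.negSucc (nat_lit 4050908920989492731)]]]]]],[[[[[[Int.ofNat (nat_lit 56416102486127901743)]]]]]]]],[[[[[[[[Int.ofNat (nat_lit 0),Int.ofNat (nat_lit 11022332300313622144)]],[[Int.negSucc (nat_lit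 372708668818228335)]]],[[[Int.ofNat (nat_lit 0),Int.ofNat (nat_lit 352242416817786720)]],[[Int.negSucc (nat_lit 509100503710101059)]]]],[[[[Int.ofNat (nat_lit 21792301106985095704)]]],[[[Int.ofNat (nat_lit 2501698590958674798)]]]]],[[[[[Int.ofNat (nat_lit 0),Int.negSucc (nat_lit 58739371725154944479)]],[[Int.negSucc (nat_lit 1103959607991277835)]]]],[[[[Int.ofNat (nat_lit 9219127529698506310)]]]]]],[[[[[[Int.negSucc (nat_lit 43211479276413416355)]]],[[[Int.negSucc (nat_lit 5526199937912792151)]]]]],[[[[[Int.ofNat (nat_lit 25250282313467401236)]]],[[[Int.negSucc (nat_lit 5244334026363003755)]]]]],[[[[[Int.negSucc (nat_lit 24572622949061123145)]]]]]]],[[[[[[[Int.ofNat (nat_lit 0),Int.negSucc (nat_lit 9107194971331538943)]],[[Int.ofNat (nat_lit 4707658815027878464)]]]],[[[[Int.negSucc (nat_lit 9436565882039951419)]]],[[[Int.ofNat (nat_lit 3547442989882144680)]]]]],[[],[[[[Int.ofNat (nat_lit 24326396574636770334)]]]]]],[[[[[[Int.ofNat (nat_lit 17506294283908085866)]]],[[[Int.ofNat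 (nat_lit 4548338513021731886)]]]]],[[[[[Int.negSucc (nat_lit 13002926496514892969)]]]]]]],[[[[],[[[[Int.negSucc (nat_lit 7604026770425197189)]]]]]],[[[[[[Int.negSucc (nat_lit 4120347563205074717)]]]]]]]],[[[[[[[[Int.ofNat (nat_lit 54261867819508182526)]]],[[[Int.ofNat (nat_lit 8331618665988888458)]]],[[[Int.ofNat (nat_lit 1932231305573070682)]]]]],[[[[[Int.ofNat (nat_lit 17405571834853101562)]]],[[[Int.ofNat (nat_lit 1178321254177576580)]]]]],[[[[[Int.ofNat (nat_lit 39879600540253079215)]]]]]],[[[[[[Int.ofNat (nat_lit 0),Int.negSucc (nat_lit 185430389433431551)]],[[Int.ofNat (nat_lit 772987216483054592)]]]],[[[[Int.negSucc (nat_lit 3985886235388109035)]]]]]],[[[[[[Int.ofNat (nat_lit 940278973523365424)]]]]],[[[[[Int.negSucc (nat_lit 3483285669429477997)]]]]]]],[[[[[[[Int.negSucc (nat_lit 75154932441219334491)]]],[[[Int.negSucc (nat_lit 10885244449602655619)]]]]],[[[[[Int.negSucc (nat_lit 5963907076658706233)]]]]]],[[[],[[[[Int.ofNat (nat_lit 4056983416094638570)]]]]]],[[[[[[Int.ofNat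 (nat_lit 8123054486084233948)]]]]]]],[[[[[[[Int.ofNat (nat_lit 43805006762939801012)]]]]]]]],[[[[[[[[Int.ofNat (nat_lit 0),Int.ofNat (nat_lit 3999191855565415456)]],[[Int.ofNat (nat_lit 437400953027249588)]]]],[[[[Int.negSucc (nat_lit 6347570964802014513)]]]]]],[[[[[[Int.ofNat (nat_lit 3654042076388674060)]]],[[[Int.negSucc (nat_lit 408363906867492101)]]]]],[[[[[Int.negSucc (nat_lit 7667550695759108563)]]]]]]],[[[[],[[[[Int.ofNat (nat_lit 8707802075604571586)]]]]]],[[[[[[Int.negSucc (nat_lit 3051445693909847871)]]]]]]]],[[[[[[[[Int.negSucc (nat_lit 24138365002544214925)]]],[[[Int.negSucc (nat_lit 1865487777070633623)]]]]],[[[[[Int.ofNat (nat_lit 1459705229179796850)]]]]]],[],[[[[[[Int.ofNat (nat_lit 6395706087006340627)]]]]]]],[[[[[[[Int.ofNat (nat_lit 20719306516045083612)]]]]]]]],[[[],[[[[[[Int.negSucc (nat_lit 1019033639478370797)]]]]]]]],[[[[[[[[Int.ofNat (nat_lit 11768586217037699252)]]]]]]]]],[[[[[[[[],[[Int.ofNat (nat_lit 0),Int.ofNat (nat_lit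 291851909699322528)]],[[Int.ofNat (nat_lit 1430413334220122820)]]]],[[[[Int.ofNat (nat_lit 0),Int.negSucc (nat_lit 36860215767736262847)]],[[Int.negSucc (nat_lit 1798296400916377005)]]]],[[[[Int.ofNat (nat_lit 33498754898458941172)]]]]]],[[[[[[Int.ofNat (nat_lit 0),Int.negSucc (nat_lit 39332478503067475135)]],[[Int.ofNat (nat_lit 2582788101685005596)]]]],[[[[Int.negSucc (nat_lit 2027570819273784875)]]]]],[[[[],[[Int.ofNat (nat_lit 3982166234526825844)]]]],[[[[Int.ofNat (nat_lit 13823479808751473152)]]]]]],[[[[[[Int.ofNat (nat_lit 74513389792946760604)]]]]],[[[[[Int.ofNat (nat_lit 5016843628385976336)]]]]]]],[[[[],[[[],[[Int.negSucc (nat_lit 3430810246186761769)]]]],[[[[Int.negSucc (nat_lit 19683682604798374887)]]]]]],[[[[[],[[Int.negSucc (nat_lit 1656692430168397485)]]]],[[[[Int.negSucc (nat_lit 13229074022740592465)]]]]]],[[[[[[Int.negSucc (nat_lit 41330527634803141699)]]]]]]]],[[[[[[[[Int.ofNat (nat_lit 0),Int.negSucc (nat_lit 11636660863427760831)]],[[Int.negSucc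 (nat_lit 4008248696896109179)]]],[[],[[Int.negSucc (nat_lit 1656308451159023673)]]]],[[[[Int.ofNat (nat_lit 48066130277946594552)]]],[[[Int.ofNat (nat_lit 2353185649753072620)]]]]],[[[[],[[Int.negSucc (nat_lit 4260796601918425249)]]]],[[[[Int.ofNat (nat_lit 21863112258994794962)]]]]]],[[[[[[Int.negSucc (nat_lit 25085050669095396743)]]],[[[Int.negSucc (nat_lit 2146474523057716903)]]]]],[[[[[Int.negSucc (nat_lit 2669217609031081787)]]]]]]],[[[[[[[Int.ofNat (nat_lit 0),Int.negSucc (nat_lit 653607002408167295)]],[[Int.ofNat (nat_lit 7209631932903596338)]]]],[[[[Int.negSucc (nat_lit 17501362131197722701)]]]]]],[[[[[[Int.negSucc (nat_lit 40187674205753143743)]]]]],[[[[[Int.negSucc (nat_lit 21004942859691851467)]]]]]]],[[[[],[[[[Int.ofNat (nat_lit 23728700233742576582)]]]]]],[[[[[[Int.negSucc (nat_lit 6105232151613737555)]]]]]]]],[[[[[[[[Int.ofNat (nat_lit 97774337744667534908)]]],[[[Int.ofNat (nat_lit 4910758679932000008)]]]]],[[[[[Int.ofNat (nat_lit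 38422237486691751424)]]]]]],[[[[[],[[Int.ofNat (nat_lit 841842302971151104)]]]],[[[[Int.negSucc (nat_lit 6105052456576164067)]]]]]],[[[[[[Int.ofNat (nat_lit 5377535516812742058)]]]]]]],[[[[[[[Int.negSucc (nat_lit 57508899689292100823)]]],[[[Int.ofNat (nat_lit 142355457517085790)]]]]],[[[[[Int.ofNat (nat_lit 17529563837372946732)]]]]]]],[[[[[[[Int.ofNat (nat_lit 10152464246073074936)]]]]]]]],[[[[[[[],[[Int.ofNat (nat_lit 747932289206450886)]]]],[[[[Int.negSucc (nat_lit 9997738928081460053)]]]]]],[[[[[[Int.negSucc (nat_lit 1496417313055559821)]]]]]]],[[],[[[[[[Int.ofNat (nat_lit 5822755338629231852)]]]]]]]],[[[[[[[[Int.negSucc (nat_lit 5290472485373116099)]]]]]]],[[[[[[[Int.ofNat (nat_lit 9127390586556712444)]]]]]]]]],[[[[[[[[],[],[[Int.ofNat (nat_lit 1167128773449978986)]]]],[[[],[[Int.negSucc (nat_lit 2694790309694608961)]]]],[[[[Int.ofNat (nat_lit 27364207811901022629)]]]]]],[[[[[[Int.ofNat (nat_lit 0),Int.ofNat (nat_lit 4992188694037041792)]],[[Int.ofNat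 (nat_lit 2746173001843748636)]]]],[[[[Int.ofNat (nat_lit 16843176012204442828)]]]]]],[[[[[[Int.ofNat (nat_lit 23189287390311203563)]]]]],[[[[[Int.ofNat (nat_lit 16207010151229770182)]]]]]]],[[],[[[],[[[[Int.negSucc (nat_lit 19184723358285422111)]]]]]],[[[[[[Int.ofNat (nat_lit 13543835519791694832)]]]]]]]],[[[[[[[[Int.ofNat (nat_lit 0),Int.negSucc (nat_lit 3906231384363967487)]],[[Int.negSucc (nat_lit 894450016707558651)]]]],[[[[Int.ofNat (nat_lit 31581410342428079006)]]]]]],[[[[[[Int.ofNat (nat_lit 28126213858408189878)]]],[[[Int.ofNat (nat_lit 1384482729248116452)]]]]],[[[[[Int.negSucc (nat_lit 16728953907623912297)]]]]]]],[[[[[[],[[Int.negSucc (nat_lit 194843758707420555)]]]],[[[[Int.negSucc (nat_lit 12153280772024438617)]]]]]],[[[[[[Int.negSucc (nat_lit 32756679727762088829)]]]]]]]],[[[[[[[[Int.ofNat (nat_lit 76743475421789296471)]]],[[[Int.negSucc (nat_lit 2176777128249626823)]]]]],[[[[[Int.ofNat (nat_lit 12669355772599231092)]]]]]],[],[[[[[[Int.ofNat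 (nat_lit 2471829143009684504)]]]]]]],[[[[[[[Int.ofNat (nat_lit 12095342005314521032)]]]]]]],[[[[[[[Int.ofNat (nat_lit 16366521187545192308)]]]]]]]],[[[],[[[[[[Int.negSucc (nat_lit 6452299219507918103)]]]]]]]],[[[[[[[[Int.ofNat (nat_lit 16753720548063220268)]]]]]]]]],[[[[],[[[[[],[[Int.negSucc (nat_lit 651255378400922445)]]]],[[[[Int.ofNat (nat_lit 19127210406263397210)]]]]]],[[[[[[Int.ofNat (nat_lit 6345612554381830560)]]]]]]]],[[[[[[[],[[Int.ofNat (nat_lit 2568043579148076918)]]]],[[[[Int.negSucc (nat_lit 1280179752739533049)]]]]]],[[[[[[Int.ofNat (nat_lit 17988358671902284262)]]]]]]],[[],[[[[[[Int.negSucc (nat_lit 16941555298085831295)]]]]]]]],[[[[[[[[Int.ofNat (nat_lit 58803074367670997140)]]]]]]],[[[[[[[Int.ofNat (nat_lit 639400725518938368)]]]]]]]]],[[[[],[],[[[[[[Int.ofNat (nat_lit 13765131474245765133)]]]]]]]],[[[],[[[[[[Int.negSucc (nat_lit 4275029185704217353)]]]]]]]],[[[[[[[[Int.ofNat (nat_lit 30876359236897020906)]]]]]]]]]]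

/-- A coefficient. -/
noncomputable def sr3_m0_0_1 : MP 10 :=
  [[[[[[[[[[Int.ofNat (nat_lit 0),Int.negSucc (nat_lit 104658698936769877887)],[Int.ofNat (nat_lit 0),Int.ofNat (nat_lit 11019842121336070496)]],[[Int.ofNat (nat_lit 857403184615315216)],[Int.ofNat (nat_lit 524739608414796028)]]],[[[Int.ofNat (nat_lit 0),Int.ofNat (nat_lit 762937912149145568)]],[[Int.ofNat (nat_lit 3476811754076670604)]]]],[[[[Int.negSucc (nat_lit 20310028174374859135)],[Int.ofNat (nat_lit 2470525769846908766)]]],[[[Int.ofNat (nat_lit 5756954137935081090)]]]]],[[[[[Int.ofNat (nat_lit 0),Int.ofNat (nat_lit 19445795469615359072)]],[[Int.ofNat (nat_lit 2187953625196051036)]]]],[[[[Int.ofNat (nat_lit 7284503876557611278)]]]]]],[[[[[[Int.ofNat (nat_lit 146699566730528154064)],[Int.negSucc (nat_lit 26919530003895657047)]]],[[[Int.ofNat (nat_lit 2086761765636046980)]]]]],[[[[[Int.ofNat (nat_lit 8044612036020928548)],[Int.ofNat (nat_lit 527082910491733992)]]],[[[Int.ofNat (nat_lit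 18834117914187064258)]]]]],[[[[[Int.ofNat (nat_lit 21929861234719463036)]]]]]],[[[[[[Int.ofNat (nat_lit 0),Int.negSucc (nat_lit 16076270876977555263)]],[[Int.negSucc (nat_lit 1856032518870619783)]]]],[[[[Int.negSucc (nat_lit 13011899963056121323)]]]]]],[[[[[[Int.ofNat (nat_lit 34621034612666028256)]]]]],[[[[[Int.ofNat (nat_lit 2721928331529571388)]]]]]]],[[[[[[[Int.ofNat (nat_lit 0),Int.ofNat (nat_lit 71485724413645308992)]],[[Int.ofNat (nat_lit 4231872186982503784)]]]],[[[[Int.negSucc (nat_lit 21812371297187341993)],[Int.ofNat (nat_lit 1523952845082785148)]]],[[[Int.negSucc (nat_lit 17742892135815644479)]]]]],[[],[[[[Int.negSucc (nat_lit 26127545650844207971)]]]]]],[[[[[[Int.negSucc (nat_lit 137465321172661769813)],[Int.ofNat (nat_lit 55336532184487949694)]]],[[[Int.negSucc (nat_lit 4232053640484924481)]]]]],[[[[[Int.ofNat (nat_lit 22720964516711258760)]]]]]],[[[],[[[[Int.ofNat (nat_lit 1799781336844494050)]]]]]],[[[[[[Int.negSucc (nat_lit 22652271214667685113)]]]]]]],[[[[[[[Int.ofNat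 (nat_lit 0),Int.ofNat (nat_lit 23245823229671002944)]],[[Int.negSucc (nat_lit 6930501201462385847)]]]],[[[[Int.ofNat (nat_lit 6209722512323061504)]]]]]],[[[[[[Int.ofNat (nat_lit 19791496122400746534)]]]]],[[[[[Int.ofNat (nat_lit 1455235606804270010)]]]]]]],[[[[],[[[[Int.ofNat (nat_lit 4297509243960719196)]]]]]],[[[[[[Int.ofNat (nat_lit 8265179214080264522)]]]]]]]],[[[[[[[[Int.negSucc (nat_lit 115746357129928966581)],[Int.negSucc (nat_lit 22459582983578608497)]]],[[[Int.negSucc (nat_lit 9171309255475014419)],[Int.ofNat (nat_lit 455945279793409524)]]],[[[Int.negSucc (nat_lit 7207179497285149455)]]]],[[[[Int.ofNat (nat_lit 0),Int.negSucc (nat_lit 5789660859950388159)]],[[Int.negSucc (nat_lit 1303811263624904599)]]]],[[[[Int.negSucc (nat_lit 8213691836605548431)]]]]],[[[[[Int.negSucc (nat_lit 10650246628843926437)],[Int.negSucc (nat_lit 3384844600930168639)]]],[[[Int.ofNat (nat_lit 3552327021421525184)]]]]],[[[[[Int.negSucc (nat_lit 58718008259380947485)]]]]]],[[[[[[Int.ofNat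 (nat_lit 0),Int.negSucc (nat_lit 36899962054530149855)]],[[Int.negSucc (nat_lit 5028114714556097867)]]]],[[[[Int.ofNat (nat_lit 21144344281339225150)]]]]],[[],[[[[Int.negSucc (nat_lit 7842087484356681069)]]]]]],[[[[[[Int.negSucc (nat_lit 23879327833657311541)]]],[[[Int.negSucc (nat_lit 5629050043977706683)]]]]],[[[[[Int.negSucc (nat_lit 24416868665497006721)]]]]]]],[[[[[[[Int.ofNat (nat_lit 142142424783370125784)],[Int.ofNat (nat_lit 12463964439722218316)]]],[[[Int.ofNat (nat_lit 20965579079630146258)]]]],[],[[[[Int.ofNat (nat_lit 5999336903583889268)]]]]],[[[[[Int.negSucc (nat_lit 21881310969805103737)]]]]]],[[[],[[[[Int.ofNat (nat_lit 2745677005822708272)]]]]]],[[[[[[Int.negSucc (nat_lit 37434532695991453231)]]]]]]],[[[[[[[Int.negSucc (nat_lit 71149139081277129391)]]],[[[Int.negSucc (nat_lit 3934846563323196629)]]]]],[[[[[Int.negSucc (nat_lit 10207413533061668505)]]]]]]],[[[[[[[Int.ofNat (nat_lit 11138036783560514980)]]]]]]]],[[[[[[[[Int.ofNat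 (nat_lit 0),Int.ofNat (nat_lit 31719048217410198912)]],[[Int.negSucc (nat_lit 1459608500696686799)]]]],[[[[Int.ofNat (nat_lit 38263013087575962494)]]],[[[Int.ofNat (nat_lit 5521945709793527572)]]]]],[[],[[[[Int.negSucc (nat_lit 12391317636126369927)]]]]]],[[[[[[Int.ofNat (nat_lit 30592836662012284324)],[Int.ofNat (nat_lit 4613737745782274780)]]],[[[Int.ofNat (nat_lit 7497602756807519494)]]]]],[[[[[Int.ofNat (nat_lit 85433023011414827678)]]]]]],[],[[[[[[Int.negSucc (nat_lit 3787086269103539029)]]]]]]],[[[[],[[[[Int.negSucc (nat_lit 66918556533655721401)]]]]]],[[[[[[Int.negSucc (nat_lit 28570485741011838795)]]]]]]],[[],[[[[[[Int.negSucc (nat_lit 199475780731404007)]]]]]]]],[[[[[[[[Int.ofNat (nat_lit 46563746821195176484)],[Int.ofNat (nat_lit 3638565803670284264)]]],[[[Int.negSucc (nat_lit 1461517807062940881)]]]]],[[[[[Int.negSucc (nat_lit 46808548492640574917)]]]]]],[[[],[[[[Int.negSucc (nat_lit 4607326779545873113)]]]]]],[[[[[[Int.negSucc (nat_lit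 17654517529075644033)]]]]]]],[[[[[[[Int.negSucc (nat_lit 39121981685323736223)]]]]]]],[[[[[[[Int.ofNat (nat_lit 9691409807689115258)]]]]]]]],[[[[[],[[[[Int.negSucc (nat_lit 9449603996864375607)]]]]]],[[[[[[Int.negSucc (nat_lit 21206530163100872751)]]]]]]]],[[[[[[[[Int.negSucc (nat_lit 43765584057259784329)]]]]]]]]],[[[[[[[[[Int.ofNat (nat_lit 0),Int.negSucc (nat_lit 72487235229089303679)]],[[Int.negSucc (nat_lit 1572928858525603909)],[Int.ofNat (nat_lit 592064640138117990)]]],[[],[[Int.ofNat (nat_lit 2730677467836917188)]]]],[[[[Int.ofNat (nat_lit 7064019163683570082)],[Int.negSucc (nat_lit 7528241859740184047)]]],[[[Int.ofNat (nat_lit 10420201631286808006)]]]]],[[[[[Int.ofNat (nat_lit 0),Int.ofNat (nat_lit 19037764278650980544)]],[[Int.ofNat (nat_lit 2598014406392700994)]]]],[[[[Int.ofNat (nat_lit 17227106287557148336)]]]]]],[[[[[[Int.ofNat (nat_lit 190768338668948670478)],[Int.negSucc (nat_lit 14057645215792030349)]]],[[[Int.negSucc (nat_lit 4453446846024735109)]]]]],[[[[[Int.ofNat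 (nat_lit 41918516552699326418)]]]]],[[[[[Int.negSucc (nat_lit 2389869132608697809)]]]]]],[[[[[],[[Int.ofNat (nat_lit 3613993925696634016)]]]],[[[[Int.negSucc (nat_lit 12725961379144264305)]]]]]],[[[[[[Int.ofNat (nat_lit 15753772506800030978)]]]]]]],[[[[[[[Int.ofNat (nat_lit 0),Int.negSucc (nat_lit 22864133472815087199)]],[[Int.negSucc (nat_lit 3701177329608769013)]]]],[[[[Int.negSucc (nat_lit 104147944667390577467)]]]]],[[],[[[[Int.negSucc (nat_lit 1145709894374759265)]]]]]],[[[[[[Int.negSucc (nat_lit 48158947162343218691)]]]]],[[[[[Int.ofNat (nat_lit 18656652644985281556)]]]]]]],[[[[[[],[[Int.negSucc (nat_lit 72927530553588749)]]]],[[[[Int.ofNat (nat_lit 1924193219404773702)]]]]]],[[[[[[Int.negSucc (nat_lit 30977836144914699369)]]]]]]]],[[[[[[[[Int.negSucc (nat_lit 187341503315694391985)],[Int.negSucc (nat_lit 31316277104685045751)]]],[[[Int.ofNat (nat_lit 850213265087631568)]]]],[[[],[[Int.negSucc (nat_lit 1057309064885927265)]]]],[[[[Int.negSucc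 (nat_lit 5143593055343482497)]]]]],[[[[[Int.negSucc (nat_lit 85618977025284701197)]]],[[[Int.ofNat (nat_lit 6795581482382723642)]]]]],[[[[[Int.negSucc (nat_lit 8732578310315025021)]]]]]],[[[[[],[[Int.negSucc (nat_lit 12001093626152607899)]]]],[[[[Int.ofNat (nat_lit 43919443144460895854)]]]]]],[[[[[[Int.negSucc (nat_lit 28915815551027408483)]]]]]]],[[[[[[[Int.ofNat (nat_lit 39682909173179906060)],[Int.ofNat (nat_lit 311982713573815492)]]],[[[Int.negSucc (nat_lit 19041058234919279355)]]]]],[[[[[Int.negSucc (nat_lit 14905727015559177905)]]]]]],[],[[[[[[Int.negSucc (nat_lit 657532014594416539)]]]]]]],[[[[[[[Int.ofNat (nat_lit 13280943815463064426)]]]]]]],[[[[[[[Int.ofNat (nat_lit 11924161170797843402)]]]]]]]],[[[[[[[[Int.ofNat (nat_lit 0),Int.ofNat (nat_lit 1042606785887217536)]],[[Int.ofNat (nat_lit 2091440987789132460)]]]],[[[[Int.ofNat (nat_lit 11543484350379379510)]]]]]],[[[[[[Int.ofNat (nat_lit 14518102517175279946)]]]]],[[[[[Int.negSucc (nat_lit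 21093134518894317817)]]]]]]],[[[[],[[[[Int.ofNat (nat_lit 15366949841087955510)]]]]]],[[[[[[Int.ofNat (nat_lit 26010796448179756934)]]]]]]]],[[[[[[[[Int.negSucc (nat_lit 29960048269548058947)]]],[[[Int.ofNat (nat_lit 4654030992409237866)]]]]],[[[[[Int.ofNat (nat_lit 2104290873430062608)]]]]]]],[[[[[[[Int.negSucc (nat_lit 37889422825558352807)]]]]]]]],[[[],[[[[[[Int.negSucc (nat_lit 4095827950642029307)]]]]]]]],[[[[[[[[Int.ofNat (nat_lit 3008060715653736300)]]]]]]]]],[[[[[[[[[Int.ofNat (nat_lit 0),Int.negSucc (nat_lit 44191505646229115071)]],[[Int.negSucc (nat_lit 3314522300450757713)]]]],[[[[Int.ofNat (nat_lit 56577948415987486740)]]]]],[[[[],[[Int.negSucc (nat_lit 1821316230978471109)]]]],[[[[Int.ofNat (nat_lit 5323179950299676954)]]]]]],[[[[[[Int.ofNat (nat_lit 110548379905944955854)],[Int.ofNat (nat_lit 1888633538808759374)]]],[[[Int.ofNat (nat_lit 6867927211233621258)]]]]],[[[[[Int.ofNat (nat_lit 40167730401883679824)]]]]]],[],[[[[[[Int.negSucc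 (nat_lit 16009993951867848837)]]]]]]],[[[[[[],[[Int.ofNat (nat_lit 735332491414246682)]]]],[[[[Int.negSucc (nat_lit 59928304085317861193)]]]]]],[[[[[[Int.negSucc (nat_lit 32623813810995887563)]]]]]]],[[],[[[[[[Int.negSucc (nat_lit 2014388146587832491)]]]]]]]],[[[[[[[[Int.negSucc (nat_lit 132723619160553342035)],[Int.ofNat (nat_lit 904458784613186392)]]],[[[Int.ofNat (nat_lit 6687379375247051490)]]]]],[[[[[Int.negSucc (nat_lit 38788189410607505133)]]]]]],[[[],[[[[Int.negSucc (nat_lit 2681369030389785313)]]]]]],[[[[[[Int.negSucc (nat_lit 15486320425028854439)]]]]]]],[[[[[[[Int.negSucc (nat_lit 125511412922972234757)]]]]],[[[[[Int.negSucc (nat_lit 6179419288359436317)]]]]]]],[[[[[[[Int.ofNat (nat_lit 12224147785170860408)]]]]]]]],[[[[[[[],[[Int.negSucc (nat_lit 3176582739327883811)]]]],[[[[Int.negSucc (nat_lit 31682657535371231929)]]]]]],[[[[[[Int.negSucc (nat_lit 5776227879235774367)]]]]]]]],[[[[[[[[Int.negSucc (nat_lit 89842903221433234381)]]]]]]],[[[[[[[Int.ofNat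 (nat_lit 5403419883605913926)]]]]]]]]],[[[[[[[[[Int.ofNat (nat_lit 0),Int.negSucc (nat_lit 24439865464227068863)]],[[Int.negSucc (nat_lit 1639993094731834727)]]]],[[[[Int.ofNat (nat_lit 65074283921078693800)]]]]]],[[[[[[Int.ofNat (nat_lit 90064049585651277010)]]]]],[[[[[Int.ofNat (nat_lit 2848831034336062390)]]]]]]],[[[[],[[[[Int.ofNat (nat_lit 1575279230583368014)]]]]]],[[[[[[Int.negSucc (nat_lit 59233025157259586259)]]]]]]]],[[[[[[[[Int.negSucc (nat_lit 73692801087031446853)]]],[[[Int.ofNat (nat_lit 519439153381462486)]]]]],[[[[[Int.ofNat (nat_lit 11261569384843291056)]]]]]]],[[[[[[[Int.negSucc (nat_lit 42731293477074574377)]]]]]]]],[[[],[[[[[[Int.negSucc (nat_lit 1926409782898597139)]]]]]]]],[[[[[[[[Int.negSucc (nat_lit 18376062896655498909)]]]]]]]]],[[[[[[[[],[[Int.negSucc (nat_lit 1652075080351033903)]]]],[[[[Int.ofNat (nat_lit 21328245265794166990)]]]]]],[[[[[[Int.ofNat (nat_lit 56591245961310983982)]]]]]]]],[[[[[[[[Int.negSucc (nat_lit 21419289004181359191)]]]]]]],[[[[[[[Int.ofNat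 (nat_lit 5834466364994661352)]]]]]]]]],[[[[],[[[[[[Int.ofNat (nat_lit 10139709706025319762)]]]]]]]],[[[[[[[[Int.ofNat (nat_lit 10590499989062820406)]]]]]]]]]]

/-- A coefficient. -/
noncomputable def sr3_m0_0_2 : MP 10 :=
  [[[[[[[[[[Int.ofNat (nat_lit 204056774542899881830)],[Int.negSucc (nat_lit 5155679269725038577)],[Int.ofNat (nat_lit 18212278753524830648)]],[[Int.ofNat (nat_lit 0),Int.negSucc (nat_lit 1417954088997572991)]],[[Int.negSucc (nat_lit 3265154919013103983)]]],[[[Int.negSucc (nat_lit 6056797396859217703)],[Int.negSucc (nat_lit 884058650348407293)]]],[[[Int.ofNat (nat_lit 14653480914711861319)]]]],[[[[Int.ofNat (nat_lit 0),Int.ofNat (nat_lit 9373259988033479936)]],[[Int.negSucc (nat_lit 4880991786699846367)]]]],[[[[Int.negSucc (nat_lit 12813099660930257687)]]]]],[[[[[Int.ofNat (nat_lit 67600228478536260782)],[Int.ofNat (nat_lit 12160168778703303018)]]],[[[Int.negSucc (nat_lit 14971147527572021983)]]]]],[[[[[Int.ofNat (nat_lit 60594817142014101307)]]]]]],[[[[[[Int.ofNat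 (nat_lit 0),Int.ofNat (nat_lit 49847688062952261568)]],[[Int.ofNat (nat_lit 19959710563297844844)]]]],[[[[Int.negSucc (nat_lit 2753999628781820283)]]]]],[[[[],[[Int.negSucc (nat_lit 1838053262079802439)]]]],[[[[Int.ofNat (nat_lit 19321116112123796716)]]]]]],[[[[[[Int.ofNat (nat_lit 17747614816646326512)],[Int.negSucc (nat_lit 2084068678625627607)]]],[[[Int.ofNat (nat_lit 6820086844356190824)]]]]],[[[[[Int.negSucc (nat_lit 13674378092188608809)]]]]]],[],[[[[[[Int.ofNat (nat_lit 21813565198234007199)]]]]]]],[[[[[[[Int.negSucc (nat_lit 308278155743373767607)],[Int.negSucc (nat_lit 2373071956229946235)]]],[[[Int.ofNat (nat_lit 9496071289938387336)]]]],[[[],[[Int.ofNat (nat_lit 1550587057219519908)]]]],[[[[Int.negSucc (nat_lit 11984155156216444379)]]]]],[[[[[Int.negSucc (nat_lit 47859461010182999827)]]]]]],[[[[[],[[Int.negSucc (nat_lit 3725400660126229173)]]]],[[[[Int.ofNat (nat_lit 41246261454111790244)]]]]]],[[[[[[Int.negSucc (nat_lit 48611114810935169701)]]]]]]],[[[[[[[Int.ofNat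 (nat_lit 171920699358838379874)],[Int.ofNat (nat_lit 7322795278595925410)]]],[[[Int.ofNat (nat_lit 2441520593168391508)]]]]],[[[[[Int.negSucc (nat_lit 4936616193712475065)]]]]]],[],[[[[[[Int.ofNat (nat_lit 13266227086712321252)]]]]]]],[[[[[[[Int.negSucc (nat_lit 27893831729272607797)]]]]]]],[[[[[[[Int.ofNat (nat_lit 28674843701788542436)]]]]]]]],[[[[[[[[Int.ofNat (nat_lit 0),Int.negSucc (nat_lit 99045048088574253119)]],[[Int.negSucc (nat_lit 26925965276715387125)]]],[[],[[Int.ofNat (nat_lit 1222795973464860900)]]]],[[[[Int.negSucc (nat_lit 46018274198939908935)],[Int.negSucc (nat_lit 20525091452872323469)]]],[[[Int.negSucc (nat_lit 28812716431937981793)]]]]],[[[[],[[Int.ofNat (nat_lit 4357536135239685272)]]]],[[[[Int.ofNat (nat_lit 10255289011531699504)]]]]]],[[[[[[Int.ofNat (nat_lit 96815792218609343518)],[Int.negSucc (nat_lit 50971739203189381855)]]],[[[Int.negSucc (nat_lit 32011091967940059689)]]]]],[[[[[Int.negSucc (nat_lit 54132936231314380883)]]]]]],[[[],[[[[Int.negSucc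 (nat_lit 7885802913093730371)]]]]]],[[[[[[Int.negSucc (nat_lit 29953353841707944505)]]]]]]],[[[[[[[Int.ofNat (nat_lit 0),Int.negSucc (nat_lit 14280883219929352479)]],[[Int.ofNat (nat_lit 4665421515411650640)]]]],[[[[Int.ofNat (nat_lit 77810838888163926752)]]]]]],[[[[[[Int.negSucc (nat_lit 29639663097194322231)]]]]],[[[[[Int.negSucc (nat_lit 3437653444850306291)]]]]]]],[[[[],[[[[Int.negSucc (nat_lit 15246862630650726389)]]]]]],[[[[[[Int.negSucc (nat_lit 48442732486075380841)]]]]]]]],[[[[[[[[Int.negSucc (nat_lit 178564129933343492903)],[Int.ofNat (nat_lit 5661162701872920304)]]],[[[Int.ofNat (nat_lit 18728858699426761110)]]]],[],[[[[Int.ofNat (nat_lit 29353518290897453509)]]]]],[[[[[Int.ofNat (nat_lit 38585101122459652170)]]]]]],[[[[[],[[Int.negSucc (nat_lit 1232819378543733603)]]]],[[[[Int.ofNat (nat_lit 69564638010350664436)]]]]]],[[[[[[Int.ofNat (nat_lit 182788892578894221698)]]]]]]],[[[[[[[Int.ofNat (nat_lit 139308696650972448260)]]],[[[Int.ofNat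 (nat_lit 4966707128951039422)]]]]],[[[[[Int.ofNat (nat_lit 40865112311114015278)]]]]]]],[[[[[[[Int.negSucc (nat_lit 15063071146290533235)]]]]]]]],[[[[[[[],[[Int.ofNat (nat_lit 3869487410738115296)]]]],[[[[Int.ofNat (nat_lit 318913374210171136)]]]]]],[[[[[[Int.negSucc (nat_lit 61847730942802517335)]]]]]]],[[],[[[[[[Int.negSucc (nat_lit 995620585056058175)]]]]]]]],[[[[[[[[Int.ofNat (nat_lit 128448214285910099018)]]]]]]],[[[[[[[Int.ofNat (nat_lit 710422782308817770)]]]]]]]]],[[[[[[[[[Int.ofNat (nat_lit 495673571658927777476)],[Int.negSucc (nat_lit 10834429774935255477)]],[],[[Int.negSucc (nat_lit 32848698879994671)]]],[[[Int.ofNat (nat_lit 2189326951372093246)]]]],[[[],[[Int.ofNat (nat_lit 2231250032361196338)]]]],[[[[Int.negSucc (nat_lit 16856868099819450737)]]]]],[[[[[Int.ofNat (nat_lit 123892453309648596316)],[Int.ofNat (nat_lit 14439063507269074516)]]],[[[Int.negSucc (nat_lit 7842689723353576469)]]]]],[[[[[Int.ofNat (nat_lit 39715584939643873142)]]]]]],[[[[[[Int.ofNat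 (nat_lit 0),Int.ofNat (nat_lit 8110958003567175232)]],[[Int.ofNat (nat_lit 22721420608388060198)]]]],[[[[Int.ofNat (nat_lit 25086048573646082682)]]]]]],[[[[[[Int.negSucc (nat_lit 21714080146314636725)]]]]],[[[[[Int.negSucc (nat_lit 15254087620462352961)]]]]]]],[[[[[[[Int.negSucc (nat_lit 474213347079456705003)],[Int.negSucc (nat_lit 12625764908677103435)]]],[[[Int.ofNat (nat_lit 7690618518582397640)]]]]],[[[[[Int.negSucc (nat_lit 73043014973589498015)]]]]]],[[[],[[[[Int.ofNat (nat_lit 618808020746265984)]]]]]],[[[[[[Int.ofNat (nat_lit 13348509138628552326)]]]]]]],[[[[[[[Int.ofNat (nat_lit 223507476131552350776)]]]]],[[[[[Int.ofNat (nat_lit 1480150256574976494)]]]]]]],[[[[[[[Int.negSucc (nat_lit 31255937489148421807)]]]]]]]],[[[[[[[[Int.ofNat (nat_lit 0),Int.negSucc (nat_lit 60602560169956841247)]],[[Int.negSucc (nat_lit 10439631054015797769)]]]],[[[[Int.ofNat (nat_lit 2307849840809596918)]]]]],[[],[[[[Int.ofNat (nat_lit 13754259089718494662)]]]]]],[[[[[[Int.ofNat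 (nat_lit 282103910472002721276)]]],[[[Int.negSucc (nat_lit 3974550726332886503)]]]]],[[[[[Int.ofNat (nat_lit 99103656454125328786)]]]]]]],[[[[[[],[[Int.negSucc (nat_lit 2737283510893193965)]]]],[[[[Int.negSucc (nat_lit 31361958886010793277)]]]]]],[[[[[[Int.negSucc (nat_lit 58632526346219529517)]]]]]]]],[[[[[[[[Int.negSucc (nat_lit 198646129797657235197)],[Int.ofNat (nat_lit 6689387756274294856)]]],[[[Int.negSucc (nat_lit 28838583557703871231)]]]]],[[[[[Int.negSucc (nat_lit 41847309863592162195)]]]]]],[],[[[[[[Int.ofNat (nat_lit 1290475744378423458)]]]]]]],[[[[[[[Int.ofNat (nat_lit 175915405257984298912)]]]]]]],[[[[[[[Int.negSucc (nat_lit 13094967248303083487)]]]]]]]],[[[[[],[[[[Int.ofNat (nat_lit 17952747284596858468)]]]]]],[[[[[[Int.ofNat (nat_lit 33938846247419742718)]]]]]]]],[[[[[[[[Int.negSucc (nat_lit 6720461929795239497)]]]]]]]]],[[[[[[[[[Int.ofNat (nat_lit 112895910679299342714)],[Int.negSucc (nat_lit 40423038274802443357)]]],[[[Int.ofNat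 (nat_lit 8130869247020686730)]]]]],[[[[[Int.ofNat (nat_lit 42683267017099192610)]]]]]],[[[[[],[[Int.negSucc (nat_lit 692195549317826279)]]]],[[[[Int.ofNat (nat_lit 38826181909332851722)]]]]]],[[[[[[Int.negSucc (nat_lit 34071156824501393905)]]]]]]],[[[[[[[Int.negSucc (nat_lit 79580114798507490707)]]]]]]],[[[[[[[Int.ofNat (nat_lit 13787902191034553940)]]]]]]]],[[[[[[[],[[Int.ofNat (nat_lit 15959422830721597208)]]]],[[[[Int.ofNat (nat_lit 72988684065409450224)]]]]]],[[[[[[Int.ofNat (nat_lit 222248925991531065810)]]]]]]],[[],[[[[[[Int.ofNat (nat_lit 30299730005448421322)]]]]]]]],[[[[[[[[Int.negSucc (nat_lit 77895612336306112751)]]]]]]],[[[[[[[Int.ofNat (nat_lit 7904950119110047312)]]]]]]]]],[[[[[[[[[Int.negSucc (nat_lit 34244828298189416359)],[Int.negSucc (nat_lit 16314178221885478541)]]],[[[Int.ofNat (nat_lit 2089927609264664764)]]]]],[[[[[Int.negSucc (nat_lit 12836474654499420849)]]]]]],[],[[[[[[Int.ofNat (nat_lit 2783455962247742524)]]]]]]],[[[[[[[Int.ofNat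 (nat_lit 31245735048497704972)]]]]]]],[[[[[[[Int.ofNat (nat_lit 4469441028863645464)]]]]]]]],[[[[[],[[[[Int.negSucc (nat_lit 239051002867059415)]]]]]],[[[[[[Int.ofNat (nat_lit 49973706978171152418)]]]]]]]],[[[[[[[[Int.negSucc (nat_lit 37392816163347868745)]]]]]]]]]]

/-- A coefficient. -/
noncomputable def sr3_m0_0_3 : MP 10 :=
  [[[[[[[[[[Int.ofNat (nat_lit 0),Int.ofNat (nat_lit 82216520767067840224)]],[[Int.ofNat (nat_lit 22486351340689715330)],[Int.negSucc (nat_lit 2049217030823239)]]],[[],[[Int.negSucc (nat_lit 6472180288753271365)]]]],[[[[Int.ofNat (nat_lit 70313472836221519698)],[Int.ofNat (nat_lit 34372107144072138852)]]],[[[Int.ofNat (nat_lit 13362566607579944956)]]]]],[[[[[Int.ofNat (nat_lit 0),Int.ofNat (nat_lit 17289295485593617344)]],[[Int.negSucc (nat_lit 3831603038415377751)]]]],[[[[Int.ofNat (nat_lit 10193513696098976154)]]]]]],[[[[[[Int.negSucc (nat_lit 226963925907543288963)],[Int.ofNat (nat_lit 21547190163708656146)]]],[[[Int.ofNat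 (nat_lit 33115467650079799440)]]]]],[[[[[Int.negSucc (nat_lit 60566669686383725281)]]]]],[[[[[Int.negSucc (nat_lit 7498455694165749947)]]]]]],[[[[[],[[Int.ofNat (nat_lit 2260909625382836918)]]]],[[[[Int.ofNat (nat_lit 11408241382158126772)]]]]]],[[[[[[Int.ofNat (nat_lit 39491711448077769478)]]]]]]],[[[[[[[Int.ofNat (nat_lit 0),Int.negSucc (nat_lit 25315422177547680415)]],[[Int.negSucc (nat_lit 9544406683693135325)]]]],[[[[Int.negSucc (nat_lit 23187022841317812297)]]]]],[[],[[[[Int.ofNat (nat_lit 4632241508774472800)]]]]]],[[[[[[Int.ofNat (nat_lit 125770521908291458540)]]]]],[[[[[Int.negSucc (nat_lit 387905367179054771)]]]]]]],[[[[[[],[[Int.negSucc (nat_lit 2822975524409309355)]]]],[[[[Int.ofNat (nat_lit 35530950574438819964)]]]]]],[[[[[[Int.negSucc (nat_lit 57888009265602164215)]]]]]]]],[[[[[[[[Int.ofNat (nat_lit 387762144901102531906)],[Int.negSucc (nat_lit 101728558128041141455)]]],[[[Int.negSucc (nat_lit 32731994951452764475)]]]],[[[],[[Int.negSucc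 (nat_lit 2060221560452164353)]]]],[[[[Int.negSucc (nat_lit 42197398487416146567)]]]]],[[[[[Int.ofNat (nat_lit 56900327638856558008)]]],[[[Int.ofNat (nat_lit 4144076766429549464)]]]]],[[[[[Int.ofNat (nat_lit 7244276161085151474)]]]]]],[[[[[],[[Int.ofNat (nat_lit 1441171207829587746)]]]],[[[[Int.negSucc (nat_lit 127214955653195785967)]]]]]],[[[[[[Int.negSucc (nat_lit 311828657250972536083)]]]]]]],[[[[[[[Int.negSucc (nat_lit 272958304859716087287)],[Int.ofNat (nat_lit 2862871442307373792)]]],[[[Int.ofNat (nat_lit 13459433144741590770)]]]]],[[[[[Int.negSucc (nat_lit 61085171201456770613)]]]]]],[],[[[[[[Int.negSucc (nat_lit 27999933061731327657)]]]]]]],[[[[[[[Int.ofNat (nat_lit 54815996275514259450)]]]]]]],[[[[[[[Int.negSucc (nat_lit 37288327243656584991)]]]]]]]],[[[[[[[[Int.ofNat (nat_lit 0),Int.negSucc (nat_lit 44651886518705918111)]],[[Int.ofNat (nat_lit 1404437442721739834)]]]],[[[[Int.ofNat (nat_lit 87623390327793347386)]]]]]],[[[[[[Int.ofNat (nat_lit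 475577056217996379522)]]]]],[[[[[Int.negSucc (nat_lit 52191791977929875853)]]]]]]],[[[[],[[[[Int.ofNat (nat_lit 4181288917776652654)]]]]]],[[[[[[Int.negSucc (nat_lit 69866442569202290839)]]]]]]]],[[[[[[[[Int.negSucc (nat_lit 265499153301261073387)]]],[[[Int.ofNat (nat_lit 227956631966333892)]]]]],[[[[[Int.ofNat (nat_lit 58005598236794098110)]]]]]]],[[[[[[[Int.negSucc (nat_lit 2924015155467335493)]]]]]]]],[[[],[[[[[[Int.negSucc (nat_lit 299212054338636515)]]]]]]]],[[[[[[[[Int.ofNat (nat_lit 28793693409607334098)]]]]]]]]],[[[[[[[[[Int.ofNat (nat_lit 0),Int.ofNat (nat_lit 88426020591721326784)]],[[Int.ofNat (nat_lit 20561620594343268284)]]]],[[[[Int.ofNat (nat_lit 47296384626492886506)]]]]],[[[[],[[Int.negSucc (nat_lit 3533906208957797027)]]]],[[[[Int.ofNat (nat_lit 4914884380550922088)]]]]]],[[[[[[Int.negSucc (nat_lit 395121969284760305537)],[Int.ofNat (nat_lit 6387330754624819896)]]],[[[Int.ofNat (nat_lit 23107906600870900464)]]]]],[[[[[Int.negSucc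 (nat_lit 142665343259900587601)]]]]]],[],[[[[[[Int.negSucc (nat_lit 13683410665440850991)]]]]]]],[[[[[[],[[Int.ofNat (nat_lit 2689483324020861814)]]]],[[[[Int.ofNat (nat_lit 76629498856355610924)]]]]]],[[[[[[Int.ofNat (nat_lit 158938455405178341028)]]]]]]],[[],[[[[[[Int.ofNat (nat_lit 16864055938195615756)]]]]]]]],[[[[[[[[Int.ofNat (nat_lit 552988439101022349442)],[Int.negSucc (nat_lit 88305396519494832325)]]],[[[Int.ofNat (nat_lit 32763374526725557526)]]]]],[[[[[Int.ofNat (nat_lit 182314917598313626276)]]]]]],[[[],[[[[Int.negSucc (nat_lit 50201343996122790721)]]]]]],[[[[[[Int.ofNat (nat_lit 17989794335488229588)]]]]]]],[[[[[[[Int.negSucc (nat_lit 195704662805936564791)]]]]],[[[[[Int.ofNat (nat_lit 3337457283753748812)]]]]]]],[[[[[[[Int.ofNat (nat_lit 11060689274642968074)]]]]]]]],[[[[[[[],[[Int.negSucc (nat_lit 5236802518787215073)]]]],[[[[Int.ofNat (nat_lit 59052428396728572186)]]]]]],[[[[[[Int.ofNat (nat_lit 77747200739516356734)]]]]]]]],[[[[[[[[Int.ofNat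 (nat_lit 102718661017687051974)]]]]]]],[[[[[[[Int.ofNat (nat_lit 29492044487160875954)]]]]]]]]],[[[[[[[[[Int.ofNat (nat_lit 0),Int.negSucc (nat_lit 3667632371829535327)]],[[Int.ofNat (nat_lit 8975750505910734082)]]]],[[[[Int.negSucc (nat_lit 30116146641018828171)]]]]]],[[[[[[Int.negSucc (nat_lit 94372215915733984239)]]]]],[[[[[Int.negSucc (nat_lit 29547347014518417671)]]]]]]],[[[[],[[[[Int.ofNat (nat_lit 32277303933288935980)]]]]]],[[[[[[Int.negSucc (nat_lit 38184111922648080819)]]]]]]]],[[[[[[[[Int.ofNat (nat_lit 340821322026899260916)]]],[[[Int.ofNat (nat_lit 1457556619526343808)]]]]],[[[[[Int.ofNat (nat_lit 14570169281192170080)]]]]]]],[[[[[[[Int.ofNat (nat_lit 91515304075110923620)]]]]]]]],[[[],[[[[[[Int.negSucc (nat_lit 11855469582127312921)]]]]]]]],[[[[[[[[Int.ofNat (nat_lit 51990563664253803990)]]]]]]]]],[[[[[[[[],[[Int.ofNat (nat_lit 687066997121489792)]]]],[[[[Int.negSucc (nat_lit 18147534231641757217)]]]]]],[[[[[[Int.negSucc (nat_lit 1029155968373339401)]]]]]]]],[[[[[[[[Int.ofNat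 (nat_lit 178392345701543364166)]]]]]]],[[[[[[[Int.ofNat (nat_lit 35981159805772558560)]]]]]]]]],[[[[],[[[[[[Int.negSucc (nat_lit 10472346921069883313)]]]]]]]],[[[[[[[[Int.ofNat (nat_lit 37416574932057493700)]]]]]]]]]]

/-- A coefficient. -/
noncomputable def sr3_m0_0_4 : MP 10 :=
  [[[[[[[[[[Int.negSucc (nat_lit 463916971629713654333)],[Int.ofNat (nat_lit 95224167174527911684)]]],[[[Int.ofNat (nat_lit 16743378890518557342)]]]]],[[[[[Int.negSucc (nat_lit 119748380797357524413)],[Int.negSucc (nat_lit 4031467131183496955)]]],[[[Int.negSucc (nat_lit 4190426568190279753)]]]]],[[[[[Int.negSucc (nat_lit 26257162324394252739)]]]]]],[[[[[[Int.ofNat (nat_lit 0),Int.negSucc (nat_lit 8402352468453195743)]],[[Int.negSucc (nat_lit 17326347650658978827)]]]],[[[[Int.ofNat (nat_lit 23087158745742823902)]]]]]],[[[[[[Int.negSucc (nat_lit 60487065003244329199)]]]]],[[[[[Int.ofNat (nat_lit 13460710772445101078)]]]]]]],[[[[[[[Int.ofNat (nat_lit 432556851109052669952)],[Int.negSucc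 (nat_lit 43246573982796217301)]]],[[[Int.negSucc (nat_lit 6956372422032467739)]]]]],[[[[[Int.ofNat (nat_lit 36508346352544293208)]]]]]],[[[],[[[[Int.negSucc (nat_lit 15415156572176483711)]]]]]],[[[[[[Int.ofNat (nat_lit 87352495347960906272)]]]]]]],[[[[[[[Int.negSucc (nat_lit 275626700244390877631)]]]]],[[[[[Int.ofNat (nat_lit 9675786759961466682)]]]]]]],[[[[[[[Int.ofNat (nat_lit 18629598694072998172)]]]]]]]],[[[[[[[[Int.ofNat (nat_lit 0),Int.ofNat (nat_lit 74285910804907512064)]],[[Int.ofNat (nat_lit 19672703511092871200)]]]],[[[[Int.negSucc (nat_lit 99645061119140878441)]]]]],[[],[[[[Int.negSucc (nat_lit 3535273530173644539)]]]]]],[[[[[[Int.negSucc (nat_lit 313871462032368617067)]]],[[[Int.negSucc (nat_lit 373255687561237553)]]]]],[[[[[Int.ofNat (nat_lit 45401397058022620968)]]]]]]],[[[[],[[[[Int.negSucc (nat_lit 1100735136131385715)]]]]]],[[[[[[Int.ofNat (nat_lit 94235595180198061876)]]]]]]]],[[[[[[[[Int.ofNat (nat_lit 107755266363514145470)],[Int.negSucc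 (nat_lit 34225979583663735431)]]],[[[Int.negSucc (nat_lit 17187943089162313403)]]]]],[[[[[Int.negSucc (nat_lit 109000496478829073465)]]]]]],[],[[[[[[Int.negSucc (nat_lit 11904264802843180291)]]]]]]],[[[[[[[Int.ofNat (nat_lit 38755640735161319412)]]]]]]],[[[[[[[Int.negSucc (nat_lit 45277615842623822725)]]]]]]]],[[[[[],[[[[Int.negSucc (nat_lit 1204345125046233001)]]]]]],[[[[[[Int.ofNat (nat_lit 147418680323918143688)]]]]]]]],[[[[[[[[Int.negSucc (nat_lit 203567796406281347743)]]]]]]]]],[[[[[[[[[Int.negSucc (nat_lit 657071634852704766885)],[Int.ofNat (nat_lit 69770369454472389632)]]],[[[Int.negSucc (nat_lit 18962822263289788319)]]]]],[[[[[Int.negSucc (nat_lit 137736220259813524725)]]]]]],[[[[[],[[Int.negSucc (nat_lit 6585248303816879095)]]]],[[[[Int.ofNat (nat_lit 25302049842987994556)]]]]]],[[[[[[Int.negSucc (nat_lit 110104684014809255101)]]]]]]],[[[[[[[Int.ofNat (nat_lit 367765758965746046712)]]]]]]],[[[[[[[Int.negSucc (nat_lit 11347276445902353437)]]]]]]]],[[[[[[[],[[Int.ofNat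 (nat_lit 13836734211594225066)]]]],[[[[Int.negSucc (nat_lit 142230257944238757891)]]]]]],[[[[[[Int.negSucc (nat_lit 84128439161891124819)]]]]]]],[[],[[[[[[Int.negSucc (nat_lit 1836669869893619273)]]]]]]]],[[[[[[[[Int.negSucc (nat_lit 44931031745326261339)]]]]]]],[[[[[[[Int.negSucc (nat_lit 37640172002239073343)]]]]]]]]],[[[[[[[[[Int.negSucc (nat_lit 84707199048732167355)],[Int.negSucc (nat_lit 8021778163567177175)]]],[[[Int.negSucc (nat_lit 16765047878662024565)]]]]],[[[[[Int.negSucc (nat_lit 21029254848497983003)]]]]]],[],[[[[[[Int.negSucc (nat_lit 29011348246645312355)]]]]]]],[[[[[[[Int.ofNat (nat_lit 112271731833661040876)]]]]]]],[[[[[[[Int.negSucc (nat_lit 45115141816052551529)]]]]]]]],[[[[[],[[[[Int.negSucc (nat_lit 3119153837268405459)]]]]]],[[[[[[Int.ofNat (nat_lit 80300205373950959122)]]]]]]]],[[[[[[[[Int.negSucc (nat_lit 59386571043122430101)]]]]]]]]]]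

/-- A coefficient. -/
noncomputable def sr3_m0_0_5 : MP 10 :=
  [[[[[[[[[[Int.ofNat (nat_lit 0),Int.ofNat (nat_lit 36809528985059858048)]],[[Int.negSucc (nat_lit 23068327803460701103)]]]],[[[[Int.ofNat (nat_lit 12721185336612455448)]]]]]],[[[[[[Int.negSucc (nat_lit 75479351493459433249)],[Int.ofNat (nat_lit 8519183631627952130)]]],[[[Int.negSucc (nat_lit 5510334223354043151)]]]]],[[[[[Int.negSucc (nat_lit 3806105718755026869)]]]]]],[],[[[[[[Int.negSucc (nat_lit 29787421171903164197)]]]]]]],[[[[],[[[[Int.ofNat (nat_lit 16863573426218695718)]]]]]],[[[[[[Int.ofNat (nat_lit 26322879089535365784)]]]]]]],[[],[[[[[[Int.ofNat (nat_lit 34407497878483008070)]]]]]]]],[[[[[[[[Int.negSucc (nat_lit 70332999715194688761)],[Int.ofNat (nat_lit 82664614688573843052)]]],[[[Int.ofNat (nat_lit 49537159685015895714)]]]]],[[[[[Int.ofNat (nat_lit 29459887167983420642)]]]]]],[[[],[[[[Int.negSucc (nat_lit 7818305863413105465)]]]]]],[[[[[[Int.ofNat (nat_lit 107791409696350251902)]]]]]]],[[[[[[[Int.ofNat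 (nat_lit 9115941234303507286)]]]]]]],[[[[[[[Int.ofNat (nat_lit 14420690850283510620)]]]]]]]],[[[[[],[[[[Int.negSucc (nat_lit 41417374490051628525)]]]]]],[[[[[[Int.negSucc (nat_lit 287704266237473555145)]]]]]]]],[[[[[[[[Int.ofNat (nat_lit 230366679369337710000)]]]]]]]]],[[[[[[[[[Int.ofNat (nat_lit 0),Int.ofNat (nat_lit 19053499005050820128)]],[[Int.negSucc (nat_lit 14597676808800619841)]]]],[[[[Int.negSucc (nat_lit 40208900632446350957)]]]]]],[[[[[[Int.negSucc (nat_lit 7462498235626537875)]]]]],[[[[[Int.ofNat (nat_lit 22555068966013963652)]]]]]]],[[[[],[[[[Int.negSucc (nat_lit 12376033681903683635)]]]]]],[[[[[[Int.negSucc (nat_lit 3884680148069943179)]]]]]]]],[[[[[[[[Int.negSucc (nat_lit 110081747686266605511)]]],[[[Int.negSucc (nat_lit 8237729769080196755)]]]]],[[[[[Int.negSucc (nat_lit 58124876185881355993)]]]]]]],[[[[[[[Int.ofNat (nat_lit 94003369476725494338)]]]]]]]],[[[],[[[[[[Int.negSucc (nat_lit 4273040169080552537)]]]]]]]],[[[[[[[[Int.negSucc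 (nat_lit 8603893937843765329)]]]]]]]]],[[[[[[[[],[[Int.ofNat (nat_lit 2871780357716489566)]]]],[[[[Int.negSucc (nat_lit 39601171166004246393)]]]]]],[[[[[[Int.ofNat (nat_lit 9901475039265248464)]]]]]]]],[[[[[[[[Int.negSucc (nat_lit 181148246404608794641)]]]]]]],[[[[[[[Int.negSucc (nat_lit 17333717326987726899)]]]]]]]]],[[[[],[[[[[[Int.negSucc (nat_lit 13858189184267416673)]]]]]]]],[[[[[[[[Int.negSucc (nat_lit 52442603169062858891)]]]]]]]]]]

/-- A coefficient. -/
noncomputable def sr3_m0_0_6 : MP 10 :=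
  [[[[[[[[[[Int.negSucc (nat_lit 29699094537857580659)],[Int.negSucc (nat_lit 52316816415232346823)]]],[[[Int.negSucc (nat_lit 39551704222759284029)]]]]],[[[[[Int.ofNat (nat_lit 6219409520044775550)]]]]]],[],[[[[[[Int.negSucc (nat_lit 96913484020101489605)]]]]]]],[[[[[[[Int.ofNat (nat_lit 137352500498996572096)]]]]]]],[[[[[[[Int.ofNat (nat_lit 11314970381313571468)]]]]]]]],[[[[[],[[[[Int.ofNat (nat_lit 11537173454895900412)]]]]]],[[[[[[Int.ofNat (nat_lit 281260886229917082390)]]]]]]]],[[[[[[[[Int.negSucc (nat_lit 45422469580709271953)]]]]]]]]],[[[[[[[[[Int.ofNat (nat_lit 155345165186012991378)],[Int.negSucc (nat_lit 9696184702497670427)]]],[[[Int.ofNat (nat_lit 9922014384651196296)]]]]],[[[[[Int.ofNat (nat_lit 31491540728281756518)]]]]]],[],[[[[[[Int.ofNat (nat_lit 28130924416111849658)]]]]]]],[[[[[[[Int.negSucc (nat_lit 27258923852229687479)]]]]]]],[[[[[[[Int.ofNat (nat_lit 9587360637179028526)]]]]]]]],[[[[[],[[[[Int.ofNat (nat_lit 26081372054250529066)]]]]]],[[[[[[Int.ofNat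 (nat_lit 11813960761154402102)]]]]]]]],[[[[[[[[Int.negSucc (nat_lit 17505569357551917927)]]]]]]]]]]

/-- A coefficient. -/
noncomputable def sr3_m0_0_7 : MP 10 :=
  [[[[[[[[[[Int.ofNat (nat_lit 0),Int.negSucc (nat_lit 19710193281507212991)]],[[Int.negSucc (nat_lit 974735277125126455)]]]],[[[[Int.negSucc (nat_lit 23760172333097308311)]]]]]],[[[[[[Int.ofNat (nat_lit 62589868529258763460)]]]]],[[[[[Int.ofNat (nat_lit 21378267156444040062)]]]]]]],[[[[],[[[[Int.negSucc (nat_lit 11529660346862672393)]]]]]],[[[[[[Int.negSucc (nat_lit 46612707509801190181)]]]]]]]],[[[[[[[[Int.negSucc (nat_lit 29353380335751099871)]]],[[[Int.negSucc (nat_lit 11432920519687787871)]]]]],[[[[[Int.ofNat (nat_lit 8877289813727587860)]]]]]]],[[[[[[[Int.ofNat (nat_lit 19447722653774984344)]]]]]]]],[[[],[[[[[[Int.negSucc (nat_lit 35808383789445409767)]]]]]]]],[[[[[[[[Int.ofNat (nat_lit 19575098141202184024)]]]]]]]]],[[[[[[[[],[[Int.ofNat (nat_lit 3932123493140594066)]]]],[[[[Int.negSucc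 (nat_lit 13199734448717625529)]]]]]],[[[[[[Int.ofNat (nat_lit 44841089800772015530)]]]]]]]],[[[[[[[[Int.negSucc (nat_lit 27302129115482847703)]]]]]]],[[[[[[[Int.negSucc (nat_lit 40335708036290359287)]]]]]]]]],[[[[],[[[[[[Int.negSucc (nat_lit 6687026387024272179)]]]]]]]],[[[[[[[[Int.ofNat (nat_lit 5207172895834401760)]]]]]]]]]]

/-- A coefficient. -/
noncomputable def sr3_m0_0_8 : MP 10 :=
  [[[[[[[[[[Int.ofNat (nat_lit 108646706126819168236)],[Int.ofNat (nat_lit 1154320854821675186)]]],[[[Int.ofNat (nat_lit 27860832922428135074)]]]]],[[[[[Int.negSucc (nat_lit 12291329583993562211)]]]]]],[],[[[[[[Int.ofNat (nat_lit 82845880307736455034)]]]]]]],[[[[[[[Int.negSucc (nat_lit 125392267883582803631)]]]]]]],[[[[[[[Int.ofNat (nat_lit 34941193606869169596)]]]]]]]],[[[[[],[[[[Int.ofNat (nat_lit 19912026860534544804)]]]]]],[[[[[[Int.negSucc (nat_lit 88158024371238569119)]]]]]]]],[[[[[[[[Int.negSucc (nat_lit 17597819092756520547)]]]]]]]]]]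

/-- A coefficient. -/
noncomputable def sr3_m0_1_0 : MP 10 :=
  [[[[[[[[[[Int.ofNat (nat_lit 0),Int.ofNat (nat_lit 0),Int.negSucc (nat_lit 229606139110455428511)]],[[Int.ofNat (nat_lit 0),Int.negSucc (nat_lit 1680443454353082307)]],[[Int.negSucc (nat_lit 7006525176217662923)]]]],[[[[Int.ofNat (nat_lit 0),Int.ofNat (nat_lit 13108299268653176302)]],[[Int.negSucc (nat_lit 3693429069047648097)]]]],[[[[Int.negSucc (nat_lit 56425857557720494469)]]]]]],[[[[[[Int.ofNat (nat_lit 0),Int.ofNat (nat_lit 314805373773908055452)]],[[Int.negSucc (nat_lit 11706299325264590703)]]]],[[[[Int.ofNat (nat_lit 83323213798075805088)]]]]],[[[[[Int.ofNat (nat_lit 0),Int.negSucc (nat_lit 9958108221365449991)]],[[Int.ofNat (nat_lit 2252806384320528692)]]]],[[[[Int.negSucc (nat_lit 18968708118862909051)]]]]]],[[[[[[Int.negSucc (nat_lit 261097635206962470683)]]]]],[[[[[Int.negSucc (nat_lit 7096462381549136729)]]]]]]],[[[[],[[[[Int.ofNat (nat_lit 0),Int.ofNat (nat_lit 8379732398417846608)]],[[Int.negSucc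 (nat_lit 2224106610966937315)]]]],[[[[Int.ofNat (nat_lit 24653185966907214154)]]]]]],[[[[[[Int.ofNat (nat_lit 0),Int.negSucc (nat_lit 110443367178101447023)]],[[Int.negSucc (nat_lit 3516963224964550921)]]]],[[[[Int.negSucc (nat_lit 33652641552077474625)]]]]]],[[[[[[Int.ofNat (nat_lit 227909162870566166346)]]]]],[[[[[Int.negSucc (nat_lit 8755188950803247061)]]]]]]],[[],[[[],[[[[Int.ofNat (nat_lit 4012039805499935098)]]]]]],[[[[[[Int.negSucc (nat_lit 142375405551338100523)]]]]]]]],[[[[[[[[Int.ofNat (nat_lit 0),Int.negSucc (nat_lit 74246504801682489419)]],[[Int.negSucc (nat_lit 6069575129115285581)]]],[[[Int.ofNat (nat_lit 0),Int.negSucc (nat_lit 760747869048770883)]],[[Int.ofNat (nat_lit 67982531385232228)]]]],[[[[Int.negSucc (nat_lit 90830050529964745875)]]],[[[Int.negSucc (nat_lit 3427481873802348439)]]]]],[[[[[Int.ofNat (nat_lit 0),Int.ofNat (nat_lit 123153741964469680908)]],[[Int.negSucc (nat_lit 5376855594442013689)]]]],[[[[Int.negSucc (nat_lit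 20827679214101926271)]]]]]],[[[[[[Int.ofNat (nat_lit 214736686245627619588)]]],[[[Int.ofNat (nat_lit 7497751811804626324)]]]]],[[[[[Int.negSucc (nat_lit 14920601177563060279)]]]]],[[[[[Int.ofNat (nat_lit 23990073170686188658)]]]]]]],[[[[[[[Int.ofNat (nat_lit 0),Int.ofNat (nat_lit 25720319392149460580)]],[[Int.negSucc (nat_lit 4569202126536277439)]]]],[[[[Int.ofNat (nat_lit 37745267488768351778)]]]]],[[],[[[[Int.negSucc (nat_lit 23620020292065970423)]]]]]],[[[[[[Int.negSucc (nat_lit 65870267382051019335)]]],[[[Int.negSucc (nat_lit 2443093325719016391)]]]]],[[[[[Int.ofNat (nat_lit 4655111193932219030)]]]]]]],[[[[],[[[[Int.negSucc (nat_lit 7790019269094764647)]]]]]],[[[[[[Int.ofNat (nat_lit 18306114291082229754)]]]]]]]],[[[[[[[[Int.negSucc (nat_lit 218127068095232909933)]]],[[[Int.negSucc (nat_lit 11517848528832624421)]]]]],[[[[[Int.negSucc (nat_lit 51146724319139514221)]]],[[[Int.negSucc (nat_lit 2296181046589745961)]]]]],[[[[[Int.negSucc (nat_lit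 52181245593281540911)]]]]]],[[[[[[Int.ofNat (nat_lit 0),Int.ofNat (nat_lit 1357876281004645788)]],[[Int.ofNat (nat_lit 1041455958863899428)]]]],[[[[Int.ofNat (nat_lit 10246784086282294568)]]]]]],[[[[[[Int.negSucc (nat_lit 17387003963847929061)]]]]]]],[[[[[[[Int.ofNat (nat_lit 216852061325466166656)]]],[[[Int.ofNat (nat_lit 21045066348982477014)]]]]],[[[[[Int.negSucc (nat_lit 41453922678372969001)]]]]]],[],[[[[[[Int.negSucc (nat_lit 12458512412601829619)]]]]]]],[[[[[[[Int.negSucc (nat_lit 157912551116983042957)]]]]]]]],[[[[[[[[Int.ofNat (nat_lit 0),Int.negSucc (nat_lit 8597095540176755293)]],[[Int.negSucc (nat_lit 864162515361396001)]]]],[[[[Int.ofNat (nat_lit 7380145390785688904)]]]]]],[[[[[[Int.negSucc (nat_lit 41160987771840977613)]]]]],[[[[[Int.negSucc (nat_lit 1556818609011605119)]]]]]]],[[[[],[[[[Int.ofNat (nat_lit 1224042654137569006)]]]]]],[[[[[[Int.ofNat (nat_lit 32715639651710542646)]]]]]]]],[[[[[[[[Int.ofNat (nat_lit 85955183610553733422)]]],[[[Int.ofNat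 (nat_lit 1505206708990389432)]]]]],[[[[[Int.negSucc (nat_lit 2835250179110726137)]]]]]]],[[[[[[[Int.negSucc (nat_lit 67633713600629070205)]]]]]]]],[[[],[[[[[[Int.ofNat (nat_lit 1774010311749784528)]]]]]]]],[[[[[[[[Int.negSucc (nat_lit 26821704838603747763)]]]]]]]]],[[[[[[[[],[[Int.ofNat (nat_lit 0),Int.negSucc (nat_lit 118834245320739471)]],[[Int.ofNat (nat_lit 200535091409721726)]]]],[[[[Int.ofNat (nat_lit 0),Int.ofNat (nat_lit 82411658085777932726)]],[[Int.ofNat (nat_lit 2764315817214418898)]]]],[[[[Int.negSucc (nat_lit 105128254371702683981)]]]]]],[[[[[[Int.ofNat (nat_lit 0),Int.ofNat (nat_lit 85301482527272628416)]],[[Int.negSucc (nat_lit 8330815691314185119)]]]],[[[[Int.ofNat (nat_lit 54116517259267582428)]]]]],[[],[[[[Int.negSucc (nat_lit 12114608916864904517)]]]]]],[[[[[[Int.negSucc (nat_lit 230368836138568884587)]]]]],[[[[[Int.negSucc (nat_lit 37018667778637858729)]]]]]]],[[[[],[],[[[[Int.ofNat (nat_lit 19727695307773912250)]]]]]],[[[[[],[[Int.ofNat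 (nat_lit 612128937493458220)]]]],[[[[Int.ofNat (nat_lit 48383917793585158142)]]]]]],[[[[[[Int.ofNat (nat_lit 11084460422525857502)]]]]]]]],[[[[[[[[Int.ofNat (nat_lit 0),Int.ofNat (nat_lit 14335068275887721486)]],[[Int.negSucc (nat_lit 5995683080824468365)]]]],[[[[Int.negSucc (nat_lit 172188765796428479299)]]],[[[Int.negSucc (nat_lit 5533954442360038639)]]]]],[[[[],[[Int.ofNat (nat_lit 6084362593596859226)]]]],[[[[Int.negSucc (nat_lit 18021169588510526831)]]]]]],[[[[[[Int.ofNat (nat_lit 86722960637780656692)]]],[[[Int.ofNat (nat_lit 2613365639880927802)]]]]],[[[[[Int.ofNat (nat_lit 48681655108677198594)]]]]]]],[[[[[[[Int.ofNat (nat_lit 0),Int.ofNat (nat_lit 931493735042775212)]],[[Int.negSucc (nat_lit 5257831529938068481)]]]],[[[[Int.ofNat (nat_lit 89807388198833640076)]]]]]],[[[[[[Int.ofNat (nat_lit 112228799472636778096)]]]]]]],[[],[[[[[[Int.ofNat (nat_lit 4939251267183165728)]]]]]]]],[[[[[[[[Int.negSucc (nat_lit 242653676937118406319)]]],[[[Int.ofNat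 (nat_lit 8535518120026769920)]]]]],[[[[[Int.negSucc (nat_lit 55834391656003508345)]]]]]],[[[],[[[[Int.ofNat (nat_lit 12430137031044709006)]]]]]],[[[[[[Int.negSucc (nat_lit 21528411961946156225)]]]]]]],[[[[[[[Int.ofNat (nat_lit 34199235601847652028)]]]]],[[[[[Int.negSucc (nat_lit 23758922191925818009)]]]]]]],[[[[[[[Int.negSucc (nat_lit 35714256281702282197)]]]]]]]],[[[[[[[],[[Int.negSucc (nat_lit 824760213394171649)]]]],[[[[Int.ofNat (nat_lit 5985610565613933426)]]]]]],[[[[[[Int.negSucc (nat_lit 28654620982880966719)]]]]]]]],[[[[[[[[Int.negSucc (nat_lit 7438046383650704407)]]]]]]],[[[[[[[Int.negSucc (nat_lit 1819678854647030905)]]]]]]]]],[[[[[[],[[[],[[Int.ofNat (nat_lit 5620927460541729428)]]]],[[[[Int.negSucc (nat_lit 61887095523955470849)]]]]]],[[[[[[Int.ofNat (nat_lit 0),Int.negSucc (nat_lit 17953287071390828789)]],[[Int.negSucc (nat_lit 4778011684140436601)]]]],[[[[Int.negSucc (nat_lit 13883032955695598395)]]]]]],[[[[[[Int.negSucc (nat_lit 87039600064795354535)]]]]]]],[[],[],[[[[[[Int.negSucc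 (nat_lit 10607862091782340887)]]]]]]]],[[[[[[[[Int.ofNat (nat_lit 0),Int.ofNat (nat_lit 18456875509695957498)]],[[Int.negSucc (nat_lit 16329273455233171715)]]]],[[[[Int.negSucc (nat_lit 100181266977757497279)]]]]]],[[[[[[Int.negSucc (nat_lit 118612489417873234757)]]]]],[[[[[Int.negSucc (nat_lit 743908601240845617)]]]]]]],[[[[],[[[[Int.ofNat (nat_lit 18350800635575973042)]]]]]],[[[[[[Int.ofNat (nat_lit 94874400157059735224)]]]]]]]],[[[[[[[[Int.negSucc (nat_lit 203557315836102080159)]]],[[[Int.ofNat (nat_lit 2438808198713126668)]]]]],[[[[[Int.negSucc (nat_lit 40006512846612568231)]]]]]]],[[[[[[[Int.negSucc (nat_lit 42463722122296731497)]]]]]]]],[[[],[[[[[[Int.negSucc (nat_lit 2639189811439453239)]]]]]]]],[[[[[[[[Int.negSucc (nat_lit 37176771202265508249)]]]]]]]]],[[[[],[[[],[[[[Int.negSucc (nat_lit 26930807686444336327)]]]]]],[[[[[[Int.negSucc (nat_lit 40653795352508152003)]]]]]]]],[[[[[[[],[[Int.negSucc (nat_lit 3080171235991360251)]]]],[[[[Int.negSucc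 (nat_lit 15141903748587905493)]]]]]],[[[[[[Int.negSucc (nat_lit 77376673015597389987)]]]]]]]],[[[[[[[[Int.negSucc (nat_lit 219262216312588038755)]]]]]]],[[[[[[[Int.negSucc (nat_lit 1795312080444233929)]]]]]]]]],[[],[[[],[[[[[[Int.negSucc (nat_lit 8450357672000444203)]]]]]]]],[[[[[[[[Int.negSucc (nat_lit 77553306267874642441)]]]]]]]]]]

/-- A coefficient. -/
noncomputable def sr3_m0_1_1 : MP 10 :=
  [[[[[[[[[[Int.ofNat (nat_lit 0),Int.ofNat (nat_lit 495667147784442576532)],[Int.ofNat (nat_lit 0),Int.negSucc (nat_lit 22599030984035619761)]],[[Int.ofNat (nat_lit 16691826143480701530)],[Int.negSucc (nat_lit 2305552794876826395)]]],[[[Int.ofNat (nat_lit 0),Int.negSucc (nat_lit 3647497991627264033)]],[[Int.negSucc (nat_lit 4718095506103044721)]]]],[[[[Int.ofNat (nat_lit 81196257212481357564)],[Int.negSucc (nat_lit 13331577927613515563)]]],[[[Int.negSucc (nat_lit 32958785003819209573)]]]]],[[[[[Int.ofNat (nat_lit 0),Int.negSucc (nat_lit 49286616554808887153)]],[[Int.negSucc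 (nat_lit 6295686297868240885)]]]],[[[[Int.negSucc (nat_lit 43673275445944289863)]]]]]],[[[[[[Int.negSucc (nat_lit 603211009032399366977)],[Int.ofNat (nat_lit 59883591613626824480)]]],[[[Int.ofNat (nat_lit 8274630073180549324)]]]]],[[[[[Int.negSucc (nat_lit 132152328723027362579)]]],[[[Int.negSucc (nat_lit 8582728793691283665)]]]]],[[[[[Int.negSucc (nat_lit 36331690320216640111)]]]]]],[[[[[[Int.ofNat (nat_lit 0),Int.ofNat (nat_lit 46263434035773414554)]],[[Int.ofNat (nat_lit 4135166462278368452)]]]],[[[[Int.ofNat (nat_lit 26673743781485424374)]]]]]],[[[[[[Int.negSucc (nat_lit 47140919258542328787)]]]]]]],[[[[[[[Int.ofNat (nat_lit 0),Int.negSucc (nat_lit 144258343570544607297)]],[[Int.negSucc (nat_lit 21011231853320724313)]]]],[[[[Int.ofNat (nat_lit 155616002754928441928)]]],[[[Int.ofNat (nat_lit 10878483466888529458)]]]]],[[],[[[[Int.ofNat (nat_lit 46018990504068525684)]]]]]],[[[[[[Int.ofNat (nat_lit 244376650572550266278)],[Int.negSucc (nat_lit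 77438434601084274707)]]],[[[Int.ofNat (nat_lit 597487757432091692)]]]]],[[[[[Int.negSucc (nat_lit 15277709458375287381)]]]]]],[],[[[[[[Int.ofNat (nat_lit 14858362159206942224)]]]]]]],[[[[[[[Int.ofNat (nat_lit 0),Int.negSucc (nat_lit 60006904409804316555)]],[[Int.ofNat (nat_lit 3096732807939275016)]]]],[[[[Int.negSucc (nat_lit 11889019484234416549)]]]]]],[[[[[[Int.ofNat (nat_lit 50799398263029836378)]]]]]]],[[],[[[[[[Int.negSucc (nat_lit 8578918104203370931)]]]]]]]],[[[[[[[[Int.ofNat (nat_lit 442002710355489684726)],[Int.negSucc (nat_lit 737291186476339795)]]],[[[Int.negSucc (nat_lit 12832413034544106611)]]],[[[Int.negSucc (nat_lit 1525657796659538375)]]]],[[[[Int.ofNat (nat_lit 0),Int.ofNat (nat_lit 18290129657781996846)]],[[Int.ofNat (nat_lit 3054301055789076492)]]]],[[[[Int.ofNat (nat_lit 26137120934505263884)]]]]],[[[[[Int.ofNat (nat_lit 156932164815518155784)],[Int.negSucc (nat_lit 4564199919733662613)]]],[[[Int.negSucc (nat_lit 6127339713870161579)]]]]],[[[[[Int.ofNat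 (nat_lit 85397053887204956896)]]]]]],[[[[[[Int.ofNat (nat_lit 0),Int.ofNat (nat_lit 96323976041068378744)]],[[Int.negSucc (nat_lit 15718109649124110257)]]]],[[[[Int.negSucc (nat_lit 16181653901579918777)]]]]]],[[[[[[Int.ofNat (nat_lit 127429378996206442444)]]]]],[[[[[Int.ofNat (nat_lit 50112478981211344700)]]]]]]],[[[[[[[Int.negSucc (nat_lit 231034502919678599627)],[Int.negSucc (nat_lit 8435010027241460437)]]],[[[Int.negSucc (nat_lit 44238285964334521733)]]]]],[[[[[Int.ofNat (nat_lit 64342627593237452356)]]]]]],[[[],[[[[Int.ofNat (nat_lit 8305870486796336210)]]]]]],[[[[[[Int.ofNat (nat_lit 54189968410477497998)]]]]]]],[[[[[[[Int.ofNat (nat_lit 121498437331153285776)]]]]],[[[[[Int.negSucc (nat_lit 10201926037395749039)]]]]]]],[[[[[[[Int.negSucc (nat_lit 59582213009987640443)]]]]]]]],[[[[[[[[Int.ofNat (nat_lit 0),Int.negSucc (nat_lit 58331204274513702239)]],[[Int.negSucc (nat_lit 5134281287120644523)]]]],[[[[Int.negSucc (nat_lit 59981667219092781293)]]]]],[[],[[[[Int.ofNat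 (nat_lit 32609319540213557968)]]]]]],[[[[[[Int.negSucc (nat_lit 74558469162684080739)]]],[[[Int.negSucc (nat_lit 2924875784345354317)]]]]],[[[[[Int.negSucc (nat_lit 35658819388938850009)]]]]]]],[[[[],[[[[Int.ofNat (nat_lit 75638794149222242636)]]]]]],[[[[[[Int.ofNat (nat_lit 135070733328026944084)]]]]]]]],[[[[[[[[Int.negSucc (nat_lit 149789077725050366877)],[Int.negSucc (nat_lit 378148404908979655)]]],[[[Int.ofNat (nat_lit 17989446663022073018)]]]]],[[[[[Int.negSucc (nat_lit 31248171707186514351)]]]]]],[],[[[[[[Int.negSucc (nat_lit 5051178949557337631)]]]]]]],[[[[[[[Int.ofNat (nat_lit 65123741433623826828)]]]]]]],[[[[[[[Int.negSucc (nat_lit 12804449756933612137)]]]]]]]],[[[[[],[[[[Int.ofNat (nat_lit 5623596513250885396)]]]]]],[[[[[[Int.ofNat (nat_lit 79432739655312382298)]]]]]]]],[[[[[[[[Int.ofNat (nat_lit 23534262150339627830)]]]]]]]]],[[[[[[[[[Int.ofNat (nat_lit 0),Int.ofNat (nat_lit 36942277572517561664)]],[[Int.negSucc (nat_lit 570887510937199109)]]],[[],[[Int.ofNat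 (nat_lit 1349739555204153464)]]]],[[[[Int.negSucc (nat_lit 56235607591690841281)],[Int.ofNat (nat_lit 8171948125838407104)]]],[[[Int.negSucc (nat_lit 31272536800920772031)]]]]],[[[[],[[Int.negSucc (nat_lit 3676656630498027767)]]]],[[[[Int.negSucc (nat_lit 56576584028470911875)]]]]]],[[[[[[Int.negSucc (nat_lit 398135346012727839567)],[Int.negSucc (nat_lit 12051864562716432207)]]],[[[Int.negSucc (nat_lit 6035412824374854793)]]]]],[[[[[Int.negSucc (nat_lit 278966290764527547575)]]]]]],[[[],[[[[Int.ofNat (nat_lit 28848148729991022062)]]]]]],[[[[[[Int.ofNat (nat_lit 17046812286525262458)]]]]]]],[[[[[[[Int.ofNat (nat_lit 0),Int.ofNat (nat_lit 26260534725303047168)]],[[Int.ofNat (nat_lit 1201404612366270396)]]]],[[[[Int.ofNat (nat_lit 242725886346634504828)]]]]]],[[[[[[Int.ofNat (nat_lit 23939191395532648970)]]]]],[[[[[Int.ofNat (nat_lit 10796213212896616086)]]]]]]],[[[[],[[[[Int.negSucc (nat_lit 19242539180349931561)]]]]]],[[[[[[Int.ofNat (nat_lit 78419837753299463664)]]]]]]]],[[[[[[[[Int.ofNat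 (nat_lit 262000388136418150160)],[Int.negSucc (nat_lit 2841636604830851949)]]],[[[Int.negSucc (nat_lit 47037609460341416669)]]]],[],[[[[Int.ofNat (nat_lit 8621451483396392228)]]]]],[[[[[Int.ofNat (nat_lit 184015330816202663142)]]]]]],[[[[[],[[Int.ofNat (nat_lit 4538177094794718486)]]]],[[[[Int.negSucc (nat_lit 28775191670475338613)]]]]]],[[[[[[Int.ofNat (nat_lit 175075864852238568564)]]]]]]],[[[[[[[Int.ofNat (nat_lit 194330911397688792406)]]],[[[Int.ofNat (nat_lit 24654790543831008562)]]]]],[[[[[Int.ofNat (nat_lit 3175165133156299584)]]]]]]],[[[[[[[Int.negSucc (nat_lit 77004084162255458069)]]]]]]]],[[[[[[[],[[Int.negSucc (nat_lit 5216925354468966903)]]]],[[[[Int.negSucc (nat_lit 9080410959781782447)]]]]]],[[[[[[Int.ofNat (nat_lit 96957016716972058148)]]]]]]],[[],[[[[[[Int.ofNat (nat_lit 1352757481668109674)]]]]]]]],[[[[[[[[Int.negSucc (nat_lit 18191131763674433665)]]]]]]],[[[[[[[Int.negSucc (nat_lit 27047601057209107505)]]]]]]]]],[[[[[[[[[Int.ofNat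 (nat_lit 0),Int.ofNat (nat_lit 21336144290114294720)]],[[Int.negSucc (nat_lit 17615866687318027573)]]]],[[[[Int.negSucc (nat_lit 94114020743437059203)]]]]]],[[[[[[Int.negSucc (nat_lit 256795248692414753929)]]],[[[Int.negSucc (nat_lit 16341741880611419039)]]]]],[[[[[Int.negSucc (nat_lit 85664198708800095013)]]]]]]],[[[[[[],[[Int.negSucc (nat_lit 3161181300436769477)]]]],[[[[Int.ofNat (nat_lit 73916458255157112798)]]]]]],[[[[[[Int.ofNat (nat_lit 144912867949754063560)]]]]]]]],[[[[[[[[Int.ofNat (nat_lit 149629882093523543624)],[Int.ofNat (nat_lit 1274011388205367974)]]],[[[Int.negSucc (nat_lit 132584027708831823)]]]]],[[[[[Int.ofNat (nat_lit 87319707332111041612)]]]]]],[],[[[[[[Int.ofNat (nat_lit 35411200121532276902)]]]]]]],[[[[[[[Int.ofNat (nat_lit 264006052285293164926)]]]]]]],[[[[[[[Int.negSucc (nat_lit 49617557407895646903)]]]]]]]],[[[[[],[[[[Int.ofNat (nat_lit 26380613237782290376)]]]]]],[[[[[[Int.ofNat (nat_lit 77654095883648892336)]]]]]]]],[[[[[[[[Int.negSucc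 (nat_lit 6293589534427004613)]]]]]]]]],[[[[[[[[],[[Int.negSucc (nat_lit 9118894122693591579)]]]],[[[[Int.negSucc (nat_lit 19213656822177364959)]]]]]],[[[[[[Int.negSucc (nat_lit 177125859297578711153)]]]]]]],[[],[[[[[[Int.ofNat (nat_lit 49386954161455049780)]]]]]]]],[[[[[[[[Int.ofNat (nat_lit 59999501172979007600)]]]]]]],[[[[[[[Int.ofNat (nat_lit 57792612908640047582)]]]]]]]]],[[[[],[[[[[[Int.negSucc (nat_lit 35562372661492044475)]]]]]]]],[[[[[[[[Int.negSucc (nat_lit 7954017847385178955)]]]]]]]]]]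

/-- A coefficient. -/
noncomputable def sr3_m0_1_2 : MP 10 :=
  [[[[[[[[[[Int.negSucc (nat_lit 1057472648029360779475)],[Int.ofNat (nat_lit 52001616561920350138)]]],[[[Int.negSucc (nat_lit 1806524619043610755)],[Int.ofNat (nat_lit 1107987670183990988)]]],[[[Int.negSucc (nat_lit 14631012663937734151)]]]],[[[[Int.ofNat (nat_lit 0),Int.negSucc (nat_lit 10419093711896053887)]],[[Int.ofNat (nat_lit 6788440423897463152)]]]],[[[[Int.ofNat (nat_lit 37038526450689453236)]]]]],[[[[[Int.negSucc (nat_lit 293985416966661962043)],[Int.ofNat (nat_lit 11910563415357753760)]]],[[[Int.negSucc (nat_lit 28488061572992616925)]]]]],[[[[[Int.negSucc (nat_lit 107833458955297519209)]]]]]],[[[[[[Int.ofNat (nat_lit 0),Int.ofNat (nat_lit 24855729509084913056)]],[[Int.ofNat (nat_lit 22737000277725395236)]]]],[[[[Int.negSucc (nat_lit 34991027971262591117)]]]]],[[],[[[[Int.ofNat (nat_lit 4599604229270868842)]]]]]],[[[[[[Int.negSucc (nat_lit 67026755901074362753)]]],[[[Int.ofNat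 (nat_lit 12170362509647879654)]]]]],[[[[[Int.negSucc (nat_lit 37265857239974060955)]]]]]]],[[[[[[[Int.ofNat (nat_lit 990758367012283112790)],[Int.ofNat (nat_lit 30714439635834987422)]]],[[[Int.ofNat (nat_lit 9169648431186006496)]]]],[],[[[[Int.negSucc (nat_lit 13058024447396708181)]]]]],[[[[[Int.ofNat (nat_lit 81262826222711604596)]]]]]],[[[],[[[[Int.negSucc (nat_lit 35090088377455505913)]]]]]],[[[[[[Int.ofNat (nat_lit 91139304592176536604)]]]]]]],[[[[[[[Int.negSucc (nat_lit 566547008265873723157)]]],[[[Int.negSucc (nat_lit 2650557091938995951)]]]]],[[[[[Int.negSucc (nat_lit 6085977437232874043)]]]]]]],[[[[[[[Int.ofNat (nat_lit 111352021494239435718)]]]]]]]],[[[[[[[[Int.ofNat (nat_lit 0),Int.negSucc (nat_lit 92688587597172477631)]],[[Int.ofNat (nat_lit 25763412680180065544)]]]],[[[[Int.ofNat (nat_lit 1262424663294496272)]]],[[[Int.ofNat (nat_lit 6743848846853388556)]]]]],[[],[[[[Int.ofNat (nat_lit 28313860495068287032)]]]]]],[[[[[[Int.ofNat (nat_lit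 130151856367751881738)],[Int.ofNat (nat_lit 24002208788986290330)]]],[[[Int.ofNat (nat_lit 25141804225985938936)]]]]],[[[[[Int.ofNat (nat_lit 43478859816805355962)]]]]]],[],[[[[[[Int.ofNat (nat_lit 22448987616083675202)]]]]]]],[[[[],[[[[Int.negSucc (nat_lit 3343074084223783087)]]]]]],[[[[[[Int.negSucc (nat_lit 370902670935497896129)]]]]]]],[[],[[[[[[Int.ofNat (nat_lit 107194136013393744004)]]]]]]]],[[[[[[[[Int.ofNat (nat_lit 358885047548951789434)],[Int.ofNat (nat_lit 34545261033994004548)]]],[[[Int.negSucc (nat_lit 79901307819212031699)]]]]],[[[[[Int.ofNat (nat_lit 321488366699879709810)]]]]]],[[[],[[[[Int.negSucc (nat_lit 33991787867518130919)]]]]]],[[[[[[Int.negSucc (nat_lit 353727075660350796989)]]]]]]],[[[[[[[Int.negSucc (nat_lit 233093734447475118399)]]]]]]],[[[[[[[Int.ofNat (nat_lit 46602327768866027606)]]]]]]]],[[[[[],[[[[Int.ofNat (nat_lit 66944633425924598572)]]]]]],[[[[[[Int.ofNat (nat_lit 52823829678038781986)]]]]]]]],[[[[[[[[Int.negSucc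 (nat_lit 142716955151164478621)]]]]]]]]],[[[[[[[[[Int.negSucc (nat_lit 750652921680125805617)],[Int.ofNat (nat_lit 105875925263770953464)]]],[[[Int.negSucc (nat_lit 58236139569140114583)]]]],[[[],[[Int.negSucc (nat_lit 4147420992892713011)]]]],[[[[Int.ofNat (nat_lit 49090588503095390594)]]]]],[[[[[Int.negSucc (nat_lit 271419980674905957261)]]]]]],[[[[[],[[Int.ofNat (nat_lit 5784800188591744038)]]]],[[[[Int.negSucc (nat_lit 81581519031926869357)]]]]]],[[[[[[Int.ofNat (nat_lit 2051682556327315044)]]]]]]],[[[[[[[Int.ofNat (nat_lit 563931468382305512854)],[Int.ofNat (nat_lit 42927655521308973472)]]],[[[Int.negSucc (nat_lit 22923197003001344651)]]]]],[[[[[Int.ofNat (nat_lit 98284556372676579948)]]]]]],[],[[[[[[Int.negSucc (nat_lit 40486165381352044561)]]]]]]],[[[[[[[Int.negSucc (nat_lit 237115789570070266037)]]]]]]],[[[[[[[Int.negSucc (nat_lit 29357825484386386193)]]]]]]]],[[[[[[[[Int.ofNat (nat_lit 0),Int.ofNat (nat_lit 83480404069248786848)]],[[Int.ofNat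 (nat_lit 244303909270632362)]]]],[[[[Int.ofNat (nat_lit 5866081381303271350)]]]]]],[[[[[[Int.negSucc (nat_lit 221630528169454368243)]]]]],[[[[[Int.negSucc (nat_lit 12509085448452417701)]]]]]]],[[[[],[[[[Int.ofNat (nat_lit 19712645794148262994)]]]]]],[[[[[[Int.ofNat (nat_lit 21946743714800092782)]]]]]]]],[[[[[[[[Int.ofNat (nat_lit 157973088866936948872)]]],[[[Int.ofNat (nat_lit 1748047329185321394)]]]]],[[[[[Int.negSucc (nat_lit 39443730444978325505)]]]]]]],[[[[[[[Int.ofNat (nat_lit 7043694750316894396)]]]]]]]],[[[],[[[[[[Int.ofNat (nat_lit 21801794582159070720)]]]]]]]],[[[[[[[[Int.negSucc (nat_lit 11024255474056695113)]]]]]]]]],[[[[[[[[[Int.negSucc (nat_lit 96345061261631160887)],[Int.ofNat (nat_lit 96641315955039975216)]]],[[[Int.negSucc (nat_lit 19762735003134009641)]]]]],[[[[[Int.ofNat (nat_lit 5491549701750011642)]]]]]],[[[],[[[[Int.ofNat (nat_lit 8468396025270143290)]]]]]],[[[[[[Int.negSucc (nat_lit 9564658741326828163)]]]]]]],[[[[[[[Int.negSucc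 (nat_lit 65363940871196084077)]]]]]]],[[[[[[[Int.ofNat (nat_lit 44691145347540860652)]]]]]]]],[[[[[[[],[[Int.ofNat (nat_lit 8005335224757774976)]]]],[[[[Int.negSucc (nat_lit 73675579600386780593)]]]]]],[[[[[[Int.negSucc (nat_lit 39632428188971199189)]]]]]]]],[[[[[[[[Int.ofNat (nat_lit 193402641907328152836)]]]]]]],[[[[[[[Int.negSucc (nat_lit 16779331938441236779)]]]]]]]]],[[],[[[],[[[[[[Int.ofNat (nat_lit 25947063028010372408)]]]]]]]],[[[[[[[[Int.ofNat (nat_lit 72653653948235376478)]]]]]]]]]]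

/-- A coefficient. -/
noncomputable def sr3_m0_1_3 : MP 10 :=
  [[[[[[[[[[Int.ofNat (nat_lit 0),Int.negSucc (nat_lit 27192605584858854943)]],[[Int.ofNat (nat_lit 31931072193341940620)]]]],[[[[Int.negSucc (nat_lit 130988043681816825789)],[Int.negSucc (nat_lit 58042469247130536553)]]],[[[Int.ofNat (nat_lit 26975350826785324454)]]]]],[[],[[[[Int.negSucc (nat_lit 46495509520663407481)]]]]]],[[[[[[Int.ofNat (nat_lit 399538602952892740336)],[Int.ofNat (nat_lit 19378629633334668884)]]],[[[Int.negSucc (nat_lit 53628911163023434453)]]]]],[[[[[Int.ofNat (nat_lit 384153582136482513782)]]]]]],[[[],[[[[Int.negSucc (nat_lit 6284389412972982509)]]]]]],[[[[[[Int.negSucc (nat_lit 22260690818650574143)]]]]]]],[[[[[[[Int.ofNat (nat_lit 0),Int.ofNat (nat_lit 14766105789921354176)]],[[Int.ofNat (nat_lit 9489201868749977368)]]]],[[[[Int.negSucc (nat_lit 376807464373272117701)]]]]]],[[[[[[Int.negSucc (nat_lit 160597227143733709617)]]]]],[[[[[Int.negSucc (nat_lit 29304508427360562921)]]]]]]],[[[[],[[[[Int.ofNat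 (nat_lit 31570469790708631232)]]]]]],[[[[[[Int.ofNat (nat_lit 74150643599818496180)]]]]]]]],[[[[[[[[Int.negSucc (nat_lit 735699294040227997789)],[Int.ofNat (nat_lit 75587109937613626948)]]],[[[Int.ofNat (nat_lit 2699740642734146160)]]]],[],[[[[Int.negSucc (nat_lit 12022800914218585975)]]]]],[[[[[Int.negSucc (nat_lit 637547231767153462169)]]]]]],[[[],[[[[Int.ofNat (nat_lit 73407236965526573074)]]]]]],[[[[[[Int.negSucc (nat_lit 40125270075866482253)]]]]]]],[[[[[[[Int.ofNat (nat_lit 423210609522821418280)]]],[[[Int.ofNat (nat_lit 2006676725905347058)]]]]],[[[[[Int.negSucc (nat_lit 26749802436826973063)]]]]]]],[[[[[[[Int.negSucc (nat_lit 28270855691795182011)]]]]]]]],[[[[[],[[[[Int.negSucc (nat_lit 197740578833784641945)]]]]]],[[[[[[Int.negSucc (nat_lit 52426245081229803001)]]]]]]],[[],[[[[[[Int.ofNat (nat_lit 56065988789724355066)]]]]]]]],[[[[[[[[Int.ofNat (nat_lit 18412579696861857888)]]]]]]],[[[[[[[Int.negSucc (nat_lit 3378919641460213459)]]]]]]]]],[[[[[[[[[Int.ofNat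 (nat_lit 0),Int.negSucc (nat_lit 64871398847141740351)]],[[Int.ofNat (nat_lit 73590050533178301028)]]]],[[[[Int.ofNat (nat_lit 58426013736308123578)]]]]]],[[[[[[Int.ofNat (nat_lit 399228959620423907226)]]]]],[[[[[Int.ofNat (nat_lit 213331061368049787812)]]]]]]],[[[[[[],[[Int.ofNat (nat_lit 1647624323107019288)]]]],[[[[Int.negSucc (nat_lit 279198474542653425411)]]]]]],[[[[[[Int.negSucc (nat_lit 67917626635250087723)]]]]]]]],[[[[[[[[Int.negSucc (nat_lit 492875711564704680271)],[Int.ofNat (nat_lit 29356563138372958698)]]],[[[Int.negSucc (nat_lit 32549364655403800169)]]]]],[[[[[Int.negSucc (nat_lit 154671216681734867777)]]]]]],[],[[[[[[Int.negSucc (nat_lit 35575901604012900139)]]]]]]],[[[[[[[Int.negSucc (nat_lit 244171841392645125231)]]]]]]],[[[[[[[Int.ofNat (nat_lit 33700246599833603352)]]]]]]]],[[[[[],[[[[Int.negSucc (nat_lit 10858773742596837477)]]]]]],[[[[[[Int.negSucc (nat_lit 152912792781453958841)]]]]]]]],[[[[[[[[Int.negSucc (nat_lit 41918340421000440057)]]]]]]]]],[[[[[[[[],[[Int.ofNat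 (nat_lit 30098175227722433364)]]]],[[[[Int.ofNat (nat_lit 89843250736054243662)]]]]]],[[[[[[Int.ofNat (nat_lit 244960776310337403360)]]]]]]],[[],[[[[[[Int.negSucc (nat_lit 5204459885583366511)]]]]]]]],[[[[[[[[Int.negSucc (nat_lit 199350571009769698877)]]]]]]],[[[[[[[Int.negSucc (nat_lit 164730992641531235421)]]]]]]]]],[[[[],[[[[[[Int.ofNat (nat_lit 62122456140243796402)]]]]]]]],[[[[[[[[Int.negSucc (nat_lit 99311485765021427147)]]]]]]]]]]

/-- A coefficient. -/
noncomputable def sr3_m0_1_4 : MP 10 :=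
  [[[[[[[[[[Int.ofNat (nat_lit 1372168208126162957116)],[Int.negSucc (nat_lit 109084795971666896183)]]],[[[Int.ofNat (nat_lit 162354503008599638794)]]]]],[[[[[Int.ofNat (nat_lit 454728197823302866518)]]]]]],[],[[[[[[Int.ofNat (nat_lit 216760539185155861782)]]]]]]],[[[[[[[Int.negSucc (nat_lit 973014828318773183625)],[Int.ofNat (nat_lit 61596858246303030568)]]],[[[Int.negSucc (nat_lit 45197197406746061739)]]]]],[[[[[Int.ofNat (nat_lit 36613732475602609930)]]]]]],[],[[[[[[Int.negSucc (nat_lit 86133129980385808179)]]]]]]],[[[[[[[Int.ofNat (nat_lit 433448485012263137878)]]]]]]],[[[[[[[Int.negSucc (nat_lit 47493783998962808421)]]]]]]]],[[[[[[[[Int.ofNat (nat_lit 0),Int.ofNat (nat_lit 134552067803423292000)]],[[Int.negSucc (nat_lit 25332157223091235811)]]]],[[[[Int.ofNat (nat_lit 175114903686844076774)]]]]]],[[[[[[Int.negSucc (nat_lit 843295192577816405193)]]]]],[[[[[Int.ofNat (nat_lit 63437922696874821740)]]]]]]],[[[[],[[[[Int.negSucc (nat_lit 56559577412260009797)]]]]]],[[[[[[Int.ofNat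 (nat_lit 144705252708355897368)]]]]]]]],[[[[[[[[Int.ofNat (nat_lit 426524652771684854632)]]],[[[Int.ofNat (nat_lit 12192278045989831398)]]]]],[[[[[Int.negSucc (nat_lit 224680763420069271145)]]]]]]],[[[[[[[Int.negSucc (nat_lit 111126500056690808357)]]]]]]]],[[[],[[[[[[Int.negSucc (nat_lit 21703617558195964929)]]]]]]]],[[[[[[[[Int.negSucc (nat_lit 69399543914751247409)]]]]]]]]],[[[[[[[[[Int.ofNat (nat_lit 751595591552764132094)],[Int.negSucc (nat_lit 61447013978281520613)]]],[[[Int.ofNat (nat_lit 95565009842398267430)]]]]],[[[[[Int.ofNat (nat_lit 212294938517629969542)]]]]]],[],[[[[[[Int.ofNat (nat_lit 89737551387672971680)]]]]]]],[[[[[[[Int.negSucc (nat_lit 423230589742210646209)]]]]]]],[[[[[[[Int.ofNat (nat_lit 13656448235161019266)]]]]]]]],[[[[[[[],[[Int.ofNat (nat_lit 5619775866661025998)]]]],[[[[Int.ofNat (nat_lit 34248710058719953286)]]]]]],[[[[[[Int.negSucc (nat_lit 43375241604931415165)]]]]]]]],[[[[[[[[Int.ofNat (nat_lit 46448408251702827436)]]]]]]],[[[[[[[Int.negSucc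 (nat_lit 68093260524216291613)]]]]]]]]],[[],[[[],[[[[[[Int.negSucc (nat_lit 2349288745211657423)]]]]]]]],[[[[[[[[Int.negSucc (nat_lit 136047678784647728969)]]]]]]]]]]

/-- A coefficient. -/
noncomputable def sr3_m0_1_5 : MP 10 :=
  [[[[[[[[[[Int.ofNat (nat_lit 0),Int.negSucc (nat_lit 155340477852592262463)]],[[Int.negSucc (nat_lit 28179390979502706247)]]]],[[[[Int.ofNat (nat_lit 23728747234721852236)]]]]]],[[[[[[Int.negSucc (nat_lit 25871764940628615639)]]]]],[[[[[Int.negSucc (nat_lit 224683077330463610595)]]]]]]],[[[[],[[[[Int.ofNat (nat_lit 223070022245185197794)]]]]]],[[[[[[Int.ofNat (nat_lit 9774723354169640002)]]]]]]]],[[[[[[[[Int.ofNat (nat_lit 281203888841179581174)],[Int.negSucc (nat_lit 31123887568340578011)]]],[[[Int.negSucc (nat_lit 12241398393357394649)]]]]],[[[[[Int.ofNat (nat_lit 493139253726045064234)]]]]]],[],[[[[[[Int.ofNat (nat_lit 43806383666901348040)]]]]]]],[[[[[[[Int.negSucc (nat_lit 225080156388595590497)]]]]]]],[[[[[[[Int.ofNat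 (nat_lit 26755850765639339498)]]]]]]]],[[[[[],[[[[Int.ofNat (nat_lit 151428152091691649680)]]]]]],[[[[[[Int.negSucc (nat_lit 2147865816952277931)]]]]]]]],[[[[[[[[Int.ofNat (nat_lit 158334655000674425880)]]]]]]]]],[[[[[[[[],[[Int.negSucc (nat_lit 52678720333931512893)]]]],[[[[Int.ofNat (nat_lit 38844440413861203776)]]]]]],[[[[[[Int.negSucc (nat_lit 55201590334949568369)]]]]]]]],[[[[[[[[Int.ofNat (nat_lit 156168219855687938944)]]]]]]],[[[[[[[Int.ofNat (nat_lit 165755973831279821592)]]]]]]]]],[[[[],[[[[[[Int.negSucc (nat_lit 93354832777859275469)]]]]]]]],[[[[[[[[Int.ofNat (nat_lit 21555777238305620640)]]]]]]]]]]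

/-- A coefficient. -/
noncomputable def sr3_m0_1_6 : MP 10 :=
  [[[[[[[[[[Int.negSucc (nat_lit 380243899747604210025)],[Int.ofNat (nat_lit 9255334865362375328)]]],[[[Int.negSucc (nat_lit 119459532618274867747)]]]]],[[[[[Int.negSucc (nat_lit 248732903935550858641)]]]]]],[],[[[[[[Int.negSucc (nat_lit 95699183412066019309)]]]]]]],[[[[[[[Int.ofNat (nat_lit 137309768425872650566)]]]]]]],[[[[[[[Int.negSucc (nat_lit 55418174230585605297)]]]]]]]],[[[[[],[[[[Int.negSucc (nat_lit 66746295690142090981)]]]]]],[[[[[[Int.ofNat (nat_lit 591501776218444843182)]]]]]]]],[[[[[[[[Int.negSucc (nat_lit 428532875543369061901)]]]]]]]]]]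

/-- A coefficient. -/
noncomputable def sr3_m0_2_0 : MP 10 :=
  [[[[[[[[[],[[Int.ofNat (nat_lit 0),Int.negSucc (nat_lit 44119338368385215)]],[[Int.negSucc (nat_lit 72209750243641079)]]]],[[[[Int.ofNat (nat_lit 0),Int.negSucc (nat_lit 6200053788837280511)]],[[Int.ofNat (nat_lit 8749901694867086388)]]]],[[[[Int.negSucc (nat_lit 9647686540980583327)]]]]]],[[[[[[Int.ofNat (nat_lit 0),Int.ofNat (nat_lit 13829578999042570720)]],[[Int.ofNat (nat_lit 5679827783981375684)]]]],[[[[Int.ofNat (nat_lit 37562139445037169874)]]]]],[[[[],[[Int.negSucc (nat_lit 3843679722330898711)]]]],[[[[Int.ofNat (nat_lit 1263815661053235092)]]]]]],[[[[[[Int.ofNat (nat_lit 26780045435617926556)]]]]],[[[[[Int.ofNat (nat_lit 2872336454496915682)]]]]]]],[[[[],[[[],[[Int.ofNat (nat_lit 4636862451638986014)]]]],[[[[Int.ofNat (nat_lit 5101341943607113374)]]]]]],[[[[[],[[Int.ofNat (nat_lit 8416984683977134262)]]]],[[[[Int.negSucc (nat_lit 42713439210090228211)]]]]]],[[[[[[Int.ofNat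 (nat_lit 44210350468624595172)]]]]]]]],[[[[[[[[Int.ofNat (nat_lit 0),Int.ofNat (nat_lit 1052628865345323744)]],[[Int.ofNat (nat_lit 12908135496809553916)]]],[[],[[Int.ofNat (nat_lit 1581865953844690334)]]]],[[[[Int.negSucc (nat_lit 13138231029756537965)]]],[[[Int.negSucc (nat_lit 8208144646613096197)]]]]],[[[[],[[Int.ofNat (nat_lit 3881332612874886086)]]]],[[[[Int.ofNat (nat_lit 11388616530786550542)]]]]]],[[[[[[Int.negSucc (nat_lit 67017138608166754345)]]],[[[Int.ofNat (nat_lit 6279055523286655356)]]]]],[[[[[Int.ofNat (nat_lit 112314967618996757068)]]]]]]],[[[[[[[Int.ofNat (nat_lit 0),Int.negSucc (nat_lit 10436736094165805503)]],[[Int.negSucc (nat_lit 11588341591218059203)]]]],[[[[Int.negSucc (nat_lit 72542594883887192131)]]]]]],[[[[[[Int.ofNat (nat_lit 221569424903275488922)]]]]],[[[[[Int.ofNat (nat_lit 17928554266319044470)]]]]]]],[[[[],[[[[Int.negSucc (nat_lit 12270961122399819441)]]]]]],[[[[[[Int.negSucc (nat_lit 14608646365084132525)]]]]]]]],[[[[[[[[Int.negSucc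 (nat_lit 152567468639029781683)]]],[[[Int.negSucc (nat_lit 29592587715134241207)]]]]],[[[[[Int.negSucc (nat_lit 121083763556515053029)]]]]]],[[[[[],[[Int.negSucc (nat_lit 1792489553015677019)]]]],[[[[Int.negSucc (nat_lit 8649809532017556825)]]]]]],[[[[[[Int.ofNat (nat_lit 26969761072547019852)]]]]]]],[[[[[[[Int.ofNat (nat_lit 121672380288073645648)]]],[[[Int.negSucc (nat_lit 13782970679714067453)]]]]],[[[[[Int.ofNat (nat_lit 66229391378264980446)]]]]]]],[[[[[[[Int.ofNat (nat_lit 71762286573339865884)]]]]]]]],[[[[[[[],[[Int.ofNat (nat_lit 179707357943442380)]]]],[[[[Int.ofNat (nat_lit 8356107051002448912)]]]]]],[[[[[[Int.ofNat (nat_lit 39601526978045042288)]]]]]]],[[],[[[[[[Int.negSucc (nat_lit 23810743639243192131)]]]]]]]],[[[[[[[[Int.negSucc (nat_lit 34693410190732343533)]]]]]]],[[[[[[[Int.ofNat (nat_lit 19786248278959127800)]]]]]]]]],[[[[[[[[],[],[[Int.negSucc (nat_lit 2959107378413781679)]]]],[[[],[[Int.ofNat (nat_lit 3689437637895346820)]]]],[[[[Int.negSucc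 (nat_lit 17234306312790425473)]]]]]],[[[[[[Int.ofNat (nat_lit 0),Int.ofNat (nat_lit 7481210143740829760)]],[[Int.ofNat (nat_lit 486255856669864750)]]]],[[[[Int.ofNat (nat_lit 3618417679502821308)]]]]]],[[[[[[Int.ofNat (nat_lit 56348372955549561516)]]]]],[[[[[Int.ofNat (nat_lit 4386157392099668372)]]]]]]],[[],[[[],[[[[Int.negSucc (nat_lit 2975447046927341849)]]]]]],[[[[[[Int.ofNat (nat_lit 60323109268788155672)]]]]]]]],[[[[[[[[Int.ofNat (nat_lit 0),Int.negSucc (nat_lit 4952158322312780575)]],[[Int.ofNat (nat_lit 25785564564897588212)]]]],[[[[Int.negSucc (nat_lit 10218710865363103773)]]]]]],[[[[[[Int.negSucc (nat_lit 53711406192026180043)]]],[[[Int.negSucc (nat_lit 1158889108805464603)]]]]],[[[[[Int.ofNat (nat_lit 93861894830564121898)]]]]]]],[[[[[[],[[Int.negSucc (nat_lit 2114790261546667429)]]]],[[[[Int.negSucc (nat_lit 55818718751052540601)]]]]]],[[[[[[Int.ofNat (nat_lit 156646022405384439612)]]]]]]]],[[[[[[[[Int.negSucc (nat_lit 443501827095625470151)]]],[[[Int.negSucc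 (nat_lit 35171116325875766577)]]]]],[[[[[Int.negSucc (nat_lit 87352254670166688639)]]]]]],[],[[[[[[Int.ofNat (nat_lit 15063729757889067220)]]]]]]],[[[[[[[Int.ofNat (nat_lit 153848416719471985518)]]]]]]],[[[[[[[Int.negSucc (nat_lit 3061642128395358141)]]]]]]]],[[[],[[[[[[Int.ofNat (nat_lit 33722358585808355442)]]]]]]]],[[[[[[[[Int.ofNat (nat_lit 25444896432069171258)]]]]]]]]],[[[[],[[[[[],[[Int.ofNat (nat_lit 3508604605363727146)]]]],[[[[Int.negSucc (nat_lit 35137815209312362317)]]]]]],[[[[[[Int.ofNat (nat_lit 45807470366074252964)]]]]]]]],[[[[[[[],[[Int.ofNat (nat_lit 16906511487416741514)]]]],[[[[Int.negSucc (nat_lit 100476824530260457)]]]]]],[[[[[[Int.ofNat (nat_lit 49937583826740093446)]]]]]]],[[],[[[[[[Int.ofNat (nat_lit 10123727919151210812)]]]]]]]],[[[[[[[[Int.negSucc (nat_lit 249424952984069194907)]]]]]]],[[[[[[[Int.negSucc (nat_lit 3454161633349728853)]]]]]]]]],[[[[],[],[[[[[[Int.negSucc (nat_lit 14745019170411707309)]]]]]]]],[[[],[[[[[[Int.ofNat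 (nat_lit 55881461604500697150)]]]]]]]],[[[[[[[[Int.negSucc (nat_lit 5379739497614621041)]]]]]]]]]]

/-- A coefficient. -/
noncomputable def sr3_m0_2_1 : MP 10 :=
  [[[[[[[[[[Int.ofNat (nat_lit 0),Int.negSucc (nat_lit 7514862588695071007)]],[[Int.negSucc (nat_lit 9534063550044781511)],[Int.ofNat (nat_lit 2836955729218767042)]]],[[],[[Int.negSucc (nat_lit 3042779341440811261)]]]],[[[[Int.ofNat (nat_lit 52961305451054240706)],[Int.negSucc (nat_lit 12076917917640961075)]]],[[[Int.ofNat (nat_lit 14824225576580622866)]]]]],[[[[[Int.ofNat (nat_lit 0),Int.negSucc (nat_lit 40595405455242940575)]],[[Int.ofNat (nat_lit 7360393344031484418)]]]],[[[[Int.negSucc (nat_lit 7676104276765163545)]]]]]],[[[[[[Int.negSucc (nat_lit 19270189786029630367)],[Int.ofNat (nat_lit 15208076003546181134)]]],[[[Int.negSucc (nat_lit 14860990114331252763)]]]]],[[[[[Int.ofNat (nat_lit 95020655472415768628)]]]]],[[[[[Int.ofNat (nat_lit 31542252112827953298)]]]]]],[[[[[],[[Int.negSucc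 (nat_lit 3326447982051334467)]]]],[[[[Int.ofNat (nat_lit 30358394319456883396)]]]]]],[[[[[[Int.negSucc (nat_lit 46478301431882863115)]]]]]]],[[[[[[[Int.ofNat (nat_lit 0),Int.ofNat (nat_lit 14271201831873407584)]],[[Int.negSucc (nat_lit 6315533460464438483)]]]],[[[[Int.negSucc (nat_lit 37033210280504099299)]]]]],[[],[[[[Int.negSucc (nat_lit 36920666705424873897)]]]]]],[[[[[[Int.ofNat (nat_lit 33878524404242987004)]]]]],[[[[[Int.ofNat (nat_lit 65280876473805351010)]]]]]]],[[[[[[],[[Int.ofNat (nat_lit 7424738328496096478)]]]],[[[[Int.negSucc (nat_lit 108530183017093335845)]]]]]],[[[[[[Int.negSucc (nat_lit 89870374290240642991)]]]]]]]],[[[[[[[[Int.ofNat (nat_lit 365340201735425146340)],[Int.ofNat (nat_lit 161541482492534622564)]]],[[[Int.ofNat (nat_lit 96221723102844328192)]]]],[[[],[[Int.ofNat (nat_lit 1290768086419344460)]]]],[[[[Int.negSucc (nat_lit 10261145355724811391)]]]]],[[[[[Int.ofNat (nat_lit 200124430549114076714)]]],[[[Int.negSucc (nat_lit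 8872907711370862155)]]]]],[[[[[Int.ofNat (nat_lit 56416429224485696404)]]]]]],[[[[[],[[Int.ofNat (nat_lit 9898063016310675484)]]]],[[[[Int.ofNat (nat_lit 9785780433694132994)]]]]]],[[[[[[Int.negSucc (nat_lit 43701604667115718951)]]]]]]],[[[[[[[Int.negSucc (nat_lit 394978193336470014887)],[Int.ofNat (nat_lit 811088659178023260)]]],[[[Int.ofNat (nat_lit 15408408320929289464)]]]]],[[[[[Int.negSucc (nat_lit 213277199315128693781)]]]]]],[],[[[[[[Int.ofNat (nat_lit 19913652228172248128)]]]]]]],[[[[[[[Int.ofNat (nat_lit 92649524668517026688)]]]]]]],[[[[[[[Int.ofNat (nat_lit 45012193489315872958)]]]]]]]],[[[[[[[[Int.ofNat (nat_lit 0),Int.negSucc (nat_lit 53268686789042126687)]],[[Int.ofNat (nat_lit 859766207698733530)]]]],[[[[Int.negSucc (nat_lit 142800673827922298145)]]]]]],[[[[[[Int.negSucc (nat_lit 237235929831080191691)]]]]],[[[[[Int.negSucc (nat_lit 16370970452247081267)]]]]]]],[[[[],[[[[Int.negSucc (nat_lit 49799716040269286813)]]]]]],[[[[[[Int.negSucc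 (nat_lit 140284919153727436139)]]]]]]]],[[[[[[[[Int.ofNat (nat_lit 74458147966691132294)]]],[[[Int.negSucc (nat_lit 19936697858170931339)]]]]],[[[[[Int.ofNat (nat_lit 41407210403016701214)]]]]]]],[[[[[[[Int.ofNat (nat_lit 71740147803153980606)]]]]]]]],[[[],[[[[[[Int.ofNat (nat_lit 11200302084196484524)]]]]]]]],[[[[[[[[Int.ofNat (nat_lit 71355997714383718592)]]]]]]]]],[[[[[[[[[Int.ofNat (nat_lit 0),Int.ofNat (nat_lit 8198665131727408224)]],[[Int.negSucc (nat_lit 3897196758534065755)]]]],[[[[Int.ofNat (nat_lit 55413848464837533264)]]]]],[[[[],[[Int.ofNat (nat_lit 1232894496969836860)]]]],[[[[Int.ofNat (nat_lit 64287181250630141652)]]]]]],[[[[[[Int.ofNat (nat_lit 101559566451276409370)],[Int.ofNat (nat_lit 35892919052775527358)]]],[[[Int.negSucc (nat_lit 4822961468528786965)]]]]],[[[[[Int.ofNat (nat_lit 70469295644142375236)]]]]]],[],[[[[[[Int.negSucc (nat_lit 3940485981503488081)]]]]]]],[[[[[[],[[Int.ofNat (nat_lit 27460748579217090216)]]]],[[[[Int.negSucc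 (nat_lit 63762423263434145865)]]]]]],[[[[[[Int.negSucc (nat_lit 105837414960083798941)]]]]]]],[[],[[[[[[Int.ofNat (nat_lit 7297330698872576850)]]]]]]]],[[[[[[[[Int.ofNat (nat_lit 501348044619869993466)],[Int.ofNat (nat_lit 115471336613191363854)]]],[[[Int.ofNat (nat_lit 75077928934933914920)]]]]],[[[[[Int.ofNat (nat_lit 77059248241610676978)]]]]]],[[[],[[[[Int.negSucc (nat_lit 19310841169568400797)]]]]]],[[[[[[Int.negSucc (nat_lit 21761539536537383497)]]]]]]],[[[[[[[Int.negSucc (nat_lit 361775360851107696549)]]]]],[[[[[Int.negSucc (nat_lit 18874691443371187471)]]]]]]],[[[[[[[Int.ofNat (nat_lit 6879047879497475534)]]]]]]]],[[[[[[[],[[Int.ofNat (nat_lit 7157894924705056774)]]]],[[[[Int.negSucc (nat_lit 99632737403132151379)]]]]]],[[[[[[Int.negSucc (nat_lit 316485908653292754093)]]]]]]]],[[[[[[[[Int.ofNat (nat_lit 75170541045230199964)]]]]]]],[[[[[[[Int.ofNat (nat_lit 32042921312981321882)]]]]]]]]],[[[[[[[[[Int.ofNat (nat_lit 0),Int.ofNat (nat_lit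 31689974772618706176)]],[[Int.ofNat (nat_lit 13142563279673928902)]]]],[[[[Int.negSucc (nat_lit 35851304778182268699)]]]]]],[[[[[[Int.ofNat (nat_lit 127530581399409571242)]]]]],[[[[[Int.ofNat (nat_lit 65608056283304528198)]]]]]]],[[[[],[[[[Int.negSucc (nat_lit 22070242843296259197)]]]]]],[[[[[[Int.negSucc (nat_lit 46807241298126117755)]]]]]]]],[[[[[[[[Int.ofNat (nat_lit 209261053175191529730)]]],[[[Int.negSucc (nat_lit 19431849254316254323)]]]]],[[[[[Int.negSucc (nat_lit 35958890458560001501)]]]]]]],[[[[[[[Int.ofNat (nat_lit 20440284433720897702)]]]]]]]],[[[],[[[[[[Int.negSucc (nat_lit 22999033906624729501)]]]]]]]],[[[[[[[[Int.ofNat (nat_lit 84383033266878765454)]]]]]]]]],[[[[[[[[],[[Int.ofNat (nat_lit 13498861020073309034)]]]],[[[[Int.negSucc (nat_lit 54921071938956284417)]]]]]],[[[[[[Int.ofNat (nat_lit 42069107843543827906)]]]]]]]],[[[[[[[[Int.ofNat (nat_lit 99990045103604585808)]]]]]]],[[[[[[[Int.negSucc (nat_lit 3145673634503164355)]]]]]]]]],[[[[],[[[[[[Int.negSucc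 (nat_lit 7750006225853915237)]]]]]]]],[[[[[[[[Int.ofNat (nat_lit 50427465979077173124)]]]]]]]]]]

/-- A coefficient. -/
noncomputable def sr3_m0_2_2 : MP 10 :=
  [[[[[[[[[[Int.ofNat (nat_lit 29962645607246376066)],[Int.negSucc (nat_lit 60400930076224435711)]]],[[[Int.negSucc (nat_lit 28292017463693164779)]]]]],[[[[[Int.ofNat (nat_lit 68846527551038232674)],[Int.negSucc (nat_lit 24266629050607054945)]]],[[[Int.ofNat (nat_lit 61484878107241248690)]]]]],[[[[[Int.negSucc (nat_lit 31185624416672846195)]]]]]],[[[[[[Int.ofNat (nat_lit 0),Int.negSucc (nat_lit 23042889793820735967)]],[[Int.negSucc (nat_lit 24887004998938967371)]]]],[[[[Int.negSucc (nat_lit 9831477995719566785)]]]]]],[[[[[[Int.negSucc (nat_lit 194894037145363889569)]]]]],[[[[[Int.ofNat (nat_lit 16271350229980288848)]]]]]]],[[[[[[[Int.ofNat (nat_lit 236926266935637233256)],[Int.negSucc (nat_lit 61660239300888032647)]]],[[[Int.ofNat (nat_lit 49927178364334187562)]]]]],[[[[[Int.ofNat (nat_lit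 66636991108033870576)]]]]]],[[[],[[[[Int.negSucc (nat_lit 12367174663910371971)]]]]]],[[[[[[Int.ofNat (nat_lit 182342720010440032536)]]]]]]],[[[[[[[Int.negSucc (nat_lit 103629921940540859457)]]]]],[[[[[Int.ofNat (nat_lit 2094759086357845850)]]]]]]],[[[[[[[Int.ofNat (nat_lit 60609829098745195926)]]]]]]]],[[[[[[[[Int.ofNat (nat_lit 0),Int.ofNat (nat_lit 64615339642884762208)]],[[Int.ofNat (nat_lit 31016776654142286044)]]]],[[[[Int.ofNat (nat_lit 108127060357513676684)]]]]],[[],[[[[Int.negSucc (nat_lit 53527348044775715525)]]]]]],[[[[[[Int.ofNat (nat_lit 193483283307093123084)]]],[[[Int.ofNat (nat_lit 8789129845840777014)]]]]],[[[[[Int.negSucc (nat_lit 131688227047108674141)]]]]]]],[[[[],[[[[Int.ofNat (nat_lit 37087785433463242554)]]]]]],[[[[[[Int.negSucc (nat_lit 185263892929071068345)]]]]]]]],[[[[[[[[Int.negSucc (nat_lit 3178118823358715651)],[Int.negSucc (nat_lit 37770498991975067637)]]],[[[Int.ofNat (nat_lit 31467913437571440980)]]]]],[[[[[Int.negSucc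 (nat_lit 38373656978266485943)]]]]]],[],[[[[[[Int.ofNat (nat_lit 1722377989840948284)]]]]]]],[[[[[[[Int.ofNat (nat_lit 283678461401116577412)]]]]]]],[[[[[[[Int.negSucc (nat_lit 11094849561339535795)]]]]]]]],[[[[[],[[[[Int.negSucc (nat_lit 77287711291924841475)]]]]]],[[[[[[Int.negSucc (nat_lit 61846687069769726755)]]]]]]]],[[[[[[[[Int.ofNat (nat_lit 24986149571092898196)]]]]]]]]],[[[[[[[[[Int.negSucc (nat_lit 17063019990431295323)],[Int.negSucc (nat_lit 131709953110678579811)]]],[[[Int.negSucc (nat_lit 11945031133077118593)]]]]],[[[[[Int.ofNat (nat_lit 50920494002530282426)]]]]]],[[[[[],[[Int.negSucc (nat_lit 8333777991307392107)]]]],[[[[Int.negSucc (nat_lit 3593372715546714263)]]]]]],[[[[[[Int.negSucc (nat_lit 158492705079596300091)]]]]]]],[[[[[[[Int.ofNat (nat_lit 364465967907777924586)]]]]]]],[[[[[[[Int.negSucc (nat_lit 112385727246621601637)]]]]]]]],[[[[[[[],[[Int.ofNat (nat_lit 6508584141202679122)]]]],[[[[Int.ofNat (nat_lit 83717912816320222350)]]]]]],[[[[[[Int.ofNat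 (nat_lit 64148006907363662914)]]]]]]],[[],[[[[[[Int.negSucc (nat_lit 84247166584994234713)]]]]]]]],[[[[[[[[Int.ofNat (nat_lit 229792546648724629030)]]]]]]],[[[[[[[Int.ofNat (nat_lit 27738626728462930382)]]]]]]]]],[[[[[[[[[Int.ofNat (nat_lit 90263286260036344098)],[Int.negSucc (nat_lit 27108290234136237373)]]],[[[Int.ofNat (nat_lit 24037242750311378504)]]]]],[[[[[Int.negSucc (nat_lit 45063683505350557497)]]]]]],[],[[[[[[Int.negSucc (nat_lit 10093070864256984289)]]]]]]],[[[[[[[Int.negSucc (nat_lit 17385933297402295881)]]]]]]],[[[[[[[Int.negSucc (nat_lit 798258239979109809)]]]]]]]],[[[[[],[[[[Int.negSucc (nat_lit 32240199839729515757)]]]]]],[[[[[[Int.negSucc (nat_lit 199039431324647640015)]]]]]]]],[[[[[[[[Int.ofNat (nat_lit 185151562751492579868)]]]]]]]]]]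

/-- A coefficient. -/
noncomputable def sr3_m0_2_3 : MP 10 :=
  [[[[[[[[[[Int.ofNat (nat_lit 0),Int.ofNat (nat_lit 212375792245806862240)]],[[Int.negSucc (nat_lit 138979307215475925339)]]]],[[[[Int.negSucc (nat_lit 49249094902854715165)]]]]]],[[[[[[Int.negSucc (nat_lit 354654552021561113461)],[Int.ofNat (nat_lit 39547429860646127614)]]],[[[Int.negSucc (nat_lit 368768075823469681)]]]]],[[[[[Int.negSucc (nat_lit 271227345202843981403)]]]]]],[],[[[[[[Int.ofNat (nat_lit 27292135424608842908)]]]]]]],[[[[],[[[[Int.ofNat (nat_lit 328852620690942890088)]]]]]],[[[[[[Int.ofNat (nat_lit 351059384743785150960)]]]]]]],[[],[[[[[[Int.negSucc (nat_lit 97297093746565910151)]]]]]]]],[[[[[[[[Int.negSucc (nat_lit 187877377212759613237)],[Int.ofNat (nat_lit 8892294928317509650)]]],[[[Int.ofNat (nat_lit 88922839232512168668)]]]]],[[[[[Int.ofNat (nat_lit 34524555820311890702)]]]]]],[[[],[[[[Int.ofNat (nat_lit 59100444284235653032)]]]]]],[[[[[[Int.ofNat (nat_lit 400688722863722113506)]]]]]]],[[[[[[[Int.negSucc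 (nat_lit 115135249222580041079)]]]]]]],[[[[[[[Int.ofNat (nat_lit 21083407585973292996)]]]]]]]],[[[[[],[[[[Int.negSucc (nat_lit 117720585375030608281)]]]]]],[[[[[[Int.negSucc (nat_lit 298173572270150706695)]]]]]]]],[[[[[[[[Int.ofNat (nat_lit 47980242702985241726)]]]]]]]]],[[[[[[[[[Int.ofNat (nat_lit 0),Int.negSucc (nat_lit 24064438083668819455)]],[[Int.negSucc (nat_lit 116651149498738043887)]]]],[[[[Int.negSucc (nat_lit 189814384841745609931)]]]]]],[[[[[[Int.negSucc (nat_lit 367536184614484656717)]]]]],[[[[[Int.negSucc (nat_lit 160209408647835274569)]]]]]]],[[[[],[[[[Int.ofNat (nat_lit 151620224349225534382)]]]]]],[[[[[[Int.ofNat (nat_lit 112872498720644050860)]]]]]]]],[[[[[[[[Int.negSucc (nat_lit 431772650197781680501)]]],[[[Int.ofNat (nat_lit 30359633682021061134)]]]]],[[[[[Int.ofNat (nat_lit 227860542257962439244)]]]]]]],[[[[[[[Int.ofNat (nat_lit 180569084865930619250)]]]]]]]],[[[],[[[[[[Int.negSucc (nat_lit 55450432597811205367)]]]]]]]],[[[[[[[[Int.ofNat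 (nat_lit 40005035187767642914)]]]]]]]]],[[[[[[[[],[[Int.negSucc (nat_lit 49811437219798727109)]]]],[[[[Int.ofNat (nat_lit 5092058684338847982)]]]]]],[[[[[[Int.negSucc (nat_lit 344446098117623274569)]]]]]]]],[[[[[[[[Int.negSucc (nat_lit 436209958552180800821)]]]]]]],[[[[[[[Int.ofNat (nat_lit 44059449036651681386)]]]]]]]]],[[[[],[[[[[[Int.negSucc (nat_lit 63556457897328907353)]]]]]]]],[[[[[[[[Int.negSucc (nat_lit 87029519947055889759)]]]]]]]]]]

/-- A coefficient. -/
noncomputable def sr3_m0_2_4 : MP 10 :=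
  [[[[[[[[[[Int.negSucc (nat_lit 668495117708718581723)],[Int.ofNat (nat_lit 71784523804064349666)]]],[[[Int.negSucc (nat_lit 212279674500964825415)]]]]],[[[[[Int.negSucc (nat_lit 250172242924717445121)]]]]]],[],[[[[[[Int.ofNat (nat_lit 42922998660360090932)]]]]]]],[[[[[[[Int.ofNat (nat_lit 228021746493736559880)]]]]]]],[[[[[[[Int.ofNat (nat_lit 201044312553671918912)]]]]]]]],[[[[[],[[[[Int.ofNat (nat_lit 51061918698000418924)]]]]]],[[[[[[Int.ofNat (nat_lit 660090282736639975098)]]]]]]]],[[[[[[[[Int.negSucc (nat_lit 368282496125801228083)]]]]]]]]],[[[[[[[[[Int.negSucc (nat_lit 213024733677954958291)],[Int.ofNat (nat_lit 101038040377490181602)]]],[[[Int.negSucc (nat_lit 34454892866311030381)]]]]],[[[[[Int.negSucc (nat_lit 210350638433404634633)]]]]]],[],[[[[[[Int.ofNat (nat_lit 96433803953114359322)]]]]]]],[[[[[[[Int.negSucc (nat_lit 147425817236950397625)]]]]]]],[[[[[[[Int.ofNat (nat_lit 96101249240286538936)]]]]]]]],[[[[[],[[[[Int.negSucc (nat_lit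 92280819060627549523)]]]]]],[[[[[[Int.negSucc (nat_lit 99034594063750606721)]]]]]]]],[[[[[[[[Int.negSucc (nat_lit 153322173206197332123)]]]]]]]]]]

/-- A coefficient. -/
noncomputable def sr3_m0_2_5 : MP 10 :=
  [[[[[[[[[[Int.ofNat (nat_lit 0),Int.negSucc (nat_lit 138149216464920471295)]],[[Int.ofNat (nat_lit 107944068880333390688)]]]],[[[[Int.ofNat (nat_lit 51745934482880221968)]]]]]],[[[[[[Int.ofNat (nat_lit 296129632847739813100)]]]]],[[[[[Int.ofNat (nat_lit 219350138031318743908)]]]]]]],[[[[],[[[[Int.negSucc (nat_lit 250587635611793429017)]]]]]],[[[[[[Int.negSucc (nat_lit 113705961548997727283)]]]]]]]],[[[[[[[[Int.negSucc (nat_lit 27244298353416030625)]]],[[[Int.negSucc (nat_lit 42082503379495113169)]]]]],[[[[[Int.negSucc (nat_lit 41707748057180122649)]]]]]]],[[[[[[[Int.ofNat (nat_lit 175582287027683821518)]]]]]]]],[[[],[[[[[[Int.negSucc (nat_lit 5340495821180261955)]]]]]]]],[[[[[[[[Int.ofNat (nat_lit 58134350994294375194)]]]]]]]]],[[[[[[[[],[[Int.ofNat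 (nat_lit 60855048941933066870)]]]],[[[[Int.ofNat (nat_lit 174690734404643508388)]]]]]],[[[[[[Int.ofNat (nat_lit 193104939018561511362)]]]]]]]],[[[[[[[[Int.ofNat (nat_lit 237846520987007763382)]]]]]]],[[[[[[[Int.negSucc (nat_lit 193597423646012264927)]]]]]]]]],[[[[],[[[[[[Int.ofNat (nat_lit 200366429153963751362)]]]]]]]],[[[[[[[[Int.ofNat (nat_lit 194650959981787509678)]]]]]]]]]]

/-- A coefficient. -/
noncomputable def sr3_m0_2_6 : MP 10 :=
  [[[[[[[[[[Int.ofNat (nat_lit 375246180231097095298)],[Int.ofNat (nat_lit 22160702115733949474)]]],[[[Int.ofNat (nat_lit 194228920973705921162)]]]]],[[[[[Int.ofNat (nat_lit 165053264156293283606)]]]]]],[],[[[[[[Int.ofNat (nat_lit 3144807129973111814)]]]]]]],[[[[[[[Int.negSucc (nat_lit 117211710330423475755)]]]]]]],[[[[[[[Int.negSucc (nat_lit 150784353039602712605)]]]]]]]],[[[[[],[[[[Int.negSucc (nat_lit 64323555318236389409)]]]]]],[[[[[[Int.negSucc (nat_lit 651995335865646580101)]]]]]]]],[[[[[[[[Int.ofNat (nat_lit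 318697104445059927140)]]]]]]]]]]

/-- A coefficient. -/
noncomputable def sr3_m0_3_0 : MP 10 :=
  [[[[[[[],[[[[Int.ofNat (nat_lit 0),Int.negSucc (nat_lit 4859789970389750911)]],[[Int.negSucc (nat_lit 4905611238446045007)]]]],[[[[Int.ofNat (nat_lit 42760291597349844760)]]]]]],[[[[[[Int.ofNat (nat_lit 0),Int.negSucc (nat_lit 2973843454749453631)]],[[Int.ofNat (nat_lit 10959161022882481016)]]]],[[[[Int.negSucc (nat_lit 96143127255966827947)]]]]],[[],[[[[Int.negSucc (nat_lit 3339493495172688295)]]]]]],[[[[[[Int.ofNat (nat_lit 156675840540999736576)]]]]],[[[[[Int.ofNat (nat_lit 14069994209909310428)]]]]]]],[[[[],[],[[[[Int.negSucc (nat_lit 3543493587977548099)]]]]]],[[[],[[[[Int.ofNat (nat_lit 27427232451932565684)]]]]]],[[[[[[Int.negSucc (nat_lit 132437989572246196951)]]]]]]]],[[[[[[[[Int.ofNat (nat_lit 0),Int.ofNat (nat_lit 1279087300189785408)]],[[Int.ofNat (nat_lit 2388018770729065416)]]]],[[[[Int.ofNat (nat_lit 90924178701436683506)]]],[[[Int.ofNat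 (nat_lit 9507380540207081626)]]]]],[[],[[[[Int.ofNat (nat_lit 17586003042713493006)]]]]]],[[[[[[Int.negSucc (nat_lit 106257591297109106641)]]],[[[Int.negSucc (nat_lit 6157265000105221645)]]]]],[[[[[Int.negSucc (nat_lit 130617978378212079669)]]]]]]],[[[[],[[[[Int.ofNat (nat_lit 37184499966603577594)]]]]]],[[[[[[Int.negSucc (nat_lit 166055637115948712129)]]]]]]]],[[[[[[[[Int.ofNat (nat_lit 400638707910186742876)]]],[[[Int.ofNat (nat_lit 39047323201660564182)]]]]],[[[[[Int.ofNat (nat_lit 108463902172327885410)]]]]]],[[[],[[[[Int.ofNat (nat_lit 3770045171291919972)]]]]]],[[[[[[Int.ofNat (nat_lit 13879144762776444258)]]]]]]],[[[[[[[Int.negSucc (nat_lit 275575996867679742369)]]]]]]]],[[[[[],[[[[Int.negSucc (nat_lit 4319648528812715101)]]]]]],[[[[[[Int.negSucc (nat_lit 2765897672602277851)]]]]]]]],[[[[[[[[Int.negSucc (nat_lit 38328903299806289055)]]]]]]]]],[[[[[[],[[[],[[Int.negSucc (nat_lit 5528631491992583227)]]]],[[[[Int.ofNat (nat_lit 49520878794835718746)]]]]]],[[[[[],[[Int.ofNat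 (nat_lit 15048240863617386984)]]]],[[[[Int.negSucc (nat_lit 53804207846405917655)]]]]]],[[[[[[Int.ofNat (nat_lit 112332247426534974966)]]]]]]]],[[[[[[[[Int.ofNat (nat_lit 0),Int.negSucc (nat_lit 9930189151323208959)]],[[Int.negSucc (nat_lit 17062391629455017029)]]]],[[[[Int.ofNat (nat_lit 123014374586290548022)]]]]]],[[[[[[Int.ofNat (nat_lit 19518350794473306680)]]]]],[[[[[Int.negSucc (nat_lit 57693470585287359513)]]]]]]],[[[[],[[[[Int.ofNat (nat_lit 44468246823716586144)]]]]]],[[[[[[Int.negSucc (nat_lit 144088990638165735287)]]]]]]]],[[[[[[[[Int.ofNat (nat_lit 644676567649956531120)]]],[[[Int.ofNat (nat_lit 20506347560488334124)]]]]],[[[[[Int.ofNat (nat_lit 47185103881199613508)]]]]]]],[[[[[[[Int.negSucc (nat_lit 84497319479370610701)]]]]]]]],[[[],[[[[[[Int.negSucc (nat_lit 1294341293935589079)]]]]]]]],[[[[[[[[Int.negSucc (nat_lit 6412880196894318537)]]]]]]]]],[[[[],[[[],[[[[Int.ofNat (nat_lit 29750386668405729138)]]]]]],[[[[[[Int.negSucc (nat_lit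 52595593295926987)]]]]]]]],[[[[[[[],[[Int.negSucc (nat_lit 5071564469706267943)]]]],[[[[Int.ofNat (nat_lit 18347453027331629532)]]]]]],[[[[[[Int.ofNat (nat_lit 97072151620840266614)]]]]]]]],[[[[[[[[Int.ofNat (nat_lit 335960902199512077826)]]]]]]],[[[[[[[Int.ofNat (nat_lit 28576145698646164836)]]]]]]]]],[[],[[[],[[[[[[Int.ofNat (nat_lit 623958385045604012)]]]]]]]],[[[[[[[[Int.ofNat (nat_lit 99237304741215655628)]]]]]]]]]]

/-- A coefficient. -/
noncomputable def sr3_m0_3_1 : MP 10 :=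
  [[[[[[[[[[Int.ofNat (nat_lit 0),Int.negSucc (nat_lit 39771625769893071487)]],[[Int.negSucc (nat_lit 6489133228156694991)]]]],[[[[Int.negSucc (nat_lit 22570709601314659721)],[Int.ofNat (nat_lit 24466529436375311620)]]],[[[Int.negSucc (nat_lit 7261396725311315719)]]]]],[[],[[[[Int.ofNat (nat_lit 32036904664374245746)]]]]]],[[[[[[Int.ofNat (nat_lit 346715743114298712794)],[Int.negSucc (nat_lit 59707203898354834167)]]],[[[Int.ofNat (nat_lit 16039323246879937180)]]]]],[[[[[Int.ofNat (nat_lit 378104518122821784846)]]]]]],[[[],[[[[Int.negSucc (nat_lit 39243211095651375347)]]]]]],[[[[[[Int.ofNat (nat_lit 50865500007058476822)]]]]]]],[[[[[[[Int.ofNat (nat_lit 0),Int.negSucc (nat_lit 16020838282070008319)]],[[Int.ofNat (nat_lit 11542049471396961600)]]]],[[[[Int.negSucc (nat_lit 443938253586601709325)]]]]]],[[[[[[Int.negSucc (nat_lit 115787268084260040327)]]]]],[[[[[Int.negSucc (nat_lit 137358555789985746943)]]]]]]],[[[[],[[[[Int.ofNat (nat_lit 136787807513989126908)]]]]]],[[[[[[Int.negSucc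 (nat_lit 47997447984419039159)]]]]]]]],[[[[[[[[Int.negSucc (nat_lit 582276751198279293407)],[Int.negSucc (nat_lit 160253340939394804215)]]],[[[Int.negSucc (nat_lit 83165538498104956671)]]]],[],[[[[Int.negSucc (nat_lit 12772040423696008239)]]]]],[[[[[Int.negSucc (nat_lit 481017102488601002923)]]]]]],[[[],[[[[Int.ofNat (nat_lit 414141398397107042)]]]]]],[[[[[[Int.negSucc (nat_lit 218276901283006583293)]]]]]]],[[[[[[[Int.ofNat (nat_lit 410829241602809917434)]]],[[[Int.ofNat (nat_lit 34790512660171664586)]]]]],[[[[[Int.ofNat (nat_lit 45573326204037595378)]]]]]]],[[[[[[[Int.negSucc (nat_lit 162057764813254180053)]]]]]]]],[[[[[],[[[[Int.ofNat (nat_lit 132293412692513172924)]]]]]],[[[[[[Int.ofNat (nat_lit 343601474611714397384)]]]]]]],[[],[[[[[[Int.ofNat (nat_lit 23128551007399697762)]]]]]]]],[[[[[[[[Int.negSucc (nat_lit 143380022311886226565)]]]]]]],[[[[[[[Int.ofNat (nat_lit 30383382743381771210)]]]]]]]]],[[[[[[[[[Int.ofNat (nat_lit 0),Int.negSucc (nat_lit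 11774035830432712863)]],[[Int.ofNat (nat_lit 28165977909368906612)]]]],[[[[Int.ofNat (nat_lit 257207843570442263196)]]]]]],[[[[[[Int.ofNat (nat_lit 200062879358547061134)]]]]],[[[[[Int.ofNat (nat_lit 240624976310328645394)]]]]]]],[[[[[[],[[Int.negSucc (nat_lit 19243887225078696659)]]]],[[[[Int.negSucc (nat_lit 292874640526950606193)]]]]]],[[[[[[Int.ofNat (nat_lit 56529222693809693470)]]]]]]]],[[[[[[[[Int.negSucc (nat_lit 367811485881533739207)],[Int.negSucc (nat_lit 85185770472450675909)]]],[[[Int.negSucc (nat_lit 42807929242223955181)]]]]],[[[[[Int.negSucc (nat_lit 237335769157611136013)]]]]]],[],[[[[[[Int.negSucc (nat_lit 50145038536278090885)]]]]]]],[[[[[[[Int.negSucc (nat_lit 278634971193684186727)]]]]]]],[[[[[[[Int.ofNat (nat_lit 55739605803755835432)]]]]]]]],[[[[[],[[[[Int.ofNat (nat_lit 58920963387885268118)]]]]]],[[[[[[Int.ofNat (nat_lit 116928428256820197022)]]]]]]]],[[[[[[[[Int.negSucc (nat_lit 143919712106332941823)]]]]]]]]],[[[[[[[[],[[Int.ofNat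 (nat_lit 13579959859347027196)]]]],[[[[Int.ofNat (nat_lit 171497564514762424712)]]]]]],[[[[[[Int.ofNat (nat_lit 252857748353857363064)]]]]]]],[[],[[[[[[Int.negSucc (nat_lit 45143791439355231569)]]]]]]]],[[[[[[[[Int.negSucc (nat_lit 232406879403772183761)]]]]]]],[[[[[[[Int.negSucc (nat_lit 233589080525418634411)]]]]]]]]],[[[[],[[[[[[Int.ofNat (nat_lit 133027807768085818302)]]]]]]]],[[[[[[[[Int.negSucc (nat_lit 124311982094134073461)]]]]]]]]]]

/-- A coefficient. -/
noncomputable def sr3_m0_3_2 : MP 10 :=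
  [[[[[[[[[[Int.ofNat (nat_lit 1322681512671381280946)],[Int.negSucc (nat_lit 105997496365305328809)]]],[[[Int.ofNat (nat_lit 162225211245096932250)]]]]],[[[[[Int.ofNat (nat_lit 483989097961018411106)]]]]]],[],[[[[[[Int.ofNat (nat_lit 184798433536714232300)]]]]]]],[[[[[[[Int.negSucc (nat_lit 1132786151378527744525)],[Int.negSucc (nat_lit 5709318631464540911)]]],[[[Int.negSucc (nat_lit 99579361005489795577)]]]]],[[[[[Int.negSucc (nat_lit 10188614313356563929)]]]]]],[],[[[[[[Int.negSucc (nat_lit 101063268588898117761)]]]]]]],[[[[[[[Int.ofNat (nat_lit 313033058536378303638)]]]]]]],[[[[[[[Int.negSucc (nat_lit 64458471452135582749)]]]]]]]],[[[[[[[[Int.ofNat (nat_lit 0),Int.ofNat (nat_lit 44643532587271266112)]],[[Int.negSucc (nat_lit 19116055210722988407)]]]],[[[[Int.ofNat (nat_lit 120809530404645932958)]]]]]],[[[[[[Int.negSucc (nat_lit 583446821552134742035)]]]]],[[[[[Int.ofNat (nat_lit 45146248711219012706)]]]]]]],[[[[],[[[[Int.ofNat (nat_lit 43227530908304323022)]]]]]],[[[[[[Int.ofNat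 (nat_lit 377842454338802843244)]]]]]]]],[[[[[[[[Int.ofNat (nat_lit 592089734818729383840)]]],[[[Int.ofNat (nat_lit 9340419014285594242)]]]]],[[[[[Int.negSucc (nat_lit 142152724530092122091)]]]]]]],[[[[[[[Int.negSucc (nat_lit 256134397083111204313)]]]]]]]],[[[],[[[[[[Int.ofNat (nat_lit 10938185032017420634)]]]]]]]],[[[[[[[[Int.negSucc (nat_lit 97401635416012646289)]]]]]]]]],[[[[[[[[[Int.ofNat (nat_lit 570993782531308816028)],[Int.negSucc (nat_lit 38484189137217690303)]]],[[[Int.ofNat (nat_lit 87991094656745307646)]]]]],[[[[[Int.ofNat (nat_lit 298663422060137420936)]]]]]],[],[[[[[[Int.negSucc (nat_lit 2730504346209535955)]]]]]]],[[[[[[[Int.negSucc (nat_lit 320820711849267919707)]]]]]]],[[[[[[[Int.ofNat (nat_lit 2030489329133814746)]]]]]]]],[[[[[[[],[[Int.ofNat (nat_lit 1453485115056487462)]]]],[[[[Int.ofNat (nat_lit 47823953010641715212)]]]]]],[[[[[[Int.negSucc (nat_lit 1846123166570972645)]]]]]]]],[[[[[[[[Int.ofNat (nat_lit 117130442066114710116)]]]]]]],[[[[[[[Int.negSucc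 (nat_lit 8409854662125108643)]]]]]]]]],[[],[[[],[[[[[[Int.ofNat (nat_lit 3937784513959949070)]]]]]]]],[[[[[[[[Int.negSucc (nat_lit 176983444317797695931)]]]]]]]]]]

/-- A coefficient. -/
noncomputable def sr3_m0_3_3 : MP 10 :=
  [[[[[[[[[[Int.ofNat (nat_lit 0),Int.negSucc (nat_lit 153926954364854341919)]],[[Int.negSucc (nat_lit 24240678641633554835)]]]],[[[[Int.negSucc (nat_lit 16249194428806407241)]]]]]],[[[[[[Int.negSucc (nat_lit 79763290824351838627)]]]]],[[[[[Int.negSucc (nat_lit 322361818540816163147)]]]]]]],[[[[],[[[[Int.ofNat (nat_lit 364318274101839146096)]]]]]],[[[[[[Int.ofNat (nat_lit 65449975957515408964)]]]]]]]],[[[[[[[[Int.ofNat (nat_lit 338416179708233644532)],[Int.ofNat (nat_lit 27978865812514660682)]]],[[[Int.negSucc (nat_lit 22201279154685530687)]]]]],[[[[[Int.ofNat (nat_lit 622436000119975478612)]]]]]],[],[[[[[[Int.ofNat (nat_lit 7706282988542829852)]]]]]]],[[[[[[[Int.negSucc (nat_lit 246088432185093456133)]]]]]]],[[[[[[[Int.ofNat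 (nat_lit 28880519698970466750)]]]]]]]],[[[[[],[[[[Int.ofNat (nat_lit 150323070206636483846)]]]]]],[[[[[[Int.negSucc (nat_lit 123040381800691738633)]]]]]]]],[[[[[[[[Int.ofNat (nat_lit 153728082320167132034)]]]]]]]]],[[[[[[[[],[[Int.negSucc (nat_lit 58005095988724047735)]]]],[[[[Int.negSucc (nat_lit 57373649893965453947)]]]]]],[[[[[[Int.negSucc (nat_lit 123847256181386949273)]]]]]]]],[[[[[[[[Int.ofNat (nat_lit 185915860966962887526)]]]]]]],[[[[[[[Int.ofNat (nat_lit 299189950673169954526)]]]]]]]]],[[[[],[[[[[[Int.negSucc (nat_lit 200967217640115282003)]]]]]]]],[[[[[[[[Int.ofNat (nat_lit 88008713222519644146)]]]]]]]]]]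

/-- A coefficient. -/
noncomputable def sr3_m0_3_4 : MP 10 :=
  [[[[[[[[[[Int.negSucc (nat_lit 778805917358930078563)],[Int.ofNat (nat_lit 76981969217550728618)]]],[[[Int.negSucc (nat_lit 169776647373266000689)]]]]],[[[[[Int.negSucc (nat_lit 405885947973360861653)]]]]]],[],[[[[[[Int.negSucc (nat_lit 142009430984690246799)]]]]]]],[[[[[[[Int.ofNat (nat_lit 457518126901090775252)]]]]]]],[[[[[[[Int.negSucc (nat_lit 5422206256674727757)]]]]]]]],[[[[[],[[[[Int.negSucc (nat_lit 116365262757574738529)]]]]]],[[[[[[Int.ofNat (nat_lit 949495584772665242576)]]]]]]]],[[[[[[[[Int.negSucc (nat_lit 774156084245044059187)]]]]]]]]]]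

/-- A coefficient. -/
noncomputable def sr3_m0_4_0 : MP 10 :=
  [[[[[],[[[[[[Int.ofNat (nat_lit 0),Int.negSucc (nat_lit 9363914917056834271)]],[[Int.negSucc (nat_lit 11082694340749488939)]]]],[[[[Int.ofNat (nat_lit 25634670207220664362)]]]]]],[[[[[[Int.negSucc (nat_lit 83868739012922324451)]]]]],[[[[[Int.negSucc (nat_lit 7892259014490465087)]]]]]]],[[],[[[],[[[[Int.ofNat (nat_lit 12025400514479472122)]]]]]],[[[[[[Int.ofNat (nat_lit 6890515946653120002)]]]]]]]],[[[[[[[[Int.ofNat (nat_lit 0),Int.ofNat (nat_lit 10794820036412649632)]],[[Int.negSucc (nat_lit 17569844698774483579)]]]],[[[[Int.negSucc (nat_lit 30780850308708010885)]]]]]],[[[[[[Int.ofNat (nat_lit 114211452922678874870)]]],[[[Int.ofNat (nat_lit 855636084769337472)]]]]],[[[[[Int.negSucc (nat_lit 53729387582613109403)]]]]]]],[[[[],[[[[Int.ofNat (nat_lit 97403491960594072122)]]]]]],[[[[[[Int.negSucc (nat_lit 195343152291625147089)]]]]]]]],[[[[[[[[Int.ofNat (nat_lit 10923473278916033684)]]],[[[Int.ofNat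 (nat_lit 11393562322929555114)]]]]],[[[[[Int.ofNat (nat_lit 60187472513306399150)]]]]]],[],[[[[[[Int.negSucc (nat_lit 28111419017848166537)]]]]]]],[[[[[[[Int.negSucc (nat_lit 15276511287011902491)]]]]]]]],[[[],[[[[[[Int.negSucc (nat_lit 37048023949686293455)]]]]]]]],[[[[[[[[Int.ofNat (nat_lit 48508182646646017062)]]]]]]]]],[[[[],[[[[[],[[Int.negSucc (nat_lit 12573041695265903769)]]]],[[[[Int.ofNat (nat_lit 30715548013375933352)]]]]]],[[[[[[Int.negSucc (nat_lit 67008536847819762619)]]]]]]]],[[[[[[[],[[Int.negSucc (nat_lit 18348004033456080399)]]]],[[[[Int.negSucc (nat_lit 33751352900552226223)]]]]]],[[[[[[Int.ofNat (nat_lit 24602610555229750446)]]]]]]],[[],[[[[[[Int.negSucc (nat_lit 4754503901423903853)]]]]]]]],[[[[[[[[Int.ofNat (nat_lit 90745503423322471832)]]]]]]],[[[[[[[Int.ofNat (nat_lit 53583582038680769530)]]]]]]]]],[[[[],[],[[[[[[Int.ofNat (nat_lit 2688269998003676536)]]]]]]]],[[[],[[[[[[Int.negSucc (nat_lit 102879791250025444737)]]]]]]]],[[[[[[[[Int.ofNat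 (nat_lit 41065457411637959184)]]]]]]]]]]

/-- A coefficient. -/
noncomputable def sr3_m0_4_1 : MP 10 :=
  [[[[[[[[[[Int.ofNat (nat_lit 0),Int.ofNat (nat_lit 115019177009378997600)]],[[Int.ofNat (nat_lit 12001757019075750780)]]]],[[[[Int.negSucc (nat_lit 49365446897592048385)]]]]]],[[[[[[Int.negSucc (nat_lit 209150666937076513817)],[Int.negSucc (nat_lit 2258575792426051043)]]],[[[Int.ofNat (nat_lit 1546306208237734616)]]]]],[[[[[Int.negSucc (nat_lit 212277046912086754081)]]]]]],[],[[[[[[Int.negSucc (nat_lit 13150967565779975309)]]]]]]],[[[[],[[[[Int.ofNat (nat_lit 210814939477827034700)]]]]]],[[[[[[Int.ofNat (nat_lit 174799590602295939302)]]]]]]],[[],[[[[[[Int.ofNat (nat_lit 15074830136223431790)]]]]]]]],[[[[[[[[Int.negSucc (nat_lit 215726307531242626877)],[Int.negSucc (nat_lit 101626289227592495111)]]],[[[Int.negSucc (nat_lit 80357965855058075787)]]]]],[[[[[Int.ofNat (nat_lit 95200330066167011282)]]]]]],[[[],[[[[Int.ofNat (nat_lit 5312340891660152170)]]]]]],[[[[[[Int.ofNat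 (nat_lit 157009587692978589782)]]]]]]],[[[[[[[Int.ofNat (nat_lit 112667542277489406182)]]]]]]],[[[[[[[Int.ofNat (nat_lit 30351432914410127614)]]]]]]]],[[[[[],[[[[Int.ofNat (nat_lit 39853828891088457212)]]]]]],[[[[[[Int.ofNat (nat_lit 153009946836325901720)]]]]]]]],[[[[[[[[Int.negSucc (nat_lit 24180786574927732751)]]]]]]]]],[[[[[[[[[Int.ofNat (nat_lit 0),Int.ofNat (nat_lit 3932005482466977440)]],[[Int.ofNat (nat_lit 1818781579218215890)]]]],[[[[Int.negSucc (nat_lit 230171177124098197511)]]]]]],[[[[[[Int.negSucc (nat_lit 165277976326438223079)]]]]],[[[[[Int.negSucc (nat_lit 155455752119755388095)]]]]]]],[[[[],[[[[Int.ofNat (nat_lit 170123564656622688492)]]]]]],[[[[[[Int.ofNat (nat_lit 43815450800203596840)]]]]]]]],[[[[[[[[Int.negSucc (nat_lit 255051243015365516915)]]],[[[Int.negSucc (nat_lit 4783234863317666483)]]]]],[[[[[Int.ofNat (nat_lit 193777443237626978782)]]]]]]],[[[[[[[Int.ofNat (nat_lit 223143254230486057722)]]]]]]]],[[[],[[[[[[Int.ofNat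 (nat_lit 14235747990663222750)]]]]]]]],[[[[[[[[Int.ofNat (nat_lit 79303994516497001754)]]]]]]]]],[[[[[[[[],[[Int.negSucc (nat_lit 18244745751385820589)]]]],[[[[Int.negSucc (nat_lit 88185474279884147897)]]]]]],[[[[[[Int.negSucc (nat_lit 212804994960999669101)]]]]]]]],[[[[[[[[Int.negSucc (nat_lit 32883184169618689897)]]]]]]],[[[[[[[Int.ofNat (nat_lit 99688751427748182788)]]]]]]]]],[[[[],[[[[[[Int.negSucc (nat_lit 81588652809476939075)]]]]]]]],[[[[[[[[Int.ofNat (nat_lit 4794823834795817944)]]]]]]]]]]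

/-- A coefficient. -/
noncomputable def sr3_m0_4_2 : MP 10 :=
  [[[[[[[[[[Int.negSucc (nat_lit 770336290005993764117)],[Int.ofNat (nat_lit 186209386791414616692)]]],[[[Int.ofNat (nat_lit 7093945475913776536)]]]]],[[[[[Int.negSucc (nat_lit 403812206158595994553)]]]]]],[],[[[[[[Int.ofNat (nat_lit 104576679915502216930)]]]]]]],[[[[[[[Int.ofNat (nat_lit 257481119899720016780)]]]]]]],[[[[[[[Int.ofNat (nat_lit 143412783185261937042)]]]]]]]],[[[[[],[[[[Int.negSucc (nat_lit 247143369643228119245)]]]]]],[[[[[[Int.negSucc (nat_lit 135529820371862897109)]]]]]]]],[[[[[[[[Int.negSucc (nat_lit 425014369350464188339)]]]]]]]]],[[[[[[[[[Int.negSucc (nat_lit 319062154648510654363)],[Int.ofNat (nat_lit 76655805984817486276)]]],[[[Int.negSucc (nat_lit 24127310423804343625)]]]]],[[[[[Int.negSucc (nat_lit 249964148092475986465)]]]]]],[],[[[[[[Int.ofNat (nat_lit 68174970276998573314)]]]]]]],[[[[[[[Int.negSucc (nat_lit 36182760551086809401)]]]]]]],[[[[[[[Int.ofNat (nat_lit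 41288100285055995568)]]]]]]]],[[[[[],[[[[Int.negSucc (nat_lit 114511658379619380533)]]]]]],[[[[[[Int.negSucc (nat_lit 97887416949601554309)]]]]]]]],[[[[[[[[Int.negSucc (nat_lit 320159304310461812965)]]]]]]]]]]

/-- A coefficient. -/
noncomputable def sr3_m0_4_3 : MP 10 :=
  [[[[[[[[[[Int.ofNat (nat_lit 0),Int.negSucc (nat_lit 41125124949684878655)]],[[Int.ofNat (nat_lit 101038631458475407096)]]]],[[[[Int.negSucc (nat_lit 47858600193124407891)]]]]]],[[[[[[Int.ofNat (nat_lit 297124470814595470412)]]]]],[[[[[Int.ofNat (nat_lit 214583012023217657324)]]]]]]],[[[[],[[[[Int.negSucc (nat_lit 257842671496288929279)]]]]]],[[[[[[Int.negSucc (nat_lit 219310880624329557949)]]]]]]]],[[[[[[[[Int.ofNat (nat_lit 35161039003184759650)]]],[[[Int.negSucc (nat_lit 13480842618051888771)]]]]],[[[[[Int.negSucc (nat_lit 284995178246111438599)]]]]]]],[[[[[[[Int.ofNat (nat_lit 45227164359587734112)]]]]]]]],[[[],[[[[[[Int.ofNat (nat_lit 62896677380636430920)]]]]]]]],[[[[[[[[Int.negSucc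 (nat_lit 23385934253275333109)]]]]]]]]],[[[[[[[[],[[Int.ofNat (nat_lit 67063714641687784366)]]]],[[[[Int.ofNat (nat_lit 90440517560856832254)]]]]]],[[[[[[Int.ofNat (nat_lit 228560166238593203876)]]]]]]]],[[[[[[[[Int.ofNat (nat_lit 244887010945066410792)]]]]]]],[[[[[[[Int.negSucc (nat_lit 207866859916407052247)]]]]]]]]],[[[[],[[[[[[Int.ofNat (nat_lit 182462380336280276888)]]]]]]]],[[[[[[[[Int.ofNat (nat_lit 116176554978683379438)]]]]]]]]]]

/-- A coefficient. -/
noncomputable def sr3_m0_4_4 : MP 10 :=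
  [[[[[[[[[[Int.ofNat (nat_lit 610640343776216943624)],[Int.negSucc (nat_lit 151804973647863537969)]]],[[[Int.ofNat (nat_lit 102439764128898802504)]]]]],[[[[[Int.ofNat (nat_lit 332339730634449093240)]]]]]],[],[[[[[[Int.negSucc (nat_lit 90597670942518203093)]]]]]]],[[[[[[[Int.ofNat (nat_lit 62666090289808150604)]]]]]]],[[[[[[[Int.negSucc (nat_lit 306083559505012551597)]]]]]]]],[[[[[],[[[[Int.ofNat (nat_lit 128027837601553623850)]]]]]],[[[[[[Int.negSucc (nat_lit 324117504902660223233)]]]]]]]],[[[[[[[[Int.ofNat (nat_lit 387991499659393836172)]]]]]]]]]]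

/-- A coefficient. -/
noncomputable def sr3_m0_5_0 : MP 10 :=
  [[[],[[[[[[[[Int.ofNat (nat_lit 0),Int.negSucc (nat_lit 1886976873720701279)]],[[Int.ofNat (nat_lit 5621011091650262916)]]]],[[[[Int.ofNat (nat_lit 6264802120783383318)]]]]]],[[[[[[Int.negSucc (nat_lit 25278508319382305443)]]]]],[[[[[Int.ofNat (nat_lit 72916731830392592618)]]]]]]],[[[[],[[[[Int.negSucc (nat_lit 63260803822119953791)]]]]]],[[[[[[Int.ofNat (nat_lit 176858902656102363474)]]]]]]]],[[[[[[[[Int.negSucc (nat_lit 151207094184265672461)]]],[[[Int.negSucc (nat_lit 18863744944334541809)]]]]],[[[[[Int.negSucc (nat_lit 46194049445389263345)]]]]]]],[[[[[[[Int.ofNat (nat_lit 107064123882094790504)]]]]]]]],[[[],[[[[[[Int.ofNat (nat_lit 13876426030270874024)]]]]]]]],[[[[[[[[Int.negSucc (nat_lit 12607666980391491769)]]]]]]]]],[[],[[[[[[[],[[Int.ofNat (nat_lit 15137512646223587402)]]]],[[[[Int.negSucc (nat_lit 9492918390820646183)]]]]]],[[[[[[Int.negSucc (nat_lit 7371862213593778213)]]]]]]]],[[[[[[[[Int.negSucc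 (nat_lit 250781642959102001233)]]]]]]],[[[[[[[Int.negSucc (nat_lit 32887902934773948471)]]]]]]]]],[[],[[[],[[[[[[Int.ofNat (nat_lit 12697722975053426032)]]]]]]]],[[[[[[[[Int.negSucc (nat_lit 65669266947806034081)]]]]]]]]]]

/-- A coefficient. -/
noncomputable def sr3_m0_5_1 : MP 10 :=
  [[[[[[[[[[Int.ofNat (nat_lit 0),Int.negSucc (nat_lit 57221425878387416127)]],[[Int.negSucc (nat_lit 19307583023880917095)]]]],[[[[Int.negSucc (nat_lit 42031112610469703031)]]]]]],[[[[[[Int.ofNat (nat_lit 2837436830023523544)]]]]],[[[[[Int.negSucc (nat_lit 160775306294816639309)]]]]]]],[[[[],[[[[Int.ofNat (nat_lit 197273979815217635920)]]]]]],[[[[[[Int.negSucc (nat_lit 21596067766172251825)]]]]]]]],[[[[[[[[Int.ofNat (nat_lit 131546070886122946674)],[Int.ofNat (nat_lit 126496812099593899838)]]],[[[Int.ofNat (nat_lit 48414490732545429014)]]]]],[[[[[Int.ofNat (nat_lit 250387482387079583162)]]]]]],[],[[[[[[Int.ofNat (nat_lit 35390884301758349936)]]]]]]],[[[[[[[Int.negSucc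 (nat_lit 51145960483801679269)]]]]]]],[[[[[[[Int.ofNat (nat_lit 15352437238854305190)]]]]]]]],[[[[[],[[[[Int.negSucc (nat_lit 69723310789331222307)]]]]]],[[[[[[Int.negSucc (nat_lit 205635619167010127727)]]]]]]]],[[[[[[[[Int.ofNat (nat_lit 168669104799319541072)]]]]]]]]],[[[[[[[[],[[Int.negSucc (nat_lit 23750927336612815085)]]]],[[[[Int.negSucc (nat_lit 88530594231546750269)]]]]]],[[[[[[Int.negSucc (nat_lit 25748222959057041679)]]]]]]]],[[[[[[[[Int.ofNat (nat_lit 43460162969256804094)]]]]]]],[[[[[[[Int.ofNat (nat_lit 203402204544177874808)]]]]]]]]],[[[[],[[[[[[Int.negSucc (nat_lit 118213781015927600249)]]]]]]]],[[[[[[[[Int.ofNat (nat_lit 65122214760138518626)]]]]]]]]]]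

/-- A coefficient. -/
noncomputable def sr3_m0_5_2 : MP 10 :=
  [[[[[[[[[[Int.negSucc (nat_lit 364476140253230551221)],[Int.ofNat (nat_lit 28410565069478774466)]]],[[[Int.negSucc (nat_lit 93469992376805744593)]]]]],[[[[[Int.negSucc (nat_lit 196375406088611763141)]]]]]],[],[[[[[[Int.negSucc (nat_lit 50776209925092915555)]]]]]]],[[[[[[[Int.ofNat (nat_lit 222439778812127053612)]]]]]]],[[[[[[[Int.ofNat (nat_lit 119020540300066195960)]]]]]]]],[[[[[],[[[[Int.negSucc (nat_lit 13085836469911473997)]]]]]],[[[[[[Int.ofNat (nat_lit 285885732948110238804)]]]]]]]],[[[[[[[[Int.negSucc (nat_lit 393310448988049358497)]]]]]]]]]]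

/-- A coefficient. -/
noncomputable def sr3_m0_6_0 : MP 10 :=
  []

/-- A coefficient. -/
noncomputable def sr3_m0_6_1 : MP 10 :=
  [[[[[[[[[[Int.ofNat (nat_lit 0),Int.negSucc (nat_lit 18662331908630716575)]],[[Int.ofNat (nat_lit 7457223964673273596)]]]],[[[[Int.ofNat (nat_lit 29550484016301115530)]]]]]],[[[[[[Int.ofNat (nat_lit 20500534705355658752)]]]]],[[[[[Int.ofNat (nat_lit 77603520434726755838)]]]]]]],[[[[],[[[[Int.negSucc (nat_lit 118166551633647212897)]]]]]],[[[[[[Int.negSucc (nat_lit 80472774919491892269)]]]]]]]],[[[[[[[[Int.ofNat (nat_lit 148798821108558178962)]]],[[[Int.ofNat (nat_lit 33846501884607030638)]]]]],[[[[[Int.negSucc (nat_lit 158318879973470353481)]]]]]]],[[[[[[[Int.negSucc (nat_lit 130146089303708789665)]]]]]]]],[[[],[[[[[[Int.ofNat (nat_lit 6859709088122322108)]]]]]]]],[[[[[[[[Int.negSucc (nat_lit 93666309260969484101)]]]]]]]]],[[[[[[[[],[[Int.ofNat (nat_lit 6569325186971535030)]]]],[[[[Int.ofNat (nat_lit 108228676765490347798)]]]]]],[[[[[[Int.ofNat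 (nat_lit 58016489339563126972)]]]]]]]],[[[[[[[[Int.ofNat (nat_lit 146434557205199532928)]]]]]]],[[[[[[[Int.negSucc (nat_lit 122359815216398112819)]]]]]]]]],[[[[],[[[[[[Int.ofNat (nat_lit 100971554220258703682)]]]]]]]],[[[[[[[[Int.negSucc (nat_lit 38507411988924706871)]]]]]]]]]]

/-- A coefficient. -/
noncomputable def sr3_m0_6_2 : MP 10 :=
  [[[[[[[[[[Int.ofNat (nat_lit 312375333243271346102)],[Int.negSucc (nat_lit 113989897975313032155)]]],[[[Int.negSucc (nat_lit 18380108607649541977)]]]]],[[[[[Int.ofNat (nat_lit 261601995193012615506)]]]]]],[],[[[[[[Int.negSucc (nat_lit 81110315814735368807)]]]]]]],[[[[[[[Int.negSucc (nat_lit 12170969025052546791)]]]]]]],[[[[[[[Int.negSucc (nat_lit 159119420133882014617)]]]]]]]],[[[[[],[[[[Int.ofNat (nat_lit 163229391456219453712)]]]]]],[[[[[[Int.ofNat (nat_lit 90660290874602484720)]]]]]]]],[[[[[[[[Int.ofNat (nat_lit 291277884878633152616)]]]]]]]]]]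

/-- An expanded part. -/
noncomputable def sr3_m0 : R12 :=
  [[sr3_m0_0_0, sr3_m0_0_1, sr3_m0_0_2, sr3_m0_0_3, sr3_m0_0_4, sr3_m0_0_5, sr3_m0_0_6, sr3_m0_0_7, sr3_m0_0_8],
   [sr3_m0_1_0, sr3_m0_1_1, sr3_m0_1_2, sr3_m0_1_3, sr3_m0_1_4, sr3_m0_1_5, sr3_m0_1_6],
   [sr3_m0_2_0, sr3_m0_2_1, sr3_m0_2_2, sr3_m0_2_3, sr3_m0_2_4, sr3_m0_2_5, sr3_m0_2_6],
   [sr3_m0_3_0, sr3_m0_3_1, sr3_m0_3_2, sr3_m0_3_3, sr3_m0_3_4],
   [sr3_m0_4_0, sr3_m0_4_1, sr3_m0_4_2, sr3_m0_4_3, sr3_m0_4_4],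
   [sr3_m0_5_0, sr3_m0_5_1, sr3_m0_5_2],
   [sr3_m0_6_0, sr3_m0_6_1, sr3_m0_6_2]]

set_option maxRecDepth 100000 in
theorem sr3_check0 : partOk 0 sr3_rows 0 sr3_m0 = true :=
  Fast.partOk_of_fast (by decide +kernel)

end Vale.Agent.P142K.CertB
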