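import Vale.Agent.P142K.Checker

/-!
# A factor of the certificate

Generated from a semidefinite program; only the checker is trusted.
-/

namespace Vale.Agent.P142K.CertB

open Vale.Agent.P142J (MP)

/-- A row. -/
noncomputable def sr3_c0_0 : List ℕ × List ℤ :=
  ([(nat_lit 0),(nat_lit 0),(nat_lit 0),(nat_lit 0),(nat_lit 0),(nat_lit 0),(nat_lit 0),(nat_lit 0),(nat_lit 0),(nat_lit 0),(nat_lit 0),(nat_lit 1)], [Int.ofNat (nat_lit 6834879472)])

/-- A row. -/
noncomputable def sr3_c0_1 : List ℕ × List ℤ :=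
  ([(nat_lit 0),(nat_lit 0),(nat_lit 0),(nat_lit 0),(nat_lit 0),(nat_lit 0),(nat_lit 0),(nat_lit 0),(nat_lit 0),(nat_lit 1),(nat_lit 0),(nat_lit 0)], [Int.ofNat (nat_lit 58216262),Int.ofNat (nat_lit 1620896544)])

/-- A row. -/
noncomputable def sr3_c0_2 : List ℕ × List ℤ :=
  ([(nat_lit 0),(nat_lit 0),(nat_lit 0),(nat_lit 0),(nat_lit 0),(nat_lit 0),(nat_lit 0),(nat_lit 1),(nat_lit 0),(nat_lit 0),(nat_lit 0),(nat_lit 0)], [Int.negSucc (nat_lit 741119112),Int.negSucc (nat_lit 158146499),Int.ofNat (nat_lit 3608544454)])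

/-- A row. -/
noncomputable def sr3_c0_3 : List ℕ × List ℤ :=
  ([(nat_lit 0),(nat_lit 0),(nat_lit 0),(nat_lit 0),(nat_lit 0),(nat_lit 1),(nat_lit 0),(nat_lit 0),(nat_lit 0),(nat_lit 0),(nat_lit 0),(nat_lit 0)], [Int.negSucc (nat_lit 5484439119),Int.ofNat (nat_lit 906638686),Int.negSucc (nat_lit 3208535391),Int.ofNat (nat_lit 4350324622)])

/-- A row. -/
noncomputable def sr3_c0_4 : List ℕ × List ℤ :=
  ([(nat_lit 0),(nat_lit 0),(nat_lit 0),(nat_lit 0),(nat_lit 0),(nat_lit 1),(nat_lit 1),(nat_lit 0),(nat_lit 0),(nat_lit 0),(nat_lit 0),(nat_lit 0)], [Int.ofNat (nat_lit 217708824),Int.ofNat (nat_lit 163645052),Int.ofNat (nat_lit 1218086713),Int.ofNat (nat_lit 1291418412),Int.ofNat (nat_lit 3694481442)])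

/-- A row. -/
noncomputable def sr3_c0_5 : List ℕ × List ℤ :=
  ([(nat_lit 0),(nat_lit 0),(nat_lit 0),(nat_lit 0),(nat_lit 1),(nat_lit 0),(nat_lit 0),(nat_lit 1),(nat_lit 0),(nat_lit 0),(nat_lit 0),(nat_lit 0)], [Int.negSucc (nat_lit 135511031),Int.negSucc (nat_lit 385969760),Int.negSucc (nat_lit 1737897523),Int.negSucc (nat_lit 1324684311),Int.negSucc (nat_lit 3407494849),Int.ofNat (nat_lit 984893894)])

/-- A row. -/
noncomputable def sr3_c0_6 : List ℕ × List ℤ :=
  ([(nat_lit 0),(nat_lit 0),(nat_lit 0),(nat_lit 0),(nat_lit 1),(nat_lit 1),(nat_lit 0),(nat_lit 0),(nat_lit 0),(nat_lit 0),(nat_lit 0),(nat_lit 0)], [Int.ofNat (nat_lit 3008075789),Int.negSucc (nat_lit 23146569),Int.ofNat (nat_lit 1924280877),Int.negSucc (nat_lit 3956887846),Int.ofNat (nat_lit 1170849888),Int.ofNat (nat_lit 472619234),Int.ofNat (nat_lit 5139355022)])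

/-- A row. -/
noncomputable def sr3_c0_7 : List ℕ × List ℤ :=
  ([(nat_lit 0),(nat_lit 0),(nat_lit 0),(nat_lit 1),(nat_lit 0),(nat_lit 0),(nat_lit 0),(nat_lit 0),(nat_lit 0),(nat_lit 0),(nat_lit 0),(nat_lit 0)], [Int.ofNat (nat_lit 806329676),Int.negSucc (nat_lit 143930119),Int.ofNat (nat_lit 3178837060),Int.negSucc (nat_lit 1575415718),Int.negSucc (nat_lit 1802219515),Int.negSucc (nat_lit 1531695529),Int.negSucc (nat_lit 3390686386),Int.ofNat (nat_lit 4890112892)])

/-- A row. -/
noncomputable def sr3_c0_8 : List ℕ × List ℤ :=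
  ([(nat_lit 0),(nat_lit 0),(nat_lit 0),(nat_lit 1),(nat_lit 0),(nat_lit 0),(nat_lit 0),(nat_lit 0),(nat_lit 1),(nat_lit 0),(nat_lit 0),(nat_lit 0)], [Int.ofNat (nat_lit 25768005),Int.negSucc (nat_lit 157968359),Int.ofNat (nat_lit 345004566),Int.negSucc (nat_lit 315286201),Int.negSucc (nat_lit 707813885),Int.negSucc (nat_lit 521580999),Int.ofNat (nat_lit 264005095),Int.ofNat (nat_lit 275963870),Int.ofNat (nat_lit 877084824)])

/-- A row. -/
noncomputable def sr3_c0_9 : List ℕ × List ℤ :=
  ([(nat_lit 0),(nat_lit 0),(nat_lit 0),(nat_lit 1),(nat_lit 0),(nat_lit 0),(nat_lit 1),(nat_lit 0),(nat_lit 0),(nat_lit 0),(nat_lit 0),(nat_lit 0)], [Int.negSucc (nat_lit 4297030544),Int.negSucc (nat_lit 186207286),Int.ofNat (nat_lit 386722205),Int.negSucc (nat_lit 1117923481),Int.negSucc (nat_lit 2800851074),Int.ofNat (nat_lit 1174070749),Int.negSucc (nat_lit 524019742),Int.ofNat (nat_lit 843348846),Int.negSucc (nat_lit 1459281115),Int.ofNat (nat_lit 2764526125)])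

/-- A row. -/
noncomputable def sr3_c0_10 : List ℕ × List ℤ :=
  ([(nat_lit 0),(nat_lit 0),(nat_lit 0),(nat_lit 1),(nat_lit 1),(nat_lit 0),(nat_lit 0),(nat_lit 0),(nat_lit 0),(nat_lit 0),(nat_lit 0),(nat_lit 0)], [Int.negSucc (nat_lit 666229375),Int.ofNat (nat_lit 1476105801),Int.negSucc (nat_lit 1695923400),Int.ofNat (nat_lit 873487750),Int.ofNat (nat_lit 2033086868),Int.ofNat (nat_lit 1842761815),Int.ofNat (nat_lit 670594514),Int.negSucc (nat_lit 4355777676),Int.negSucc (nat_lit 1033632403),Int.ofNat (nat_lit 763157640),Int.ofNat (nat_lit 2990084412)])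

/-- A row. -/
noncomputable def sr3_c0_11 : List ℕ × List ℤ :=
  ([(nat_lit 0),(nat_lit 0),(nat_lit 0),(nat_lit 2),(nat_lit 0),(nat_lit 1),(nat_lit 0),(nat_lit 0),(nat_lit 0),(nat_lit 0),(nat_lit 0),(nat_lit 0)], [Int.negSucc (nat_lit 13565007),Int.ofNat (nat_lit 238931543),Int.negSucc (nat_lit 544599142),Int.negSucc (nat_lit 360489690),Int.negSucc (nat_lit 175634275),Int.ofNat (nat_lit 97887112),Int.ofNat (nat_lit 756667855),Int.ofNat (nat_lit 104481188),Int.negSucc (nat_lit 448889928),Int.negSucc (nat_lit 603062441),Int.ofNat (nat_lit 163123001),Int.ofNat (nat_lit 2167072983)])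

/-- A row. -/
noncomputable def sr3_c0_12 : List ℕ × List ℤ :=
  ([(nat_lit 0),(nat_lit 0),(nat_lit 0),(nat_lit 3),(nat_lit 0),(nat_lit 0),(nat_lit 0),(nat_lit 0),(nat_lit 0),(nat_lit 0),(nat_lit 0),(nat_lit 0)], [Int.ofNat (nat_lit 292557599),Int.ofNat (nat_lit 124418099),Int.negSucc (nat_lit 813981704),Int.ofNat (nat_lit 874358304),Int.negSucc (nat_lit 960354469),Int.ofNat (nat_lit 926796762),Int.ofNat (nat_lit 383710905),Int.negSucc (nat_lit 1499420517),Int.negSucc (nat_lit 282750610),Int.ofNat (nat_lit 208881657),Int.ofNat (nat_lit 411764048),Int.negSucc (nat_lit 518934420),Int.ofNat (nat_lit 2345484349)])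

/-- A row. -/
noncomputable def sr3_c0_13 : List ℕ × List ℤ :=
  ([(nat_lit 0),(nat_lit 0),(nat_lit 1),(nat_lit 0),(nat_lit 0),(nat_lit 0),(nat_lit 0),(nat_lit 0),(nat_lit 0),(nat_lit 1),(nat_lit 0),(nat_lit 0)], [Int.ofNat (nat_lit 21350187),Int.ofNat (nat_lit 440474589),Int.negSucc (nat_lit 285295989),Int.ofNat (nat_lit 272972102),Int.ofNat (nat_lit 516810706),Int.ofNat (nat_lit 85607618),Int.ofNat (nat_lit 19685024),Int.negSucc (nat_lit 174181795),Int.negSucc (nat_lit 138301942),Int.negSucc (nat_lit 86363348),Int.ofNat (nat_lit 102770323),Int.ofNat (nat_lit 98641631),Int.negSucc (nat_lit 9346683),Int.ofNat (nat_lit 681640238)])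

/-- A row. -/
noncomputable def sr3_c0_14 : List ℕ × List ℤ :=
  ([(nat_lit 0),(nat_lit 0),(nat_lit 1),(nat_lit 0),(nat_lit 0),(nat_lit 0),(nat_lit 0),(nat_lit 1),(nat_lit 0),(nat_lit 0),(nat_lit 0),(nat_lit 0)], [Int.negSucc (nat_lit 2696478841),Int.ofNat (nat_lit 230006368),Int.ofNat (nat_lit 4097868360),Int.ofNat (nat_lit 441670988),Int.ofNat (nat_lit 514065836),Int.negSucc (nat_lit 670165425),Int.negSucc (nat_lit 620366089),Int.ofNat (nat_lit 244611685),Int.ofNat (nat_lit 135074863),Int.ofNat (nat_lit 68340585),Int.ofNat (nat_lit 58485720),Int.negSucc (nat_lit 28193516),Int.ofNat (nat_lit 177197610),Int.negSucc (nat_lit 694017078),Int.ofNat (nat_lit 1163805924)])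

/-- A row. -/
noncomputable def sr3_c0_15 : List ℕ × List ℤ :=
  ([(nat_lit 0),(nat_lit 0),(nat_lit 1),(nat_lit 0),(nat_lit 0),(nat_lit 1),(nat_lit 0),(nat_lit 0),(nat_lit 0),(nat_lit 0),(nat_lit 0),(nat_lit 0)], [Int.negSucc (nat_lit 2877335193),Int.negSucc (nat_lit 571446272),Int.negSucc (nat_lit 1941799265),Int.ofNat (nat_lit 3623612074),Int.ofNat (nat_lit 247406295),Int.negSucc (nat_lit 75773544),Int.ofNat (nat_lit 1128095188),Int.ofNat (nat_lit 1057065922),Int.ofNat (nat_lit 306812613),Int.negSucc (nat_lit 1075653850),Int.ofNat (nat_lit 9034772),Int.ofNat (nat_lit 742681073),Int.negSucc (nat_lit 31154077),Int.negSucc (nat_lit 284900518),Int.ofNat (nat_lit 95800042),Int.ofNat (nat_lit 2516124152)])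

/-- A row. -/
noncomputable def sr3_c0_16 : List ℕ × List ℤ :=
  ([(nat_lit 0),(nat_lit 0),(nat_lit 1),(nat_lit 1),(nat_lit 0),(nat_lit 0),(nat_lit 0),(nat_lit 0),(nat_lit 0),(nat_lit 0),(nat_lit 0),(nat_lit 0)], [Int.negSucc (nat_lit 851270377),Int.ofNat (nat_lit 869651582),Int.ofNat (nat_lit 2775840708),Int.ofNat (nat_lit 922117982),Int.negSucc (nat_lit 2606378215),Int.negSucc (nat_lit 1119657984),Int.negSucc (nat_lit 3695812121),Int.ofNat (nat_lit 4781880540),Int.negSucc (nat_lit 940605013),Int.ofNat (nat_lit 848210059),Int.ofNat (nat_lit 1749750541),Int.ofNat (nat_lit 470347234),Int.ofNat (nat_lit 2196610475),Int.ofNat (nat_lit 810398770),Int.ofNat (nat_lit 69689426),Int.negSucc (nat_lit 1610947126),Int.ofNat (nat_lit 4030404070)])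

/-- A row. -/
noncomputable def sr3_c0_17 : List ℕ × List ℤ :=
  ([(nat_lit 0),(nat_lit 0),(nat_lit 1),(nat_lit 1),(nat_lit 1),(nat_lit 0),(nat_lit 0),(nat_lit 0),(nat_lit 0),(nat_lit 0),(nat_lit 0),(nat_lit 0)], [Int.negSucc (nat_lit 47814083),Int.negSucc (nat_lit 71165060),Int.negSucc (nat_lit 1191096477),Int.negSucc (nat_lit 824427845),Int.negSucc (nat_lit 2155884689),Int.ofNat (nat_lit 1342405507),Int.negSucc (nat_lit 387369342),Int.negSucc (nat_lit 718186015),Int.negSucc (nat_lit 357046500),Int.ofNat (nat_lit 127442475),Int.ofNat (nat_lit 810714979),Int.ofNat (nat_lit 749534116),Int.ofNat (nat_lit 9651378),Int.ofNat (nat_lit 742964274),Int.negSucc (nat_lit 215076535),Int.negSucc (nat_lit 90843843),Int.negSucc (nat_lit 919963660),Int.ofNat (nat_lit 2080702829)])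

/-- A row. -/
noncomputable def sr3_c0_18 : List ℕ × List ℤ :=
  ([(nat_lit 0),(nat_lit 0),(nat_lit 2),(nat_lit 0),(nat_lit 0),(nat_lit 1),(nat_lit 0),(nat_lit 0),(nat_lit 0),(nat_lit 0),(nat_lit 0),(nat_lit 0)], [Int.ofNat (nat_lit 365199468),Int.ofNat (nat_lit 142901560),Int.ofNat (nat_lit 2066339465),Int.ofNat (nat_lit 460554933),Int.ofNat (nat_lit 1323288019),Int.negSucc (nat_lit 789368480),Int.ofNat (nat_lit 456579386),Int.ofNat (nat_lit 942506093),Int.ofNat (nat_lit 321519659),Int.negSucc (nat_lit 360422250),Int.negSucc (nat_lit 2917614),Int.ofNat (nat_lit 1057303200),Int.ofNat (nat_lit 345265568),Int.negSucc (nat_lit 705843083),Int.ofNat (nat_lit 127217976),Int.ofNat (nat_lit 1302073407),Int.ofNat (nat_lit 338092774),Int.negSucc (nat_lit 234343333),Int.ofNat (nat_lit 1345024372)])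

/-- A row. -/
noncomputable def sr3_c0_19 : List ℕ × List ℤ :=
  ([(nat_lit 0),(nat_lit 0),(nat_lit 2),(nat_lit 1),(nat_lit 0),(nat_lit 0),(nat_lit 0),(nat_lit 0),(nat_lit 0),(nat_lit 0),(nat_lit 0),(nat_lit 0)], [Int.negSucc (nat_lit 285757151),Int.ofNat (nat_lit 788670347),Int.negSucc (nat_lit 381033050),Int.ofNat (nat_lit 1726059529),Int.negSucc (nat_lit 904464107),Int.ofNat (nat_lit 593586652),Int.ofNat (nat_lit 316440594),Int.ofNat (nat_lit 222355163),Int.negSucc (nat_lit 862256363),Int.ofNat (nat_lit 1020220052),Int.ofNat (nat_lit 1700017370),Int.ofNat (nat_lit 354782210),Int.ofNat (nat_lit 1860350580),Int.ofNat (nat_lit 863389254),Int.ofNat (nat_lit 376866204),Int.negSucc (nat_lit 1159247485),Int.ofNat (nat_lit 3685523885),Int.negSucc (nat_lit 244302459),Int.negSucc (nat_lit 328627819),Int.ofNat (nat_lit 1218604825)])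

/-- A row. -/
noncomputable def sr3_c0_20 : List ℕ × List ℤ :=
  ([(nat_lit 0),(nat_lit 1),(nat_lit 0),(nat_lit 0),(nat_lit 0),(nat_lit 0),(nat_lit 0),(nat_lit 0),(nat_lit 0),(nat_lit 0),(nat_lit 0),(nat_lit 0)], [Int.negSucc (nat_lit 7656221251),Int.ofNat (nat_lit 539465753),Int.negSucc (nat_lit 4362942335),Int.ofNat (nat_lit 3878319451),Int.ofNat (nat_lit 4244517148),Int.negSucc (nat_lit 1684316610),Int.ofNat (nat_lit 3507133068),Int.negSucc (nat_lit 3002336987),Int.ofNat (nat_lit 2958490943),Int.negSucc (nat_lit 1481645390),Int.negSucc (nat_lit 867933957),Int.negSucc (nat_lit 1402981513),Int.negSucc (nat_lit 1693223524),Int.ofNat (nat_lit 1071345879),Int.ofNat (nat_lit 977956805),Int.ofNat (nat_lit 572625429),Int.negSucc (nat_lit 604284655),Int.negSucc (nat_lit 1113906737),Int.negSucc (nat_lit 335516617),Int.ofNat (nat_lit 40287530),Int.ofNat (nat_lit 6943752849)])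

/-- A row. -/
noncomputable def sr3_c0_21 : List ℕ × List ℤ :=
  ([(nat_lit 0),(nat_lit 1),(nat_lit 0),(nat_lit 0),(nat_lit 0),(nat_lit 0),(nat_lit 0),(nat_lit 0),(nat_lit 0),(nat_lit 0),(nat_lit 1),(nat_lit 0)], [Int.ofNat (nat_lit 806147509),Int.ofNat (nat_lit 132913424),Int.ofNat (nat_lit 513706850),Int.negSucc (nat_lit 1726481713),Int.ofNat (nat_lit 452067825),Int.ofNat (nat_lit 1085055232),Int.ofNat (nat_lit 3187998765),Int.negSucc (nat_lit 598635461),Int.negSucc (nat_lit 323678168),Int.ofNat (nat_lit 493021113),Int.ofNat (nat_lit 193087909),Int.negSucc (nat_lit 144232466),Int.ofNat (nat_lit 193307393),Int.ofNat (nat_lit 496699111),Int.negSucc (nat_lit 33882542),Int.ofNat (nat_lit 203840695),Int.ofNat (nat_lit 155693965),Int.negSucc (nat_lit 349752406),Int.ofNat (nat_lit 40497062),Int.ofNat (nat_lit 326692871),Int.ofNat (nat_lit 66270643),Int.ofNat (nat_lit 1185186435)])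

/-- A row. -/
noncomputable def sr3_c0_22 : List ℕ × List ℤ :=
  ([(nat_lit 0),(nat_lit 1),(nat_lit 0),(nat_lit 0),(nat_lit 0),(nat_lit 0),(nat_lit 0),(nat_lit 0),(nat_lit 1),(nat_lit 0),(nat_lit 0),(nat_lit 0)], [Int.ofNat (nat_lit 55812097),Int.ofNat (nat_lit 1070491952),Int.ofNat (nat_lit 856061239),Int.ofNat (nat_lit 718482543),Int.ofNat (nat_lit 1964851947),Int.ofNat (nat_lit 694518227),Int.negSucc (nat_lit 718431084),Int.negSucc (nat_lit 297112401),Int.negSucc (nat_lit 1687502350),Int.ofNat (nat_lit 644836471),Int.ofNat (nat_lit 73773592),Int.negSucc (nat_lit 58090236),Int.negSucc (nat_lit 22755410),Int.negSucc (nat_lit 515745601),Int.ofNat (nat_lit 167895417),Int.negSucc (nat_lit 244208086),Int.ofNat (nat_lit 138020050),Int.negSucc (nat_lit 473260369),Int.ofNat (nat_lit 250175158),Int.ofNat (nat_lit 66839514),Int.negSucc (nat_lit 246991898),Int.negSucc (nat_lit 110773620),Int.ofNat (nat_lit 1816025397)])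

/-- A row. -/
noncomputable def sr3_c0_23 : List ℕ × List ℤ :=
  ([(nat_lit 0),(nat_lit 1),(nat_lit 0),(nat_lit 0),(nat_lit 0),(nat_lit 0),(nat_lit 1),(nat_lit 0),(nat_lit 0),(nat_lit 0),(nat_lit 0),(nat_lit 0)], [Int.ofNat (nat_lit 1422541213),Int.ofNat (nat_lit 623828698),Int.ofNat (nat_lit 1328840702),Int.ofNat (nat_lit 396604201),Int.ofNat (nat_lit 2279702666),Int.negSucc (nat_lit 2058479977),Int.ofNat (nat_lit 2147097887),Int.negSucc (nat_lit 382971267),Int.ofNat (nat_lit 3205467834),Int.negSucc (nat_lit 2992545842),Int.ofNat (nat_lit 258416664),Int.negSucc (nat_lit 338077880),Int.ofNat (nat_lit 93130455),Int.ofNat (nat_lit 1073090938),Int.ofNat (nat_lit 163110112),Int.ofNat (nat_lit 1338298751),Int.negSucc (nat_lit 211734995),Int.ofNat (nat_lit 523343613),Int.ofNat (nat_lit 104663100),Int.negSucc (nat_lit 282353690),Int.ofNat (nat_lit 1614032697),Int.ofNat (nat_lit 653317534),Int.negSucc (nat_lit 1310729769),Int.ofNat (nat_lit 3810410217)])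

/-- A row. -/
noncomputable def sr3_c0_24 : List ℕ × List ℤ :=
  ([(nat_lit 0),(nat_lit 1),(nat_lit 0),(nat_lit 0),(nat_lit 0),(nat_lit 2),(nat_lit 0),(nat_lit 0),(nat_lit 0),(nat_lit 0),(nat_lit 0),(nat_lit 0)], [Int.negSucc (nat_lit 1176046405),Int.negSucc (nat_lit 530293704),Int.negSucc (nat_lit 2067704759),Int.ofNat (nat_lit 1081998169),Int.ofNat (nat_lit 764684075),Int.ofNat (nat_lit 996401889),Int.negSucc (nat_lit 176448637),Int.negSucc (nat_lit 838991770),Int.negSucc (nat_lit 540894715),Int.ofNat (nat_lit 693456934),Int.negSucc (nat_lit 370003774),Int.negSucc (nat_lit 934495479),Int.negSucc (nat_lit 212659214),Int.ofNat (nat_lit 983750108),Int.negSucc (nat_lit 262151431),Int.negSucc (nat_lit 344019405),Int.negSucc (nat_lit 203099791),Int.negSucc (nat_lit 1267775690),Int.negSucc (nat_lit 481811149),Int.ofNat (nat_lit 58074183),Int.ofNat (nat_lit 373045772),Int.ofNat (nat_lit 116130583),Int.ofNat (nat_lit 655720017),Int.negSucc (nat_lit 460811889),Int.ofNat (nat_lit 2593812942)])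

/-- A row. -/
noncomputable def sr3_c0_25 : List ℕ × List ℤ :=
  ([(nat_lit 0),(nat_lit 1),(nat_lit 0),(nat_lit 0),(nat_lit 1),(nat_lit 0),(nat_lit 0),(nat_lit 0),(nat_lit 0),(nat_lit 0),(nat_lit 0),(nat_lit 0)], [Int.ofNat (nat_lit 5229479518),Int.ofNat (nat_lit 1117588504),Int.ofNat (nat_lit 1661108822),Int.negSucc (nat_lit 2562772622),Int.negSucc (nat_lit 1802174331),Int.negSucc (nat_lit 190518973),Int.negSucc (nat_lit 1521489630),Int.ofNat (nat_lit 3710303899),Int.negSucc (nat_lit 2412939189),Int.negSucc (nat_lit 445362281),Int.negSucc (nat_lit 974131384),Int.ofNat (nat_lit 887044042),Int.ofNat (nat_lit 981473311),Int.negSucc (nat_lit 1912101877),Int.negSucc (nat_lit 261106685),Int.negSucc (nat_lit 1474316614),Int.ofNat (nat_lit 219760003),Int.ofNat (nat_lit 875236835),Int.negSucc (nat_lit 862578902),Int.negSucc (nat_lit 549538376),Int.negSucc (nat_lit 8811518398),Int.negSucc (nat_lit 724837311),Int.ofNat (nat_lit 440615021),Int.ofNat (nat_lit 229184591),Int.negSucc (nat_lit 2020898650),Int.ofNat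 (nat_lit 6122345378)])

/-- A row. -/
noncomputable def sr3_c0_26 : List ℕ × List ℤ :=
  ([(nat_lit 0),(nat_lit 1),(nat_lit 0),(nat_lit 0),(nat_lit 2),(nat_lit 0),(nat_lit 0),(nat_lit 0),(nat_lit 0),(nat_lit 0),(nat_lit 0),(nat_lit 0)], [Int.ofNat (nat_lit 1700529126),Int.negSucc (nat_lit 2198936793),Int.negSucc (nat_lit 361330532),Int.ofNat (nat_lit 237739416),Int.ofNat (nat_lit 230168593),Int.ofNat (nat_lit 2032446859),Int.negSucc (nat_lit 122133114),Int.negSucc (nat_lit 773018887),Int.negSucc (nat_lit 787172532),Int.negSucc (nat_lit 37178252),Int.ofNat (nat_lit 282143820),Int.negSucc (nat_lit 32069076),Int.ofNat (nat_lit 425216844),Int.ofNat (nat_lit 247488677),Int.negSucc (nat_lit 362401823),Int.ofNat (nat_lit 901944365),Int.negSucc (nat_lit 79671182),Int.ofNat (nat_lit 999463566),Int.ofNat (nat_lit 626315982),Int.ofNat (nat_lit 38727727),Int.ofNat (nat_lit 775835255),Int.ofNat (nat_lit 313714475),Int.ofNat (nat_lit 594449216),Int.ofNat (nat_lit 25720735),Int.ofNat (nat_lit 1609459183),Int.negSucc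 (nat_lit 1022066761),Int.ofNat (nat_lit 2826198795)])

/-- A row. -/
noncomputable def sr3_c0_27 : List ℕ × List ℤ :=
  ([(nat_lit 0),(nat_lit 1),(nat_lit 0),(nat_lit 1),(nat_lit 0),(nat_lit 0),(nat_lit 0),(nat_lit 1),(nat_lit 0),(nat_lit 0),(nat_lit 0),(nat_lit 0)], [Int.negSucc (nat_lit 423537889),Int.negSucc (nat_lit 386976479),Int.negSucc (nat_lit 1242034558),Int.ofNat (nat_lit 98946171),Int.negSucc (nat_lit 644308049),Int.negSucc (nat_lit 1451952884),Int.negSucc (nat_lit 1278196439),Int.ofNat (nat_lit 758111836),Int.ofNat (nat_lit 2377578673),Int.negSucc (nat_lit 1966430341),Int.negSucc (nat_lit 631514121),Int.negSucc (nat_lit 902765041),Int.negSucc (nat_lit 1032449535),Int.ofNat (nat_lit 274743002),Int.negSucc (nat_lit 636122),Int.ofNat (nat_lit 892608071),Int.negSucc (nat_lit 707637623),Int.ofNat (nat_lit 560369088),Int.ofNat (nat_lit 151676644),Int.negSucc (nat_lit 307978764),Int.ofNat (nat_lit 505192531),Int.negSucc (nat_lit 579041281),Int.negSucc (nat_lit 477566256),Int.ofNat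 (nat_lit 913767055),Int.negSucc (nat_lit 891117542),Int.negSucc (nat_lit 77312253),Int.ofNat (nat_lit 61303045),Int.ofNat (nat_lit 2584263805)])

/-- A row. -/
noncomputable def sr3_c0_28 : List ℕ × List ℤ :=
  ([(nat_lit 0),(nat_lit 1),(nat_lit 0),(nat_lit 1),(nat_lit 0),(nat_lit 1),(nat_lit 0),(nat_lit 0),(nat_lit 0),(nat_lit 0),(nat_lit 0),(nat_lit 0)], [Int.negSucc (nat_lit 2699386448),Int.negSucc (nat_lit 1454077483),Int.ofNat (nat_lit 541511482),Int.negSucc (nat_lit 1868885409),Int.negSucc (nat_lit 3760015359),Int.negSucc (nat_lit 1872972791),Int.negSucc (nat_lit 4892007502),Int.ofNat (nat_lit 3331360820),Int.ofNat (nat_lit 699677094),Int.negSucc (nat_lit 1308203324),Int.negSucc (nat_lit 943178510),Int.negSucc (nat_lit 4646732408),Int.negSucc (nat_lit 2837234821),Int.negSucc (nat_lit 1973339778),Int.ofNat (nat_lit 1386430394),Int.negSucc (nat_lit 309785341),Int.negSucc (nat_lit 1454666581),Int.ofNat (nat_lit 1123134488),Int.negSucc (nat_lit 1801057832),Int.negSucc (nat_lit 979913594),Int.negSucc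 (nat_lit 1785450011),Int.negSucc (nat_lit 1811064974),Int.negSucc (nat_lit 2186317695),Int.ofNat (nat_lit 384959188),Int.negSucc (nat_lit 3127921767),Int.ofNat (nat_lit 1666302117),Int.negSucc (nat_lit 961485404),Int.negSucc (nat_lit 1920669172),Int.ofNat (nat_lit 7577472554)])

/-- A row. -/
noncomputable def sr3_c0_29 : List ℕ × List ℤ :=
  ([(nat_lit 0),(nat_lit 1),(nat_lit 0),(nat_lit 2),(nat_lit 0),(nat_lit 0),(nat_lit 0),(nat_lit 0),(nat_lit 0),(nat_lit 0),(nat_lit 0),(nat_lit 0)], [Int.ofNat (nat_lit 2320380948),Int.negSucc (nat_lit 533586278),Int.ofNat (nat_lit 3804960977),Int.negSucc (nat_lit 811651979),Int.ofNat (nat_lit 4210194268),Int.negSucc (nat_lit 1400687212),Int.negSucc (nat_lit 508910509),Int.ofNat (nat_lit 2340161761),Int.negSucc (nat_lit 378413604),Int.negSucc (nat_lit 468900296),Int.negSucc (nat_lit 353123101),Int.ofNat (nat_lit 2354709259),Int.negSucc (nat_lit 3532115931),Int.ofNat (nat_lit 1226120061),Int.negSucc (nat_lit 392509538),Int.ofNat (nat_lit 739009871),Int.ofNat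 (nat_lit 518966255),Int.ofNat (nat_lit 187170380),Int.ofNat (nat_lit 1279023292),Int.ofNat (nat_lit 53168083),Int.negSucc (nat_lit 1551803930),Int.ofNat (nat_lit 640832791),Int.ofNat (nat_lit 1368747809),Int.negSucc (nat_lit 306899730),Int.ofNat (nat_lit 1034098037),Int.ofNat (nat_lit 165307277),Int.ofNat (nat_lit 878289672),Int.ofNat (nat_lit 1576720071),Int.negSucc (nat_lit 2675023751),Int.ofNat (nat_lit 6297775435)])

/-- A part of a triangular factor. -/
noncomputable def sr3_c0 : Rows :=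
  [sr3_c0_0,
   sr3_c0_1,
   sr3_c0_2,
   sr3_c0_3,
   sr3_c0_4,
   sr3_c0_5,
   sr3_c0_6,
   sr3_c0_7,
   sr3_c0_8,
   sr3_c0_9,
   sr3_c0_10,
   sr3_c0_11,
   sr3_c0_12,
   sr3_c0_13,
   sr3_c0_14,
   sr3_c0_15,
   sr3_c0_16,
   sr3_c0_17,
   sr3_c0_18,
   sr3_c0_19,
   sr3_c0_20,
   sr3_c0_21,
   sr3_c0_22,
   sr3_c0_23,
   sr3_c0_24,
   sr3_c0_25,
   sr3_c0_26,
   sr3_c0_27,
   sr3_c0_28,
   sr3_c0_29]

/-- A row. -/
noncomputable def sr3_c1_0 : List ℕ × List ℤ :=
  ([(nat_lit 0),(nat_lit 1),(nat_lit 1),(nat_lit 0),(nat_lit 0),(nat_lit 0),(nat_lit 0),(nat_lit 0),(nat_lit 0),(nat_lit 0),(nat_lit 0),(nat_lit 0)], [Int.negSucc (nat_lit 5302744219),Int.negSucc (nat_lit 3537570455),Int.negSucc (nat_lit 1757734944),Int.ofNat (nat_lit 3431540317),Int.ofNat (nat_lit 9493271351),Int.negSucc (nat_lit 3877901901),Int.ofNat (nat_lit 2762089746),Int.negSucc (nat_lit 1630535922),Int.ofNat (nat_lit 4699099643),Int.negSucc (nat_lit 4619381927),Int.negSucc (nat_lit 2874123298),Int.negSucc (nat_lit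 2758780456),Int.negSucc (nat_lit 5365416738),Int.ofNat (nat_lit 1188145953),Int.ofNat (nat_lit 1948349486),Int.ofNat (nat_lit 2788646830),Int.negSucc (nat_lit 3559469990),Int.negSucc (nat_lit 2701048310),Int.negSucc (nat_lit 510421737),Int.ofNat (nat_lit 420821875),Int.ofNat (nat_lit 11584631990),Int.negSucc (nat_lit 915651555),Int.ofNat (nat_lit 2001281669),Int.negSucc (nat_lit 1562716350),Int.negSucc (nat_lit 396431047),Int.ofNat (nat_lit 871404467),Int.ofNat (nat_lit 1215950437),Int.ofNat (nat_lit 506174740),Int.ofNat (nat_lit 1059552883),Int.ofNat (nat_lit 355420553),Int.ofNat (nat_lit 5446197300)])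

/-- A row. -/
noncomputable def sr3_c1_1 : List ℕ × List ℤ :=
  ([(nat_lit 0),(nat_lit 1),(nat_lit 1),(nat_lit 0),(nat_lit 0),(nat_lit 0),(nat_lit 1),(nat_lit 0),(nat_lit 0),(nat_lit 0),(nat_lit 0),(nat_lit 0)], [Int.ofNat (nat_lit 1392692026),Int.negSucc (nat_lit 287631636),Int.ofNat (nat_lit 1893153539),Int.negSucc (nat_lit 1119432374),Int.negSucc (nat_lit 625645585),Int.negSucc (nat_lit 832392912),Int.ofNat (nat_lit 1032692951),Int.ofNat (nat_lit 247181729),Int.ofNat (nat_lit 1245636149),Int.ofNat (nat_lit 345954445),Int.negSucc (nat_lit 35115330),Int.negSucc (nat_lit 1182161136),Int.negSucc (nat_lit 508018900),Int.ofNat (nat_lit 1125128693),Int.ofNat (nat_lit 181568561),Int.ofNat (nat_lit 904735168),Int.negSucc (nat_lit 383722856),Int.negSucc (nat_lit 534917589),Int.ofNat (nat_lit 123359115),Int.negSucc (nat_lit 48377845),Int.ofNat (nat_lit 1049309212),Int.ofNat (nat_lit 434970471),Int.ofNat (nat_lit 422242533),Int.ofNat (nat_lit 1725190322),Int.ofNat (nat_lit 54820781),Int.negSucc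 (nat_lit 84477645),Int.ofNat (nat_lit 1192895),Int.ofNat (nat_lit 1048949141),Int.negSucc (nat_lit 12605575),Int.ofNat (nat_lit 325455110),Int.ofNat (nat_lit 349423975),Int.ofNat (nat_lit 2135957988)])

/-- A row. -/
noncomputable def sr3_c1_2 : List ℕ × List ℤ :=
  ([(nat_lit 0),(nat_lit 1),(nat_lit 1),(nat_lit 0),(nat_lit 1),(nat_lit 0),(nat_lit 0),(nat_lit 0),(nat_lit 0),(nat_lit 0),(nat_lit 0),(nat_lit 0)], [Int.negSucc (nat_lit 1672606924),Int.ofNat (nat_lit 859538363),Int.negSucc (nat_lit 3116348273),Int.negSucc (nat_lit 1246782775),Int.negSucc (nat_lit 403827453),Int.ofNat (nat_lit 1073495038),Int.negSucc (nat_lit 1597814028),Int.negSucc (nat_lit 538385846),Int.negSucc (nat_lit 2855170246),Int.negSucc (nat_lit 668807816),Int.ofNat (nat_lit 834312486),Int.negSucc (nat_lit 400297264),Int.negSucc (nat_lit 322353804),Int.negSucc (nat_lit 1425091123),Int.negSucc (nat_lit 974336365),Int.negSucc (nat_lit 235475620),Int.negSucc (nat_lit 720879646),Int.negSucc (nat_lit 1181017741),Int.negSucc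 (nat_lit 2302857457),Int.negSucc (nat_lit 1645837533),Int.negSucc (nat_lit 8007088115),Int.negSucc (nat_lit 850911401),Int.negSucc (nat_lit 898116194),Int.ofNat (nat_lit 663389283),Int.negSucc (nat_lit 95113369),Int.ofNat (nat_lit 6315743626),Int.negSucc (nat_lit 128023886),Int.negSucc (nat_lit 392527464),Int.negSucc (nat_lit 1176546471),Int.negSucc (nat_lit 177562122),Int.negSucc (nat_lit 3446866143),Int.negSucc (nat_lit 605442201),Int.ofNat (nat_lit 4888701109)])

/-- A row. -/
noncomputable def sr3_c1_3 : List ℕ × List ℤ :=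
  ([(nat_lit 0),(nat_lit 1),(nat_lit 1),(nat_lit 2),(nat_lit 0),(nat_lit 0),(nat_lit 0),(nat_lit 0),(nat_lit 0),(nat_lit 0),(nat_lit 0),(nat_lit 0)], [Int.ofNat (nat_lit 76271044),Int.negSucc (nat_lit 161677426),Int.negSucc (nat_lit 413270781),Int.negSucc (nat_lit 1064609837),Int.negSucc (nat_lit 1473459385),Int.ofNat (nat_lit 3928410),Int.ofNat (nat_lit 1044695085),Int.ofNat (nat_lit 258476187),Int.ofNat (nat_lit 819091582),Int.ofNat (nat_lit 317679813),Int.negSucc (nat_lit 1169144311),Int.negSucc (nat_lit 1358416571),Int.ofNat (nat_lit 258382015),Int.negSucc (nat_lit 239272511),Int.negSucc (nat_lit 867890850),Int.ofNat (nat_lit 1465116948),Int.negSucc (nat_lit 1630085638),Int.negSucc (nat_lit 205493936),Int.negSucc (nat_lit 255464686),Int.negSucc (nat_lit 285626688),Int.negSucc (nat_lit 868914683),Int.negSucc (nat_lit 516897036),Int.negSucc (nat_lit 323812518),Int.ofNat (nat_lit 379319415),Int.ofNat (nat_lit 342691711),Int.ofNat (nat_lit 439131885),Int.negSucc (nat_lit 592180932),Int.ofNat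 (nat_lit 1314529928),Int.ofNat (nat_lit 245174158),Int.ofNat (nat_lit 2244842193),Int.negSucc (nat_lit 625750382),Int.negSucc (nat_lit 159718488),Int.negSucc (nat_lit 102643425),Int.ofNat (nat_lit 4542866900)])

/-- A row. -/
noncomputable def sr3_c1_4 : List ℕ × List ℤ :=
  ([(nat_lit 0),(nat_lit 1),(nat_lit 2),(nat_lit 0),(nat_lit 0),(nat_lit 0),(nat_lit 0),(nat_lit 0),(nat_lit 0),(nat_lit 0),(nat_lit 0),(nat_lit 0)], [Int.negSucc (nat_lit 3232793337),Int.negSucc (nat_lit 3818895972),Int.ofNat (nat_lit 3160245425),Int.ofNat (nat_lit 1771812253),Int.ofNat (nat_lit 3481217350),Int.negSucc (nat_lit 2965510349),Int.negSucc (nat_lit 2853688708),Int.ofNat (nat_lit 1461867590),Int.ofNat (nat_lit 883966682),Int.negSucc (nat_lit 3569469791),Int.negSucc (nat_lit 1156766604),Int.ofNat (nat_lit 438438060),Int.negSucc (nat_lit 2275053606),Int.negSucc (nat_lit 134387301),Int.ofNat (nat_lit 4163870),Int.ofNat (nat_lit 2739768499),Int.negSucc (nat_lit 2519341345),Int.negSucc (nat_lit 534437572),Int.ofNat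 (nat_lit 1212882876),Int.negSucc (nat_lit 1392134205),Int.ofNat (nat_lit 2890541109),Int.negSucc (nat_lit 1135180204),Int.ofNat (nat_lit 1587747068),Int.negSucc (nat_lit 768641834),Int.ofNat (nat_lit 735710584),Int.ofNat (nat_lit 1400592425),Int.ofNat (nat_lit 2555106072),Int.ofNat (nat_lit 762887930),Int.ofNat (nat_lit 437850879),Int.ofNat (nat_lit 821516928),Int.ofNat (nat_lit 4956898382),Int.negSucc (nat_lit 695129771),Int.ofNat (nat_lit 1778265701),Int.ofNat (nat_lit 714584521),Int.ofNat (nat_lit 3854279509)])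

/-- A row. -/
noncomputable def sr3_c1_5 : List ℕ × List ℤ :=
  ([(nat_lit 0),(nat_lit 1),(nat_lit 3),(nat_lit 0),(nat_lit 0),(nat_lit 0),(nat_lit 0),(nat_lit 0),(nat_lit 0),(nat_lit 0),(nat_lit 0),(nat_lit 0)], [Int.negSucc (nat_lit 1787878305),Int.ofNat (nat_lit 110238713),Int.ofNat (nat_lit 1181258618),Int.ofNat (nat_lit 1208093566),Int.negSucc (nat_lit 1358785313),Int.negSucc (nat_lit 394858521),Int.negSucc (nat_lit 1192329966),Int.ofNat (nat_lit 472901795),Int.negSucc (nat_lit 783140857),Int.negSucc (nat_lit 102721552),Int.ofNat (nat_lit 849090975),Int.ofNat (nat_lit 1297984603),Int.ofNat (nat_lit 1069788607),Int.negSucc (nat_lit 454477573),Int.negSucc (nat_lit 329218491),Int.ofNat (nat_lit 1157867948),Int.ofNat (nat_lit 123316304),Int.ofNat (nat_lit 609594864),Int.ofNat (nat_lit 806651255),Int.negSucc (nat_lit 251558702),Int.negSucc (nat_lit 1725840884),Int.negSucc (nat_lit 147222999),Int.negSucc (nat_lit 52421198),Int.ofNat (nat_lit 711904811),Int.ofNat (nat_lit 951410457),Int.ofNat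 (nat_lit 620435650),Int.ofNat (nat_lit 1441502401),Int.ofNat (nat_lit 468272880),Int.negSucc (nat_lit 515469476),Int.ofNat (nat_lit 445347187),Int.negSucc (nat_lit 120732748),Int.negSucc (nat_lit 475952686),Int.ofNat (nat_lit 1410470143),Int.ofNat (nat_lit 759315913),Int.ofNat (nat_lit 3298173788),Int.ofNat (nat_lit 1271946423)])

/-- A row. -/
noncomputable def sr3_c1_6 : List ℕ × List ℤ :=
  ([(nat_lit 0),(nat_lit 2),(nat_lit 0),(nat_lit 0),(nat_lit 0),(nat_lit 0),(nat_lit 0),(nat_lit 0),(nat_lit 0),(nat_lit 1),(nat_lit 0),(nat_lit 0)], [Int.negSucc (nat_lit 103729267),Int.negSucc (nat_lit 1003480903),Int.negSucc (nat_lit 21244573),Int.ofNat (nat_lit 577305531),Int.negSucc (nat_lit 392990044),Int.negSucc (nat_lit 241001679),Int.ofNat (nat_lit 257881810),Int.ofNat (nat_lit 68335574),Int.ofNat (nat_lit 175687254),Int.ofNat (nat_lit 620689339),Int.ofNat (nat_lit 277163442),Int.negSucc (nat_lit 9803964),Int.ofNat (nat_lit 519359736),Int.ofNat (nat_lit 806801213),Int.negSucc (nat_lit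 71280483),Int.negSucc (nat_lit 99624761),Int.ofNat (nat_lit 102455828),Int.negSucc (nat_lit 191461813),Int.negSucc (nat_lit 202861325),Int.negSucc (nat_lit 16103683),Int.negSucc (nat_lit 200575217),Int.ofNat (nat_lit 32118670),Int.negSucc (nat_lit 669425036),Int.negSucc (nat_lit 23826668),Int.negSucc (nat_lit 133636127),Int.negSucc (nat_lit 10182159),Int.negSucc (nat_lit 750010534),Int.negSucc (nat_lit 210904892),Int.negSucc (nat_lit 11006585),Int.ofNat (nat_lit 169138587),Int.negSucc (nat_lit 24555882),Int.negSucc (nat_lit 394499815),Int.negSucc (nat_lit 116349650),Int.ofNat (nat_lit 117698393),Int.ofNat (nat_lit 110776011),Int.ofNat (nat_lit 121584807),Int.ofNat (nat_lit 1876493837)])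

/-- A row. -/
noncomputable def sr3_c1_7 : List ℕ × List ℤ :=
  ([(nat_lit 0),(nat_lit 2),(nat_lit 0),(nat_lit 0),(nat_lit 0),(nat_lit 0),(nat_lit 0),(nat_lit 1),(nat_lit 0),(nat_lit 0),(nat_lit 0),(nat_lit 0)], [Int.ofNat (nat_lit 685693144),Int.negSucc (nat_lit 1628311899),Int.negSucc (nat_lit 1705918117),Int.negSucc (nat_lit 1385537610),Int.ofNat (nat_lit 3693348304),Int.ofNat (nat_lit 1276601241),Int.ofNat (nat_lit 3063320519),Int.negSucc (nat_lit 777528429),Int.negSucc (nat_lit 2221233637),Int.negSucc (nat_lit 511851190),Int.ofNat (nat_lit 635945819),Int.ofNat (nat_lit 1780440338),Int.ofNat (nat_lit 85746969),Int.negSucc (nat_lit 968908485),Int.ofNat (nat_lit 1809142080),Int.ofNat (nat_lit 138365253),Int.ofNat (nat_lit 975912848),Int.ofNat (nat_lit 83862727),Int.ofNat (nat_lit 391969077),Int.ofNat (nat_lit 367604462),Int.ofNat (nat_lit 55510129),Int.ofNat (nat_lit 1645908151),Int.ofNat (nat_lit 284766046),Int.negSucc (nat_lit 877948645),Int.ofNat (nat_lit 626703349),Int.negSucc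 (nat_lit 296432475),Int.ofNat (nat_lit 1576149198),Int.negSucc (nat_lit 1999196226),Int.ofNat (nat_lit 896785827),Int.negSucc (nat_lit 67622942),Int.ofNat (nat_lit 473642442),Int.ofNat (nat_lit 554755836),Int.ofNat (nat_lit 206186396),Int.ofNat (nat_lit 39563055),Int.ofNat (nat_lit 333816102),Int.negSucc (nat_lit 409945772),Int.negSucc (nat_lit 1154870778),Int.ofNat (nat_lit 4818363615)])

/-- A row. -/
noncomputable def sr3_c1_8 : List ℕ × List ℤ :=
  ([(nat_lit 0),(nat_lit 2),(nat_lit 0),(nat_lit 0),(nat_lit 0),(nat_lit 1),(nat_lit 0),(nat_lit 0),(nat_lit 0),(nat_lit 0),(nat_lit 0),(nat_lit 0)], [Int.ofNat (nat_lit 3646566722),Int.ofNat (nat_lit 4644857283),Int.ofNat (nat_lit 2175691915),Int.ofNat (nat_lit 456324429),Int.negSucc (nat_lit 341671943),Int.ofNat (nat_lit 1177967169),Int.negSucc (nat_lit 1976026595),Int.negSucc (nat_lit 2989509107),Int.negSucc (nat_lit 561579929),Int.ofNat (nat_lit 4636425212),Int.ofNat (nat_lit 1270557716),Int.ofNat (nat_lit 2758986028),Int.ofNat (nat_lit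 4265979991),Int.ofNat (nat_lit 4501445753),Int.negSucc (nat_lit 1615823731),Int.ofNat (nat_lit 1661722918),Int.ofNat (nat_lit 1324182111),Int.negSucc (nat_lit 3206890179),Int.ofNat (nat_lit 1333295072),Int.ofNat (nat_lit 881780474),Int.ofNat (nat_lit 2419539227),Int.ofNat (nat_lit 2255992597),Int.ofNat (nat_lit 2597078262),Int.negSucc (nat_lit 392309586),Int.ofNat (nat_lit 6413643148),Int.negSucc (nat_lit 2457344073),Int.negSucc (nat_lit 2102319410),Int.ofNat (nat_lit 2419840176),Int.negSucc (nat_lit 9008643036),Int.negSucc (nat_lit 1082853776),Int.negSucc (nat_lit 1162638209),Int.ofNat (nat_lit 210148840),Int.negSucc (nat_lit 582073910),Int.negSucc (nat_lit 1304790643),Int.negSucc (nat_lit 387601501),Int.ofNat (nat_lit 330688906),Int.ofNat (nat_lit 615476230),Int.negSucc (nat_lit 2373376920),Int.ofNat (nat_lit 9521575321)])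

/-- A row. -/
noncomputable def sr3_c1_9 : List ℕ × List ℤ :=
  ([(nat_lit 0),(nat_lit 2),(nat_lit 0),(nat_lit 1),(nat_lit 0),(nat_lit 0),(nat_lit 0),(nat_lit 0),(nat_lit 0),(nat_lit 0),(nat_lit 0),(nat_lit 0)], [Int.negSucc (nat_lit 7245559229),Int.negSucc (nat_lit 7811789750),Int.negSucc (nat_lit 6571305739),Int.ofNat (nat_lit 5054479423),Int.negSucc (nat_lit 1603390412),Int.negSucc (nat_lit 850970053),Int.negSucc (nat_lit 4780628294),Int.negSucc (nat_lit 8572158955),Int.ofNat (nat_lit 2901537571),Int.negSucc (nat_lit 5102084607),Int.negSucc (nat_lit 5990867553),Int.negSucc (nat_lit 1509077551),Int.negSucc (nat_lit 5573921363),Int.negSucc (nat_lit 4607332674),Int.ofNat (nat_lit 764124828),Int.negSucc (nat_lit 2141086530),Int.negSucc (nat_lit 589832057),Int.ofNat (nat_lit 4528208641),Int.negSucc (nat_lit 4017548306),Int.negSucc (nat_lit 2456217217),Int.ofNat (nat_lit 1057295323),Int.negSucc (nat_lit 7874674126),Int.negSucc (nat_lit 2534113755),Int.negSucc (nat_lit 730052126),Int.negSucc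 (nat_lit 1485582847),Int.ofNat (nat_lit 663445136),Int.ofNat (nat_lit 692348160),Int.negSucc (nat_lit 2215950522),Int.ofNat (nat_lit 8333862347),Int.negSucc (nat_lit 9269381644),Int.negSucc (nat_lit 779438179),Int.negSucc (nat_lit 211226991),Int.ofNat (nat_lit 1668317737),Int.ofNat (nat_lit 2705465224),Int.ofNat (nat_lit 558980937),Int.negSucc (nat_lit 196014183),Int.ofNat (nat_lit 512075215),Int.ofNat (nat_lit 1994700510),Int.negSucc (nat_lit 3861870859),Int.ofNat (nat_lit 14208984072)])

/-- A row. -/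
noncomputable def sr3_c1_10 : List ℕ × List ℤ :=
  ([(nat_lit 0),(nat_lit 2),(nat_lit 0),(nat_lit 1),(nat_lit 1),(nat_lit 0),(nat_lit 0),(nat_lit 0),(nat_lit 0),(nat_lit 0),(nat_lit 0),(nat_lit 0)], [Int.negSucc (nat_lit 1044706294),Int.ofNat (nat_lit 2166917968),Int.ofNat (nat_lit 4488525034),Int.ofNat (nat_lit 382179795),Int.negSucc (nat_lit 2113140151),Int.negSucc (nat_lit 863180635),Int.negSucc (nat_lit 168773989),Int.ofNat (nat_lit 1522341229),Int.negSucc (nat_lit 1022672034),Int.ofNat (nat_lit 2629212028),Int.ofNat (nat_lit 338802668),Int.ofNat (nat_lit 1063988882),Int.ofNat (nat_lit 1877206061),Int.negSucc (nat_lit 142431316),Int.ofNat (nat_lit 1592947745),Int.negSucc (nat_lit 1959807741),Int.ofNat (nat_lit 898858737),Int.negSucc (nat_lit 708518099),Int.negSucc (nat_lit 396975499),Int.ofNat (nat_lit 632231112),Int.ofNat (nat_lit 399130518),Int.ofNat (nat_lit 1432970616),Int.ofNat (nat_lit 1581476420),Int.negSucc (nat_lit 618982838),Int.negSucc (nat_lit 1944593104),Int.negSucc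 (nat_lit 721360584),Int.negSucc (nat_lit 1644820998),Int.negSucc (nat_lit 2175484562),Int.ofNat (nat_lit 265722808),Int.negSucc (nat_lit 111600672),Int.ofNat (nat_lit 387125826),Int.ofNat (nat_lit 368547334),Int.negSucc (nat_lit 139471973),Int.negSucc (nat_lit 596535292),Int.ofNat (nat_lit 674393124),Int.ofNat (nat_lit 330292974),Int.ofNat (nat_lit 700583286),Int.ofNat (nat_lit 342836084),Int.negSucc (nat_lit 151569340),Int.negSucc (nat_lit 2445575082),Int.ofNat (nat_lit 7960569428)])

/-- A row. -/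
noncomputable def sr3_c1_11 : List ℕ × List ℤ :=
  ([(nat_lit 0),(nat_lit 2),(nat_lit 1),(nat_lit 0),(nat_lit 0),(nat_lit 1),(nat_lit 0),(nat_lit 0),(nat_lit 0),(nat_lit 0),(nat_lit 0),(nat_lit 0)], [Int.ofNat (nat_lit 593350478),Int.ofNat (nat_lit 2478109246),Int.ofNat (nat_lit 4104529945),Int.negSucc (nat_lit 694190441),Int.negSucc (nat_lit 1693402465),Int.ofNat (nat_lit 1817143805),Int.negSucc (nat_lit 2189827053),Int.negSucc (nat_lit 1261000052),Int.negSucc (nat_lit 2931030477),Int.ofNat (nat_lit 2415047744),Int.ofNat (nat_lit 2472663323),Int.ofNat (nat_lit 1474020482),Int.ofNat (nat_lit 1197674594),Int.ofNat (nat_lit 1284813491),Int.ofNat (nat_lit 1772674354),Int.negSucc (nat_lit 1510854153),Int.ofNat (nat_lit 1973357020),Int.ofNat (nat_lit 793897310),Int.ofNat (nat_lit 2354206700),Int.negSucc (nat_lit 383278806),Int.ofNat (nat_lit 895841554),Int.ofNat (nat_lit 956909483),Int.negSucc (nat_lit 407053032),Int.ofNat (nat_lit 1025518591),Int.ofNat (nat_lit 1262306491),Int.negSucc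 (nat_lit 845770746),Int.ofNat (nat_lit 889226471),Int.negSucc (nat_lit 667409061),Int.ofNat (nat_lit 1193723324),Int.negSucc (nat_lit 1023684979),Int.negSucc (nat_lit 77465538),Int.ofNat (nat_lit 1100150581),Int.negSucc (nat_lit 207501257),Int.negSucc (nat_lit 3816682031),Int.negSucc (nat_lit 666791709),Int.negSucc (nat_lit 254122066),Int.ofNat (nat_lit 135216284),Int.negSucc (nat_lit 617972334),Int.ofNat (nat_lit 4927571582),Int.ofNat (nat_lit 1090400513),Int.negSucc (nat_lit 1353847342),Int.ofNat (nat_lit 6624658410)])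

/-- A row. -/
noncomputable def sr3_c1_12 : List ℕ × List ℤ :=
  ([(nat_lit 0),(nat_lit 2),(nat_lit 1),(nat_lit 1),(nat_lit 0),(nat_lit 0),(nat_lit 0),(nat_lit 0),(nat_lit 0),(nat_lit 0),(nat_lit 0),(nat_lit 0)], [Int.negSucc (nat_lit 4433330566),Int.negSucc (nat_lit 3002046176),Int.negSucc (nat_lit 3354290531),Int.ofNat (nat_lit 8019088872),Int.ofNat (nat_lit 7696885627),Int.negSucc (nat_lit 2347847359),Int.negSucc (nat_lit 4944160974),Int.negSucc (nat_lit 5420064800),Int.ofNat (nat_lit 3460917479),Int.negSucc (nat_lit 4833684547),Int.negSucc (nat_lit 2392670171),Int.ofNat (nat_lit 1754105054),Int.negSucc (nat_lit 3962502922),Int.negSucc (nat_lit 2934209847),Int.ofNat (nat_lit 684566340),Int.negSucc (nat_lit 313684949),Int.negSucc (nat_lit 2175009464),Int.ofNat (nat_lit 2454109953),Int.negSucc (nat_lit 868021919),Int.ofNat (nat_lit 834841672),Int.negSucc (nat_lit 1226722667),Int.negSucc (nat_lit 4604278051),Int.negSucc (nat_lit 129811668),Int.ofNat (nat_lit 272811197),Int.ofNat (nat_lit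 962076006),Int.ofNat (nat_lit 717041683),Int.ofNat (nat_lit 2937461961),Int.negSucc (nat_lit 336448361),Int.ofNat (nat_lit 166825998),Int.negSucc (nat_lit 2578615634),Int.negSucc (nat_lit 561011436),Int.negSucc (nat_lit 1764904179),Int.ofNat (nat_lit 540224730),Int.negSucc (nat_lit 4237759560),Int.ofNat (nat_lit 1177307191),Int.ofNat (nat_lit 808128051),Int.ofNat (nat_lit 1518979987),Int.ofNat (nat_lit 721344459),Int.negSucc (nat_lit 1874968241),Int.ofNat (nat_lit 7599467230),Int.negSucc (nat_lit 978081721),Int.negSucc (nat_lit 2831798900),Int.ofNat (nat_lit 9684752008)])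

/-- A row. -/
noncomputable def sr3_c1_13 : List ℕ × List ℤ :=
  ([(nat_lit 0),(nat_lit 3),(nat_lit 0),(nat_lit 0),(nat_lit 0),(nat_lit 0),(nat_lit 0),(nat_lit 0),(nat_lit 0),(nat_lit 0),(nat_lit 0),(nat_lit 0)], [Int.ofNat (nat_lit 6014482121),Int.ofNat (nat_lit 6671521255),Int.ofNat (nat_lit 7409139547),Int.negSucc (nat_lit 7097006604),Int.negSucc (nat_lit 3957830336),Int.ofNat (nat_lit 2784054852),Int.ofNat (nat_lit 2097219354),Int.ofNat (nat_lit 5109055270),Int.negSucc (nat_lit 2601832273),Int.ofNat (nat_lit 8855911706),Int.ofNat (nat_lit 4283854774),Int.negSucc (nat_lit 537238849),Int.ofNat (nat_lit 9189713768),Int.ofNat (nat_lit 4466027613),Int.negSucc (nat_lit 1601371487),Int.ofNat (nat_lit 1733956840),Int.ofNat (nat_lit 1072688855),Int.negSucc (nat_lit 4683856657),Int.ofNat (nat_lit 1712598352),Int.ofNat (nat_lit 3252654802),Int.negSucc (nat_lit 9963016017),Int.ofNat (nat_lit 6890390868),Int.negSucc (nat_lit 1890699334),Int.ofNat (nat_lit 996484292),Int.ofNat (nat_lit 4516127928),Int.negSucc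 (nat_lit 6564308851),Int.negSucc (nat_lit 4668686990),Int.ofNat (nat_lit 4254744733),Int.negSucc (nat_lit 5519452547),Int.ofNat (nat_lit 1428699957),Int.ofNat (nat_lit 6174467907),Int.negSucc (nat_lit 432452063),Int.negSucc (nat_lit 1761383917),Int.negSucc (nat_lit 2366519582),Int.negSucc (nat_lit 5743913612),Int.ofNat (nat_lit 1846815282),Int.ofNat (nat_lit 1566414730),Int.negSucc (nat_lit 6200215227),Int.ofNat (nat_lit 7513067387),Int.negSucc (nat_lit 11117005813),Int.negSucc (nat_lit 2364796785),Int.ofNat (nat_lit 1179407297),Int.ofNat (nat_lit 719647218),Int.ofNat (nat_lit 13886970401)])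

/-- A row. -/
noncomputable def sr3_c1_14 : List ℕ × List ℤ :=
  ([(nat_lit 0),(nat_lit 3),(nat_lit 0),(nat_lit 0),(nat_lit 0),(nat_lit 0),(nat_lit 1),(nat_lit 0),(nat_lit 0),(nat_lit 0),(nat_lit 0),(nat_lit 0)], [Int.ofNat (nat_lit 1264784226),Int.negSucc (nat_lit 888079725),Int.ofNat (nat_lit 1507579934),Int.ofNat (nat_lit 110417098),Int.negSucc (nat_lit 1585665141),Int.negSucc (nat_lit 499665522),Int.negSucc (nat_lit 805925461),Int.ofNat (nat_lit 484583720),Int.ofNat (nat_lit 125323028),Int.ofNat (nat_lit 1421339130),Int.negSucc (nat_lit 164846725),Int.ofNat (nat_lit 42630992),Int.ofNat (nat_lit 221461547),Int.ofNat (nat_lit 168138738),Int.negSucc (nat_lit 273636125),Int.ofNat (nat_lit 215538179),Int.negSucc (nat_lit 423477927),Int.ofNat (nat_lit 120229697),Int.ofNat (nat_lit 425975477),Int.negSucc (nat_lit 10752594),Int.negSucc (nat_lit 627091673),Int.negSucc (nat_lit 41076687),Int.negSucc (nat_lit 114233519),Int.negSucc (nat_lit 2038032829),Int.ofNat (nat_lit 881681826),Int.negSucc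 (nat_lit 591711309),Int.ofNat (nat_lit 302558216),Int.ofNat (nat_lit 754457995),Int.negSucc (nat_lit 669265674),Int.ofNat (nat_lit 53207018),Int.negSucc (nat_lit 102424308),Int.ofNat (nat_lit 691137266),Int.ofNat (nat_lit 245740857),Int.negSucc (nat_lit 84056732),Int.ofNat (nat_lit 97956214),Int.ofNat (nat_lit 133447677),Int.ofNat (nat_lit 1261917584),Int.negSucc (nat_lit 421833197),Int.ofNat (nat_lit 340031780),Int.ofNat (nat_lit 287625391),Int.negSucc (nat_lit 239872941),Int.ofNat (nat_lit 344286402),Int.ofNat (nat_lit 186288895),Int.ofNat (nat_lit 805343948),Int.ofNat (nat_lit 4204455799)])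

/-- A row. -/
noncomputable def sr3_c1_15 : List ℕ × List ℤ :=
  ([(nat_lit 0),(nat_lit 3),(nat_lit 0),(nat_lit 0),(nat_lit 1),(nat_lit 0),(nat_lit 0),(nat_lit 0),(nat_lit 0),(nat_lit 0),(nat_lit 0),(nat_lit 0)], [Int.negSucc (nat_lit 1851928938),Int.negSucc (nat_lit 1199751792),Int.negSucc (nat_lit 3678376283),Int.ofNat (nat_lit 3510402881),Int.ofNat (nat_lit 80711431),Int.negSucc (nat_lit 1030515577),Int.negSucc (nat_lit 3179237326),Int.negSucc (nat_lit 2166394399),Int.ofNat (nat_lit 1649286438),Int.negSucc (nat_lit 1096069303),Int.negSucc (nat_lit 350298037),Int.negSucc (nat_lit 1671797332),Int.negSucc (nat_lit 2154721625),Int.negSucc (nat_lit 71847255),Int.negSucc (nat_lit 487395712),Int.ofNat (nat_lit 1225827225),Int.negSucc (nat_lit 1142399431),Int.negSucc (nat_lit 1243515542),Int.ofNat (nat_lit 378829199),Int.negSucc (nat_lit 764719111),Int.ofNat (nat_lit 6803284235),Int.negSucc (nat_lit 1254917778),Int.ofNat (nat_lit 521078729),Int.negSucc (nat_lit 745828331),Int.ofNat (nat_lit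 2446421572),Int.negSucc (nat_lit 4484786180),Int.negSucc (nat_lit 1458660245),Int.ofNat (nat_lit 255961185),Int.negSucc (nat_lit 1243849289),Int.ofNat (nat_lit 1446946109),Int.negSucc (nat_lit 3063035700),Int.negSucc (nat_lit 1017228050),Int.ofNat (nat_lit 4812775648),Int.negSucc (nat_lit 243536056),Int.ofNat (nat_lit 452608770),Int.ofNat (nat_lit 121680688),Int.negSucc (nat_lit 680516693),Int.ofNat (nat_lit 659275854),Int.ofNat (nat_lit 326950088),Int.ofNat (nat_lit 461659490),Int.negSucc (nat_lit 3895856350),Int.ofNat (nat_lit 287140946),Int.ofNat (nat_lit 419817758),Int.negSucc (nat_lit 3499194229),Int.negSucc (nat_lit 1562240196),Int.ofNat (nat_lit 8075011679)])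

/-- A row. -/
noncomputable def sr3_c1_16 : List ℕ × List ℤ :=
  ([(nat_lit 0),(nat_lit 3),(nat_lit 0),(nat_lit 2),(nat_lit 0),(nat_lit 0),(nat_lit 0),(nat_lit 0),(nat_lit 0),(nat_lit 0),(nat_lit 0),(nat_lit 0)], [Int.negSucc (nat_lit 3266472122),Int.ofNat (nat_lit 2875751816),Int.negSucc (nat_lit 3567655672),Int.ofNat (nat_lit 774231595),Int.negSucc (nat_lit 5478929587),Int.ofNat (nat_lit 545655668),Int.negSucc (nat_lit 2288978720),Int.ofNat (nat_lit 524077670),Int.negSucc (nat_lit 1147431380),Int.negSucc (nat_lit 505872494),Int.ofNat (nat_lit 432883139),Int.negSucc (nat_lit 1280104416),Int.ofNat (nat_lit 2664314169),Int.negSucc (nat_lit 3255430257),Int.ofNat (nat_lit 652408106),Int.negSucc (nat_lit 1514644575),Int.ofNat (nat_lit 129847286),Int.ofNat (nat_lit 435954689),Int.negSucc (nat_lit 414805476),Int.ofNat (nat_lit 129029558),Int.negSucc (nat_lit 523227989),Int.negSucc (nat_lit 854379001),Int.negSucc (nat_lit 1094406106),Int.negSucc (nat_lit 388854796),Int.negSucc (nat_lit 2439568945),Int.ofNat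 (nat_lit 629153562),Int.negSucc (nat_lit 2134501744),Int.negSucc (nat_lit 3109105654),Int.ofNat (nat_lit 1455127997),Int.negSucc (nat_lit 3262317651),Int.ofNat (nat_lit 15350679),Int.negSucc (nat_lit 1183293939),Int.negSucc (nat_lit 209210380),Int.ofNat (nat_lit 1883014247),Int.ofNat (nat_lit 741398868),Int.ofNat (nat_lit 197597801),Int.negSucc (nat_lit 1471635248),Int.ofNat (nat_lit 1686401928),Int.ofNat (nat_lit 261723995),Int.negSucc (nat_lit 2341554259),Int.ofNat (nat_lit 431952995),Int.ofNat (nat_lit 511770574),Int.ofNat (nat_lit 828255456),Int.negSucc (nat_lit 1488228697),Int.negSucc (nat_lit 1171342631),Int.ofNat (nat_lit 1603984939),Int.ofNat (nat_lit 7195150018)])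

/-- A row. -/
noncomputable def sr3_c1_17 : List ℕ × List ℤ :=
  ([(nat_lit 0),(nat_lit 3),(nat_lit 1),(nat_lit 0),(nat_lit 0),(nat_lit 0),(nat_lit 0),(nat_lit 0),(nat_lit 0),(nat_lit 0),(nat_lit 0),(nat_lit 0)], [Int.ofNat (nat_lit 6468732986),Int.ofNat (nat_lit 6541683939),Int.ofNat (nat_lit 6567780452),Int.negSucc (nat_lit 7678822752),Int.negSucc (nat_lit 13635180945),Int.ofNat (nat_lit 3911126963),Int.ofNat (nat_lit 649248383),Int.ofNat (nat_lit 3431289016),Int.negSucc (nat_lit 6573774413),Int.ofNat (nat_lit 7154679159),Int.ofNat (nat_lit 5079827981),Int.ofNat (nat_lit 5172139720),Int.ofNat (nat_lit 9183528567),Int.ofNat (nat_lit 2892387178),Int.negSucc (nat_lit 1382957663),Int.negSucc (nat_lit 2857172630),Int.ofNat (nat_lit 6210976287),Int.ofNat (nat_lit 4135069684),Int.ofNat (nat_lit 2456375140),Int.negSucc (nat_lit 375645623),Int.negSucc (nat_lit 12279111236),Int.ofNat (nat_lit 5757785715),Int.negSucc (nat_lit 4306455111),Int.ofNat (nat_lit 900547031),Int.ofNat (nat_lit 7459742),Int.negSucc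 (nat_lit 8032435664),Int.negSucc (nat_lit 4252038588),Int.ofNat (nat_lit 1099101510),Int.ofNat (nat_lit 1266245414),Int.negSucc (nat_lit 77091071),Int.negSucc (nat_lit 1455669744),Int.ofNat (nat_lit 1828108038),Int.negSucc (nat_lit 3787264534),Int.negSucc (nat_lit 416363544),Int.negSucc (nat_lit 599611670),Int.negSucc (nat_lit 3862499650),Int.negSucc (nat_lit 1756117044),Int.negSucc (nat_lit 1253721910),Int.ofNat (nat_lit 4909632302),Int.negSucc (nat_lit 4610559204),Int.negSucc (nat_lit 2461237985),Int.ofNat (nat_lit 7632025273),Int.negSucc (nat_lit 7660463586),Int.ofNat (nat_lit 13690759118),Int.negSucc (nat_lit 592350227),Int.ofNat (nat_lit 1840229916),Int.ofNat (nat_lit 3700690),Int.ofNat (nat_lit 10588715830)])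

/-- A row. -/
noncomputable def sr3_c1_18 : List ℕ × List ℤ :=
  ([(nat_lit 0),(nat_lit 3),(nat_lit 2),(nat_lit 0),(nat_lit 0),(nat_lit 0),(nat_lit 0),(nat_lit 0),(nat_lit 0),(nat_lit 0),(nat_lit 0),(nat_lit 0)], [Int.negSucc (nat_lit 268302636),Int.ofNat (nat_lit 5886519896),Int.negSucc (nat_lit 2903939985),Int.negSucc (nat_lit 361670575),Int.negSucc (nat_lit 3718769140),Int.ofNat (nat_lit 179487894),Int.negSucc (nat_lit 142410670),Int.ofNat (nat_lit 79110996),Int.ofNat (nat_lit 34894053),Int.negSucc (nat_lit 670057529),Int.ofNat (nat_lit 1134501451),Int.ofNat (nat_lit 3075115649),Int.ofNat (nat_lit 2076715677),Int.negSucc (nat_lit 2206148290),Int.ofNat (nat_lit 855072558),Int.negSucc (nat_lit 1221164745),Int.ofNat (nat_lit 1144402604),Int.ofNat (nat_lit 2884172865),Int.ofNat (nat_lit 919045967),Int.ofNat (nat_lit 698096100),Int.negSucc (nat_lit 4017474410),Int.ofNat (nat_lit 546747430),Int.negSucc (nat_lit 3175933005),Int.ofNat (nat_lit 650007742),Int.negSucc (nat_lit 2257676183),Int.negSucc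 (nat_lit 311426633),Int.negSucc (nat_lit 1412664290),Int.negSucc (nat_lit 718011836),Int.ofNat (nat_lit 923974591),Int.ofNat (nat_lit 105700708),Int.negSucc (nat_lit 4651435234),Int.negSucc (nat_lit 651430656),Int.negSucc (nat_lit 774177786),Int.ofNat (nat_lit 280453644),Int.ofNat (nat_lit 323279382),Int.ofNat (nat_lit 1702795685),Int.negSucc (nat_lit 1901057070),Int.ofNat (nat_lit 1978335127),Int.ofNat (nat_lit 1134157874),Int.negSucc (nat_lit 96339565),Int.negSucc (nat_lit 453651800),Int.ofNat (nat_lit 977425286),Int.ofNat (nat_lit 790591996),Int.ofNat (nat_lit 440033449),Int.ofNat (nat_lit 52942074),Int.ofNat (nat_lit 1732957074),Int.ofNat (nat_lit 645900537),Int.ofNat (nat_lit 5616344976),Int.ofNat (nat_lit 6279391385)])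

/-- A row. -/
noncomputable def sr3_c1_19 : List ℕ × List ℤ :=
  ([(nat_lit 0),(nat_lit 4),(nat_lit 0),(nat_lit 0),(nat_lit 0),(nat_lit 1),(nat_lit 0),(nat_lit 0),(nat_lit 0),(nat_lit 0),(nat_lit 0),(nat_lit 0)], [Int.negSucc (nat_lit 614667200),Int.negSucc (nat_lit 5322603857),Int.ofNat (nat_lit 2839451397),Int.negSucc (nat_lit 475821881),Int.ofNat (nat_lit 1944770317),Int.ofNat (nat_lit 1102575622),Int.ofNat (nat_lit 1651464388),Int.ofNat (nat_lit 538253334),Int.negSucc (nat_lit 882641453),Int.negSucc (nat_lit 560980416),Int.ofNat (nat_lit 648075849),Int.negSucc (nat_lit 1121407422),Int.negSucc (nat_lit 845755265),Int.negSucc (nat_lit 1713060277),Int.ofNat (nat_lit 406691810),Int.negSucc (nat_lit 884955693),Int.ofNat (nat_lit 354670950),Int.ofNat (nat_lit 3406495619),Int.ofNat (nat_lit 40218692),Int.negSucc (nat_lit 524933702),Int.negSucc (nat_lit 238342403),Int.negSucc (nat_lit 1351143763),Int.negSucc (nat_lit 1872558964),Int.ofNat (nat_lit 1089170186),Int.negSucc (nat_lit 2725236614),Int.ofNat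 (nat_lit 352773528),Int.ofNat (nat_lit 3349844091),Int.negSucc (nat_lit 1664874135),Int.ofNat (nat_lit 3971043928),Int.ofNat (nat_lit 293639373),Int.ofNat (nat_lit 452983296),Int.ofNat (nat_lit 124907181),Int.ofNat (nat_lit 716325857),Int.negSucc (nat_lit 1166627557),Int.ofNat (nat_lit 200472487),Int.negSucc (nat_lit 733881862),Int.ofNat (nat_lit 1018795101),Int.negSucc (nat_lit 130965517),Int.negSucc (nat_lit 6441620356),Int.ofNat (nat_lit 997077810),Int.negSucc (nat_lit 1476771535),Int.ofNat (nat_lit 3033143205),Int.negSucc (nat_lit 594070026),Int.negSucc (nat_lit 663787580),Int.ofNat (nat_lit 223256361),Int.negSucc (nat_lit 449020712),Int.negSucc (nat_lit 2171025474),Int.negSucc (nat_lit 771358455),Int.negSucc (nat_lit 1589892202),Int.ofNat (nat_lit 7448823576)])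

/-- A row. -/
noncomputable def sr3_c1_20 : List ℕ × List ℤ :=
  ([(nat_lit 0),(nat_lit 4),(nat_lit 0),(nat_lit 1),(nat_lit 0),(nat_lit 0),(nat_lit 0),(nat_lit 0),(nat_lit 0),(nat_lit 0),(nat_lit 0),(nat_lit 0)], [Int.ofNat (nat_lit 5434324856),Int.ofNat (nat_lit 5873283962),Int.ofNat (nat_lit 1979545449),Int.negSucc (nat_lit 2143875660),Int.ofNat (nat_lit 6133008503),Int.ofNat (nat_lit 444885762),Int.ofNat (nat_lit 5311771777),Int.ofNat (nat_lit 4076241979),Int.negSucc (nat_lit 441251922),Int.ofNat (nat_lit 2298242918),Int.ofNat (nat_lit 4442056943),Int.ofNat (nat_lit 1170101425),Int.ofNat (nat_lit 1815915111),Int.ofNat (nat_lit 3441021435),Int.negSucc (nat_lit 528939937),Int.ofNat (nat_lit 2747040053),Int.negSucc (nat_lit 1478388163),Int.negSucc (nat_lit 4166394272),Int.ofNat (nat_lit 3690799994),Int.ofNat (nat_lit 2340154533),Int.negSucc (nat_lit 830736985),Int.ofNat (nat_lit 5918620458),Int.ofNat (nat_lit 2669481284),Int.ofNat (nat_lit 1804038780),Int.ofNat (nat_lit 1812084243),Int.negSucc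 (nat_lit 195890913),Int.ofNat (nat_lit 1239863405),Int.ofNat (nat_lit 3554848382),Int.negSucc (nat_lit 6117574722),Int.ofNat (nat_lit 7279154442),Int.ofNat (nat_lit 494873109),Int.negSucc (nat_lit 46968957),Int.negSucc (nat_lit 1248676827),Int.negSucc (nat_lit 4273211543),Int.ofNat (nat_lit 88028138),Int.ofNat (nat_lit 674356032),Int.ofNat (nat_lit 106709990),Int.negSucc (nat_lit 2037177549),Int.ofNat (nat_lit 2666017213),Int.negSucc (nat_lit 12080838087),Int.negSucc (nat_lit 1655987917),Int.negSucc (nat_lit 1327532890),Int.ofNat (nat_lit 4834314494),Int.ofNat (nat_lit 447126070),Int.ofNat (nat_lit 261655305),Int.ofNat (nat_lit 496691018),Int.negSucc (nat_lit 5015699897),Int.ofNat (nat_lit 1257630925),Int.ofNat (nat_lit 1653258124),Int.negSucc (nat_lit 2865807312),Int.ofNat (nat_lit 7962559144)])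

/-- A row. -/
noncomputable def sr3_c1_21 : List ℕ × List ℤ :=
  ([(nat_lit 0),(nat_lit 5),(nat_lit 0),(nat_lit 0),(nat_lit 0),(nat_lit 0),(nat_lit 0),(nat_lit 0),(nat_lit 0),(nat_lit 0),(nat_lit 0),(nat_lit 0)], [Int.ofNat (nat_lit 2692770892),Int.negSucc (nat_lit 7212629948),Int.ofNat (nat_lit 1999588630),Int.negSucc (nat_lit 278290746),Int.negSucc (nat_lit 3203930589),Int.negSucc (nat_lit 1825693544),Int.negSucc (nat_lit 1141205772),Int.negSucc (nat_lit 4903032569),Int.negSucc (nat_lit 18379594),Int.negSucc (nat_lit 6945872770),Int.negSucc (nat_lit 1280339607),Int.ofNat (nat_lit 8911927414),Int.negSucc (nat_lit 7614874771),Int.negSucc (nat_lit 2974136579),Int.negSucc (nat_lit 850068986),Int.negSucc (nat_lit 5725527867),Int.ofNat (nat_lit 1322953927),Int.ofNat (nat_lit 10767201653),Int.negSucc (nat_lit 3824928497),Int.negSucc (nat_lit 5115953505),Int.ofNat (nat_lit 3822237118),Int.negSucc (nat_lit 8922045705),Int.negSucc (nat_lit 90974734),Int.negSucc (nat_lit 1886841182),Int.negSucc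 (nat_lit 8395416833),Int.ofNat (nat_lit 7298038037),Int.ofNat (nat_lit 3034079914),Int.negSucc (nat_lit 8804437271),Int.ofNat (nat_lit 6712358097),Int.negSucc (nat_lit 1995251615),Int.negSucc (nat_lit 10138475589),Int.ofNat (nat_lit 2073012759),Int.negSucc (nat_lit 1597707103),Int.ofNat (nat_lit 2631487064),Int.ofNat (nat_lit 9013413914),Int.negSucc (nat_lit 7347481596),Int.ofNat (nat_lit 936084081),Int.ofNat (nat_lit 5049989405),Int.negSucc (nat_lit 10924585129),Int.ofNat (nat_lit 19216110412),Int.ofNat (nat_lit 4784427471),Int.negSucc (nat_lit 1219693787),Int.negSucc (nat_lit 8285518418),Int.negSucc (nat_lit 20265617725),Int.ofNat (nat_lit 1374684741),Int.negSucc (nat_lit 9482985579),Int.negSucc (nat_lit 2729138830),Int.ofNat (nat_lit 5653894969),Int.negSucc (nat_lit 8472318180),Int.ofNat (nat_lit 6930209335),Int.negSucc (nat_lit 6561582299),Int.ofNat (nat_lit 13386396000)])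

/-- A row. -/
noncomputable def sr3_c1_22 : List ℕ × List ℤ :=
  ([(nat_lit 0),(nat_lit 5),(nat_lit 1),(nat_lit 0),(nat_lit 0),(nat_lit 0),(nat_lit 0),(nat_lit 0),(nat_lit 0),(nat_lit 0),(nat_lit 0),(nat_lit 0)], [Int.ofNat (nat_lit 1393843087),Int.negSucc (nat_lit 1250720465),Int.negSucc (nat_lit 4552440439),Int.ofNat (nat_lit 1244221179),Int.ofNat (nat_lit 4091836451),Int.ofNat (nat_lit 1215928887),Int.ofNat (nat_lit 419069027),Int.negSucc (nat_lit 1756129758),Int.ofNat (nat_lit 1727311699),Int.negSucc (nat_lit 2134242584),Int.negSucc (nat_lit 1715045683),Int.negSucc (nat_lit 1668341673),Int.negSucc (nat_lit 3651382080),Int.negSucc (nat_lit 2718524879),Int.ofNat (nat_lit 411056261),Int.ofNat (nat_lit 94133501),Int.negSucc (nat_lit 2654434993),Int.negSucc (nat_lit 1805102341),Int.negSucc (nat_lit 996872784),Int.negSucc (nat_lit 163222355),Int.ofNat (nat_lit 3240175226),Int.negSucc (nat_lit 2920675375),Int.ofNat (nat_lit 1739479780),Int.ofNat (nat_lit 556555501),Int.negSucc (nat_lit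 1639017514),Int.ofNat (nat_lit 5077926853),Int.ofNat (nat_lit 1563406289),Int.negSucc (nat_lit 2049624518),Int.negSucc (nat_lit 944581848),Int.negSucc (nat_lit 658065367),Int.negSucc (nat_lit 2714562264),Int.negSucc (nat_lit 798296555),Int.ofNat (nat_lit 1280042602),Int.ofNat (nat_lit 80536689),Int.negSucc (nat_lit 625848907),Int.ofNat (nat_lit 3481292315),Int.ofNat (nat_lit 574326737),Int.ofNat (nat_lit 1674782722),Int.negSucc (nat_lit 3804405626),Int.ofNat (nat_lit 2163166073),Int.ofNat (nat_lit 2552239810),Int.negSucc (nat_lit 6154851705),Int.ofNat (nat_lit 4069967615),Int.negSucc (nat_lit 12914492598),Int.ofNat (nat_lit 514940901),Int.negSucc (nat_lit 2521962667),Int.negSucc (nat_lit 292085014),Int.negSucc (nat_lit 8049161408),Int.ofNat (nat_lit 3547777739),Int.negSucc (nat_lit 465657839),Int.negSucc (nat_lit 765729587),Int.ofNat (nat_lit 2771964813),Int.ofNat (nat_lit 6429273688)])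

/-- A row. -/
noncomputable def sr3_c1_23 : List ℕ × List ℤ :=
  ([(nat_lit 0),(nat_lit 7),(nat_lit 0),(nat_lit 0),(nat_lit 0),(nat_lit 0),(nat_lit 0),(nat_lit 0),(nat_lit 0),(nat_lit 0),(nat_lit 0),(nat_lit 0)], [Int.negSucc (nat_lit 1441883017),Int.negSucc (nat_lit 248891022),Int.negSucc (nat_lit 3599250234),Int.ofNat (nat_lit 2773206174),Int.ofNat (nat_lit 3206567303),Int.ofNat (nat_lit 2323672213),Int.negSucc (nat_lit 1153492655),Int.ofNat (nat_lit 1572042907),Int.negSucc (nat_lit 285233844),Int.ofNat (nat_lit 2385623520),Int.negSucc (nat_lit 1568996221),Int.negSucc (nat_lit 7481912898),Int.ofNat (nat_lit 2044759448),Int.negSucc (nat_lit 222991021),Int.ofNat (nat_lit 981040600),Int.ofNat (nat_lit 3276624337),Int.negSucc (nat_lit 788401285),Int.negSucc (nat_lit 5467382770),Int.ofNat (nat_lit 1935309081),Int.ofNat (nat_lit 1995131651),Int.ofNat (nat_lit 491928038),Int.ofNat (nat_lit 2987615253),Int.ofNat (nat_lit 1472889678),Int.ofNat (nat_lit 1041521130),Int.ofNat (nat_lit 4189544893),Int.negSucc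 (nat_lit 2159048807),Int.ofNat (nat_lit 928181137),Int.ofNat (nat_lit 4535027063),Int.negSucc (nat_lit 2340377284),Int.negSucc (nat_lit 447139206),Int.ofNat (nat_lit 4482092247),Int.negSucc (nat_lit 798944225),Int.ofNat (nat_lit 1581776951),Int.negSucc (nat_lit 765078016),Int.negSucc (nat_lit 4996376881),Int.ofNat (nat_lit 4838205048),Int.negSucc (nat_lit 984335290),Int.negSucc (nat_lit 336915382),Int.ofNat (nat_lit 3784736503),Int.negSucc (nat_lit 7805580401),Int.negSucc (nat_lit 1888381258),Int.ofNat (nat_lit 79851538),Int.ofNat (nat_lit 4913541029),Int.ofNat (nat_lit 7331631577),Int.negSucc (nat_lit 550067344),Int.ofNat (nat_lit 6393877398),Int.ofNat (nat_lit 2158059099),Int.negSucc (nat_lit 7067565250),Int.ofNat (nat_lit 7090053232),Int.negSucc (nat_lit 4379745604),Int.ofNat (nat_lit 2414203912),Int.negSucc (nat_lit 12582881500),Int.ofNat (nat_lit 3261760871),Int.ofNat (nat_lit 2922699944)])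

/-- A row. -/
noncomputable def sr3_c1_24 : List ℕ × List ℤ :=
  ([(nat_lit 1),(nat_lit 0),(nat_lit 0),(nat_lit 0),(nat_lit 0),(nat_lit 0),(nat_lit 0),(nat_lit 0),(nat_lit 0),(nat_lit 0),(nat_lit 0),(nat_lit 1)], [Int.negSucc (nat_lit 16796648722),Int.negSucc (nat_lit 45194773),Int.negSucc (nat_lit 1064477977),Int.negSucc (nat_lit 327656240),Int.ofNat (nat_lit 109592705),Int.negSucc (nat_lit 14485789),Int.ofNat (nat_lit 690304315),Int.negSucc (nat_lit 32650755),Int.ofNat (nat_lit 234902501),Int.negSucc (nat_lit 267541328),Int.negSucc (nat_lit 413384220),Int.negSucc (nat_lit 333473005),Int.negSucc (nat_lit 442309972),Int.ofNat (nat_lit 162552677),Int.negSucc (nat_lit 42170837),Int.negSucc (nat_lit 94395947),Int.negSucc (nat_lit 114644266),Int.negSucc (nat_lit 439997748),Int.negSucc (nat_lit 309024344),Int.ofNat (nat_lit 116982327),Int.ofNat (nat_lit 93635829),Int.ofNat (nat_lit 57736665),Int.negSucc (nat_lit 38175513),Int.negSucc (nat_lit 251293338),Int.ofNat (nat_lit 82488855),Int.ofNat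 (nat_lit 71903637),Int.negSucc (nat_lit 278009802),Int.ofNat (nat_lit 61411124),Int.ofNat (nat_lit 98505151),Int.negSucc (nat_lit 64824133),Int.ofNat (nat_lit 69978411),Int.ofNat (nat_lit 11981040),Int.ofNat (nat_lit 13599984),Int.ofNat (nat_lit 179478033),Int.negSucc (nat_lit 89911419),Int.negSucc (nat_lit 27045919),Int.negSucc (nat_lit 20355831),Int.negSucc (nat_lit 23410492),Int.negSucc (nat_lit 68971438),Int.negSucc (nat_lit 48854548),Int.negSucc (nat_lit 40056963),Int.negSucc (nat_lit 141933025),Int.ofNat (nat_lit 13086831),Int.ofNat (nat_lit 18189999),Int.negSucc (nat_lit 3138725),Int.negSucc (nat_lit 10454925),Int.negSucc (nat_lit 3846871),Int.negSucc (nat_lit 9843939),Int.ofNat (nat_lit 38701832),Int.negSucc (nat_lit 15019296),Int.negSucc (nat_lit 18327952),Int.negSucc (nat_lit 37505299),Int.negSucc (nat_lit 4085516),Int.ofNat (nat_lit 13678368),Int.ofNat (nat_lit 487683270)])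

/-- A row. -/
noncomputable def sr3_c1_25 : List ℕ × List ℤ :=
  ([(nat_lit 1),(nat_lit 0),(nat_lit 0),(nat_lit 0),(nat_lit 0),(nat_lit 0),(nat_lit 0),(nat_lit 0),(nat_lit 0),(nat_lit 1),(nat_lit 0),(nat_lit 0)], [Int.ofNat (nat_lit 30852399),Int.negSucc (nat_lit 2162419749),Int.negSucc (nat_lit 215614649),Int.ofNat (nat_lit 320290168),Int.ofNat (nat_lit 357983762),Int.negSucc (nat_lit 683430045),Int.negSucc (nat_lit 116389330),Int.negSucc (nat_lit 105551401),Int.negSucc (nat_lit 200948671),Int.negSucc (nat_lit 283624736),Int.ofNat (nat_lit 39094845),Int.ofNat (nat_lit 460113444),Int.negSucc (nat_lit 48888725),Int.ofNat (nat_lit 965921610),Int.ofNat (nat_lit 408837206),Int.negSucc (nat_lit 39841070),Int.ofNat (nat_lit 398224),Int.negSucc (nat_lit 384781170),Int.ofNat (nat_lit 158526558),Int.ofNat (nat_lit 57170122),Int.negSucc (nat_lit 115761478),Int.ofNat (nat_lit 163927195),Int.ofNat (nat_lit 113246573),Int.negSucc (nat_lit 241328898),Int.negSucc (nat_lit 172647033),Int.ofNat (nat_lit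 72157168),Int.negSucc (nat_lit 633189833),Int.ofNat (nat_lit 70272130),Int.negSucc (nat_lit 78450671),Int.ofNat (nat_lit 62309398),Int.ofNat (nat_lit 34685525),Int.negSucc (nat_lit 149110001),Int.negSucc (nat_lit 127375921),Int.ofNat (nat_lit 114179612),Int.ofNat (nat_lit 201384020),Int.ofNat (nat_lit 44073951),Int.negSucc (nat_lit 445816366),Int.negSucc (nat_lit 30612572),Int.ofNat (nat_lit 181903668),Int.ofNat (nat_lit 1125253),Int.ofNat (nat_lit 250955451),Int.ofNat (nat_lit 71751814),Int.negSucc (nat_lit 36150481),Int.ofNat (nat_lit 107408653),Int.ofNat (nat_lit 146471731),Int.ofNat (nat_lit 1986793),Int.negSucc (nat_lit 40352134),Int.ofNat (nat_lit 32631763),Int.ofNat (nat_lit 25728446),Int.negSucc (nat_lit 81525737),Int.negSucc (nat_lit 39135468),Int.ofNat (nat_lit 73602561),Int.negSucc (nat_lit 60495304),Int.negSucc (nat_lit 14833459),Int.negSucc (nat_lit 65674897),Int.ofNat (nat_lit 989645651)])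

/-- A row. -/
noncomputable def sr3_c1_26 : List ℕ × List ℤ :=
  ([(nat_lit 1),(nat_lit 0),(nat_lit 0),(nat_lit 0),(nat_lit 0),(nat_lit 0),(nat_lit 0),(nat_lit 1),(nat_lit 0),(nat_lit 0),(nat_lit 0),(nat_lit 0)], [Int.negSucc (nat_lit 301409712),Int.negSucc (nat_lit 845350898),Int.negSucc (nat_lit 7917319275),Int.ofNat (nat_lit 41986533),Int.ofNat (nat_lit 83736303),Int.negSucc (nat_lit 1481449823),Int.negSucc (nat_lit 21697044),Int.ofNat (nat_lit 465275784),Int.ofNat (nat_lit 78827760),Int.negSucc (nat_lit 129225376),Int.negSucc (nat_lit 4004215),Int.ofNat (nat_lit 512344871),Int.ofNat (nat_lit 85302413),Int.negSucc (nat_lit 192711279),Int.ofNat (nat_lit 1232127525),Int.negSucc (nat_lit 173490009),Int.negSucc (nat_lit 157304591),Int.ofNat (nat_lit 562778860),Int.ofNat (nat_lit 174781164),Int.negSucc (nat_lit 84651251),Int.negSucc (nat_lit 70752417),Int.ofNat (nat_lit 264388121),Int.ofNat (nat_lit 85293860),Int.ofNat (nat_lit 136744727),Int.negSucc (nat_lit 88420724),Int.negSucc (nat_lit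 18278638),Int.ofNat (nat_lit 26190515),Int.ofNat (nat_lit 60827643),Int.ofNat (nat_lit 135901274),Int.ofNat (nat_lit 287145837),Int.negSucc (nat_lit 91848413),Int.ofNat (nat_lit 230593791),Int.ofNat (nat_lit 161853654),Int.ofNat (nat_lit 311154206),Int.ofNat (nat_lit 415928456),Int.negSucc (nat_lit 98141870),Int.negSucc (nat_lit 44660651),Int.negSucc (nat_lit 172818567),Int.ofNat (nat_lit 7068288),Int.ofNat (nat_lit 241418394),Int.ofNat (nat_lit 154462109),Int.negSucc (nat_lit 210826505),Int.negSucc (nat_lit 284608814),Int.negSucc (nat_lit 39389629),Int.negSucc (nat_lit 35042513),Int.negSucc (nat_lit 67396426),Int.ofNat (nat_lit 83241092),Int.negSucc (nat_lit 729460),Int.ofNat (nat_lit 29926317),Int.ofNat (nat_lit 29461322),Int.ofNat (nat_lit 121062754),Int.negSucc (nat_lit 6984215),Int.ofNat (nat_lit 50336935),Int.negSucc (nat_lit 21402580),Int.negSucc (nat_lit 70874194),Int.negSucc (nat_lit 128163431),Int.ofNat (nat_lit 2036546754)])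

/-- A row. -/
noncomputable def sr3_c1_27 : List ℕ × List ℤ :=
  ([(nat_lit 1),(nat_lit 0),(nat_lit 0),(nat_lit 0),(nat_lit 0),(nat_lit 1),(nat_lit 0),(nat_lit 0),(nat_lit 0),(nat_lit 0),(nat_lit 0),(nat_lit 0)], [Int.ofNat (nat_lit 9266214698),Int.negSucc (nat_lit 3916367150),Int.ofNat (nat_lit 5940712851),Int.negSucc (nat_lit 13129390281),Int.ofNat (nat_lit 1297762418),Int.ofNat (nat_lit 1941881046),Int.negSucc (nat_lit 2980167069),Int.negSucc (nat_lit 597455499),Int.negSucc (nat_lit 472666679),Int.ofNat (nat_lit 1523782987),Int.negSucc (nat_lit 940696499),Int.negSucc (nat_lit 2729159880),Int.negSucc (nat_lit 313222859),Int.ofNat (nat_lit 666703195),Int.negSucc (nat_lit 522734844),Int.ofNat (nat_lit 601947722),Int.ofNat (nat_lit 625582324),Int.negSucc (nat_lit 1770421780),Int.negSucc (nat_lit 378875683),Int.ofNat (nat_lit 1026169471),Int.ofNat (nat_lit 509428743),Int.ofNat (nat_lit 949064061),Int.negSucc (nat_lit 124117613),Int.negSucc (nat_lit 716388486),Int.ofNat (nat_lit 5265180),Int.negSucc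 (nat_lit 56983687),Int.negSucc (nat_lit 1447143813),Int.negSucc (nat_lit 260359763),Int.negSucc (nat_lit 44404042),Int.negSucc (nat_lit 282386840),Int.ofNat (nat_lit 485840462),Int.negSucc (nat_lit 393699474),Int.negSucc (nat_lit 809152485),Int.ofNat (nat_lit 629991248),Int.negSucc (nat_lit 592587432),Int.negSucc (nat_lit 37920260),Int.ofNat (nat_lit 100285652),Int.ofNat (nat_lit 192393216),Int.negSucc (nat_lit 1100727985),Int.negSucc (nat_lit 622815364),Int.negSucc (nat_lit 57293665),Int.negSucc (nat_lit 860493002),Int.ofNat (nat_lit 165925644),Int.negSucc (nat_lit 92577509),Int.negSucc (nat_lit 100806177),Int.ofNat (nat_lit 103636400),Int.negSucc (nat_lit 105943694),Int.ofNat (nat_lit 9151932),Int.ofNat (nat_lit 111141002),Int.ofNat (nat_lit 44711904),Int.negSucc (nat_lit 176906255),Int.negSucc (nat_lit 138935059),Int.negSucc (nat_lit 34485061),Int.ofNat (nat_lit 14466936),Int.ofNat (nat_lit 1068295888),Int.negSucc (nat_lit 215077176),Int.negSucc (nat_lit 842881883),Int.ofNat (nat_lit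 3316497180)])

/-- A row. -/
noncomputable def sr3_c1_28 : List ℕ × List ℤ :=
  ([(nat_lit 1),(nat_lit 0),(nat_lit 0),(nat_lit 0),(nat_lit 1),(nat_lit 1),(nat_lit 0),(nat_lit 0),(nat_lit 0),(nat_lit 0),(nat_lit 0),(nat_lit 0)], [Int.negSucc (nat_lit 1114060757),Int.ofNat (nat_lit 214569115),Int.negSucc (nat_lit 1504854150),Int.ofNat (nat_lit 5598041625),Int.negSucc (nat_lit 2589412917),Int.negSucc (nat_lit 2117168163),Int.negSucc (nat_lit 7540351603),Int.ofNat (nat_lit 75692857),Int.ofNat (nat_lit 180060198),Int.ofNat (nat_lit 87839776),Int.ofNat (nat_lit 146073782),Int.ofNat (nat_lit 213614093),Int.negSucc (nat_lit 18891329),Int.negSucc (nat_lit 65684358),Int.ofNat (nat_lit 32621730),Int.ofNat (nat_lit 138456919),Int.negSucc (nat_lit 14370965),Int.negSucc (nat_lit 251173524),Int.ofNat (nat_lit 148994010),Int.negSucc (nat_lit 169688145),Int.negSucc (nat_lit 124661910),Int.ofNat (nat_lit 117197975),Int.ofNat (nat_lit 236040505),Int.ofNat (nat_lit 261645908),Int.ofNat (nat_lit 20309589),Int.ofNat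 (nat_lit 182915261),Int.ofNat (nat_lit 173746397),Int.ofNat (nat_lit 38968915),Int.negSucc (nat_lit 122236079),Int.ofNat (nat_lit 17608472),Int.negSucc (nat_lit 56406507),Int.ofNat (nat_lit 219928463),Int.ofNat (nat_lit 170913749),Int.negSucc (nat_lit 58028770),Int.ofNat (nat_lit 46780305),Int.ofNat (nat_lit 18767540),Int.negSucc (nat_lit 62179722),Int.ofNat (nat_lit 21242998),Int.ofNat (nat_lit 38046231),Int.ofNat (nat_lit 31757144),Int.ofNat (nat_lit 41921012),Int.ofNat (nat_lit 94262433),Int.ofNat (nat_lit 8886319),Int.negSucc (nat_lit 30951339),Int.ofNat (nat_lit 7403087),Int.ofNat (nat_lit 70135152),Int.ofNat (nat_lit 22722774),Int.negSucc (nat_lit 37317137),Int.negSucc (nat_lit 121571804),Int.ofNat (nat_lit 27645585),Int.ofNat (nat_lit 8964506),Int.negSucc (nat_lit 7953580),Int.ofNat (nat_lit 24831275),Int.negSucc (nat_lit 9271188),Int.negSucc (nat_lit 165088094),Int.negSucc (nat_lit 13394997),Int.negSucc (nat_lit 27397672),Int.negSucc (nat_lit 102368483),Int.ofNat (nat_lit 779854337)])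

/-- A row. -/
noncomputable def sr3_c1_29 : List ℕ × List ℤ :=
  ([(nat_lit 1),(nat_lit 0),(nat_lit 0),(nat_lit 1),(nat_lit 0),(nat_lit 0),(nat_lit 0),(nat_lit 0),(nat_lit 0),(nat_lit 0),(nat_lit 0),(nat_lit 0)], [Int.negSucc (nat_lit 2639830031),Int.negSucc (nat_lit 1423502284),Int.negSucc (nat_lit 7401387330),Int.ofNat (nat_lit 4817863032),Int.negSucc (nat_lit 1521133551),Int.ofNat (nat_lit 2116426369),Int.ofNat (nat_lit 3394591743),Int.negSucc (nat_lit 13090005338),Int.ofNat (nat_lit 1026281668),Int.ofNat (nat_lit 1129882067),Int.negSucc (nat_lit 1548071230),Int.negSucc (nat_lit 725950120),Int.negSucc (nat_lit 1095698775),Int.negSucc (nat_lit 1438772554),Int.ofNat (nat_lit 655238634),Int.negSucc (nat_lit 134457833),Int.ofNat (nat_lit 1292783584),Int.negSucc (nat_lit 74798081),Int.negSucc (nat_lit 356355141),Int.negSucc (nat_lit 2599238362),Int.ofNat (nat_lit 471148911),Int.negSucc (nat_lit 3921596418),Int.ofNat (nat_lit 295549601),Int.ofNat (nat_lit 7196167),Int.ofNat (nat_lit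 216433990),Int.ofNat (nat_lit 851360698),Int.ofNat (nat_lit 928784900),Int.negSucc (nat_lit 138566791),Int.negSucc (nat_lit 337697579),Int.ofNat (nat_lit 1201068757),Int.negSucc (nat_lit 404251737),Int.ofNat (nat_lit 32860297),Int.ofNat (nat_lit 873532568),Int.ofNat (nat_lit 596190553),Int.ofNat (nat_lit 261801748),Int.ofNat (nat_lit 164342278),Int.ofNat (nat_lit 447902851),Int.negSucc (nat_lit 34358396),Int.ofNat (nat_lit 189004947),Int.negSucc (nat_lit 233840754),Int.ofNat (nat_lit 55268315),Int.negSucc (nat_lit 9285102),Int.ofNat (nat_lit 521696894),Int.ofNat (nat_lit 717876139),Int.ofNat (nat_lit 98836935),Int.negSucc (nat_lit 369899591),Int.ofNat (nat_lit 600081769),Int.ofNat (nat_lit 303836946),Int.negSucc (nat_lit 277347711),Int.ofNat (nat_lit 29127981),Int.negSucc (nat_lit 119564449),Int.ofNat (nat_lit 306199060),Int.negSucc (nat_lit 9504131),Int.ofNat (nat_lit 72492090),Int.negSucc (nat_lit 539000043),Int.ofNat (nat_lit 203695148),Int.ofNat (nat_lit 395296959),Int.negSucc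 (nat_lit 1759546682),Int.negSucc (nat_lit 276701234),Int.ofNat (nat_lit 5677969842)])

/-- A part of a triangular factor. -/
noncomputable def sr3_c1 : Rows :=
  [sr3_c1_0,
   sr3_c1_1,
   sr3_c1_2,
   sr3_c1_3,
   sr3_c1_4,
   sr3_c1_5,
   sr3_c1_6,
   sr3_c1_7,
   sr3_c1_8,
   sr3_c1_9,
   sr3_c1_10,
   sr3_c1_11,
   sr3_c1_12,
   sr3_c1_13,
   sr3_c1_14,
   sr3_c1_15,
   sr3_c1_16,
   sr3_c1_17,
   sr3_c1_18,
   sr3_c1_19,
   sr3_c1_20,
   sr3_c1_21,
   sr3_c1_22,
   sr3_c1_23,
   sr3_c1_24,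
   sr3_c1_25,
   sr3_c1_26,
   sr3_c1_27,
   sr3_c1_28,
   sr3_c1_29]

/-- A row. -/
noncomputable def sr3_c2_0 : List ℕ × List ℤ :=
  ([(nat_lit 1),(nat_lit 0),(nat_lit 0),(nat_lit 1),(nat_lit 0),(nat_lit 0),(nat_lit 1),(nat_lit 0),(nat_lit 0),(nat_lit 0),(nat_lit 0),(nat_lit 0)], [Int.negSucc (nat_lit 1282575876),Int.negSucc (nat_lit 73092015),Int.negSucc (nat_lit 2127560752),Int.ofNat (nat_lit 1258355088),Int.ofNat (nat_lit 3587165501),Int.negSucc (nat_lit 1847240596),Int.ofNat (nat_lit 1254848106),Int.negSucc (nat_lit 1396093264),Int.ofNat (nat_lit 1862667966),Int.negSucc (nat_lit 4563877499),Int.negSucc (nat_lit 847210664),Int.negSucc (nat_lit 878390022),Int.negSucc (nat_lit 720998658),Int.ofNat (nat_lit 319948472),Int.negSucc (nat_lit 1242832),Int.ofNat (nat_lit 138302802),Int.negSucc (nat_lit 154862962),Int.negSucc (nat_lit 728120111),Int.negSucc (nat_lit 409652653),Int.ofNat (nat_lit 239958464),Int.ofNat (nat_lit 366077110),Int.ofNat (nat_lit 83561628),Int.ofNat (nat_lit 81910849),Int.negSucc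 (nat_lit 355172474),Int.ofNat (nat_lit 277300316),Int.negSucc (nat_lit 87125966),Int.negSucc (nat_lit 162252785),Int.ofNat (nat_lit 186731665),Int.negSucc (nat_lit 42308859),Int.ofNat (nat_lit 69288521),Int.ofNat (nat_lit 178365623),Int.ofNat (nat_lit 139920640),Int.negSucc (nat_lit 55990207),Int.ofNat (nat_lit 601709323),Int.negSucc (nat_lit 201577557),Int.negSucc (nat_lit 57323448),Int.ofNat (nat_lit 38322492),Int.negSucc (nat_lit 37984364),Int.negSucc (nat_lit 208333639),Int.negSucc (nat_lit 11680218),Int.ofNat (nat_lit 8510955),Int.negSucc (nat_lit 278177764),Int.ofNat (nat_lit 61834502),Int.ofNat (nat_lit 16866685),Int.ofNat (nat_lit 125269587),Int.negSucc (nat_lit 36504142),Int.ofNat (nat_lit 27632988),Int.negSucc (nat_lit 61208089),Int.negSucc (nat_lit 34389386),Int.negSucc (nat_lit 39179624),Int.negSucc (nat_lit 87868896),Int.negSucc (nat_lit 85654171),Int.ofNat (nat_lit 36962957),Int.ofNat (nat_lit 11140486),Int.ofNat (nat_lit 778836700),Int.ofNat (nat_lit 20794641),Int.negSucc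 (nat_lit 68125616),Int.negSucc (nat_lit 4051687),Int.ofNat (nat_lit 34562162),Int.ofNat (nat_lit 173462671),Int.ofNat (nat_lit 910017700)])

/-- A row. -/
noncomputable def sr3_c2_1 : List ℕ × List ℤ :=
  ([(nat_lit 1),(nat_lit 0),(nat_lit 0),(nat_lit 1),(nat_lit 1),(nat_lit 0),(nat_lit 0),(nat_lit 0),(nat_lit 0),(nat_lit 0),(nat_lit 0),(nat_lit 0)], [Int.ofNat (nat_lit 160816761),Int.ofNat (nat_lit 194238912),Int.negSucc (nat_lit 902547092),Int.negSucc (nat_lit 471845581),Int.ofNat (nat_lit 122848024),Int.negSucc (nat_lit 5658704623),Int.ofNat (nat_lit 3270385976),Int.ofNat (nat_lit 8466306236),Int.ofNat (nat_lit 5298662930),Int.negSucc (nat_lit 6948195941),Int.negSucc (nat_lit 8231467900),Int.ofNat (nat_lit 2007537483),Int.negSucc (nat_lit 509116303),Int.ofNat (nat_lit 1378510369),Int.ofNat (nat_lit 166924917),Int.negSucc (nat_lit 945512537),Int.negSucc (nat_lit 920643469),Int.ofNat (nat_lit 931662590),Int.ofNat (nat_lit 229948967),Int.ofNat (nat_lit 1063310234),Int.negSucc (nat_lit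 635750543),Int.ofNat (nat_lit 2353314110),Int.negSucc (nat_lit 337877403),Int.negSucc (nat_lit 1068226274),Int.negSucc (nat_lit 469132794),Int.ofNat (nat_lit 303929236),Int.negSucc (nat_lit 1587738476),Int.negSucc (nat_lit 191158700),Int.ofNat (nat_lit 663827145),Int.negSucc (nat_lit 1515236655),Int.ofNat (nat_lit 324071797),Int.negSucc (nat_lit 552332425),Int.negSucc (nat_lit 449781794),Int.negSucc (nat_lit 609203332),Int.negSucc (nat_lit 58360868),Int.negSucc (nat_lit 39958133),Int.negSucc (nat_lit 724000275),Int.ofNat (nat_lit 52361811),Int.ofNat (nat_lit 524103274),Int.negSucc (nat_lit 219077710),Int.negSucc (nat_lit 655321980),Int.ofNat (nat_lit 148578575),Int.negSucc (nat_lit 83484679),Int.negSucc (nat_lit 485566885),Int.ofNat (nat_lit 102772714),Int.ofNat (nat_lit 164020798),Int.negSucc (nat_lit 144949548),Int.negSucc (nat_lit 249994629),Int.ofNat (nat_lit 563227811),Int.negSucc (nat_lit 185203135),Int.ofNat (nat_lit 7963349),Int.negSucc (nat_lit 38002998),Int.negSucc (nat_lit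 252718924),Int.negSucc (nat_lit 13604917),Int.ofNat (nat_lit 694397034),Int.ofNat (nat_lit 832956202),Int.negSucc (nat_lit 643631525),Int.negSucc (nat_lit 374354842),Int.ofNat (nat_lit 168766928),Int.negSucc (nat_lit 2312377801),Int.negSucc (nat_lit 1001622115),Int.ofNat (nat_lit 3089802778)])

/-- A row. -/
noncomputable def sr3_c2_2 : List ℕ × List ℤ :=
  ([(nat_lit 1),(nat_lit 0),(nat_lit 0),(nat_lit 3),(nat_lit 0),(nat_lit 0),(nat_lit 0),(nat_lit 0),(nat_lit 0),(nat_lit 0),(nat_lit 0),(nat_lit 0)], [Int.ofNat (nat_lit 146721700),Int.ofNat (nat_lit 349924043),Int.negSucc (nat_lit 43685328),Int.negSucc (nat_lit 1813775329),Int.ofNat (nat_lit 258693780),Int.negSucc (nat_lit 842871294),Int.negSucc (nat_lit 504405775),Int.ofNat (nat_lit 1411176447),Int.negSucc (nat_lit 302677409),Int.ofNat (nat_lit 102646150),Int.negSucc (nat_lit 207561996),Int.ofNat (nat_lit 207565023),Int.negSucc (nat_lit 3633247980),Int.ofNat (nat_lit 60287421),Int.ofNat (nat_lit 95030579),Int.negSucc (nat_lit 706639080),Int.ofNat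 (nat_lit 152264954),Int.ofNat (nat_lit 28906450),Int.ofNat (nat_lit 59254917),Int.ofNat (nat_lit 84246647),Int.negSucc (nat_lit 112321167),Int.ofNat (nat_lit 415615743),Int.ofNat (nat_lit 51893207),Int.negSucc (nat_lit 198342999),Int.ofNat (nat_lit 154581537),Int.ofNat (nat_lit 113065979),Int.negSucc (nat_lit 357664568),Int.negSucc (nat_lit 393104555),Int.ofNat (nat_lit 219392523),Int.negSucc (nat_lit 504319752),Int.negSucc (nat_lit 74772427),Int.negSucc (nat_lit 217054796),Int.negSucc (nat_lit 37261921),Int.negSucc (nat_lit 651255598),Int.negSucc (nat_lit 134526542),Int.negSucc (nat_lit 52181326),Int.negSucc (nat_lit 207197535),Int.ofNat (nat_lit 50531692),Int.ofNat (nat_lit 204302413),Int.negSucc (nat_lit 247257675),Int.negSucc (nat_lit 75370310),Int.ofNat (nat_lit 199014506),Int.negSucc (nat_lit 70747188),Int.negSucc (nat_lit 241405111),Int.ofNat (nat_lit 642126),Int.ofNat (nat_lit 6994048),Int.ofNat (nat_lit 75089328),Int.negSucc (nat_lit 24649194),Int.ofNat (nat_lit 75281432),Int.ofNat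 (nat_lit 61698811),Int.ofNat (nat_lit 30742880),Int.ofNat (nat_lit 109825128),Int.negSucc (nat_lit 52051727),Int.negSucc (nat_lit 24409582),Int.negSucc (nat_lit 179894886),Int.negSucc (nat_lit 56973898),Int.negSucc (nat_lit 50682944),Int.ofNat (nat_lit 111652747),Int.ofNat (nat_lit 198596705),Int.negSucc (nat_lit 654304277),Int.negSucc (nat_lit 547872224),Int.ofNat (nat_lit 496379619),Int.ofNat (nat_lit 1345079694)])

/-- A row. -/
noncomputable def sr3_c2_3 : List ℕ × List ℤ :=
  ([(nat_lit 1),(nat_lit 0),(nat_lit 1),(nat_lit 0),(nat_lit 0),(nat_lit 0),(nat_lit 0),(nat_lit 1),(nat_lit 0),(nat_lit 0),(nat_lit 0),(nat_lit 0)], [Int.ofNat (nat_lit 152600291),Int.ofNat (nat_lit 384530697),Int.negSucc (nat_lit 6461339348),Int.negSucc (nat_lit 635517398),Int.ofNat (nat_lit 686899389),Int.ofNat (nat_lit 307184810),Int.ofNat (nat_lit 1669579177),Int.negSucc (nat_lit 313397135),Int.negSucc (nat_lit 443761489),Int.negSucc (nat_lit 450252672),Int.negSucc (nat_lit 509597281),Int.ofNat (nat_lit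 392105869),Int.negSucc (nat_lit 678286539),Int.ofNat (nat_lit 596005423),Int.negSucc (nat_lit 1917448428),Int.negSucc (nat_lit 349882117),Int.ofNat (nat_lit 10119013),Int.negSucc (nat_lit 299400924),Int.negSucc (nat_lit 163818383),Int.ofNat (nat_lit 220559770),Int.negSucc (nat_lit 207053484),Int.negSucc (nat_lit 87285865),Int.negSucc (nat_lit 99370892),Int.negSucc (nat_lit 364492665),Int.negSucc (nat_lit 97519399),Int.ofNat (nat_lit 182853711),Int.negSucc (nat_lit 598256322),Int.ofNat (nat_lit 16348308),Int.ofNat (nat_lit 123572245),Int.ofNat (nat_lit 28674690),Int.negSucc (nat_lit 66439251),Int.negSucc (nat_lit 189380716),Int.ofNat (nat_lit 67375437),Int.ofNat (nat_lit 130008816),Int.ofNat (nat_lit 82452501),Int.ofNat (nat_lit 2120989),Int.negSucc (nat_lit 234573974),Int.negSucc (nat_lit 46901565),Int.ofNat (nat_lit 80336740),Int.negSucc (nat_lit 5041020),Int.ofNat (nat_lit 25131960),Int.negSucc (nat_lit 11876905),Int.negSucc (nat_lit 124576963),Int.negSucc (nat_lit 20481025),Int.negSucc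 (nat_lit 35067177),Int.negSucc (nat_lit 101147411),Int.negSucc (nat_lit 54209153),Int.negSucc (nat_lit 35446392),Int.ofNat (nat_lit 172201016),Int.ofNat (nat_lit 9642542),Int.ofNat (nat_lit 47082470),Int.ofNat (nat_lit 56075790),Int.negSucc (nat_lit 37175989),Int.negSucc (nat_lit 372329),Int.ofNat (nat_lit 357276028),Int.ofNat (nat_lit 124956520),Int.ofNat (nat_lit 391775959),Int.negSucc (nat_lit 117183917),Int.negSucc (nat_lit 153298936),Int.negSucc (nat_lit 112813865),Int.negSucc (nat_lit 309107526),Int.negSucc (nat_lit 27969984),Int.ofNat (nat_lit 40863764),Int.ofNat (nat_lit 740755367)])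

/-- A row. -/
noncomputable def sr3_c2_4 : List ℕ × List ℤ :=
  ([(nat_lit 1),(nat_lit 0),(nat_lit 1),(nat_lit 0),(nat_lit 0),(nat_lit 1),(nat_lit 0),(nat_lit 0),(nat_lit 0),(nat_lit 0),(nat_lit 0),(nat_lit 0)], [Int.negSucc (nat_lit 1052128886),Int.negSucc (nat_lit 666404418),Int.negSucc (nat_lit 477167002),Int.negSucc (nat_lit 7353790525),Int.negSucc (nat_lit 2190610838),Int.ofNat (nat_lit 1461405792),Int.negSucc (nat_lit 6905400843),Int.negSucc (nat_lit 1335394723),Int.ofNat (nat_lit 544847877),Int.ofNat (nat_lit 2672402193),Int.negSucc (nat_lit 1498127064),Int.negSucc (nat_lit 3042206292),Int.negSucc (nat_lit 257754312),Int.ofNat (nat_lit 1573569107),Int.negSucc (nat_lit 1712946383),Int.negSucc (nat_lit 3876340780),Int.ofNat (nat_lit 192713515),Int.negSucc (nat_lit 1643700728),Int.ofNat (nat_lit 2233400044),Int.ofNat (nat_lit 645874386),Int.ofNat (nat_lit 1091559180),Int.ofNat (nat_lit 683696787),Int.negSucc (nat_lit 691479002),Int.negSucc (nat_lit 662503873),Int.ofNat (nat_lit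 808545365),Int.negSucc (nat_lit 49022123),Int.negSucc (nat_lit 1330908865),Int.ofNat (nat_lit 426199023),Int.ofNat (nat_lit 521587247),Int.negSucc (nat_lit 200892210),Int.ofNat (nat_lit 534626004),Int.negSucc (nat_lit 77852478),Int.negSucc (nat_lit 411481435),Int.ofNat (nat_lit 1365113944),Int.negSucc (nat_lit 781964508),Int.negSucc (nat_lit 491442682),Int.ofNat (nat_lit 291255856),Int.ofNat (nat_lit 12583099),Int.negSucc (nat_lit 1455152844),Int.negSucc (nat_lit 598016107),Int.negSucc (nat_lit 283428500),Int.negSucc (nat_lit 1629268579),Int.ofNat (nat_lit 186872348),Int.ofNat (nat_lit 140085750),Int.negSucc (nat_lit 120467959),Int.ofNat (nat_lit 107341504),Int.ofNat (nat_lit 201460478),Int.ofNat (nat_lit 468975145),Int.negSucc (nat_lit 36996511),Int.ofNat (nat_lit 44764817),Int.negSucc (nat_lit 200048956),Int.negSucc (nat_lit 52308491),Int.negSucc (nat_lit 110650320),Int.ofNat (nat_lit 26860972),Int.ofNat (nat_lit 1470841733),Int.negSucc (nat_lit 467381897),Int.negSucc (nat_lit 114988412),Int.ofNat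 (nat_lit 2537387945),Int.negSucc (nat_lit 301313144),Int.ofNat (nat_lit 631571269),Int.negSucc (nat_lit 19583717),Int.negSucc (nat_lit 910157276),Int.ofNat (nat_lit 315752170),Int.negSucc (nat_lit 583684512),Int.ofNat (nat_lit 2336154623)])

/-- A row. -/
noncomputable def sr3_c2_5 : List ℕ × List ℤ :=
  ([(nat_lit 1),(nat_lit 0),(nat_lit 1),(nat_lit 1),(nat_lit 0),(nat_lit 0),(nat_lit 0),(nat_lit 0),(nat_lit 0),(nat_lit 0),(nat_lit 0),(nat_lit 0)], [Int.ofNat (nat_lit 237448130),Int.negSucc (nat_lit 2842100454),Int.negSucc (nat_lit 3305992160),Int.negSucc (nat_lit 3574705254),Int.negSucc (nat_lit 3981836576),Int.negSucc (nat_lit 817116631),Int.ofNat (nat_lit 691255140),Int.negSucc (nat_lit 6817356393),Int.ofNat (nat_lit 2600048566),Int.ofNat (nat_lit 568301439),Int.negSucc (nat_lit 6364345916),Int.negSucc (nat_lit 1833473532),Int.negSucc (nat_lit 6595223221),Int.negSucc (nat_lit 3210041952),Int.ofNat (nat_lit 934506674),Int.ofNat (nat_lit 2209986450),Int.negSucc (nat_lit 8761778302),Int.negSucc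 (nat_lit 875574562),Int.negSucc (nat_lit 1463942724),Int.ofNat (nat_lit 758047707),Int.negSucc (nat_lit 10044383),Int.negSucc (nat_lit 3762641612),Int.ofNat (nat_lit 574428264),Int.ofNat (nat_lit 838916600),Int.ofNat (nat_lit 70628796),Int.ofNat (nat_lit 1032341375),Int.ofNat (nat_lit 1608692915),Int.negSucc (nat_lit 429435419),Int.negSucc (nat_lit 90907770),Int.ofNat (nat_lit 1069196470),Int.negSucc (nat_lit 539942732),Int.ofNat (nat_lit 173375254),Int.ofNat (nat_lit 700901380),Int.negSucc (nat_lit 764113731),Int.ofNat (nat_lit 399350471),Int.ofNat (nat_lit 203279502),Int.ofNat (nat_lit 593486033),Int.negSucc (nat_lit 175685776),Int.ofNat (nat_lit 369438949),Int.ofNat (nat_lit 34561920),Int.ofNat (nat_lit 418934190),Int.ofNat (nat_lit 18873911),Int.negSucc (nat_lit 229257247),Int.ofNat (nat_lit 427725111),Int.negSucc (nat_lit 80856124),Int.negSucc (nat_lit 214999213),Int.ofNat (nat_lit 517054877),Int.ofNat (nat_lit 292757610),Int.negSucc (nat_lit 416207978),Int.ofNat (nat_lit 206291809),Int.ofNat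 (nat_lit 172985214),Int.ofNat (nat_lit 123478063),Int.ofNat (nat_lit 94827208),Int.negSucc (nat_lit 1548200),Int.negSucc (nat_lit 1133196416),Int.negSucc (nat_lit 249286858),Int.ofNat (nat_lit 705226859),Int.negSucc (nat_lit 1026179124),Int.ofNat (nat_lit 67771119),Int.ofNat (nat_lit 4617005451),Int.negSucc (nat_lit 700621850),Int.ofNat (nat_lit 244732890),Int.ofNat (nat_lit 830060426),Int.negSucc (nat_lit 499375464),Int.negSucc (nat_lit 276512791),Int.ofNat (nat_lit 2882973762)])

/-- A row. -/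
noncomputable def sr3_c2_6 : List ℕ × List ℤ :=
  ([(nat_lit 1),(nat_lit 0),(nat_lit 2),(nat_lit 1),(nat_lit 0),(nat_lit 0),(nat_lit 0),(nat_lit 0),(nat_lit 0),(nat_lit 0),(nat_lit 0),(nat_lit 0)], [Int.ofNat (nat_lit 947679194),Int.negSucc (nat_lit 1199661391),Int.negSucc (nat_lit 1068305555),Int.negSucc (nat_lit 2664016313),Int.ofNat (nat_lit 704605546),Int.negSucc (nat_lit 1085428703),Int.negSucc (nat_lit 256755673),Int.negSucc (nat_lit 758435340),Int.ofNat (nat_lit 848030432),Int.negSucc (nat_lit 1287874520),Int.negSucc (nat_lit 2460005960),Int.negSucc (nat_lit 620182939),Int.negSucc (nat_lit 2909589081),Int.negSucc (nat_lit 1048796804),Int.negSucc (nat_lit 490039341),Int.ofNat (nat_lit 265951761),Int.negSucc (nat_lit 4568752038),Int.negSucc (nat_lit 1261774821),Int.negSucc (nat_lit 581060813),Int.negSucc (nat_lit 1837698598),Int.negSucc (nat_lit 28087240),Int.ofNat (nat_lit 345063162),Int.negSucc (nat_lit 50959511),Int.ofNat (nat_lit 130153710),Int.ofNat (nat_lit 192702084),Int.ofNat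 (nat_lit 133615739),Int.ofNat (nat_lit 237792323),Int.negSucc (nat_lit 461402507),Int.ofNat (nat_lit 214493221),Int.negSucc (nat_lit 489653236),Int.negSucc (nat_lit 132543409),Int.negSucc (nat_lit 26001865),Int.ofNat (nat_lit 57452765),Int.negSucc (nat_lit 781936031),Int.negSucc (nat_lit 354306412),Int.negSucc (nat_lit 134970554),Int.ofNat (nat_lit 53241636),Int.ofNat (nat_lit 3136545),Int.ofNat (nat_lit 37891261),Int.negSucc (nat_lit 266434163),Int.negSucc (nat_lit 150889582),Int.ofNat (nat_lit 135734036),Int.negSucc (nat_lit 193491608),Int.negSucc (nat_lit 302778402),Int.negSucc (nat_lit 74778048),Int.ofNat (nat_lit 60428272),Int.ofNat (nat_lit 36662240),Int.ofNat (nat_lit 525184),Int.ofNat (nat_lit 46626058),Int.ofNat (nat_lit 169230128),Int.ofNat (nat_lit 18702286),Int.ofNat (nat_lit 61221209),Int.ofNat (nat_lit 33077241),Int.ofNat (nat_lit 7792197),Int.negSucc (nat_lit 294013183),Int.negSucc (nat_lit 320057418),Int.negSucc (nat_lit 338820455),Int.ofNat (nat_lit 295200436),Int.ofNat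 (nat_lit 184680040),Int.negSucc (nat_lit 555401778),Int.negSucc (nat_lit 599914005),Int.ofNat (nat_lit 585394354),Int.ofNat (nat_lit 1135763768),Int.negSucc (nat_lit 257295722),Int.ofNat (nat_lit 360629546),Int.ofNat (nat_lit 700191885),Int.ofNat (nat_lit 1018182079)])

/-- A row. -/
noncomputable def sr3_c2_7 : List ℕ × List ℤ :=
  ([(nat_lit 1),(nat_lit 1),(nat_lit 0),(nat_lit 0),(nat_lit 0),(nat_lit 0),(nat_lit 0),(nat_lit 0),(nat_lit 0),(nat_lit 0),(nat_lit 0),(nat_lit 0)], [Int.ofNat (nat_lit 15920287631),Int.ofNat (nat_lit 2372212197),Int.ofNat (nat_lit 4283806098),Int.negSucc (nat_lit 12355081756),Int.negSucc (nat_lit 17271178477),Int.ofNat (nat_lit 8248534516),Int.negSucc (nat_lit 4449086070),Int.ofNat (nat_lit 4713772568),Int.negSucc (nat_lit 8077867936),Int.ofNat (nat_lit 3787316207),Int.ofNat (nat_lit 2815799443),Int.ofNat (nat_lit 3870123906),Int.ofNat (nat_lit 5192689064),Int.negSucc (nat_lit 2590307662),Int.negSucc (nat_lit 4110066957),Int.negSucc (nat_lit 2359971045),Int.ofNat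 (nat_lit 1254369837),Int.ofNat (nat_lit 3471423240),Int.ofNat (nat_lit 1558118803),Int.ofNat (nat_lit 1877050584),Int.negSucc (nat_lit 23786746682),Int.ofNat (nat_lit 2749992369),Int.negSucc (nat_lit 3408003796),Int.negSucc (nat_lit 954418902),Int.negSucc (nat_lit 1160868156),Int.negSucc (nat_lit 3692431935),Int.negSucc (nat_lit 6065179405),Int.negSucc (nat_lit 2118816904),Int.ofNat (nat_lit 772851362),Int.negSucc (nat_lit 1863224926),Int.ofNat (nat_lit 2245034890),Int.ofNat (nat_lit 527611077),Int.negSucc (nat_lit 1387399572),Int.ofNat (nat_lit 150637472),Int.ofNat (nat_lit 678603909),Int.negSucc (nat_lit 666483509),Int.ofNat (nat_lit 1339460486),Int.ofNat (nat_lit 563101740),Int.ofNat (nat_lit 199372594),Int.ofNat (nat_lit 1911644488),Int.ofNat (nat_lit 1419588693),Int.negSucc (nat_lit 2178290536),Int.negSucc (nat_lit 1294780776),Int.negSucc (nat_lit 3691482826),Int.ofNat (nat_lit 368082970),Int.negSucc (nat_lit 472202275),Int.ofNat (nat_lit 1738748027),Int.negSucc (nat_lit 1034879776),Int.ofNat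 (nat_lit 650534373),Int.ofNat (nat_lit 31065338),Int.negSucc (nat_lit 76465895),Int.ofNat (nat_lit 1938520808),Int.ofNat (nat_lit 372945893),Int.negSucc (nat_lit 160027887),Int.ofNat (nat_lit 3136435086),Int.ofNat (nat_lit 434925663),Int.negSucc (nat_lit 632976018),Int.ofNat (nat_lit 2948283150),Int.ofNat (nat_lit 1529157630),Int.negSucc (nat_lit 3496179120),Int.ofNat (nat_lit 895016864),Int.negSucc (nat_lit 669111471),Int.ofNat (nat_lit 825696332),Int.ofNat (nat_lit 274285056),Int.ofNat (nat_lit 661798883),Int.negSucc (nat_lit 371718028),Int.ofNat (nat_lit 590966902),Int.ofNat (nat_lit 10454520918)])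

/-- A row. -/
noncomputable def sr3_c2_8 : List ℕ × List ℤ :=
  ([(nat_lit 1),(nat_lit 1),(nat_lit 0),(nat_lit 0),(nat_lit 0),(nat_lit 0),(nat_lit 0),(nat_lit 0),(nat_lit 1),(nat_lit 0),(nat_lit 0),(nat_lit 0)], [Int.ofNat (nat_lit 176081896),Int.negSucc (nat_lit 370677032),Int.negSucc (nat_lit 2146175278),Int.negSucc (nat_lit 317391301),Int.negSucc (nat_lit 336969334),Int.ofNat (nat_lit 21865697),Int.ofNat (nat_lit 181808740),Int.negSucc (nat_lit 540935525),Int.negSucc (nat_lit 355013396),Int.negSucc (nat_lit 470136250),Int.negSucc (nat_lit 571308688),Int.negSucc (nat_lit 540835131),Int.negSucc (nat_lit 321173823),Int.ofNat (nat_lit 590581894),Int.ofNat (nat_lit 86747432),Int.negSucc (nat_lit 501406795),Int.negSucc (nat_lit 113220377),Int.negSucc (nat_lit 173743511),Int.negSucc (nat_lit 765272283),Int.negSucc (nat_lit 6380911),Int.ofNat (nat_lit 277773300),Int.ofNat (nat_lit 198811642),Int.negSucc (nat_lit 2288204418),Int.negSucc (nat_lit 480897652),Int.ofNat (nat_lit 375602290),Int.ofNat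 (nat_lit 88185779),Int.negSucc (nat_lit 692503859),Int.negSucc (nat_lit 156154876),Int.negSucc (nat_lit 88952012),Int.ofNat (nat_lit 44717962),Int.negSucc (nat_lit 68659732),Int.ofNat (nat_lit 52656284),Int.negSucc (nat_lit 40475178),Int.negSucc (nat_lit 27341781),Int.negSucc (nat_lit 118599403),Int.negSucc (nat_lit 58400116),Int.negSucc (nat_lit 144926444),Int.negSucc (nat_lit 78395108),Int.ofNat (nat_lit 257424744),Int.ofNat (nat_lit 26264354),Int.ofNat (nat_lit 421639567),Int.ofNat (nat_lit 103100103),Int.negSucc (nat_lit 145884043),Int.negSucc (nat_lit 18680563),Int.ofNat (nat_lit 30692195),Int.negSucc (nat_lit 35595913),Int.negSucc (nat_lit 126986363),Int.negSucc (nat_lit 94526999),Int.ofNat (nat_lit 37891165),Int.negSucc (nat_lit 33615964),Int.ofNat (nat_lit 9817855),Int.ofNat (nat_lit 32255974),Int.negSucc (nat_lit 10145755),Int.negSucc (nat_lit 7643917),Int.ofNat (nat_lit 98742685),Int.ofNat (nat_lit 262399580),Int.negSucc (nat_lit 17771825),Int.ofNat (nat_lit 131227033),Int.ofNat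 (nat_lit 96665530),Int.negSucc (nat_lit 229774678),Int.negSucc (nat_lit 41184044),Int.ofNat (nat_lit 80667177),Int.ofNat (nat_lit 12942661),Int.ofNat (nat_lit 107998614),Int.negSucc (nat_lit 53583193),Int.ofNat (nat_lit 26880920),Int.negSucc (nat_lit 153381047),Int.ofNat (nat_lit 179263657),Int.ofNat (nat_lit 870490043)])

/-- A row. -/
noncomputable def sr3_c2_9 : List ℕ × List ℤ :=
  ([(nat_lit 1),(nat_lit 1),(nat_lit 0),(nat_lit 0),(nat_lit 0),(nat_lit 0),(nat_lit 1),(nat_lit 0),(nat_lit 0),(nat_lit 0),(nat_lit 0),(nat_lit 0)], [Int.negSucc (nat_lit 222471974),Int.negSucc (nat_lit 2121984237),Int.negSucc (nat_lit 4147193317),Int.negSucc (nat_lit 1770475022),Int.negSucc (nat_lit 2823696334),Int.ofNat (nat_lit 3031674689),Int.ofNat (nat_lit 1533151950),Int.ofNat (nat_lit 354246684),Int.negSucc (nat_lit 149551304),Int.negSucc (nat_lit 41210772),Int.ofNat (nat_lit 153683114),Int.negSucc (nat_lit 729462946),Int.ofNat (nat_lit 342266577),Int.negSucc (nat_lit 487592085),Int.negSucc (nat_lit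 435216596),Int.negSucc (nat_lit 1421216194),Int.negSucc (nat_lit 453818217),Int.ofNat (nat_lit 426331494),Int.negSucc (nat_lit 1432737450),Int.ofNat (nat_lit 808212130),Int.negSucc (nat_lit 3337609248),Int.negSucc (nat_lit 569781100),Int.negSucc (nat_lit 1255990568),Int.negSucc (nat_lit 7830040777),Int.negSucc (nat_lit 2146233074),Int.ofNat (nat_lit 371968504),Int.negSucc (nat_lit 1624576634),Int.ofNat (nat_lit 1184966033),Int.ofNat (nat_lit 2493110368),Int.ofNat (nat_lit 409603768),Int.ofNat (nat_lit 836500430),Int.ofNat (nat_lit 2144918521),Int.negSucc (nat_lit 208761705),Int.ofNat (nat_lit 734143235),Int.ofNat (nat_lit 646615465),Int.ofNat (nat_lit 187804927),Int.ofNat (nat_lit 1312684373),Int.ofNat (nat_lit 165043722),Int.negSucc (nat_lit 430015068),Int.ofNat (nat_lit 122433711),Int.negSucc (nat_lit 515599215),Int.negSucc (nat_lit 51842928),Int.ofNat (nat_lit 369627315),Int.negSucc (nat_lit 218310381),Int.negSucc (nat_lit 1861628854),Int.ofNat (nat_lit 319199587),Int.ofNat (nat_lit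 929613823),Int.ofNat (nat_lit 514293485),Int.ofNat (nat_lit 714968458),Int.ofNat (nat_lit 239616407),Int.ofNat (nat_lit 238902879),Int.negSucc (nat_lit 199830213),Int.negSucc (nat_lit 148823669),Int.ofNat (nat_lit 160082889),Int.ofNat (nat_lit 69022418),Int.negSucc (nat_lit 33949326),Int.negSucc (nat_lit 83550273),Int.negSucc (nat_lit 33796639),Int.negSucc (nat_lit 1010958207),Int.ofNat (nat_lit 637293578),Int.negSucc (nat_lit 389841650),Int.negSucc (nat_lit 491526727),Int.negSucc (nat_lit 779121723),Int.negSucc (nat_lit 546701551),Int.ofNat (nat_lit 851488147),Int.ofNat (nat_lit 376761197),Int.ofNat (nat_lit 358037718),Int.ofNat (nat_lit 1457367508),Int.negSucc (nat_lit 957004189),Int.ofNat (nat_lit 4129203047)])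

/-- A row. -/
noncomputable def sr3_c2_10 : List ℕ × List ℤ :=
  ([(nat_lit 1),(nat_lit 1),(nat_lit 0),(nat_lit 0),(nat_lit 1),(nat_lit 0),(nat_lit 0),(nat_lit 0),(nat_lit 0),(nat_lit 0),(nat_lit 0),(nat_lit 0)], [Int.ofNat (nat_lit 2906432728),Int.negSucc (nat_lit 4152599178),Int.ofNat (nat_lit 5192487104),Int.ofNat (nat_lit 3244013674),Int.negSucc (nat_lit 1196264540),Int.ofNat (nat_lit 1217003598),Int.ofNat (nat_lit 922023240),Int.negSucc (nat_lit 3314612554),Int.negSucc (nat_lit 911240736),Int.ofNat (nat_lit 10379921740),Int.ofNat (nat_lit 1319769363),Int.negSucc (nat_lit 3504417316),Int.negSucc (nat_lit 275127844),Int.ofNat (nat_lit 1711048821),Int.negSucc (nat_lit 175590330),Int.ofNat (nat_lit 2403574731),Int.ofNat (nat_lit 1579564876),Int.negSucc (nat_lit 4929964304),Int.ofNat (nat_lit 2531202555),Int.ofNat (nat_lit 1131551262),Int.ofNat (nat_lit 19124769210),Int.negSucc (nat_lit 319816589),Int.ofNat (nat_lit 2542430447),Int.ofNat (nat_lit 43372811),Int.ofNat (nat_lit 4989822776),Int.negSucc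 (nat_lit 14522518545),Int.negSucc (nat_lit 351860626),Int.ofNat (nat_lit 765116010),Int.negSucc (nat_lit 1410008411),Int.negSucc (nat_lit 87730199),Int.negSucc (nat_lit 2434582434),Int.ofNat (nat_lit 112005708),Int.ofNat (nat_lit 1563392475),Int.negSucc (nat_lit 105898085),Int.ofNat (nat_lit 391626048),Int.ofNat (nat_lit 1350565997),Int.negSucc (nat_lit 611316416),Int.negSucc (nat_lit 192823915),Int.negSucc (nat_lit 571079505),Int.negSucc (nat_lit 1614303306),Int.negSucc (nat_lit 492600033),Int.ofNat (nat_lit 1374509678),Int.ofNat (nat_lit 1129933675),Int.ofNat (nat_lit 802888923),Int.ofNat (nat_lit 57217133),Int.ofNat (nat_lit 98258644),Int.negSucc (nat_lit 2371647348),Int.negSucc (nat_lit 304290755),Int.negSucc (nat_lit 1316721863),Int.negSucc (nat_lit 155962150),Int.negSucc (nat_lit 178848944),Int.negSucc (nat_lit 1168317163),Int.ofNat (nat_lit 885630683),Int.negSucc (nat_lit 325267981),Int.negSucc (nat_lit 2858128358),Int.negSucc (nat_lit 1217134620),Int.ofNat (nat_lit 725189760),Int.ofNat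 (nat_lit 1444397951),Int.negSucc (nat_lit 259802733),Int.negSucc (nat_lit 338164042),Int.negSucc (nat_lit 266220618),Int.negSucc (nat_lit 2496562840),Int.negSucc (nat_lit 1171567061),Int.ofNat (nat_lit 315126915),Int.negSucc (nat_lit 1018035744),Int.ofNat (nat_lit 637560088),Int.negSucc (nat_lit 596239630),Int.negSucc (nat_lit 4814288253),Int.ofNat (nat_lit 422105965),Int.negSucc (nat_lit 457963606),Int.ofNat (nat_lit 6231452072)])

/-- A row. -/
noncomputable def sr3_c2_11 : List ℕ × List ℤ :=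
  ([(nat_lit 1),(nat_lit 1),(nat_lit 0),(nat_lit 1),(nat_lit 0),(nat_lit 1),(nat_lit 0),(nat_lit 0),(nat_lit 0),(nat_lit 0),(nat_lit 0),(nat_lit 0)], [Int.ofNat (nat_lit 386920906),Int.negSucc (nat_lit 4060125612),Int.ofNat (nat_lit 997233714),Int.ofNat (nat_lit 4255215350),Int.ofNat (nat_lit 2743201117),Int.ofNat (nat_lit 2022315606),Int.ofNat (nat_lit 3082166289),Int.negSucc (nat_lit 3341053425),Int.ofNat (nat_lit 1683142279),Int.ofNat (nat_lit 841284692),Int.ofNat (nat_lit 1243232203),Int.ofNat (nat_lit 1036203974),Int.ofNat (nat_lit 5447811299),Int.ofNat (nat_lit 1562516033),Int.negSucc (nat_lit 3202913235),Int.ofNat (nat_lit 3657342587),Int.ofNat (nat_lit 1613100310),Int.ofNat (nat_lit 2327702905),Int.ofNat (nat_lit 4077091659),Int.ofNat (nat_lit 1346824122),Int.ofNat (nat_lit 3098051589),Int.ofNat (nat_lit 768980350),Int.ofNat (nat_lit 1956550310),Int.ofNat (nat_lit 845108794),Int.ofNat (nat_lit 2094940076),Int.negSucc (nat_lit 3333833973),Int.ofNat (nat_lit 5263440724),Int.ofNat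 (nat_lit 1833351018),Int.negSucc (nat_lit 11174062303),Int.ofNat (nat_lit 673996214),Int.ofNat (nat_lit 478074876),Int.ofNat (nat_lit 716515593),Int.ofNat (nat_lit 452058075),Int.ofNat (nat_lit 1078382657),Int.ofNat (nat_lit 915778463),Int.ofNat (nat_lit 93956074),Int.ofNat (nat_lit 429480739),Int.ofNat (nat_lit 743311842),Int.negSucc (nat_lit 1812650814),Int.ofNat (nat_lit 271858809),Int.negSucc (nat_lit 1286803142),Int.negSucc (nat_lit 560077562),Int.ofNat (nat_lit 446168471),Int.ofNat (nat_lit 278046126),Int.negSucc (nat_lit 390557673),Int.ofNat (nat_lit 40441358),Int.ofNat (nat_lit 397950564),Int.ofNat (nat_lit 220358211),Int.negSucc (nat_lit 109019751),Int.ofNat (nat_lit 923260893),Int.ofNat (nat_lit 83379130),Int.negSucc (nat_lit 5451261),Int.negSucc (nat_lit 29507687),Int.ofNat (nat_lit 27790437),Int.ofNat (nat_lit 786362233),Int.negSucc (nat_lit 884306115),Int.ofNat (nat_lit 1703155573),Int.negSucc (nat_lit 1474346442),Int.negSucc (nat_lit 107635463),Int.ofNat (nat_lit 1447009539),Int.ofNat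 (nat_lit 665284023),Int.negSucc (nat_lit 1092852514),Int.negSucc (nat_lit 1483023270),Int.ofNat (nat_lit 901840617),Int.negSucc (nat_lit 187024709),Int.negSucc (nat_lit 3053396),Int.negSucc (nat_lit 478846813),Int.negSucc (nat_lit 571032439),Int.negSucc (nat_lit 827793455),Int.ofNat (nat_lit 471153025),Int.negSucc (nat_lit 95320253),Int.ofNat (nat_lit 2980341614)])

/-- A row. -/
noncomputable def sr3_c2_12 : List ℕ × List ℤ :=
  ([(nat_lit 1),(nat_lit 1),(nat_lit 0),(nat_lit 2),(nat_lit 0),(nat_lit 0),(nat_lit 0),(nat_lit 0),(nat_lit 0),(nat_lit 0),(nat_lit 0),(nat_lit 0)], [Int.ofNat (nat_lit 2011126111),Int.negSucc (nat_lit 5052636043),Int.negSucc (nat_lit 1005488549),Int.negSucc (nat_lit 1354413012),Int.ofNat (nat_lit 2094988101),Int.ofNat (nat_lit 547871457),Int.ofNat (nat_lit 4688699294),Int.ofNat (nat_lit 837715940),Int.ofNat (nat_lit 7489270248),Int.negSucc (nat_lit 314109940),Int.negSucc (nat_lit 620913511),Int.negSucc (nat_lit 710709277),Int.negSucc (nat_lit 545245882),Int.negSucc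 (nat_lit 412989750),Int.negSucc (nat_lit 1371129753),Int.ofNat (nat_lit 3252484227),Int.negSucc (nat_lit 767445373),Int.negSucc (nat_lit 541538582),Int.negSucc (nat_lit 1740603254),Int.ofNat (nat_lit 524445266),Int.ofNat (nat_lit 4345305176),Int.ofNat (nat_lit 212773265),Int.negSucc (nat_lit 1737951193),Int.ofNat (nat_lit 4442950048),Int.ofNat (nat_lit 1468752217),Int.negSucc (nat_lit 1076365823),Int.ofNat (nat_lit 2427431736),Int.ofNat (nat_lit 4039660616),Int.ofNat (nat_lit 364236371),Int.negSucc (nat_lit 15669424891),Int.negSucc (nat_lit 845233345),Int.ofNat (nat_lit 1207674096),Int.negSucc (nat_lit 85161974),Int.ofNat (nat_lit 4715891731),Int.negSucc (nat_lit 1281705115),Int.ofNat (nat_lit 905923709),Int.ofNat (nat_lit 300195527),Int.negSucc (nat_lit 1066241195),Int.negSucc (nat_lit 1169777627),Int.negSucc (nat_lit 1165346215),Int.negSucc (nat_lit 1753846442),Int.ofNat (nat_lit 450963395),Int.ofNat (nat_lit 1447881149),Int.ofNat (nat_lit 2157558987),Int.ofNat (nat_lit 246086010),Int.negSucc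 (nat_lit 813966904),Int.negSucc (nat_lit 3510365917),Int.negSucc (nat_lit 502934399),Int.negSucc (nat_lit 802666504),Int.negSucc (nat_lit 992338980),Int.negSucc (nat_lit 228386770),Int.negSucc (nat_lit 1805593399),Int.ofNat (nat_lit 840622146),Int.negSucc (nat_lit 146542931),Int.negSucc (nat_lit 1286715187),Int.negSucc (nat_lit 1398138832),Int.negSucc (nat_lit 1349006879),Int.ofNat (nat_lit 2342419090),Int.negSucc (nat_lit 729362083),Int.ofNat (nat_lit 226843604),Int.negSucc (nat_lit 437804144),Int.negSucc (nat_lit 1547874583),Int.negSucc (nat_lit 5002816442),Int.negSucc (nat_lit 497378504),Int.ofNat (nat_lit 564202386),Int.negSucc (nat_lit 398009493),Int.negSucc (nat_lit 13035897),Int.negSucc (nat_lit 3434789629),Int.negSucc (nat_lit 500404433),Int.negSucc (nat_lit 1167094446),Int.ofNat (nat_lit 1067771329),Int.negSucc (nat_lit 2483527218),Int.ofNat (nat_lit 7620959050)])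

/-- A row. -/
noncomputable def sr3_c2_13 : List ℕ × List ℤ :=
  ([(nat_lit 1),(nat_lit 1),(nat_lit 1),(nat_lit 0),(nat_lit 0),(nat_lit 0),(nat_lit 0),(nat_lit 0),(nat_lit 0),(nat_lit 0),(nat_lit 0),(nat_lit 0)], [Int.ofNat (nat_lit 2702482006),Int.ofNat (nat_lit 7556655044),Int.negSucc (nat_lit 3649574458),Int.negSucc (nat_lit 10923464959),Int.negSucc (nat_lit 23261409784),Int.ofNat (nat_lit 11945705985),Int.ofNat (nat_lit 3962571604),Int.negSucc (nat_lit 4345165002),Int.negSucc (nat_lit 7349242400),Int.ofNat (nat_lit 10469566709),Int.ofNat (nat_lit 3799035877),Int.ofNat (nat_lit 482185658),Int.ofNat (nat_lit 8376721625),Int.negSucc (nat_lit 1379537294),Int.negSucc (nat_lit 6098236595),Int.negSucc (nat_lit 2470214666),Int.ofNat (nat_lit 3952068613),Int.ofNat (nat_lit 2587253962),Int.ofNat (nat_lit 3681164159),Int.negSucc (nat_lit 2004158953),Int.negSucc (nat_lit 24411144094),Int.ofNat (nat_lit 7308638503),Int.negSucc (nat_lit 6747922164),Int.ofNat (nat_lit 4131702843),Int.ofNat (nat_lit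 5720498238),Int.negSucc (nat_lit 11478036249),Int.negSucc (nat_lit 7523343060),Int.negSucc (nat_lit 648735945),Int.negSucc (nat_lit 2995044765),Int.negSucc (nat_lit 4809233085),Int.negSucc (nat_lit 12092615438),Int.ofNat (nat_lit 4456305862),Int.negSucc (nat_lit 1765442556),Int.negSucc (nat_lit 899648919),Int.ofNat (nat_lit 1657044183),Int.negSucc (nat_lit 1088716192),Int.ofNat (nat_lit 663721342),Int.ofNat (nat_lit 29964505),Int.ofNat (nat_lit 111458858),Int.ofNat (nat_lit 1796610530),Int.ofNat (nat_lit 575860309),Int.negSucc (nat_lit 3226168930),Int.negSucc (nat_lit 74179212),Int.negSucc (nat_lit 2678495717),Int.ofNat (nat_lit 857187435),Int.negSucc (nat_lit 720594435),Int.ofNat (nat_lit 1150599420),Int.negSucc (nat_lit 3751933342),Int.negSucc (nat_lit 1158680547),Int.negSucc (nat_lit 934485030),Int.negSucc (nat_lit 1166897336),Int.ofNat (nat_lit 339959258),Int.ofNat (nat_lit 2051302084),Int.negSucc (nat_lit 193910243),Int.ofNat (nat_lit 6262036532),Int.negSucc (nat_lit 57121800),Int.negSucc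 (nat_lit 425104449),Int.ofNat (nat_lit 1726871961),Int.ofNat (nat_lit 3090982629),Int.negSucc (nat_lit 2379954499),Int.ofNat (nat_lit 2226580088),Int.ofNat (nat_lit 257682672),Int.ofNat (nat_lit 418273331),Int.ofNat (nat_lit 869557940),Int.ofNat (nat_lit 643671806),Int.negSucc (nat_lit 3374654095),Int.ofNat (nat_lit 767552054),Int.ofNat (nat_lit 10715501750),Int.ofNat (nat_lit 2088754702),Int.negSucc (nat_lit 344329365),Int.ofNat (nat_lit 2182635616),Int.negSucc (nat_lit 1342208087),Int.ofNat (nat_lit 1283052121),Int.ofNat (nat_lit 9401683260)])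

/-- A row. -/
noncomputable def sr3_c2_14 : List ℕ × List ℤ :=
  ([(nat_lit 1),(nat_lit 1),(nat_lit 1),(nat_lit 0),(nat_lit 1),(nat_lit 0),(nat_lit 0),(nat_lit 0),(nat_lit 0),(nat_lit 0),(nat_lit 0),(nat_lit 0)], [Int.ofNat (nat_lit 1921067872),Int.ofNat (nat_lit 1592905358),Int.ofNat (nat_lit 3537557657),Int.ofNat (nat_lit 260435243),Int.ofNat (nat_lit 19980951),Int.negSucc (nat_lit 2402649687),Int.ofNat (nat_lit 6191734930),Int.ofNat (nat_lit 3382287807),Int.ofNat (nat_lit 4869258327),Int.ofNat (nat_lit 1002886307),Int.negSucc (nat_lit 2388350428),Int.ofNat (nat_lit 425295256),Int.ofNat (nat_lit 1614036273),Int.ofNat (nat_lit 375788702),Int.ofNat (nat_lit 1950292660),Int.ofNat (nat_lit 5582653),Int.ofNat (nat_lit 3571375984),Int.negSucc (nat_lit 2506867147),Int.ofNat (nat_lit 3266566203),Int.ofNat (nat_lit 2799573870),Int.ofNat (nat_lit 9508229425),Int.ofNat (nat_lit 1079906399),Int.negSucc (nat_lit 1072036200),Int.negSucc (nat_lit 1061422476),Int.negSucc (nat_lit 2451456527),Int.negSucc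 (nat_lit 7462342473),Int.negSucc (nat_lit 3748466564),Int.ofNat (nat_lit 860818891),Int.ofNat (nat_lit 2427667221),Int.ofNat (nat_lit 1144789505),Int.ofNat (nat_lit 4489154928),Int.negSucc (nat_lit 823938906),Int.negSucc (nat_lit 7363951620),Int.ofNat (nat_lit 955087243),Int.ofNat (nat_lit 1198278991),Int.ofNat (nat_lit 647924176),Int.ofNat (nat_lit 31220488),Int.ofNat (nat_lit 204404080),Int.negSucc (nat_lit 327219141),Int.negSucc (nat_lit 89536385),Int.negSucc (nat_lit 216327518),Int.ofNat (nat_lit 131963235),Int.negSucc (nat_lit 177591367),Int.negSucc (nat_lit 78972946),Int.negSucc (nat_lit 536933800),Int.negSucc (nat_lit 19402588),Int.negSucc (nat_lit 170169848),Int.ofNat (nat_lit 117169046),Int.ofNat (nat_lit 522552869),Int.ofNat (nat_lit 395018495),Int.ofNat (nat_lit 252062957),Int.ofNat (nat_lit 95837068),Int.ofNat (nat_lit 65673482),Int.ofNat (nat_lit 32897954),Int.negSucc (nat_lit 834078748),Int.negSucc (nat_lit 331577243),Int.ofNat (nat_lit 723416472),Int.negSucc (nat_lit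 81782608),Int.negSucc (nat_lit 1256931687),Int.negSucc (nat_lit 258739050),Int.negSucc (nat_lit 905291993),Int.negSucc (nat_lit 923807786),Int.negSucc (nat_lit 591883234),Int.ofNat (nat_lit 384021481),Int.ofNat (nat_lit 101963879),Int.negSucc (nat_lit 104144839),Int.ofNat (nat_lit 74975636),Int.negSucc (nat_lit 413590545),Int.negSucc (nat_lit 366124669),Int.ofNat (nat_lit 1033626941),Int.ofNat (nat_lit 321405328),Int.ofNat (nat_lit 754664438),Int.negSucc (nat_lit 242911695),Int.negSucc (nat_lit 827074224),Int.ofNat (nat_lit 2091526282)])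

/-- A row. -/
noncomputable def sr3_c2_15 : List ℕ × List ℤ :=
  ([(nat_lit 1),(nat_lit 1),(nat_lit 2),(nat_lit 0),(nat_lit 0),(nat_lit 0),(nat_lit 0),(nat_lit 0),(nat_lit 0),(nat_lit 0),(nat_lit 0),(nat_lit 0)], [Int.ofNat (nat_lit 1560828130),Int.ofNat (nat_lit 177836040),Int.ofNat (nat_lit 2124309399),Int.negSucc (nat_lit 6029793262),Int.negSucc (nat_lit 5063640923),Int.ofNat (nat_lit 4482094200),Int.ofNat (nat_lit 7372923713),Int.negSucc (nat_lit 1747477686),Int.ofNat (nat_lit 830225416),Int.ofNat (nat_lit 6657559611),Int.negSucc (nat_lit 970494700),Int.negSucc (nat_lit 6897580977),Int.ofNat (nat_lit 261896202),Int.ofNat (nat_lit 1227937984),Int.negSucc (nat_lit 663187184),Int.ofNat (nat_lit 1061728029),Int.negSucc (nat_lit 1613396840),Int.ofNat (nat_lit 4757422),Int.negSucc (nat_lit 1503556351),Int.ofNat (nat_lit 1451108994),Int.negSucc (nat_lit 1613355429),Int.ofNat (nat_lit 3069633354),Int.ofNat (nat_lit 1213351717),Int.ofNat (nat_lit 5036496419),Int.ofNat (nat_lit 4319334307),Int.negSucc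 (nat_lit 6871653256),Int.negSucc (nat_lit 196565862),Int.ofNat (nat_lit 2718179509),Int.negSucc (nat_lit 662047067),Int.negSucc (nat_lit 3035523705),Int.negSucc (nat_lit 7328808904),Int.ofNat (nat_lit 6186279586),Int.negSucc (nat_lit 5650070296),Int.negSucc (nat_lit 807808861),Int.negSucc (nat_lit 3359608861),Int.ofNat (nat_lit 3968065989),Int.ofNat (nat_lit 5312539),Int.negSucc (nat_lit 443842569),Int.negSucc (nat_lit 352360391),Int.ofNat (nat_lit 157564817),Int.negSucc (nat_lit 367863057),Int.negSucc (nat_lit 971832055),Int.ofNat (nat_lit 2104281006),Int.ofNat (nat_lit 1513489747),Int.negSucc (nat_lit 95642272),Int.negSucc (nat_lit 97210747),Int.negSucc (nat_lit 639872770),Int.negSucc (nat_lit 1854715742),Int.negSucc (nat_lit 3625227769),Int.negSucc (nat_lit 957565980),Int.negSucc (nat_lit 796733097),Int.negSucc (nat_lit 1658272900),Int.ofNat (nat_lit 1726748500),Int.negSucc (nat_lit 110987607),Int.ofNat (nat_lit 2454113442),Int.negSucc (nat_lit 1389794268),Int.ofNat (nat_lit 1529147939),Int.negSucc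 (nat_lit 497326641),Int.ofNat (nat_lit 1819176463),Int.ofNat (nat_lit 1287614992),Int.ofNat (nat_lit 1317775615),Int.negSucc (nat_lit 562683175),Int.negSucc (nat_lit 613411286),Int.ofNat (nat_lit 148256862),Int.negSucc (nat_lit 401260424),Int.ofNat (nat_lit 269989023),Int.negSucc (nat_lit 1197125312),Int.ofNat (nat_lit 621520656),Int.ofNat (nat_lit 1865337671),Int.negSucc (nat_lit 273990463),Int.ofNat (nat_lit 3039203742),Int.negSucc (nat_lit 1346355666),Int.ofNat (nat_lit 1608829471),Int.ofNat (nat_lit 7532883872),Int.negSucc (nat_lit 608092062),Int.ofNat (nat_lit 4256052924)])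

/-- A row. -/
noncomputable def sr3_c2_16 : List ℕ × List ℤ :=
  ([(nat_lit 1),(nat_lit 2),(nat_lit 0),(nat_lit 0),(nat_lit 0),(nat_lit 0),(nat_lit 0),(nat_lit 1),(nat_lit 0),(nat_lit 0),(nat_lit 0),(nat_lit 0)], [Int.negSucc (nat_lit 762200251),Int.ofNat (nat_lit 2121414025),Int.ofNat (nat_lit 5068491323),Int.ofNat (nat_lit 3727896643),Int.negSucc (nat_lit 2400757862),Int.negSucc (nat_lit 251054897),Int.negSucc (nat_lit 6151300029),Int.ofNat (nat_lit 237366778),Int.negSucc (nat_lit 113701823),Int.ofNat (nat_lit 2274298129),Int.negSucc (nat_lit 76526355),Int.negSucc (nat_lit 337153027),Int.ofNat (nat_lit 266582349),Int.negSucc (nat_lit 1341602723),Int.negSucc (nat_lit 3734358118),Int.negSucc (nat_lit 895865572),Int.negSucc (nat_lit 636789431),Int.ofNat (nat_lit 128050727),Int.negSucc (nat_lit 265270024),Int.negSucc (nat_lit 613150149),Int.negSucc (nat_lit 208753621),Int.negSucc (nat_lit 3289244254),Int.ofNat (nat_lit 1472735253),Int.ofNat (nat_lit 241982236),Int.ofNat (nat_lit 920067164),Int.ofNat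 (nat_lit 518860514),Int.ofNat (nat_lit 232968152),Int.negSucc (nat_lit 1877502668),Int.negSucc (nat_lit 486323849),Int.negSucc (nat_lit 475652604),Int.negSucc (nat_lit 552269127),Int.ofNat (nat_lit 131894721),Int.negSucc (nat_lit 326204348),Int.negSucc (nat_lit 727624664),Int.negSucc (nat_lit 920359427),Int.ofNat (nat_lit 743484520),Int.negSucc (nat_lit 901777683),Int.negSucc (nat_lit 7623715187),Int.negSucc (nat_lit 123373470),Int.ofNat (nat_lit 9909138),Int.negSucc (nat_lit 643562092),Int.ofNat (nat_lit 287155364),Int.ofNat (nat_lit 290789697),Int.negSucc (nat_lit 146164789),Int.negSucc (nat_lit 336529564),Int.ofNat (nat_lit 102741802),Int.negSucc (nat_lit 166065009),Int.ofNat (nat_lit 114165193),Int.ofNat (nat_lit 160106641),Int.negSucc (nat_lit 130310315),Int.negSucc (nat_lit 68731720),Int.negSucc (nat_lit 134477409),Int.ofNat (nat_lit 42770460),Int.negSucc (nat_lit 72336453),Int.ofNat (nat_lit 204910166),Int.negSucc (nat_lit 1038984065),Int.ofNat (nat_lit 116163653),Int.negSucc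 (nat_lit 399380300),Int.ofNat (nat_lit 339202575),Int.negSucc (nat_lit 150071763),Int.negSucc (nat_lit 389472110),Int.ofNat (nat_lit 149120298),Int.negSucc (nat_lit 121210795),Int.ofNat (nat_lit 782757723),Int.ofNat (nat_lit 100050519),Int.negSucc (nat_lit 330336059),Int.ofNat (nat_lit 577163806),Int.negSucc (nat_lit 735765681),Int.negSucc (nat_lit 248253684),Int.negSucc (nat_lit 427473072),Int.ofNat (nat_lit 188428478),Int.negSucc (nat_lit 162101120),Int.ofNat (nat_lit 168295586),Int.negSucc (nat_lit 59168999),Int.ofNat (nat_lit 15548198),Int.ofNat (nat_lit 319514412),Int.ofNat (nat_lit 3728865194)])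

/-- A row. -/
noncomputable def sr3_c2_17 : List ℕ × List ℤ :=
  ([(nat_lit 1),(nat_lit 2),(nat_lit 0),(nat_lit 0),(nat_lit 0),(nat_lit 1),(nat_lit 0),(nat_lit 0),(nat_lit 0),(nat_lit 0),(nat_lit 0),(nat_lit 0)], [Int.ofNat (nat_lit 1818300499),Int.ofNat (nat_lit 6948404895),Int.negSucc (nat_lit 5849392947),Int.ofNat (nat_lit 4560493764),Int.negSucc (nat_lit 6548569034),Int.ofNat (nat_lit 840096844),Int.ofNat (nat_lit 8650505939),Int.ofNat (nat_lit 567846035),Int.ofNat (nat_lit 1055101006),Int.negSucc (nat_lit 2700435743),Int.ofNat (nat_lit 341033587),Int.ofNat (nat_lit 3382964960),Int.negSucc (nat_lit 1703162088),Int.negSucc (nat_lit 515817754),Int.ofNat (nat_lit 1095020258),Int.negSucc (nat_lit 8326408738),Int.negSucc (nat_lit 1425380983),Int.ofNat (nat_lit 2895571855),Int.ofNat (nat_lit 3851476625),Int.negSucc (nat_lit 2811001575),Int.negSucc (nat_lit 988713861),Int.negSucc (nat_lit 449945541),Int.negSucc (nat_lit 6766302537),Int.negSucc (nat_lit 1988390297),Int.negSucc (nat_lit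 1358031603),Int.ofNat (nat_lit 4139078445),Int.negSucc (nat_lit 470671947),Int.ofNat (nat_lit 573083440),Int.ofNat (nat_lit 4859546155),Int.ofNat (nat_lit 2445466629),Int.ofNat (nat_lit 479752538),Int.negSucc (nat_lit 1664574059),Int.ofNat (nat_lit 2440898543),Int.negSucc (nat_lit 1518219976),Int.negSucc (nat_lit 1520677628),Int.negSucc (nat_lit 2571327267),Int.ofNat (nat_lit 191439377),Int.negSucc (nat_lit 878345853),Int.negSucc (nat_lit 12319654416),Int.ofNat (nat_lit 1318422670),Int.negSucc (nat_lit 398209139),Int.ofNat (nat_lit 7948161940),Int.ofNat (nat_lit 107965421),Int.ofNat (nat_lit 1039754567),Int.ofNat (nat_lit 719776587),Int.negSucc (nat_lit 1264663500),Int.ofNat (nat_lit 563480685),Int.ofNat (nat_lit 1884456409),Int.ofNat (nat_lit 543608869),Int.negSucc (nat_lit 4025090455),Int.negSucc (nat_lit 199505327),Int.ofNat (nat_lit 775363405),Int.negSucc (nat_lit 781555255),Int.negSucc (nat_lit 306209788),Int.negSucc (nat_lit 1746628996),Int.ofNat (nat_lit 3769866616),Int.negSucc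 (nat_lit 2719254502),Int.negSucc (nat_lit 3717754076),Int.negSucc (nat_lit 1383173351),Int.negSucc (nat_lit 314388423),Int.negSucc (nat_lit 2099678079),Int.negSucc (nat_lit 142473757),Int.ofNat (nat_lit 2175232264),Int.negSucc (nat_lit 2435468471),Int.ofNat (nat_lit 5521432369),Int.ofNat (nat_lit 472479185),Int.ofNat (nat_lit 265847150),Int.ofNat (nat_lit 2640511917),Int.ofNat (nat_lit 1136526699),Int.ofNat (nat_lit 1845011042),Int.negSucc (nat_lit 867387440),Int.negSucc (nat_lit 4061408427),Int.negSucc (nat_lit 3190898012),Int.negSucc (nat_lit 250410269),Int.ofNat (nat_lit 163590310),Int.negSucc (nat_lit 119729573),Int.negSucc (nat_lit 828766349),Int.ofNat (nat_lit 10610497449)])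

/-- A row. -/
noncomputable def sr3_c2_18 : List ℕ × List ℤ :=
  ([(nat_lit 1),(nat_lit 2),(nat_lit 0),(nat_lit 1),(nat_lit 0),(nat_lit 0),(nat_lit 0),(nat_lit 0),(nat_lit 0),(nat_lit 0),(nat_lit 0),(nat_lit 0)], [Int.negSucc (nat_lit 6780557577),Int.ofNat (nat_lit 8190803482),Int.ofNat (nat_lit 6488159249),Int.negSucc (nat_lit 8743271837),Int.negSucc (nat_lit 9092855301),Int.ofNat (nat_lit 4252127150),Int.ofNat (nat_lit 799806709),Int.ofNat (nat_lit 18898441870),Int.negSucc (nat_lit 17170775661),Int.ofNat (nat_lit 7401478666),Int.ofNat (nat_lit 12918327333),Int.negSucc (nat_lit 3366778219),Int.ofNat (nat_lit 14836738711),Int.ofNat (nat_lit 139277915),Int.ofNat (nat_lit 1451668035),Int.ofNat (nat_lit 2109881525),Int.negSucc (nat_lit 4650815660),Int.negSucc (nat_lit 4091030353),Int.ofNat (nat_lit 5961014879),Int.ofNat (nat_lit 7304774693),Int.negSucc (nat_lit 1059367552),Int.ofNat (nat_lit 11166048299),Int.ofNat (nat_lit 4867583039),Int.ofNat (nat_lit 183374943),Int.negSucc (nat_lit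 6795835080),Int.negSucc (nat_lit 1821876355),Int.ofNat (nat_lit 324634530),Int.negSucc (nat_lit 9765521171),Int.ofNat (nat_lit 348954863),Int.ofNat (nat_lit 14203510025),Int.ofNat (nat_lit 3035832449),Int.ofNat (nat_lit 1797731470),Int.negSucc (nat_lit 2969866391),Int.negSucc (nat_lit 9838795845),Int.ofNat (nat_lit 3828310406),Int.negSucc (nat_lit 526708782),Int.negSucc (nat_lit 5660353746),Int.ofNat (nat_lit 2265726518),Int.ofNat (nat_lit 2663234409),Int.negSucc (nat_lit 28599356756),Int.negSucc (nat_lit 1353538483),Int.negSucc (nat_lit 3674688565),Int.negSucc (nat_lit 1598253750),Int.negSucc (nat_lit 6605953021),Int.ofNat (nat_lit 650222920),Int.ofNat (nat_lit 685721902),Int.ofNat (nat_lit 1947708988),Int.negSucc (nat_lit 759618474),Int.negSucc (nat_lit 500532864),Int.ofNat (nat_lit 3117320327),Int.ofNat (nat_lit 4056792959),Int.ofNat (nat_lit 4617540453),Int.ofNat (nat_lit 136482892),Int.negSucc (nat_lit 397064831),Int.ofNat (nat_lit 1922707354),Int.negSucc (nat_lit 535320977),Int.ofNat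 (nat_lit 6679440400),Int.negSucc (nat_lit 2105573084),Int.ofNat (nat_lit 2947398825),Int.negSucc (nat_lit 6077273080),Int.ofNat (nat_lit 5323886829),Int.ofNat (nat_lit 25630366),Int.ofNat (nat_lit 9804417511),Int.ofNat (nat_lit 1105910905),Int.negSucc (nat_lit 2789149383),Int.ofNat (nat_lit 2529823056),Int.negSucc (nat_lit 46207507),Int.ofNat (nat_lit 2524731556),Int.ofNat (nat_lit 1387446860),Int.ofNat (nat_lit 1110562450),Int.negSucc (nat_lit 1107416638),Int.ofNat (nat_lit 6192401822),Int.negSucc (nat_lit 12316260861),Int.negSucc (nat_lit 412303567),Int.ofNat (nat_lit 2493555648),Int.ofNat (nat_lit 31466725),Int.ofNat (nat_lit 1051506441),Int.negSucc (nat_lit 4048611503),Int.ofNat (nat_lit 13130644106)])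

/-- A row. -/
noncomputable def sr3_c2_19 : List ℕ × List ℤ :=
  ([(nat_lit 1),(nat_lit 2),(nat_lit 1),(nat_lit 1),(nat_lit 0),(nat_lit 0),(nat_lit 0),(nat_lit 0),(nat_lit 0),(nat_lit 0),(nat_lit 0),(nat_lit 0)], [Int.ofNat (nat_lit 6106940467),Int.ofNat (nat_lit 3371742375),Int.negSucc (nat_lit 1520433242),Int.negSucc (nat_lit 2576439410),Int.negSucc (nat_lit 800265403),Int.negSucc (nat_lit 1072693870),Int.ofNat (nat_lit 421689296),Int.ofNat (nat_lit 8124573733),Int.negSucc (nat_lit 2870672653),Int.negSucc (nat_lit 2512759686),Int.ofNat (nat_lit 4897345111),Int.ofNat (nat_lit 1668141438),Int.ofNat (nat_lit 1750226065),Int.ofNat (nat_lit 4846231417),Int.negSucc (nat_lit 1230458978),Int.ofNat (nat_lit 201540388),Int.ofNat (nat_lit 6589502001),Int.negSucc (nat_lit 4713256430),Int.ofNat (nat_lit 3418533929),Int.negSucc (nat_lit 2160109599),Int.ofNat (nat_lit 2599253631),Int.ofNat (nat_lit 4372261202),Int.negSucc (nat_lit 648216210),Int.negSucc (nat_lit 952353418),Int.negSucc (nat_lit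 2330890092),Int.ofNat (nat_lit 128672802),Int.negSucc (nat_lit 1710152489),Int.ofNat (nat_lit 715837835),Int.negSucc (nat_lit 2629827989),Int.negSucc (nat_lit 2441656058),Int.ofNat (nat_lit 1601947615),Int.negSucc (nat_lit 455495316),Int.ofNat (nat_lit 1405775407),Int.negSucc (nat_lit 7208909333),Int.ofNat (nat_lit 2149287389),Int.ofNat (nat_lit 892944636),Int.negSucc (nat_lit 1793936645),Int.negSucc (nat_lit 1684431352),Int.negSucc (nat_lit 887081508),Int.negSucc (nat_lit 9275789949),Int.negSucc (nat_lit 3994375060),Int.negSucc (nat_lit 1075684049),Int.negSucc (nat_lit 15187183587),Int.negSucc (nat_lit 3096437833),Int.ofNat (nat_lit 658410701),Int.negSucc (nat_lit 1531266610),Int.negSucc (nat_lit 1175259524),Int.negSucc (nat_lit 1715194938),Int.ofNat (nat_lit 1008855731),Int.ofNat (nat_lit 246910238),Int.ofNat (nat_lit 230356597),Int.ofNat (nat_lit 988839189),Int.ofNat (nat_lit 1527868426),Int.negSucc (nat_lit 28824911),Int.negSucc (nat_lit 1289587588),Int.ofNat (nat_lit 69248933),Int.negSucc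 (nat_lit 543387381),Int.negSucc (nat_lit 707741467),Int.negSucc (nat_lit 467121330),Int.negSucc (nat_lit 756647527),Int.negSucc (nat_lit 460051895),Int.ofNat (nat_lit 641797543),Int.ofNat (nat_lit 498748928),Int.ofNat (nat_lit 1882110705),Int.ofNat (nat_lit 422483123),Int.negSucc (nat_lit 575822761),Int.ofNat (nat_lit 2201301384),Int.negSucc (nat_lit 1781241225),Int.negSucc (nat_lit 1076643599),Int.ofNat (nat_lit 446882214),Int.negSucc (nat_lit 124152652),Int.negSucc (nat_lit 143887087),Int.ofNat (nat_lit 574348911),Int.negSucc (nat_lit 2024131818),Int.ofNat (nat_lit 2328980618),Int.negSucc (nat_lit 617011589),Int.ofNat (nat_lit 329741878),Int.ofNat (nat_lit 858131755),Int.ofNat (nat_lit 2761674782),Int.ofNat (nat_lit 7738965214)])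

/-- A row. -/
noncomputable def sr3_c2_20 : List ℕ × List ℤ :=
  ([(nat_lit 1),(nat_lit 3),(nat_lit 0),(nat_lit 0),(nat_lit 0),(nat_lit 0),(nat_lit 0),(nat_lit 0),(nat_lit 0),(nat_lit 0),(nat_lit 0),(nat_lit 0)], [Int.negSucc (nat_lit 1989252750),Int.ofNat (nat_lit 9921264263),Int.negSucc (nat_lit 6181711743),Int.ofNat (nat_lit 31605150747),Int.ofNat (nat_lit 41629225139),Int.negSucc (nat_lit 13855543592),Int.negSucc (nat_lit 345040552),Int.negSucc (nat_lit 9176400730),Int.ofNat (nat_lit 9137390962),Int.negSucc (nat_lit 10416943461),Int.negSucc (nat_lit 6347359775),Int.negSucc (nat_lit 3868991537),Int.negSucc (nat_lit 7001006726),Int.ofNat (nat_lit 10612164588),Int.ofNat (nat_lit 792791880),Int.ofNat (nat_lit 2034900662),Int.ofNat (nat_lit 776279812),Int.negSucc (nat_lit 6718163344),Int.ofNat (nat_lit 4464868473),Int.negSucc (nat_lit 7490566268),Int.ofNat (nat_lit 29638133860),Int.negSucc (nat_lit 2031569949),Int.ofNat (nat_lit 5151579397),Int.negSucc (nat_lit 4957709780),Int.ofNat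 (nat_lit 4418612917),Int.ofNat (nat_lit 19477429603),Int.ofNat (nat_lit 12568450732),Int.ofNat (nat_lit 12790986138),Int.negSucc (nat_lit 11150872507),Int.ofNat (nat_lit 10189471662),Int.negSucc (nat_lit 16698665935),Int.negSucc (nat_lit 2230742082),Int.negSucc (nat_lit 291927880),Int.negSucc (nat_lit 3820076968),Int.ofNat (nat_lit 8720524603),Int.negSucc (nat_lit 11141209320),Int.negSucc (nat_lit 2159767174),Int.negSucc (nat_lit 3829005510),Int.negSucc (nat_lit 1632901427),Int.ofNat (nat_lit 5978987669),Int.negSucc (nat_lit 3619071806),Int.ofNat (nat_lit 7392144331),Int.ofNat (nat_lit 262671778),Int.negSucc (nat_lit 12597944355),Int.negSucc (nat_lit 389066777),Int.ofNat (nat_lit 4455562861),Int.negSucc (nat_lit 4699791513),Int.ofNat (nat_lit 11958329852),Int.ofNat (nat_lit 357505531),Int.negSucc (nat_lit 4716214678),Int.negSucc (nat_lit 3095626735),Int.negSucc (nat_lit 20947374138),Int.negSucc (nat_lit 2879442359),Int.ofNat (nat_lit 3306994523),Int.negSucc (nat_lit 2190636434),Int.ofNat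 (nat_lit 5104264739),Int.negSucc (nat_lit 8302636402),Int.negSucc (nat_lit 6779135877),Int.negSucc (nat_lit 6466478477),Int.ofNat (nat_lit 5106182768),Int.negSucc (nat_lit 3768513090),Int.ofNat (nat_lit 4560798783),Int.negSucc (nat_lit 7731872566),Int.negSucc (nat_lit 916483657),Int.ofNat (nat_lit 2020394103),Int.negSucc (nat_lit 2680754221),Int.ofNat (nat_lit 1666840995),Int.negSucc (nat_lit 19494548977),Int.negSucc (nat_lit 917070329),Int.ofNat (nat_lit 7272603576),Int.negSucc (nat_lit 7554931468),Int.negSucc (nat_lit 3834883703),Int.ofNat (nat_lit 3300995404),Int.ofNat (nat_lit 7679247150),Int.negSucc (nat_lit 2007549013),Int.negSucc (nat_lit 203130612),Int.negSucc (nat_lit 3867627014),Int.ofNat (nat_lit 8781786889),Int.negSucc (nat_lit 12175691583),Int.ofNat (nat_lit 4160853615),Int.ofNat (nat_lit 22571355197)])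

/-- A row. -/
noncomputable def sr3_c2_21 : List ℕ × List ℤ :=
  ([(nat_lit 1),(nat_lit 3),(nat_lit 0),(nat_lit 0),(nat_lit 1),(nat_lit 0),(nat_lit 0),(nat_lit 0),(nat_lit 0),(nat_lit 0),(nat_lit 0),(nat_lit 0)], [Int.ofNat (nat_lit 1080202354),Int.ofNat (nat_lit 2888349419),Int.negSucc (nat_lit 5479502630),Int.negSucc (nat_lit 8055564768),Int.ofNat (nat_lit 464889633),Int.ofNat (nat_lit 4296322816),Int.ofNat (nat_lit 7236265863),Int.ofNat (nat_lit 2929302038),Int.ofNat (nat_lit 722347050),Int.negSucc (nat_lit 5949785299),Int.ofNat (nat_lit 1365985021),Int.ofNat (nat_lit 5473916684),Int.ofNat (nat_lit 862865893),Int.negSucc (nat_lit 1705179093),Int.ofNat (nat_lit 390834909),Int.negSucc (nat_lit 262403011),Int.ofNat (nat_lit 1134496390),Int.ofNat (nat_lit 5143279073),Int.negSucc (nat_lit 158853660),Int.ofNat (nat_lit 406800891),Int.negSucc (nat_lit 11704992738),Int.negSucc (nat_lit 865204493),Int.negSucc (nat_lit 5238908576),Int.ofNat (nat_lit 3280049811),Int.negSucc (nat_lit 6054880244),Int.ofNat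 (nat_lit 9896710264),Int.ofNat (nat_lit 1011632138),Int.ofNat (nat_lit 167860313),Int.ofNat (nat_lit 2993351853),Int.negSucc (nat_lit 3537058418),Int.ofNat (nat_lit 4809397409),Int.negSucc (nat_lit 1479802002),Int.negSucc (nat_lit 9972849913),Int.ofNat (nat_lit 3411944894),Int.negSucc (nat_lit 2147560503),Int.negSucc (nat_lit 442255304),Int.negSucc (nat_lit 256566681),Int.ofNat (nat_lit 98049997),Int.negSucc (nat_lit 217964626),Int.ofNat (nat_lit 3061921560),Int.negSucc (nat_lit 6591921443),Int.negSucc (nat_lit 1733553729),Int.negSucc (nat_lit 922524568),Int.ofNat (nat_lit 3299421178),Int.negSucc (nat_lit 1972831030),Int.negSucc (nat_lit 12727243938),Int.ofNat (nat_lit 3197043690),Int.negSucc (nat_lit 758241045),Int.ofNat (nat_lit 1034247828),Int.negSucc (nat_lit 117040352),Int.negSucc (nat_lit 584766017),Int.ofNat (nat_lit 706298299),Int.ofNat (nat_lit 341454032),Int.ofNat (nat_lit 378287337),Int.ofNat (nat_lit 289960255),Int.ofNat (nat_lit 2341819778),Int.negSucc (nat_lit 194733105),Int.ofNat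 (nat_lit 425891781),Int.negSucc (nat_lit 145279624),Int.ofNat (nat_lit 380583893),Int.ofNat (nat_lit 905002557),Int.negSucc (nat_lit 48542053),Int.ofNat (nat_lit 1764512090),Int.negSucc (nat_lit 1158546659),Int.ofNat (nat_lit 842840192),Int.ofNat (nat_lit 248870151),Int.ofNat (nat_lit 24353943),Int.ofNat (nat_lit 1756246623),Int.ofNat (nat_lit 503833114),Int.negSucc (nat_lit 1221367097),Int.negSucc (nat_lit 2281296981),Int.negSucc (nat_lit 1030596287),Int.negSucc (nat_lit 144726719),Int.negSucc (nat_lit 207962098),Int.ofNat (nat_lit 57167731),Int.ofNat (nat_lit 344682056),Int.ofNat (nat_lit 114138531),Int.ofNat (nat_lit 90563676),Int.negSucc (nat_lit 391863139),Int.negSucc (nat_lit 2003691913),Int.negSucc (nat_lit 2067986459),Int.ofNat (nat_lit 9730587452)])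

/-- A row. -/
noncomputable def sr3_c2_22 : List ℕ × List ℤ :=
  ([(nat_lit 1),(nat_lit 3),(nat_lit 1),(nat_lit 0),(nat_lit 0),(nat_lit 0),(nat_lit 0),(nat_lit 0),(nat_lit 0),(nat_lit 0),(nat_lit 0),(nat_lit 0)], [Int.negSucc (nat_lit 4745613957),Int.negSucc (nat_lit 3373547593),Int.ofNat (nat_lit 2121891374),Int.ofNat (nat_lit 9687352572),Int.ofNat (nat_lit 25214819830),Int.negSucc (nat_lit 5928530850),Int.negSucc (nat_lit 2044932215),Int.ofNat (nat_lit 2106606454),Int.ofNat (nat_lit 2675498232),Int.negSucc (nat_lit 7763877934),Int.negSucc (nat_lit 4365242434),Int.negSucc (nat_lit 4685929889),Int.negSucc (nat_lit 6320580685),Int.ofNat (nat_lit 4448190796),Int.ofNat (nat_lit 4904322127),Int.ofNat (nat_lit 500178506),Int.negSucc (nat_lit 4728252123),Int.negSucc (nat_lit 1743961241),Int.negSucc (nat_lit 6057767689),Int.ofNat (nat_lit 2634276226),Int.ofNat (nat_lit 21917122290),Int.negSucc (nat_lit 5066113063),Int.ofNat (nat_lit 7517489780),Int.negSucc (nat_lit 3933971441),Int.negSucc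 (nat_lit 1758539803),Int.ofNat (nat_lit 12015302559),Int.ofNat (nat_lit 6994078273),Int.negSucc (nat_lit 77391170),Int.ofNat (nat_lit 3888089314),Int.ofNat (nat_lit 6727828489),Int.ofNat (nat_lit 6848289436),Int.negSucc (nat_lit 1302479110),Int.negSucc (nat_lit 1588475219),Int.ofNat (nat_lit 2584511974),Int.negSucc (nat_lit 6710348328),Int.ofNat (nat_lit 4917817187),Int.negSucc (nat_lit 492894619),Int.ofNat (nat_lit 65902248),Int.ofNat (nat_lit 2119523101),Int.negSucc (nat_lit 1515940991),Int.ofNat (nat_lit 702587951),Int.ofNat (nat_lit 4438673312),Int.ofNat (nat_lit 2285490189),Int.negSucc (nat_lit 1754933212),Int.ofNat (nat_lit 207596236),Int.ofNat (nat_lit 842941623),Int.negSucc (nat_lit 599076294),Int.ofNat (nat_lit 1605531939),Int.ofNat (nat_lit 642976993),Int.negSucc (nat_lit 580186051),Int.ofNat (nat_lit 2653933430),Int.negSucc (nat_lit 3362117974),Int.negSucc (nat_lit 8822540664),Int.ofNat (nat_lit 2559805972),Int.negSucc (nat_lit 3161275672),Int.negSucc (nat_lit 435819182),Int.ofNat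 (nat_lit 1546253906),Int.negSucc (nat_lit 1140266156),Int.negSucc (nat_lit 2496401737),Int.ofNat (nat_lit 2045888194),Int.negSucc (nat_lit 76630824),Int.negSucc (nat_lit 1928165491),Int.negSucc (nat_lit 1595087149),Int.negSucc (nat_lit 1691116858),Int.ofNat (nat_lit 1956082211),Int.ofNat (nat_lit 2494395677),Int.negSucc (nat_lit 1341126598),Int.negSucc (nat_lit 14050662841),Int.negSucc (nat_lit 471665864),Int.ofNat (nat_lit 2011758139),Int.negSucc (nat_lit 4386978448),Int.ofNat (nat_lit 1301980069),Int.negSucc (nat_lit 2111111567),Int.negSucc (nat_lit 3888272947),Int.negSucc (nat_lit 5365289330),Int.ofNat (nat_lit 9203536558),Int.negSucc (nat_lit 1028970345),Int.negSucc (nat_lit 929280677),Int.negSucc (nat_lit 1877841457),Int.negSucc (nat_lit 3200491112),Int.ofNat (nat_lit 11442712923),Int.negSucc (nat_lit 455870269),Int.ofNat (nat_lit 14790801994)])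

/-- A row. -/
noncomputable def sr3_c2_23 : List ℕ × List ℤ :=
  ([(nat_lit 1),(nat_lit 4),(nat_lit 0),(nat_lit 1),(nat_lit 0),(nat_lit 0),(nat_lit 0),(nat_lit 0),(nat_lit 0),(nat_lit 0),(nat_lit 0),(nat_lit 0)], [Int.ofNat (nat_lit 9843046125),Int.negSucc (nat_lit 8167766173),Int.ofNat (nat_lit 302327750),Int.ofNat (nat_lit 588716434),Int.ofNat (nat_lit 8061785580),Int.negSucc (nat_lit 5434210854),Int.negSucc (nat_lit 2183466725),Int.negSucc (nat_lit 8915163777),Int.ofNat (nat_lit 12019517663),Int.negSucc (nat_lit 6565287562),Int.negSucc (nat_lit 11876558840),Int.negSucc (nat_lit 223750700),Int.negSucc (nat_lit 11528078776),Int.ofNat (nat_lit 4609612532),Int.negSucc (nat_lit 1291466656),Int.negSucc (nat_lit 414812987),Int.ofNat (nat_lit 3171230482),Int.negSucc (nat_lit 803703050),Int.negSucc (nat_lit 6994051631),Int.negSucc (nat_lit 4807462998),Int.ofNat (nat_lit 208565509),Int.negSucc (nat_lit 6109792283),Int.negSucc (nat_lit 3418759372),Int.negSucc (nat_lit 2571471240),Int.ofNat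 (nat_lit 6834306325),Int.negSucc (nat_lit 1430720352),Int.negSucc (nat_lit 2150691994),Int.ofNat (nat_lit 8428851551),Int.negSucc (nat_lit 501896307),Int.negSucc (nat_lit 5106350838),Int.negSucc (nat_lit 2774712828),Int.negSucc (nat_lit 464324916),Int.ofNat (nat_lit 2004184976),Int.ofNat (nat_lit 2891864888),Int.negSucc (nat_lit 4327384002),Int.ofNat (nat_lit 1421844963),Int.ofNat (nat_lit 3112681041),Int.negSucc (nat_lit 1707483512),Int.ofNat (nat_lit 2381947657),Int.ofNat (nat_lit 27588027517),Int.ofNat (nat_lit 448387146),Int.ofNat (nat_lit 229513792),Int.negSucc (nat_lit 9256435268),Int.ofNat (nat_lit 6556692351),Int.ofNat (nat_lit 108658124),Int.negSucc (nat_lit 3156941251),Int.negSucc (nat_lit 8330474420),Int.negSucc (nat_lit 1203968105),Int.ofNat (nat_lit 2830743233),Int.negSucc (nat_lit 3447939516),Int.negSucc (nat_lit 14261247520),Int.negSucc (nat_lit 4972982312),Int.ofNat (nat_lit 1490804572),Int.ofNat (nat_lit 2162281720),Int.ofNat (nat_lit 347268060),Int.ofNat (nat_lit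 674221437),Int.negSucc (nat_lit 4422046853),Int.ofNat (nat_lit 2019666650),Int.negSucc (nat_lit 1805877148),Int.ofNat (nat_lit 2816620620),Int.negSucc (nat_lit 2206462746),Int.negSucc (nat_lit 1215560409),Int.negSucc (nat_lit 10349193381),Int.negSucc (nat_lit 870045512),Int.ofNat (nat_lit 480722590),Int.ofNat (nat_lit 267750573),Int.ofNat (nat_lit 1881078841),Int.ofNat (nat_lit 1254442935),Int.negSucc (nat_lit 1510628900),Int.negSucc (nat_lit 2742168027),Int.ofNat (nat_lit 809907481),Int.negSucc (nat_lit 6130807718),Int.ofNat (nat_lit 3976246130),Int.ofNat (nat_lit 639192208),Int.negSucc (nat_lit 2301114371),Int.ofNat (nat_lit 619748226),Int.negSucc (nat_lit 113705044),Int.negSucc (nat_lit 85034563),Int.negSucc (nat_lit 6053452338),Int.ofNat (nat_lit 3726731775),Int.negSucc (nat_lit 3211395304),Int.ofNat (nat_lit 1758500156),Int.ofNat (nat_lit 348597732),Int.ofNat (nat_lit 14127770048)])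

/-- A row. -/
noncomputable def sr3_c2_24 : List ℕ × List ℤ :=
  ([(nat_lit 1),(nat_lit 5),(nat_lit 0),(nat_lit 0),(nat_lit 0),(nat_lit 0),(nat_lit 0),(nat_lit 0),(nat_lit 0),(nat_lit 0),(nat_lit 0),(nat_lit 0)], [Int.negSucc (nat_lit 11363805205),Int.negSucc (nat_lit 8284388832),Int.ofNat (nat_lit 590901210),Int.negSucc (nat_lit 15137515280),Int.negSucc (nat_lit 24274784737),Int.ofNat (nat_lit 5133405090),Int.ofNat (nat_lit 747227356),Int.ofNat (nat_lit 4983555886),Int.negSucc (nat_lit 2867190095),Int.ofNat (nat_lit 3743937432),Int.ofNat (nat_lit 3620436374),Int.ofNat (nat_lit 2978043748),Int.ofNat (nat_lit 2044891000),Int.negSucc (nat_lit 8666668361),Int.ofNat (nat_lit 3213464613),Int.negSucc (nat_lit 3497242969),Int.negSucc (nat_lit 1883626083),Int.ofNat (nat_lit 6250123321),Int.negSucc (nat_lit 4386698742),Int.ofNat (nat_lit 4930059180),Int.negSucc (nat_lit 7234807875),Int.negSucc (nat_lit 1965929019),Int.negSucc (nat_lit 2693122689),Int.ofNat (nat_lit 2556325289),Int.negSucc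 (nat_lit 4109021234),Int.negSucc (nat_lit 11242178112),Int.negSucc (nat_lit 7817363590),Int.negSucc (nat_lit 12076458727),Int.ofNat (nat_lit 10045718414),Int.negSucc (nat_lit 5329640999),Int.ofNat (nat_lit 15257660053),Int.negSucc (nat_lit 572175825),Int.ofNat (nat_lit 5114162170),Int.ofNat (nat_lit 3951738306),Int.negSucc (nat_lit 9496210097),Int.ofNat (nat_lit 11670354194),Int.ofNat (nat_lit 2377529349),Int.ofNat (nat_lit 2521701253),Int.negSucc (nat_lit 2386099153),Int.negSucc (nat_lit 7510255580),Int.ofNat (nat_lit 4040240980),Int.negSucc (nat_lit 1505380968),Int.ofNat (nat_lit 2752412298),Int.ofNat (nat_lit 12256593105),Int.ofNat (nat_lit 846069794),Int.ofNat (nat_lit 686522241),Int.ofNat (nat_lit 6839189937),Int.negSucc (nat_lit 11842168647),Int.ofNat (nat_lit 35422206),Int.ofNat (nat_lit 6279585168),Int.ofNat (nat_lit 6591687479),Int.ofNat (nat_lit 17575636319),Int.negSucc (nat_lit 2635160847),Int.negSucc (nat_lit 6162947120),Int.negSucc (nat_lit 1592582439),Int.negSucc (nat_lit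 4281857018),Int.ofNat (nat_lit 7756653745),Int.ofNat (nat_lit 2799189050),Int.ofNat (nat_lit 4121379750),Int.negSucc (nat_lit 2369342998),Int.ofNat (nat_lit 707333479),Int.negSucc (nat_lit 3110687207),Int.ofNat (nat_lit 8623799002),Int.ofNat (nat_lit 134275820),Int.ofNat (nat_lit 562462324),Int.ofNat (nat_lit 1604414217),Int.negSucc (nat_lit 2731424195),Int.ofNat (nat_lit 8070608164),Int.ofNat (nat_lit 845418205),Int.negSucc (nat_lit 4217723424),Int.ofNat (nat_lit 3876761053),Int.ofNat (nat_lit 5147305169),Int.negSucc (nat_lit 3978129351),Int.negSucc (nat_lit 9550851353),Int.ofNat (nat_lit 77999319),Int.ofNat (nat_lit 3012665281),Int.ofNat (nat_lit 1884893492),Int.negSucc (nat_lit 4905434089),Int.ofNat (nat_lit 9004108655),Int.negSucc (nat_lit 5667250621),Int.negSucc (nat_lit 17776402758),Int.negSucc (nat_lit 3567570759),Int.ofNat (nat_lit 10209886741),Int.negSucc (nat_lit 6809222512),Int.ofNat (nat_lit 11694316603)])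

/-- A row. -/
noncomputable def sr3_c2_25 : List ℕ × List ℤ :=
  ([(nat_lit 2),(nat_lit 0),(nat_lit 0),(nat_lit 0),(nat_lit 0),(nat_lit 0),(nat_lit 0),(nat_lit 0),(nat_lit 0),(nat_lit 1),(nat_lit 0),(nat_lit 0)], [Int.negSucc (nat_lit 3227513),Int.negSucc (nat_lit 22158712),Int.ofNat (nat_lit 217972554),Int.negSucc (nat_lit 520565340),Int.negSucc (nat_lit 408921486),Int.ofNat (nat_lit 614556180),Int.ofNat (nat_lit 374903769),Int.ofNat (nat_lit 165141463),Int.ofNat (nat_lit 495662561),Int.ofNat (nat_lit 61515038),Int.negSucc (nat_lit 205096743),Int.negSucc (nat_lit 507506277),Int.negSucc (nat_lit 78442964),Int.negSucc (nat_lit 1380580612),Int.negSucc (nat_lit 568096713),Int.ofNat (nat_lit 87828845),Int.negSucc (nat_lit 63130544),Int.ofNat (nat_lit 469046840),Int.negSucc (nat_lit 168806736),Int.negSucc (nat_lit 45414949),Int.ofNat (nat_lit 192304042),Int.negSucc (nat_lit 187255783),Int.negSucc (nat_lit 69859018),Int.ofNat (nat_lit 281629525),Int.ofNat (nat_lit 295706431),Int.negSucc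 (nat_lit 98784074),Int.ofNat (nat_lit 854417625),Int.negSucc (nat_lit 28558094),Int.ofNat (nat_lit 52336316),Int.negSucc (nat_lit 79836455),Int.negSucc (nat_lit 7499109),Int.ofNat (nat_lit 241477914),Int.ofNat (nat_lit 206482841),Int.negSucc (nat_lit 103118067),Int.negSucc (nat_lit 179691771),Int.negSucc (nat_lit 66257792),Int.ofNat (nat_lit 406456346),Int.ofNat (nat_lit 62751978),Int.negSucc (nat_lit 253742553),Int.ofNat (nat_lit 18932563),Int.negSucc (nat_lit 280482658),Int.negSucc (nat_lit 156991284),Int.ofNat (nat_lit 29071854),Int.negSucc (nat_lit 146657249),Int.negSucc (nat_lit 170645779),Int.negSucc (nat_lit 17779356),Int.ofNat (nat_lit 76937491),Int.negSucc (nat_lit 50039233),Int.negSucc (nat_lit 42485988),Int.ofNat (nat_lit 94702331),Int.ofNat (nat_lit 53471708),Int.negSucc (nat_lit 77414724),Int.ofNat (nat_lit 64812902),Int.ofNat (nat_lit 14838558),Int.ofNat (nat_lit 147211783),Int.negSucc (nat_lit 1293860621),Int.ofNat (nat_lit 52532251),Int.negSucc (nat_lit 36607394),Int.ofNat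 (nat_lit 11180773),Int.ofNat (nat_lit 18710246),Int.ofNat (nat_lit 95661731),Int.ofNat (nat_lit 77538320),Int.negSucc (nat_lit 1070207),Int.ofNat (nat_lit 60433388),Int.ofNat (nat_lit 2518226),Int.negSucc (nat_lit 11984382),Int.negSucc (nat_lit 46178917),Int.ofNat (nat_lit 134856),Int.negSucc (nat_lit 19873357),Int.negSucc (nat_lit 51433025),Int.negSucc (nat_lit 53071195),Int.ofNat (nat_lit 35615274),Int.negSucc (nat_lit 26673657),Int.negSucc (nat_lit 1139830),Int.negSucc (nat_lit 34216591),Int.negSucc (nat_lit 21503297),Int.negSucc (nat_lit 51891429),Int.negSucc (nat_lit 41208849),Int.ofNat (nat_lit 3854477),Int.ofNat (nat_lit 29569636),Int.ofNat (nat_lit 14001512),Int.ofNat (nat_lit 22917097),Int.ofNat (nat_lit 10524063),Int.negSucc (nat_lit 6020100),Int.negSucc (nat_lit 4236064),Int.ofNat (nat_lit 219200519)])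

/-- A row. -/
noncomputable def sr3_c2_26 : List ℕ × List ℤ :=
  ([(nat_lit 2),(nat_lit 0),(nat_lit 0),(nat_lit 0),(nat_lit 0),(nat_lit 0),(nat_lit 0),(nat_lit 1),(nat_lit 0),(nat_lit 0),(nat_lit 0),(nat_lit 0)], [Int.negSucc (nat_lit 453559847),Int.ofNat (nat_lit 2226481063),Int.negSucc (nat_lit 1332358521),Int.ofNat (nat_lit 1037371687),Int.ofNat (nat_lit 175815342),Int.ofNat (nat_lit 3052450915),Int.negSucc (nat_lit 1951740578),Int.negSucc (nat_lit 908545519),Int.negSucc (nat_lit 537453763),Int.ofNat (nat_lit 615911302),Int.negSucc (nat_lit 707616904),Int.negSucc (nat_lit 1691332294),Int.negSucc (nat_lit 894612734),Int.negSucc (nat_lit 382561767),Int.negSucc (nat_lit 3837995244),Int.negSucc (nat_lit 857932966),Int.ofNat (nat_lit 268826747),Int.negSucc (nat_lit 1634799984),Int.negSucc (nat_lit 1443716497),Int.ofNat (nat_lit 540657394),Int.negSucc (nat_lit 201362873),Int.negSucc (nat_lit 1773723177),Int.negSucc (nat_lit 304643317),Int.negSucc (nat_lit 959487657),Int.ofNat (nat_lit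 495395940),Int.ofNat (nat_lit 244006810),Int.negSucc (nat_lit 709827511),Int.negSucc (nat_lit 471141633),Int.negSucc (nat_lit 139350358),Int.negSucc (nat_lit 739152498),Int.ofNat (nat_lit 23228936),Int.negSucc (nat_lit 694510846),Int.negSucc (nat_lit 344939053),Int.negSucc (nat_lit 795154248),Int.negSucc (nat_lit 1367651143),Int.ofNat (nat_lit 221873632),Int.ofNat (nat_lit 386018603),Int.ofNat (nat_lit 1913919),Int.negSucc (nat_lit 22234203),Int.negSucc (nat_lit 688995196),Int.negSucc (nat_lit 326371025),Int.ofNat (nat_lit 537575360),Int.ofNat (nat_lit 470670925),Int.ofNat (nat_lit 39265909),Int.negSucc (nat_lit 110149506),Int.ofNat (nat_lit 51511595),Int.negSucc (nat_lit 456881257),Int.negSucc (nat_lit 149992186),Int.ofNat (nat_lit 62674789),Int.ofNat (nat_lit 43452278),Int.negSucc (nat_lit 217406561),Int.ofNat (nat_lit 76599925),Int.negSucc (nat_lit 196195060),Int.ofNat (nat_lit 65370229),Int.ofNat (nat_lit 877591385),Int.negSucc (nat_lit 292155119),Int.negSucc (nat_lit 5019953893),Int.ofNat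 (nat_lit 43177940),Int.negSucc (nat_lit 312500806),Int.negSucc (nat_lit 287103320),Int.negSucc (nat_lit 526273132),Int.negSucc (nat_lit 471077211),Int.ofNat (nat_lit 59465783),Int.ofNat (nat_lit 1069737621),Int.negSucc (nat_lit 218867260),Int.ofNat (nat_lit 422160528),Int.negSucc (nat_lit 396788161),Int.ofNat (nat_lit 16750765),Int.ofNat (nat_lit 610989576),Int.negSucc (nat_lit 38209330),Int.ofNat (nat_lit 57960497),Int.ofNat (nat_lit 189121370),Int.negSucc (nat_lit 17677611),Int.negSucc (nat_lit 150403814),Int.ofNat (nat_lit 40495488),Int.ofNat (nat_lit 21570174),Int.negSucc (nat_lit 660837831),Int.ofNat (nat_lit 34338775),Int.negSucc (nat_lit 108033487),Int.negSucc (nat_lit 272512909),Int.negSucc (nat_lit 116533228),Int.negSucc (nat_lit 49521677),Int.negSucc (nat_lit 35270783),Int.negSucc (nat_lit 104605246),Int.negSucc (nat_lit 28293142),Int.negSucc (nat_lit 28959137),Int.ofNat (nat_lit 1070758523)])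

/-- A row. -/
noncomputable def sr3_c2_27 : List ℕ × List ℤ :=
  ([(nat_lit 2),(nat_lit 0),(nat_lit 0),(nat_lit 0),(nat_lit 0),(nat_lit 1),(nat_lit 0),(nat_lit 0),(nat_lit 0),(nat_lit 0),(nat_lit 0),(nat_lit 0)], [Int.ofNat (nat_lit 1011691505),Int.ofNat (nat_lit 3545819585),Int.ofNat (nat_lit 1883766259),Int.ofNat (nat_lit 5003749968),Int.negSucc (nat_lit 2198107470),Int.negSucc (nat_lit 987154652),Int.ofNat (nat_lit 7463696927),Int.ofNat (nat_lit 9718142),Int.ofNat (nat_lit 635540791),Int.negSucc (nat_lit 3184406697),Int.ofNat (nat_lit 2231065570),Int.ofNat (nat_lit 3481220656),Int.ofNat (nat_lit 165530127),Int.negSucc (nat_lit 1485697789),Int.ofNat (nat_lit 1743425556),Int.negSucc (nat_lit 1394630239),Int.negSucc (nat_lit 1317008190),Int.ofNat (nat_lit 4893281076),Int.negSucc (nat_lit 260306231),Int.negSucc (nat_lit 2418852768),Int.negSucc (nat_lit 322058547),Int.negSucc (nat_lit 1772187323),Int.negSucc (nat_lit 1048771328),Int.ofNat (nat_lit 1682361795),Int.negSucc (nat_lit 714647593),Int.negSucc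 (nat_lit 350934668),Int.ofNat (nat_lit 4003795231),Int.ofNat (nat_lit 573459225),Int.ofNat (nat_lit 305162708),Int.ofNat (nat_lit 547997366),Int.negSucc (nat_lit 845036017),Int.ofNat (nat_lit 926018805),Int.ofNat (nat_lit 1643189482),Int.negSucc (nat_lit 1464628216),Int.ofNat (nat_lit 788008729),Int.negSucc (nat_lit 57167619),Int.ofNat (nat_lit 34972083),Int.negSucc (nat_lit 353870568),Int.ofNat (nat_lit 365815812),Int.ofNat (nat_lit 1716586499),Int.negSucc (nat_lit 318040994),Int.ofNat (nat_lit 2133029819),Int.negSucc (nat_lit 567816360),Int.ofNat (nat_lit 465752397),Int.ofNat (nat_lit 122080424),Int.negSucc (nat_lit 283867457),Int.ofNat (nat_lit 375814248),Int.ofNat (nat_lit 82139613),Int.negSucc (nat_lit 150470080),Int.negSucc (nat_lit 437693377),Int.ofNat (nat_lit 416930667),Int.ofNat (nat_lit 321255842),Int.ofNat (nat_lit 93244985),Int.ofNat (nat_lit 6441474),Int.negSucc (nat_lit 2268193240),Int.ofNat (nat_lit 426011336),Int.ofNat (nat_lit 996658063),Int.negSucc (nat_lit 8520242890),Int.negSucc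 (nat_lit 1245415733),Int.ofNat (nat_lit 319172105),Int.ofNat (nat_lit 43382714),Int.negSucc (nat_lit 523608391),Int.ofNat (nat_lit 469439879),Int.negSucc (nat_lit 772143615),Int.ofNat (nat_lit 2086222819),Int.negSucc (nat_lit 371164543),Int.ofNat (nat_lit 325340633),Int.ofNat (nat_lit 178567704),Int.ofNat (nat_lit 428003597),Int.negSucc (nat_lit 18963916),Int.negSucc (nat_lit 58841822),Int.negSucc (nat_lit 334014240),Int.ofNat (nat_lit 705077257),Int.ofNat (nat_lit 315819990),Int.negSucc (nat_lit 278586853),Int.negSucc (nat_lit 146230890),Int.ofNat (nat_lit 546465650),Int.negSucc (nat_lit 1756767535),Int.negSucc (nat_lit 221314643),Int.ofNat (nat_lit 204554316),Int.ofNat (nat_lit 7615693),Int.negSucc (nat_lit 448215230),Int.negSucc (nat_lit 351855709),Int.ofNat (nat_lit 230691931),Int.ofNat (nat_lit 122343060),Int.negSucc (nat_lit 622978760),Int.ofNat (nat_lit 235772170),Int.ofNat (nat_lit 2580822660)])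

/-- A row. -/
noncomputable def sr3_c2_28 : List ℕ × List ℤ :=
  ([(nat_lit 2),(nat_lit 0),(nat_lit 0),(nat_lit 1),(nat_lit 0),(nat_lit 0),(nat_lit 0),(nat_lit 0),(nat_lit 0),(nat_lit 0),(nat_lit 0),(nat_lit 0)], [Int.ofNat (nat_lit 77004201),Int.ofNat (nat_lit 3457320784),Int.ofNat (nat_lit 944416500),Int.negSucc (nat_lit 2715925492),Int.ofNat (nat_lit 20690578323),Int.ofNat (nat_lit 2855974589),Int.ofNat (nat_lit 15008589633),Int.ofNat (nat_lit 1927112512),Int.negSucc (nat_lit 4325362122),Int.negSucc (nat_lit 3054004616),Int.ofNat (nat_lit 2171947818),Int.negSucc (nat_lit 50712700),Int.negSucc (nat_lit 770716163),Int.ofNat (nat_lit 2973575479),Int.negSucc (nat_lit 2136904920),Int.ofNat (nat_lit 880824509),Int.negSucc (nat_lit 6830324322),Int.negSucc (nat_lit 1284587100),Int.ofNat (nat_lit 632114334),Int.ofNat (nat_lit 6466732954),Int.negSucc (nat_lit 2146353985),Int.ofNat (nat_lit 10670069083),Int.negSucc (nat_lit 34834026),Int.ofNat (nat_lit 337666441),Int.negSucc (nat_lit 247144924),Int.negSucc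 (nat_lit 2626212364),Int.negSucc (nat_lit 2045628415),Int.ofNat (nat_lit 1565300777),Int.ofNat (nat_lit 606682587),Int.negSucc (nat_lit 2611085374),Int.ofNat (nat_lit 999535593),Int.ofNat (nat_lit 1166728178),Int.negSucc (nat_lit 1627406282),Int.negSucc (nat_lit 782975746),Int.negSucc (nat_lit 49363885),Int.negSucc (nat_lit 884587042),Int.negSucc (nat_lit 1668497511),Int.negSucc (nat_lit 395042416),Int.ofNat (nat_lit 678169701),Int.ofNat (nat_lit 599105758),Int.ofNat (nat_lit 978456781),Int.negSucc (nat_lit 68781499),Int.negSucc (nat_lit 1777760511),Int.negSucc (nat_lit 2150761883),Int.negSucc (nat_lit 131147935),Int.ofNat (nat_lit 971549428),Int.negSucc (nat_lit 2356067555),Int.negSucc (nat_lit 1081850025),Int.ofNat (nat_lit 726999334),Int.negSucc (nat_lit 234819671),Int.ofNat (nat_lit 510868285),Int.negSucc (nat_lit 882062300),Int.ofNat (nat_lit 166451204),Int.negSucc (nat_lit 139349159),Int.ofNat (nat_lit 2346088348),Int.negSucc (nat_lit 542611188),Int.ofNat (nat_lit 623118568),Int.ofNat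 (nat_lit 3458544307),Int.ofNat (nat_lit 1679594315),Int.negSucc (nat_lit 17969294667),Int.ofNat (nat_lit 1610463325),Int.negSucc (nat_lit 2115923113),Int.negSucc (nat_lit 2360254306),Int.ofNat (nat_lit 1078855154),Int.negSucc (nat_lit 1134807134),Int.ofNat (nat_lit 757640608),Int.ofNat (nat_lit 597428189),Int.ofNat (nat_lit 451319023),Int.ofNat (nat_lit 27301828),Int.negSucc (nat_lit 399324824),Int.negSucc (nat_lit 203688417),Int.negSucc (nat_lit 147338112),Int.negSucc (nat_lit 838457921),Int.negSucc (nat_lit 515642698),Int.ofNat (nat_lit 112187308),Int.negSucc (nat_lit 568864511),Int.negSucc (nat_lit 426445529),Int.ofNat (nat_lit 618299942),Int.ofNat (nat_lit 21652849),Int.negSucc (nat_lit 754181496),Int.ofNat (nat_lit 259273728),Int.ofNat (nat_lit 125960867),Int.ofNat (nat_lit 536819141),Int.ofNat (nat_lit 12631401),Int.negSucc (nat_lit 39263004),Int.ofNat (nat_lit 1046269840),Int.negSucc (nat_lit 164151333),Int.negSucc (nat_lit 532187323),Int.ofNat (nat_lit 2894837440)])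

/-- A row. -/
noncomputable def sr3_c2_29 : List ℕ × List ℤ :=
  ([(nat_lit 2),(nat_lit 0),(nat_lit 0),(nat_lit 1),(nat_lit 1),(nat_lit 0),(nat_lit 0),(nat_lit 0),(nat_lit 0),(nat_lit 0),(nat_lit 0),(nat_lit 0)], [Int.negSucc (nat_lit 763490865),Int.negSucc (nat_lit 2251436440),Int.ofNat (nat_lit 4320385819),Int.negSucc (nat_lit 211318261),Int.ofNat (nat_lit 1220530694),Int.ofNat (nat_lit 4345119337),Int.negSucc (nat_lit 3442502302),Int.negSucc (nat_lit 2958643028),Int.negSucc (nat_lit 4479713813),Int.ofNat (nat_lit 7226846481),Int.ofNat (nat_lit 5014820121),Int.negSucc (nat_lit 2246713007),Int.ofNat (nat_lit 904226832),Int.negSucc (nat_lit 2215453463),Int.negSucc (nat_lit 98635305),Int.ofNat (nat_lit 1013194347),Int.ofNat (nat_lit 2038520904),Int.negSucc (nat_lit 2275356677),Int.negSucc (nat_lit 257158645),Int.negSucc (nat_lit 1198071903),Int.ofNat (nat_lit 984650623),Int.negSucc (nat_lit 3116045806),Int.negSucc (nat_lit 12966380),Int.ofNat (nat_lit 729597948),Int.ofNat (nat_lit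 580066134),Int.negSucc (nat_lit 634069198),Int.ofNat (nat_lit 1549739234),Int.negSucc (nat_lit 2493580),Int.negSucc (nat_lit 582371892),Int.ofNat (nat_lit 1818177333),Int.negSucc (nat_lit 450499926),Int.negSucc (nat_lit 22515784),Int.ofNat (nat_lit 199274537),Int.ofNat (nat_lit 739609949),Int.negSucc (nat_lit 276304501),Int.ofNat (nat_lit 6194878),Int.ofNat (nat_lit 919120879),Int.negSucc (nat_lit 90006100),Int.negSucc (nat_lit 635637267),Int.ofNat (nat_lit 329151657),Int.ofNat (nat_lit 361581506),Int.negSucc (nat_lit 217604834),Int.ofNat (nat_lit 64446515),Int.ofNat (nat_lit 708377888),Int.negSucc (nat_lit 172347615),Int.negSucc (nat_lit 341054903),Int.ofNat (nat_lit 251836983),Int.ofNat (nat_lit 408680788),Int.negSucc (nat_lit 521532606),Int.ofNat (nat_lit 309779815),Int.negSucc (nat_lit 1759055),Int.ofNat (nat_lit 70813197),Int.ofNat (nat_lit 330244083),Int.ofNat (nat_lit 675973),Int.negSucc (nat_lit 859687724),Int.negSucc (nat_lit 797393470),Int.ofNat (nat_lit 730253123),Int.ofNat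 (nat_lit 706519337),Int.negSucc (nat_lit 1368957868),Int.ofNat (nat_lit 2869634675),Int.ofNat (nat_lit 861407272),Int.negSucc (nat_lit 4120784279),Int.ofNat (nat_lit 411720962),Int.negSucc (nat_lit 42303779),Int.negSucc (nat_lit 115902952),Int.negSucc (nat_lit 133027840),Int.ofNat (nat_lit 26531814),Int.negSucc (nat_lit 111298032),Int.ofNat (nat_lit 29425239),Int.negSucc (nat_lit 21863165),Int.negSucc (nat_lit 58679390),Int.ofNat (nat_lit 104127614),Int.negSucc (nat_lit 136143948),Int.ofNat (nat_lit 81687816),Int.ofNat (nat_lit 53625667),Int.ofNat (nat_lit 114707578),Int.ofNat (nat_lit 4066251),Int.negSucc (nat_lit 51884812),Int.negSucc (nat_lit 37222413),Int.ofNat (nat_lit 92207510),Int.ofNat (nat_lit 41911775),Int.negSucc (nat_lit 43932396),Int.negSucc (nat_lit 52846227),Int.ofNat (nat_lit 150204705),Int.negSucc (nat_lit 64501243),Int.negSucc (nat_lit 66369814),Int.negSucc (nat_lit 166675172),Int.negSucc (nat_lit 158419056),Int.negSucc (nat_lit 305730203),Int.ofNat (nat_lit 1049292164)])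

/-- A part of a triangular factor. -/
noncomputable def sr3_c2 : Rows :=
  [sr3_c2_0,
   sr3_c2_1,
   sr3_c2_2,
   sr3_c2_3,
   sr3_c2_4,
   sr3_c2_5,
   sr3_c2_6,
   sr3_c2_7,
   sr3_c2_8,
   sr3_c2_9,
   sr3_c2_10,
   sr3_c2_11,
   sr3_c2_12,
   sr3_c2_13,
   sr3_c2_14,
   sr3_c2_15,
   sr3_c2_16,
   sr3_c2_17,
   sr3_c2_18,
   sr3_c2_19,
   sr3_c2_20,
   sr3_c2_21,
   sr3_c2_22,
   sr3_c2_23,
   sr3_c2_24,
   sr3_c2_25,
   sr3_c2_26,
   sr3_c2_27,
   sr3_c2_28,
   sr3_c2_29]

/-- A row. -/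
noncomputable def sr3_c3_0 : List ℕ × List ℤ :=
  ([(nat_lit 2),(nat_lit 0),(nat_lit 1),(nat_lit 0),(nat_lit 0),(nat_lit 1),(nat_lit 0),(nat_lit 0),(nat_lit 0),(nat_lit 0),(nat_lit 0),(nat_lit 0)], [Int.ofNat (nat_lit 547281790),Int.ofNat (nat_lit 430328781),Int.negSucc (nat_lit 603417787),Int.ofNat (nat_lit 1850427114),Int.ofNat (nat_lit 94424345),Int.ofNat (nat_lit 484150683),Int.ofNat (nat_lit 7134932734),Int.negSucc (nat_lit 1563625509),Int.negSucc (nat_lit 988237758),Int.negSucc (nat_lit 1451314653),Int.ofNat (nat_lit 1760620446),Int.ofNat (nat_lit 416531862),Int.negSucc (nat_lit 457506018),Int.ofNat (nat_lit 212957274),Int.ofNat (nat_lit 1940524852),Int.negSucc (nat_lit 880091471),Int.negSucc (nat_lit 984071924),Int.ofNat (nat_lit 2312848936),Int.negSucc (nat_lit 5445623665),Int.negSucc (nat_lit 935836323),Int.negSucc (nat_lit 1062803143),Int.negSucc (nat_lit 1177035554),Int.ofNat (nat_lit 775103560),Int.ofNat (nat_lit 859447739),Int.negSucc (nat_lit 1141260296),Int.negSucc (nat_lit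 55413074),Int.ofNat (nat_lit 1958432428),Int.negSucc (nat_lit 401223184),Int.negSucc (nat_lit 838748764),Int.ofNat (nat_lit 349312479),Int.negSucc (nat_lit 620966631),Int.ofNat (nat_lit 299191320),Int.ofNat (nat_lit 462247344),Int.negSucc (nat_lit 1619636648),Int.ofNat (nat_lit 817874732),Int.ofNat (nat_lit 655844914),Int.negSucc (nat_lit 154833719),Int.ofNat (nat_lit 29303707),Int.ofNat (nat_lit 1451717295),Int.ofNat (nat_lit 849900606),Int.ofNat (nat_lit 290472145),Int.ofNat (nat_lit 1645050035),Int.negSucc (nat_lit 291985523),Int.negSucc (nat_lit 42445679),Int.negSucc (nat_lit 35734009),Int.negSucc (nat_lit 120320057),Int.negSucc (nat_lit 316224190),Int.negSucc (nat_lit 601664360),Int.ofNat (nat_lit 2601376),Int.negSucc (nat_lit 169492245),Int.ofNat (nat_lit 316072528),Int.ofNat (nat_lit 9616080),Int.ofNat (nat_lit 152355635),Int.ofNat (nat_lit 15160709),Int.negSucc (nat_lit 1736583788),Int.ofNat (nat_lit 201366685),Int.ofNat (nat_lit 114402719),Int.negSucc (nat_lit 3408763289),Int.negSucc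 (nat_lit 208510740),Int.negSucc (nat_lit 832562422),Int.negSucc (nat_lit 231321996),Int.ofNat (nat_lit 1265680287),Int.negSucc (nat_lit 447412230),Int.ofNat (nat_lit 395689830),Int.negSucc (nat_lit 3575541411),Int.ofNat (nat_lit 180752543),Int.negSucc (nat_lit 90262232),Int.ofNat (nat_lit 16982485),Int.ofNat (nat_lit 148154767),Int.ofNat (nat_lit 24731262),Int.negSucc (nat_lit 2182806),Int.negSucc (nat_lit 33852284),Int.ofNat (nat_lit 46480376),Int.ofNat (nat_lit 156288453),Int.negSucc (nat_lit 147996192),Int.ofNat (nat_lit 179846504),Int.ofNat (nat_lit 15192183),Int.negSucc (nat_lit 186942913),Int.negSucc (nat_lit 73736209),Int.ofNat (nat_lit 3650822),Int.negSucc (nat_lit 128566143),Int.negSucc (nat_lit 216417304),Int.negSucc (nat_lit 71451536),Int.ofNat (nat_lit 63266480),Int.ofNat (nat_lit 60749848),Int.ofNat (nat_lit 12702873),Int.ofNat (nat_lit 260776626),Int.ofNat (nat_lit 338478823),Int.ofNat (nat_lit 96975730),Int.negSucc (nat_lit 606330033),Int.ofNat (nat_lit 792744044)])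

/-- A row. -/
noncomputable def sr3_c3_1 : List ℕ × List ℤ :=
  ([(nat_lit 2),(nat_lit 0),(nat_lit 1),(nat_lit 1),(nat_lit 0),(nat_lit 0),(nat_lit 0),(nat_lit 0),(nat_lit 0),(nat_lit 0),(nat_lit 0),(nat_lit 0)], [Int.negSucc (nat_lit 362271078),Int.ofNat (nat_lit 762814399),Int.negSucc (nat_lit 148827285),Int.ofNat (nat_lit 975149137),Int.ofNat (nat_lit 15662388176),Int.ofNat (nat_lit 5602696119),Int.ofNat (nat_lit 10601630430),Int.negSucc (nat_lit 4731594050),Int.negSucc (nat_lit 5223833651),Int.negSucc (nat_lit 1711040920),Int.ofNat (nat_lit 4234115529),Int.ofNat (nat_lit 173877197),Int.ofNat (nat_lit 3271462335),Int.negSucc (nat_lit 117588008),Int.negSucc (nat_lit 1761594836),Int.ofNat (nat_lit 2026337480),Int.negSucc (nat_lit 1029337829),Int.negSucc (nat_lit 374988887),Int.ofNat (nat_lit 2148679784),Int.negSucc (nat_lit 4249994323),Int.negSucc (nat_lit 150645307),Int.ofNat (nat_lit 7214244046),Int.negSucc (nat_lit 438980969),Int.negSucc (nat_lit 1727280777),Int.ofNat (nat_lit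 348217568),Int.negSucc (nat_lit 2840825913),Int.negSucc (nat_lit 2701949606),Int.ofNat (nat_lit 747863128),Int.negSucc (nat_lit 895648861),Int.negSucc (nat_lit 1498574326),Int.ofNat (nat_lit 660215631),Int.ofNat (nat_lit 281511032),Int.negSucc (nat_lit 634771272),Int.ofNat (nat_lit 1716107279),Int.negSucc (nat_lit 914944868),Int.negSucc (nat_lit 861876468),Int.negSucc (nat_lit 1934929731),Int.ofNat (nat_lit 234053209),Int.negSucc (nat_lit 240272630),Int.negSucc (nat_lit 523288070),Int.negSucc (nat_lit 96693004),Int.ofNat (nat_lit 868906303),Int.negSucc (nat_lit 33078461),Int.negSucc (nat_lit 1143723510),Int.ofNat (nat_lit 590850792),Int.ofNat (nat_lit 84788300),Int.negSucc (nat_lit 1722962341),Int.negSucc (nat_lit 947885540),Int.ofNat (nat_lit 959878793),Int.negSucc (nat_lit 338634163),Int.negSucc (nat_lit 658909950),Int.ofNat (nat_lit 143918585),Int.negSucc (nat_lit 46584),Int.ofNat (nat_lit 199372252),Int.ofNat (nat_lit 2326926332),Int.ofNat (nat_lit 1199215850),Int.negSucc (nat_lit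 1335008379),Int.ofNat (nat_lit 1072739878),Int.ofNat (nat_lit 430195647),Int.negSucc (nat_lit 10638649765),Int.ofNat (nat_lit 3408469055),Int.negSucc (nat_lit 2721890470),Int.negSucc (nat_lit 2310644923),Int.ofNat (nat_lit 2478660868),Int.negSucc (nat_lit 174157922),Int.negSucc (nat_lit 6832850121),Int.ofNat (nat_lit 2588094785),Int.ofNat (nat_lit 327413016),Int.negSucc (nat_lit 105165819),Int.negSucc (nat_lit 398966203),Int.ofNat (nat_lit 42473710),Int.ofNat (nat_lit 230021228),Int.negSucc (nat_lit 200935086),Int.negSucc (nat_lit 646076455),Int.ofNat (nat_lit 98686108),Int.negSucc (nat_lit 606628462),Int.negSucc (nat_lit 545910897),Int.ofNat (nat_lit 248505228),Int.negSucc (nat_lit 157209137),Int.negSucc (nat_lit 573562865),Int.ofNat (nat_lit 185318750),Int.negSucc (nat_lit 160269334),Int.ofNat (nat_lit 540887193),Int.negSucc (nat_lit 203307213),Int.negSucc (nat_lit 25384724),Int.ofNat (nat_lit 600391699),Int.negSucc (nat_lit 208675364),Int.ofNat (nat_lit 75415344),Int.ofNat (nat_lit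 1634767070),Int.negSucc (nat_lit 254709118),Int.negSucc (nat_lit 613207009),Int.ofNat (nat_lit 1908797568)])

/-- A row. -/
noncomputable def sr3_c3_2 : List ℕ × List ℤ :=
  ([(nat_lit 2),(nat_lit 1),(nat_lit 0),(nat_lit 0),(nat_lit 0),(nat_lit 0),(nat_lit 0),(nat_lit 0),(nat_lit 0),(nat_lit 0),(nat_lit 0),(nat_lit 0)], [Int.negSucc (nat_lit 549743606),Int.negSucc (nat_lit 706810585),Int.ofNat (nat_lit 6055787333),Int.negSucc (nat_lit 1913527689),Int.negSucc (nat_lit 2022416340),Int.negSucc (nat_lit 1779690221),Int.negSucc (nat_lit 5853757746),Int.ofNat (nat_lit 7059246941),Int.ofNat (nat_lit 6578842104),Int.negSucc (nat_lit 4149909940),Int.ofNat (nat_lit 2030448987),Int.ofNat (nat_lit 2587381979),Int.ofNat (nat_lit 3207391744),Int.negSucc (nat_lit 2302517511),Int.ofNat (nat_lit 3869616950),Int.negSucc (nat_lit 550689953),Int.ofNat (nat_lit 3144749751),Int.ofNat (nat_lit 5015199482),Int.negSucc (nat_lit 2555207625),Int.negSucc (nat_lit 1126511411),Int.ofNat (nat_lit 11980619288),Int.negSucc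 (nat_lit 3779436700),Int.ofNat (nat_lit 1656227515),Int.ofNat (nat_lit 2943383429),Int.negSucc (nat_lit 7314389588),Int.ofNat (nat_lit 8416324231),Int.ofNat (nat_lit 9490681024),Int.ofNat (nat_lit 1597046493),Int.ofNat (nat_lit 1466287191),Int.negSucc (nat_lit 1803320919),Int.negSucc (nat_lit 5607363703),Int.negSucc (nat_lit 3202722761),Int.ofNat (nat_lit 1392732367),Int.negSucc (nat_lit 1373790119),Int.negSucc (nat_lit 4965020915),Int.ofNat (nat_lit 615803000),Int.negSucc (nat_lit 2327171138),Int.ofNat (nat_lit 78784309),Int.negSucc (nat_lit 2183111088),Int.negSucc (nat_lit 6198320203),Int.negSucc (nat_lit 5739602055),Int.ofNat (nat_lit 5117407428),Int.ofNat (nat_lit 3176048258),Int.ofNat (nat_lit 3983506087),Int.negSucc (nat_lit 1353412776),Int.ofNat (nat_lit 2407492105),Int.negSucc (nat_lit 3235706051),Int.ofNat (nat_lit 3961383915),Int.negSucc (nat_lit 425887308),Int.negSucc (nat_lit 653010807),Int.negSucc (nat_lit 73568408),Int.negSucc (nat_lit 6122073106),Int.negSucc (nat_lit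 2889520054),Int.ofNat (nat_lit 1222249550),Int.negSucc (nat_lit 7511353040),Int.negSucc (nat_lit 1721017920),Int.negSucc (nat_lit 3191093982),Int.negSucc (nat_lit 2510232313),Int.negSucc (nat_lit 3420579973),Int.ofNat (nat_lit 6938322607),Int.negSucc (nat_lit 3516865256),Int.ofNat (nat_lit 4030614999),Int.negSucc (nat_lit 1679880540),Int.negSucc (nat_lit 3372558179),Int.ofNat (nat_lit 2326487347),Int.ofNat (nat_lit 424244057),Int.negSucc (nat_lit 2991488581),Int.negSucc (nat_lit 31632553499),Int.negSucc (nat_lit 777200124),Int.ofNat (nat_lit 4674069788),Int.negSucc (nat_lit 829563801),Int.negSucc (nat_lit 1769290340),Int.negSucc (nat_lit 1849456376),Int.ofNat (nat_lit 6349633241),Int.negSucc (nat_lit 4059532069),Int.negSucc (nat_lit 2039385788),Int.ofNat (nat_lit 105138174),Int.negSucc (nat_lit 1998169010),Int.negSucc (nat_lit 208994268),Int.ofNat (nat_lit 1616833086),Int.negSucc (nat_lit 3428910196),Int.ofNat (nat_lit 1479715071),Int.ofNat (nat_lit 2765920318),Int.negSucc (nat_lit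 895393059),Int.negSucc (nat_lit 907985547),Int.negSucc (nat_lit 1335111216),Int.ofNat (nat_lit 884029826),Int.negSucc (nat_lit 402908557),Int.negSucc (nat_lit 840855480),Int.negSucc (nat_lit 2004946187),Int.negSucc (nat_lit 2052236961),Int.ofNat (nat_lit 324247236),Int.ofNat (nat_lit 10079238703)])

/-- A row. -/
noncomputable def sr3_c3_3 : List ℕ × List ℤ :=
  ([(nat_lit 2),(nat_lit 1),(nat_lit 0),(nat_lit 0),(nat_lit 0),(nat_lit 0),(nat_lit 1),(nat_lit 0),(nat_lit 0),(nat_lit 0),(nat_lit 0),(nat_lit 0)], [Int.negSucc (nat_lit 2969723578),Int.ofNat (nat_lit 2207252309),Int.ofNat (nat_lit 4448461187),Int.ofNat (nat_lit 1771574665),Int.ofNat (nat_lit 2260127623),Int.negSucc (nat_lit 235264864),Int.negSucc (nat_lit 3846187660),Int.ofNat (nat_lit 965705949),Int.negSucc (nat_lit 3148483537),Int.ofNat (nat_lit 5534570590),Int.ofNat (nat_lit 494604098),Int.ofNat (nat_lit 3815509298),Int.negSucc (nat_lit 75693531),Int.negSucc (nat_lit 1168079478),Int.ofNat (nat_lit 2662188),Int.negSucc (nat_lit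 406667132),Int.ofNat (nat_lit 970149677),Int.negSucc (nat_lit 786633475),Int.ofNat (nat_lit 2096201201),Int.negSucc (nat_lit 851415872),Int.ofNat (nat_lit 847323045),Int.negSucc (nat_lit 76084962),Int.ofNat (nat_lit 3599651810),Int.ofNat (nat_lit 4411856670),Int.ofNat (nat_lit 1704093461),Int.ofNat (nat_lit 258101454),Int.ofNat (nat_lit 1765311736),Int.negSucc (nat_lit 1712829597),Int.negSucc (nat_lit 2900357770),Int.negSucc (nat_lit 760286527),Int.negSucc (nat_lit 1216375364),Int.negSucc (nat_lit 3468462379),Int.ofNat (nat_lit 423906119),Int.negSucc (nat_lit 1537063530),Int.negSucc (nat_lit 140571059),Int.negSucc (nat_lit 27562130),Int.negSucc (nat_lit 2019262822),Int.ofNat (nat_lit 12505400),Int.ofNat (nat_lit 517210311),Int.negSucc (nat_lit 173555120),Int.ofNat (nat_lit 406831495),Int.ofNat (nat_lit 153239069),Int.negSucc (nat_lit 563155190),Int.ofNat (nat_lit 250474266),Int.ofNat (nat_lit 1617034574),Int.negSucc (nat_lit 252499532),Int.negSucc (nat_lit 1101432596),Int.negSucc (nat_lit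 476828880),Int.negSucc (nat_lit 870525207),Int.negSucc (nat_lit 282014354),Int.negSucc (nat_lit 123184799),Int.ofNat (nat_lit 444373196),Int.ofNat (nat_lit 92688558),Int.negSucc (nat_lit 212943839),Int.negSucc (nat_lit 610776277),Int.negSucc (nat_lit 67094282),Int.ofNat (nat_lit 511768763),Int.negSucc (nat_lit 205236445),Int.ofNat (nat_lit 1457685197),Int.negSucc (nat_lit 894908304),Int.negSucc (nat_lit 1506926691),Int.ofNat (nat_lit 672430919),Int.ofNat (nat_lit 953523842),Int.ofNat (nat_lit 866927780),Int.negSucc (nat_lit 1138252113),Int.negSucc (nat_lit 681230845),Int.negSucc (nat_lit 488885654),Int.negSucc (nat_lit 2328292441),Int.ofNat (nat_lit 161744684),Int.negSucc (nat_lit 5858491985),Int.negSucc (nat_lit 125052502),Int.ofNat (nat_lit 264909847),Int.negSucc (nat_lit 242524417),Int.ofNat (nat_lit 80103298),Int.ofNat (nat_lit 53965967),Int.ofNat (nat_lit 63933298),Int.negSucc (nat_lit 162272161),Int.negSucc (nat_lit 117360176),Int.ofNat (nat_lit 167509100),Int.ofNat (nat_lit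 138682831),Int.ofNat (nat_lit 18748769),Int.ofNat (nat_lit 86892192),Int.negSucc (nat_lit 64574422),Int.negSucc (nat_lit 10826747),Int.ofNat (nat_lit 20295316),Int.ofNat (nat_lit 377183898),Int.ofNat (nat_lit 176211505),Int.ofNat (nat_lit 11992527),Int.ofNat (nat_lit 183313844),Int.negSucc (nat_lit 90312247),Int.ofNat (nat_lit 125607775),Int.negSucc (nat_lit 31390505),Int.ofNat (nat_lit 82259139),Int.ofNat (nat_lit 899545575)])

/-- A row. -/
noncomputable def sr3_c3_4 : List ℕ × List ℤ :=
  ([(nat_lit 2),(nat_lit 1),(nat_lit 0),(nat_lit 0),(nat_lit 1),(nat_lit 0),(nat_lit 0),(nat_lit 0),(nat_lit 0),(nat_lit 0),(nat_lit 0),(nat_lit 0)], [Int.ofNat (nat_lit 1043998061),Int.negSucc (nat_lit 2765730629),Int.negSucc (nat_lit 4081567451),Int.ofNat (nat_lit 4850702724),Int.ofNat (nat_lit 15222457527),Int.negSucc (nat_lit 1742157386),Int.negSucc (nat_lit 7961792148),Int.negSucc (nat_lit 6474402398),Int.negSucc (nat_lit 912025565),Int.negSucc (nat_lit 4884244598),Int.ofNat (nat_lit 1442813522),Int.ofNat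 (nat_lit 817464898),Int.negSucc (nat_lit 3973710651),Int.ofNat (nat_lit 4305446061),Int.ofNat (nat_lit 208857850),Int.ofNat (nat_lit 997948780),Int.negSucc (nat_lit 1758414076),Int.ofNat (nat_lit 301631406),Int.negSucc (nat_lit 1242392321),Int.negSucc (nat_lit 1754181590),Int.ofNat (nat_lit 17914174),Int.negSucc (nat_lit 2472784172),Int.negSucc (nat_lit 2221506124),Int.negSucc (nat_lit 980788018),Int.ofNat (nat_lit 4311222104),Int.ofNat (nat_lit 2959759077),Int.ofNat (nat_lit 3891312842),Int.negSucc (nat_lit 1656942771),Int.negSucc (nat_lit 1385709246),Int.ofNat (nat_lit 5390612577),Int.ofNat (nat_lit 4430296773),Int.ofNat (nat_lit 340594717),Int.negSucc (nat_lit 3186912571),Int.negSucc (nat_lit 425109760),Int.negSucc (nat_lit 1097495769),Int.negSucc (nat_lit 3063385216),Int.ofNat (nat_lit 1147249190),Int.ofNat (nat_lit 43646509),Int.ofNat (nat_lit 440998942),Int.ofNat (nat_lit 4365378325),Int.ofNat (nat_lit 1252315065),Int.negSucc (nat_lit 2879548355),Int.negSucc (nat_lit 3436088031),Int.ofNat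 (nat_lit 459792273),Int.ofNat (nat_lit 1292462130),Int.negSucc (nat_lit 3276248141),Int.ofNat (nat_lit 3553250629),Int.ofNat (nat_lit 524059317),Int.ofNat (nat_lit 1138196108),Int.ofNat (nat_lit 1420138069),Int.ofNat (nat_lit 286861990),Int.ofNat (nat_lit 3257474267),Int.negSucc (nat_lit 1459947351),Int.ofNat (nat_lit 699009248),Int.ofNat (nat_lit 2914275977),Int.negSucc (nat_lit 194784558),Int.ofNat (nat_lit 1493135987),Int.negSucc (nat_lit 3405525148),Int.negSucc (nat_lit 185684216),Int.ofNat (nat_lit 4267596227),Int.ofNat (nat_lit 1538554547),Int.negSucc (nat_lit 1963199202),Int.ofNat (nat_lit 3844805451),Int.ofNat (nat_lit 434671584),Int.ofNat (nat_lit 762964185),Int.negSucc (nat_lit 1606176082),Int.ofNat (nat_lit 1651062185),Int.ofNat (nat_lit 9071709211),Int.ofNat (nat_lit 1374175971),Int.negSucc (nat_lit 3130859310),Int.negSucc (nat_lit 16406757971),Int.ofNat (nat_lit 938563331),Int.ofNat (nat_lit 1590099658),Int.negSucc (nat_lit 2030788488),Int.ofNat (nat_lit 2476340794),Int.ofNat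 (nat_lit 570652188),Int.ofNat (nat_lit 285464147),Int.ofNat (nat_lit 333549188),Int.negSucc (nat_lit 1236655202),Int.ofNat (nat_lit 791893192),Int.negSucc (nat_lit 196137239),Int.negSucc (nat_lit 4168714925),Int.negSucc (nat_lit 156389558),Int.ofNat (nat_lit 821450798),Int.negSucc (nat_lit 173869273),Int.negSucc (nat_lit 746983171),Int.negSucc (nat_lit 1078087218),Int.ofNat (nat_lit 1039376845),Int.negSucc (nat_lit 680585021),Int.ofNat (nat_lit 723413199),Int.ofNat (nat_lit 442271989),Int.ofNat (nat_lit 1037488959),Int.negSucc (nat_lit 2507625037),Int.negSucc (nat_lit 2512093914),Int.ofNat (nat_lit 3941503079)])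

/-- A row. -/
noncomputable def sr3_c3_5 : List ℕ × List ℤ :=
  ([(nat_lit 2),(nat_lit 1),(nat_lit 0),(nat_lit 2),(nat_lit 0),(nat_lit 0),(nat_lit 0),(nat_lit 0),(nat_lit 0),(nat_lit 0),(nat_lit 0),(nat_lit 0)], [Int.negSucc (nat_lit 3896827076),Int.ofNat (nat_lit 2878529223),Int.negSucc (nat_lit 3086398379),Int.ofNat (nat_lit 4657966450),Int.negSucc (nat_lit 2914043863),Int.ofNat (nat_lit 2153722365),Int.negSucc (nat_lit 3025800054),Int.negSucc (nat_lit 4627997111),Int.negSucc (nat_lit 6547916585),Int.ofNat (nat_lit 308747967),Int.ofNat (nat_lit 379955238),Int.ofNat (nat_lit 1888803842),Int.ofNat (nat_lit 7763784716),Int.negSucc (nat_lit 314599426),Int.ofNat (nat_lit 1378796451),Int.negSucc (nat_lit 3437214525),Int.negSucc (nat_lit 505497806),Int.negSucc (nat_lit 907570013),Int.negSucc (nat_lit 1540598779),Int.negSucc (nat_lit 1451871213),Int.negSucc (nat_lit 1148459628),Int.negSucc (nat_lit 2479343397),Int.ofNat (nat_lit 186916995),Int.negSucc (nat_lit 4418032863),Int.negSucc (nat_lit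 1091495115),Int.negSucc (nat_lit 475923830),Int.negSucc (nat_lit 867180657),Int.negSucc (nat_lit 4272262355),Int.ofNat (nat_lit 2881847988),Int.ofNat (nat_lit 10714486830),Int.ofNat (nat_lit 868580764),Int.negSucc (nat_lit 858768086),Int.ofNat (nat_lit 1025113210),Int.negSucc (nat_lit 7174690839),Int.ofNat (nat_lit 1475684517),Int.negSucc (nat_lit 883781708),Int.ofNat (nat_lit 697933770),Int.ofNat (nat_lit 386280207),Int.ofNat (nat_lit 1331538887),Int.ofNat (nat_lit 3200372011),Int.ofNat (nat_lit 2385421009),Int.negSucc (nat_lit 929992478),Int.negSucc (nat_lit 2612033632),Int.negSucc (nat_lit 1278116005),Int.negSucc (nat_lit 645551918),Int.ofNat (nat_lit 598789438),Int.ofNat (nat_lit 2558540016),Int.ofNat (nat_lit 531486255),Int.ofNat (nat_lit 958630971),Int.ofNat (nat_lit 853947012),Int.ofNat (nat_lit 365016979),Int.ofNat (nat_lit 1253952835),Int.negSucc (nat_lit 807553267),Int.ofNat (nat_lit 548880148),Int.ofNat (nat_lit 1752965728),Int.ofNat (nat_lit 1099239664),Int.ofNat (nat_lit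 1129201419),Int.negSucc (nat_lit 3106522302),Int.negSucc (nat_lit 1308670097),Int.ofNat (nat_lit 1457354473),Int.ofNat (nat_lit 726947028),Int.negSucc (nat_lit 725259754),Int.ofNat (nat_lit 128709488),Int.ofNat (nat_lit 226783651),Int.negSucc (nat_lit 1282835110),Int.ofNat (nat_lit 1664768928),Int.ofNat (nat_lit 1439899171),Int.ofNat (nat_lit 4669597205),Int.ofNat (nat_lit 1290596871),Int.ofNat (nat_lit 688656379),Int.negSucc (nat_lit 1145283431),Int.ofNat (nat_lit 1427292861),Int.negSucc (nat_lit 10386157680),Int.negSucc (nat_lit 374905650),Int.ofNat (nat_lit 93737117),Int.ofNat (nat_lit 169160404),Int.ofNat (nat_lit 563591654),Int.ofNat (nat_lit 24680746),Int.negSucc (nat_lit 1167773356),Int.ofNat (nat_lit 186776698),Int.negSucc (nat_lit 376257124),Int.negSucc (nat_lit 1265871648),Int.negSucc (nat_lit 105373811),Int.ofNat (nat_lit 1004010053),Int.ofNat (nat_lit 35762153),Int.negSucc (nat_lit 267578864),Int.negSucc (nat_lit 173500426),Int.ofNat (nat_lit 859233362),Int.negSucc (nat_lit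 222300412),Int.ofNat (nat_lit 563039310),Int.ofNat (nat_lit 1056277877),Int.negSucc (nat_lit 187026582),Int.negSucc (nat_lit 724933334),Int.negSucc (nat_lit 1237169829),Int.ofNat (nat_lit 1008538945),Int.ofNat (nat_lit 2619648207)])

/-- A row. -/
noncomputable def sr3_c3_6 : List ℕ × List ℤ :=
  ([(nat_lit 2),(nat_lit 1),(nat_lit 1),(nat_lit 0),(nat_lit 0),(nat_lit 0),(nat_lit 0),(nat_lit 0),(nat_lit 0),(nat_lit 0),(nat_lit 0),(nat_lit 0)], [Int.ofNat (nat_lit 599766621),Int.ofNat (nat_lit 2973053066),Int.negSucc (nat_lit 2632860565),Int.ofNat (nat_lit 5536134292),Int.ofNat (nat_lit 4141982711),Int.negSucc (nat_lit 4314898608),Int.negSucc (nat_lit 10061201853),Int.ofNat (nat_lit 10376710670),Int.ofNat (nat_lit 6107703144),Int.negSucc (nat_lit 9332644336),Int.ofNat (nat_lit 4737325429),Int.ofNat (nat_lit 9902814964),Int.ofNat (nat_lit 4519976098),Int.ofNat (nat_lit 2439833879),Int.ofNat (nat_lit 2334622575),Int.negSucc (nat_lit 7038188563),Int.ofNat (nat_lit 7399785107),Int.ofNat (nat_lit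 8931604243),Int.negSucc (nat_lit 4699228370),Int.ofNat (nat_lit 3801852659),Int.ofNat (nat_lit 1249434644),Int.negSucc (nat_lit 6218079876),Int.negSucc (nat_lit 358594860),Int.negSucc (nat_lit 2110731698),Int.negSucc (nat_lit 14103744589),Int.ofNat (nat_lit 18175521113),Int.ofNat (nat_lit 2391889021),Int.negSucc (nat_lit 3260504451),Int.ofNat (nat_lit 3583575144),Int.ofNat (nat_lit 2136489889),Int.ofNat (nat_lit 919914342),Int.negSucc (nat_lit 5862266675),Int.ofNat (nat_lit 1813885518),Int.ofNat (nat_lit 1520187939),Int.negSucc (nat_lit 9447279109),Int.negSucc (nat_lit 22961100),Int.ofNat (nat_lit 219510588),Int.ofNat (nat_lit 222874277),Int.negSucc (nat_lit 1414271479),Int.negSucc (nat_lit 3212080941),Int.negSucc (nat_lit 1872275549),Int.ofNat (nat_lit 3397319047),Int.negSucc (nat_lit 292018839),Int.ofNat (nat_lit 58661686),Int.negSucc (nat_lit 1965595736),Int.ofNat (nat_lit 1525929768),Int.negSucc (nat_lit 132373633),Int.ofNat (nat_lit 6463199459),Int.ofNat (nat_lit 4489279145),Int.ofNat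 (nat_lit 911859587),Int.ofNat (nat_lit 3140455032),Int.negSucc (nat_lit 1338350699),Int.negSucc (nat_lit 6977143290),Int.ofNat (nat_lit 877053909),Int.negSucc (nat_lit 8274181585),Int.negSucc (nat_lit 297845753),Int.negSucc (nat_lit 1978817377),Int.ofNat (nat_lit 28550276),Int.negSucc (nat_lit 5537552501),Int.ofNat (nat_lit 2896227734),Int.negSucc (nat_lit 4224013261),Int.ofNat (nat_lit 2862214464),Int.negSucc (nat_lit 1307396049),Int.negSucc (nat_lit 3246645104),Int.ofNat (nat_lit 1738549266),Int.ofNat (nat_lit 4647155776),Int.negSucc (nat_lit 3964337621),Int.negSucc (nat_lit 20250817382),Int.negSucc (nat_lit 4483594765),Int.ofNat (nat_lit 3438291829),Int.negSucc (nat_lit 7425702733),Int.ofNat (nat_lit 1278894443),Int.negSucc (nat_lit 3744139949),Int.negSucc (nat_lit 18226087801),Int.negSucc (nat_lit 5773841735),Int.ofNat (nat_lit 2157470995),Int.negSucc (nat_lit 496626901),Int.negSucc (nat_lit 844676943),Int.ofNat (nat_lit 708919125),Int.ofNat (nat_lit 130107279),Int.ofNat (nat_lit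 646904144),Int.ofNat (nat_lit 1596892249),Int.ofNat (nat_lit 485727505),Int.negSucc (nat_lit 169844070),Int.ofNat (nat_lit 536660258),Int.negSucc (nat_lit 709334541),Int.ofNat (nat_lit 1471943538),Int.negSucc (nat_lit 899884223),Int.ofNat (nat_lit 631543838),Int.negSucc (nat_lit 1108868165),Int.negSucc (nat_lit 1909483932),Int.negSucc (nat_lit 1498291719),Int.ofNat (nat_lit 6895932704),Int.ofNat (nat_lit 214814679),Int.ofNat (nat_lit 561999507),Int.ofNat (nat_lit 847136973),Int.ofNat (nat_lit 6623706719)])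

/-- A row. -/
noncomputable def sr3_c3_7 : List ℕ × List ℤ :=
  ([(nat_lit 2),(nat_lit 1),(nat_lit 2),(nat_lit 0),(nat_lit 0),(nat_lit 0),(nat_lit 0),(nat_lit 0),(nat_lit 0),(nat_lit 0),(nat_lit 0),(nat_lit 0)], [Int.ofNat (nat_lit 2318254104),Int.ofNat (nat_lit 24704817),Int.negSucc (nat_lit 6300834246),Int.ofNat (nat_lit 3032775179),Int.ofNat (nat_lit 5374950846),Int.ofNat (nat_lit 681236519),Int.negSucc (nat_lit 2984919901),Int.negSucc (nat_lit 2023909893),Int.negSucc (nat_lit 1294521473),Int.negSucc (nat_lit 855158649),Int.ofNat (nat_lit 935452836),Int.ofNat (nat_lit 3912211004),Int.ofNat (nat_lit 107675207),Int.ofNat (nat_lit 293028581),Int.ofNat (nat_lit 64763067),Int.negSucc (nat_lit 2902462279),Int.ofNat (nat_lit 4413105396),Int.ofNat (nat_lit 550824164),Int.ofNat (nat_lit 1594984945),Int.ofNat (nat_lit 1150893179),Int.ofNat (nat_lit 2943679065),Int.negSucc (nat_lit 1801015293),Int.negSucc (nat_lit 572643319),Int.negSucc (nat_lit 5561749632),Int.negSucc (nat_lit 2438024650),Int.ofNat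 (nat_lit 3609247507),Int.negSucc (nat_lit 1898957233),Int.negSucc (nat_lit 3681812230),Int.negSucc (nat_lit 1431277861),Int.ofNat (nat_lit 2899435339),Int.ofNat (nat_lit 1459802592),Int.negSucc (nat_lit 2339609251),Int.ofNat (nat_lit 4225448924),Int.negSucc (nat_lit 821400216),Int.negSucc (nat_lit 7229521582),Int.negSucc (nat_lit 7874978476),Int.negSucc (nat_lit 646292228),Int.ofNat (nat_lit 188861113),Int.ofNat (nat_lit 284148787),Int.ofNat (nat_lit 517831362),Int.ofNat (nat_lit 332849710),Int.ofNat (nat_lit 535262448),Int.negSucc (nat_lit 3176058312),Int.negSucc (nat_lit 1669939551),Int.ofNat (nat_lit 877629852),Int.negSucc (nat_lit 926544974),Int.ofNat (nat_lit 146121101),Int.ofNat (nat_lit 1240871395),Int.ofNat (nat_lit 3829037725),Int.ofNat (nat_lit 838485866),Int.ofNat (nat_lit 1014034253),Int.ofNat (nat_lit 2186490793),Int.negSucc (nat_lit 2753607863),Int.ofNat (nat_lit 75968415),Int.negSucc (nat_lit 1418686735),Int.ofNat (nat_lit 1867056942),Int.negSucc (nat_lit 1213213804),Int.negSucc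 (nat_lit 277555735),Int.negSucc (nat_lit 1331065266),Int.negSucc (nat_lit 898046841),Int.negSucc (nat_lit 324865756),Int.negSucc (nat_lit 80138582),Int.negSucc (nat_lit 1068434111),Int.ofNat (nat_lit 1287452376),Int.negSucc (nat_lit 455901818),Int.negSucc (nat_lit 1882827172),Int.negSucc (nat_lit 568985721),Int.negSucc (nat_lit 824484637),Int.negSucc (nat_lit 1517316735),Int.negSucc (nat_lit 1446626140),Int.negSucc (nat_lit 4562780681),Int.ofNat (nat_lit 2076045410),Int.negSucc (nat_lit 1868219159),Int.negSucc (nat_lit 10548310116),Int.negSucc (nat_lit 646568828),Int.negSucc (nat_lit 6597382261),Int.ofNat (nat_lit 1945116),Int.ofNat (nat_lit 319280119),Int.negSucc (nat_lit 488064373),Int.ofNat (nat_lit 171039447),Int.negSucc (nat_lit 145381733),Int.negSucc (nat_lit 1142069907),Int.ofNat (nat_lit 54349109),Int.ofNat (nat_lit 143035722),Int.negSucc (nat_lit 47283204),Int.ofNat (nat_lit 111927329),Int.ofNat (nat_lit 204765898),Int.ofNat (nat_lit 275791203),Int.ofNat (nat_lit 227761857),Int.negSucc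 (nat_lit 238369333),Int.negSucc (nat_lit 448295790),Int.ofNat (nat_lit 200356900),Int.negSucc (nat_lit 962121258),Int.negSucc (nat_lit 743938085),Int.ofNat (nat_lit 1557647392),Int.ofNat (nat_lit 755087510),Int.ofNat (nat_lit 914755209),Int.ofNat (nat_lit 2036351536)])

/-- A row. -/
noncomputable def sr3_c3_8 : List ℕ × List ℤ :=
  ([(nat_lit 2),(nat_lit 2),(nat_lit 0),(nat_lit 0),(nat_lit 0),(nat_lit 1),(nat_lit 0),(nat_lit 0),(nat_lit 0),(nat_lit 0),(nat_lit 0),(nat_lit 0)], [Int.negSucc (nat_lit 1685683696),Int.negSucc (nat_lit 7616382637),Int.negSucc (nat_lit 2042246050),Int.negSucc (nat_lit 11525195283),Int.ofNat (nat_lit 6800235906),Int.negSucc (nat_lit 5073034159),Int.ofNat (nat_lit 1420295832),Int.ofNat (nat_lit 2208643849),Int.ofNat (nat_lit 1697139444),Int.negSucc (nat_lit 2078693576),Int.negSucc (nat_lit 4454698512),Int.negSucc (nat_lit 10167494996),Int.negSucc (nat_lit 9090236970),Int.ofNat (nat_lit 726070347),Int.ofNat (nat_lit 3708171849),Int.ofNat (nat_lit 4226619178),Int.negSucc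 (nat_lit 667852076),Int.negSucc (nat_lit 9061735271),Int.negSucc (nat_lit 12430796794),Int.ofNat (nat_lit 2375254817),Int.negSucc (nat_lit 5482244592),Int.ofNat (nat_lit 990980269),Int.ofNat (nat_lit 6586011597),Int.ofNat (nat_lit 1021090068),Int.negSucc (nat_lit 4183062615),Int.ofNat (nat_lit 2110902465),Int.negSucc (nat_lit 7397387847),Int.negSucc (nat_lit 833268092),Int.ofNat (nat_lit 9634793425),Int.negSucc (nat_lit 923548581),Int.ofNat (nat_lit 1783731490),Int.ofNat (nat_lit 44473378),Int.negSucc (nat_lit 3691588375),Int.ofNat (nat_lit 6474614115),Int.ofNat (nat_lit 3424466626),Int.ofNat (nat_lit 3713779800),Int.ofNat (nat_lit 1313375661),Int.ofNat (nat_lit 5303475176),Int.ofNat (nat_lit 1891674560),Int.negSucc (nat_lit 1539367869),Int.ofNat (nat_lit 3723520660),Int.negSucc (nat_lit 13561101817),Int.negSucc (nat_lit 829637450),Int.negSucc (nat_lit 1524022744),Int.ofNat (nat_lit 544422630),Int.ofNat (nat_lit 2083444189),Int.negSucc (nat_lit 171125399),Int.negSucc (nat_lit 3317882357),Int.negSucc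 (nat_lit 1005593501),Int.negSucc (nat_lit 174981782),Int.ofNat (nat_lit 364062867),Int.negSucc (nat_lit 554873691),Int.ofNat (nat_lit 1168959115),Int.ofNat (nat_lit 593902386),Int.ofNat (nat_lit 504084863),Int.negSucc (nat_lit 2989721150),Int.ofNat (nat_lit 632146244),Int.ofNat (nat_lit 8634514742),Int.ofNat (nat_lit 3060223368),Int.negSucc (nat_lit 1202531953),Int.ofNat (nat_lit 2682377022),Int.ofNat (nat_lit 3022606922),Int.negSucc (nat_lit 392485521),Int.ofNat (nat_lit 827172243),Int.negSucc (nat_lit 9043323020),Int.negSucc (nat_lit 1015732632),Int.negSucc (nat_lit 587110700),Int.negSucc (nat_lit 1661718973),Int.negSucc (nat_lit 3318956078),Int.negSucc (nat_lit 2958820789),Int.ofNat (nat_lit 1594007003),Int.negSucc (nat_lit 2750491424),Int.ofNat (nat_lit 4374852509),Int.ofNat (nat_lit 204679934),Int.ofNat (nat_lit 139064878),Int.ofNat (nat_lit 371784476),Int.negSucc (nat_lit 2946270747),Int.negSucc (nat_lit 16792459410),Int.ofNat (nat_lit 262405251),Int.ofNat (nat_lit 361362125),Int.ofNat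 (nat_lit 33753885),Int.negSucc (nat_lit 213302007),Int.ofNat (nat_lit 900768482),Int.negSucc (nat_lit 360763549),Int.negSucc (nat_lit 251077452),Int.ofNat (nat_lit 1183854558),Int.ofNat (nat_lit 302039568),Int.ofNat (nat_lit 34835181),Int.ofNat (nat_lit 415584818),Int.negSucc (nat_lit 554634513),Int.ofNat (nat_lit 36103313),Int.ofNat (nat_lit 333888650),Int.ofNat (nat_lit 1008118726),Int.ofNat (nat_lit 2091457861),Int.negSucc (nat_lit 1189392082),Int.negSucc (nat_lit 1391708753),Int.ofNat (nat_lit 427725339),Int.ofNat (nat_lit 940695086),Int.ofNat (nat_lit 4391437348)])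

/-- A row. -/
noncomputable def sr3_c3_9 : List ℕ × List ℤ :=
  ([(nat_lit 2),(nat_lit 2),(nat_lit 0),(nat_lit 1),(nat_lit 0),(nat_lit 0),(nat_lit 0),(nat_lit 0),(nat_lit 0),(nat_lit 0),(nat_lit 0),(nat_lit 0)], [Int.ofNat (nat_lit 4726882157),Int.ofNat (nat_lit 9398013077),Int.ofNat (nat_lit 3472331942),Int.ofNat (nat_lit 3977183433),Int.negSucc (nat_lit 5751378952),Int.ofNat (nat_lit 3177703503),Int.negSucc (nat_lit 1483262017),Int.negSucc (nat_lit 4368656962),Int.ofNat (nat_lit 513538052),Int.ofNat (nat_lit 8126005743),Int.ofNat (nat_lit 5290298830),Int.ofNat (nat_lit 2693648250),Int.ofNat (nat_lit 7265127922),Int.ofNat (nat_lit 1347764249),Int.negSucc (nat_lit 136733552),Int.ofNat (nat_lit 150973120),Int.ofNat (nat_lit 10346701885),Int.ofNat (nat_lit 1476930461),Int.ofNat (nat_lit 5781629180),Int.negSucc (nat_lit 8331218993),Int.negSucc (nat_lit 1098684149),Int.ofNat (nat_lit 521804058),Int.ofNat (nat_lit 478765653),Int.negSucc (nat_lit 3068317862),Int.ofNat (nat_lit 3537695699),Int.ofNat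 (nat_lit 4656432868),Int.ofNat (nat_lit 2149548931),Int.negSucc (nat_lit 3532832053),Int.negSucc (nat_lit 7125242775),Int.ofNat (nat_lit 10243276981),Int.ofNat (nat_lit 1429285053),Int.negSucc (nat_lit 866575976),Int.ofNat (nat_lit 390370940),Int.ofNat (nat_lit 637315311),Int.negSucc (nat_lit 5617277997),Int.ofNat (nat_lit 82482723),Int.ofNat (nat_lit 1205224955),Int.negSucc (nat_lit 3193617932),Int.ofNat (nat_lit 3130840170),Int.negSucc (nat_lit 7486013950),Int.ofNat (nat_lit 1862048734),Int.ofNat (nat_lit 342523166),Int.ofNat (nat_lit 886125300),Int.ofNat (nat_lit 3621728104),Int.ofNat (nat_lit 1430099676),Int.negSucc (nat_lit 1054902311),Int.ofNat (nat_lit 2970092054),Int.ofNat (nat_lit 2217595413),Int.ofNat (nat_lit 1418352821),Int.ofNat (nat_lit 3273023318),Int.negSucc (nat_lit 15990217210),Int.negSucc (nat_lit 1403429716),Int.negSucc (nat_lit 1118417284),Int.ofNat (nat_lit 1427273712),Int.ofNat (nat_lit 703819711),Int.ofNat (nat_lit 856435137),Int.negSucc (nat_lit 3491780041),Int.negSucc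 (nat_lit 2432259655),Int.negSucc (nat_lit 1583753249),Int.ofNat (nat_lit 17378648964),Int.negSucc (nat_lit 371666977),Int.ofNat (nat_lit 3761655092),Int.ofNat (nat_lit 4312072437),Int.ofNat (nat_lit 505344923),Int.ofNat (nat_lit 4663845720),Int.negSucc (nat_lit 9994684541),Int.ofNat (nat_lit 975940222),Int.negSucc (nat_lit 2002051657),Int.negSucc (nat_lit 1321627820),Int.negSucc (nat_lit 344051885),Int.negSucc (nat_lit 364660391),Int.ofNat (nat_lit 6179946304),Int.ofNat (nat_lit 4039697766),Int.ofNat (nat_lit 548091942),Int.negSucc (nat_lit 1831649518),Int.ofNat (nat_lit 1470066240),Int.ofNat (nat_lit 1631206411),Int.ofNat (nat_lit 3392124178),Int.negSucc (nat_lit 25835175131),Int.ofNat (nat_lit 4805257661),Int.negSucc (nat_lit 2025567533),Int.ofNat (nat_lit 2646819406),Int.negSucc (nat_lit 1660992950),Int.negSucc (nat_lit 7635862793),Int.ofNat (nat_lit 1237867957),Int.negSucc (nat_lit 2181773655),Int.ofNat (nat_lit 1624741975),Int.negSucc (nat_lit 5821247826),Int.negSucc (nat_lit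 2686403854),Int.negSucc (nat_lit 3024032110),Int.negSucc (nat_lit 4591034103),Int.ofNat (nat_lit 5673326367),Int.negSucc (nat_lit 3439835864),Int.negSucc (nat_lit 376459457),Int.ofNat (nat_lit 196177285),Int.negSucc (nat_lit 5922786965),Int.negSucc (nat_lit 3732416727),Int.negSucc (nat_lit 3236176513),Int.negSucc (nat_lit 1909564644),Int.ofNat (nat_lit 12185328320)])

/-- A row. -/
noncomputable def sr3_c3_10 : List ℕ × List ℤ :=
  ([(nat_lit 2),(nat_lit 3),(nat_lit 0),(nat_lit 0),(nat_lit 0),(nat_lit 0),(nat_lit 0),(nat_lit 0),(nat_lit 0),(nat_lit 0),(nat_lit 0),(nat_lit 0)], [Int.ofNat (nat_lit 15536176835),Int.negSucc (nat_lit 43429120759),Int.negSucc (nat_lit 5536457581),Int.negSucc (nat_lit 24003233332),Int.negSucc (nat_lit 29364657587),Int.ofNat (nat_lit 8418048210),Int.ofNat (nat_lit 4324433952),Int.negSucc (nat_lit 11861521820),Int.ofNat (nat_lit 1673288226),Int.ofNat (nat_lit 3014610435),Int.negSucc (nat_lit 13096293695),Int.negSucc (nat_lit 9393068685),Int.negSucc (nat_lit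 29305839807),Int.negSucc (nat_lit 8319482763),Int.negSucc (nat_lit 3535539784),Int.negSucc (nat_lit 3009066015),Int.negSucc (nat_lit 2700301812),Int.ofNat (nat_lit 3545585624),Int.negSucc (nat_lit 10193446393),Int.ofNat (nat_lit 213109697),Int.negSucc (nat_lit 13906354290),Int.negSucc (nat_lit 10764300950),Int.ofNat (nat_lit 4990678350),Int.ofNat (nat_lit 5792449296),Int.ofNat (nat_lit 10079037661),Int.negSucc (nat_lit 14369610013),Int.negSucc (nat_lit 11728037481),Int.negSucc (nat_lit 6684794188),Int.ofNat (nat_lit 7103786105),Int.negSucc (nat_lit 19611638112),Int.ofNat (nat_lit 4495539546),Int.ofNat (nat_lit 6182913607),Int.ofNat (nat_lit 10808509036),Int.ofNat (nat_lit 19190376140),Int.ofNat (nat_lit 2526009859),Int.ofNat (nat_lit 14989986198),Int.ofNat (nat_lit 13351551233),Int.ofNat (nat_lit 15636815595),Int.negSucc (nat_lit 11360078450),Int.ofNat (nat_lit 37842483397),Int.ofNat (nat_lit 18553189486),Int.negSucc (nat_lit 11370591408),Int.negSucc (nat_lit 99954386),Int.negSucc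 (nat_lit 15886066472),Int.ofNat (nat_lit 1570950251),Int.negSucc (nat_lit 6676535553),Int.ofNat (nat_lit 1622669564),Int.negSucc (nat_lit 29858781509),Int.negSucc (nat_lit 2071270992),Int.negSucc (nat_lit 3221203264),Int.ofNat (nat_lit 10191272698),Int.ofNat (nat_lit 23080408987),Int.ofNat (nat_lit 7920477247),Int.negSucc (nat_lit 11576845877),Int.ofNat (nat_lit 1942047719),Int.negSucc (nat_lit 7425976385),Int.ofNat (nat_lit 6785120225),Int.ofNat (nat_lit 11582147278),Int.ofNat (nat_lit 11314478652),Int.negSucc (nat_lit 10386587417),Int.negSucc (nat_lit 1799755037),Int.negSucc (nat_lit 7841851731),Int.negSucc (nat_lit 496182296),Int.ofNat (nat_lit 1459336477),Int.negSucc (nat_lit 5825292947),Int.ofNat (nat_lit 7015290473),Int.negSucc (nat_lit 5422289608),Int.ofNat (nat_lit 45875279833),Int.negSucc (nat_lit 1763744652),Int.negSucc (nat_lit 17932418075),Int.ofNat (nat_lit 19421573166),Int.negSucc (nat_lit 10190284086),Int.ofNat (nat_lit 10948275781),Int.negSucc (nat_lit 23133513710),Int.ofNat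 (nat_lit 3810612412),Int.ofNat (nat_lit 1023204627),Int.negSucc (nat_lit 1506156806),Int.negSucc (nat_lit 4976451376),Int.ofNat (nat_lit 15600814011),Int.negSucc (nat_lit 11951790117),Int.negSucc (nat_lit 39674916904),Int.negSucc (nat_lit 8682409532),Int.negSucc (nat_lit 1803830226),Int.ofNat (nat_lit 6187078893),Int.ofNat (nat_lit 5783051303),Int.ofNat (nat_lit 3544364816),Int.negSucc (nat_lit 2650439564),Int.ofNat (nat_lit 6679723675),Int.ofNat (nat_lit 1333759991),Int.ofNat (nat_lit 4103468704),Int.ofNat (nat_lit 3322407039),Int.negSucc (nat_lit 6269036781),Int.negSucc (nat_lit 6527459882),Int.ofNat (nat_lit 2148630122),Int.negSucc (nat_lit 3160586627),Int.ofNat (nat_lit 6196981947),Int.ofNat (nat_lit 7643850910),Int.ofNat (nat_lit 4031925322),Int.ofNat (nat_lit 6467816558),Int.negSucc (nat_lit 10559564062),Int.ofNat (nat_lit 14683515426)])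

/-- A row. -/
noncomputable def sr3_c3_11 : List ℕ × List ℤ :=
  ([(nat_lit 2),(nat_lit 3),(nat_lit 1),(nat_lit 0),(nat_lit 0),(nat_lit 0),(nat_lit 0),(nat_lit 0),(nat_lit 0),(nat_lit 0),(nat_lit 0),(nat_lit 0)], [Int.negSucc (nat_lit 1760414223),Int.negSucc (nat_lit 8629384220),Int.ofNat (nat_lit 4854714937),Int.negSucc (nat_lit 10090369726),Int.negSucc (nat_lit 19269785546),Int.ofNat (nat_lit 1674924424),Int.ofNat (nat_lit 6622250509),Int.negSucc (nat_lit 12046809466),Int.negSucc (nat_lit 2489930648),Int.ofNat (nat_lit 16516118344),Int.negSucc (nat_lit 4631041970),Int.negSucc (nat_lit 11251793199),Int.negSucc (nat_lit 6132188686),Int.negSucc (nat_lit 9873829350),Int.negSucc (nat_lit 3587179120),Int.ofNat (nat_lit 4149829281),Int.negSucc (nat_lit 4625710540),Int.negSucc (nat_lit 9200791103),Int.ofNat (nat_lit 6030160667),Int.negSucc (nat_lit 33020052),Int.negSucc (nat_lit 3955064240),Int.ofNat (nat_lit 3979658186),Int.ofNat (nat_lit 4703232678),Int.ofNat (nat_lit 773904529),Int.ofNat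 (nat_lit 15078776526),Int.negSucc (nat_lit 9599901463),Int.negSucc (nat_lit 589820119),Int.ofNat (nat_lit 749544874),Int.negSucc (nat_lit 7973947630),Int.negSucc (nat_lit 4072565422),Int.negSucc (nat_lit 3513533075),Int.ofNat (nat_lit 6599480825),Int.ofNat (nat_lit 10366918658),Int.ofNat (nat_lit 833433761),Int.ofNat (nat_lit 6620648344),Int.negSucc (nat_lit 6617940652),Int.ofNat (nat_lit 2685396763),Int.negSucc (nat_lit 1547355689),Int.negSucc (nat_lit 607711472),Int.ofNat (nat_lit 8684650559),Int.ofNat (nat_lit 10382326455),Int.negSucc (nat_lit 5210713713),Int.ofNat (nat_lit 10202739014),Int.negSucc (nat_lit 10120948746),Int.ofNat (nat_lit 4948809753),Int.negSucc (nat_lit 2599899069),Int.negSucc (nat_lit 2381865590),Int.negSucc (nat_lit 18797896491),Int.negSucc (nat_lit 8994640163),Int.ofNat (nat_lit 361162546),Int.negSucc (nat_lit 3255247450),Int.negSucc (nat_lit 574662341),Int.ofNat (nat_lit 2868217581),Int.negSucc (nat_lit 4902943646),Int.ofNat (nat_lit 6712788478),Int.ofNat (nat_lit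 958659449),Int.ofNat (nat_lit 238118733),Int.ofNat (nat_lit 1119694320),Int.ofNat (nat_lit 5919129151),Int.negSucc (nat_lit 3028166569),Int.ofNat (nat_lit 359776458),Int.ofNat (nat_lit 2189332931),Int.ofNat (nat_lit 241127685),Int.ofNat (nat_lit 3542715819),Int.negSucc (nat_lit 4029895097),Int.negSucc (nat_lit 3263019537),Int.negSucc (nat_lit 3213895314),Int.ofNat (nat_lit 21338503830),Int.ofNat (nat_lit 3409099718),Int.negSucc (nat_lit 4123334206),Int.ofNat (nat_lit 7010864186),Int.negSucc (nat_lit 413553934),Int.ofNat (nat_lit 2588334442),Int.ofNat (nat_lit 7286030699),Int.ofNat (nat_lit 4856462051),Int.negSucc (nat_lit 15813092830),Int.ofNat (nat_lit 2879708643),Int.ofNat (nat_lit 490964357),Int.negSucc (nat_lit 2272823715),Int.negSucc (nat_lit 7803900181),Int.negSucc (nat_lit 13629625321),Int.negSucc (nat_lit 6455576384),Int.negSucc (nat_lit 22169914073),Int.ofNat (nat_lit 470739905),Int.ofNat (nat_lit 417034009),Int.ofNat (nat_lit 1678298526),Int.negSucc (nat_lit 737207751),Int.ofNat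 (nat_lit 23384267),Int.negSucc (nat_lit 2002226476),Int.negSucc (nat_lit 1228304882),Int.negSucc (nat_lit 144930183),Int.negSucc (nat_lit 1224232017),Int.negSucc (nat_lit 1046037525),Int.negSucc (nat_lit 727057179),Int.ofNat (nat_lit 1864057067),Int.ofNat (nat_lit 1269892322),Int.negSucc (nat_lit 1790736352),Int.ofNat (nat_lit 2143132506),Int.negSucc (nat_lit 425808693),Int.ofNat (nat_lit 1346477252),Int.ofNat (nat_lit 5112908744),Int.ofNat (nat_lit 10064019585)])

/-- A row. -/
noncomputable def sr3_c3_12 : List ℕ × List ℤ :=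
  ([(nat_lit 2),(nat_lit 5),(nat_lit 0),(nat_lit 0),(nat_lit 0),(nat_lit 0),(nat_lit 0),(nat_lit 0),(nat_lit 0),(nat_lit 0),(nat_lit 0),(nat_lit 0)], [Int.negSucc (nat_lit 10106192583),Int.ofNat (nat_lit 33660617883),Int.ofNat (nat_lit 6569514098),Int.ofNat (nat_lit 19124669034),Int.ofNat (nat_lit 19939657666),Int.negSucc (nat_lit 9113434120),Int.ofNat (nat_lit 3564602691),Int.ofNat (nat_lit 8727921945),Int.negSucc (nat_lit 6487152095),Int.ofNat (nat_lit 4490892076),Int.ofNat (nat_lit 9215935132),Int.negSucc (nat_lit 599856503),Int.ofNat (nat_lit 20847540831),Int.ofNat (nat_lit 4684571803),Int.ofNat (nat_lit 234858125),Int.ofNat (nat_lit 8123203935),Int.negSucc (nat_lit 966285912),Int.negSucc (nat_lit 10629397657),Int.ofNat (nat_lit 15576383212),Int.ofNat (nat_lit 3867125490),Int.ofNat (nat_lit 1634208275),Int.ofNat (nat_lit 16350380172),Int.negSucc (nat_lit 1087553490),Int.negSucc (nat_lit 1336236232),Int.negSucc (nat_lit 2961890673),Int.ofNat (nat_lit 7265435988),Int.ofNat (nat_lit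 6031641588),Int.ofNat (nat_lit 13126436569),Int.negSucc (nat_lit 7429524714),Int.ofNat (nat_lit 11710749895),Int.negSucc (nat_lit 2400209151),Int.negSucc (nat_lit 145779095),Int.negSucc (nat_lit 6577691676),Int.negSucc (nat_lit 12387612485),Int.ofNat (nat_lit 8002788131),Int.negSucc (nat_lit 14448774050),Int.negSucc (nat_lit 11891230432),Int.negSucc (nat_lit 12254525495),Int.ofNat (nat_lit 8731427464),Int.negSucc (nat_lit 30771771575),Int.negSucc (nat_lit 11283422717),Int.ofNat (nat_lit 8061605926),Int.ofNat (nat_lit 8313534955),Int.ofNat (nat_lit 7917098298),Int.negSucc (nat_lit 1130404760),Int.ofNat (nat_lit 10947670525),Int.negSucc (nat_lit 127503808),Int.ofNat (nat_lit 15680223217),Int.negSucc (nat_lit 772177111),Int.ofNat (nat_lit 315398069),Int.ofNat (nat_lit 2672229213),Int.negSucc (nat_lit 29615982011),Int.negSucc (nat_lit 4745068625),Int.negSucc (nat_lit 2436846190),Int.ofNat (nat_lit 2261740249),Int.ofNat (nat_lit 9529394529),Int.negSucc (nat_lit 3527347352),Int.negSucc (nat_lit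 6635384442),Int.negSucc (nat_lit 6428026978),Int.negSucc (nat_lit 66291358),Int.ofNat (nat_lit 3716417265),Int.ofNat (nat_lit 7272379414),Int.ofNat (nat_lit 2782691801),Int.ofNat (nat_lit 2364048505),Int.ofNat (nat_lit 1370929439),Int.negSucc (nat_lit 3439906005),Int.ofNat (nat_lit 1501402911),Int.negSucc (nat_lit 15901447054),Int.ofNat (nat_lit 2390337906),Int.ofNat (nat_lit 13839825841),Int.negSucc (nat_lit 10126891430),Int.ofNat (nat_lit 8272303747),Int.negSucc (nat_lit 4077529351),Int.ofNat (nat_lit 16380303271),Int.ofNat (nat_lit 1646098769),Int.negSucc (nat_lit 7219926374),Int.ofNat (nat_lit 2052418015),Int.ofNat (nat_lit 5773799153),Int.negSucc (nat_lit 3558690006),Int.ofNat (nat_lit 2907922345),Int.ofNat (nat_lit 37589662702),Int.ofNat (nat_lit 4565697855),Int.negSucc (nat_lit 19649474172),Int.negSucc (nat_lit 11913793221),Int.negSucc (nat_lit 20190102294),Int.ofNat (nat_lit 489164036),Int.ofNat (nat_lit 1280991117),Int.negSucc (nat_lit 2863663863),Int.negSucc (nat_lit 1444686980),Int.negSucc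 (nat_lit 745961617),Int.negSucc (nat_lit 633131859),Int.negSucc (nat_lit 954390133),Int.ofNat (nat_lit 571428695),Int.ofNat (nat_lit 301853470),Int.ofNat (nat_lit 805435453),Int.negSucc (nat_lit 5002347833),Int.negSucc (nat_lit 2372613925),Int.negSucc (nat_lit 1542984547),Int.negSucc (nat_lit 6878200048),Int.ofNat (nat_lit 3151872615),Int.negSucc (nat_lit 5412888943),Int.ofNat (nat_lit 5506010081),Int.ofNat (nat_lit 12505758196)])

/-- A row. -/
noncomputable def sr3_c3_13 : List ℕ × List ℤ :=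
  ([(nat_lit 3),(nat_lit 0),(nat_lit 0),(nat_lit 0),(nat_lit 0),(nat_lit 0),(nat_lit 0),(nat_lit 1),(nat_lit 0),(nat_lit 0),(nat_lit 0),(nat_lit 0)], [Int.negSucc (nat_lit 355513947),Int.negSucc (nat_lit 1500471411),Int.ofNat (nat_lit 5786092864),Int.negSucc (nat_lit 1516135067),Int.negSucc (nat_lit 1742274713),Int.negSucc (nat_lit 293042166),Int.ofNat (nat_lit 1967995701),Int.ofNat (nat_lit 360063995),Int.ofNat (nat_lit 53133076),Int.negSucc (nat_lit 244974966),Int.ofNat (nat_lit 989345471),Int.ofNat (nat_lit 1270808022),Int.ofNat (nat_lit 1222650381),Int.ofNat (nat_lit 1010627697),Int.ofNat (nat_lit 2930247642),Int.ofNat (nat_lit 1252900485),Int.ofNat (nat_lit 18435954),Int.ofNat (nat_lit 1114814644),Int.ofNat (nat_lit 1408104476),Int.negSucc (nat_lit 593174224),Int.ofNat (nat_lit 448992988),Int.ofNat (nat_lit 1608507213),Int.ofNat (nat_lit 215938174),Int.ofNat (nat_lit 835702748),Int.negSucc (nat_lit 277957733),Int.negSucc (nat_lit 369668814),Int.ofNat (nat_lit 865427793),Int.ofNat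 (nat_lit 252576504),Int.negSucc (nat_lit 89465894),Int.ofNat (nat_lit 401185342),Int.ofNat (nat_lit 100851649),Int.ofNat (nat_lit 368727702),Int.ofNat (nat_lit 180094565),Int.ofNat (nat_lit 424675861),Int.ofNat (nat_lit 831359637),Int.negSucc (nat_lit 190846998),Int.negSucc (nat_lit 138301223),Int.ofNat (nat_lit 360259452),Int.negSucc (nat_lit 77875840),Int.ofNat (nat_lit 399011336),Int.negSucc (nat_lit 62975657),Int.negSucc (nat_lit 371490705),Int.negSucc (nat_lit 89524512),Int.ofNat (nat_lit 68927284),Int.ofNat (nat_lit 195465074),Int.negSucc (nat_lit 7885553),Int.ofNat (nat_lit 441741710),Int.ofNat (nat_lit 229867061),Int.negSucc (nat_lit 156976366),Int.negSucc (nat_lit 31034311),Int.ofNat (nat_lit 59760511),Int.negSucc (nat_lit 121450882),Int.ofNat (nat_lit 194502739),Int.negSucc (nat_lit 23490731),Int.negSucc (nat_lit 987136765),Int.ofNat (nat_lit 508218479),Int.ofNat (nat_lit 2878091018),Int.negSucc (nat_lit 19001020),Int.ofNat (nat_lit 206692222),Int.ofNat (nat_lit 442745119),Int.ofNat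 (nat_lit 611761567),Int.ofNat (nat_lit 499014332),Int.negSucc (nat_lit 48630995),Int.negSucc (nat_lit 1663588278),Int.ofNat (nat_lit 256542148),Int.negSucc (nat_lit 541699619),Int.ofNat (nat_lit 571943585),Int.negSucc (nat_lit 41570047),Int.negSucc (nat_lit 848545558),Int.ofNat (nat_lit 56709952),Int.negSucc (nat_lit 82441998),Int.negSucc (nat_lit 188082514),Int.ofNat (nat_lit 77313502),Int.ofNat (nat_lit 217841939),Int.negSucc (nat_lit 26919611),Int.negSucc (nat_lit 17610011),Int.ofNat (nat_lit 611611829),Int.ofNat (nat_lit 42102230),Int.ofNat (nat_lit 117818710),Int.ofNat (nat_lit 378293023),Int.ofNat (nat_lit 103938571),Int.negSucc (nat_lit 25351709),Int.ofNat (nat_lit 47408923),Int.ofNat (nat_lit 181463591),Int.ofNat (nat_lit 44936858),Int.negSucc (nat_lit 275647046),Int.negSucc (nat_lit 1521944510),Int.ofNat (nat_lit 38530864),Int.negSucc (nat_lit 27253395),Int.ofNat (nat_lit 32231436),Int.ofNat (nat_lit 65735115),Int.ofNat (nat_lit 80857601),Int.negSucc (nat_lit 28670213),Int.negSucc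 (nat_lit 108491856),Int.ofNat (nat_lit 66094091),Int.ofNat (nat_lit 21720730),Int.negSucc (nat_lit 37814607),Int.negSucc (nat_lit 38715863),Int.negSucc (nat_lit 19722304),Int.negSucc (nat_lit 55487138),Int.ofNat (nat_lit 7380241),Int.ofNat (nat_lit 15020780),Int.negSucc (nat_lit 2403121),Int.ofNat (nat_lit 256349412)])

/-- A row. -/
noncomputable def sr3_c3_14 : List ℕ × List ℤ :=
  ([(nat_lit 3),(nat_lit 0),(nat_lit 0),(nat_lit 0),(nat_lit 0),(nat_lit 1),(nat_lit 0),(nat_lit 0),(nat_lit 0),(nat_lit 0),(nat_lit 0),(nat_lit 0)], [Int.negSucc (nat_lit 217549077),Int.ofNat (nat_lit 3388399726),Int.negSucc (nat_lit 6408615957),Int.ofNat (nat_lit 12300337298),Int.negSucc (nat_lit 419752413),Int.negSucc (nat_lit 5397691701),Int.negSucc (nat_lit 280309210),Int.ofNat (nat_lit 859035608),Int.ofNat (nat_lit 314521343),Int.ofNat (nat_lit 496025604),Int.ofNat (nat_lit 17976556),Int.ofNat (nat_lit 3731032957),Int.ofNat (nat_lit 876086432),Int.ofNat (nat_lit 2067168681),Int.negSucc (nat_lit 1374927903),Int.negSucc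 (nat_lit 803842946),Int.negSucc (nat_lit 236959832),Int.negSucc (nat_lit 2509523032),Int.ofNat (nat_lit 566867915),Int.ofNat (nat_lit 663466410),Int.negSucc (nat_lit 1751531867),Int.ofNat (nat_lit 171210247),Int.ofNat (nat_lit 3013552637),Int.negSucc (nat_lit 162730008),Int.ofNat (nat_lit 1236334390),Int.ofNat (nat_lit 981987799),Int.negSucc (nat_lit 1964261432),Int.negSucc (nat_lit 59916913),Int.negSucc (nat_lit 684427774),Int.negSucc (nat_lit 12652359),Int.negSucc (nat_lit 480054647),Int.negSucc (nat_lit 357226833),Int.ofNat (nat_lit 81513023),Int.negSucc (nat_lit 16426079),Int.ofNat (nat_lit 1480760588),Int.ofNat (nat_lit 442846279),Int.negSucc (nat_lit 1127189309),Int.ofNat (nat_lit 390466496),Int.ofNat (nat_lit 4494358248),Int.negSucc (nat_lit 983152364),Int.ofNat (nat_lit 1056416443),Int.negSucc (nat_lit 861801438),Int.ofNat (nat_lit 471917773),Int.negSucc (nat_lit 686822344),Int.ofNat (nat_lit 193761659),Int.ofNat (nat_lit 333194805),Int.negSucc (nat_lit 397767670),Int.negSucc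 (nat_lit 278930712),Int.ofNat (nat_lit 81679632),Int.ofNat (nat_lit 1276221523),Int.negSucc (nat_lit 101641746),Int.negSucc (nat_lit 107852158),Int.negSucc (nat_lit 65721527),Int.negSucc (nat_lit 24263816),Int.negSucc (nat_lit 409373663),Int.ofNat (nat_lit 523335534),Int.ofNat (nat_lit 1640130181),Int.ofNat (nat_lit 4143498854),Int.ofNat (nat_lit 2451608344),Int.negSucc (nat_lit 927247864),Int.ofNat (nat_lit 12663711),Int.ofNat (nat_lit 2027844584),Int.negSucc (nat_lit 1117907757),Int.ofNat (nat_lit 1700897656),Int.negSucc (nat_lit 6238547208),Int.ofNat (nat_lit 915347895),Int.negSucc (nat_lit 58537820),Int.negSucc (nat_lit 305034225),Int.negSucc (nat_lit 1615987174),Int.ofNat (nat_lit 108515862),Int.ofNat (nat_lit 108592471),Int.ofNat (nat_lit 978818820),Int.negSucc (nat_lit 1320932703),Int.negSucc (nat_lit 561706551),Int.ofNat (nat_lit 147124433),Int.ofNat (nat_lit 273039428),Int.negSucc (nat_lit 615930609),Int.ofNat (nat_lit 3815996982),Int.ofNat (nat_lit 630091199),Int.negSucc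 (nat_lit 381418221),Int.ofNat (nat_lit 125582380),Int.ofNat (nat_lit 1184473609),Int.ofNat (nat_lit 814234688),Int.negSucc (nat_lit 336982783),Int.negSucc (nat_lit 155324113),Int.ofNat (nat_lit 2070043330),Int.negSucc (nat_lit 1397403544),Int.negSucc (nat_lit 6750142306),Int.ofNat (nat_lit 173110990),Int.negSucc (nat_lit 940651258),Int.ofNat (nat_lit 1062068009),Int.negSucc (nat_lit 200330921),Int.negSucc (nat_lit 90430409),Int.negSucc (nat_lit 154356776),Int.negSucc (nat_lit 164909872),Int.ofNat (nat_lit 456330678),Int.ofNat (nat_lit 272974786),Int.negSucc (nat_lit 339052289),Int.negSucc (nat_lit 789942025),Int.ofNat (nat_lit 142534760),Int.negSucc (nat_lit 40557152),Int.negSucc (nat_lit 11481825),Int.negSucc (nat_lit 76145179),Int.negSucc (nat_lit 152396681),Int.ofNat (nat_lit 939572278)])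

/-- A row. -/
noncomputable def sr3_c3_15 : List ℕ × List ℤ :=
  ([(nat_lit 3),(nat_lit 0),(nat_lit 0),(nat_lit 1),(nat_lit 0),(nat_lit 0),(nat_lit 0),(nat_lit 0),(nat_lit 0),(nat_lit 0),(nat_lit 0),(nat_lit 0)], [Int.ofNat (nat_lit 93570582),Int.ofNat (nat_lit 733274471),Int.ofNat (nat_lit 7277116902),Int.negSucc (nat_lit 849056094),Int.negSucc (nat_lit 14593051273),Int.negSucc (nat_lit 4656404562),Int.negSucc (nat_lit 18193890648),Int.ofNat (nat_lit 16514385017),Int.ofNat (nat_lit 4955963255),Int.negSucc (nat_lit 227182323),Int.ofNat (nat_lit 653607540),Int.ofNat (nat_lit 1633646477),Int.ofNat (nat_lit 4883588338),Int.ofNat (nat_lit 617946263),Int.ofNat (nat_lit 717401662),Int.negSucc (nat_lit 270642035),Int.ofNat (nat_lit 6382227557),Int.ofNat (nat_lit 3021108902),Int.ofNat (nat_lit 438034334),Int.ofNat (nat_lit 584889877),Int.ofNat (nat_lit 1557511023),Int.negSucc (nat_lit 4692126018),Int.negSucc (nat_lit 950069941),Int.negSucc (nat_lit 697055614),Int.negSucc (nat_lit 483614681),Int.ofNat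 (nat_lit 1901736618),Int.negSucc (nat_lit 200347132),Int.negSucc (nat_lit 1446477112),Int.ofNat (nat_lit 753193242),Int.ofNat (nat_lit 698485136),Int.ofNat (nat_lit 52060384),Int.negSucc (nat_lit 1872104780),Int.negSucc (nat_lit 353168743),Int.negSucc (nat_lit 73783339),Int.negSucc (nat_lit 555918529),Int.ofNat (nat_lit 1439209676),Int.ofNat (nat_lit 1989451392),Int.ofNat (nat_lit 205697113),Int.negSucc (nat_lit 1874531218),Int.ofNat (nat_lit 912281596),Int.negSucc (nat_lit 1497360524),Int.negSucc (nat_lit 485161051),Int.ofNat (nat_lit 693499549),Int.ofNat (nat_lit 1498295805),Int.negSucc (nat_lit 151607203),Int.negSucc (nat_lit 234325688),Int.ofNat (nat_lit 1925060460),Int.ofNat (nat_lit 826190581),Int.negSucc (nat_lit 490459287),Int.ofNat (nat_lit 70972958),Int.negSucc (nat_lit 764361165),Int.negSucc (nat_lit 276557931),Int.negSucc (nat_lit 277489890),Int.ofNat (nat_lit 9144830),Int.negSucc (nat_lit 885110529),Int.negSucc (nat_lit 191475355),Int.negSucc (nat_lit 2317207164),Int.ofNat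 (nat_lit 219129075),Int.negSucc (nat_lit 1971030478),Int.ofNat (nat_lit 11343833676),Int.negSucc (nat_lit 2514790304),Int.ofNat (nat_lit 3645995028),Int.ofNat (nat_lit 2059346158),Int.negSucc (nat_lit 1430351614),Int.ofNat (nat_lit 2369193273),Int.negSucc (nat_lit 961231566),Int.negSucc (nat_lit 2507016263),Int.negSucc (nat_lit 1173302814),Int.ofNat (nat_lit 471608177),Int.ofNat (nat_lit 793022275),Int.ofNat (nat_lit 837766984),Int.ofNat (nat_lit 430835160),Int.ofNat (nat_lit 1217059758),Int.ofNat (nat_lit 916192622),Int.negSucc (nat_lit 120327260),Int.ofNat (nat_lit 1486373130),Int.ofNat (nat_lit 274490001),Int.negSucc (nat_lit 739331220),Int.negSucc (nat_lit 1932588282),Int.ofNat (nat_lit 1532364678),Int.negSucc (nat_lit 674216722),Int.negSucc (nat_lit 20106910),Int.negSucc (nat_lit 1297296805),Int.negSucc (nat_lit 639005961),Int.ofNat (nat_lit 89950427),Int.negSucc (nat_lit 2326003070),Int.ofNat (nat_lit 1401029274),Int.ofNat (nat_lit 502917886),Int.negSucc (nat_lit 7579332205),Int.negSucc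 (nat_lit 807091872),Int.negSucc (nat_lit 885318346),Int.ofNat (nat_lit 1167841688),Int.ofNat (nat_lit 376311262),Int.ofNat (nat_lit 237539573),Int.ofNat (nat_lit 230532201),Int.ofNat (nat_lit 457584129),Int.negSucc (nat_lit 572095121),Int.negSucc (nat_lit 92430880),Int.ofNat (nat_lit 411751842),Int.negSucc (nat_lit 798851412),Int.negSucc (nat_lit 147634123),Int.negSucc (nat_lit 22344786),Int.ofNat (nat_lit 296354339),Int.negSucc (nat_lit 725637552),Int.ofNat (nat_lit 31785249),Int.ofNat (nat_lit 2540488760)])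

/-- A row. -/
noncomputable def sr3_c3_16 : List ℕ × List ℤ :=
  ([(nat_lit 3),(nat_lit 0),(nat_lit 1),(nat_lit 1),(nat_lit 0),(nat_lit 0),(nat_lit 0),(nat_lit 0),(nat_lit 0),(nat_lit 0),(nat_lit 0),(nat_lit 0)], [Int.negSucc (nat_lit 726434839),Int.ofNat (nat_lit 2918780092),Int.ofNat (nat_lit 662650421),Int.ofNat (nat_lit 2921802059),Int.negSucc (nat_lit 9134343510),Int.negSucc (nat_lit 3746910441),Int.negSucc (nat_lit 7223436377),Int.ofNat (nat_lit 7201770147),Int.ofNat (nat_lit 3335386737),Int.negSucc (nat_lit 778336635),Int.ofNat (nat_lit 1384874185),Int.ofNat (nat_lit 2001519638),Int.ofNat (nat_lit 1906773451),Int.ofNat (nat_lit 3074637802),Int.ofNat (nat_lit 349020386),Int.negSucc (nat_lit 1364648269),Int.ofNat (nat_lit 6768276896),Int.ofNat (nat_lit 3802828596),Int.ofNat (nat_lit 1090986989),Int.ofNat (nat_lit 4922379395),Int.negSucc (nat_lit 115627629),Int.negSucc (nat_lit 3076487767),Int.ofNat (nat_lit 37932985),Int.ofNat (nat_lit 707752995),Int.negSucc (nat_lit 700719931),Int.ofNat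 (nat_lit 2089989388),Int.ofNat (nat_lit 136570487),Int.ofNat (nat_lit 598645444),Int.ofNat (nat_lit 1130209482),Int.ofNat (nat_lit 797762468),Int.ofNat (nat_lit 338289278),Int.negSucc (nat_lit 229243822),Int.negSucc (nat_lit 150232590),Int.ofNat (nat_lit 319825623),Int.ofNat (nat_lit 1551660784),Int.ofNat (nat_lit 1037387917),Int.ofNat (nat_lit 1016218252),Int.negSucc (nat_lit 136440814),Int.negSucc (nat_lit 42217680),Int.ofNat (nat_lit 850260168),Int.ofNat (nat_lit 227425520),Int.negSucc (nat_lit 1170268687),Int.ofNat (nat_lit 728215803),Int.ofNat (nat_lit 977905277),Int.negSucc (nat_lit 331528600),Int.ofNat (nat_lit 187852144),Int.ofNat (nat_lit 1243314318),Int.ofNat (nat_lit 596167897),Int.negSucc (nat_lit 628394555),Int.negSucc (nat_lit 162211333),Int.ofNat (nat_lit 481708173),Int.negSucc (nat_lit 509502334),Int.negSucc (nat_lit 244037189),Int.negSucc (nat_lit 333505031),Int.negSucc (nat_lit 147275442),Int.negSucc (nat_lit 566387947),Int.ofNat (nat_lit 1384984915),Int.negSucc (nat_lit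 175659900),Int.ofNat (nat_lit 566544),Int.ofNat (nat_lit 6571471833),Int.negSucc (nat_lit 1645179628),Int.ofNat (nat_lit 2361761285),Int.ofNat (nat_lit 44373028),Int.negSucc (nat_lit 1231825873),Int.ofNat (nat_lit 632395401),Int.ofNat (nat_lit 3157105055),Int.negSucc (nat_lit 4714576165),Int.negSucc (nat_lit 290954472),Int.ofNat (nat_lit 21633652),Int.ofNat (nat_lit 510019173),Int.negSucc (nat_lit 37320236),Int.negSucc (nat_lit 489677449),Int.ofNat (nat_lit 145296208),Int.ofNat (nat_lit 735965328),Int.negSucc (nat_lit 124888996),Int.ofNat (nat_lit 595901512),Int.ofNat (nat_lit 750243068),Int.negSucc (nat_lit 216795649),Int.ofNat (nat_lit 85371406),Int.ofNat (nat_lit 352942722),Int.negSucc (nat_lit 131849107),Int.ofNat (nat_lit 419185045),Int.negSucc (nat_lit 705656308),Int.ofNat (nat_lit 29778582),Int.ofNat (nat_lit 22876454),Int.negSucc (nat_lit 490209689),Int.ofNat (nat_lit 261185854),Int.negSucc (nat_lit 218495367),Int.negSucc (nat_lit 1839560122),Int.negSucc (nat_lit 137768052),Int.ofNat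 (nat_lit 163031748),Int.negSucc (nat_lit 2700909100),Int.ofNat (nat_lit 18439246),Int.ofNat (nat_lit 13494180),Int.ofNat (nat_lit 76171095),Int.ofNat (nat_lit 123397478),Int.negSucc (nat_lit 68394057),Int.negSucc (nat_lit 16728025),Int.negSucc (nat_lit 78257263),Int.negSucc (nat_lit 60718124),Int.negSucc (nat_lit 14813813),Int.negSucc (nat_lit 90710702),Int.ofNat (nat_lit 92774093),Int.negSucc (nat_lit 89436738),Int.ofNat (nat_lit 52249486),Int.ofNat (nat_lit 168090823),Int.ofNat (nat_lit 514521671)])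

/-- A row. -/
noncomputable def sr3_c3_17 : List ℕ × List ℤ :=
  ([(nat_lit 3),(nat_lit 1),(nat_lit 0),(nat_lit 0),(nat_lit 0),(nat_lit 0),(nat_lit 0),(nat_lit 0),(nat_lit 0),(nat_lit 0),(nat_lit 0),(nat_lit 0)], [Int.negSucc (nat_lit 2909460651),Int.negSucc (nat_lit 1897214662),Int.ofNat (nat_lit 4075972038),Int.ofNat (nat_lit 24092066909),Int.ofNat (nat_lit 42208324580),Int.negSucc (nat_lit 31620976773),Int.ofNat (nat_lit 2121451751),Int.negSucc (nat_lit 7144383334),Int.ofNat (nat_lit 8322442749),Int.negSucc (nat_lit 3413594511),Int.negSucc (nat_lit 4065708274),Int.ofNat (nat_lit 219469119),Int.negSucc (nat_lit 12341777278),Int.ofNat (nat_lit 7558718740),Int.ofNat (nat_lit 11228267316),Int.ofNat (nat_lit 3254433694),Int.negSucc (nat_lit 2713103765),Int.negSucc (nat_lit 16607118853),Int.negSucc (nat_lit 2345736879),Int.negSucc (nat_lit 11199977869),Int.ofNat (nat_lit 29943064847),Int.negSucc (nat_lit 5725305886),Int.ofNat (nat_lit 11361988028),Int.negSucc (nat_lit 2538240099),Int.ofNat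 (nat_lit 8599409142),Int.ofNat (nat_lit 9215055430),Int.ofNat (nat_lit 2073333772),Int.ofNat (nat_lit 3606211942),Int.negSucc (nat_lit 6736163222),Int.ofNat (nat_lit 17439295837),Int.negSucc (nat_lit 41730446),Int.ofNat (nat_lit 589275544),Int.ofNat (nat_lit 1746862048),Int.ofNat (nat_lit 945613141),Int.ofNat (nat_lit 6417197721),Int.ofNat (nat_lit 1732491092),Int.negSucc (nat_lit 3707676526),Int.negSucc (nat_lit 1431701520),Int.ofNat (nat_lit 1512591149),Int.ofNat (nat_lit 5048540850),Int.ofNat (nat_lit 7145433229),Int.ofNat (nat_lit 2535523767),Int.ofNat (nat_lit 254352345),Int.ofNat (nat_lit 13433227189),Int.negSucc (nat_lit 1014690963),Int.negSucc (nat_lit 1719626075),Int.ofNat (nat_lit 1802533156),Int.negSucc (nat_lit 2717440272),Int.negSucc (nat_lit 492695879),Int.ofNat (nat_lit 2761148513),Int.ofNat (nat_lit 1342261077),Int.ofNat (nat_lit 8385427297),Int.ofNat (nat_lit 4588643859),Int.negSucc (nat_lit 3336282969),Int.negSucc (nat_lit 4025719606),Int.ofNat (nat_lit 6760372797),Int.ofNat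 (nat_lit 7191964744),Int.negSucc (nat_lit 10307368856),Int.negSucc (nat_lit 5245954192),Int.ofNat (nat_lit 7848544755),Int.negSucc (nat_lit 370008424),Int.ofNat (nat_lit 1022502889),Int.ofNat (nat_lit 4998026964),Int.ofNat (nat_lit 4247472430),Int.negSucc (nat_lit 9437247890),Int.negSucc (nat_lit 1366700348),Int.ofNat (nat_lit 3544006455),Int.ofNat (nat_lit 15983537791),Int.negSucc (nat_lit 1786214366),Int.negSucc (nat_lit 12353807919),Int.negSucc (nat_lit 734892761),Int.ofNat (nat_lit 7110211241),Int.ofNat (nat_lit 3215001107),Int.negSucc (nat_lit 19978552119),Int.ofNat (nat_lit 9514148908),Int.ofNat (nat_lit 3826472137),Int.ofNat (nat_lit 2281832487),Int.ofNat (nat_lit 3411671986),Int.ofNat (nat_lit 3674919420),Int.negSucc (nat_lit 4992684542),Int.ofNat (nat_lit 7049615304),Int.negSucc (nat_lit 2781361974),Int.negSucc (nat_lit 9726112848),Int.ofNat (nat_lit 2551446646),Int.ofNat (nat_lit 3809412100),Int.ofNat (nat_lit 2080035144),Int.negSucc (nat_lit 1385966682),Int.ofNat (nat_lit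 3632605498),Int.negSucc (nat_lit 1760220287),Int.ofNat (nat_lit 5596829139),Int.ofNat (nat_lit 9331387353),Int.negSucc (nat_lit 4394191042),Int.negSucc (nat_lit 32203485189),Int.ofNat (nat_lit 5215666487),Int.negSucc (nat_lit 2887423128),Int.negSucc (nat_lit 3188917382),Int.ofNat (nat_lit 1144460572),Int.ofNat (nat_lit 993202556),Int.negSucc (nat_lit 3107776902),Int.ofNat (nat_lit 812280666),Int.negSucc (nat_lit 1036466804),Int.negSucc (nat_lit 1917247372),Int.ofNat (nat_lit 316282551),Int.ofNat (nat_lit 2404730991),Int.negSucc (nat_lit 1046198507),Int.negSucc (nat_lit 2014251926),Int.ofNat (nat_lit 493864200),Int.ofNat (nat_lit 4431885234)])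

/-- A row. -/
noncomputable def sr3_c3_18 : List ℕ × List ℤ :=
  ([(nat_lit 3),(nat_lit 1),(nat_lit 0),(nat_lit 0),(nat_lit 1),(nat_lit 0),(nat_lit 0),(nat_lit 0),(nat_lit 0),(nat_lit 0),(nat_lit 0),(nat_lit 0)], [Int.negSucc (nat_lit 1171991279),Int.ofNat (nat_lit 3602483890),Int.negSucc (nat_lit 3126055367),Int.negSucc (nat_lit 2403424408),Int.negSucc (nat_lit 16809401169),Int.negSucc (nat_lit 1413386928),Int.ofNat (nat_lit 3241176411),Int.ofNat (nat_lit 2455956947),Int.ofNat (nat_lit 4727827442),Int.negSucc (nat_lit 7940352468),Int.negSucc (nat_lit 1025475242),Int.ofNat (nat_lit 44644566),Int.ofNat (nat_lit 2425870905),Int.negSucc (nat_lit 3162197357),Int.negSucc (nat_lit 270239624),Int.negSucc (nat_lit 1154073793),Int.negSucc (nat_lit 3357226628),Int.ofNat (nat_lit 8183984079),Int.negSucc (nat_lit 498624623),Int.ofNat (nat_lit 670791240),Int.negSucc (nat_lit 12089824493),Int.ofNat (nat_lit 5317568389),Int.ofNat (nat_lit 701537456),Int.ofNat (nat_lit 1876726992),Int.negSucc (nat_lit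 4769741752),Int.ofNat (nat_lit 6171111713),Int.ofNat (nat_lit 1289339547),Int.ofNat (nat_lit 1546248065),Int.ofNat (nat_lit 2234614252),Int.negSucc (nat_lit 6563226596),Int.negSucc (nat_lit 1995982819),Int.ofNat (nat_lit 2276953395),Int.ofNat (nat_lit 3614445889),Int.negSucc (nat_lit 96926857),Int.ofNat (nat_lit 1049219901),Int.ofNat (nat_lit 1352015254),Int.negSucc (nat_lit 526799172),Int.negSucc (nat_lit 15156753),Int.ofNat (nat_lit 816767656),Int.negSucc (nat_lit 2756627882),Int.ofNat (nat_lit 146401345),Int.ofNat (nat_lit 1694392887),Int.ofNat (nat_lit 2440761330),Int.negSucc (nat_lit 2157082510),Int.negSucc (nat_lit 752487087),Int.ofNat (nat_lit 4348068037),Int.negSucc (nat_lit 1387127994),Int.negSucc (nat_lit 576236783),Int.negSucc (nat_lit 264794207),Int.negSucc (nat_lit 1831672513),Int.negSucc (nat_lit 105934098),Int.negSucc (nat_lit 2404500475),Int.ofNat (nat_lit 310437785),Int.negSucc (nat_lit 403047400),Int.ofNat (nat_lit 716532166),Int.ofNat (nat_lit 1438856920),Int.negSucc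 (nat_lit 3331262472),Int.ofNat (nat_lit 1377288423),Int.ofNat (nat_lit 4735929761),Int.negSucc (nat_lit 5058650300),Int.negSucc (nat_lit 6800546),Int.ofNat (nat_lit 7512668730),Int.negSucc (nat_lit 3925973889),Int.negSucc (nat_lit 922978337),Int.ofNat (nat_lit 754445515),Int.ofNat (nat_lit 1455207282),Int.negSucc (nat_lit 1475958790),Int.negSucc (nat_lit 3052190821),Int.negSucc (nat_lit 926350218),Int.ofNat (nat_lit 4592193875),Int.ofNat (nat_lit 10884477172),Int.negSucc (nat_lit 1586142722),Int.negSucc (nat_lit 1348294110),Int.ofNat (nat_lit 2475964517),Int.negSucc (nat_lit 4029104860),Int.negSucc (nat_lit 1353568118),Int.negSucc (nat_lit 438873566),Int.negSucc (nat_lit 242242928),Int.ofNat (nat_lit 1417367733),Int.negSucc (nat_lit 919621786),Int.ofNat (nat_lit 300286414),Int.ofNat (nat_lit 4274038378),Int.ofNat (nat_lit 481916659),Int.negSucc (nat_lit 1387157079),Int.ofNat (nat_lit 346899907),Int.ofNat (nat_lit 1429854614),Int.ofNat (nat_lit 1833881073),Int.negSucc (nat_lit 948212624),Int.ofNat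 (nat_lit 1553771392),Int.negSucc (nat_lit 3529275354),Int.negSucc (nat_lit 613221148),Int.negSucc (nat_lit 1194939075),Int.ofNat (nat_lit 3095926809),Int.ofNat (nat_lit 1952602268),Int.negSucc (nat_lit 5043389978),Int.ofNat (nat_lit 535685135),Int.negSucc (nat_lit 148983253),Int.ofNat (nat_lit 376879653),Int.ofNat (nat_lit 49878808),Int.negSucc (nat_lit 145306398),Int.ofNat (nat_lit 23155908),Int.ofNat (nat_lit 126247993),Int.ofNat (nat_lit 92189377),Int.ofNat (nat_lit 80546676),Int.ofNat (nat_lit 23119255),Int.negSucc (nat_lit 224163350),Int.ofNat (nat_lit 70390927),Int.negSucc (nat_lit 158694694),Int.ofNat (nat_lit 819380046)])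

/-- A row. -/
noncomputable def sr3_c3_19 : List ℕ × List ℤ :=
  ([(nat_lit 3),(nat_lit 1),(nat_lit 1),(nat_lit 0),(nat_lit 0),(nat_lit 0),(nat_lit 0),(nat_lit 0),(nat_lit 0),(nat_lit 0),(nat_lit 0),(nat_lit 0)], [Int.negSucc (nat_lit 861319930),Int.negSucc (nat_lit 9125119712),Int.ofNat (nat_lit 12654108839),Int.ofNat (nat_lit 7772789121),Int.ofNat (nat_lit 26131288649),Int.negSucc (nat_lit 12289396812),Int.ofNat (nat_lit 676355814),Int.ofNat (nat_lit 4279236539),Int.ofNat (nat_lit 5638108512),Int.negSucc (nat_lit 4800431835),Int.ofNat (nat_lit 303680676),Int.negSucc (nat_lit 3367434241),Int.negSucc (nat_lit 5864507736),Int.ofNat (nat_lit 1770256357),Int.ofNat (nat_lit 8302472164),Int.ofNat (nat_lit 1716049406),Int.negSucc (nat_lit 4978317199),Int.negSucc (nat_lit 5146309892),Int.negSucc (nat_lit 7239995625),Int.negSucc (nat_lit 529561758),Int.ofNat (nat_lit 18350262167),Int.negSucc (nat_lit 5425564072),Int.ofNat (nat_lit 6921249405),Int.negSucc (nat_lit 457807965),Int.negSucc (nat_lit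 4751822670),Int.ofNat (nat_lit 9140155535),Int.ofNat (nat_lit 8750031935),Int.ofNat (nat_lit 2042464102),Int.ofNat (nat_lit 2058782777),Int.ofNat (nat_lit 9630932251),Int.ofNat (nat_lit 10792270936),Int.negSucc (nat_lit 3547038462),Int.ofNat (nat_lit 988577269),Int.negSucc (nat_lit 848525397),Int.ofNat (nat_lit 1934463069),Int.ofNat (nat_lit 119939170),Int.ofNat (nat_lit 266949613),Int.ofNat (nat_lit 109418088),Int.negSucc (nat_lit 198013107),Int.ofNat (nat_lit 609103331),Int.ofNat (nat_lit 1449679708),Int.ofNat (nat_lit 3462413136),Int.ofNat (nat_lit 1973398159),Int.ofNat (nat_lit 7674082269),Int.negSucc (nat_lit 2047003120),Int.ofNat (nat_lit 2465718123),Int.negSucc (nat_lit 394852144),Int.ofNat (nat_lit 2186376667),Int.negSucc (nat_lit 2598767314),Int.ofNat (nat_lit 1887020421),Int.negSucc (nat_lit 1329107219),Int.ofNat (nat_lit 2423262132),Int.ofNat (nat_lit 5969463446),Int.negSucc (nat_lit 1697870023),Int.negSucc (nat_lit 5814916388),Int.ofNat (nat_lit 79592898),Int.ofNat (nat_lit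 773728408),Int.negSucc (nat_lit 3714592168),Int.negSucc (nat_lit 2747065393),Int.ofNat (nat_lit 2601993479),Int.negSucc (nat_lit 3213608370),Int.negSucc (nat_lit 155940765),Int.ofNat (nat_lit 2747984729),Int.negSucc (nat_lit 2238561857),Int.negSucc (nat_lit 5014377295),Int.ofNat (nat_lit 4414637847),Int.ofNat (nat_lit 184429724),Int.ofNat (nat_lit 273254287),Int.negSucc (nat_lit 2958833746),Int.negSucc (nat_lit 4070146977),Int.ofNat (nat_lit 3826267433),Int.ofNat (nat_lit 2823934105),Int.ofNat (nat_lit 58571440),Int.negSucc (nat_lit 3032967911),Int.ofNat (nat_lit 8601568288),Int.negSucc (nat_lit 7990082160),Int.ofNat (nat_lit 2699677196),Int.ofNat (nat_lit 1435658216),Int.negSucc (nat_lit 934976416),Int.negSucc (nat_lit 884791611),Int.negSucc (nat_lit 4194854179),Int.negSucc (nat_lit 1465686872),Int.negSucc (nat_lit 4149561409),Int.negSucc (nat_lit 75108481),Int.negSucc (nat_lit 1560751124),Int.negSucc (nat_lit 427817725),Int.ofNat (nat_lit 946435141),Int.ofNat (nat_lit 2315418369),Int.negSucc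 (nat_lit 4446750130),Int.ofNat (nat_lit 2382136969),Int.ofNat (nat_lit 6466513846),Int.negSucc (nat_lit 2295333344),Int.negSucc (nat_lit 15856648972),Int.ofNat (nat_lit 4080129479),Int.negSucc (nat_lit 3328895456),Int.negSucc (nat_lit 3059225823),Int.negSucc (nat_lit 15980173156),Int.ofNat (nat_lit 2296912696),Int.negSucc (nat_lit 1044112370),Int.ofNat (nat_lit 213048828),Int.negSucc (nat_lit 705833148),Int.negSucc (nat_lit 2673867417),Int.ofNat (nat_lit 13385361),Int.ofNat (nat_lit 610763579),Int.negSucc (nat_lit 949443460),Int.ofNat (nat_lit 1115205609),Int.ofNat (nat_lit 1275045995),Int.ofNat (nat_lit 1411476225),Int.negSucc (nat_lit 1380997139),Int.ofNat (nat_lit 3216106250)])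

/-- A row. -/
noncomputable def sr3_c3_20 : List ℕ × List ℤ :=
  ([(nat_lit 3),(nat_lit 2),(nat_lit 0),(nat_lit 1),(nat_lit 0),(nat_lit 0),(nat_lit 0),(nat_lit 0),(nat_lit 0),(nat_lit 0),(nat_lit 0),(nat_lit 0)], [Int.ofNat (nat_lit 3265860998),Int.negSucc (nat_lit 6014050594),Int.negSucc (nat_lit 571959636),Int.negSucc (nat_lit 2797967177),Int.ofNat (nat_lit 7350511949),Int.negSucc (nat_lit 3093798529),Int.ofNat (nat_lit 5012540151),Int.negSucc (nat_lit 6967128224),Int.ofNat (nat_lit 8140216939),Int.negSucc (nat_lit 5956955643),Int.negSucc (nat_lit 9882338880),Int.ofNat (nat_lit 2691577980),Int.negSucc (nat_lit 17207047124),Int.ofNat (nat_lit 383014224),Int.negSucc (nat_lit 3360540143),Int.negSucc (nat_lit 266709911),Int.negSucc (nat_lit 4405417164),Int.ofNat (nat_lit 6831763521),Int.negSucc (nat_lit 1001689086),Int.ofNat (nat_lit 7713158626),Int.ofNat (nat_lit 331204911),Int.negSucc (nat_lit 825887854),Int.negSucc (nat_lit 1190829180),Int.ofNat (nat_lit 4535934891),Int.ofNat (nat_lit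 4207548460),Int.negSucc (nat_lit 4231306379),Int.negSucc (nat_lit 2160139930),Int.ofNat (nat_lit 10440285601),Int.negSucc (nat_lit 5909643950),Int.negSucc (nat_lit 15766854871),Int.negSucc (nat_lit 4137539714),Int.ofNat (nat_lit 2206498842),Int.negSucc (nat_lit 1116673363),Int.ofNat (nat_lit 13801786698),Int.ofNat (nat_lit 786561450),Int.negSucc (nat_lit 1066464598),Int.ofNat (nat_lit 55631150),Int.negSucc (nat_lit 1218549939),Int.negSucc (nat_lit 2443329450),Int.ofNat (nat_lit 19672448661),Int.ofNat (nat_lit 3074538486),Int.ofNat (nat_lit 7518765244),Int.ofNat (nat_lit 5791528594),Int.ofNat (nat_lit 3237460387),Int.negSucc (nat_lit 3110048891),Int.ofNat (nat_lit 889946043),Int.negSucc (nat_lit 2517506618),Int.negSucc (nat_lit 40549461),Int.negSucc (nat_lit 1749919526),Int.negSucc (nat_lit 3901025942),Int.ofNat (nat_lit 14117073705),Int.negSucc (nat_lit 2309475785),Int.negSucc (nat_lit 565602611),Int.negSucc (nat_lit 3376158516),Int.negSucc (nat_lit 2345784799),Int.negSucc (nat_lit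 655969228),Int.ofNat (nat_lit 15309502),Int.ofNat (nat_lit 3012060399),Int.ofNat (nat_lit 2568994153),Int.negSucc (nat_lit 13989610844),Int.negSucc (nat_lit 6633320895),Int.negSucc (nat_lit 1304645543),Int.negSucc (nat_lit 8822448190),Int.ofNat (nat_lit 1229827104),Int.ofNat (nat_lit 1011548856),Int.ofNat (nat_lit 5340870778),Int.negSucc (nat_lit 7785099634),Int.negSucc (nat_lit 3783571502),Int.ofNat (nat_lit 229769569),Int.ofNat (nat_lit 2176583887),Int.ofNat (nat_lit 237081973),Int.negSucc (nat_lit 4302153210),Int.ofNat (nat_lit 15741150872),Int.ofNat (nat_lit 1179667352),Int.negSucc (nat_lit 2268336942),Int.negSucc (nat_lit 3292041897),Int.negSucc (nat_lit 1175482721),Int.ofNat (nat_lit 4040848731),Int.ofNat (nat_lit 13170824907),Int.negSucc (nat_lit 12174260642),Int.ofNat (nat_lit 5322506539),Int.ofNat (nat_lit 690088078),Int.ofNat (nat_lit 1390212715),Int.ofNat (nat_lit 2976851036),Int.negSucc (nat_lit 1873733946),Int.ofNat (nat_lit 3372272681),Int.negSucc (nat_lit 862263986),Int.ofNat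 (nat_lit 5279805211),Int.ofNat (nat_lit 4775488325),Int.ofNat (nat_lit 865009119),Int.ofNat (nat_lit 2445249336),Int.negSucc (nat_lit 7431483199),Int.ofNat (nat_lit 5056903381),Int.ofNat (nat_lit 519387009),Int.negSucc (nat_lit 1416168529),Int.negSucc (nat_lit 1191017744),Int.ofNat (nat_lit 5371937858),Int.ofNat (nat_lit 5449400242),Int.negSucc (nat_lit 1861463398),Int.negSucc (nat_lit 17270417529),Int.negSucc (nat_lit 1664674148),Int.negSucc (nat_lit 176339358),Int.ofNat (nat_lit 1767713821),Int.ofNat (nat_lit 498772236),Int.negSucc (nat_lit 720834766),Int.ofNat (nat_lit 457312631),Int.ofNat (nat_lit 1419603254),Int.negSucc (nat_lit 1059424048),Int.ofNat (nat_lit 2269579688),Int.negSucc (nat_lit 1596866703),Int.ofNat (nat_lit 3255469433)])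

/-- A row. -/
noncomputable def sr3_c3_21 : List ℕ × List ℤ :=
  ([(nat_lit 3),(nat_lit 3),(nat_lit 0),(nat_lit 0),(nat_lit 0),(nat_lit 0),(nat_lit 0),(nat_lit 0),(nat_lit 0),(nat_lit 0),(nat_lit 0),(nat_lit 0)], [Int.negSucc (nat_lit 11260400054),Int.negSucc (nat_lit 7073123181),Int.negSucc (nat_lit 4874121633),Int.negSucc (nat_lit 25484224344),Int.negSucc (nat_lit 32135508523),Int.ofNat (nat_lit 26573787495),Int.ofNat (nat_lit 7966201),Int.ofNat (nat_lit 7221075346),Int.negSucc (nat_lit 7605984553),Int.ofNat (nat_lit 547634182),Int.ofNat (nat_lit 6314029410),Int.negSucc (nat_lit 2132881506),Int.ofNat (nat_lit 8832036416),Int.negSucc (nat_lit 8583107928),Int.negSucc (nat_lit 505547367),Int.negSucc (nat_lit 4306303011),Int.ofNat (nat_lit 257481542),Int.ofNat (nat_lit 10427543075),Int.negSucc (nat_lit 9683036700),Int.ofNat (nat_lit 7835281420),Int.negSucc (nat_lit 18765090230),Int.negSucc (nat_lit 973581326),Int.negSucc (nat_lit 13371973873),Int.ofNat (nat_lit 3648217247),Int.negSucc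 (nat_lit 13908485121),Int.negSucc (nat_lit 13925813062),Int.negSucc (nat_lit 5436576219),Int.negSucc (nat_lit 13924239048),Int.ofNat (nat_lit 21682359880),Int.negSucc (nat_lit 9476282415),Int.ofNat (nat_lit 16546479635),Int.negSucc (nat_lit 4525661611),Int.ofNat (nat_lit 858295095),Int.negSucc (nat_lit 1137671871),Int.negSucc (nat_lit 14440357220),Int.ofNat (nat_lit 9865610526),Int.ofNat (nat_lit 5399631131),Int.ofNat (nat_lit 6521636674),Int.negSucc (nat_lit 273969987),Int.negSucc (nat_lit 11798176825),Int.negSucc (nat_lit 6777260607),Int.negSucc (nat_lit 6777412762),Int.negSucc (nat_lit 5000857376),Int.ofNat (nat_lit 2507613372),Int.negSucc (nat_lit 570953182),Int.negSucc (nat_lit 147397894),Int.ofNat (nat_lit 3201468066),Int.negSucc (nat_lit 1401052649),Int.ofNat (nat_lit 2267564170),Int.ofNat (nat_lit 2084067850),Int.ofNat (nat_lit 837646478),Int.ofNat (nat_lit 15833335370),Int.negSucc (nat_lit 4916049086),Int.ofNat (nat_lit 13868835192),Int.ofNat (nat_lit 965112481),Int.negSucc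 (nat_lit 10773360994),Int.ofNat (nat_lit 1210825926),Int.ofNat (nat_lit 12021825192),Int.ofNat (nat_lit 5531976321),Int.negSucc (nat_lit 3697328994),Int.ofNat (nat_lit 6801159097),Int.negSucc (nat_lit 8007558588),Int.ofNat (nat_lit 5036773422),Int.negSucc (nat_lit 4556345520),Int.ofNat (nat_lit 4322586014),Int.ofNat (nat_lit 3820599676),Int.ofNat (nat_lit 1041075361),Int.negSucc (nat_lit 11464900647),Int.ofNat (nat_lit 1486098964),Int.ofNat (nat_lit 2331109605),Int.ofNat (nat_lit 3411484163),Int.negSucc (nat_lit 5649872290),Int.negSucc (nat_lit 10150944145),Int.ofNat (nat_lit 15894290823),Int.negSucc (nat_lit 2061837514),Int.negSucc (nat_lit 5503040972),Int.ofNat (nat_lit 2774231337),Int.negSucc (nat_lit 10864628352),Int.ofNat (nat_lit 4033216790),Int.ofNat (nat_lit 6663404493),Int.negSucc (nat_lit 19230596223),Int.ofNat (nat_lit 3093215480),Int.ofNat (nat_lit 9098480100),Int.negSucc (nat_lit 5057807903),Int.negSucc (nat_lit 28374430159),Int.negSucc (nat_lit 2526766793),Int.ofNat (nat_lit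 1144866742),Int.negSucc (nat_lit 5147722800),Int.ofNat (nat_lit 757938655),Int.negSucc (nat_lit 2083035061),Int.negSucc (nat_lit 4953966601),Int.ofNat (nat_lit 6859530493),Int.ofNat (nat_lit 26013761309),Int.negSucc (nat_lit 4646652267),Int.ofNat (nat_lit 6496044835),Int.ofNat (nat_lit 2996863834),Int.negSucc (nat_lit 16323962364),Int.ofNat (nat_lit 6400169),Int.ofNat (nat_lit 7048545488),Int.ofNat (nat_lit 1210820122),Int.negSucc (nat_lit 21228218642),Int.ofNat (nat_lit 5770762819),Int.negSucc (nat_lit 9605562983),Int.negSucc (nat_lit 3895441361),Int.ofNat (nat_lit 4040995383),Int.negSucc (nat_lit 2684844685),Int.ofNat (nat_lit 1049988660),Int.negSucc (nat_lit 8251247030),Int.negSucc (nat_lit 7109995141),Int.ofNat (nat_lit 9156999650),Int.negSucc (nat_lit 1680531828),Int.ofNat (nat_lit 12556222121)])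

/-- A row. -/
noncomputable def sr3_c3_22 : List ℕ × List ℤ :=
  ([(nat_lit 4),(nat_lit 0),(nat_lit 0),(nat_lit 0),(nat_lit 0),(nat_lit 1),(nat_lit 0),(nat_lit 0),(nat_lit 0),(nat_lit 0),(nat_lit 0),(nat_lit 0)], [Int.negSucc (nat_lit 685009512),Int.negSucc (nat_lit 3394089830),Int.ofNat (nat_lit 3262506028),Int.negSucc (nat_lit 7389375751),Int.ofNat (nat_lit 629909720),Int.ofNat (nat_lit 2678037733),Int.negSucc (nat_lit 6244533376),Int.ofNat (nat_lit 595140646),Int.negSucc (nat_lit 249706028),Int.ofNat (nat_lit 1355839188),Int.negSucc (nat_lit 1449675949),Int.negSucc (nat_lit 4008954343),Int.negSucc (nat_lit 488820690),Int.negSucc (nat_lit 2251635846),Int.ofNat (nat_lit 63486972),Int.ofNat (nat_lit 2393226156),Int.ofNat (nat_lit 1202756411),Int.negSucc (nat_lit 1034640323),Int.ofNat (nat_lit 1428407095),Int.ofNat (nat_lit 870344371),Int.ofNat (nat_lit 1373797022),Int.ofNat (nat_lit 1021749499),Int.negSucc (nat_lit 1698767953),Int.negSucc (nat_lit 759884744),Int.negSucc (nat_lit 345613019),Int.negSucc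 (nat_lit 304533419),Int.negSucc (nat_lit 1012896280),Int.negSucc (nat_lit 234591027),Int.ofNat (nat_lit 640646376),Int.negSucc (nat_lit 375437396),Int.ofNat (nat_lit 948580958),Int.negSucc (nat_lit 156061690),Int.negSucc (nat_lit 987206575),Int.ofNat (nat_lit 985417678),Int.negSucc (nat_lit 1629012236),Int.negSucc (nat_lit 352289731),Int.ofNat (nat_lit 828026741),Int.negSucc (nat_lit 377763496),Int.negSucc (nat_lit 3675784187),Int.negSucc (nat_lit 273535236),Int.negSucc (nat_lit 442569693),Int.negSucc (nat_lit 283231258),Int.ofNat (nat_lit 56111355),Int.ofNat (nat_lit 170889237),Int.negSucc (nat_lit 135476787),Int.negSucc (nat_lit 65930514),Int.ofNat (nat_lit 170204120),Int.ofNat (nat_lit 269035483),Int.negSucc (nat_lit 116006532),Int.negSucc (nat_lit 850238895),Int.negSucc (nat_lit 228108667),Int.negSucc (nat_lit 129018884),Int.negSucc (nat_lit 7864147),Int.negSucc (nat_lit 69425869),Int.ofNat (nat_lit 1798497687),Int.negSucc (nat_lit 614195842),Int.negSucc (nat_lit 1898175407),Int.ofNat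 (nat_lit 1660286867),Int.negSucc (nat_lit 507668486),Int.ofNat (nat_lit 605439129),Int.ofNat (nat_lit 112318532),Int.negSucc (nat_lit 1639185037),Int.ofNat (nat_lit 770621069),Int.negSucc (nat_lit 745863747),Int.ofNat (nat_lit 4989216990),Int.negSucc (nat_lit 546899254),Int.negSucc (nat_lit 413603779),Int.ofNat (nat_lit 121608830),Int.ofNat (nat_lit 1303353005),Int.negSucc (nat_lit 90457714),Int.negSucc (nat_lit 44573124),Int.negSucc (nat_lit 745372912),Int.ofNat (nat_lit 445457345),Int.ofNat (nat_lit 219358940),Int.ofNat (nat_lit 201727913),Int.negSucc (nat_lit 203733815),Int.ofNat (nat_lit 95659232),Int.negSucc (nat_lit 1825700848),Int.negSucc (nat_lit 386290849),Int.ofNat (nat_lit 97344945),Int.negSucc (nat_lit 57193789),Int.negSucc (nat_lit 473890798),Int.negSucc (nat_lit 507247099),Int.ofNat (nat_lit 27435309),Int.negSucc (nat_lit 5561650),Int.negSucc (nat_lit 1321247632),Int.ofNat (nat_lit 1324459172),Int.ofNat (nat_lit 4120744491),Int.negSucc (nat_lit 242604875),Int.ofNat (nat_lit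 1333526789),Int.negSucc (nat_lit 1732285722),Int.ofNat (nat_lit 21208052),Int.ofNat (nat_lit 215556058),Int.ofNat (nat_lit 220777965),Int.ofNat (nat_lit 167869658),Int.negSucc (nat_lit 462025612),Int.negSucc (nat_lit 466709102),Int.ofNat (nat_lit 255297017),Int.ofNat (nat_lit 708283178),Int.negSucc (nat_lit 101534539),Int.ofNat (nat_lit 77398496),Int.negSucc (nat_lit 27746245),Int.ofNat (nat_lit 129150964),Int.negSucc (nat_lit 122905016),Int.negSucc (nat_lit 1243149826),Int.ofNat (nat_lit 17313452),Int.ofNat (nat_lit 59903026),Int.negSucc (nat_lit 30395557),Int.negSucc (nat_lit 77326410),Int.ofNat (nat_lit 94300412),Int.ofNat (nat_lit 17511439),Int.negSucc (nat_lit 71643500),Int.ofNat (nat_lit 245806524)])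

/-- A row. -/
noncomputable def sr3_c3_23 : List ℕ × List ℤ :=
  ([(nat_lit 4),(nat_lit 0),(nat_lit 0),(nat_lit 1),(nat_lit 0),(nat_lit 0),(nat_lit 0),(nat_lit 0),(nat_lit 0),(nat_lit 0),(nat_lit 0),(nat_lit 0)], [Int.ofNat (nat_lit 789686203),Int.negSucc (nat_lit 5448154578),Int.negSucc (nat_lit 4341578825),Int.ofNat (nat_lit 2678246908),Int.negSucc (nat_lit 12635077028),Int.negSucc (nat_lit 350710959),Int.negSucc (nat_lit 8972811125),Int.negSucc (nat_lit 6476536314),Int.ofNat (nat_lit 2494657265),Int.ofNat (nat_lit 2376125796),Int.negSucc (nat_lit 1292953571),Int.negSucc (nat_lit 48729936),Int.ofNat (nat_lit 624237185),Int.negSucc (nat_lit 3606834336),Int.ofNat (nat_lit 2022873731),Int.negSucc (nat_lit 870388846),Int.ofNat (nat_lit 6816570482),Int.negSucc (nat_lit 213463482),Int.negSucc (nat_lit 586078806),Int.negSucc (nat_lit 9359878807),Int.ofNat (nat_lit 2565182714),Int.negSucc (nat_lit 7998483284),Int.negSucc (nat_lit 146904589),Int.negSucc (nat_lit 1046958902),Int.ofNat (nat_lit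 519975658),Int.ofNat (nat_lit 696521087),Int.ofNat (nat_lit 1316553644),Int.negSucc (nat_lit 1886003351),Int.negSucc (nat_lit 1927787041),Int.ofNat (nat_lit 1561246213),Int.negSucc (nat_lit 927168889),Int.negSucc (nat_lit 1383771093),Int.ofNat (nat_lit 897362906),Int.ofNat (nat_lit 1444715666),Int.negSucc (nat_lit 449687662),Int.negSucc (nat_lit 291742504),Int.ofNat (nat_lit 829034769),Int.ofNat (nat_lit 1200729072),Int.negSucc (nat_lit 661524310),Int.negSucc (nat_lit 2197133819),Int.negSucc (nat_lit 1887398099),Int.ofNat (nat_lit 679484121),Int.ofNat (nat_lit 2952761085),Int.ofNat (nat_lit 1351740405),Int.ofNat (nat_lit 79898563),Int.negSucc (nat_lit 1131109011),Int.ofNat (nat_lit 1521471233),Int.ofNat (nat_lit 416527609),Int.negSucc (nat_lit 128716272),Int.ofNat (nat_lit 174612512),Int.ofNat (nat_lit 619860039),Int.ofNat (nat_lit 1862571937),Int.negSucc (nat_lit 115629493),Int.negSucc (nat_lit 72746250),Int.negSucc (nat_lit 2252950133),Int.ofNat (nat_lit 691349627),Int.ofNat (nat_lit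 28863420),Int.negSucc (nat_lit 2462683100),Int.negSucc (nat_lit 1399659087),Int.ofNat (nat_lit 11995660420),Int.negSucc (nat_lit 637242650),Int.ofNat (nat_lit 726925324),Int.ofNat (nat_lit 2188416356),Int.negSucc (nat_lit 777335794),Int.negSucc (nat_lit 432101359),Int.negSucc (nat_lit 1637248764),Int.ofNat (nat_lit 399966692),Int.ofNat (nat_lit 390764149),Int.negSucc (nat_lit 692980139),Int.ofNat (nat_lit 95986578),Int.negSucc (nat_lit 972465091),Int.negSucc (nat_lit 121748275),Int.ofNat (nat_lit 1032840345),Int.ofNat (nat_lit 208020015),Int.ofNat (nat_lit 370593304),Int.negSucc (nat_lit 500153293),Int.ofNat (nat_lit 366351932),Int.negSucc (nat_lit 463589546),Int.ofNat (nat_lit 4694575680),Int.negSucc (nat_lit 181437293),Int.ofNat (nat_lit 63558250),Int.negSucc (nat_lit 832125604),Int.ofNat (nat_lit 582417960),Int.ofNat (nat_lit 1550137992),Int.negSucc (nat_lit 269511248),Int.negSucc (nat_lit 488071551),Int.negSucc (nat_lit 1668674577),Int.ofNat (nat_lit 1414385730),Int.ofNat (nat_lit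 3788523611),Int.ofNat (nat_lit 2533247769),Int.ofNat (nat_lit 1573527056),Int.negSucc (nat_lit 3723206973),Int.negSucc (nat_lit 976745602),Int.negSucc (nat_lit 586346724),Int.negSucc (nat_lit 438531456),Int.negSucc (nat_lit 1627820945),Int.ofNat (nat_lit 1430836593),Int.ofNat (nat_lit 604445595),Int.negSucc (nat_lit 260626926),Int.ofNat (nat_lit 1426383463),Int.ofNat (nat_lit 416320231),Int.ofNat (nat_lit 180371947),Int.negSucc (nat_lit 667346956),Int.ofNat (nat_lit 2459614839),Int.negSucc (nat_lit 906703972),Int.negSucc (nat_lit 6666534944),Int.ofNat (nat_lit 283950880),Int.ofNat (nat_lit 187362533),Int.ofNat (nat_lit 58411165),Int.negSucc (nat_lit 142925653),Int.negSucc (nat_lit 441264004),Int.ofNat (nat_lit 295594559),Int.negSucc (nat_lit 102165332),Int.ofNat (nat_lit 838266082)])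

/-- A row. -/
noncomputable def sr3_c3_24 : List ℕ × List ℤ :=
  ([(nat_lit 4),(nat_lit 1),(nat_lit 0),(nat_lit 0),(nat_lit 0),(nat_lit 0),(nat_lit 0),(nat_lit 0),(nat_lit 0),(nat_lit 0),(nat_lit 0),(nat_lit 0)], [Int.ofNat (nat_lit 8414133525),Int.ofNat (nat_lit 3399994360),Int.negSucc (nat_lit 4962984741),Int.negSucc (nat_lit 5961782559),Int.negSucc (nat_lit 19916444559),Int.ofNat (nat_lit 23832162853),Int.ofNat (nat_lit 10174361035),Int.negSucc (nat_lit 8855915607),Int.negSucc (nat_lit 19996775100),Int.ofNat (nat_lit 14209904834),Int.negSucc (nat_lit 6192483053),Int.negSucc (nat_lit 10143080316),Int.negSucc (nat_lit 1532647936),Int.negSucc (nat_lit 2591414612),Int.negSucc (nat_lit 15360049031),Int.ofNat (nat_lit 778431530),Int.negSucc (nat_lit 6585162835),Int.ofNat (nat_lit 518433404),Int.ofNat (nat_lit 7832289527),Int.ofNat (nat_lit 9894142104),Int.negSucc (nat_lit 26572753798),Int.ofNat (nat_lit 8530488781),Int.negSucc (nat_lit 7432801013),Int.negSucc (nat_lit 196639649),Int.ofNat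 (nat_lit 10900096198),Int.negSucc (nat_lit 23489216272),Int.negSucc (nat_lit 10347256383),Int.negSucc (nat_lit 579905039),Int.ofNat (nat_lit 2611551511),Int.negSucc (nat_lit 15131744000),Int.ofNat (nat_lit 5280560653),Int.ofNat (nat_lit 4684461343),Int.negSucc (nat_lit 1845080221),Int.ofNat (nat_lit 1640537980),Int.ofNat (nat_lit 5186603925),Int.ofNat (nat_lit 1381244059),Int.ofNat (nat_lit 4180341004),Int.negSucc (nat_lit 382817820),Int.ofNat (nat_lit 4556226838),Int.ofNat (nat_lit 1527219523),Int.ofNat (nat_lit 1856016691),Int.negSucc (nat_lit 8338708857),Int.negSucc (nat_lit 4129859918),Int.negSucc (nat_lit 16109370275),Int.ofNat (nat_lit 4514133727),Int.negSucc (nat_lit 2629444848),Int.negSucc (nat_lit 483841899),Int.negSucc (nat_lit 1963220980),Int.negSucc (nat_lit 1120303033),Int.negSucc (nat_lit 2413680476),Int.negSucc (nat_lit 1182348771),Int.negSucc (nat_lit 2648590378),Int.negSucc (nat_lit 610174028),Int.ofNat (nat_lit 3571188083),Int.ofNat (nat_lit 12069196440),Int.negSucc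 (nat_lit 3754937179),Int.ofNat (nat_lit 2160116565),Int.ofNat (nat_lit 9897890268),Int.ofNat (nat_lit 10745658515),Int.negSucc (nat_lit 18275585702),Int.ofNat (nat_lit 7445632688),Int.negSucc (nat_lit 11136910944),Int.negSucc (nat_lit 3647487562),Int.ofNat (nat_lit 2483440823),Int.ofNat (nat_lit 5509745298),Int.ofNat (nat_lit 2249450391),Int.ofNat (nat_lit 5478256496),Int.ofNat (nat_lit 24889114148),Int.ofNat (nat_lit 4735926896),Int.ofNat (nat_lit 4894743411),Int.ofNat (nat_lit 5240868165),Int.negSucc (nat_lit 6277959134),Int.ofNat (nat_lit 1451942616),Int.ofNat (nat_lit 11829321102),Int.negSucc (nat_lit 3242854027),Int.ofNat (nat_lit 4781953124),Int.negSucc (nat_lit 3473109460),Int.negSucc (nat_lit 441247801),Int.negSucc (nat_lit 3981591467),Int.ofNat (nat_lit 2197891853),Int.ofNat (nat_lit 4569228574),Int.ofNat (nat_lit 1997375682),Int.ofNat (nat_lit 5008166323),Int.negSucc (nat_lit 1017068951),Int.negSucc (nat_lit 3700239656),Int.ofNat (nat_lit 3156570832),Int.negSucc (nat_lit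 2920443077),Int.negSucc (nat_lit 5436597904),Int.ofNat (nat_lit 7025515185),Int.negSucc (nat_lit 2108666734),Int.negSucc (nat_lit 8281918426),Int.ofNat (nat_lit 7959058259),Int.ofNat (nat_lit 21889950245),Int.negSucc (nat_lit 7572365044),Int.ofNat (nat_lit 4494796160),Int.ofNat (nat_lit 4822273406),Int.ofNat (nat_lit 954060273),Int.negSucc (nat_lit 4637784053),Int.ofNat (nat_lit 4060522854),Int.negSucc (nat_lit 1456855461),Int.negSucc (nat_lit 2102437267),Int.ofNat (nat_lit 5201243738),Int.negSucc (nat_lit 1629043811),Int.negSucc (nat_lit 5637640532),Int.ofNat (nat_lit 3758275151),Int.ofNat (nat_lit 3034737043),Int.negSucc (nat_lit 2146134630),Int.negSucc (nat_lit 10277785567),Int.negSucc (nat_lit 1436581333),Int.ofNat (nat_lit 367970051),Int.ofNat (nat_lit 1188020447),Int.negSucc (nat_lit 1389690709),Int.negSucc (nat_lit 1603059165),Int.ofNat (nat_lit 870405845),Int.ofNat (nat_lit 3188327167)])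

/-- A row. -/
noncomputable def sr3_c3_25 : List ℕ × List ℤ :=
  ([(nat_lit 4),(nat_lit 1),(nat_lit 1),(nat_lit 0),(nat_lit 0),(nat_lit 0),(nat_lit 0),(nat_lit 0),(nat_lit 0),(nat_lit 0),(nat_lit 0),(nat_lit 0)], [Int.ofNat (nat_lit 287642635),Int.ofNat (nat_lit 4804445854),Int.negSucc (nat_lit 4542546371),Int.negSucc (nat_lit 6785700640),Int.negSucc (nat_lit 17399012303),Int.ofNat (nat_lit 10950109310),Int.ofNat (nat_lit 3549270087),Int.negSucc (nat_lit 5845690005),Int.negSucc (nat_lit 9280786753),Int.ofNat (nat_lit 8988334089),Int.negSucc (nat_lit 6184944138),Int.negSucc (nat_lit 1331477807),Int.ofNat (nat_lit 671513636),Int.negSucc (nat_lit 5070056961),Int.negSucc (nat_lit 4786143668),Int.ofNat (nat_lit 1933929021),Int.negSucc (nat_lit 2123102115),Int.negSucc (nat_lit 6407210414),Int.ofNat (nat_lit 5644652986),Int.negSucc (nat_lit 3516423348),Int.negSucc (nat_lit 7752432865),Int.ofNat (nat_lit 3516405398),Int.negSucc (nat_lit 4905207672),Int.negSucc (nat_lit 221270171),Int.ofNat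 (nat_lit 8775550382),Int.negSucc (nat_lit 17277876575),Int.negSucc (nat_lit 7266950427),Int.negSucc (nat_lit 273821225),Int.negSucc (nat_lit 1671816469),Int.negSucc (nat_lit 8199919169),Int.negSucc (nat_lit 4226240087),Int.negSucc (nat_lit 421902803),Int.negSucc (nat_lit 3939050210),Int.negSucc (nat_lit 277662256),Int.ofNat (nat_lit 8804305908),Int.ofNat (nat_lit 3572395418),Int.negSucc (nat_lit 206589216),Int.ofNat (nat_lit 511018385),Int.ofNat (nat_lit 513927520),Int.negSucc (nat_lit 225565230),Int.negSucc (nat_lit 1706390256),Int.negSucc (nat_lit 3209585698),Int.negSucc (nat_lit 903605112),Int.negSucc (nat_lit 4082483475),Int.ofNat (nat_lit 1580867248),Int.negSucc (nat_lit 2860389129),Int.ofNat (nat_lit 5664482),Int.negSucc (nat_lit 3792764609),Int.negSucc (nat_lit 597818272),Int.negSucc (nat_lit 1167509896),Int.negSucc (nat_lit 885620773),Int.negSucc (nat_lit 1324130911),Int.ofNat (nat_lit 674809253),Int.ofNat (nat_lit 1623171831),Int.ofNat (nat_lit 5331276404),Int.negSucc (nat_lit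 552180419),Int.ofNat (nat_lit 1218235645),Int.ofNat (nat_lit 2486652364),Int.ofNat (nat_lit 1798523385),Int.negSucc (nat_lit 2799928774),Int.ofNat (nat_lit 2568932777),Int.negSucc (nat_lit 4605207415),Int.ofNat (nat_lit 405183053),Int.ofNat (nat_lit 2028961671),Int.ofNat (nat_lit 2644866695),Int.negSucc (nat_lit 4495963064),Int.ofNat (nat_lit 8148866765),Int.ofNat (nat_lit 9117560669),Int.ofNat (nat_lit 4062417070),Int.ofNat (nat_lit 1836775532),Int.ofNat (nat_lit 3211543609),Int.negSucc (nat_lit 2318389984),Int.ofNat (nat_lit 2870497388),Int.ofNat (nat_lit 15548210492),Int.ofNat (nat_lit 99877645),Int.ofNat (nat_lit 9265371377),Int.negSucc (nat_lit 2861169454),Int.negSucc (nat_lit 1087024877),Int.ofNat (nat_lit 1022447296),Int.ofNat (nat_lit 993040292),Int.ofNat (nat_lit 3976550043),Int.ofNat (nat_lit 706588586),Int.ofNat (nat_lit 4526394785),Int.ofNat (nat_lit 683956845),Int.ofNat (nat_lit 1247116197),Int.ofNat (nat_lit 423140490),Int.negSucc (nat_lit 3737962253),Int.negSucc (nat_lit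 1256788629),Int.ofNat (nat_lit 4118181423),Int.ofNat (nat_lit 724487414),Int.negSucc (nat_lit 2672609284),Int.ofNat (nat_lit 6374230823),Int.ofNat (nat_lit 9877399333),Int.negSucc (nat_lit 3268448417),Int.ofNat (nat_lit 1289791011),Int.ofNat (nat_lit 752513040),Int.ofNat (nat_lit 9030173813),Int.negSucc (nat_lit 5415430583),Int.ofNat (nat_lit 1368118604),Int.negSucc (nat_lit 408747467),Int.ofNat (nat_lit 415899435),Int.ofNat (nat_lit 2750301149),Int.negSucc (nat_lit 461922866),Int.ofNat (nat_lit 81007883),Int.ofNat (nat_lit 1151191076),Int.negSucc (nat_lit 1772577612),Int.negSucc (nat_lit 3174886305),Int.negSucc (nat_lit 1623424739),Int.ofNat (nat_lit 1320021998),Int.negSucc (nat_lit 4314738548),Int.ofNat (nat_lit 14199172),Int.negSucc (nat_lit 290956),Int.negSucc (nat_lit 472027719),Int.ofNat (nat_lit 84889358),Int.negSucc (nat_lit 97472409),Int.ofNat (nat_lit 508459447)])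

/-- A row. -/
noncomputable def sr3_c3_26 : List ℕ × List ℤ :=
  ([(nat_lit 4),(nat_lit 3),(nat_lit 0),(nat_lit 0),(nat_lit 0),(nat_lit 0),(nat_lit 0),(nat_lit 0),(nat_lit 0),(nat_lit 0),(nat_lit 0),(nat_lit 0)], [Int.negSucc (nat_lit 3008474773),Int.ofNat (nat_lit 31275566644),Int.negSucc (nat_lit 5878496751),Int.ofNat (nat_lit 19503242289),Int.ofNat (nat_lit 22953710749),Int.negSucc (nat_lit 23782794390),Int.negSucc (nat_lit 5259983069),Int.ofNat (nat_lit 12479263737),Int.ofNat (nat_lit 9397039117),Int.negSucc (nat_lit 11893560317),Int.ofNat (nat_lit 7113838078),Int.ofNat (nat_lit 15082578376),Int.ofNat (nat_lit 16334635448),Int.ofNat (nat_lit 5099150883),Int.ofNat (nat_lit 9909717467),Int.ofNat (nat_lit 294222463),Int.ofNat (nat_lit 1056012859),Int.negSucc (nat_lit 8389306106),Int.ofNat (nat_lit 2435452258),Int.negSucc (nat_lit 8293871963),Int.ofNat (nat_lit 9972738214),Int.ofNat (nat_lit 1577880908),Int.ofNat (nat_lit 2217900172),Int.negSucc (nat_lit 4685802946),Int.negSucc (nat_lit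 13452014765),Int.ofNat (nat_lit 21011873855),Int.ofNat (nat_lit 2708620342),Int.ofNat (nat_lit 4056627559),Int.negSucc (nat_lit 5985192792),Int.ofNat (nat_lit 17166753224),Int.negSucc (nat_lit 9347446746),Int.negSucc (nat_lit 5691859361),Int.negSucc (nat_lit 13953984381),Int.negSucc (nat_lit 13380790282),Int.ofNat (nat_lit 7854459684),Int.negSucc (nat_lit 12847276818),Int.negSucc (nat_lit 14464078293),Int.negSucc (nat_lit 7567582856),Int.ofNat (nat_lit 1521767164),Int.negSucc (nat_lit 20997311065),Int.negSucc (nat_lit 12909655756),Int.ofNat (nat_lit 2702179501),Int.negSucc (nat_lit 326188602),Int.ofNat (nat_lit 12742671611),Int.negSucc (nat_lit 3581176379),Int.ofNat (nat_lit 83884379),Int.ofNat (nat_lit 1261506026),Int.ofNat (nat_lit 19299316111),Int.ofNat (nat_lit 2082852033),Int.ofNat (nat_lit 1898320934),Int.negSucc (nat_lit 9417699334),Int.negSucc (nat_lit 15453377400),Int.ofNat (nat_lit 4982861891),Int.ofNat (nat_lit 1016927337),Int.negSucc (nat_lit 3252120117),Int.ofNat (nat_lit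 13660426658),Int.negSucc (nat_lit 4005532380),Int.negSucc (nat_lit 14238453548),Int.negSucc (nat_lit 14284749988),Int.ofNat (nat_lit 11910179152),Int.negSucc (nat_lit 455223458),Int.ofNat (nat_lit 11973865492),Int.ofNat (nat_lit 2863853325),Int.negSucc (nat_lit 1790703865),Int.negSucc (nat_lit 6352954626),Int.negSucc (nat_lit 8094395969),Int.ofNat (nat_lit 10641133801),Int.negSucc (nat_lit 14989637826),Int.negSucc (nat_lit 1478949571),Int.ofNat (nat_lit 3950203727),Int.negSucc (nat_lit 16936047772),Int.ofNat (nat_lit 10605956896),Int.negSucc (nat_lit 9326138371),Int.negSucc (nat_lit 2611364210),Int.ofNat (nat_lit 2971608227),Int.ofNat (nat_lit 10772752855),Int.negSucc (nat_lit 3054506180),Int.negSucc (nat_lit 745277739),Int.negSucc (nat_lit 4475077027),Int.ofNat (nat_lit 9947773735),Int.ofNat (nat_lit 32332344099),Int.ofNat (nat_lit 9636340501),Int.negSucc (nat_lit 1998827726),Int.ofNat (nat_lit 4127151969),Int.ofNat (nat_lit 29310138931),Int.negSucc (nat_lit 4738624009),Int.ofNat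 (nat_lit 1458107096),Int.negSucc (nat_lit 64608649),Int.negSucc (nat_lit 2663979913),Int.negSucc (nat_lit 1196761085),Int.ofNat (nat_lit 5920597169),Int.ofNat (nat_lit 5355285299),Int.negSucc (nat_lit 21952975933),Int.ofNat (nat_lit 5411304202),Int.negSucc (nat_lit 3895767218),Int.negSucc (nat_lit 4938640264),Int.ofNat (nat_lit 10280296628),Int.negSucc (nat_lit 6951737913),Int.negSucc (nat_lit 5441824928),Int.ofNat (nat_lit 16131007369),Int.ofNat (nat_lit 4913811481),Int.negSucc (nat_lit 13484195630),Int.ofNat (nat_lit 2805996827),Int.ofNat (nat_lit 6395653053),Int.negSucc (nat_lit 4160465975),Int.ofNat (nat_lit 2057465659),Int.negSucc (nat_lit 5152212316),Int.ofNat (nat_lit 13449016773),Int.ofNat (nat_lit 6412692105),Int.negSucc (nat_lit 10130082635),Int.negSucc (nat_lit 5497584366),Int.negSucc (nat_lit 16970232588),Int.negSucc (nat_lit 497828640),Int.negSucc (nat_lit 1706305692),Int.ofNat (nat_lit 559018191),Int.ofNat (nat_lit 1104913768),Int.ofNat (nat_lit 4273026048)])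

/-- A row. -/
noncomputable def sr3_c3_27 : List ℕ × List ℤ :=
  ([(nat_lit 5),(nat_lit 0),(nat_lit 0),(nat_lit 1),(nat_lit 0),(nat_lit 0),(nat_lit 0),(nat_lit 0),(nat_lit 0),(nat_lit 0),(nat_lit 0),(nat_lit 0)], [Int.negSucc (nat_lit 138040244),Int.ofNat (nat_lit 1738878242),Int.ofNat (nat_lit 915907881),Int.negSucc (nat_lit 2766262280),Int.ofNat (nat_lit 10464420272),Int.ofNat (nat_lit 2646817617),Int.ofNat (nat_lit 12194814292),Int.negSucc (nat_lit 3731898961),Int.negSucc (nat_lit 4268705148),Int.ofNat (nat_lit 975588320),Int.negSucc (nat_lit 300825698),Int.negSucc (nat_lit 1160549019),Int.negSucc (nat_lit 3361002803),Int.ofNat (nat_lit 1328058157),Int.negSucc (nat_lit 1001501774),Int.ofNat (nat_lit 42047689),Int.negSucc (nat_lit 7737558881),Int.negSucc (nat_lit 2539809952),Int.negSucc (nat_lit 843755201),Int.ofNat (nat_lit 4218918299),Int.negSucc (nat_lit 2147684223),Int.ofNat (nat_lit 5280740375),Int.ofNat (nat_lit 593374942),Int.ofNat (nat_lit 1301688837),Int.ofNat (nat_lit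 88183031),Int.negSucc (nat_lit 1223040439),Int.ofNat (nat_lit 524210230),Int.ofNat (nat_lit 1426549027),Int.ofNat (nat_lit 645532618),Int.negSucc (nat_lit 755557442),Int.negSucc (nat_lit 43369765),Int.ofNat (nat_lit 1740234611),Int.ofNat (nat_lit 258894234),Int.negSucc (nat_lit 1607489178),Int.ofNat (nat_lit 112152136),Int.negSucc (nat_lit 730979859),Int.negSucc (nat_lit 1317793204),Int.negSucc (nat_lit 829623998),Int.ofNat (nat_lit 1532889396),Int.ofNat (nat_lit 785052422),Int.ofNat (nat_lit 1848217986),Int.negSucc (nat_lit 81726853),Int.negSucc (nat_lit 2653755734),Int.negSucc (nat_lit 1334828650),Int.ofNat (nat_lit 31219244),Int.ofNat (nat_lit 610551464),Int.negSucc (nat_lit 1719656583),Int.negSucc (nat_lit 367723101),Int.ofNat (nat_lit 253079225),Int.ofNat (nat_lit 109845862),Int.negSucc (nat_lit 269374586),Int.negSucc (nat_lit 839056843),Int.ofNat (nat_lit 357482176),Int.ofNat (nat_lit 285355570),Int.ofNat (nat_lit 675720649),Int.negSucc (nat_lit 99531230),Int.ofNat (nat_lit 1005498740),Int.ofNat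 (nat_lit 462004082),Int.ofNat (nat_lit 1153681502),Int.negSucc (nat_lit 10975162028),Int.ofNat (nat_lit 1073865761),Int.negSucc (nat_lit 2820729549),Int.negSucc (nat_lit 1593228279),Int.ofNat (nat_lit 620020691),Int.negSucc (nat_lit 1213129690),Int.ofNat (nat_lit 1963486204),Int.ofNat (nat_lit 2674254156),Int.ofNat (nat_lit 299682452),Int.ofNat (nat_lit 112005825),Int.negSucc (nat_lit 588236483),Int.ofNat (nat_lit 301170012),Int.ofNat (nat_lit 66386217),Int.negSucc (nat_lit 1304238972),Int.negSucc (nat_lit 692707417),Int.negSucc (nat_lit 350902451),Int.negSucc (nat_lit 461851980),Int.negSucc (nat_lit 397784890),Int.ofNat (nat_lit 484491510),Int.negSucc (nat_lit 2720302345),Int.negSucc (nat_lit 331074071),Int.ofNat (nat_lit 314791230),Int.ofNat (nat_lit 472325453),Int.ofNat (nat_lit 335500957),Int.negSucc (nat_lit 724278609),Int.ofNat (nat_lit 272982118),Int.ofNat (nat_lit 1536267723),Int.ofNat (nat_lit 55012934),Int.negSucc (nat_lit 1405523417),Int.ofNat (nat_lit 1132206528),Int.negSucc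 (nat_lit 1235817066),Int.negSucc (nat_lit 221694742),Int.ofNat (nat_lit 3338527641),Int.ofNat (nat_lit 543087242),Int.ofNat (nat_lit 315295180),Int.ofNat (nat_lit 143468935),Int.ofNat (nat_lit 1042438550),Int.negSucc (nat_lit 759564288),Int.negSucc (nat_lit 453672416),Int.negSucc (nat_lit 41422189),Int.negSucc (nat_lit 538396708),Int.negSucc (nat_lit 263649594),Int.negSucc (nat_lit 74727266),Int.ofNat (nat_lit 214321288),Int.negSucc (nat_lit 1472286576),Int.ofNat (nat_lit 1053505846),Int.ofNat (nat_lit 4107774966),Int.negSucc (nat_lit 834861694),Int.negSucc (nat_lit 169794404),Int.negSucc (nat_lit 29896511),Int.ofNat (nat_lit 153943275),Int.ofNat (nat_lit 431009297),Int.negSucc (nat_lit 354760421),Int.negSucc (nat_lit 66120620),Int.negSucc (nat_lit 1055065467),Int.ofNat (nat_lit 1015121),Int.negSucc (nat_lit 19435099),Int.ofNat (nat_lit 22306440),Int.ofNat (nat_lit 178868763)])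

/-- A row. -/
noncomputable def sr3_c3_28 : List ℕ × List ℤ :=
  ([(nat_lit 5),(nat_lit 1),(nat_lit 0),(nat_lit 0),(nat_lit 0),(nat_lit 0),(nat_lit 0),(nat_lit 0),(nat_lit 0),(nat_lit 0),(nat_lit 0),(nat_lit 0)], [Int.negSucc (nat_lit 4185986461),Int.negSucc (nat_lit 5805490215),Int.negSucc (nat_lit 6937974342),Int.negSucc (nat_lit 8858263933),Int.negSucc (nat_lit 15871106303),Int.ofNat (nat_lit 18231805790),Int.negSucc (nat_lit 1960403804),Int.ofNat (nat_lit 177299397),Int.negSucc (nat_lit 2249756832),Int.negSucc (nat_lit 2298037334),Int.ofNat (nat_lit 4123393544),Int.negSucc (nat_lit 3357400176),Int.ofNat (nat_lit 5720304127),Int.negSucc (nat_lit 3855286638),Int.negSucc (nat_lit 5431005573),Int.negSucc (nat_lit 795845750),Int.ofNat (nat_lit 1352086516),Int.ofNat (nat_lit 13300314505),Int.ofNat (nat_lit 696291510),Int.ofNat (nat_lit 8932925155),Int.negSucc (nat_lit 9271665885),Int.ofNat (nat_lit 2017424088),Int.negSucc (nat_lit 6333024697),Int.ofNat (nat_lit 1816005462),Int.negSucc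 (nat_lit 6605740457),Int.negSucc (nat_lit 2126869555),Int.ofNat (nat_lit 6676785660),Int.negSucc (nat_lit 2230824166),Int.ofNat (nat_lit 4231413846),Int.negSucc (nat_lit 6974150221),Int.ofNat (nat_lit 2296122199),Int.negSucc (nat_lit 770165849),Int.ofNat (nat_lit 1286998705),Int.negSucc (nat_lit 3069831498),Int.negSucc (nat_lit 5764970931),Int.negSucc (nat_lit 7519338381),Int.ofNat (nat_lit 2386862448),Int.ofNat (nat_lit 1361775824),Int.negSucc (nat_lit 40179026),Int.negSucc (nat_lit 3936842501),Int.negSucc (nat_lit 5949486340),Int.negSucc (nat_lit 1550409600),Int.negSucc (nat_lit 359316093),Int.negSucc (nat_lit 7843092214),Int.ofNat (nat_lit 1065247667),Int.ofNat (nat_lit 2368087996),Int.negSucc (nat_lit 1771210573),Int.ofNat (nat_lit 1922519280),Int.ofNat (nat_lit 907722517),Int.negSucc (nat_lit 1407640746),Int.negSucc (nat_lit 2846728987),Int.negSucc (nat_lit 7015161209),Int.negSucc (nat_lit 1299726813),Int.negSucc (nat_lit 1016627851),Int.ofNat (nat_lit 1600566066),Int.negSucc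 (nat_lit 6040578543),Int.negSucc (nat_lit 5493805525),Int.ofNat (nat_lit 5447074661),Int.ofNat (nat_lit 5821891000),Int.negSucc (nat_lit 3869371369),Int.negSucc (nat_lit 215664083),Int.ofNat (nat_lit 648500201),Int.negSucc (nat_lit 4068156225),Int.negSucc (nat_lit 4316570895),Int.ofNat (nat_lit 4595865926),Int.ofNat (nat_lit 2262795137),Int.negSucc (nat_lit 6236897170),Int.negSucc (nat_lit 16582680884),Int.ofNat (nat_lit 859385293),Int.ofNat (nat_lit 8712908331),Int.negSucc (nat_lit 3557107049),Int.negSucc (nat_lit 5278843714),Int.negSucc (nat_lit 5217331875),Int.ofNat (nat_lit 17422837564),Int.negSucc (nat_lit 4444400512),Int.negSucc (nat_lit 13455659267),Int.negSucc (nat_lit 705836567),Int.negSucc (nat_lit 1747770432),Int.negSucc (nat_lit 4407557461),Int.ofNat (nat_lit 5279623372),Int.negSucc (nat_lit 13050986439),Int.negSucc (nat_lit 230630203),Int.ofNat (nat_lit 11162057171),Int.negSucc (nat_lit 1632581477),Int.negSucc (nat_lit 282980273),Int.negSucc (nat_lit 1822055252),Int.ofNat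 (nat_lit 1436151247),Int.negSucc (nat_lit 2351870432),Int.ofNat (nat_lit 623707060),Int.negSucc (nat_lit 4583544833),Int.negSucc (nat_lit 5817375170),Int.negSucc (nat_lit 417091410),Int.ofNat (nat_lit 18151927111),Int.negSucc (nat_lit 4055780223),Int.ofNat (nat_lit 512365210),Int.ofNat (nat_lit 1817475329),Int.negSucc (nat_lit 8627114861),Int.ofNat (nat_lit 1332962569),Int.ofNat (nat_lit 1407934316),Int.ofNat (nat_lit 1849164351),Int.ofNat (nat_lit 9253871955),Int.negSucc (nat_lit 3442330156),Int.ofNat (nat_lit 3551971074),Int.negSucc (nat_lit 767673053),Int.negSucc (nat_lit 1804641284),Int.ofNat (nat_lit 2981311005),Int.ofNat (nat_lit 1341496021),Int.ofNat (nat_lit 4076897267),Int.ofNat (nat_lit 2686965428),Int.negSucc (nat_lit 1825875752),Int.negSucc (nat_lit 1762733128),Int.ofNat (nat_lit 1448290993),Int.ofNat (nat_lit 4861648869),Int.negSucc (nat_lit 4172850795),Int.negSucc (nat_lit 8161849179),Int.ofNat (nat_lit 749457402),Int.negSucc (nat_lit 1291093447),Int.ofNat (nat_lit 621368204),Int.ofNat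 (nat_lit 723186065)])

/-- A row. -/
noncomputable def sr3_c3_29 : List ℕ × List ℤ :=
  ([(nat_lit 6),(nat_lit 1),(nat_lit 0),(nat_lit 0),(nat_lit 0),(nat_lit 0),(nat_lit 0),(nat_lit 0),(nat_lit 0),(nat_lit 0),(nat_lit 0),(nat_lit 0)], [Int.negSucc (nat_lit 1365227578),Int.ofNat (nat_lit 2349372909),Int.ofNat (nat_lit 3917089297),Int.ofNat (nat_lit 3034451043),Int.ofNat (nat_lit 8126828935),Int.negSucc (nat_lit 20146510410),Int.negSucc (nat_lit 6148546923),Int.ofNat (nat_lit 6361269962),Int.ofNat (nat_lit 13735132112),Int.negSucc (nat_lit 8984823823),Int.ofNat (nat_lit 2685559717),Int.ofNat (nat_lit 6355767506),Int.ofNat (nat_lit 57907830),Int.ofNat (nat_lit 2263852835),Int.ofNat (nat_lit 8414527750),Int.ofNat (nat_lit 367700364),Int.ofNat (nat_lit 3155589577),Int.negSucc (nat_lit 2396712389),Int.negSucc (nat_lit 3460733160),Int.negSucc (nat_lit 7690955633),Int.ofNat (nat_lit 9640810635),Int.negSucc (nat_lit 1984251985),Int.ofNat (nat_lit 5118188725),Int.negSucc (nat_lit 182016425),Int.negSucc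 (nat_lit 2968925899),Int.ofNat (nat_lit 13094608617),Int.negSucc (nat_lit 955138780),Int.ofNat (nat_lit 1078207448),Int.negSucc (nat_lit 2324766016),Int.ofNat (nat_lit 8135949834),Int.negSucc (nat_lit 3998959320),Int.ofNat (nat_lit 897615909),Int.negSucc (nat_lit 111206834),Int.ofNat (nat_lit 2380707749),Int.negSucc (nat_lit 1220922545),Int.ofNat (nat_lit 4425859939),Int.negSucc (nat_lit 2200933203),Int.negSucc (nat_lit 895042033),Int.negSucc (nat_lit 3127441160),Int.ofNat (nat_lit 2000353600),Int.ofNat (nat_lit 2791798701),Int.ofNat (nat_lit 4544722783),Int.ofNat (nat_lit 2642607964),Int.ofNat (nat_lit 9343851996),Int.negSucc (nat_lit 2757748513),Int.ofNat (nat_lit 664441834),Int.ofNat (nat_lit 1759967223),Int.negSucc (nat_lit 736108426),Int.ofNat (nat_lit 181000822),Int.ofNat (nat_lit 1170107681),Int.ofNat (nat_lit 2839505940),Int.ofNat (nat_lit 5058647831),Int.negSucc (nat_lit 936807923),Int.negSucc (nat_lit 895508451),Int.negSucc (nat_lit 3927061318),Int.ofNat (nat_lit 4451110277),Int.negSucc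 (nat_lit 322086789),Int.negSucc (nat_lit 5035629259),Int.negSucc (nat_lit 6328349796),Int.ofNat (nat_lit 10295737504),Int.negSucc (nat_lit 2391457261),Int.ofNat (nat_lit 8304056982),Int.ofNat (nat_lit 3056309655),Int.ofNat (nat_lit 1934347353),Int.negSucc (nat_lit 2562652950),Int.negSucc (nat_lit 3208332599),Int.negSucc (nat_lit 3521129683),Int.negSucc (nat_lit 2826138624),Int.negSucc (nat_lit 1878264837),Int.negSucc (nat_lit 5213103197),Int.negSucc (nat_lit 240882922),Int.ofNat (nat_lit 5378891603),Int.ofNat (nat_lit 2240130634),Int.negSucc (nat_lit 16625995207),Int.ofNat (nat_lit 799202646),Int.ofNat (nat_lit 5787619491),Int.ofNat (nat_lit 2256761299),Int.ofNat (nat_lit 1153425794),Int.ofNat (nat_lit 4723294628),Int.negSucc (nat_lit 4563191763),Int.ofNat (nat_lit 4638454960),Int.negSucc (nat_lit 270548613),Int.negSucc (nat_lit 9855976771),Int.ofNat (nat_lit 332323340),Int.ofNat (nat_lit 662006474),Int.negSucc (nat_lit 1238936802),Int.ofNat (nat_lit 3557818700),Int.ofNat (nat_lit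 4238305202),Int.negSucc (nat_lit 5791456904),Int.ofNat (nat_lit 1387421401),Int.ofNat (nat_lit 5085367839),Int.negSucc (nat_lit 5886848090),Int.negSucc (nat_lit 17922860009),Int.ofNat (nat_lit 6135272824),Int.negSucc (nat_lit 2285978840),Int.negSucc (nat_lit 2736568343),Int.ofNat (nat_lit 6259460919),Int.ofNat (nat_lit 3417759266),Int.negSucc (nat_lit 2690809922),Int.negSucc (nat_lit 1144582245),Int.negSucc (nat_lit 5884522812),Int.ofNat (nat_lit 181434986),Int.negSucc (nat_lit 1653074440),Int.ofNat (nat_lit 3185540643),Int.negSucc (nat_lit 1450471646),Int.negSucc (nat_lit 3920473258),Int.ofNat (nat_lit 2230058182),Int.ofNat (nat_lit 1919577354),Int.negSucc (nat_lit 1109549199),Int.ofNat (nat_lit 2288627371),Int.ofNat (nat_lit 514802417),Int.ofNat (nat_lit 363743949),Int.negSucc (nat_lit 2593285100),Int.ofNat (nat_lit 4037227329),Int.ofNat (nat_lit 5141729323),Int.negSucc (nat_lit 1147872918),Int.ofNat (nat_lit 1164490339),Int.negSucc (nat_lit 1322742315),Int.negSucc (nat_lit 812927910),Int.ofNat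 (nat_lit 75613657)])

/-- A part of a triangular factor. -/
noncomputable def sr3_c3 : Rows :=
  [sr3_c3_0,
   sr3_c3_1,
   sr3_c3_2,
   sr3_c3_3,
   sr3_c3_4,
   sr3_c3_5,
   sr3_c3_6,
   sr3_c3_7,
   sr3_c3_8,
   sr3_c3_9,
   sr3_c3_10,
   sr3_c3_11,
   sr3_c3_12,
   sr3_c3_13,
   sr3_c3_14,
   sr3_c3_15,
   sr3_c3_16,
   sr3_c3_17,
   sr3_c3_18,
   sr3_c3_19,
   sr3_c3_20,
   sr3_c3_21,
   sr3_c3_22,
   sr3_c3_23,
   sr3_c3_24,
   sr3_c3_25,
   sr3_c3_26,
   sr3_c3_27,
   sr3_c3_28,
   sr3_c3_29]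

/-- A triangular factor. -/
noncomputable def sr3_rows : List Rows :=
  [sr3_c0, sr3_c1, sr3_c2, sr3_c3]

end Vale.Agent.P142K.CertB
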