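import Vale.Agent.P142K.CertB.Sr4Rows
import Vale.Agent.P142K.Fast

/-!
# An expanded part of the certificate

Generated from a semidefinite program; only the checker is trusted.
-/

namespace Vale.Agent.P142K.CertB

open Vale.Agent.P142J (MP)

/-- A coefficient. -/
noncomputable def sr4_m0_0_0 : MP 10 :=
  []

/-- A coefficient. -/
noncomputable def sr4_m0_0_1 : MP 10 :=
  []

/-- A coefficient. -/
noncomputable def sr4_m0_0_2 : MP 10 :=
  [[[[[[[[[[Int.ofNat (nat_lit 3631420265856530625),Int.ofNat (nat_lit 0),Int.negSucc (nat_lit 18157101329282653124)],[],[Int.negSucc (nat_lit 18157101329282653124)]],[],[[Int.negSucc (nat_lit 14525681063426122499)]]],[],[[[Int.negSucc (nat_lit 14525681063426122499)]]]],[],[[[[Int.negSucc (nat_lit 10894260797569591874)]]]]],[],[[[[[Int.negSucc (nat_lit 10894260797569591874)]]]]]],[],[[[[[[Int.negSucc (nat_lit 7262840531713061249)]]]]]]],[],[[[[[[[Int.negSucc (nat_lit 7262840531713061249)]]]]]]]],[],[[[[[[[[Int.negSucc (nat_lit 3631420265856530624)]]]]]]]]],[],[[[[[[[[[Int.negSucc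 (nat_lit 3631420265856530624)]]]]]]]]]]

/-- An expanded part. -/
noncomputable def sr4_m0 : R12 :=
  [[sr4_m0_0_0, sr4_m0_0_1, sr4_m0_0_2]]

set_option maxRecDepth 100000 in
theorem sr4_check0 : partOk 1 sr4_rows 0 sr4_m0 = true :=
  Fast.partOk_of_fast (by decide +kernel)

end Vale.Agent.P142K.CertB
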