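import Vale.Agent.P142K.CertB.Sr5Rows
import Vale.Agent.P142K.Fast

/-!
# An expanded part of the certificate

Generated from a semidefinite program; only the checker is trusted.
-/

namespace Vale.Agent.P142K.CertB

open Vale.Agent.P142J (MP)

/-- A coefficient. -/
noncomputable def sr5_m0_0_0 : MP 10 :=
  [[[[[[[[[[Int.ofNat (nat_lit 0),Int.ofNat (nat_lit 0),Int.ofNat (nat_lit 60105459464565904)]],[[Int.ofNat (nat_lit 0),Int.negSucc (nat_lit 67973896883713967)]],[[Int.ofNat (nat_lit 1168090170213451165)]]]],[[[[Int.ofNat (nat_lit 0),Int.ofNat (nat_lit 29358999529909864)]],[[Int.negSucc (nat_lit 1113497410664933617)]]]],[[[[Int.ofNat (nat_lit 2133107097627010434)]]]]]],[[[[[[Int.ofNat (nat_lit 0),Int.ofNat (nat_lit 112169899678984032)]],[[Int.ofNat (nat_lit 854178600231000952)]]]],[[[[Int.negSucc (nat_lit 1568833879901655039)]]]]]],[[[[[[Int.ofNat (nat_lit 4982976686179325828)]]]]]]],[[],[[[[[[Int.ofNat (nat_lit 0),Int.ofNat (nat_lit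 7474390968007216)]],[[Int.negSucc (nat_lit 240323869670277577)]]]],[[[[Int.ofNat (nat_lit 64731366021952594)]]]]]],[[[[[[Int.negSucc (nat_lit 1357526736353601499)]]]]]]],[[],[],[[[[[[Int.ofNat (nat_lit 545738358340868848)]]]]]]]],[[[[[[[[Int.ofNat (nat_lit 0),Int.negSucc (nat_lit 194221601972259783)]],[[Int.ofNat (nat_lit 2024353263746071222)]]]],[[[[Int.ofNat (nat_lit 657205534903338824)]]]]],[[[[[Int.ofNat (nat_lit 0),Int.ofNat (nat_lit 203619935262859064)]],[[Int.negSucc (nat_lit 285835565404734295)]]]],[[[[Int.ofNat (nat_lit 260101677658766322)]]]]]],[[[[[[Int.negSucc (nat_lit 3821050499536420567)]]]]],[[[[[Int.ofNat (nat_lit 311685249366282864)]]]]]]],[[[[[[[Int.ofNat (nat_lit 0),Int.negSucc (nat_lit 184148989802789735)]],[[Int.ofNat (nat_lit 1059899027794415420)]]]],[[[[Int.negSucc (nat_lit 3730863113181965617)]]]]]],[[[[[[Int.negSucc (nat_lit 1706072724504617101)]]]]],[[[[[Int.ofNat (nat_lit 85153625397941872)]]]]]]],[[],[[[[[[Int.ofNat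 (nat_lit 881950226683356028)]]]]]]]],[[[[[[[[Int.ofNat (nat_lit 14721738660138485399)]]]]],[[[[[Int.ofNat (nat_lit 1333634858122392622)]]]]],[[[[[Int.ofNat (nat_lit 875128156644062159)]]]]]]],[[[[[[[Int.negSucc (nat_lit 15392058023067534273)]]]]],[[[[[Int.negSucc (nat_lit 3114358711470286251)]]]]]]],[[[[[[[Int.ofNat (nat_lit 11803614276157548596)]]]]]]]],[[[[[[[[Int.ofNat (nat_lit 0),Int.negSucc (nat_lit 240164168377402431)]],[[Int.ofNat (nat_lit 51881999632908776)]]]],[[[[Int.negSucc (nat_lit 863526124010456087)]]]]]],[[[[[[Int.ofNat (nat_lit 1169768294994211964)]]]]]]],[[],[[[[[[Int.negSucc (nat_lit 240291478570167835)]]]]]]]],[[[[[[[[Int.negSucc (nat_lit 3572583898675488191)]]]]],[[[[[Int.negSucc (nat_lit 1488518357132899417)]]]]]]],[[[[[[[Int.ofNat (nat_lit 4270701037429467446)]]]]]]]],[],[[[[[[[[Int.ofNat (nat_lit 2019907401406732710)]]]]]]]]],[[[[[[],[[[[Int.ofNat (nat_lit 0),Int.ofNat (nat_lit 43579124688698832)]],[[Int.ofNat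 (nat_lit 148802491583112768)]]]],[[[[Int.ofNat (nat_lit 635375613362474156)]]]]]],[[[[[[Int.ofNat (nat_lit 0),Int.ofNat (nat_lit 287970114205656704)]],[[Int.negSucc (nat_lit 651451899858375733)]]]],[[[[Int.negSucc (nat_lit 748209443610993905)]]]]]],[[[[[[Int.ofNat (nat_lit 8003411085631554800)]]]]]]],[[],[[[],[[[[Int.ofNat (nat_lit 57110075391495888)]]]]]],[[[[[[Int.negSucc (nat_lit 1497732889248256685)]]]]]]]],[[[[[[[[Int.ofNat (nat_lit 0),Int.negSucc (nat_lit 735328138420308471)]],[[Int.ofNat (nat_lit 2185895969788626992)]]]],[[[[Int.negSucc (nat_lit 515989496682392095)]]]]],[[],[[[[Int.negSucc (nat_lit 161857866133352193)]]]]]],[[[[[[Int.ofNat (nat_lit 429737628371796536)]]]]],[[[[[Int.ofNat (nat_lit 851795436406156224)]]]]]]],[[[[],[[[[Int.ofNat (nat_lit 281038819183406564)]]]]]],[[[[[[Int.negSucc (nat_lit 7150740977440479965)]]]]]]]],[[[[[[[[Int.ofNat (nat_lit 26574331768903364894)]]]]],[[[[[Int.negSucc (nat_lit 1051975454735129443)]]]]]]],[[[[[[[Int.negSucc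 (nat_lit 11303162400043367131)]]]]]]]],[[[[[],[[[[Int.negSucc (nat_lit 91532132771727793)]]]]]],[[[[[[Int.ofNat (nat_lit 306278524061529380)]]]]]]]],[[[[[[[[Int.ofNat (nat_lit 1536506660495532086)]]]]]]]]],[[[[[[],[],[[[[Int.ofNat (nat_lit 512838093603172505)]]]]]],[[[],[[[[Int.negSucc (nat_lit 957432784816596739)]]]]]],[[[[[[Int.ofNat (nat_lit 6403162253525850909)]]]]]]]],[[[[[[[[Int.ofNat (nat_lit 0),Int.negSucc (nat_lit 265367494384163047)]],[[Int.negSucc (nat_lit 989288527504691)]]]],[[[[Int.negSucc (nat_lit 2386407563395487235)]]]]]],[[[[[[Int.ofNat (nat_lit 4809050101321746164)]]]]]]],[[],[[[[[[Int.negSucc (nat_lit 772829307152878141)]]]]]]]],[[[[[[[[Int.ofNat (nat_lit 16619999438189870956)]]]]],[[[[[Int.negSucc (nat_lit 1563162301641545505)]]]]]]],[[[[[[[Int.ofNat (nat_lit 3062713159963521214)]]]]]]]],[],[[[[[[[[Int.ofNat (nat_lit 3947719826659326840)]]]]]]]]],[[],[[[[[],[[[[Int.negSucc (nat_lit 710744053291094213)]]]]]],[[[[[[Int.ofNat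 (nat_lit 2432693581302357230)]]]]]]]],[[[[[[[[Int.ofNat (nat_lit 6423150196261438070)]]]]]]]]],[[],[],[[[[[[[[Int.ofNat (nat_lit 3812746440528441979)]]]]]]]]]]

/-- A coefficient. -/
noncomputable def sr5_m0_0_1 : MP 10 :=
  [[[[[[[[[[Int.ofNat (nat_lit 0),Int.ofNat (nat_lit 555754821668516112)]],[[Int.ofNat (nat_lit 3001822351710232818)]]],[[[Int.ofNat (nat_lit 0),Int.negSucc (nat_lit 14348150367202863)]],[[Int.ofNat (nat_lit 720199431897912824)]]]],[[[[Int.negSucc (nat_lit 4802692028929917833)]]],[[[Int.negSucc (nat_lit 712277513968846075)]]]]],[[[[[Int.ofNat (nat_lit 0),Int.negSucc (nat_lit 655774418534287679)]],[[Int.ofNat (nat_lit 3274426614854163524)]]]],[[[[Int.negSucc (nat_lit 1335032847905409355)]]]]]],[[[[[[Int.ofNat (nat_lit 11139619382925509016)]]],[[[Int.negSucc (nat_lit 1198377429981305235)]]]]],[[[[[Int.ofNat (nat_lit 4234780861371803780)]]]]]]],[[[[[[[Int.ofNat (nat_lit 0),Int.negSucc (nat_lit 10229666774320327)]],[[Int.negSucc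 (nat_lit 4038341029951810793)]]]],[[[[Int.ofNat (nat_lit 4861139530929290904)]]]]]],[[[[[[Int.negSucc (nat_lit 7067160055034368179)]]],[[[Int.ofNat (nat_lit 649049980900454664)]]]]],[[[[[Int.negSucc (nat_lit 2082387586514180205)]]]]]]],[[],[[[[[[Int.ofNat (nat_lit 1180375249421697122)]]]]]]]],[[[[[[[[Int.negSucc (nat_lit 10419715316205214463)]]],[[[Int.negSucc (nat_lit 994272709248825047)]]]]],[[[[[Int.ofNat (nat_lit 7883089633228902386)]]],[[[Int.ofNat (nat_lit 242724198873251650)]]]]],[[[[[Int.negSucc (nat_lit 3187538968279801643)]]]]]],[[[[[[Int.ofNat (nat_lit 0),Int.ofNat (nat_lit 646758141206678864)]],[[Int.negSucc (nat_lit 4215790760120074309)]]]],[[[[Int.ofNat (nat_lit 4397392400870795358)]]]]]],[[[[[[Int.negSucc (nat_lit 3276245333220026427)]]]]]]],[[[[[[[Int.ofNat (nat_lit 11336553502387636486)]]],[[[Int.ofNat (nat_lit 2272549086358243622)]]]]],[[[[[Int.negSucc (nat_lit 688605627922945877)]]]]]],[],[[[[[[Int.ofNat (nat_lit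 404421465983716850)]]]]]]],[[[[[[[Int.negSucc (nat_lit 14346423607414234313)]]]]]]]],[[[[[[[[Int.ofNat (nat_lit 0),Int.negSucc (nat_lit 627899637853086855)]],[[Int.negSucc (nat_lit 1817439945977276275)]]]],[[[[Int.ofNat (nat_lit 2220912924092954230)]]]]]],[[[[[[Int.ofNat (nat_lit 3899609108234119776)]]]]],[[[[[Int.ofNat (nat_lit 1140269349344198574)]]]]]]],[[],[[[[[[Int.negSucc (nat_lit 11560794682349810605)]]]]]]]],[[[[[[[[Int.ofNat (nat_lit 7437339045259975662)]]],[[[Int.negSucc (nat_lit 212630503333645033)]]]]],[[[[[Int.ofNat (nat_lit 3760809993454747738)]]]]]]],[[[[[[[Int.negSucc (nat_lit 14048999872591835423)]]]]]]]],[[[],[[[[[[Int.negSucc (nat_lit 4613449843391174373)]]]]]]]],[[[[[[[[Int.negSucc (nat_lit 7571935445319247883)]]]]]]]]],[[[[[[[[[Int.ofNat (nat_lit 0),Int.ofNat (nat_lit 2197310405716399848)]],[[Int.negSucc (nat_lit 2014544156410501487)]]]],[[[[Int.ofNat (nat_lit 598223472576675736)]]],[[[Int.ofNat (nat_lit 493252517012164728)]]]]],[[],[[[[Int.negSucc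 (nat_lit 885714844612777035)]]]]]],[[[[[[Int.ofNat (nat_lit 7748829742097311162)]]],[[[Int.negSucc (nat_lit 2681867728885999923)]]]]],[[[[[Int.ofNat (nat_lit 4945495247229464864)]]]]]]],[[[[[[[Int.ofNat (nat_lit 0),Int.negSucc (nat_lit 258293296622815335)]],[[Int.negSucc (nat_lit 490979423935524057)]]]],[[[[Int.ofNat (nat_lit 1918142274883316436)]]]]]],[[[[[[Int.negSucc (nat_lit 2427249440070164087)]]]]]]],[[],[[[[[[Int.negSucc (nat_lit 622412062194230377)]]]]]]]],[[[[[[[[Int.negSucc (nat_lit 8453318579162740177)]]],[[[Int.negSucc (nat_lit 2453942829927604295)]]]]],[[[[[Int.ofNat (nat_lit 20361045912859639468)]]]]]],[[[],[[[[Int.ofNat (nat_lit 967567940838609926)]]]]]],[[[[[[Int.ofNat (nat_lit 4016994404206341198)]]]]]]],[[[[[[[Int.negSucc (nat_lit 2228875787963701325)]]]]],[[[[[Int.negSucc (nat_lit 2304929815081982789)]]]]]]],[[[[[[[Int.negSucc (nat_lit 1358661639592054359)]]]]]]]],[[[[[],[[[[Int.ofNat (nat_lit 16289424470716144)]]]]]],[[[[[[Int.negSucc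 (nat_lit 3226139280659404569)]]]]]]]],[[[[[[[[Int.negSucc (nat_lit 7758500263605520191)]]]]]]],[[[[[[[Int.ofNat (nat_lit 359071399772678142)]]]]]]]]],[[[[[[[[[Int.ofNat (nat_lit 0),Int.ofNat (nat_lit 1246792072394010672)]],[[Int.negSucc (nat_lit 4894170887603400445)]]]],[[[[Int.ofNat (nat_lit 7724189460605347018)]]]]]],[[[[[[Int.negSucc (nat_lit 2111687513807216283)]]]]]]],[[[[],[[[[Int.ofNat (nat_lit 666624249987205580)]]]]]],[[[[[[Int.ofNat (nat_lit 2759792790079548970)]]]]]]]],[[[[[[[[Int.negSucc (nat_lit 3339938905019322707)]]],[[[Int.negSucc (nat_lit 1489592499284292395)]]]]],[[[[[Int.ofNat (nat_lit 10011005936130572832)]]]]]]],[[[[[[[Int.negSucc (nat_lit 12521236459087331351)]]]]]]]],[[[],[[[[[[Int.negSucc (nat_lit 4778646051156967197)]]]]]]]],[[[[[[[[Int.negSucc (nat_lit 14700086209419604845)]]]]]]]]],[[[[[[],[[[[Int.ofNat (nat_lit 795986598148603952)]]]]]],[[[[[[Int.negSucc (nat_lit 871679259284589535)]]]]]]]],[[[[[[[[Int.negSucc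 (nat_lit 9396322910788713071)]]]]]]],[[[[[[[Int.ofNat (nat_lit 1422073145054987082)]]]]]]]]],[[],[[[[[[[[Int.negSucc (nat_lit 9464470600477716171)]]]]]]]]]]

/-- A coefficient. -/
noncomputable def sr5_m0_0_2 : MP 10 :=
  [[[[[[[[[[Int.ofNat (nat_lit 32193580027003798691),Int.ofNat (nat_lit 0),Int.negSucc (nat_lit 60105459464565903)]],[[Int.ofNat (nat_lit 0),Int.ofNat (nat_lit 67973896883713968)]],[[Int.negSucc (nat_lit 1168090170213451164)]]],[[[Int.negSucc (nat_lit 391950002545970747)]]],[[[Int.ofNat (nat_lit 1656995901649403471)]]]],[[[[Int.ofNat (nat_lit 0),Int.ofNat (nat_lit 215396821207328288)]],[[Int.negSucc (nat_lit 1630710987204639887)]]]],[[[[Int.negSucc (nat_lit 959150294301269669)]]]]],[[[[[Int.ofNat (nat_lit 8747118874579677512)]]],[[[Int.negSucc (nat_lit 4947496131079596079)]]]]],[[[[[Int.ofNat (nat_lit 16322373443490476134)]]]]]],[[[[[[Int.ofNat (nat_lit 0),Int.negSucc (nat_lit 1363023126481508919)]],[[Int.ofNat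 (nat_lit 12541984892018627914)]]]],[[[[Int.negSucc (nat_lit 9807757968787664523)]]]]]],[[[[[[Int.negSucc (nat_lit 2091007722859291383)]]]]]]],[[[[[[[Int.negSucc (nat_lit 48102710815564382707)]]],[[[Int.negSucc (nat_lit 109293594956455697)]]]]],[[[[[Int.negSucc (nat_lit 10808999196353461631)]]]]]],[[[[[[Int.ofNat (nat_lit 0),Int.negSucc (nat_lit 7474390968007215)]],[[Int.ofNat (nat_lit 240323869670277578)]]]],[[[[Int.ofNat (nat_lit 937231874296844298)]]]]]],[[[[[[Int.negSucc (nat_lit 2875758382848254715)]]]]]]],[[[[[[[Int.ofNat (nat_lit 42813378891002560653)]]]]]],[],[[[[[[Int.negSucc (nat_lit 545738358340868847)]]]]]]]],[[[[[[[[Int.ofNat (nat_lit 0),Int.ofNat (nat_lit 1705926385823595432)]],[[Int.negSucc (nat_lit 15121708537614660845)]]]],[[[[Int.ofNat (nat_lit 12273521626155923780)]]]]],[[[[[Int.ofNat (nat_lit 0),Int.negSucc (nat_lit 203619935262859063)]],[[Int.ofNat (nat_lit 285835565404734296)]]]],[[[[Int.negSucc (nat_lit 889603855579913059)]]]]]],[[[[[[Int.ofNat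 (nat_lit 2987067525518188596)]]],[[[Int.negSucc (nat_lit 5606019211656853075)]]]]],[[[[[Int.negSucc (nat_lit 165187848593191579)]]]]]]],[[[[[[[Int.ofNat (nat_lit 0),Int.ofNat (nat_lit 184148989802789736)]],[[Int.negSucc (nat_lit 1059899027794415419)]]]],[[[[Int.ofNat (nat_lit 7147316879510380572)]]]]]],[[[[[[Int.ofNat (nat_lit 32106988511513952108)]]]]],[[[[[Int.negSucc (nat_lit 85153625397941871)]]]]]]],[[],[[[[[[Int.negSucc (nat_lit 881950226683356027)]]]]]]]],[[[[[[[[Int.negSucc (nat_lit 110535870658962778350)]]],[[[Int.ofNat (nat_lit 680433829681528436)]]]]],[[[[[Int.negSucc (nat_lit 9383595165891033959)]]]]],[[[[[Int.negSucc (nat_lit 875128156644062158)]]]]]],[],[[[[[[Int.ofNat (nat_lit 23617268094684295998)]]]]]]],[[[[[[[Int.ofNat (nat_lit 63609211803001046914)]]]]],[[[[[Int.ofNat (nat_lit 3114358711470286252)]]]]]]],[[[[[[[Int.negSucc (nat_lit 11803614276157548595)]]]]]]]],[[[[[[[[Int.ofNat (nat_lit 0),Int.ofNat (nat_lit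 240164168377402432)]],[[Int.negSucc (nat_lit 51881999632908775)]]]],[[[[Int.ofNat (nat_lit 249984699202713908)]]]]]],[[[[[[Int.ofNat (nat_lit 9626216835196438922)]]]]]]],[[],[[[[[[Int.ofNat (nat_lit 240291478570167836)]]]]]]]],[[[[[[[[Int.ofNat (nat_lit 48596465279103603273)]]]]],[[[[[Int.ofNat (nat_lit 1488518357132899418)]]]]]]],[[[[[[[Int.negSucc (nat_lit 4270701037429467445)]]]]]]]],[],[[[[[[[[Int.negSucc (nat_lit 2019907401406732709)]]]]]]]]],[[[[[[[[[Int.ofNat (nat_lit 69915781538721393326)]]],[[[Int.ofNat (nat_lit 1795747470433948674)]]]],[[[[Int.ofNat (nat_lit 0),Int.negSucc (nat_lit 43579124688698831)]],[[Int.negSucc (nat_lit 148802491583112767)]]]],[[[[Int.negSucc (nat_lit 587210251577654329)]]]]],[[[[[Int.negSucc (nat_lit 16332441158965319917)]]]]]],[[[[[[Int.ofNat (nat_lit 0),Int.negSucc (nat_lit 287970114205656703)]],[[Int.ofNat (nat_lit 651451899858375734)]]]],[[[[Int.negSucc (nat_lit 2046019597234081215)]]]]]],[[[[[[Int.negSucc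 (nat_lit 2709927243335307423)]]]]]]],[[[[[[[Int.negSucc (nat_lit 33595592242024790153)]]],[[[Int.negSucc (nat_lit 2320399035579902003)]]]]],[[[[[Int.ofNat (nat_lit 8059511708009417680)]]]]]],[[[],[[[[Int.negSucc (nat_lit 57110075391495887)]]]]]],[[[[[[Int.ofNat (nat_lit 1497732889248256686)]]]]]]],[[[[[[[Int.ofNat (nat_lit 14413275212222583792)]]]]]]]],[[[[[[[[Int.ofNat (nat_lit 0),Int.negSucc (nat_lit 156500087677050639)]],[[Int.negSucc (nat_lit 4417064438669655205)]]]],[[[[Int.ofNat (nat_lit 9534561765342972084)]]]]],[[],[[[[Int.ofNat (nat_lit 161857866133352194)]]]]]],[[[[[[Int.ofNat (nat_lit 17122744946612338032)]]]]],[[[[[Int.negSucc (nat_lit 851795436406156223)]]]]]]],[[[[],[[[[Int.negSucc (nat_lit 281038819183406563)]]]]]],[[[[[[Int.ofNat (nat_lit 22787543567598583142)]]]]]]]],[[[[[[[[Int.negSucc (nat_lit 132262752179665097627)]]]]],[[[[[Int.ofNat (nat_lit 377268423828323924)]]]]]]],[[[[[[[Int.ofNat (nat_lit 22251299819540725182)]]]]]]]],[[[[[],[[[[Int.ofNat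 (nat_lit 91532132771727794)]]]]]],[[[[[[Int.negSucc (nat_lit 306278524061529379)]]]]]]]],[[[[[[[[Int.negSucc (nat_lit 3656775045881109091)]]]]]]]]],[[[[[[[[[Int.ofNat (nat_lit 101776734651893512109)]]],[[[Int.ofNat (nat_lit 1313516498830872222)]]]],[],[[[[Int.negSucc (nat_lit 512838093603172504)]]]]],[[[[[Int.negSucc (nat_lit 20369160526728647653)]]]]]],[[[],[[[[Int.ofNat (nat_lit 957432784816596740)]]]]]],[[[[[[Int.negSucc (nat_lit 6403162253525850908)]]]]]]],[[[[[[[Int.ofNat (nat_lit 185539742344357520)]]]]]]],[[[[[[[Int.ofNat (nat_lit 9761292849001830244)]]]]]]]],[[[[[[[[Int.ofNat (nat_lit 0),Int.ofNat (nat_lit 265367494384163048)]],[[Int.ofNat (nat_lit 989288527504692)]]]],[[[[Int.ofNat (nat_lit 5782333247430819888)]]]]]],[[[[[[Int.ofNat (nat_lit 13398737974379902854)]]]]]]],[[],[[[[[[Int.ofNat (nat_lit 772829307152878142)]]]]]]]],[[[[[[[[Int.negSucc (nat_lit 41876277130616389433)]]]]],[[[[[Int.ofNat (nat_lit 1563162301641545506)]]]]]]],[[[[[[[Int.negSucc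 (nat_lit 3062713159963521213)]]]]]]]],[],[[[[[[[[Int.negSucc (nat_lit 3947719826659326839)]]]]]]]]],[[[[[[[[[Int.ofNat (nat_lit 108282892507699708864)]]]]]]],[[[[[[[Int.negSucc (nat_lit 9116409112410215815)]]]]]]]],[[[[[],[[[[Int.ofNat (nat_lit 710744053291094214)]]]]]],[[[[[[Int.negSucc (nat_lit 2432693581302357229)]]]]]]]],[[[[[[[[Int.negSucc (nat_lit 14318438173469266781)]]]]]]]]],[[[[[[[[[Int.ofNat (nat_lit 49996195323469447864)]]]]]]]],[],[[[[[[[[Int.negSucc (nat_lit 3812746440528441978)]]]]]]]]]]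

/-- A coefficient. -/
noncomputable def sr5_m0_0_3 : MP 10 :=
  [[[[[[[[[[Int.ofNat (nat_lit 0),Int.negSucc (nat_lit 1514182149915056991)]],[[Int.ofNat (nat_lit 6805977646837103840)]]],[[[Int.ofNat (nat_lit 0),Int.ofNat (nat_lit 14348150367202864)]],[[Int.negSucc (nat_lit 720199431897912823)]]]],[[[[Int.negSucc (nat_lit 12450193727229484059)]]],[[[Int.negSucc (nat_lit 493964548639505209)]]]]],[[[[[Int.ofNat (nat_lit 0),Int.ofNat (nat_lit 655774418534287680)]],[[Int.negSucc (nat_lit 3274426614854163523)]]]],[[[[Int.negSucc (nat_lit 4009637251201220803)]]]]]],[[[[[[Int.ofNat (nat_lit 18911626561413990952)]]],[[[Int.ofNat (nat_lit 7820379617796884466)]]]]],[[[[[Int.ofNat (nat_lit 21445927275923204482)]]]]]]],[[[[[[[Int.ofNat (nat_lit 0),Int.negSucc (nat_lit 149309614934574375)]],[[Int.ofNat (nat_lit 5767428453847489502)]]]],[[[[Int.negSucc (nat_lit 2972999489900174221)]]]]]],[[[[[[Int.negSucc (nat_lit 52833984364942293503)]]],[[[Int.negSucc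 (nat_lit 649049980900454663)]]]]],[[[[[Int.ofNat (nat_lit 2082387586514180206)]]]]]]],[[],[[[[[[Int.ofNat (nat_lit 286817576535676758)]]]]]]]],[[[[[[[[Int.ofNat (nat_lit 34469032668556906842)]]],[[[Int.ofNat (nat_lit 8853425318944917562)]]]]],[[[[[Int.negSucc (nat_lit 64034492502784386073)]]],[[[Int.negSucc (nat_lit 242724198873251649)]]]]],[[[[[Int.ofNat (nat_lit 3187538968279801644)]]]]]],[[[[[[Int.ofNat (nat_lit 0),Int.negSucc (nat_lit 646758141206678863)]],[[Int.ofNat (nat_lit 4215790760120074310)]]]],[[[[Int.ofNat (nat_lit 8293461085353188712)]]]]]],[[[[[[Int.negSucc (nat_lit 58271993861130954083)]]]]]]],[[[[[[[Int.ofNat (nat_lit 28875973999964927330)]]],[[[Int.negSucc (nat_lit 2272549086358243621)]]]]],[[[[[Int.ofNat (nat_lit 3318068704749186624)]]]]]],[],[[[[[[Int.negSucc (nat_lit 404421465983716849)]]]]]]],[[[[[[[Int.ofNat (nat_lit 15747371007901883596)]]]]]]]],[[[[[[[[Int.ofNat (nat_lit 0),Int.ofNat (nat_lit 627899637853086856)]],[[Int.ofNat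 (nat_lit 1817439945977276276)]]]],[[[[Int.negSucc (nat_lit 4208758309430216031)]]]]]],[[[[[[Int.negSucc (nat_lit 11404562073965872959)]]]]],[[[[[Int.negSucc (nat_lit 1140269349344198573)]]]]]]],[[],[[[[[[Int.ofNat (nat_lit 11560794682349810606)]]]]]]]],[[[[[[[[Int.negSucc (nat_lit 103643739113191430829)]]],[[[Int.ofNat (nat_lit 212630503333645034)]]]]],[[[[[Int.negSucc (nat_lit 3760809993454747737)]]]]]]],[[[[[[[Int.ofNat (nat_lit 17948789945457553110)]]]]]]]],[[[],[[[[[[Int.ofNat (nat_lit 4613449843391174374)]]]]]]]],[[[[[[[[Int.ofNat (nat_lit 7571935445319247884)]]]]]]]]],[[[[[[[[[Int.ofNat (nat_lit 0),Int.negSucc (nat_lit 2303115517554658743)]],[[Int.negSucc (nat_lit 8748055832526177667)]]]],[[[[Int.ofNat (nat_lit 13664108780334213422)]]],[[[Int.negSucc (nat_lit 493252517012164727)]]]]],[[],[[[[Int.ofNat (nat_lit 885714844612777036)]]]]]],[[[[[[Int.negSucc (nat_lit 27682799466246564409)]]],[[[Int.ofNat (nat_lit 2681867728885999924)]]]]],[[[[[Int.negSucc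 (nat_lit 4945495247229464863)]]]]]]],[[[[[[[Int.ofNat (nat_lit 0),Int.ofNat (nat_lit 258293296622815336)]],[[Int.ofNat (nat_lit 490979423935524058)]]]],[[[[Int.negSucc (nat_lit 110214935578103467)]]]]]],[[[[[[Int.negSucc (nat_lit 145276467843596971)]]]]]]],[[],[[[[[[Int.ofNat (nat_lit 622412062194230378)]]]]]]]],[[[[[[[[Int.ofNat (nat_lit 19310266005843114114)]]],[[[Int.ofNat (nat_lit 6728968753158010798)]]]]],[[[[[Int.negSucc (nat_lit 32617282939669672989)]]]]]],[[[],[[[[Int.negSucc (nat_lit 967567940838609925)]]]]]],[[[[[[Int.negSucc (nat_lit 4016994404206341197)]]]]]]],[[[[[[[Int.ofNat (nat_lit 34958095241112294330)]]]]],[[[[[Int.ofNat (nat_lit 2304929815081982790)]]]]]]],[[[[[[[Int.ofNat (nat_lit 1358661639592054360)]]]]]]]],[[[[[],[[[[Int.negSucc (nat_lit 16289424470716143)]]]]]],[[[[[[Int.ofNat (nat_lit 1569820532341391056)]]]]]]]],[[[[[[[[Int.ofNat (nat_lit 34674479742474329574)]]]]]]],[[[[[[[Int.negSucc (nat_lit 359071399772678141)]]]]]]]]],[[[[[[[[[Int.ofNat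 (nat_lit 0),Int.negSucc (nat_lit 1246792072394010671)]],[[Int.ofNat (nat_lit 4894170887603400446)]]]],[[[[Int.ofNat (nat_lit 2254671496018839316)]]]]]],[[[[[[Int.negSucc (nat_lit 43410327994699878369)]]]]]]],[[[[],[[[[Int.negSucc (nat_lit 666624249987205579)]]]]]],[[[[[[Int.negSucc (nat_lit 2759792790079548969)]]]]]]]],[[[[[[[[Int.negSucc (nat_lit 459975682434850501)]]],[[[Int.ofNat (nat_lit 1489592499284292396)]]]]],[[[[[Int.negSucc (nat_lit 10011005936130572831)]]]]]]],[[[[[[[Int.ofNat (nat_lit 26830606948469419306)]]]]]]]],[[[],[[[[[[Int.ofNat (nat_lit 4778646051156967198)]]]]]]]],[[[[[[[[Int.ofNat (nat_lit 14700086209419604846)]]]]]]]]],[[[[[[],[[[[Int.negSucc (nat_lit 795986598148603951)]]]]]],[[[[[[Int.ofNat (nat_lit 871679259284589536)]]]]]]]],[[[[[[[[Int.negSucc (nat_lit 2287646899697891219)]]]]]]],[[[[[[[Int.negSucc (nat_lit 1422073145054987081)]]]]]]]]],[[],[[[[[[[[Int.ofNat (nat_lit 9464470600477716172)]]]]]]]]]]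

/-- A coefficient. -/
noncomputable def sr5_m0_0_4 : MP 10 :=
  [[[[[[[[[[Int.negSucc (nat_lit 111967821081460427374)]]],[[[Int.negSucc (nat_lit 4886414712005646245)]]],[[[Int.negSucc (nat_lit 1656995901649403470)]]]],[[[[Int.ofNat (nat_lit 0),Int.negSucc (nat_lit 244755820737238151)]],[[Int.ofNat (nat_lit 2744208397869573506)]]]],[[[[Int.ofNat (nat_lit 15808457180587372558)]]]]],[[[[[Int.ofNat (nat_lit 30269423277286684224)]]],[[[Int.ofNat (nat_lit 4947496131079596080)]]]]],[[[[[Int.negSucc (nat_lit 16322373443490476133)]]]]]],[[[[[[Int.ofNat (nat_lit 0),Int.ofNat (nat_lit 1250853226802524888)]],[[Int.negSucc (nat_lit 13396163492249628865)]]]],[[[[Int.negSucc (nat_lit 28811718135427170189)]]]]]],[[[[[[Int.ofNat (nat_lit 177330368640859455501)]]]]]]],[[[[[[[Int.ofNat (nat_lit 64283737816998765858)]]],[[[Int.ofNat (nat_lit 3082817440511190432)]]]]],[[[[[Int.ofNat (nat_lit 4727260293873999624)]]]]]],[[[],[[[[Int.negSucc (nat_lit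 1001963240318796891)]]]]]],[[[[[[Int.ofNat (nat_lit 4233285119201856216)]]]]]]],[[[[[[[Int.negSucc (nat_lit 107134634953066270428)]]]]]]]],[[[[[[[[Int.ofNat (nat_lit 0),Int.negSucc (nat_lit 1401350073640204063)]],[[Int.ofNat (nat_lit 15211937537779465672)]]]],[[[[Int.ofNat (nat_lit 19088969625996797646)]]]]],[[],[[[[Int.ofNat (nat_lit 629502177921146738)]]]]]],[[[[[[Int.negSucc (nat_lit 207096661184651201269)]]],[[[Int.ofNat (nat_lit 5606019211656853076)]]]]],[[[[[Int.negSucc (nat_lit 146497400773091283)]]]]]]],[[[[],[[[[Int.negSucc (nat_lit 3416453766328414953)]]]]]],[[[[[[Int.negSucc (nat_lit 53052647214870625751)]]]]]]]],[[[[[[[[Int.ofNat (nat_lit 603200596860746111025)]]],[[[Int.negSucc (nat_lit 680433829681528435)]]]]],[[[[[Int.ofNat (nat_lit 741701635875338702)]]]]]],[],[[[[[[Int.negSucc (nat_lit 23617268094684295997)]]]]]]],[[[[[[[Int.negSucc (nat_lit 60836844165599119479)]]]]]]]],[[[[[],[[[[Int.ofNat (nat_lit 613541424807742180)]]]]]],[[[[[[Int.negSucc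 (nat_lit 10795985130190650885)]]]]]]]],[[[[[[[[Int.negSucc (nat_lit 53260624651303628666)]]]]]]]]],[[[[[[[[[Int.negSucc (nat_lit 303181835045053697371)]]],[[[Int.negSucc (nat_lit 6308002847805242979)]]]],[],[[[[Int.negSucc (nat_lit 48165361784819825)]]]]],[[[[[Int.negSucc (nat_lit 3902753020928362559)]]]]]],[[[],[[[[Int.ofNat (nat_lit 2794229040845075122)]]]]]],[[[[[[Int.negSucc (nat_lit 5293483842296247375)]]]]]]],[[[[[[[Int.ofNat (nat_lit 105921209779486682656)]]],[[[Int.ofNat (nat_lit 2320399035579902004)]]]]],[[[[[Int.negSucc (nat_lit 8059511708009417679)]]]]]]],[[[[[[[Int.negSucc (nat_lit 34483525048175756065)]]]]]]]],[[[[[[[[Int.ofNat (nat_lit 0),Int.ofNat (nat_lit 891828226097359112)]],[[Int.ofNat (nat_lit 2231168468881028214)]]]],[[[[Int.negSucc (nat_lit 13512621388574257907)]]]]]],[[[[[[Int.negSucc (nat_lit 7587516596287079457)]]]]]]],[[],[[[[[[Int.negSucc (nat_lit 15636802590158103175)]]]]]]]],[[[[[[[[Int.ofNat (nat_lit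 317531189203601760100)]]]]],[[[[[Int.ofNat (nat_lit 674707030906805520)]]]]]]],[[[[[[[Int.negSucc (nat_lit 10948137419497358049)]]]]]]]],[],[[[[[[[[Int.ofNat (nat_lit 2120268385385577006)]]]]]]]]],[[[[[[[[[Int.negSucc (nat_lit 297385274267216408834)]]],[[[Int.negSucc (nat_lit 1313516498830872221)]]]]],[[[[[Int.ofNat (nat_lit 20369160526728647654)]]]]]]],[[[[[[[Int.negSucc (nat_lit 10431918011375884487)]]]]]]],[[[[[[[Int.negSucc (nat_lit 9761292849001830243)]]]]]]]],[[[[[],[[[[Int.negSucc (nat_lit 3395925684035332651)]]]]]],[[[[[[Int.negSucc (nat_lit 18207788075701649017)]]]]]]]],[[[[[[[[Int.ofNat (nat_lit 144448502342410150472)]]]]]]]]],[[[[[[[[[Int.negSucc (nat_lit 113356870534107329009)]]]]]]],[[[[[[[Int.ofNat (nat_lit 9116409112410215816)]]]]]]]],[],[[[[[[[[Int.ofNat (nat_lit 7895287977207828712)]]]]]]]]],[[[[[[[[[Int.negSucc (nat_lit 49996195323469447863)]]]]]]]]]]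

/-- A coefficient. -/
noncomputable def sr5_m0_0_5 : MP 10 :=
  [[[[[[[[[[Int.ofNat (nat_lit 0),Int.ofNat (nat_lit 467049450696300456)]],[[Int.negSucc (nat_lit 18295798256609618569)]]]],[[[[Int.negSucc (nat_lit 15591410102836730697)]]],[[[Int.ofNat (nat_lit 1206242062608351286)]]]]],[[],[[[[Int.ofNat (nat_lit 5344670099106630160)]]]]]],[[[[[[Int.ofNat (nat_lit 137866606363930710812)]]],[[[Int.negSucc (nat_lit 6622002187815579229)]]]]],[[[[[Int.negSucc (nat_lit 25680708137295008261)]]]]]]],[[[[[[[Int.ofNat (nat_lit 0),Int.ofNat (nat_lit 159539281708894704)]],[[Int.negSucc (nat_lit 1729087423895678707)]]]],[[[[Int.negSucc (nat_lit 10302604971807089969)]]]]]],[[[[[[Int.ofNat (nat_lit 114963473711296411156)]]]]]]],[[],[[[[[[Int.negSucc (nat_lit 1467192825957373879)]]]]]]]],[[[[[[[[Int.negSucc (nat_lit 566645422767056717267)]]],[[[Int.negSucc (nat_lit 33154892353430160111)]]]]],[[[[[Int.ofNat (nat_lit 135312966018517479896)]]]]]],[[[],[[[[Int.negSucc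 (nat_lit 12690853486223984069)]]]]]],[[[[[[Int.ofNat (nat_lit 61548239194350980512)]]]]]]],[[[[[[[Int.negSucc (nat_lit 144431367618855310105)]]]]],[[[[[Int.negSucc (nat_lit 2629463076826240745)]]]]]]],[[[[[[[Int.negSucc (nat_lit 1400947400487649281)]]]]]]]],[[[[[],[[[[Int.ofNat (nat_lit 1987845385337261802)]]]]]],[[[[[[Int.ofNat (nat_lit 22868800635147615464)]]]]]]]],[[[[[[[[Int.ofNat (nat_lit 151864029767346386450)]]]]]]],[[[[[[[Int.negSucc (nat_lit 3899790072865717685)]]]]]]]]],[[[[[[[[[Int.ofNat (nat_lit 0),Int.ofNat (nat_lit 105805111838258896)]],[[Int.ofNat (nat_lit 10762599988936679156)]]]],[[[[Int.negSucc (nat_lit 9967098417730122309)]]]]]],[[[[[[Int.negSucc (nat_lit 111607187668779633053)]]]]]]],[[[[],[[[[Int.negSucc (nat_lit 1807927339305212967)]]]]]],[[[[[[Int.ofNat (nat_lit 2572525907913761060)]]]]]]]],[[[[[[[[Int.negSucc (nat_lit 45819096080094546065)]]],[[[Int.negSucc (nat_lit 4275025923230406501)]]]]],[[[[[Int.ofNat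 (nat_lit 12256237026810033522)]]]]]]],[[[[[[[Int.negSucc (nat_lit 81958385316477154211)]]]]]]]],[[[],[[[[[[Int.ofNat (nat_lit 1656318748318013514)]]]]]]]],[[[[[[[[Int.negSucc (nat_lit 26915979478868809381)]]]]]]]]],[[[[[[],[[[[Int.negSucc (nat_lit 9978860956624186333)]]]]]],[[[[[[Int.ofNat (nat_lit 45522015508507094654)]]]]]]]],[[[[[[[[Int.negSucc (nat_lit 118611721735062713287)]]]]]]],[[[[[[[Int.negSucc (nat_lit 14309370489382087953)]]]]]]]]],[[],[[[[[[[[Int.ofNat (nat_lit 11683969810486604292)]]]]]]]]]]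

/-- A coefficient. -/
noncomputable def sr5_m0_0_6 : MP 10 :=
  [[[[[[[[[[Int.ofNat (nat_lit 667211405085890467157)]]],[[[Int.ofNat (nat_lit 22805067854456574104)]]]],[],[[[[Int.negSucc (nat_lit 16982413983913113321)]]]]],[[[[[Int.negSucc (nat_lit 105174505977870258857)]]]]]],[[[],[[[[Int.ofNat (nat_lit 40188309984116489754)]]]]]],[[[[[[Int.negSucc (nat_lit 180222337604179489944)]]]]]]],[[[[[[[Int.negSucc (nat_lit 60661929714262706753)]]],[[[Int.negSucc (nat_lit 2973523845554734733)]]]]],[[[[[Int.ofNat (nat_lit 6081738902479462008)]]]]]]],[[[[[[[Int.ofNat (nat_lit 216536574595697581665)]]]]]]]],[[[[[[[[Int.ofNat (nat_lit 0),Int.negSucc (nat_lit 110354710211131583)]],[[Int.negSucc (nat_lit 2114582263910876047)]]]],[[[[Int.negSucc (nat_lit 28273863924760165053)]]]]]],[[[[[[Int.ofNat (nat_lit 201430713440159899830)]]]]]]],[[],[[[[[[Int.ofNat (nat_lit 22651731427861290746)]]]]]]]],[[[[[[[[Int.negSucc (nat_lit 1173904937068838701138)]]]]],[[[[[Int.ofNat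 (nat_lit 7308258671893302636)]]]]]]],[[[[[[[Int.ofNat (nat_lit 12619690385665606840)]]]]]]]],[],[[[[[[[[Int.ofNat (nat_lit 8236743270875513586)]]]]]]]]],[[[[[[[[[Int.ofNat (nat_lit 795553810238602965502)]]],[[[Int.ofNat (nat_lit 4512255377371294306)]]]]],[[[[[Int.ofNat (nat_lit 20235194179893682478)]]]]]]],[[[[[[[Int.negSucc (nat_lit 189094500908221493971)]]]]]]],[[[[[[[Int.ofNat (nat_lit 20070249835953172274)]]]]]]]],[[[[[],[[[[Int.ofNat (nat_lit 4494049119913677920)]]]]]],[[[[[[Int.negSucc (nat_lit 9964965978697055109)]]]]]]]],[[[[[[[[Int.negSucc (nat_lit 268799323667906881315)]]]]]]]]],[[[[[[[[[Int.ofNat (nat_lit 700746480341045758369)]]]]]]],[[[[[[[Int.ofNat (nat_lit 10246378269031526968)]]]]]]]],[],[[[[[[[[Int.negSucc (nat_lit 119192224649983631993)]]]]]]]]],[[[[[[[[[Int.ofNat (nat_lit 5073978026407620146)]]]]]]]]]]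

/-- A coefficient. -/
noncomputable def sr5_m0_0_7 : MP 10 :=
  [[[[[[[[[[Int.ofNat (nat_lit 0),Int.ofNat (nat_lit 491377877550240424)]],[[Int.ofNat (nat_lit 8487998258062281912)]]]],[[[[Int.ofNat (nat_lit 60070091039400589646)]]]]]],[[[[[[Int.negSucc (nat_lit 225002536851802728435)]]]]]]],[[[[],[[[[Int.ofNat (nat_lit 8414464930777973288)]]]]]],[[[[[[Int.negSucc (nat_lit 55062329291319749471)]]]]]]]],[[[[[[[[Int.ofNat (nat_lit 1390197044440777162896)]]],[[[Int.ofNat (nat_lit 25295739743734067598)]]]]],[[[[[Int.negSucc (nat_lit 79161563148961996207)]]]]]]],[[[[[[[Int.ofNat (nat_lit 196027015075700799830)]]]]]]]],[[[],[[[[[[Int.negSucc (nat_lit 15363847669415862279)]]]]]]]],[[[[[[[[Int.negSucc (nat_lit 55657629699414931281)]]]]]]]]],[[[[[[],[[[[Int.negSucc (nat_lit 4295233835180766847)]]]]]],[[[[[[Int.ofNat (nat_lit 131541157392928886302)]]]]]]]],[[[[[[[[Int.negSucc (nat_lit 41765982515284287927)]]]]]]],[[[[[[[Int.ofNat (nat_lit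 49229165863328561208)]]]]]]]]],[[],[[[[[[[[Int.ofNat (nat_lit 122411636322516886498)]]]]]]]]]]

/-- A coefficient. -/
noncomputable def sr5_m0_0_8 : MP 10 :=
  [[[[[[[[[[Int.negSucc (nat_lit 1487140153297774498662)]]],[[[Int.negSucc (nat_lit 17526703139904957109)]]]]],[[[[[Int.ofNat (nat_lit 66157963826003897122)]]]]]]],[[[[[[[Int.negSucc (nat_lit 44153780618898266841)]]]]]]],[[[[[[[Int.negSucc (nat_lit 152215318533633871888)]]]]]]]],[[[[[],[[[[Int.negSucc (nat_lit 3745832862295895195)]]]]]],[[[[[[Int.ofNat (nat_lit 6499930718509533412)]]]]]]]],[[[[[[[[Int.ofNat (nat_lit 1405709364704792961843)]]]]]]]]],[[[[[[[[[Int.negSucc (nat_lit 544591421020926165815)]]]]]]],[[[[[[[Int.ofNat (nat_lit 116768883370759601470)]]]]]]]],[],[[[[[[[[Int.ofNat (nat_lit 56956554875066853950)]]]]]]]]],[[[[[[[[[Int.negSucc (nat_lit 505137940725722861642)]]]]]]]]]]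

/-- A coefficient. -/
noncomputable def sr5_m0_0_9 : MP 10 :=
  [[[[[[[],[[[[Int.negSucc (nat_lit 27225795180404457053)]]]]]],[[[[[[Int.ofNat (nat_lit 57084684543532517656)]]]]]]]],[[[[[[[[Int.negSucc (nat_lit 1810043176679620688937)]]]]]]],[[[[[[[Int.negSucc (nat_lit 91808174959198053539)]]]]]]]]],[[],[[[[[[[[Int.ofNat (nat_lit 76728131168698460058)]]]]]]]]]]

/-- A coefficient. -/
noncomputable def sr5_m0_0_10 : MP 10 :=
  [[[[[[[[[[Int.ofNat (nat_lit 899702989266340660190)]]]]]]],[[[[[[[Int.ofNat (nat_lit 88634683331726590446)]]]]]]]],[],[[[[[[[[Int.negSucc (nat_lit 739190892497876078776)]]]]]]]]],[[[[[[[[[Int.negSucc (nat_lit 17696335711344495639)]]]]]]]]]]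

/-- A coefficient. -/
noncomputable def sr5_m0_0_11 : MP 10 :=
  [[[],[[[[[[[[Int.ofNat (nat_lit 962442237653548550932)]]]]]]]]]]

/-- A coefficient. -/
noncomputable def sr5_m0_1_0 : MP 10 :=
  [[[[[[[[[],[[Int.ofNat (nat_lit 0),Int.ofNat (nat_lit 125404184495027688)]],[[Int.negSucc (nat_lit 3574331143999357891)]]]],[[[[Int.ofNat (nat_lit 0),Int.negSucc (nat_lit 4357441165311767)]],[[Int.ofNat (nat_lit 2903782540426915654)]]]],[[[[Int.negSucc (nat_lit 12742088792566534885)]]]]]],[[[[[[Int.ofNat (nat_lit 0),Int.negSucc (nat_lit 216145561831557911)]],[[Int.negSucc (nat_lit 4525886431236973335)]]]],[[[[Int.ofNat (nat_lit 3921583330469580690)]]]]]],[[[[[[Int.negSucc (nat_lit 32378387581976877475)]]]]]]],[[],[[[[[],[[Int.ofNat (nat_lit 405213045572966572)]]]],[[[[Int.ofNat (nat_lit 705586108591800526)]]]]]],[[[[[[Int.ofNat (nat_lit 3435097099423265486)]]]]]]]],[[[[[[[[Int.ofNat (nat_lit 0),Int.ofNat (nat_lit 1434719910579220920)]],[[Int.negSucc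 (nat_lit 11481858030473612997)]]]],[[[[Int.negSucc (nat_lit 11248814156093581)]]]]],[[[[],[[Int.ofNat (nat_lit 634836844025120302)]]]],[[[[Int.negSucc (nat_lit 367197181068963573)]]]]]],[[[[[[Int.ofNat (nat_lit 16399175952110216860)]]]]],[[[[[Int.negSucc (nat_lit 1109962864940021905)]]]]]]],[[[[[[[Int.ofNat (nat_lit 0),Int.ofNat (nat_lit 204560518303883576)]],[[Int.negSucc (nat_lit 1904190389362578671)]]]],[[[[Int.ofNat (nat_lit 16492052478507462872)]]]]]],[[[[[[Int.ofNat (nat_lit 18739946962593184428)]]]]]]],[[],[[[[[[Int.negSucc (nat_lit 3414716673158893687)]]]]]]]],[[[[[[[[Int.negSucc (nat_lit 89858136311086756075)]]]]],[[[[[Int.negSucc (nat_lit 347475019836382049)]]]]]]],[[[[[[[Int.ofNat (nat_lit 51490758258993842864)]]]]],[[[[[Int.ofNat (nat_lit 2946189991160305840)]]]]]]],[[[[[[[Int.negSucc (nat_lit 34706647282617580107)]]]]]]]],[[[[[[[],[[Int.negSucc (nat_lit 279071499986812481)]]]],[[[[Int.ofNat (nat_lit 2432044525786436124)]]]]]],[[[[[[Int.negSucc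 (nat_lit 2789843555691027507)]]]]]]]],[[[[[[[[Int.ofNat (nat_lit 2179225912063708936)]]]]]]],[[[[[[[Int.negSucc (nat_lit 3565559834694768267)]]]]]]]]],[[[[[[],[[[],[[Int.negSucc (nat_lit 90132125989215827)]]]],[[[[Int.ofNat (nat_lit 161003262753473520)]]]]]],[[[[[[Int.ofNat (nat_lit 0),Int.negSucc (nat_lit 283480521719320199)]],[[Int.ofNat (nat_lit 1138789342043580956)]]]],[[[[Int.negSucc (nat_lit 2036620235187837181)]]]]]],[[[[[[Int.negSucc (nat_lit 32191856743318543573)]]]]]]],[[],[],[[[[[[Int.ofNat (nat_lit 1106693320745924578)]]]]]]]],[[[[[[[[Int.ofNat (nat_lit 0),Int.ofNat (nat_lit 2528192982001306384)]],[[Int.negSucc (nat_lit 9283509479885577147)]]]],[[[[Int.ofNat (nat_lit 2058267140388950178)]]]]]],[[[[[[Int.negSucc (nat_lit 12078323871710042547)]]]]],[[[[[Int.negSucc (nat_lit 1648562336941006341)]]]]]]],[[[[],[[[[Int.negSucc (nat_lit 395956250252934907)]]]]]],[[[[[[Int.ofNat (nat_lit 24258624891269581970)]]]]]]]],[[[[[[[[Int.negSucc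 (nat_lit 142828702336918321793)]]]]],[[[[[Int.ofNat (nat_lit 7270379691183654466)]]]]]]],[[[[[[[Int.ofNat (nat_lit 22640368157903945206)]]]]]]]],[[[],[[[[[[Int.negSucc (nat_lit 166512775757983019)]]]]]]]],[[[[[[[[Int.negSucc (nat_lit 11000874217379289157)]]]]]]]]],[[[[],[[[],[[[[Int.ofNat (nat_lit 640582060439007654)]]]]]],[[[[[[Int.negSucc (nat_lit 18275829587507346463)]]]]]]]],[[[[[[[],[[Int.negSucc (nat_lit 542686894075048647)]]]],[[[[Int.ofNat (nat_lit 4454261799966735186)]]]]]],[[[[[[Int.negSucc (nat_lit 14464306877965687275)]]]]]]]],[[[[[[[[Int.negSucc (nat_lit 89933372588372158409)]]]]]]],[[[[[[[Int.negSucc (nat_lit 1035984462485937167)]]]]]]]]],[[],[[[],[[[[[[Int.negSucc (nat_lit 1980415775605047795)]]]]]]]],[[[[[[[[Int.negSucc (nat_lit 15462535066167723449)]]]]]]]]]]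

/-- A coefficient. -/
noncomputable def sr5_m0_1_1 : MP 10 :=
  [[[[[[[[[[Int.ofNat (nat_lit 0),Int.negSucc (nat_lit 2296162256325549655)]],[[Int.negSucc (nat_lit 3618900377587080897)]]],[[],[[Int.negSucc (nat_lit 926883909044324963)]]]],[[[[Int.ofNat (nat_lit 13537261903371584044)]]],[[[Int.ofNat (nat_lit 4572825411936673268)]]]]],[[[[[Int.ofNat (nat_lit 0),Int.ofNat (nat_lit 942678550198531056)]],[[Int.negSucc (nat_lit 11950022109275528345)]]]],[[[[Int.negSucc (nat_lit 3050500402693863007)]]]]]],[[[[[[Int.negSucc (nat_lit 47744197701272608889)]]],[[[Int.ofNat (nat_lit 4306115273546249840)]]]]],[[[[[Int.negSucc (nat_lit 19235674363193955943)]]]]]]],[[[[[[[Int.ofNat (nat_lit 0),Int.ofNat (nat_lit 167944659502845416)]],[[Int.ofNat (nat_lit 11413794865220006216)]]]],[[[[Int.negSucc (nat_lit 8736380923630249695)]]]]]],[[[[[[Int.ofNat (nat_lit 28862621755579030666)]]]]],[[[[[Int.ofNat (nat_lit 2543955887388907110)]]]]]]],[[],[[[[[[Int.negSucc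 (nat_lit 4070734433894439525)]]]]]]]],[[[[[[[[Int.ofNat (nat_lit 41084917523396266542)]]],[[[Int.ofNat (nat_lit 543519692738774694)]]]]],[[[[[Int.negSucc (nat_lit 49832282327400191909)]]]]],[[[[[Int.ofNat (nat_lit 896432152981681446)]]]]]],[[[[[],[[Int.ofNat (nat_lit 6580319186359100230)]]]],[[[[Int.negSucc (nat_lit 8990174264351164085)]]]]]],[[[[[[Int.negSucc (nat_lit 1236468795567823903)]]]]]]],[[[[[[[Int.ofNat (nat_lit 27365148601358017188)]]],[[[Int.negSucc (nat_lit 4360577255357482447)]]]]],[[[[[Int.ofNat (nat_lit 19975785237377978272)]]]]]]],[[[[[[[Int.ofNat (nat_lit 4576093649577609774)]]]]]]]],[[[[[[[[Int.ofNat (nat_lit 0),Int.ofNat (nat_lit 2186749267207417600)]],[[Int.ofNat (nat_lit 7736049564986226616)]]]],[[[[Int.negSucc (nat_lit 4194166794307848683)]]]]]],[[[[[[Int.ofNat (nat_lit 9758558292136551136)]]]]]]],[[],[[[[[[Int.ofNat (nat_lit 11727828684370449966)]]]]]]]],[[[[[[[[Int.ofNat (nat_lit 11369202335376733958)]]]]],[[[[[Int.ofNat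 (nat_lit 738220826134499596)]]]]]]],[[[[[[[Int.ofNat (nat_lit 11693285918490376920)]]]]]]]],[],[[[[[[[[Int.negSucc (nat_lit 8494578398240364413)]]]]]]]]],[[[[[[[[[Int.ofNat (nat_lit 0),Int.negSucc (nat_lit 4425609542088181039)]],[[Int.ofNat (nat_lit 21763535095340911474)]]]],[[[[Int.negSucc (nat_lit 20226316578506857623)]]]]],[[],[[[[Int.ofNat (nat_lit 1752480284689976276)]]]]]],[[[[[[Int.negSucc (nat_lit 797451691875756925)]]],[[[Int.ofNat (nat_lit 2539563509325387894)]]]]],[[[[[Int.negSucc (nat_lit 11597564964573334671)]]]]]]],[[[[[[],[[Int.ofNat (nat_lit 29081265751813120)]]]],[[[[Int.negSucc (nat_lit 3199726415017382561)]]]]]],[[[[[[Int.ofNat (nat_lit 12083255111092266636)]]]]]]]],[[[[[[[[Int.ofNat (nat_lit 25596049673015263912)]]],[[[Int.ofNat (nat_lit 3619872625221375342)]]]]],[[[[[Int.negSucc (nat_lit 74412001565001037973)]]]]]],[],[[[[[[Int.negSucc (nat_lit 5294500007353223433)]]]]]]],[[[[[[[Int.ofNat (nat_lit 88589435459260247528)]]]]]]],[[[[[[[Int.ofNat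 (nat_lit 3778180000604950522)]]]]]]]],[[[[[],[[[[Int.negSucc (nat_lit 1073200087094315479)]]]]]],[[[[[[Int.ofNat (nat_lit 15604351075360030958)]]]]]]]],[[[[[[[[Int.ofNat (nat_lit 35571011698499831600)]]]]]]]]],[[[[[[[[[Int.ofNat (nat_lit 0),Int.negSucc (nat_lit 552921491481419351)]],[[Int.ofNat (nat_lit 13025026124521442242)]]]],[[[[Int.negSucc (nat_lit 26416260352563620045)]]]]]],[[[[[[Int.ofNat (nat_lit 2833339293529473654)]]]]]]],[[],[[[[[[Int.ofNat (nat_lit 1234833409563633066)]]]]]]]],[[[[[[[[Int.ofNat (nat_lit 39111262831975359948)]]]]],[[[[[Int.negSucc (nat_lit 5585625103300500237)]]]]]]],[[[[[[[Int.ofNat (nat_lit 17801245424037284636)]]]]]]]],[],[[[[[[[[Int.negSucc (nat_lit 1778949879720561791)]]]]]]]]],[[[[[[],[[[[Int.ofNat (nat_lit 1240405772215529762)]]]]]],[[[[[[Int.negSucc (nat_lit 6383808985310873405)]]]]]]]],[[[[[[[[Int.ofNat (nat_lit 876534748522015532)]]]]]]]]],[[],[[[[[[[[Int.negSucc (nat_lit 8191895611304257511)]]]]]]]]]]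

/-- A coefficient. -/
noncomputable def sr5_m0_1_2 : MP 10 :=
  [[[[[[[[[[Int.negSucc (nat_lit 182143890465479624845)]],[[Int.ofNat (nat_lit 0),Int.negSucc (nat_lit 125404184495027687)]],[[Int.ofNat (nat_lit 3574331143999357892)]]],[[[Int.ofNat (nat_lit 5279310477181959136)]]]],[[[[Int.ofNat (nat_lit 0),Int.ofNat (nat_lit 4357441165311768)]],[[Int.ofNat (nat_lit 537118022048250804)]]]],[[[[Int.ofNat (nat_lit 7478421972121959748)]]]]],[[[[[Int.negSucc (nat_lit 12359501029332870309)]]],[[[Int.ofNat (nat_lit 2413877910627884614)]]]]],[[[[[Int.negSucc (nat_lit 39317879546724517785)]]]]]],[[[[[[Int.ofNat (nat_lit 0),Int.ofNat (nat_lit 480029956786511688)]],[[Int.negSucc (nat_lit 27115423725913543437)]]]],[[[[Int.ofNat (nat_lit 20982566000208308290)]]]]]],[[[[[[Int.ofNat (nat_lit 15108191624630769172)]]]]]]],[[[[[[[Int.ofNat (nat_lit 201670235615966801500)]]],[[[Int.ofNat (nat_lit 1539192353268280370)]]]]],[[[[[Int.ofNat (nat_lit 22786891388403479920)]]]]]],[[[[[],[[Int.negSucc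 (nat_lit 405213045572966571)]]]],[[[[Int.negSucc (nat_lit 705586108591800525)]]]]]],[[[[[[Int.ofNat (nat_lit 2652115785324614894)]]]]]]],[[[[[[[Int.negSucc (nat_lit 185844202969241609333)]]]]]]]],[[[[[[[[Int.ofNat (nat_lit 0),Int.negSucc (nat_lit 2058125955357404207)]],[[Int.ofNat (nat_lit 42017071635985785160)]]]],[[[[Int.negSucc (nat_lit 29813526478880108613)]]]]],[[[[],[[Int.negSucc (nat_lit 634836844025120301)]]]],[[[[Int.ofNat (nat_lit 367197181068963574)]]]]]],[[[[[[Int.negSucc (nat_lit 128432773349560999219)]]]]],[[[[[Int.ofNat (nat_lit 10648242010882336960)]]]]]]],[[[[[[[Int.ofNat (nat_lit 0),Int.negSucc (nat_lit 204560518303883575)]],[[Int.ofNat (nat_lit 1904190389362578672)]]]],[[[[Int.negSucc (nat_lit 23907090181822699777)]]]]]],[[[[[[Int.negSucc (nat_lit 25837523724602528783)]]]]]]],[[],[[[[[[Int.ofNat (nat_lit 3414716673158893688)]]]]]]]],[[[[[[[[Int.ofNat (nat_lit 560211086089285978892)]]],[[[Int.ofNat (nat_lit 652305481515903744)]]]]],[[[[[Int.ofNat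 (nat_lit 37772227066472082554)]]]]]]],[[[[[[[Int.negSucc (nat_lit 229800950722926433901)]]]]],[[[[[Int.negSucc (nat_lit 2946189991160305839)]]]]]]],[[[[[[[Int.ofNat (nat_lit 34706647282617580108)]]]]]]]],[[[[[[[],[[Int.ofNat (nat_lit 279071499986812482)]]]],[[[[Int.negSucc (nat_lit 2432044525786436123)]]]]]],[[[[[[Int.negSucc (nat_lit 14324213885489445497)]]]]]]]],[[[[[[[[Int.negSucc (nat_lit 102154907936296719115)]]]]]]],[[[[[[[Int.ofNat (nat_lit 3565559834694768268)]]]]]]]]],[[[[[[[[[Int.negSucc (nat_lit 368966544458508361001)]]],[[[Int.ofNat (nat_lit 5873089617270380642)]]]],[[[],[[Int.ofNat (nat_lit 90132125989215828)]]]],[[[[Int.negSucc (nat_lit 161003262753473519)]]]]],[[[[[Int.ofNat (nat_lit 69948419668476348456)]]]]]],[[[[[[Int.ofNat (nat_lit 0),Int.ofNat (nat_lit 283480521719320200)]],[[Int.negSucc (nat_lit 1138789342043580955)]]]],[[[[Int.ofNat (nat_lit 5843883626101968422)]]]]]],[[[[[[Int.negSucc (nat_lit 4192143172570114473)]]]]]]],[[[[[[[Int.ofNat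 (nat_lit 19156999958453241020)]]]]],[[[[[Int.negSucc (nat_lit 3184871929906602331)]]]]]],[],[[[[[[Int.negSucc (nat_lit 1106693320745924577)]]]]]]],[[[[[[[Int.negSucc (nat_lit 16963365744951510185)]]]]]]]],[[[[[[[[Int.ofNat (nat_lit 0),Int.negSucc (nat_lit 2528192982001306383)]],[[Int.ofNat (nat_lit 13534386601604192894)]]]],[[[[Int.negSucc (nat_lit 25643721990271396095)]]]]]],[[[[[[Int.negSucc (nat_lit 98020678937246953871)]]]]],[[[[[Int.ofNat (nat_lit 1648562336941006342)]]]]]]],[[[[],[[[[Int.ofNat (nat_lit 395956250252934908)]]]]]],[[[[[[Int.negSucc (nat_lit 24258624891269581969)]]]]]]]],[[[[[[[[Int.ofNat (nat_lit 500284311594034119480)]]]]],[[[[[Int.negSucc (nat_lit 7270379691183654465)]]]]]]],[[[[[[[Int.negSucc (nat_lit 45196651296215754639)]]]]]]]],[[[],[[[[[[Int.ofNat (nat_lit 166512775757983020)]]]]]]]],[[[[[[[[Int.ofNat (nat_lit 11000874217379289158)]]]]]]]]],[[[[[[[[[Int.negSucc (nat_lit 529400534846099827249)]]],[[[Int.ofNat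 (nat_lit 6306632953063775024)]]]]],[[[[[Int.ofNat (nat_lit 23722827490266915940)]]]]]],[[[],[[[[Int.negSucc (nat_lit 640582060439007653)]]]]]],[[[[[[Int.ofNat (nat_lit 18275829587507346464)]]]]]]],[[[[[[[Int.negSucc (nat_lit 48366609407487100225)]]]]]]]],[[[[[[[],[[Int.ofNat (nat_lit 542686894075048648)]]]],[[[[Int.negSucc (nat_lit 4454261799966735185)]]]]]],[[[[[[Int.negSucc (nat_lit 10277376807017750365)]]]]]]]],[[[[[[[[Int.ofNat (nat_lit 154115942136122992214)]]]]]]],[[[[[[[Int.ofNat (nat_lit 1035984462485937168)]]]]]]]]],[[[[[[[[[Int.negSucc (nat_lit 411735874218678489919)]]]]]]],[[[[[[[Int.negSucc (nat_lit 6540223620542013079)]]]]]]]],[[[],[[[[[[Int.ofNat (nat_lit 1980415775605047796)]]]]]]]],[[[[[[[[Int.ofNat (nat_lit 15462535066167723450)]]]]]]]]],[[[[[[[[[Int.negSucc (nat_lit 117787665709313893411)]]]]]]]]]]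

/-- A coefficient. -/
noncomputable def sr5_m0_1_3 : MP 10 :=
  [[[[[[[[[[Int.ofNat (nat_lit 0),Int.ofNat (nat_lit 2325943174528258192)]],[[Int.ofNat (nat_lit 3504681952494253778)]]],[[],[[Int.ofNat (nat_lit 926883909044324964)]]]],[[[[Int.negSucc (nat_lit 2636515314510352131)]]],[[[Int.negSucc (nat_lit 4572825411936673267)]]]]],[[[[[Int.ofNat (nat_lit 0),Int.negSucc (nat_lit 942678550198531055)]],[[Int.ofNat (nat_lit 11950022109275528346)]]]],[[[[Int.ofNat (nat_lit 14101120595163330656)]]]]]],[[[[[[Int.ofNat (nat_lit 13458791602284519304)]]],[[[Int.negSucc (nat_lit 6369213965321228985)]]]]],[[[[[Int.negSucc (nat_lit 82239849275009597253)]]]]]]],[[[[[[[Int.ofNat (nat_lit 0),Int.negSucc (nat_lit 167944659502845415)]],[[Int.negSucc (nat_lit 12372239241617046999)]]]],[[[[Int.ofNat (nat_lit 17635933424082441336)]]]]]],[[[[[[Int.ofNat (nat_lit 138612402666554085574)]]]]],[[[[[Int.negSucc (nat_lit 2543955887388907109)]]]]]]],[[],[[[[[[Int.ofNat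 (nat_lit 4070734433894439526)]]]]]]]],[[[[[[[[Int.negSucc (nat_lit 75704056573953582113)]]],[[[Int.negSucc (nat_lit 8824772833681104561)]]]]],[[[[[Int.ofNat (nat_lit 165879364112437866214)]]]]],[[[[[Int.negSucc (nat_lit 896432152981681445)]]]]]],[[[[[],[[Int.negSucc (nat_lit 6580319186359100229)]]]],[[[[Int.ofNat (nat_lit 8990174264351164086)]]]]]],[[[[[[Int.negSucc (nat_lit 29530230627086209849)]]]]]]],[[[[[[[Int.negSucc (nat_lit 256723634759835360039)]]],[[[Int.ofNat (nat_lit 4360577255357482448)]]]]],[[[[[Int.negSucc (nat_lit 19975785237377978271)]]]]]]],[[[[[[[Int.negSucc (nat_lit 12985879351507260257)]]]]]]]],[[[[[[[[Int.ofNat (nat_lit 0),Int.negSucc (nat_lit 2186749267207417599)]],[[Int.negSucc (nat_lit 7736049564986226615)]]]],[[[[Int.ofNat (nat_lit 19143675594478051042)]]]]]],[[[[[[Int.ofNat (nat_lit 133439320243636368300)]]]]]]],[[],[[[[[[Int.negSucc (nat_lit 11727828684370449965)]]]]]]]],[[[[[[[[Int.ofNat (nat_lit 81974351365124459800)]]]]],[[[[[Int.negSucc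 (nat_lit 738220826134499595)]]]]]]],[[[[[[[Int.negSucc (nat_lit 11693285918490376919)]]]]]]]],[],[[[[[[[[Int.ofNat (nat_lit 8494578398240364414)]]]]]]]]],[[[[[[[[[Int.ofNat (nat_lit 0),Int.ofNat (nat_lit 7154542204256994232)]],[[Int.ofNat (nat_lit 21169508094574047568)]]]],[[[[Int.negSucc (nat_lit 45261498170170667261)]]]]],[[],[[[[Int.negSucc (nat_lit 1752480284689976275)]]]]]],[[[[[[Int.ofNat (nat_lit 114431685207923260474)]]],[[[Int.negSucc (nat_lit 2539563509325387893)]]]]],[[[[[Int.ofNat (nat_lit 11597564964573334672)]]]]]]],[[[[[[],[[Int.negSucc (nat_lit 29081265751813119)]]]],[[[[Int.ofNat (nat_lit 3199726415017382562)]]]]]],[[[[[[Int.negSucc (nat_lit 59295673864717136759)]]]]]]]],[[[[[[[[Int.ofNat (nat_lit 327150656674526238814)]]],[[[Int.negSucc (nat_lit 3619872625221375341)]]]]],[[[[[Int.ofNat (nat_lit 94868526395097030196)]]]]]],[],[[[[[[Int.ofNat (nat_lit 5294500007353223434)]]]]]]],[[[[[[[Int.negSucc (nat_lit 209664938106849091447)]]]]]]],[[[[[[[Int.negSucc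 (nat_lit 3778180000604950521)]]]]]]]],[[[[[],[[[[Int.ofNat (nat_lit 1073200087094315480)]]]]]],[[[[[[Int.negSucc (nat_lit 15604351075360030957)]]]]]]]],[[[[[[[[Int.negSucc (nat_lit 87167519640085701793)]]]]]]]]],[[[[[[[[[Int.ofNat (nat_lit 0),Int.ofNat (nat_lit 552921491481419352)]],[[Int.negSucc (nat_lit 13025026124521442241)]]]],[[[[Int.ofNat (nat_lit 18432460477015805288)]]]]]],[[[[[[Int.ofNat (nat_lit 72243428523960527700)]]]]]]],[[],[[[[[[Int.negSucc (nat_lit 1234833409563633065)]]]]]]]],[[[[[[[[Int.ofNat (nat_lit 168798134912849818406)]]]]],[[[[[Int.ofNat (nat_lit 5585625103300500238)]]]]]]],[[[[[[[Int.negSucc (nat_lit 17801245424037284635)]]]]]]]],[],[[[[[[[[Int.ofNat (nat_lit 1778949879720561792)]]]]]]]]],[[[[[[],[[[[Int.negSucc (nat_lit 1240405772215529761)]]]]]],[[[[[[Int.ofNat (nat_lit 6383808985310873406)]]]]]]]],[[[[[[[[Int.ofNat (nat_lit 39937820623804928750)]]]]]]]]],[[],[[[[[[[[Int.ofNat (nat_lit 8191895611304257512)]]]]]]]]]]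

/-- A coefficient. -/
noncomputable def sr5_m0_1_4 : MP 10 :=
  [[[[[[[[[[Int.ofNat (nat_lit 620337711130914704980)]]],[[[Int.negSucc (nat_lit 4380072806220375007)]]]],[[[],[[Int.negSucc (nat_lit 3440900562475166457)]]]],[[[[Int.ofNat (nat_lit 5263666820444575138)]]]]],[[[[[Int.negSucc (nat_lit 13345866177013708427)]]],[[[Int.negSucc (nat_lit 2413877910627884613)]]]]],[[[[[Int.ofNat (nat_lit 39317879546724517786)]]]]]],[[[[[[Int.ofNat (nat_lit 0),Int.negSucc (nat_lit 263884394954953775)]],[[Int.ofNat (nat_lit 31641310157150516774)]]]],[[[[Int.negSucc (nat_lit 33656635499462102491)]]]]]],[[[[[[Int.negSucc (nat_lit 447980771362916796209)]]]]]]],[[[[[[[Int.negSucc (nat_lit 129801069634160677461)]]],[[[Int.negSucc (nat_lit 1539192353268280369)]]]]],[[[[[Int.negSucc (nat_lit 25020047905605687001)]]]]]],[],[[[[[[Int.negSucc (nat_lit 6087212884747880379)]]]]]]],[[[[[[[Int.ofNat (nat_lit 255180393998980311214)]]]]]]]],[[[[[[[[Int.ofNat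 (nat_lit 0),Int.ofNat (nat_lit 623406044778183288)]],[[Int.negSucc (nat_lit 37414820765821561589)]]]],[[[[Int.negSucc (nat_lit 35344905751392316463)]]]]]],[[[[[[Int.ofNat (nat_lit 472300482291458594852)]]]]],[[[[[Int.negSucc (nat_lit 9538279145942315053)]]]]]]],[[[[],[[[[Int.ofNat (nat_lit 7415037703315236906)]]]]]],[[[[[[Int.ofNat (nat_lit 7097576762009344356)]]]]]]]],[[[[[[[[Int.negSucc (nat_lit 1948966197673141435729)]]],[[[Int.negSucc (nat_lit 652305481515903743)]]]]],[[[[[Int.negSucc (nat_lit 37424752046635700503)]]]]]]],[[[[[[[Int.ofNat (nat_lit 134169414495785875788)]]]]]]]],[[[],[[[[[[Int.ofNat (nat_lit 17114057441180473006)]]]]]]]],[[[[[[[[Int.ofNat (nat_lit 99975682024233010180)]]]]]]]]],[[[[[[[[[Int.ofNat (nat_lit 1220413910789249628038)]]],[[[Int.negSucc (nat_lit 4933864189592174607)]]]]],[[[[[Int.ofNat (nat_lit 21899734137515324416)]]]]]],[[[],[[[[Int.negSucc (nat_lit 3807263390914131239)]]]]]],[[[[[[Int.ofNat (nat_lit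 36383999915888658048)]]]]]]],[[[[[[[Int.negSucc (nat_lit 89753959743610439881)]]]]],[[[[[Int.ofNat (nat_lit 3184871929906602332)]]]]]]],[[[[[[[Int.ofNat (nat_lit 16963365744951510186)]]]]]]]],[[[[[[[],[[Int.negSucc (nat_lit 4250877121718615745)]]]],[[[[Int.ofNat (nat_lit 23585454849882445918)]]]]]],[[[[[[Int.ofNat (nat_lit 163786962848216665886)]]]]]]]],[[[[[[[[Int.negSucc (nat_lit 726783218358800825167)]]]]]]],[[[[[[[Int.ofNat (nat_lit 22556283138311809434)]]]]]]]]],[[[[[[[[[Int.ofNat (nat_lit 1136781563398197472134)]]],[[[Int.negSucc (nat_lit 6306632953063775023)]]]]],[[[[[Int.negSucc (nat_lit 23722827490266915939)]]]]]]],[[[[[[[Int.ofNat (nat_lit 48206023771963110782)]]]]]]]],[[[],[[[[[[Int.ofNat (nat_lit 24741683684983437642)]]]]]]]],[[[[[[[[Int.negSucc (nat_lit 64182569547750833803)]]]]]]]]],[[[[[[[[[Int.ofNat (nat_lit 495611142990482341458)]]]]]]],[[[[[[[Int.ofNat (nat_lit 6540223620542013080)]]]]]]]]],[[[[[[[[[Int.ofNat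 (nat_lit 117787665709313893412)]]]]]]]]]]

/-- A coefficient. -/
noncomputable def sr5_m0_1_5 : MP 10 :=
  [[[[[[[[[[Int.ofNat (nat_lit 0),Int.ofNat (nat_lit 210906763889767176)]],[[Int.ofNat (nat_lit 14311224539172840190)]]]],[[[[Int.negSucc (nat_lit 64312447789941615583)]]]]],[[],[[[[Int.negSucc (nat_lit 11050620192469467647)]]]]]],[[[[[[Int.negSucc (nat_lit 12066235105658675655)]]],[[[Int.ofNat (nat_lit 2063098691774979146)]]]]],[[[[[Int.ofNat (nat_lit 101475523638203553198)]]]]]]],[[[[[[],[[Int.ofNat (nat_lit 958444376397040784)]]]],[[[[Int.negSucc (nat_lit 8899552500452191639)]]]]]],[[[[[[Int.negSucc (nat_lit 217877397048339567877)]]]]]]]],[[[[[[[[Int.ofNat (nat_lit 799491602833681325078)]]],[[[Int.ofNat (nat_lit 8281253140942329868)]]]]],[[[[[Int.negSucc (nat_lit 187726103503878184591)]]]]]],[],[[[[[[Int.ofNat (nat_lit 30766699422654033754)]]]]]]],[[[[[[[Int.ofNat (nat_lit 553136156828193413278)]]]]]]],[[[[[[[Int.ofNat (nat_lit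 8409785701929650484)]]]]]]]],[[[[[],[[[[Int.negSucc (nat_lit 14949508800170202357)]]]]]],[[[[[[Int.negSucc (nat_lit 143197878535772919435)]]]]]]]],[[[[[[[[Int.negSucc (nat_lit 47403658788423461235)]]]]]]]]],[[[[[[[[[Int.ofNat (nat_lit 0),Int.negSucc (nat_lit 2728932662168813191)]],[[Int.negSucc (nat_lit 42933043189914959041)]]]],[[[[Int.ofNat (nat_lit 83474063766501819708)]]]]]],[[[[[[Int.ofNat (nat_lit 341791440710522554256)]]]]]]],[[],[[[[[[Int.ofNat (nat_lit 47212418753624870124)]]]]]]]],[[[[[[[[Int.negSucc (nat_lit 1311098558156179100167)]]]]],[[[[[Int.negSucc (nat_lit 20456524830095992221)]]]]]]],[[[[[[[Int.ofNat (nat_lit 121075502647588843920)]]]]]]]],[],[[[[[[[[Int.ofNat (nat_lit 51596507941585870194)]]]]]]]]],[[[[[[],[[[[Int.ofNat (nat_lit 7983799875547814758)]]]]]],[[[[[[Int.negSucc (nat_lit 75076767817490001353)]]]]]]]],[[[[[[[[Int.negSucc (nat_lit 605125305879832186621)]]]]]]]]],[[],[[[[[[[[Int.negSucc (nat_lit 40814355372326944281)]]]]]]]]]]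

/-- A coefficient. -/
noncomputable def sr5_m0_1_6 : MP 10 :=
  [[[[[[[[[[Int.negSucc (nat_lit 2284114094629990098835)]]],[[[Int.ofNat (nat_lit 16004049933466564970)]]]]],[[[[[Int.ofNat (nat_lit 12267573626385725792)]]]]]],[[[],[[[[Int.ofNat (nat_lit 8752486168784213512)]]]]]],[[[[[[Int.ofNat (nat_lit 465250967320262904514)]]]]]]],[[[[[[[Int.negSucc (nat_lit 293721043011661224131)]]]]],[[[[[Int.ofNat (nat_lit 2233156517202207082)]]]]]]],[[[[[[[Int.negSucc (nat_lit 69336191029738701879)]]]]]]]],[[[[[[[],[[Int.ofNat (nat_lit 6879607160309389428)]]]],[[[[Int.ofNat (nat_lit 65169681044428518660)]]]]]],[[[[[[Int.negSucc (nat_lit 348603773354502330201)]]]]]]]],[[[[[[[[Int.ofNat (nat_lit 2026959664076686334624)]]]]]]],[[[[[[[Int.ofNat (nat_lit 44140777968146715250)]]]]]]]]],[[[[[[[[[Int.negSucc (nat_lit 2574761757949503225023)]]],[[[Int.negSucc (nat_lit 939225427678206033)]]]]],[[[[[Int.negSucc (nat_lit 91848153805991672871)]]]]]]],[[[[[[[Int.ofNat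 (nat_lit 3303543030048150978)]]]]]]]],[[[],[[[[[[Int.negSucc (nat_lit 53687960039259669465)]]]]]]]],[[[[[[[[Int.ofNat (nat_lit 369327609101685027482)]]]]]]]]],[[[[[[[[[Int.negSucc (nat_lit 1896696433396746636405)]]]]]]],[[[[[[[Int.ofNat (nat_lit 160585635523989444)]]]]]]]]],[[[[[[[[[Int.negSucc (nat_lit 83875268771803851537)]]]]]]]]]]

/-- A coefficient. -/
noncomputable def sr5_m0_1_7 : MP 10 :=
  [[[[[[[[[[Int.ofNat (nat_lit 0),Int.negSucc (nat_lit 240687682092475711)]],[[Int.negSucc (nat_lit 14197006114080013069)]]]],[[[[Int.ofNat (nat_lit 29500323831593321936)]]]]]],[[[[[[Int.ofNat (nat_lit 72812707286579427690)]]]]]]],[[],[[[[[[Int.ofNat (nat_lit 50402372626206451638)]]]]]]]],[[[[[[[[Int.negSucc (nat_lit 231653070645483426709)]]]]],[[[[[Int.ofNat (nat_lit 71679021718840510288)]]]]]]],[[[[[[[Int.negSucc (nat_lit 323777670669716070425)]]]]]]]],[],[[[[[[[[Int.negSucc (nat_lit 45939894912077732521)]]]]]]]]],[[[[[[],[[[[Int.negSucc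 (nat_lit 17986249017824294821)]]]]]],[[[[[[Int.negSucc (nat_lit 455425674226570057803)]]]]]]]],[[[[[[[[Int.ofNat (nat_lit 1029648198145321547096)]]]]]]]]],[[],[[[[[[[[Int.ofNat (nat_lit 397215908135007008268)]]]]]]]]]]

/-- A coefficient. -/
noncomputable def sr5_m0_1_8 : MP 10 :=
  [[[[[[[[[[Int.ofNat (nat_lit 3045998840134884452578)]]],[[[Int.negSucc (nat_lit 16903287604428149097)]]]]],[[[[[Int.ofNat (nat_lit 13437793579960852946)]]]]]]],[[[[[[[Int.ofNat (nat_lit 317608807853787610456)]]]]]]]],[[[],[[[[[[Int.negSucc (nat_lit 11663111539505482289)]]]]]]]],[[[[[[[[Int.negSucc (nat_lit 548346416181744121709)]]]]]]]]],[[[[[[[[[Int.ofNat (nat_lit 1909162122454214637468)]]]]]]],[[[[[[[Int.ofNat (nat_lit 67293416755109047884)]]]]]]]]],[[[[[[[[[Int.ofNat (nat_lit 1289315404844648991522)]]]]]]]]]]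

/-- A coefficient. -/
noncomputable def sr5_m0_1_9 : MP 10 :=
  [[[[[[[],[[[[Int.ofNat (nat_lit 23911377369487061736)]]]]]],[[[[[[Int.negSucc (nat_lit 26461066081932662447)]]]]]]]],[[[[[[[[Int.negSucc (nat_lit 1878594932279179706721)]]]]]]]]],[[],[[[[[[[[Int.negSucc (nat_lit 71296346336683949653)]]]]]]]]]]

/-- A coefficient. -/
noncomputable def sr5_m0_1_10 : MP 10 :=
  [[[[[[[[[[Int.negSucc (nat_lit 1200078566170329433875)]]]]]]],[[[[[[[Int.negSucc (nat_lit 95756930823932510361)]]]]]]]]],[[[[[[[[[Int.negSucc (nat_lit 185847730835452679479)]]]]]]]]]]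

/-- A coefficient. -/
noncomputable def sr5_m0_1_11 : MP 10 :=
  [[[],[[[[[[[[Int.ofNat (nat_lit 1345375539141539123926)]]]]]]]]]]

/-- A coefficient. -/
noncomputable def sr5_m0_2_0 : MP 10 :=
  [[[[[[[[[[Int.ofNat (nat_lit 0),Int.ofNat (nat_lit 0),Int.negSucc (nat_lit 60105459464565903)]],[[Int.ofNat (nat_lit 0),Int.ofNat (nat_lit 67973896883713968)]],[[Int.negSucc (nat_lit 1168090170213451164)]]]],[[[[Int.ofNat (nat_lit 0),Int.negSucc (nat_lit 38015900539531399)]],[[Int.ofNat (nat_lit 2134577963924981752)]]]],[[[[Int.ofNat (nat_lit 7383327657153573620)]]]]]],[[[[[[Int.ofNat (nat_lit 0),Int.negSucc (nat_lit 247292478279168407)]],[[Int.ofNat (nat_lit 5597081459804917110)]]]],[[[[Int.ofNat (nat_lit 5727893450069927452)]]]]]],[[[[[[Int.ofNat (nat_lit 29775985192924472296)]]]]]]],[[],[[[[[[Int.ofNat (nat_lit 0),Int.negSucc (nat_lit 7474390968007215)]],[[Int.ofNat (nat_lit 240323869670277578)]]]],[[[[Int.negSucc (nat_lit 1810141641160325123)]]]]]],[[[[[[Int.negSucc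 (nat_lit 3476753888533474811)]]]]]]],[[],[],[[[[[[Int.negSucc (nat_lit 545738358340868847)]]]]]]]],[[[[[[[[Int.ofNat (nat_lit 0),Int.negSucc (nat_lit 619351187655974599)]],[[Int.ofNat (nat_lit 200475885603624766)]]]],[[[[Int.negSucc (nat_lit 6690043930020917087)]]]]],[[[[[Int.ofNat (nat_lit 0),Int.negSucc (nat_lit 203619935262859063)]],[[Int.ofNat (nat_lit 285835565404734296)]]]],[[[[Int.negSucc (nat_lit 495653699493288457)]]]]]],[[[[[[Int.ofNat (nat_lit 1091429066601051340)]]]]],[[[[[Int.negSucc (nat_lit 608631641598988513)]]]]]]],[[[[[[[Int.ofNat (nat_lit 0),Int.ofNat (nat_lit 184148989802789736)]],[[Int.negSucc (nat_lit 1059899027794415419)]]]],[[[[Int.negSucc (nat_lit 6443029554014196003)]]]]]],[[[[[[Int.negSucc (nat_lit 18820540959105486715)]]]]],[[[[[Int.negSucc (nat_lit 85153625397941871)]]]]]]],[[],[[[[[[Int.negSucc (nat_lit 881950226683356027)]]]]]]]],[[[[[[[[Int.ofNat (nat_lit 26226192024091591281)]]]]],[[[[[Int.negSucc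 (nat_lit 263881039307716425)]]]]],[[[[[Int.negSucc (nat_lit 875128156644062158)]]]]]]],[[[[[[[Int.ofNat (nat_lit 24804959655345021458)]]]]],[[[[[Int.ofNat (nat_lit 3114358711470286252)]]]]]]],[[[[[[[Int.negSucc (nat_lit 11803614276157548595)]]]]]]]],[[[[[[[[Int.ofNat (nat_lit 0),Int.ofNat (nat_lit 240164168377402432)]],[[Int.negSucc (nat_lit 51881999632908775)]]]],[[[[Int.negSucc (nat_lit 596214626671204483)]]]]]],[[[[[[Int.ofNat (nat_lit 820694873939868884)]]]]]]],[[],[[[[[[Int.ofNat (nat_lit 240291478570167836)]]]]]]]],[[[[[[[[Int.ofNat (nat_lit 5996498380970514776)]]]]],[[[[[Int.ofNat (nat_lit 1488518357132899418)]]]]]]],[[[[[[[Int.negSucc (nat_lit 4270701037429467445)]]]]]]]],[],[[[[[[[[Int.negSucc (nat_lit 2019907401406732709)]]]]]]]]],[[[[[[],[[[[Int.ofNat (nat_lit 0),Int.negSucc (nat_lit 43579124688698831)]],[[Int.negSucc (nat_lit 148802491583112767)]]]],[[[[Int.negSucc (nat_lit 2434592172552460035)]]]]]],[[[[[[Int.ofNat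 (nat_lit 0),Int.negSucc (nat_lit 287970114205656703)]],[[Int.ofNat (nat_lit 651451899858375734)]]]],[[[[Int.ofNat (nat_lit 4884867883498215844)]]]]]],[[[[[[Int.ofNat (nat_lit 4353600748208091930)]]]]]]],[[],[[[],[[[[Int.negSucc (nat_lit 57110075391495887)]]]]]],[[[[[[Int.ofNat (nat_lit 1497732889248256686)]]]]]]]],[[[[[[[[Int.ofNat (nat_lit 0),Int.negSucc (nat_lit 933063562898702695)]],[[Int.negSucc (nat_lit 190589599189544131)]]]],[[[[Int.ofNat (nat_lit 4513511552127075968)]]]]],[[],[[[[Int.ofNat (nat_lit 161857866133352194)]]]]]],[[[[[[Int.ofNat (nat_lit 21903841267570242710)]]]]],[[[[[Int.negSucc (nat_lit 851795436406156223)]]]]]]],[[[[],[[[[Int.negSucc (nat_lit 281038819183406563)]]]]]],[[[[[[Int.ofNat (nat_lit 9831430013403444884)]]]]]]]],[[[[[[[[Int.ofNat (nat_lit 22562516766245387278)]]]]],[[[[[Int.negSucc (nat_lit 2591163465907049425)]]]]]]],[[[[[[[Int.ofNat (nat_lit 25328201684937526146)]]]]]]]],[[[[[],[[[[Int.ofNat (nat_lit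 91532132771727794)]]]]]],[[[[[[Int.negSucc (nat_lit 306278524061529379)]]]]]]]],[[[[[[[[Int.ofNat (nat_lit 3554562735514478178)]]]]]]]]],[[[[[[],[],[[[[Int.negSucc (nat_lit 512838093603172504)]]]]]],[[[],[[[[Int.ofNat (nat_lit 957432784816596740)]]]]]],[[[[[[Int.negSucc (nat_lit 6403162253525850908)]]]]]]]],[[[[[[[[Int.ofNat (nat_lit 0),Int.ofNat (nat_lit 265367494384163048)]],[[Int.ofNat (nat_lit 989288527504692)]]]],[[[[Int.ofNat (nat_lit 4168815199589794300)]]]]]],[[[[[[Int.ofNat (nat_lit 2127236036737588046)]]]]]]],[[],[[[[[[Int.ofNat (nat_lit 772829307152878142)]]]]]]]],[[[[[[[[Int.ofNat (nat_lit 18200649421534252398)]]]]],[[[[[Int.ofNat (nat_lit 1563162301641545506)]]]]]]],[[[[[[[Int.negSucc (nat_lit 3062713159963521213)]]]]]]]],[],[[[[[[[[Int.negSucc (nat_lit 3947719826659326839)]]]]]]]]],[[],[[[[[],[[[[Int.ofNat (nat_lit 710744053291094214)]]]]]],[[[[[[Int.negSucc (nat_lit 2432693581302357229)]]]]]]]],[[[[[[[[Int.negSucc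 (nat_lit 10996081070151965285)]]]]]]]]],[[],[],[[[[[[[[Int.negSucc (nat_lit 3812746440528441978)]]]]]]]]]]

/-- A coefficient. -/
noncomputable def sr5_m0_2_1 : MP 10 :=
  [[[[[[[[[[Int.ofNat (nat_lit 0),Int.negSucc (nat_lit 1094394319347413807)]],[[Int.negSucc (nat_lit 19799269289016683903)]]],[[[Int.ofNat (nat_lit 0),Int.ofNat (nat_lit 14348150367202864)]],[[Int.negSucc (nat_lit 720199431897912823)]]]],[[[[Int.ofNat (nat_lit 4635157164011840652)]]],[[[Int.negSucc (nat_lit 5068343755789080267)]]]]],[[[[[Int.ofNat (nat_lit 0),Int.ofNat (nat_lit 655774418534287680)]],[[Int.negSucc (nat_lit 3274426614854163523)]]]],[[[[Int.ofNat (nat_lit 15577491529329357666)]]]]]],[[[[[[Int.ofNat (nat_lit 4544722638298758592)]]],[[[Int.negSucc (nat_lit 8352474207854226851)]]]]],[[[[[Int.ofNat (nat_lit 23302344595642479632)]]]]]]],[[[[[[[Int.ofNat (nat_lit 0),Int.negSucc (nat_lit 53276932360347959)]],[[Int.ofNat (nat_lit 1423231902791773414)]]]],[[[[Int.negSucc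 (nat_lit 12809124532597782181)]]]]]],[[[[[[Int.negSucc (nat_lit 37428986578455781605)]]],[[[Int.negSucc (nat_lit 649049980900454663)]]]]],[[[[[Int.ofNat (nat_lit 2082387586514180206)]]]]]]],[[],[[[[[[Int.ofNat (nat_lit 9522299011026260220)]]]]]]]],[[[[[[[[Int.negSucc (nat_lit 1900630978769483683)]]],[[[Int.ofNat (nat_lit 12193774185836368824)]]]]],[[[[[Int.negSucc (nat_lit 28143656220194805719)]]],[[[Int.negSucc (nat_lit 242724198873251649)]]]]],[[[[[Int.ofNat (nat_lit 3187538968279801644)]]]]]],[[[[[[Int.ofNat (nat_lit 0),Int.negSucc (nat_lit 646758141206678863)]],[[Int.ofNat (nat_lit 4215790760120074310)]]]],[[[[Int.negSucc (nat_lit 581902750813348613)]]]]]],[[[[[[Int.ofNat (nat_lit 26175588899064021180)]]]]]]],[[[[[[[Int.negSucc (nat_lit 70093324771640561117)]]],[[[Int.negSucc (nat_lit 2272549086358243621)]]]]],[[[[[Int.negSucc (nat_lit 2945857767749821095)]]]]]],[],[[[[[[Int.negSucc (nat_lit 404421465983716849)]]]]]]],[[[[[[[Int.ofNat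 (nat_lit 67328966143287271108)]]]]]]]],[[[[[[[[Int.ofNat (nat_lit 0),Int.ofNat (nat_lit 627899637853086856)]],[[Int.ofNat (nat_lit 1817439945977276276)]]]],[[[[Int.negSucc (nat_lit 4830472793908980023)]]]]]],[[[[[[Int.negSucc (nat_lit 52900638634486982581)]]]]],[[[[[Int.negSucc (nat_lit 1140269349344198573)]]]]]]],[[],[[[[[[Int.ofNat (nat_lit 11560794682349810606)]]]]]]]],[[[[[[[[Int.ofNat (nat_lit 1659676794827314096)]]],[[[Int.ofNat (nat_lit 212630503333645034)]]]]],[[[[[Int.negSucc (nat_lit 3760809993454747737)]]]]]]],[[[[[[[Int.ofNat (nat_lit 13483774726121933542)]]]]]]]],[[[],[[[[[[Int.ofNat (nat_lit 4613449843391174374)]]]]]]]],[[[[[[[[Int.ofNat (nat_lit 7571935445319247884)]]]]]]]]],[[[[[[[[[Int.ofNat (nat_lit 0),Int.negSucc (nat_lit 4006783482137560823)]],[[Int.negSucc (nat_lit 36513553272682252997)]]]],[[[[Int.ofNat (nat_lit 9584950393823703452)]]],[[[Int.negSucc (nat_lit 493252517012164727)]]]]],[[],[[[[Int.ofNat (nat_lit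 885714844612777036)]]]]]],[[[[[[Int.negSucc (nat_lit 51714657153058819915)]]],[[[Int.ofNat (nat_lit 2681867728885999924)]]]]],[[[[[Int.negSucc (nat_lit 4945495247229464863)]]]]]]],[[[[[[[Int.ofNat (nat_lit 0),Int.ofNat (nat_lit 258293296622815336)]],[[Int.ofNat (nat_lit 490979423935524058)]]]],[[[[Int.negSucc (nat_lit 156539416637652057)]]]]]],[[[[[[Int.negSucc (nat_lit 17989621191564934037)]]]]]]],[[],[[[[[[Int.ofNat (nat_lit 622412062194230378)]]]]]]]],[[[[[[[[Int.negSucc (nat_lit 8436267707649909903)]]],[[[Int.ofNat (nat_lit 6173641488133059296)]]]]],[[[[[Int.negSucc (nat_lit 16022118875186111213)]]]]]],[[[],[[[[Int.negSucc (nat_lit 967567940838609925)]]]]]],[[[[[[Int.negSucc (nat_lit 4016994404206341197)]]]]]]],[[[[[[[Int.negSucc (nat_lit 80774496290784556767)]]]]],[[[[[Int.ofNat (nat_lit 2304929815081982790)]]]]]]],[[[[[[[Int.ofNat (nat_lit 1358661639592054360)]]]]]]]],[[[[[],[[[[Int.negSucc (nat_lit 16289424470716143)]]]]]],[[[[[[Int.negSucc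 (nat_lit 8820236793052564479)]]]]]]]],[[[[[[[[Int.ofNat (nat_lit 15973728870496196852)]]]]]]],[[[[[[[Int.negSucc (nat_lit 359071399772678141)]]]]]]]]],[[[[[[[[[Int.ofNat (nat_lit 0),Int.negSucc (nat_lit 1246792072394010671)]],[[Int.ofNat (nat_lit 4894170887603400446)]]]],[[[[Int.negSucc (nat_lit 6359907984832645307)]]]]]],[[[[[[Int.negSucc (nat_lit 4076763577865584407)]]]]]]],[[[[],[[[[Int.negSucc (nat_lit 666624249987205579)]]]]]],[[[[[[Int.negSucc (nat_lit 2759792790079548969)]]]]]]]],[[[[[[[[Int.negSucc (nat_lit 28558704750704057443)]]],[[[Int.ofNat (nat_lit 1489592499284292396)]]]]],[[[[[Int.negSucc (nat_lit 10011005936130572831)]]]]]]],[[[[[[[Int.ofNat (nat_lit 5058395207261870568)]]]]]]]],[[[],[[[[[[Int.ofNat (nat_lit 4778646051156967198)]]]]]]]],[[[[[[[[Int.ofNat (nat_lit 14700086209419604846)]]]]]]]]],[[[[[[],[[[[Int.negSucc (nat_lit 795986598148603951)]]]]]],[[[[[[Int.ofNat (nat_lit 871679259284589536)]]]]]]]],[[[[[[[[Int.ofNat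 (nat_lit 22921207171479005360)]]]]]]],[[[[[[[Int.negSucc (nat_lit 1422073145054987081)]]]]]]]]],[[],[[[[[[[[Int.ofNat (nat_lit 9464470600477716172)]]]]]]]]]]

/-- A coefficient. -/
noncomputable def sr5_m0_2_2 : MP 10 :=
  [[[[[[[[[[Int.ofNat (nat_lit 55519735924907590121)]]],[[[Int.negSucc (nat_lit 20547925481913032499)]]],[[[Int.negSucc (nat_lit 1656995901649403470)]]]],[[[[Int.ofNat (nat_lit 0),Int.negSucc (nat_lit 236098919727616615)]],[[Int.ofNat (nat_lit 1723127844609525372)]]]],[[[[Int.negSucc (nat_lit 7867415531313476549)]]]]],[[[[[Int.negSucc (nat_lit 6102059921533483359)]]],[[[Int.ofNat (nat_lit 4947496131079596080)]]]]],[[[[[Int.negSucc (nat_lit 16322373443490476133)]]]]]],[[[[[[Int.ofNat (nat_lit 0),Int.ofNat (nat_lit 1385975805402709264)]],[[Int.negSucc (nat_lit 19847423552285546927)]]]],[[[[Int.ofNat (nat_lit 13459783885688914774)]]]]]],[[[[[[Int.ofNat (nat_lit 8059867092562709672)]]]]]]],[[[[[[[Int.negSucc (nat_lit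 44843683525977712021)]]],[[[Int.ofNat (nat_lit 7657531511356780174)]]]]],[[[[[Int.negSucc (nat_lit 1056695704239342827)]]]]]],[[[],[[[[Int.ofNat (nat_lit 743447034819575638)]]]]]],[[[[[[Int.ofNat (nat_lit 9067565744088932528)]]]]]]],[[[[[[[Int.ofNat (nat_lit 60540443289874381933)]]]]]]]],[[[[[[[[Int.ofNat (nat_lit 0),Int.negSucc (nat_lit 5149887252709166487)]],[[Int.ofNat (nat_lit 6632645838893130814)]]]],[[[[Int.negSucc (nat_lit 38681673538752571379)]]]]],[[],[[[[Int.ofNat (nat_lit 865054199755668874)]]]]]],[[[[[[Int.ofNat (nat_lit 84145780571762721440)]]],[[[Int.ofNat (nat_lit 5606019211656853076)]]]]],[[[[[Int.ofNat (nat_lit 150448991459614366)]]]]]]],[[[[],[[[[Int.ofNat (nat_lit 6757438900867746668)]]]]]],[[[[[[Int.negSucc (nat_lit 4521806021582126881)]]]]]]]],[[[[[[[[Int.negSucc (nat_lit 213792089447475697873)]]],[[[Int.negSucc (nat_lit 680433829681528435)]]]]],[[[[[Int.negSucc (nat_lit 25706521350088611547)]]]]]],[],[[[[[[Int.negSucc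 (nat_lit 23617268094684295997)]]]]]]],[[[[[[[Int.ofNat (nat_lit 856853710902542194)]]]]]]]],[[[[[],[[[[Int.ofNat (nat_lit 2073282175489402752)]]]]]],[[[[[[Int.negSucc (nat_lit 12786448299124731733)]]]]]]]],[[[[[[[[Int.negSucc (nat_lit 11962506498770620932)]]]]]]]]],[[[[[[[[[Int.ofNat (nat_lit 24900077982522935712)]]],[[[Int.negSucc (nat_lit 21956169302487302707)]]]],[],[[[[Int.ofNat (nat_lit 1751051197405166054)]]]]],[[[[[Int.negSucc (nat_lit 21511966777490331903)]]]]]],[[[],[[[[Int.negSucc (nat_lit 1342429399042146815)]]]]]],[[[[[[Int.negSucc (nat_lit 17650495676135894105)]]]]]]],[[[[[[[Int.ofNat (nat_lit 171076322123388910554)]]],[[[Int.ofNat (nat_lit 2320399035579902004)]]]]],[[[[[Int.negSucc (nat_lit 8059511708009417679)]]]]]]],[[[[[[[Int.negSucc (nat_lit 31724129214642009555)]]]]]]]],[[[[[[[[Int.ofNat (nat_lit 0),Int.ofNat (nat_lit 2560219927416370280)]],[[Int.ofNat (nat_lit 235862098281945354)]]]],[[[[Int.ofNat (nat_lit 1394389202434068028)]]]]]],[[[[[[Int.negSucc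 (nat_lit 23746407979726786235)]]]]]]],[[],[[[[[[Int.negSucc (nat_lit 18317491626121068093)]]]]]]]],[[[[[[[[Int.ofNat (nat_lit 53795212248280801540)]]]]],[[[[[Int.ofNat (nat_lit 4317845951548984390)]]]]]]],[[[[[[[Int.negSucc (nat_lit 24973176704391517063)]]]]]]]],[],[[[[[[[[Int.negSucc (nat_lit 2970801010624433257)]]]]]]]]],[[[[[[[[[Int.negSucc (nat_lit 20967717776615208000)]]],[[[Int.negSucc (nat_lit 1313516498830872221)]]]]],[[[[[Int.ofNat (nat_lit 20369160526728647654)]]]]]]],[[[[[[[Int.ofNat (nat_lit 52637525908869898298)]]]]]]],[[[[[[[Int.negSucc (nat_lit 9761292849001830243)]]]]]]]],[[[[[],[[[[Int.negSucc (nat_lit 5178333320229639715)]]]]]],[[[[[[Int.negSucc (nat_lit 25144074213760983227)]]]]]]]],[[[[[[[[Int.ofNat (nat_lit 16378046182031870094)]]]]]]]]],[[[[[[[[[Int.negSucc (nat_lit 69851831461340142183)]]]]]]],[[[[[[[Int.ofNat (nat_lit 9116409112410215816)]]]]]]]],[],[[[[[[[[Int.ofNat (nat_lit 12468218851098355928)]]]]]]]]],[[[[[[[[[Int.negSucc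 (nat_lit 49996195323469447863)]]]]]]]]]]

/-- A coefficient. -/
noncomputable def sr5_m0_2_3 : MP 10 :=
  [[[[[[[[[[Int.ofNat (nat_lit 0),Int.ofNat (nat_lit 2405715285166332496)]],[[Int.negSucc (nat_lit 24467388725311030759)]]]],[[[[Int.ofNat (nat_lit 138776435902320668084)]]],[[[Int.ofNat (nat_lit 6986863332366277630)]]]]],[[],[[[[Int.negSucc (nat_lit 8897788582317318149)]]]]]],[[[[[[Int.negSucc (nat_lit 148644390636574420591)]]],[[[Int.ofNat (nat_lit 2928849450019952858)]]]]],[[[[[Int.negSucc (nat_lit 53217833594309291673)]]]]]]],[[[[[[[Int.ofNat (nat_lit 0),Int.ofNat (nat_lit 223045880843562992)]],[[Int.ofNat (nat_lit 886021703264358672)]]]],[[[[Int.negSucc (nat_lit 5698731095689263953)]]]]]],[[[[[[Int.ofNat (nat_lit 25939739277759454676)]]]]]]],[[],[[[[[[Int.negSucc (nat_lit 12169867086405331221)]]]]]]]],[[[[[[[[Int.negSucc (nat_lit 87818381661636065673)]]],[[[Int.negSucc (nat_lit 37300029714484659671)]]]]],[[[[[Int.ofNat (nat_lit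 175623256133928774350)]]]]]],[[[],[[[[Int.negSucc (nat_lit 16506343136281430813)]]]]]],[[[[[[Int.ofNat (nat_lit 38648895628506985760)]]]]]]],[[[[[[[Int.ofNat (nat_lit 213022879841453664598)]]]]],[[[[[Int.ofNat (nat_lit 1005000318846526228)]]]]]]],[[[[[[[Int.negSucc (nat_lit 54383489936360686075)]]]]]]]],[[[[[],[[[[Int.ofNat (nat_lit 4597405255153287596)]]]]]],[[[[[[Int.ofNat (nat_lit 179635975490121334014)]]]]]]]],[[[[[[[[Int.ofNat (nat_lit 210390320661738676884)]]]]]]],[[[[[[[Int.negSucc (nat_lit 3334564926395815803)]]]]]]]]],[[[[[[[[[Int.ofNat (nat_lit 0),Int.ofNat (nat_lit 1915278188259419872)]],[[Int.ofNat (nat_lit 49290697418029433642)]]]],[[[[Int.ofNat (nat_lit 22488758815332688180)]]]]]],[[[[[[Int.negSucc (nat_lit 104961671609230265303)]]]]]]],[[[[],[[[[Int.negSucc (nat_lit 3569530197550877345)]]]]]],[[[[[[Int.ofNat (nat_lit 22989396539548859186)]]]]]]]],[[[[[[[[Int.negSucc (nat_lit 392790420382582433495)]]],[[[Int.negSucc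 (nat_lit 7994724581435861501)]]]]],[[[[[Int.ofNat (nat_lit 7917309989136505268)]]]]]]],[[[[[[[Int.ofNat (nat_lit 188452573054937475386)]]]]]]]],[[[],[[[[[[Int.ofNat (nat_lit 13702694822029982564)]]]]]]]],[[[[[[[[Int.negSucc (nat_lit 35131208085759486041)]]]]]]]]],[[[[[[],[[[[Int.negSucc (nat_lit 11343142432396888043)]]]]]],[[[[[[Int.ofNat (nat_lit 51710466600179895346)]]]]]]]],[[[[[[[[Int.negSucc (nat_lit 31224454269508688049)]]]]]]],[[[[[[[Int.negSucc (nat_lit 6846529237556627169)]]]]]]]]],[[],[[[[[[[[Int.negSucc (nat_lit 1840914450203687995)]]]]]]]]]]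

/-- A coefficient. -/
noncomputable def sr5_m0_2_4 : MP 10 :=
  [[[[[[[[[[Int.negSucc (nat_lit 119313257947598253709)]]],[[[Int.ofNat (nat_lit 39158665652502101622)]]]],[],[[[[Int.negSucc (nat_lit 19805390010705961589)]]]]],[[[[[Int.negSucc (nat_lit 196037325438371349375)]]]]]],[[[],[[[[Int.ofNat (nat_lit 33946058376948622132)]]]]]],[[[[[[Int.negSucc (nat_lit 225933135539166032184)]]]]]]],[[[[[[[Int.ofNat (nat_lit 3308876574797746614)]]],[[[Int.negSucc (nat_lit 10521761761955059209)]]]]],[[[[[Int.ofNat (nat_lit 17947433803072266468)]]]]]]],[[[[[[[Int.negSucc (nat_lit 27028685464285860293)]]]]]]]],[[[[[[[[Int.ofNat (nat_lit 0),Int.ofNat (nat_lit 4341400548274933640)]],[[Int.ofNat (nat_lit 2125298021714886774)]]]],[[[[Int.ofNat (nat_lit 82256169300295338860)]]]]]],[[[[[[Int.ofNat (nat_lit 140128496463556420550)]]]]]]],[[],[[[[[[Int.ofNat (nat_lit 17299235346044186440)]]]]]]]],[[[[[[[[Int.ofNat (nat_lit 194242096957576649819)]]]]],[[[[[Int.ofNat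 (nat_lit 39994986510935879326)]]]]]]],[[[[[[[Int.negSucc (nat_lit 45867218737447935177)]]]]]]]],[],[[[[[[[[Int.negSucc (nat_lit 27248546093077007145)]]]]]]]]],[[[[[[[[[Int.ofNat (nat_lit 228037624353160355618)]]],[[[Int.ofNat (nat_lit 24672677209424648340)]]]]],[[[[[Int.ofNat (nat_lit 58079602116349334300)]]]]]]],[[[[[[[Int.negSucc (nat_lit 306997578458140541709)]]]]]]],[[[[[[[Int.ofNat (nat_lit 37381103838372598038)]]]]]]]],[[[[[],[[[[Int.negSucc (nat_lit 9916434406625653967)]]]]]],[[[[[[Int.negSucc (nat_lit 26104619469896442687)]]]]]]]],[[[[[[[[Int.negSucc (nat_lit 371044350791711340467)]]]]]]]]],[[[[[[[[[Int.ofNat (nat_lit 336093613529109307262)]]]]]]],[[[[[[[Int.negSucc (nat_lit 42576687382182728849)]]]]]]]],[],[[[[[[[[Int.negSucc (nat_lit 145134641999313106963)]]]]]]]]],[[[[[[[[[Int.negSucc (nat_lit 33357083019951946533)]]]]]]]]]]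

/-- A coefficient. -/
noncomputable def sr5_m0_2_5 : MP 10 :=
  [[[[[[[[[[Int.ofNat (nat_lit 0),Int.negSucc (nat_lit 417270581690653495)]],[[Int.ofNat (nat_lit 39945033922132427100)]]]],[[[[Int.negSucc (nat_lit 49327437860361649007)]]]]]],[[[[[[Int.negSucc (nat_lit 249583163573485166123)]]]]]]],[[[[],[[[[Int.ofNat (nat_lit 20173040987106611838)]]]]]],[[[[[[Int.ofNat (nat_lit 23395222484387607322)]]]]]]]],[[[[[[[[Int.ofNat (nat_lit 1507583369534128166674)]]],[[[Int.ofNat (nat_lit 43537115371935090980)]]]]],[[[[[Int.negSucc (nat_lit 178372849826369383535)]]]]]]],[[[[[[[Int.negSucc (nat_lit 89654685451840750177)]]]]]]]],[[[],[[[[[[Int.negSucc (nat_lit 138493840667552580303)]]]]]]]],[[[[[[[[Int.negSucc (nat_lit 178938566133309442755)]]]]]]]]],[[[[[[],[[[[Int.negSucc (nat_lit 51229498769824723373)]]]]]],[[[[[[Int.ofNat (nat_lit 300402626137269913608)]]]]]]]],[[[[[[[[Int.ofNat (nat_lit 1251184356249747661780)]]]]]]],[[[[[[[Int.negSucc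 (nat_lit 88949254566009249087)]]]]]]]]],[[],[[[[[[[[Int.ofNat (nat_lit 189334648835203127910)]]]]]]]]]]

/-- A coefficient. -/
noncomputable def sr5_m0_2_6 : MP 10 :=
  [[[[[[[[[[Int.negSucc (nat_lit 1132556421717899321914)]]],[[[Int.negSucc (nat_lit 30467128593396438489)]]]]],[[[[[Int.ofNat (nat_lit 220533688159462690610)]]]]]]],[[[[[[[Int.ofNat (nat_lit 286292659978467024928)]]]]]]],[[[[[[[Int.negSucc (nat_lit 164219199188161244404)]]]]]]]],[[[[[],[[[[Int.negSucc (nat_lit 86237914176836407265)]]]]]],[[[[[[Int.negSucc (nat_lit 6280097751186574135)]]]]]]]],[[[[[[[[Int.ofNat (nat_lit 113205336678588011028)]]]]]]]]],[[[[[[[[[Int.negSucc (nat_lit 1121872048303435087027)]]]]]]],[[[[[[[Int.ofNat (nat_lit 213960114410074130278)]]]]]]]],[],[[[[[[[[Int.ofNat (nat_lit 218914496501270346074)]]]]]]]]],[[[[[[[[[Int.negSucc (nat_lit 726432031514787576286)]]]]]]]]]]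

/-- A coefficient. -/
noncomputable def sr5_m0_2_7 : MP 10 :=
  [[[[[[[],[[[[Int.negSucc (nat_lit 66410076742289864461)]]]]]],[[[[[[Int.ofNat (nat_lit 241658798479758126016)]]]]]]]],[[[[[[[[Int.negSucc (nat_lit 2491410245818799718501)]]]]]]],[[[[[[[Int.negSucc (nat_lit 92413285465407860853)]]]]]]]]],[[],[[[[[[[[Int.negSucc (nat_lit 740671017184920319949)]]]]]]]]]]

/-- A coefficient. -/
noncomputable def sr5_m0_2_8 : MP 10 :=
  [[[[[[[[[[Int.ofNat (nat_lit 1556196430002949637214)]]]]]]],[[[[[[[Int.negSucc (nat_lit 79720583168602145911)]]]]]]]],[],[[[[[[[[Int.negSucc (nat_lit 618848028026975760484)]]]]]]]]],[[[[[[[[[Int.ofNat (nat_lit 452300525491747549322)]]]]]]]]]]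

/-- A coefficient. -/
noncomputable def sr5_m0_2_9 : MP 10 :=
  [[[],[[[[[[[[Int.ofNat (nat_lit 1717353690931112061088)]]]]]]]]]]

/-- A coefficient. -/
noncomputable def sr5_m0_3_0 : MP 10 :=
  [[[[[[[[[],[[Int.ofNat (nat_lit 0),Int.negSucc (nat_lit 125404184495027687)]],[[Int.ofNat (nat_lit 3574331143999357892)]]]],[[[[Int.ofNat (nat_lit 0),Int.ofNat (nat_lit 4357441165311768)]],[[Int.negSucc (nat_lit 2903782540426915653)]]]],[[[[Int.ofNat (nat_lit 12742088792566534886)]]]]]],[[[[[[Int.ofNat (nat_lit 0),Int.ofNat (nat_lit 363992750068210672)]],[[Int.negSucc (nat_lit 617991831704613817)]]]],[[[[Int.negSucc (nat_lit 7685330124274026985)]]]]]],[[[[[[Int.ofNat (nat_lit 19570062041802385896)]]]]]]],[[],[[[[[],[[Int.negSucc (nat_lit 405213045572966571)]]]],[[[[Int.negSucc (nat_lit 705586108591800525)]]]]]],[[[[[[Int.ofNat (nat_lit 1048338551122025882)]]]]]]]],[[[[[[[[Int.ofNat (nat_lit 0),Int.negSucc (nat_lit 4224883381742779839)]],[[Int.ofNat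 (nat_lit 25848703376219261402)]]]],[[[[Int.ofNat (nat_lit 1527936791473398812)]]]]],[[[[],[[Int.negSucc (nat_lit 634836844025120301)]]]],[[[[Int.ofNat (nat_lit 367197181068963574)]]]]]],[[[[[[Int.negSucc (nat_lit 31059011443400034875)]]]]],[[[[[Int.ofNat (nat_lit 3135852973783564540)]]]]]]],[[[[[[[Int.ofNat (nat_lit 0),Int.negSucc (nat_lit 204560518303883575)]],[[Int.ofNat (nat_lit 1904190389362578672)]]]],[[[[Int.negSucc (nat_lit 16492052478507462871)]]]]]],[[[[[[Int.negSucc (nat_lit 9857866491884723995)]]]]]]],[[],[[[[[[Int.ofNat (nat_lit 3414716673158893688)]]]]]]]],[[[[[[[[Int.ofNat (nat_lit 177521192887342914514)]]]]],[[[[[Int.negSucc (nat_lit 8369448373803091427)]]]]]]],[[[[[[[Int.negSucc (nat_lit 79482798762024177283)]]]]],[[[[[Int.negSucc (nat_lit 2946189991160305839)]]]]]]],[[[[[[[Int.ofNat (nat_lit 34706647282617580108)]]]]]]]],[[[[[[[],[[Int.ofNat (nat_lit 279071499986812482)]]]],[[[[Int.negSucc (nat_lit 2432044525786436123)]]]]]],[[[[[[Int.ofNat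 (nat_lit 2566618300446620532)]]]]]]]],[[[[[[[[Int.ofNat (nat_lit 1149290256404219316)]]]]]]],[[[[[[[Int.ofNat (nat_lit 3565559834694768268)]]]]]]]]],[[[[[[],[[[],[[Int.ofNat (nat_lit 90132125989215828)]]]],[[[[Int.negSucc (nat_lit 161003262753473519)]]]]]],[[[[[[Int.ofNat (nat_lit 0),Int.ofNat (nat_lit 283480521719320200)]],[[Int.negSucc (nat_lit 1138789342043580955)]]]],[[[[Int.ofNat (nat_lit 3239130383947172796)]]]]]],[[[[[[Int.ofNat (nat_lit 33863874401726406022)]]]]]]],[[],[],[[[[[[Int.negSucc (nat_lit 1106693320745924577)]]]]]]]],[[[[[[[[Int.ofNat (nat_lit 0),Int.negSucc (nat_lit 2528192982001306383)]],[[Int.ofNat (nat_lit 9283509479885577148)]]]],[[[[Int.negSucc (nat_lit 4928804978198715679)]]]]]],[[[[[[Int.negSucc (nat_lit 9298379497711774117)]]]]],[[[[[Int.ofNat (nat_lit 1648562336941006342)]]]]]]],[[[[],[[[[Int.ofNat (nat_lit 395956250252934908)]]]]]],[[[[[[Int.negSucc (nat_lit 24258624891269581969)]]]]]]]],[[[[[[[[Int.ofNat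 (nat_lit 266403163987432385934)]]]]],[[[[[Int.negSucc (nat_lit 7270379691183654465)]]]]]]],[[[[[[[Int.negSucc (nat_lit 22640368157903945205)]]]]]]]],[[[],[[[[[[Int.ofNat (nat_lit 166512775757983020)]]]]]]]],[[[[[[[[Int.ofNat (nat_lit 11000874217379289158)]]]]]]]]],[[[[],[[[],[[[[Int.negSucc (nat_lit 640582060439007653)]]]]]],[[[[[[Int.ofNat (nat_lit 18275829587507346464)]]]]]]]],[[[[[[[],[[Int.ofNat (nat_lit 542686894075048648)]]]],[[[[Int.negSucc (nat_lit 4454261799966735185)]]]]]],[[[[[[Int.ofNat (nat_lit 6292164087914535016)]]]]]]]],[[[[[[[[Int.ofNat (nat_lit 97418796667209196252)]]]]]]],[[[[[[[Int.ofNat (nat_lit 1035984462485937168)]]]]]]]]],[[],[[[],[[[[[[Int.ofNat (nat_lit 1980415775605047796)]]]]]]]],[[[[[[[[Int.ofNat (nat_lit 15462535066167723450)]]]]]]]]]]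

/-- A coefficient. -/
noncomputable def sr5_m0_3_1 : MP 10 :=
  [[[[[[[[[[Int.ofNat (nat_lit 0),Int.ofNat (nat_lit 7532818116089727632)]],[[Int.ofNat (nat_lit 25411694968245174998)]]],[[],[[Int.ofNat (nat_lit 926883909044324964)]]]],[[[[Int.negSucc (nat_lit 12316207871886592605)]]],[[[Int.negSucc (nat_lit 4572825411936673267)]]]]],[[[[[Int.ofNat (nat_lit 0),Int.negSucc (nat_lit 942678550198531055)]],[[Int.ofNat (nat_lit 11950022109275528346)]]]],[[[[Int.ofNat (nat_lit 3050500402693863008)]]]]]],[[[[[[Int.ofNat (nat_lit 72738374035508475436)]]],[[[Int.ofNat (nat_lit 4667842087084786760)]]]]],[[[[[Int.negSucc (nat_lit 6844810840817261945)]]]]]]],[[[[[[[Int.ofNat (nat_lit 0),Int.negSucc (nat_lit 167944659502845415)]],[[Int.negSucc (nat_lit 11413794865220006215)]]]],[[[[Int.ofNat (nat_lit 8736380923630249696)]]]]]],[[[[[[Int.negSucc (nat_lit 21053273127282266863)]]]]],[[[[[Int.negSucc (nat_lit 2543955887388907109)]]]]]]],[[],[[[[[[Int.ofNat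 (nat_lit 4070734433894439526)]]]]]]]],[[[[[[[[Int.negSucc (nat_lit 51053260032901738943)]]],[[[Int.negSucc (nat_lit 13902583046547359515)]]]]],[[[[[Int.ofNat (nat_lit 154323920766664868378)]]]]],[[[[[Int.negSucc (nat_lit 896432152981681445)]]]]]],[[[[[],[[Int.negSucc (nat_lit 6580319186359100229)]]]],[[[[Int.ofNat (nat_lit 8990174264351164086)]]]]]],[[[[[[Int.negSucc (nat_lit 19747576742349584619)]]]]]]],[[[[[[[Int.negSucc (nat_lit 91645031555405062097)]]],[[[Int.ofNat (nat_lit 4360577255357482448)]]]]],[[[[[Int.negSucc (nat_lit 19975785237377978271)]]]]]]],[[[[[[[Int.negSucc (nat_lit 4576093649577609773)]]]]]]]],[[[[[[[[Int.ofNat (nat_lit 0),Int.negSucc (nat_lit 2186749267207417599)]],[[Int.negSucc (nat_lit 7736049564986226615)]]]],[[[[Int.ofNat (nat_lit 4194166794307848684)]]]]]],[[[[[[Int.ofNat (nat_lit 24885883313121366232)]]]]]]],[[],[[[[[[Int.negSucc (nat_lit 11727828684370449965)]]]]]]]],[[[[[[[[Int.negSucc (nat_lit 63065416005051720217)]]]]],[[[[[Int.negSucc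 (nat_lit 738220826134499595)]]]]]]],[[[[[[[Int.negSucc (nat_lit 11693285918490376919)]]]]]]]],[],[[[[[[[[Int.ofNat (nat_lit 8494578398240364414)]]]]]]]]],[[[[[[[[[Int.ofNat (nat_lit 0),Int.ofNat (nat_lit 8693423245628064216)]],[[Int.ofNat (nat_lit 3911447400899891708)]]]],[[[[Int.ofNat (nat_lit 37486962432180044230)]]]]],[[],[[[[Int.negSucc (nat_lit 1752480284689976275)]]]]]],[[[[[[Int.ofNat (nat_lit 51491863993778739662)]]],[[[Int.negSucc (nat_lit 2539563509325387893)]]]]],[[[[[Int.ofNat (nat_lit 11597564964573334672)]]]]]]],[[[[[[],[[Int.negSucc (nat_lit 29081265751813119)]]]],[[[[Int.ofNat (nat_lit 3199726415017382562)]]]]]],[[[[[[Int.negSucc (nat_lit 31695977695837239873)]]]]]]]],[[[[[[[[Int.negSucc (nat_lit 20034848803043281385)]]],[[[Int.negSucc (nat_lit 3619872625221375341)]]]]],[[[[[Int.ofNat (nat_lit 77834353659377952426)]]]]]],[],[[[[[[Int.ofNat (nat_lit 5294500007353223434)]]]]]]],[[[[[[[Int.negSucc (nat_lit 136441468823566385677)]]]]]]],[[[[[[[Int.negSucc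 (nat_lit 3778180000604950521)]]]]]]]],[[[[[],[[[[Int.ofNat (nat_lit 1073200087094315480)]]]]]],[[[[[[Int.negSucc (nat_lit 15604351075360030957)]]]]]]]],[[[[[[[[Int.negSucc (nat_lit 54285758555543734477)]]]]]]]]],[[[[[[[[[Int.ofNat (nat_lit 0),Int.ofNat (nat_lit 552921491481419352)]],[[Int.negSucc (nat_lit 13025026124521442241)]]]],[[[[Int.ofNat (nat_lit 26384593000492117308)]]]]]],[[[[[[Int.ofNat (nat_lit 27902541328749644660)]]]]]]],[[],[[[[[[Int.negSucc (nat_lit 1234833409563633065)]]]]]]]],[[[[[[[[Int.ofNat (nat_lit 34090407080699794264)]]]]],[[[[[Int.ofNat (nat_lit 5585625103300500238)]]]]]]],[[[[[[[Int.negSucc (nat_lit 17801245424037284635)]]]]]]]],[],[[[[[[[[Int.ofNat (nat_lit 1778949879720561792)]]]]]]]]],[[[[[[],[[[[Int.negSucc (nat_lit 1240405772215529761)]]]]]],[[[[[[Int.ofNat (nat_lit 6383808985310873406)]]]]]]]],[[[[[[[[Int.ofNat (nat_lit 21803931310455760828)]]]]]]]]],[[],[[[[[[[[Int.ofNat (nat_lit 8191895611304257512)]]]]]]]]]]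

/-- A coefficient. -/
noncomputable def sr5_m0_3_2 : MP 10 :=
  [[[[[[[[[[Int.ofNat (nat_lit 346542814407881038690)]]],[[[Int.ofNat (nat_lit 782785594465295472)]]]],[[[],[[Int.negSucc (nat_lit 3440900562475166457)]]]],[[[[Int.ofNat (nat_lit 5263666820444575138)]]]]],[[[[[Int.ofNat (nat_lit 1168581859551844538)]]],[[[Int.negSucc (nat_lit 2413877910627884613)]]]]],[[[[[Int.ofNat (nat_lit 39317879546724517786)]]]]]],[[[[[[Int.ofNat (nat_lit 0),Int.negSucc (nat_lit 411731583191606535)]],[[Int.ofNat (nat_lit 36785188420092103928)]]]],[[[[Int.negSucc (nat_lit 25658949519886379475)]]]]]],[[[[[[Int.ofNat (nat_lit 7513116498066703064)]]]]]]],[[[[[[[Int.negSucc (nat_lit 282649955493778794543)]]],[[[Int.negSucc (nat_lit 1539192353268280369)]]]]],[[[[[Int.negSucc (nat_lit 22786891388403479919)]]]]]],[],[[[[[[Int.negSucc (nat_lit 10570648535293171747)]]]]]]],[[[[[[[Int.ofNat (nat_lit 185844202969241609334)]]]]]]]],[[[[[[[[Int.ofNat (nat_lit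 0),Int.ofNat (nat_lit 3413569515941742208)]],[[Int.negSucc (nat_lit 44902058951257820565)]]]],[[[[Int.ofNat (nat_lit 28522895307875677394)]]]]]],[[[[[[Int.ofNat (nat_lit 278573799722878265694)]]]]],[[[[[Int.negSucc (nat_lit 11564169254785857687)]]]]]]],[[[[],[[[[Int.ofNat (nat_lit 7415037703315236906)]]]]]],[[[[[[Int.negSucc (nat_lit 1784503708699116075)]]]]]]]],[[[[[[[[Int.negSucc (nat_lit 690393843505453444489)]]],[[[Int.negSucc (nat_lit 652305481515903743)]]]]],[[[[[Int.negSucc (nat_lit 28707828652996227025)]]]]]]],[[[[[[[Int.ofNat (nat_lit 206302232966962925458)]]]]]]]],[[[],[[[[[[Int.ofNat (nat_lit 17337282696424879982)]]]]]]]],[[[[[[[[Int.ofNat (nat_lit 96647165855765081928)]]]]]]]]],[[[[[[[[[Int.ofNat (nat_lit 733230162432986979834)]]],[[[Int.negSucc (nat_lit 19530388171287630239)]]]]],[[[[[Int.negSucc (nat_lit 3555936285826837773)]]]]]],[[[],[[[[Int.negSucc (nat_lit 5009773539673466853)]]]]]],[[[[[[Int.ofNat (nat_lit 34711982257480795600)]]]]]]],[[[[[[[Int.negSucc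 (nat_lit 59142037610035117057)]]]]],[[[[[Int.ofNat (nat_lit 3184871929906602332)]]]]]]],[[[[[[[Int.ofNat (nat_lit 16963365744951510186)]]]]]]]],[[[[[[[],[[Int.negSucc (nat_lit 4250877121718615745)]]]],[[[[Int.ofNat (nat_lit 26455992687692211420)]]]]]],[[[[[[Int.ofNat (nat_lit 222187634225561908960)]]]]]]]],[[[[[[[[Int.negSucc (nat_lit 548359136670097629119)]]]]]]],[[[[[[[Int.ofNat (nat_lit 22556283138311809434)]]]]]]]]],[[[[[[[[[Int.ofNat (nat_lit 872945397571998806264)]]],[[[Int.negSucc (nat_lit 6306632953063775023)]]]]],[[[[[Int.negSucc (nat_lit 23722827490266915939)]]]]]]],[[[[[[[Int.ofNat (nat_lit 88691601988094669206)]]]]]]]],[[[],[[[[[[Int.ofNat (nat_lit 32913826475034589902)]]]]]]]],[[[[[[[[Int.negSucc (nat_lit 71667993626587871645)]]]]]]]]],[[[[[[[[[Int.ofNat (nat_lit 570229164928851632956)]]]]]]],[[[[[[[Int.ofNat (nat_lit 6540223620542013080)]]]]]]]]],[[[[[[[[[Int.ofNat (nat_lit 117787665709313893412)]]]]]]]]]]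

/-- A coefficient. -/
noncomputable def sr5_m0_3_3 : MP 10 :=
  [[[[[[[[[[Int.ofNat (nat_lit 0),Int.negSucc (nat_lit 1345072252184823855)]],[[Int.negSucc (nat_lit 17386556964607134929)]]]],[[[[Int.negSucc (nat_lit 76457830023568877715)]]]]],[[],[[[[Int.negSucc (nat_lit 11050620192469467647)]]]]]],[[[[[[Int.ofNat (nat_lit 80590626285268633670)]]],[[[Int.negSucc (nat_lit 6910858668856057453)]]]]],[[[[[Int.ofNat (nat_lit 127556008842214771088)]]]]]]],[[[[[[],[[Int.ofNat (nat_lit 958444376397040784)]]]],[[[[Int.negSucc (nat_lit 8899552500452191639)]]]]]],[[[[[[Int.negSucc (nat_lit 155439434671034087221)]]]]]]]],[[[[[[[[Int.ofNat (nat_lit 51506940123594846824)]]],[[[Int.ofNat (nat_lit 21640316494750914690)]]]]],[[[[[Int.negSucc (nat_lit 237328143954353919645)]]]]]],[],[[[[[[Int.ofNat (nat_lit 51750744960571442278)]]]]]]],[[[[[[[Int.ofNat (nat_lit 389561874852939888858)]]]]]]],[[[[[[[Int.ofNat (nat_lit 8409785701929650484)]]]]]]]],[[[[[],[[[[Int.negSucc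 (nat_lit 14949508800170202357)]]]]]],[[[[[[Int.negSucc (nat_lit 177842320141030836803)]]]]]]]],[[[[[[[[Int.negSucc (nat_lit 40298903575422953679)]]]]]]]]],[[[[[[[[[Int.ofNat (nat_lit 0),Int.negSucc (nat_lit 6996746365708696367)]],[[Int.negSucc (nat_lit 68608025686155762223)]]]],[[[[Int.ofNat (nat_lit 29010802159752413390)]]]]]],[[[[[[Int.negSucc (nat_lit 116410958712814085665)]]]]]]],[[],[[[[[[Int.ofNat (nat_lit 66825141338369843362)]]]]]]]],[[[[[[[[Int.negSucc (nat_lit 1002931122509172506915)]]]]],[[[[[Int.negSucc (nat_lit 23878876924472906673)]]]]]]],[[[[[[[Int.ofNat (nat_lit 168927536011894982070)]]]]]]]],[],[[[[[[[[Int.ofNat (nat_lit 70311254798629773072)]]]]]]]]],[[[[[[],[[[[Int.ofNat (nat_lit 8015467227619317496)]]]]]],[[[[[[Int.negSucc (nat_lit 105812648439769119667)]]]]]]]],[[[[[[[[Int.negSucc (nat_lit 517088931156610449677)]]]]]]]]],[[],[[[[[[[[Int.negSucc (nat_lit 63494821431304720641)]]]]]]]]]]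

/-- A coefficient. -/
noncomputable def sr5_m0_3_4 : MP 10 :=
  [[[[[[[[[[Int.negSucc (nat_lit 872768683851741015515)]]],[[[Int.ofNat (nat_lit 18586440149217009868)]]]]],[[[[[Int.ofNat (nat_lit 18834444586103375726)]]]]]],[[[],[[[[Int.ofNat (nat_lit 13271033151797150304)]]]]]],[[[[[[Int.ofNat (nat_lit 487816372319716801334)]]]]]]],[[[[[[[Int.negSucc (nat_lit 92350587858191715045)]]]]],[[[[[Int.ofNat (nat_lit 2233156517202207082)]]]]]]],[[[[[[[Int.negSucc (nat_lit 69336191029738701879)]]]]]]]],[[[[[[[],[[Int.ofNat (nat_lit 6879607160309389428)]]]],[[[[Int.ofNat (nat_lit 64954873052271738232)]]]]]],[[[[[[Int.negSucc (nat_lit 691964629607684829335)]]]]]]]],[[[[[[[[Int.ofNat (nat_lit 1604970311262170335632)]]]]]]],[[[[[[[Int.ofNat (nat_lit 44140777968146715250)]]]]]]]]],[[[[[[[[[Int.negSucc (nat_lit 1682407394529421647869)]]],[[[Int.ofNat (nat_lit 12718073126339043564)]]]]],[[[[[Int.negSucc (nat_lit 158240637188641183553)]]]]]]],[[[[[[[Int.ofNat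 (nat_lit 36891919112111410136)]]]]]]]],[[[],[[[[[[Int.negSucc (nat_lit 144399888086442765339)]]]]]]]],[[[[[[[[Int.ofNat (nat_lit 436656674864152794776)]]]]]]]]],[[[[[[[[[Int.negSucc (nat_lit 1225726205644139073277)]]]]]]],[[[[[[[Int.negSucc (nat_lit 40164406945083579535)]]]]]]]]],[[[[[[[[[Int.negSucc (nat_lit 242368559481976994573)]]]]]]]]]]

/-- A coefficient. -/
noncomputable def sr5_m0_3_5 : MP 10 :=
  [[[[[[[[[[Int.ofNat (nat_lit 0),Int.negSucc (nat_lit 4162052207874538367)]],[[Int.negSucc (nat_lit 18489025315038145119)]]]],[[[[Int.ofNat (nat_lit 136909371447000744248)]]]]]],[[[[[[Int.negSucc (nat_lit 613404151002987863147)]]]]]]],[[],[[[[[[Int.ofNat (nat_lit 30557434246810658818)]]]]]]]],[[[[[[[[Int.negSucc (nat_lit 870603012331091252693)]]]]],[[[[[Int.ofNat (nat_lit 88468445448892079162)]]]]]]],[[[[[[[Int.negSucc (nat_lit 419701176410131571521)]]]]]]]],[],[[[[[[[[Int.negSucc (nat_lit 47288331367480986339)]]]]]]]]],[[[[[[],[[[[Int.ofNat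 (nat_lit 1230117717427630068)]]]]]],[[[[[[Int.negSucc (nat_lit 503343361331706458421)]]]]]]]],[[[[[[[[Int.ofNat (nat_lit 2012529584482342697598)]]]]]]]]],[[],[[[[[[[[Int.ofNat (nat_lit 633193771634117125380)]]]]]]]]]]

/-- A coefficient. -/
noncomputable def sr5_m0_3_6 : MP 10 :=
  [[[[[[[[[[Int.ofNat (nat_lit 3277894162125062711760)]]],[[[Int.negSucc (nat_lit 42451061496253997701)]]]]],[[[[[Int.ofNat (nat_lit 31499635369985081730)]]]]]]],[[[[[[[Int.ofNat (nat_lit 353663926786587448478)]]]]]]]],[[[],[[[[[[Int.ofNat (nat_lit 168154266340033869236)]]]]]]]],[[[[[[[[Int.negSucc (nat_lit 542325642397974181191)]]]]]]]]],[[[[[[[[[Int.ofNat (nat_lit 3565134596349325585396)]]]]]]],[[[[[[[Int.ofNat (nat_lit 140983495079736712648)]]]]]]]]],[[[[[[[[[Int.ofNat (nat_lit 1564115719210791440902)]]]]]]]]]]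

/-- A coefficient. -/
noncomputable def sr5_m0_3_7 : MP 10 :=
  [[[[[[[],[[[[Int.ofNat (nat_lit 4749736526789355526)]]]]]],[[[[[[Int.ofNat (nat_lit 561995329605185555312)]]]]]]]],[[[[[[[[Int.ofNat (nat_lit 112539316216200178016)]]]]]]]]],[[],[[[[[[[[Int.negSucc (nat_lit 480850863718730028145)]]]]]]]]]]

/-- A coefficient. -/
noncomputable def sr5_m0_3_8 : MP 10 :=
  [[[[[[[[[[Int.negSucc (nat_lit 2361876515086932605395)]]]]]]],[[[[[[[Int.negSucc (nat_lit 126107838826467274693)]]]]]]]]],[[[[[[[[[Int.negSucc (nat_lit 1560971525341814544885)]]]]]]]]]]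

/-- A coefficient. -/
noncomputable def sr5_m0_3_9 : MP 10 :=
  [[[],[[[[[[[[Int.ofNat (nat_lit 798427919772133547452)]]]]]]]]]]

/-- A coefficient. -/
noncomputable def sr5_m0_4_0 : MP 10 :=
  [[[[[[[],[[[[Int.ofNat (nat_lit 0),Int.ofNat (nat_lit 8656901009621536)]],[[Int.negSucc (nat_lit 1021080553260048133)]]]],[[[[Int.negSucc (nat_lit 9516434754780584053)]]]]]],[[[[[[Int.ofNat (nat_lit 0),Int.ofNat (nat_lit 135122578600184376)]],[[Int.negSucc (nat_lit 6451260060035918061)]]]],[[[[Int.negSucc (nat_lit 4159059570168272411)]]]]]],[[[[[[Int.negSucc (nat_lit 34758961879103798123)]]]]]]],[[],[[[],[[[[Int.ofNat (nat_lit 1745410275138372530)]]]]]],[[[[[[Int.ofNat (nat_lit 4834280624887076312)]]]]]]]],[[[[[[[[Int.ofNat (nat_lit 0),Int.ofNat (nat_lit 3370862494553920232)]],[[Int.negSucc (nat_lit 10863744420911527423)]]]],[[[[Int.ofNat (nat_lit 14544782555758441534)]]]]],[[],[[[[Int.ofNat (nat_lit 235552021834522136)]]]]]],[[[[[[Int.ofNat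 (nat_lit 14248323393832665404)]]]]],[[[[[Int.ofNat (nat_lit 296946392232705650)]]]]]]],[[[[],[[[[Int.ofNat (nat_lit 10173892667196161622)]]]]]],[[[[[[Int.ofNat (nat_lit 18496339226975582870)]]]]]]]],[[[[[[[[Int.negSucc (nat_lit 104477957785996979429)]]]]],[[[[[Int.ofNat (nat_lit 4394808221754664566)]]]]]]],[[[[[[[Int.negSucc (nat_lit 16693046314847668089)]]]]]]]],[[[[[],[[[[Int.ofNat (nat_lit 1459740750681660572)]]]]]],[[[[[[Int.negSucc (nat_lit 1990463168934080847)]]]]]]]],[[[[[[[[Int.negSucc (nat_lit 6196950598582268329)]]]]]]]]],[[[[[[],[],[[[[Int.ofNat (nat_lit 1799216559189985880)]]]]]],[[[],[[[[Int.negSucc (nat_lit 4136658439887221937)]]]]]],[[[[[[Int.negSucc (nat_lit 12357011833839646729)]]]]]]]],[[[[[[[[Int.ofNat (nat_lit 0),Int.ofNat (nat_lit 1668391701319011168)]],[[Int.negSucc (nat_lit 1995306370599082859)]]]],[[[[Int.negSucc (nat_lit 3410521697770838067)]]]]]],[[[[[[Int.negSucc (nat_lit 18376442482678084449)]]]]]]],[[],[[[[[[Int.negSucc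 (nat_lit 2680689035962964917)]]]]]]]],[[[[[[[[Int.negSucc (nat_lit 122557103606978426549)]]]]],[[[[[Int.ofNat (nat_lit 3643138920642178870)]]]]]]],[[[[[[[Int.negSucc (nat_lit 14025039284894159013)]]]]]]]],[],[[[[[[[[Int.negSucc (nat_lit 5091069396010010263)]]]]]]]]],[[],[[[[[],[[[[Int.negSucc (nat_lit 1782407636194307063)]]]]]],[[[[[[Int.negSucc (nat_lit 6936286138059334209)]]]]]]]],[[[[[[[[Int.negSucc (nat_lit 28780258779592621505)]]]]]]]]],[[],[],[[[[[[[[Int.ofNat (nat_lit 4572930873890527216)]]]]]]]]]]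

/-- A coefficient. -/
noncomputable def sr5_m0_4_1 : MP 10 :=
  [[[[[[[[[[Int.ofNat (nat_lit 0),Int.negSucc (nat_lit 540165886722375919)]],[[Int.ofNat (nat_lit 11697053286961677080)]]]],[[[[Int.ofNat (nat_lit 17589895997147231572)]]],[[[Int.ofNat (nat_lit 5780621269757926344)]]]]],[[],[[[[Int.negSucc (nat_lit 14242458681423948309)]]]]]],[[[[[[Int.negSucc (nat_lit 12140892975624033039)]]],[[[Int.ofNat (nat_lit 9550851637835532088)]]]]],[[[[[Int.negSucc (nat_lit 27537125457014283411)]]]]]]],[[[[[[[Int.ofNat (nat_lit 0),Int.ofNat (nat_lit 63506599134668288)]],[[Int.ofNat (nat_lit 2615109127160037380)]]]],[[[[Int.ofNat (nat_lit 7947985001668491278)]]]]]],[[[[[[Int.ofNat (nat_lit 62980964993711315244)]]]]]]],[[],[[[[[[Int.negSucc (nat_lit 10702674260447957341)]]]]]]]],[[[[[[[[Int.ofNat (nat_lit 28848718520923177578)]]],[[[Int.negSucc (nat_lit 13654052393193461603)]]]]],[[[[[Int.negSucc (nat_lit 3449981052134971403)]]]]]],[[[],[[[[Int.negSucc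 (nat_lit 3815489650057446743)]]]]]],[[[[[[Int.negSucc (nat_lit 22899343565843994751)]]]]]]],[[[[[[[Int.ofNat (nat_lit 55553701868781900116)]]]]],[[[[[Int.ofNat (nat_lit 3634463395672766974)]]]]]]],[[[[[[[Int.negSucc (nat_lit 52982542535873036793)]]]]]]]],[[[[[],[[[[Int.ofNat (nat_lit 2609559869816025794)]]]]]],[[[[[[Int.ofNat (nat_lit 54934486827061566158)]]]]]]]],[[[[[[[[Int.ofNat (nat_lit 3521767646354252136)]]]]]]],[[[[[[[Int.ofNat (nat_lit 565225146469901882)]]]]]]]]],[[[[[[[[[Int.ofNat (nat_lit 0),Int.ofNat (nat_lit 1809473076421160976)]],[[Int.ofNat (nat_lit 38528097429092754486)]]]],[[[[Int.negSucc (nat_lit 16879124795210044969)]]]]]],[[[[[[Int.ofNat (nat_lit 58543424998513907566)]]]]]]],[[[[],[[[[Int.negSucc (nat_lit 1761602858245664377)]]]]]],[[[[[[Int.ofNat (nat_lit 20416870631635098126)]]]]]]]],[[[[[[[[Int.ofNat (nat_lit 41673000326896439002)]]],[[[Int.negSucc (nat_lit 3719698658205454999)]]]]],[[[[[Int.negSucc (nat_lit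 4338927037673528253)]]]]]]],[[[[[[[Int.ofNat (nat_lit 70313103020281836236)]]]]]]]],[[[],[[[[[[Int.ofNat (nat_lit 12046376073711969050)]]]]]]]],[[[[[[[[Int.negSucc (nat_lit 8215228606890676659)]]]]]]]]],[[[[[[],[[[[Int.negSucc (nat_lit 1364281475772701709)]]]]]],[[[[[[Int.ofNat (nat_lit 6188451091672800692)]]]]]]]],[[[[[[[[Int.ofNat (nat_lit 14271106372220108168)]]]]]]],[[[[[[[Int.ofNat (nat_lit 7462841251825460784)]]]]]]]]],[[],[[[[[[[[Int.negSucc (nat_lit 13524884260690292287)]]]]]]]]]]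

/-- A coefficient. -/
noncomputable def sr5_m0_4_2 : MP 10 :=
  [[[[[[[[[[Int.negSucc (nat_lit 190585990263119505841)]]],[[[Int.ofNat (nat_lit 42032197010632529592)]]]],[],[[[[Int.negSucc (nat_lit 2822976026792848267)]]]]],[[[[[Int.negSucc (nat_lit 33003642959548704567)]]]]]],[[[],[[[[Int.negSucc (nat_lit 6242251607167867621)]]]]]],[[[[[[Int.negSucc (nat_lit 45710797934986542239)]]]]]]],[[[[[[[Int.ofNat (nat_lit 162030795108007156740)]]],[[[Int.negSucc (nat_lit 7548237916400324475)]]]]],[[[[[Int.ofNat (nat_lit 11865694900592804460)]]]]]]],[[[[[[[Int.negSucc (nat_lit 103353822180876942585)]]]]]]]],[[[[[[[[Int.ofNat (nat_lit 0),Int.ofNat (nat_lit 1894465553560379376)]],[[Int.ofNat (nat_lit 12878795557187594258)]]]],[[[[Int.ofNat (nat_lit 22393386372990755288)]]]]]],[[[[[[Int.negSucc (nat_lit 267324725080108374985)]]]]]]],[[],[[[[[[Int.negSucc (nat_lit 3322221625182583357)]]]]]]]],[[[[[[[[Int.ofNat (nat_lit 431070670920834191836)]]]]],[[[[[Int.ofNat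 (nat_lit 27222165798473235928)]]]]]]],[[[[[[[Int.negSucc (nat_lit 51206764440543361111)]]]]]]]],[],[[[[[[[[Int.negSucc (nat_lit 31712253247665278985)]]]]]]]]],[[[[[[[[[Int.negSucc (nat_lit 140088998257931440589)]]],[[[Int.ofNat (nat_lit 20160421832053354034)]]]]],[[[[[Int.ofNat (nat_lit 37844407936455651822)]]]]]]],[[[[[[[Int.negSucc (nat_lit 197268633819257048915)]]]]]]],[[[[[[[Int.ofNat (nat_lit 17310854002419425764)]]]]]]]],[[[[[],[[[[Int.negSucc (nat_lit 14997483884213177691)]]]]]],[[[[[[Int.negSucc (nat_lit 20096789904463342373)]]]]]]]],[[[[[[[[Int.ofNat (nat_lit 52300833399467068382)]]]]]]]]],[[[[[[[[[Int.negSucc (nat_lit 1769317201417053593)]]]]]]],[[[[[[[Int.negSucc (nat_lit 52823065651214255817)]]]]]]]],[],[[[[[[[[Int.negSucc (nat_lit 31982807429460976817)]]]]]]]]],[[[[[[[[[Int.negSucc (nat_lit 38431061046359566679)]]]]]]]]]]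

/-- A coefficient. -/
noncomputable def sr5_m0_4_3 : MP 10 :=
  [[[[[[[[[[Int.ofNat (nat_lit 0),Int.ofNat (nat_lit 170156925160379696)]],[[Int.ofNat (nat_lit 36557429314414919194)]]]],[[[[Int.negSucc (nat_lit 199875571330821693767)]]]]]],[[[[[[Int.ofNat (nat_lit 214149292415512379334)]]]]]]],[[[[],[[[[Int.ofNat (nat_lit 11758576056328638550)]]]]]],[[[[[[Int.ofNat (nat_lit 59972733415486191336)]]]]]]]],[[[[[[[[Int.negSucc (nat_lit 57875300100239770591)]]],[[[Int.ofNat (nat_lit 20695926544806941210)]]]]],[[[[[Int.negSucc (nat_lit 75500739038306512589)]]]]]]],[[[[[[[Int.negSucc (nat_lit 158088021574994335189)]]]]]]]],[[[],[[[[[[Int.negSucc (nat_lit 129063450298945421375)]]]]]]]],[[[[[[[[Int.negSucc (nat_lit 135899719920336053367)]]]]]]]]],[[[[[[],[[[[Int.negSucc (nat_lit 40238314005834290743)]]]]]],[[[[[[Int.ofNat (nat_lit 154283871156788628494)]]]]]]]],[[[[[[[[Int.ofNat (nat_lit 596838459689803926414)]]]]]]],[[[[[[[Int.negSucc (nat_lit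 125488151370871388437)]]]]]]]]],[[],[[[[[[[[Int.ofNat (nat_lit 84550549796189513396)]]]]]]]]]]

/-- A coefficient. -/
noncomputable def sr5_m0_4_4 : MP 10 :=
  [[[[[[[[[[Int.ofNat (nat_lit 97173553479985316238)]]],[[[Int.negSucc (nat_lit 34032746979665007723)]]]]],[[[[[Int.ofNat (nat_lit 184734308339961303904)]]]]]]],[[[[[[[Int.ofNat (nat_lit 128968755443566114252)]]]]]]],[[[[[[[Int.negSucc (nat_lit 12003880654527372515)]]]]]]]],[[[[[],[[[[Int.negSucc (nat_lit 81613627075361243587)]]]]]],[[[[[[Int.ofNat (nat_lit 162443818484705851022)]]]]]]]],[[[[[[[[Int.negSucc (nat_lit 602104835161362610141)]]]]]]]]],[[[[[[[[[Int.ofNat (nat_lit 48319246330401108518)]]]]]]],[[[[[[[Int.ofNat (nat_lit 156979134977207457324)]]]]]]]],[],[[[[[[[[Int.ofNat (nat_lit 185833722925898277142)]]]]]]]]],[[[[[[[[[Int.negSucc (nat_lit 300333790462925965157)]]]]]]]]]]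

/-- A coefficient. -/
noncomputable def sr5_m0_4_5 : MP 10 :=
  [[[[[[[],[[[[Int.ofNat (nat_lit 21912913355463942962)]]]]]],[[[[[[Int.ofNat (nat_lit 69790175146123647474)]]]]]]]],[[[[[[[[Int.negSucc (nat_lit 731139288971291154829)]]]]]]],[[[[[[[Int.negSucc (nat_lit 33792655605297751389)]]]]]]]]],[[],[[[[[[[[Int.negSucc (nat_lit 1040197962840791785699)]]]]]]]]]]

/-- A coefficient. -/
noncomputable def sr5_m0_4_6 : MP 10 :=
  [[[[[[[[[[Int.ofNat (nat_lit 773566744617975271398)]]]]]]],[[[[[[[Int.negSucc (nat_lit 292951931945049947653)]]]]]]]],[],[[[[[[[[Int.ofNat (nat_lit 190595075517836999748)]]]]]]]]],[[[[[[[[[Int.ofNat (nat_lit 377363323241305667386)]]]]]]]]]]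

/-- A coefficient. -/
noncomputable def sr5_m0_4_7 : MP 10 :=
  [[[],[[[[[[[[Int.ofNat (nat_lit 714589227212240957252)]]]]]]]]]]

/-- A coefficient. -/
noncomputable def sr5_m0_5_0 : MP 10 :=
  [[[[[],[[[[[[Int.ofNat (nat_lit 0),Int.negSucc (nat_lit 147847188236652759)]],[[Int.ofNat (nat_lit 5143878262941587154)]]]],[[[[Int.ofNat (nat_lit 3763746793804446296)]]]]]],[[[[[[Int.ofNat (nat_lit 12808325540174491580)]]]]]]],[[],[],[[[[[[Int.negSucc (nat_lit 4483435650545291367)]]]]]]]],[[[[[[[[Int.ofNat (nat_lit 0),Int.ofNat (nat_lit 2790163471163558920)]],[[Int.negSucc (nat_lit 14366845345745648403)]]]],[[[[Int.negSucc (nat_lit 1516687977317305229)]]]]]],[[[[[[Int.ofNat (nat_lit 14659835491289818016)]]]]],[[[[[Int.negSucc (nat_lit 2025890108843542633)]]]]]]],[[],[[[[[[Int.negSucc (nat_lit 8882080470708460431)]]]]]]]],[[[[[[[[Int.negSucc (nat_lit 87663056576256158437)]]]]],[[[[[Int.ofNat (nat_lit 8716923393639473478)]]]]]]],[[[[[[[Int.ofNat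 (nat_lit 27992040503030334420)]]]]]]]],[[[],[[[[[[Int.ofNat (nat_lit 223225255244406976)]]]]]]]],[[[[[[[[Int.negSucc (nat_lit 3328516168467928251)]]]]]]]]],[[[[],[[[],[[[[Int.negSucc (nat_lit 1202510148759335613)]]]]]],[[[[[[Int.negSucc (nat_lit 1672017658407862447)]]]]]]]],[[[[[],[[[[Int.ofNat (nat_lit 2870537837809765502)]]]]]],[[[[[[Int.ofNat (nat_lit 21376703369421816666)]]]]]]]],[[[[[[[[Int.negSucc (nat_lit 123574461650514064139)]]]]]]]]],[[],[[[],[[[[[[Int.ofNat (nat_lit 8172142790051152260)]]]]]]]],[[[[[[[[Int.negSucc (nat_lit 7485424078837037841)]]]]]]]]]]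

/-- A coefficient. -/
noncomputable def sr5_m0_5_1 : MP 10 :=
  [[[[[[[[[[Int.ofNat (nat_lit 0),Int.negSucc (nat_lit 8008944338367155903)]],[[Int.negSucc (nat_lit 29594801835734560601)]]]],[[[[Int.negSucc (nat_lit 28865091645951790785)]]]]]],[[[[[[Int.negSucc (nat_lit 61031951040419862449)]]],[[[Int.negSucc (nat_lit 8973957360631036599)]]]]],[[[[[Int.ofNat (nat_lit 26080485204011217890)]]]]]]],[[],[[[[[[Int.negSucc (nat_lit 4810352916445226867)]]]]]]]],[[[[[[[[Int.negSucc (nat_lit 16420366304091919811)]]],[[[Int.ofNat (nat_lit 13359063353808584822)]]]]],[[[[[Int.negSucc (nat_lit 119124512114132767813)]]]]]],[],[[[[[[Int.ofNat (nat_lit 20984045537917408524)]]]]]]],[[[[[[[Int.ofNat (nat_lit 165844661825447929160)]]]]]]]],[[[],[[[[[[Int.negSucc (nat_lit 34644441605257917367)]]]]]]]],[[[[[[[[Int.ofNat (nat_lit 66772573377624624884)]]]]]]]]],[[[[[[[[[Int.ofNat (nat_lit 0),Int.negSucc (nat_lit 4267813703539883175)]],[[Int.negSucc (nat_lit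 25674982496240803181)]]]],[[[[Int.negSucc (nat_lit 9430655567226381159)]]]]]],[[[[[[Int.negSucc (nat_lit 88735971446251983675)]]]]]]],[[],[[[[[[Int.ofNat (nat_lit 19612722584744973238)]]]]]]]],[[[[[[[[Int.negSucc (nat_lit 48134841976857388107)]]]]],[[[[[Int.negSucc (nat_lit 3422352094376914451)]]]]]]],[[[[[[[Int.ofNat (nat_lit 47852033364306138150)]]]]]]]],[],[[[[[[[[Int.ofNat (nat_lit 18714746857043902878)]]]]]]]]],[[[[[[],[[[[Int.ofNat (nat_lit 31667352071502738)]]]]]],[[[[[[Int.negSucc (nat_lit 30735880622279118313)]]]]]]]],[[[[[[[[Int.negSucc (nat_lit 91130781018325216149)]]]]]]]]],[[],[[[[[[[[Int.negSucc (nat_lit 22680466058977776359)]]]]]]]]]]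

/-- A coefficient. -/
noncomputable def sr5_m0_5_2 : MP 10 :=
  [[[[[[[[[[Int.negSucc (nat_lit 226810931028798149805)]]],[[[Int.ofNat (nat_lit 3857911731444689144)]]]]],[[[[[Int.negSucc (nat_lit 6458794310661326707)]]]]]],[[[],[[[[Int.ofNat (nat_lit 4518546983012936792)]]]]]],[[[[[[Int.ofNat (nat_lit 22565404999453896820)]]]]]]],[[[[[[[Int.ofNat (nat_lit 70299899347421064610)]]]]]]]],[[[[[],[[[[Int.negSucc (nat_lit 214807992156780427)]]]]]],[[[[[[Int.negSucc (nat_lit 141102816476452849883)]]]]]]]],[[[[[[[[Int.ofNat (nat_lit 123541883829138278148)]]]]]]]]],[[[[[[[[[Int.negSucc (nat_lit 538086868429394832311)]]],[[[Int.ofNat (nat_lit 13657298554017249598)]]]]],[[[[[Int.negSucc (nat_lit 66392483382649510681)]]]]]]],[[[[[[[Int.ofNat (nat_lit 35509647654822151024)]]]]]]]],[[[],[[[[[[Int.negSucc (nat_lit 90711928047183095873)]]]]]]]],[[[[[[[[Int.ofNat (nat_lit 67329065762467767294)]]]]]]]]],[[[[[[[[[Int.negSucc (nat_lit 488201892814944374683)]]]]]]],[[[[[[[Int.negSucc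 (nat_lit 40324992580607568979)]]]]]]]]],[[[[[[[[[Int.negSucc (nat_lit 158493290710173143035)]]]]]]]]]]

/-- A coefficient. -/
noncomputable def sr5_m0_5_3 : MP 10 :=
  [[[[[[[[[[Int.ofNat (nat_lit 0),Int.negSucc (nat_lit 1149076047179084727)]],[[Int.ofNat (nat_lit 3509988044118334452)]]]],[[[[Int.ofNat (nat_lit 142889682908585865588)]]]]]],[[[[[[Int.negSucc (nat_lit 182990033918615351093)]]]]]]],[[],[[[[[[Int.negSucc (nat_lit 22843934091247329753)]]]]]]]],[[[[[[[[Int.ofNat (nat_lit 204556047889551664498)]]]]],[[[[[Int.ofNat (nat_lit 31422297404919660220)]]]]]]],[[[[[[[Int.negSucc (nat_lit 197488284611816385345)]]]]]]]],[],[[[[[[[[Int.negSucc (nat_lit 16424796163352892441)]]]]]]]]],[[[[[[],[[[[Int.ofNat (nat_lit 11386376448805119444)]]]]]],[[[[[[Int.negSucc (nat_lit 9876127960787399677)]]]]]]]],[[[[[[[[Int.ofNat (nat_lit 800981319945573003952)]]]]]]]]],[[],[[[[[[[[Int.ofNat (nat_lit 253906974604760179050)]]]]]]]]]]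

/-- A coefficient. -/
noncomputable def sr5_m0_5_4 : MP 10 :=
  [[[[[[[[[[Int.ofNat (nat_lit 491453238099789008072)]]],[[[Int.negSucc (nat_lit 35467781694917792355)]]]]],[[[[[Int.ofNat (nat_lit 35711555270466581264)]]]]]]],[[[[[[[Int.ofNat (nat_lit 16506233993107890148)]]]]]]]],[[[],[[[[[[Int.ofNat (nat_lit 169039827521854536092)]]]]]]]],[[[[[[[[Int.ofNat (nat_lit 14856727105629725606)]]]]]]]]],[[[[[[[[[Int.ofNat (nat_lit 769276792468238762748)]]]]]]],[[[[[[[Int.ofNat (nat_lit 78165468321387389778)]]]]]]]]],[[[[[[[[[Int.ofNat (nat_lit 419457344455187845050)]]]]]]]]]]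

/-- A coefficient. -/
noncomputable def sr5_m0_5_5 : MP 10 :=
  [[[[[[[],[[[[Int.negSucc (nat_lit 70071256733594118083)]]]]]],[[[[[[Int.ofNat (nat_lit 736184807791401154128)]]]]]]]],[[[[[[[[Int.negSucc (nat_lit 134702536547207193427)]]]]]]]]],[[],[[[[[[[[Int.negSucc (nat_lit 523338980929074655197)]]]]]]]]]]

/-- A coefficient. -/
noncomputable def sr5_m0_5_6 : MP 10 :=
  [[[[[[[[[[Int.negSucc (nat_lit 1320663240686090922091)]]]]]]],[[[[[[[Int.ofNat (nat_lit 65283820288945858006)]]]]]]]]],[[[[[[[[[Int.negSucc (nat_lit 1503880926295482652671)]]]]]]]]]]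

/-- A coefficient. -/
noncomputable def sr5_m0_5_7 : MP 10 :=
  [[[],[[[[[[[[Int.negSucc (nat_lit 498520790477249529841)]]]]]]]]]]

/-- A coefficient. -/
noncomputable def sr5_m0_6_0 : MP 10 :=
  [[[],[[[[[[[[Int.ofNat (nat_lit 0),Int.negSucc (nat_lit 2557289704925685847)]],[[Int.ofNat (nat_lit 8638915271561831436)]]]],[[[[Int.negSucc (nat_lit 8511944160640863269)]]]]]],[[[[[[Int.negSucc (nat_lit 11518701960897296175)]]]]]]],[[],[[[[[[Int.ofNat (nat_lit 2030274456634520948)]]]]]]]],[[[[[[[[Int.ofNat (nat_lit 63530027101766902750)]]]]],[[[[[Int.negSucc (nat_lit 5464562040569340761)]]]]]]],[[[[[[[Int.ofNat (nat_lit 7280144682570180906)]]]]]]]],[],[[[[[[[[Int.ofNat (nat_lit 3773036116287241746)]]]]]]]]],[[],[[[[[],[[[[Int.negSucc (nat_lit 587000357673845803)]]]]]],[[[[[[Int.negSucc (nat_lit 3957136413263954795)]]]]]]]],[[[[[[[[Int.ofNat (nat_lit 73420255071829674378)]]]]]]]]],[[],[],[[[[[[[[Int.negSucc (nat_lit 6040390080131501847)]]]]]]]]]]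

/-- A coefficient. -/
noncomputable def sr5_m0_6_1 : MP 10 :=
  [[[[[[[[[[Int.ofNat (nat_lit 0),Int.ofNat (nat_lit 1078805384401273616)]],[[Int.ofNat (nat_lit 5100393650344774006)]]]],[[[[Int.negSucc (nat_lit 17422361132229154389)]]]]]],[[[[[[Int.negSucc (nat_lit 3543449045600234567)]]]]]]],[[],[[[[[[Int.negSucc (nat_lit 18484818360221165457)]]]]]]]],[[[[[[[[Int.negSucc (nat_lit 16528372225948479429)]]],[[[Int.ofNat (nat_lit 2454550916605917828)]]]]],[[[[[Int.ofNat (nat_lit 23710547639100874738)]]]]]]],[[[[[[[Int.ofNat (nat_lit 3203069400471024516)]]]]]]]],[[[],[[[[[[Int.negSucc (nat_lit 5933457300808703351)]]]]]]]],[[[[[[[[Int.negSucc (nat_lit 12618783486441541893)]]]]]]]]],[[[[[[],[[[[Int.ofNat (nat_lit 6695950928809665782)]]]]]],[[[[[[Int.negSucc (nat_lit 14577597587552398811)]]]]]]]],[[[[[[[[Int.negSucc (nat_lit 24783414040083788919)]]]]]]],[[[[[[[Int.ofNat (nat_lit 12690269058466421858)]]]]]]]]],[[],[[[[[[[[Int.ofNat (nat_lit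 17627537283503271984)]]]]]]]]]]

/-- A coefficient. -/
noncomputable def sr5_m0_6_2 : MP 10 :=
  [[[[[[[[[[Int.ofNat (nat_lit 102872674311208117030)]]],[[[Int.negSucc (nat_lit 21092321526173526343)]]]]],[[[[[Int.ofNat (nat_lit 30358584006502510416)]]]]]]],[[[[[[[Int.negSucc (nat_lit 69084400766465062009)]]]]]]]],[[[[[],[[[[Int.ofNat (nat_lit 878454239179268482)]]]]]],[[[[[[Int.ofNat (nat_lit 175223846954401958570)]]]]]]]],[[[[[[[[Int.negSucc (nat_lit 98882353056997374939)]]]]]]]]],[[[[[[[[[Int.ofNat (nat_lit 45273138736687111552)]]]]]]],[[[[[[[Int.ofNat (nat_lit 59787903937892928516)]]]]]]]],[],[[[[[[[[Int.ofNat (nat_lit 23875781299694785018)]]]]]]]]],[[[[[[[[[Int.negSucc (nat_lit 79039699673861250513)]]]]]]]]]]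

/-- A coefficient. -/
noncomputable def sr5_m0_6_3 : MP 10 :=
  [[[[[[[],[[[[Int.ofNat (nat_lit 61097194917349350370)]]]]]],[[[[[[Int.negSucc (nat_lit 114783938790101960885)]]]]]]]],[[[[[[[[Int.ofNat (nat_lit 117436338478550362606)]]]]]]],[[[[[[[Int.negSucc (nat_lit 33187545099087944075)]]]]]]]]],[[],[[[[[[[[Int.negSucc (nat_lit 222798814487173005691)]]]]]]]]]]

/-- A coefficient. -/
noncomputable def sr5_m0_6_4 : MP 10 :=
  [[[[[[[[[[Int.ofNat (nat_lit 117073303881366294374)]]]]]]],[[[[[[[Int.negSucc (nat_lit 124596665444721211295)]]]]]]]],[],[[[[[[[[Int.ofNat (nat_lit 70252211046936681456)]]]]]]]]],[[[[[[[[[Int.negSucc (nat_lit 92633537961786377575)]]]]]]]]]]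

/-- A coefficient. -/
noncomputable def sr5_m0_6_5 : MP 10 :=
  [[[],[[[[[[[[Int.negSucc (nat_lit 40322226065322552903)]]]]]]]]]]

/-- A coefficient. -/
noncomputable def sr5_m0_7_0 : MP 10 :=
  []

/-- A coefficient. -/
noncomputable def sr5_m0_7_1 : MP 10 :=
  [[[[[[[[[[Int.ofNat (nat_lit 0),Int.ofNat (nat_lit 2772288478602977928)]],[[Int.ofNat (nat_lit 7802007245076466502)]]]],[[[[Int.ofNat (nat_lit 27644037614466799348)]]]]]],[[[[[[Int.ofNat (nat_lit 36037774706183995904)]]]]]]],[[],[[[[[[Int.negSucc (nat_lit 2998995711851536933)]]]]]]]],[[[[[[[[Int.ofNat (nat_lit 26388708813597392214)]]]]],[[[[[Int.ofNat (nat_lit 14632873674868091346)]]]]]]],[[[[[[[Int.negSucc (nat_lit 101564778871400884249)]]]]]]]],[],[[[[[[[[Int.negSucc (nat_lit 15076359707949638623)]]]]]]]]],[[[[[[],[[[[Int.negSucc (nat_lit 7829990286446805445)]]]]]],[[[[[[Int.ofNat (nat_lit 38041559144349000940)]]]]]]]],[[[[[[[[Int.ofNat (nat_lit 42573641106885405582)]]]]]]]]],[[],[[[[[[[[Int.ofNat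 (nat_lit 17929111105650061938)]]]]]]]]]]

/-- A coefficient. -/
noncomputable def sr5_m0_7_2 : MP 10 :=
  [[[[[[[[[[Int.ofNat (nat_lit 62412007086396735962)]]],[[[Int.negSucc (nat_lit 9920007803091943751)]]]]],[[[[[Int.ofNat (nat_lit 17649713480442352480)]]]]]]],[[[[[[[Int.ofNat (nat_lit 10679820530390928434)]]]]]]]],[[[],[[[[[[Int.negSucc (nat_lit 10777550357684815433)]]]]]]]],[[[[[[[[Int.ofNat (nat_lit 8835953321859785088)]]]]]]]]],[[[[[[[[[Int.ofNat (nat_lit 173823250454916213480)]]]]]]],[[[[[[[Int.ofNat (nat_lit 4475389996759725014)]]]]]]]]],[[[[[[[[[Int.ofNat (nat_lit 144657030089045395670)]]]]]]]]]]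

/-- A coefficient. -/
noncomputable def sr5_m0_7_3 : MP 10 :=
  [[[[[[[],[[[[Int.negSucc (nat_lit 50909615890896411873)]]]]]],[[[[[[Int.ofNat (nat_lit 147728412104282936368)]]]]]]]],[[[[[[[[Int.negSucc (nat_lit 185086797639486331133)]]]]]]]]],[[],[[[[[[[[Int.negSucc (nat_lit 113784463547028576705)]]]]]]]]]]

/-- A coefficient. -/
noncomputable def sr5_m0_7_4 : MP 10 :=
  [[[[[[[[[[Int.negSucc (nat_lit 158865291769487750571)]]]]]]],[[[[[[[Int.ofNat (nat_lit 95634728291480622338)]]]]]]]]],[[[[[[[[[Int.negSucc (nat_lit 128757131789120787265)]]]]]]]]]]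

/-- A coefficient. -/
noncomputable def sr5_m0_7_5 : MP 10 :=
  [[[],[[[[[[[[Int.ofNat (nat_lit 48426828892156046632)]]]]]]]]]]

/-- An expanded part. -/
noncomputable def sr5_m0 : R12 :=
  [[sr5_m0_0_0, sr5_m0_0_1, sr5_m0_0_2, sr5_m0_0_3, sr5_m0_0_4, sr5_m0_0_5, sr5_m0_0_6, sr5_m0_0_7, sr5_m0_0_8, sr5_m0_0_9, sr5_m0_0_10, sr5_m0_0_11],
   [sr5_m0_1_0, sr5_m0_1_1, sr5_m0_1_2, sr5_m0_1_3, sr5_m0_1_4, sr5_m0_1_5, sr5_m0_1_6, sr5_m0_1_7, sr5_m0_1_8, sr5_m0_1_9, sr5_m0_1_10, sr5_m0_1_11],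
   [sr5_m0_2_0, sr5_m0_2_1, sr5_m0_2_2, sr5_m0_2_3, sr5_m0_2_4, sr5_m0_2_5, sr5_m0_2_6, sr5_m0_2_7, sr5_m0_2_8, sr5_m0_2_9],
   [sr5_m0_3_0, sr5_m0_3_1, sr5_m0_3_2, sr5_m0_3_3, sr5_m0_3_4, sr5_m0_3_5, sr5_m0_3_6, sr5_m0_3_7, sr5_m0_3_8, sr5_m0_3_9],
   [sr5_m0_4_0, sr5_m0_4_1, sr5_m0_4_2, sr5_m0_4_3, sr5_m0_4_4, sr5_m0_4_5, sr5_m0_4_6, sr5_m0_4_7],
   [sr5_m0_5_0, sr5_m0_5_1, sr5_m0_5_2, sr5_m0_5_3, sr5_m0_5_4, sr5_m0_5_5, sr5_m0_5_6, sr5_m0_5_7],
   [sr5_m0_6_0, sr5_m0_6_1, sr5_m0_6_2, sr5_m0_6_3, sr5_m0_6_4, sr5_m0_6_5],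
   [sr5_m0_7_0, sr5_m0_7_1, sr5_m0_7_2, sr5_m0_7_3, sr5_m0_7_4, sr5_m0_7_5]]

set_option maxRecDepth 100000 in
theorem sr5_check0 : partOk 2 sr5_rows 0 sr5_m0 = true :=
  Fast.partOk_of_fast (by decide +kernel)

end Vale.Agent.P142K.CertB
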