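import Vale.Agent.P142K.Checker

/-!
# A factor of the certificate

Generated from a semidefinite program; only the checker is trusted.
-/

namespace Vale.Agent.P142K.CertB

open Vale.Agent.P142J (MP)

/-- A row. -/
noncomputable def sr5_c0_0 : List ℕ × List ℤ :=
  ([(nat_lit 0),(nat_lit 0),(nat_lit 0),(nat_lit 0),(nat_lit 0),(nat_lit 0),(nat_lit 0),(nat_lit 0),(nat_lit 0),(nat_lit 0),(nat_lit 0),(nat_lit 1)], [Int.ofNat (nat_lit 245164148)])

/-- A row. -/
noncomputable def sr5_c0_1 : List ℕ × List ℤ :=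
  ([(nat_lit 0),(nat_lit 0),(nat_lit 0),(nat_lit 0),(nat_lit 0),(nat_lit 0),(nat_lit 0),(nat_lit 0),(nat_lit 0),(nat_lit 1),(nat_lit 0),(nat_lit 0)], [Int.negSucc (nat_lit 138629357),Int.ofNat (nat_lit 1071854501)])

/-- A row. -/
noncomputable def sr5_c0_2 : List ℕ × List ℤ :=
  ([(nat_lit 0),(nat_lit 0),(nat_lit 0),(nat_lit 0),(nat_lit 0),(nat_lit 0),(nat_lit 0),(nat_lit 1),(nat_lit 0),(nat_lit 0),(nat_lit 0),(nat_lit 0)], [Int.ofNat (nat_lit 59876209),Int.negSucc (nat_lit 511681486),Int.ofNat (nat_lit 1366639672)])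

/-- A row. -/
noncomputable def sr5_c0_3 : List ℕ × List ℤ :=
  ([(nat_lit 0),(nat_lit 0),(nat_lit 0),(nat_lit 0),(nat_lit 0),(nat_lit 1),(nat_lit 0),(nat_lit 0),(nat_lit 0),(nat_lit 0),(nat_lit 0),(nat_lit 0)], [Int.ofNat (nat_lit 228764892),Int.ofNat (nat_lit 428045812),Int.negSucc (nat_lit 423733781),Int.ofNat (nat_lit 2137257536)])

/-- A row. -/
noncomputable def sr5_c0_4 : List ℕ × List ℤ :=
  ([(nat_lit 0),(nat_lit 0),(nat_lit 0),(nat_lit 0),(nat_lit 1),(nat_lit 1),(nat_lit 0),(nat_lit 0),(nat_lit 0),(nat_lit 0),(nat_lit 0),(nat_lit 0)], [Int.ofNat (nat_lit 15243646),Int.negSucc (nat_lit 110135020),Int.negSucc (nat_lit 18220676),Int.negSucc (nat_lit 300772578),Int.ofNat (nat_lit 665266961)])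

/-- A row. -/
noncomputable def sr5_c0_5 : List ℕ × List ℤ :=
  ([(nat_lit 0),(nat_lit 0),(nat_lit 0),(nat_lit 1),(nat_lit 0),(nat_lit 0),(nat_lit 0),(nat_lit 0),(nat_lit 0),(nat_lit 0),(nat_lit 0),(nat_lit 0)], [Int.negSucc (nat_lit 396105228),Int.ofNat (nat_lit 893092129),Int.ofNat (nat_lit 592181518),Int.negSucc (nat_lit 912977157),Int.negSucc (nat_lit 498883589),Int.ofNat (nat_lit 3511998673)])

/-- A row. -/
noncomputable def sr5_c0_6 : List ℕ × List ℤ :=
  ([(nat_lit 0),(nat_lit 0),(nat_lit 0),(nat_lit 1),(nat_lit 0),(nat_lit 0),(nat_lit 1),(nat_lit 0),(nat_lit 0),(nat_lit 0),(nat_lit 0),(nat_lit 0)], [Int.ofNat (nat_lit 415272659),Int.negSucc (nat_lit 79627225),Int.ofNat (nat_lit 47153694),Int.ofNat (nat_lit 53764009),Int.ofNat (nat_lit 66900525),Int.ofNat (nat_lit 272483272),Int.ofNat (nat_lit 782623426)])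

/-- A row. -/
noncomputable def sr5_c0_7 : List ℕ × List ℤ :=
  ([(nat_lit 0),(nat_lit 0),(nat_lit 0),(nat_lit 1),(nat_lit 1),(nat_lit 0),(nat_lit 0),(nat_lit 0),(nat_lit 0),(nat_lit 0),(nat_lit 0),(nat_lit 0)], [Int.negSucc (nat_lit 375562640),Int.ofNat (nat_lit 445849232),Int.negSucc (nat_lit 1181592722),Int.negSucc (nat_lit 601782616),Int.ofNat (nat_lit 440837378),Int.negSucc (nat_lit 2241671021),Int.negSucc (nat_lit 889726000),Int.ofNat (nat_lit 1922093348)])

/-- A row. -/
noncomputable def sr5_c0_8 : List ℕ × List ℤ :=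
  ([(nat_lit 0),(nat_lit 0),(nat_lit 0),(nat_lit 3),(nat_lit 0),(nat_lit 0),(nat_lit 0),(nat_lit 0),(nat_lit 0),(nat_lit 0),(nat_lit 0),(nat_lit 0)], [Int.negSucc (nat_lit 489802791),Int.negSucc (nat_lit 39147147),Int.negSucc (nat_lit 309127860),Int.ofNat (nat_lit 272640370),Int.negSucc (nat_lit 61059100),Int.negSucc (nat_lit 439587447),Int.negSucc (nat_lit 536900943),Int.ofNat (nat_lit 172453424),Int.ofNat (nat_lit 1045756748)])

/-- A row. -/
noncomputable def sr5_c0_9 : List ℕ × List ℤ :=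
  ([(nat_lit 0),(nat_lit 0),(nat_lit 1),(nat_lit 0),(nat_lit 0),(nat_lit 0),(nat_lit 0),(nat_lit 1),(nat_lit 0),(nat_lit 0),(nat_lit 0),(nat_lit 0)], [Int.ofNat (nat_lit 88877442),Int.ofNat (nat_lit 80908620),Int.ofNat (nat_lit 258857995),Int.negSucc (nat_lit 153113832),Int.negSucc (nat_lit 7853659),Int.negSucc (nat_lit 166174140),Int.negSucc (nat_lit 88885385),Int.negSucc (nat_lit 50247464),Int.ofNat (nat_lit 9671485),Int.ofNat (nat_lit 608068170)])

/-- A row. -/
noncomputable def sr5_c0_10 : List ℕ × List ℤ :=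
  ([(nat_lit 0),(nat_lit 0),(nat_lit 1),(nat_lit 0),(nat_lit 0),(nat_lit 1),(nat_lit 0),(nat_lit 0),(nat_lit 0),(nat_lit 0),(nat_lit 0),(nat_lit 0)], [Int.ofNat (nat_lit 587300624),Int.negSucc (nat_lit 227930974),Int.negSucc (nat_lit 105318309),Int.ofNat (nat_lit 1834261752),Int.negSucc (nat_lit 350454143),Int.ofNat (nat_lit 700676501),Int.negSucc (nat_lit 124286928),Int.negSucc (nat_lit 92341940),Int.ofNat (nat_lit 129124070),Int.negSucc (nat_lit 176975795),Int.ofNat (nat_lit 1394613273)])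

/-- A row. -/
noncomputable def sr5_c0_11 : List ℕ × List ℤ :=
  ([(nat_lit 0),(nat_lit 0),(nat_lit 1),(nat_lit 1),(nat_lit 0),(nat_lit 0),(nat_lit 0),(nat_lit 0),(nat_lit 0),(nat_lit 0),(nat_lit 0),(nat_lit 0)], [Int.negSucc (nat_lit 1499664906),Int.ofNat (nat_lit 825718790),Int.ofNat (nat_lit 368681991),Int.negSucc (nat_lit 47580076),Int.negSucc (nat_lit 564435355),Int.ofNat (nat_lit 3249529730),Int.negSucc (nat_lit 894397314),Int.ofNat (nat_lit 292122118),Int.ofNat (nat_lit 1010166349),Int.negSucc (nat_lit 505177645),Int.negSucc (nat_lit 332469244),Int.ofNat (nat_lit 1588335226)])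

/-- A row. -/
noncomputable def sr5_c0_12 : List ℕ × List ℤ :=
  ([(nat_lit 0),(nat_lit 0),(nat_lit 2),(nat_lit 1),(nat_lit 0),(nat_lit 0),(nat_lit 0),(nat_lit 0),(nat_lit 0),(nat_lit 0),(nat_lit 0),(nat_lit 0)], [Int.negSucc (nat_lit 541203712),Int.negSucc (nat_lit 70458599),Int.negSucc (nat_lit 340211578),Int.ofNat (nat_lit 605616555),Int.negSucc (nat_lit 315618750),Int.negSucc (nat_lit 175162645),Int.negSucc (nat_lit 651806017),Int.ofNat (nat_lit 254162130),Int.ofNat (nat_lit 904299283),Int.negSucc (nat_lit 339226711),Int.ofNat (nat_lit 107001825),Int.ofNat (nat_lit 816526188),Int.ofNat (nat_lit 895333599)])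

/-- A row. -/
noncomputable def sr5_c0_13 : List ℕ × List ℤ :=
  ([(nat_lit 0),(nat_lit 1),(nat_lit 0),(nat_lit 0),(nat_lit 0),(nat_lit 0),(nat_lit 0),(nat_lit 0),(nat_lit 0),(nat_lit 0),(nat_lit 0),(nat_lit 0)], [Int.ofNat (nat_lit 1133434122),Int.ofNat (nat_lit 1546887585),Int.negSucc (nat_lit 1227608159),Int.ofNat (nat_lit 1931541654),Int.ofNat (nat_lit 52419699),Int.negSucc (nat_lit 1032414968),Int.ofNat (nat_lit 73696867),Int.ofNat (nat_lit 588497483),Int.ofNat (nat_lit 624173625),Int.negSucc (nat_lit 401229708),Int.ofNat (nat_lit 236582449),Int.ofNat (nat_lit 356139637),Int.ofNat (nat_lit 383029803),Int.ofNat (nat_lit 4580140329)])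

/-- A row. -/
noncomputable def sr5_c0_14 : List ℕ × List ℤ :=
  ([(nat_lit 0),(nat_lit 1),(nat_lit 0),(nat_lit 0),(nat_lit 0),(nat_lit 0),(nat_lit 0),(nat_lit 0),(nat_lit 1),(nat_lit 0),(nat_lit 0),(nat_lit 0)], [Int.negSucc (nat_lit 29262333),Int.ofNat (nat_lit 332174840),Int.negSucc (nat_lit 134943340),Int.negSucc (nat_lit 370503136),Int.ofNat (nat_lit 372270396),Int.negSucc (nat_lit 250005905),Int.ofNat (nat_lit 293198815),Int.ofNat (nat_lit 68206520),Int.ofNat (nat_lit 9698574),Int.ofNat (nat_lit 314647094),Int.negSucc (nat_lit 128952410),Int.negSucc (nat_lit 89336879),Int.negSucc (nat_lit 141363646),Int.negSucc (nat_lit 50079014),Int.ofNat (nat_lit 975916539)])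

/-- A row. -/
noncomputable def sr5_c0_15 : List ℕ × List ℤ :=
  ([(nat_lit 0),(nat_lit 1),(nat_lit 0),(nat_lit 0),(nat_lit 0),(nat_lit 0),(nat_lit 1),(nat_lit 0),(nat_lit 0),(nat_lit 0),(nat_lit 0),(nat_lit 0)], [Int.negSucc (nat_lit 1337419079),Int.ofNat (nat_lit 1354482122),Int.ofNat (nat_lit 77289273),Int.ofNat (nat_lit 877907602),Int.negSucc (nat_lit 911170961),Int.ofNat (nat_lit 663423338),Int.negSucc (nat_lit 1407037495),Int.negSucc (nat_lit 227364906),Int.negSucc (nat_lit 84849337),Int.negSucc (nat_lit 578469102),Int.ofNat (nat_lit 640544131),Int.ofNat (nat_lit 306052173),Int.ofNat (nat_lit 310152804),Int.ofNat (nat_lit 568778358),Int.negSucc (nat_lit 1361688519),Int.ofNat (nat_lit 2345392129)])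

/-- A row. -/
noncomputable def sr5_c0_16 : List ℕ × List ℤ :=
  ([(nat_lit 0),(nat_lit 1),(nat_lit 0),(nat_lit 0),(nat_lit 1),(nat_lit 0),(nat_lit 0),(nat_lit 0),(nat_lit 0),(nat_lit 0),(nat_lit 0),(nat_lit 0)], [Int.negSucc (nat_lit 20862892),Int.negSucc (nat_lit 1886508590),Int.ofNat (nat_lit 1073090051),Int.negSucc (nat_lit 743844879),Int.ofNat (nat_lit 268402435),Int.ofNat (nat_lit 628979380),Int.negSucc (nat_lit 125678360),Int.negSucc (nat_lit 2257852111),Int.negSucc (nat_lit 1037143674),Int.ofNat (nat_lit 854398466),Int.negSucc (nat_lit 429314348),Int.ofNat (nat_lit 409664),Int.negSucc (nat_lit 71630225),Int.negSucc (nat_lit 3332444474),Int.ofNat (nat_lit 202549085),Int.negSucc (nat_lit 125958381),Int.ofNat (nat_lit 4337127152)])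

/-- A row. -/
noncomputable def sr5_c0_17 : List ℕ × List ℤ :=
  ([(nat_lit 0),(nat_lit 1),(nat_lit 0),(nat_lit 1),(nat_lit 0),(nat_lit 1),(nat_lit 0),(nat_lit 0),(nat_lit 0),(nat_lit 0),(nat_lit 0),(nat_lit 0)], [Int.ofNat (nat_lit 1319030834),Int.negSucc (nat_lit 1795989082),Int.ofNat (nat_lit 878609991),Int.negSucc (nat_lit 373753868),Int.negSucc (nat_lit 168508965),Int.ofNat (nat_lit 1346065313),Int.negSucc (nat_lit 635649945),Int.negSucc (nat_lit 825754179),Int.negSucc (nat_lit 932259895),Int.ofNat (nat_lit 592997495),Int.ofNat (nat_lit 480722405),Int.negSucc (nat_lit 151213284),Int.negSucc (nat_lit 203669293),Int.negSucc (nat_lit 204543983),Int.negSucc (nat_lit 1756186710),Int.ofNat (nat_lit 584310647),Int.ofNat (nat_lit 466328831),Int.ofNat (nat_lit 3100465586)])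

/-- A row. -/
noncomputable def sr5_c0_18 : List ℕ × List ℤ :=
  ([(nat_lit 0),(nat_lit 1),(nat_lit 0),(nat_lit 2),(nat_lit 0),(nat_lit 0),(nat_lit 0),(nat_lit 0),(nat_lit 0),(nat_lit 0),(nat_lit 0),(nat_lit 0)], [Int.negSucc (nat_lit 1280569860),Int.negSucc (nat_lit 1013425375),Int.ofNat (nat_lit 489215366),Int.negSucc (nat_lit 310055766),Int.ofNat (nat_lit 399643754),Int.ofNat (nat_lit 651318583),Int.ofNat (nat_lit 1165154254),Int.negSucc (nat_lit 1140302865),Int.negSucc (nat_lit 2949221605),Int.ofNat (nat_lit 355230534),Int.negSucc (nat_lit 244262960),Int.ofNat (nat_lit 49291256),Int.negSucc (nat_lit 197709232),Int.negSucc (nat_lit 1031185675),Int.ofNat (nat_lit 154600659),Int.negSucc (nat_lit 1262328260),Int.ofNat (nat_lit 129494099),Int.negSucc (nat_lit 790379576),Int.ofNat (nat_lit 4872354866)])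

/-- A row. -/
noncomputable def sr5_c0_19 : List ℕ × List ℤ :=
  ([(nat_lit 0),(nat_lit 1),(nat_lit 1),(nat_lit 0),(nat_lit 0),(nat_lit 0),(nat_lit 0),(nat_lit 0),(nat_lit 0),(nat_lit 0),(nat_lit 0),(nat_lit 0)], [Int.ofNat (nat_lit 4481304513),Int.negSucc (nat_lit 360153089),Int.ofNat (nat_lit 246622166),Int.negSucc (nat_lit 259067663),Int.ofNat (nat_lit 554587077),Int.ofNat (nat_lit 196289923),Int.ofNat (nat_lit 958256534),Int.ofNat (nat_lit 1069598831),Int.ofNat (nat_lit 98866472),Int.negSucc (nat_lit 133265207),Int.ofNat (nat_lit 943236276),Int.negSucc (nat_lit 691624531),Int.ofNat (nat_lit 527869303),Int.ofNat (nat_lit 6641324015),Int.ofNat (nat_lit 1109387641),Int.negSucc (nat_lit 1024042941),Int.ofNat (nat_lit 2397582974),Int.ofNat (nat_lit 40366721),Int.ofNat (nat_lit 553536968),Int.ofNat (nat_lit 4384598869)])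

/-- A row. -/
noncomputable def sr5_c0_20 : List ℕ × List ℤ :=
  ([(nat_lit 0),(nat_lit 1),(nat_lit 1),(nat_lit 0),(nat_lit 1),(nat_lit 0),(nat_lit 0),(nat_lit 0),(nat_lit 0),(nat_lit 0),(nat_lit 0),(nat_lit 0)], [Int.negSucc (nat_lit 526776240),Int.negSucc (nat_lit 297163806),Int.ofNat (nat_lit 54060624),Int.negSucc (nat_lit 56421864),Int.negSucc (nat_lit 528944516),Int.ofNat (nat_lit 185747613),Int.negSucc (nat_lit 1242121789),Int.negSucc (nat_lit 608887490),Int.negSucc (nat_lit 545591078),Int.ofNat (nat_lit 448186950),Int.ofNat (nat_lit 128104182),Int.ofNat (nat_lit 188145273),Int.ofNat (nat_lit 163485697),Int.negSucc (nat_lit 278837257),Int.negSucc (nat_lit 547895919),Int.ofNat (nat_lit 305668080),Int.ofNat (nat_lit 776419174),Int.ofNat (nat_lit 742651290),Int.negSucc (nat_lit 62957478),Int.negSucc (nat_lit 781715398),Int.ofNat (nat_lit 2084140317)])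

/-- A row. -/
noncomputable def sr5_c0_21 : List ℕ × List ℤ :=
  ([(nat_lit 0),(nat_lit 1),(nat_lit 2),(nat_lit 0),(nat_lit 0),(nat_lit 0),(nat_lit 0),(nat_lit 0),(nat_lit 0),(nat_lit 0),(nat_lit 0),(nat_lit 0)], [Int.ofNat (nat_lit 2542769982),Int.negSucc (nat_lit 1954167166),Int.ofNat (nat_lit 1824364873),Int.negSucc (nat_lit 1552421613),Int.ofNat (nat_lit 733606022),Int.ofNat (nat_lit 1378035118),Int.ofNat (nat_lit 621916187),Int.ofNat (nat_lit 478942259),Int.negSucc (nat_lit 442126417),Int.negSucc (nat_lit 101082535),Int.ofNat (nat_lit 84125341),Int.negSucc (nat_lit 114785804),Int.negSucc (nat_lit 811000239),Int.ofNat (nat_lit 2149692051),Int.ofNat (nat_lit 960533003),Int.negSucc (nat_lit 833487164),Int.ofNat (nat_lit 1986812747),Int.ofNat (nat_lit 111766073),Int.ofNat (nat_lit 485039623),Int.ofNat (nat_lit 4212964694),Int.ofNat (nat_lit 113595948),Int.ofNat (nat_lit 1356753150)])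

/-- A row. -/
noncomputable def sr5_c0_22 : List ℕ × List ℤ :=
  ([(nat_lit 0),(nat_lit 2),(nat_lit 0),(nat_lit 0),(nat_lit 0),(nat_lit 0),(nat_lit 0),(nat_lit 1),(nat_lit 0),(nat_lit 0),(nat_lit 0),(nat_lit 0)], [Int.ofNat (nat_lit 499167237),Int.negSucc (nat_lit 1215561406),Int.negSucc (nat_lit 47481504),Int.negSucc (nat_lit 633200500),Int.ofNat (nat_lit 252803953),Int.negSucc (nat_lit 215755363),Int.negSucc (nat_lit 690848271),Int.ofNat (nat_lit 411393164),Int.negSucc (nat_lit 452471784),Int.negSucc (nat_lit 126334062),Int.ofNat (nat_lit 133610810),Int.ofNat (nat_lit 293768464),Int.ofNat (nat_lit 175918381),Int.ofNat (nat_lit 11016835),Int.negSucc (nat_lit 293332254),Int.negSucc (nat_lit 448099599),Int.ofNat (nat_lit 338207210),Int.ofNat (nat_lit 904012709),Int.negSucc (nat_lit 312165081),Int.ofNat (nat_lit 156703116),Int.ofNat (nat_lit 157813299),Int.ofNat (nat_lit 144865033),Int.ofNat (nat_lit 3514714479)])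

/-- A row. -/
noncomputable def sr5_c0_23 : List ℕ × List ℤ :=
  ([(nat_lit 0),(nat_lit 2),(nat_lit 0),(nat_lit 0),(nat_lit 0),(nat_lit 1),(nat_lit 0),(nat_lit 0),(nat_lit 0),(nat_lit 0),(nat_lit 0),(nat_lit 0)], [Int.negSucc (nat_lit 2551052502),Int.ofNat (nat_lit 5919115859),Int.negSucc (nat_lit 561618052),Int.negSucc (nat_lit 347198945),Int.negSucc (nat_lit 2315633185),Int.ofNat (nat_lit 1705495935),Int.ofNat (nat_lit 111855985),Int.ofNat (nat_lit 759894504),Int.ofNat (nat_lit 3312790154),Int.negSucc (nat_lit 1065516474),Int.ofNat (nat_lit 2533353349),Int.ofNat (nat_lit 874023077),Int.ofNat (nat_lit 140498171),Int.ofNat (nat_lit 1433858881),Int.ofNat (nat_lit 3144848246),Int.ofNat (nat_lit 19544945),Int.negSucc (nat_lit 1890015142),Int.negSucc (nat_lit 2919832442),Int.negSucc (nat_lit 1179114191),Int.negSucc (nat_lit 1044695530),Int.ofNat (nat_lit 119752081),Int.negSucc (nat_lit 220885516),Int.negSucc (nat_lit 1822866399),Int.ofNat (nat_lit 8953136641)])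

/-- A row. -/
noncomputable def sr5_c0_24 : List ℕ × List ℤ :=
  ([(nat_lit 0),(nat_lit 2),(nat_lit 0),(nat_lit 1),(nat_lit 0),(nat_lit 0),(nat_lit 0),(nat_lit 0),(nat_lit 0),(nat_lit 0),(nat_lit 0),(nat_lit 0)], [Int.ofNat (nat_lit 3083046188),Int.negSucc (nat_lit 5710921507),Int.ofNat (nat_lit 3640896137),Int.negSucc (nat_lit 1764560589),Int.ofNat (nat_lit 3291321285),Int.negSucc (nat_lit 8950187346),Int.ofNat (nat_lit 1921703612),Int.negSucc (nat_lit 1072067434),Int.ofNat (nat_lit 1694981027),Int.ofNat (nat_lit 2144513251),Int.negSucc (nat_lit 1093233597),Int.ofNat (nat_lit 2073601564),Int.negSucc (nat_lit 2189105920),Int.ofNat (nat_lit 173238041),Int.ofNat (nat_lit 874524308),Int.ofNat (nat_lit 915228102),Int.ofNat (nat_lit 1227709182),Int.ofNat (nat_lit 3570662166),Int.negSucc (nat_lit 9202257371),Int.ofNat (nat_lit 549341165),Int.ofNat (nat_lit 1756010326),Int.negSucc (nat_lit 224104733),Int.ofNat (nat_lit 770881557),Int.negSucc (nat_lit 4080425369),Int.ofNat (nat_lit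 11699336161)])

/-- A row. -/
noncomputable def sr5_c0_25 : List ℕ × List ℤ :=
  ([(nat_lit 0),(nat_lit 2),(nat_lit 1),(nat_lit 1),(nat_lit 0),(nat_lit 0),(nat_lit 0),(nat_lit 0),(nat_lit 0),(nat_lit 0),(nat_lit 0),(nat_lit 0)], [Int.negSucc (nat_lit 1818838996),Int.negSucc (nat_lit 1276039532),Int.ofNat (nat_lit 1530928578),Int.negSucc (nat_lit 1378805815),Int.ofNat (nat_lit 1718251925),Int.negSucc (nat_lit 2588254203),Int.ofNat (nat_lit 1160964880),Int.negSucc (nat_lit 52801149),Int.negSucc (nat_lit 1484292959),Int.ofNat (nat_lit 1722418331),Int.ofNat (nat_lit 313191827),Int.negSucc (nat_lit 1423950523),Int.ofNat (nat_lit 277840655),Int.negSucc (nat_lit 1108412670),Int.negSucc (nat_lit 51485297),Int.ofNat (nat_lit 478659242),Int.ofNat (nat_lit 676238256),Int.negSucc (nat_lit 561194379),Int.ofNat (nat_lit 428938377),Int.negSucc (nat_lit 1278529445),Int.ofNat (nat_lit 1687627773),Int.negSucc (nat_lit 62388924),Int.ofNat (nat_lit 156867959),Int.ofNat (nat_lit 213854678),Int.ofNat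 (nat_lit 3814355255),Int.ofNat (nat_lit 7949085284)])

/-- A row. -/
noncomputable def sr5_c0_26 : List ℕ × List ℤ :=
  ([(nat_lit 0),(nat_lit 3),(nat_lit 0),(nat_lit 0),(nat_lit 0),(nat_lit 0),(nat_lit 0),(nat_lit 0),(nat_lit 0),(nat_lit 0),(nat_lit 0),(nat_lit 0)], [Int.negSucc (nat_lit 1954664529),Int.ofNat (nat_lit 4322346089),Int.negSucc (nat_lit 3122948313),Int.negSucc (nat_lit 1209266106),Int.negSucc (nat_lit 5103910051),Int.ofNat (nat_lit 2634104031),Int.negSucc (nat_lit 1898606426),Int.negSucc (nat_lit 194594452),Int.negSucc (nat_lit 619932539),Int.negSucc (nat_lit 757411042),Int.ofNat (nat_lit 1142625708),Int.negSucc (nat_lit 3305352195),Int.ofNat (nat_lit 1523697215),Int.negSucc (nat_lit 9215456933),Int.negSucc (nat_lit 2072735157),Int.ofNat (nat_lit 2116629536),Int.negSucc (nat_lit 6687966278),Int.negSucc (nat_lit 2141546119),Int.ofNat (nat_lit 3890590194),Int.ofNat (nat_lit 6321284533),Int.ofNat (nat_lit 845680613),Int.negSucc (nat_lit 1792118810),Int.negSucc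 (nat_lit 3990720012),Int.ofNat (nat_lit 5226420337),Int.negSucc (nat_lit 8242453153),Int.ofNat (nat_lit 1044822297),Int.ofNat (nat_lit 13428639931)])

/-- A row. -/
noncomputable def sr5_c0_27 : List ℕ × List ℤ :=
  ([(nat_lit 0),(nat_lit 3),(nat_lit 0),(nat_lit 0),(nat_lit 1),(nat_lit 0),(nat_lit 0),(nat_lit 0),(nat_lit 0),(nat_lit 0),(nat_lit 0),(nat_lit 0)], [Int.negSucc (nat_lit 325372373),Int.ofNat (nat_lit 764504462),Int.negSucc (nat_lit 1578203602),Int.ofNat (nat_lit 1464161237),Int.ofNat (nat_lit 1855463558),Int.ofNat (nat_lit 962321352),Int.ofNat (nat_lit 1431181481),Int.ofNat (nat_lit 970995883),Int.ofNat (nat_lit 1980065818),Int.negSucc (nat_lit 332637692),Int.ofNat (nat_lit 1383053131),Int.ofNat (nat_lit 374257408),Int.negSucc (nat_lit 544202497),Int.ofNat (nat_lit 2248299769),Int.ofNat (nat_lit 973144354),Int.negSucc (nat_lit 1363517383),Int.negSucc (nat_lit 3840708286),Int.ofNat (nat_lit 555278466),Int.ofNat (nat_lit 957625183),Int.ofNat (nat_lit 473708724),Int.negSucc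 (nat_lit 475943065),Int.negSucc (nat_lit 196038944),Int.negSucc (nat_lit 143890022),Int.negSucc (nat_lit 186004146),Int.negSucc (nat_lit 850332193),Int.negSucc (nat_lit 1088841284),Int.negSucc (nat_lit 4224895141),Int.ofNat (nat_lit 9434495402)])

/-- A row. -/
noncomputable def sr5_c0_28 : List ℕ × List ℤ :=
  ([(nat_lit 0),(nat_lit 3),(nat_lit 1),(nat_lit 0),(nat_lit 0),(nat_lit 0),(nat_lit 0),(nat_lit 0),(nat_lit 0),(nat_lit 0),(nat_lit 0),(nat_lit 0)], [Int.negSucc (nat_lit 215784225),Int.negSucc (nat_lit 5048459485),Int.ofNat (nat_lit 1049869559),Int.negSucc (nat_lit 290582255),Int.negSucc (nat_lit 785295252),Int.negSucc (nat_lit 2021002107),Int.negSucc (nat_lit 155656569),Int.negSucc (nat_lit 2203933693),Int.negSucc (nat_lit 223404974),Int.negSucc (nat_lit 2005534138),Int.negSucc (nat_lit 346447573),Int.ofNat (nat_lit 498193636),Int.negSucc (nat_lit 1999494882),Int.negSucc (nat_lit 9744905202),Int.negSucc (nat_lit 723479895),Int.ofNat (nat_lit 246858507),Int.negSucc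 (nat_lit 4959603419),Int.ofNat (nat_lit 192167428),Int.negSucc (nat_lit 1430709677),Int.ofNat (nat_lit 3244259464),Int.negSucc (nat_lit 999783155),Int.ofNat (nat_lit 5363946409),Int.negSucc (nat_lit 1484830855),Int.negSucc (nat_lit 2050855264),Int.negSucc (nat_lit 2056814495),Int.negSucc (nat_lit 5368350995),Int.ofNat (nat_lit 12248734041),Int.ofNat (nat_lit 1501856),Int.ofNat (nat_lit 8001076915)])

/-- A row. -/
noncomputable def sr5_c0_29 : List ℕ × List ℤ :=
  ([(nat_lit 0),(nat_lit 4),(nat_lit 0),(nat_lit 1),(nat_lit 0),(nat_lit 0),(nat_lit 0),(nat_lit 0),(nat_lit 0),(nat_lit 0),(nat_lit 0),(nat_lit 0)], [Int.ofNat (nat_lit 225062904),Int.ofNat (nat_lit 1015521656),Int.negSucc (nat_lit 1342841189),Int.ofNat (nat_lit 2629789689),Int.negSucc (nat_lit 2445505598),Int.ofNat (nat_lit 5127942047),Int.negSucc (nat_lit 6361258047),Int.ofNat (nat_lit 1442945118),Int.negSucc (nat_lit 6368426102),Int.negSucc (nat_lit 4802956677),Int.ofNat (nat_lit 1742992927),Int.negSucc (nat_lit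 1155739395),Int.ofNat (nat_lit 2352971291),Int.ofNat (nat_lit 1022022918),Int.negSucc (nat_lit 6299776623),Int.ofNat (nat_lit 2253634310),Int.negSucc (nat_lit 1759359388),Int.negSucc (nat_lit 4440698591),Int.ofNat (nat_lit 4279527802),Int.negSucc (nat_lit 1290486561),Int.negSucc (nat_lit 4587560826),Int.ofNat (nat_lit 607352148),Int.ofNat (nat_lit 987685325),Int.ofNat (nat_lit 179868237),Int.negSucc (nat_lit 10646269989),Int.ofNat (nat_lit 5403927913),Int.negSucc (nat_lit 3921056235),Int.ofNat (nat_lit 3641472571),Int.ofNat (nat_lit 1277647634),Int.ofNat (nat_lit 17239190195)])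

/-- A part of a triangular factor. -/
noncomputable def sr5_c0 : Rows :=
  [sr5_c0_0,
   sr5_c0_1,
   sr5_c0_2,
   sr5_c0_3,
   sr5_c0_4,
   sr5_c0_5,
   sr5_c0_6,
   sr5_c0_7,
   sr5_c0_8,
   sr5_c0_9,
   sr5_c0_10,
   sr5_c0_11,
   sr5_c0_12,
   sr5_c0_13,
   sr5_c0_14,
   sr5_c0_15,
   sr5_c0_16,
   sr5_c0_17,
   sr5_c0_18,
   sr5_c0_19,
   sr5_c0_20,
   sr5_c0_21,
   sr5_c0_22,
   sr5_c0_23,
   sr5_c0_24,
   sr5_c0_25,
   sr5_c0_26,
   sr5_c0_27,
   sr5_c0_28,
   sr5_c0_29]

/-- A row. -/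
noncomputable def sr5_c1_0 : List ℕ × List ℤ :=
  ([(nat_lit 0),(nat_lit 5),(nat_lit 0),(nat_lit 0),(nat_lit 0),(nat_lit 0),(nat_lit 0),(nat_lit 0),(nat_lit 0),(nat_lit 0),(nat_lit 0),(nat_lit 0)], [Int.negSucc (nat_lit 1002140568),Int.negSucc (nat_lit 4089104657),Int.ofNat (nat_lit 4886934828),Int.negSucc (nat_lit 1045909435),Int.ofNat (nat_lit 5068529726),Int.negSucc (nat_lit 2827120174),Int.ofNat (nat_lit 4011760528),Int.negSucc (nat_lit 790470370),Int.ofNat (nat_lit 4232795937),Int.ofNat (nat_lit 720170767),Int.negSucc (nat_lit 973242117),Int.ofNat (nat_lit 2750129745),Int.negSucc (nat_lit 2436949733),Int.ofNat (nat_lit 3005735166),Int.ofNat (nat_lit 6462483863),Int.negSucc (nat_lit 3401438043),Int.ofNat (nat_lit 5653851172),Int.ofNat (nat_lit 2121055619),Int.negSucc (nat_lit 6166273139),Int.negSucc (nat_lit 7156956001),Int.ofNat (nat_lit 521311159),Int.ofNat (nat_lit 7912485641),Int.ofNat (nat_lit 1750247538),Int.negSucc (nat_lit 2034311356),Int.ofNat (nat_lit 8776112917),Int.negSucc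 (nat_lit 5492781942),Int.negSucc (nat_lit 6922705225),Int.negSucc (nat_lit 7104538778),Int.ofNat (nat_lit 10276499358),Int.negSucc (nat_lit 10800559917),Int.ofNat (nat_lit 9079192789)])

/-- A row. -/
noncomputable def sr5_c1_1 : List ℕ × List ℤ :=
  ([(nat_lit 1),(nat_lit 0),(nat_lit 0),(nat_lit 0),(nat_lit 0),(nat_lit 0),(nat_lit 0),(nat_lit 0),(nat_lit 0),(nat_lit 1),(nat_lit 0),(nat_lit 0)], [Int.ofNat (nat_lit 255755553),Int.negSucc (nat_lit 1634279971),Int.ofNat (nat_lit 15934862),Int.negSucc (nat_lit 103418),Int.ofNat (nat_lit 28523369),Int.negSucc (nat_lit 35639526),Int.ofNat (nat_lit 112613639),Int.negSucc (nat_lit 10576775),Int.negSucc (nat_lit 23837251),Int.ofNat (nat_lit 105744905),Int.negSucc (nat_lit 1876691),Int.negSucc (nat_lit 53897414),Int.negSucc (nat_lit 69365862),Int.ofNat (nat_lit 16603007),Int.negSucc (nat_lit 10120817),Int.negSucc (nat_lit 50883545),Int.negSucc (nat_lit 32757848),Int.ofNat (nat_lit 14054595),Int.ofNat (nat_lit 15106454),Int.ofNat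 (nat_lit 40049096),Int.negSucc (nat_lit 76236735),Int.negSucc (nat_lit 8574444),Int.negSucc (nat_lit 88441540),Int.negSucc (nat_lit 7028323),Int.ofNat (nat_lit 43647176),Int.ofNat (nat_lit 3488585),Int.negSucc (nat_lit 5905711),Int.ofNat (nat_lit 50518866),Int.negSucc (nat_lit 18863670),Int.negSucc (nat_lit 19663376),Int.negSucc (nat_lit 976778),Int.ofNat (nat_lit 259586504)])

/-- A row. -/
noncomputable def sr5_c1_2 : List ℕ × List ℤ :=
  ([(nat_lit 1),(nat_lit 0),(nat_lit 0),(nat_lit 0),(nat_lit 0),(nat_lit 0),(nat_lit 0),(nat_lit 1),(nat_lit 0),(nat_lit 0),(nat_lit 0),(nat_lit 0)], [Int.negSucc (nat_lit 8886782),Int.ofNat (nat_lit 538634308),Int.negSucc (nat_lit 4459773274),Int.negSucc (nat_lit 474096276),Int.ofNat (nat_lit 283188231),Int.negSucc (nat_lit 244913973),Int.ofNat (nat_lit 187261739),Int.negSucc (nat_lit 258189768),Int.ofNat (nat_lit 36404187),Int.ofNat (nat_lit 1783375111),Int.negSucc (nat_lit 185191594),Int.ofNat (nat_lit 20670612),Int.negSucc (nat_lit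 449377838),Int.negSucc (nat_lit 87254135),Int.ofNat (nat_lit 486104467),Int.negSucc (nat_lit 125031742),Int.negSucc (nat_lit 27430388),Int.ofNat (nat_lit 131323431),Int.negSucc (nat_lit 57709523),Int.negSucc (nat_lit 119892122),Int.ofNat (nat_lit 233651624),Int.ofNat (nat_lit 89063174),Int.negSucc (nat_lit 598875357),Int.negSucc (nat_lit 123528217),Int.negSucc (nat_lit 42725344),Int.negSucc (nat_lit 233076843),Int.negSucc (nat_lit 48990546),Int.ofNat (nat_lit 114524626),Int.ofNat (nat_lit 51497096),Int.negSucc (nat_lit 246182694),Int.negSucc (nat_lit 58745961),Int.ofNat (nat_lit 59034157),Int.ofNat (nat_lit 1108590060)])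

/-- A row. -/
noncomputable def sr5_c1_3 : List ℕ × List ℤ :=
  ([(nat_lit 1),(nat_lit 0),(nat_lit 0),(nat_lit 0),(nat_lit 0),(nat_lit 1),(nat_lit 0),(nat_lit 0),(nat_lit 0),(nat_lit 0),(nat_lit 0),(nat_lit 0)], [Int.negSucc (nat_lit 440818046),Int.negSucc (nat_lit 1563683837),Int.ofNat (nat_lit 60045217),Int.negSucc (nat_lit 7202491198),Int.negSucc (nat_lit 921684004),Int.negSucc (nat_lit 469053218),Int.ofNat (nat_lit 98949493),Int.ofNat (nat_lit 594229660),Int.negSucc (nat_lit 1545199),Int.negSucc (nat_lit 644744376),Int.ofNat (nat_lit 1901240275),Int.negSucc (nat_lit 387139864),Int.ofNat (nat_lit 185478490),Int.negSucc (nat_lit 229046440),Int.ofNat (nat_lit 598057575),Int.ofNat (nat_lit 163708810),Int.ofNat (nat_lit 404659675),Int.negSucc (nat_lit 1417516004),Int.ofNat (nat_lit 159219140),Int.negSucc (nat_lit 62739209),Int.negSucc (nat_lit 221789488),Int.negSucc (nat_lit 317284338),Int.ofNat (nat_lit 337153929),Int.negSucc (nat_lit 1840439647),Int.negSucc (nat_lit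 223516619),Int.ofNat (nat_lit 185746003),Int.ofNat (nat_lit 150348414),Int.negSucc (nat_lit 446242626),Int.ofNat (nat_lit 1581808),Int.ofNat (nat_lit 194385519),Int.negSucc (nat_lit 87545686),Int.negSucc (nat_lit 706273657),Int.negSucc (nat_lit 43892693),Int.ofNat (nat_lit 2293826837)])

/-- A row. -/
noncomputable def sr5_c1_4 : List ℕ × List ℤ :=
  ([(nat_lit 1),(nat_lit 0),(nat_lit 0),(nat_lit 1),(nat_lit 0),(nat_lit 0),(nat_lit 0),(nat_lit 0),(nat_lit 0),(nat_lit 0),(nat_lit 0),(nat_lit 0)], [Int.ofNat (nat_lit 2926039395),Int.negSucc (nat_lit 3400237900),Int.ofNat (nat_lit 588551807),Int.ofNat (nat_lit 2354979089),Int.ofNat (nat_lit 2063813471),Int.negSucc (nat_lit 10792204435),Int.ofNat (nat_lit 1263272027),Int.negSucc (nat_lit 2381212556),Int.negSucc (nat_lit 1529650002),Int.negSucc (nat_lit 143689337),Int.negSucc (nat_lit 942545396),Int.ofNat (nat_lit 1876485595),Int.negSucc (nat_lit 312516376),Int.ofNat (nat_lit 505760392),Int.negSucc (nat_lit 1176627807),Int.negSucc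 (nat_lit 125963181),Int.negSucc (nat_lit 270093101),Int.ofNat (nat_lit 906963587),Int.ofNat (nat_lit 120652454),Int.ofNat (nat_lit 524146581),Int.negSucc (nat_lit 605264579),Int.ofNat (nat_lit 64304789),Int.negSucc (nat_lit 452548292),Int.ofNat (nat_lit 840045516),Int.negSucc (nat_lit 248334407),Int.negSucc (nat_lit 179211141),Int.ofNat (nat_lit 1174650),Int.ofNat (nat_lit 223971613),Int.negSucc (nat_lit 328082990),Int.ofNat (nat_lit 226007773),Int.ofNat (nat_lit 228384575),Int.ofNat (nat_lit 994802230),Int.negSucc (nat_lit 1287550224),Int.negSucc (nat_lit 617230395),Int.ofNat (nat_lit 3517732434)])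

/-- A row. -/
noncomputable def sr5_c1_5 : List ℕ × List ℤ :=
  ([(nat_lit 1),(nat_lit 0),(nat_lit 0),(nat_lit 1),(nat_lit 1),(nat_lit 0),(nat_lit 0),(nat_lit 0),(nat_lit 0),(nat_lit 0),(nat_lit 0),(nat_lit 0)], [Int.ofNat (nat_lit 417190931),Int.negSucc (nat_lit 21216246),Int.ofNat (nat_lit 1756706390),Int.ofNat (nat_lit 1648796951),Int.negSucc (nat_lit 1785949517),Int.ofNat (nat_lit 3083612202),Int.ofNat (nat_lit 518671806),Int.negSucc (nat_lit 3099756330),Int.ofNat (nat_lit 548652266),Int.negSucc (nat_lit 85833716),Int.negSucc (nat_lit 3428184),Int.negSucc (nat_lit 104108930),Int.negSucc (nat_lit 35862106),Int.ofNat (nat_lit 48588636),Int.ofNat (nat_lit 196063053),Int.negSucc (nat_lit 25692020),Int.ofNat (nat_lit 57603073),Int.negSucc (nat_lit 89273038),Int.negSucc (nat_lit 33253921),Int.ofNat (nat_lit 21164752),Int.negSucc (nat_lit 63062648),Int.negSucc (nat_lit 10043024),Int.ofNat (nat_lit 89728194),Int.ofNat (nat_lit 23868338),Int.ofNat (nat_lit 9468177),Int.ofNat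 (nat_lit 212514104),Int.ofNat (nat_lit 57023008),Int.negSucc (nat_lit 185294999),Int.negSucc (nat_lit 4251051),Int.ofNat (nat_lit 114299458),Int.negSucc (nat_lit 32509123),Int.ofNat (nat_lit 139667778),Int.negSucc (nat_lit 222913084),Int.ofNat (nat_lit 51259225),Int.negSucc (nat_lit 282423285),Int.ofNat (nat_lit 995901755)])

/-- A row. -/
noncomputable def sr5_c1_6 : List ℕ × List ℤ :=
  ([(nat_lit 1),(nat_lit 0),(nat_lit 1),(nat_lit 0),(nat_lit 0),(nat_lit 1),(nat_lit 0),(nat_lit 0),(nat_lit 0),(nat_lit 0),(nat_lit 0),(nat_lit 0)], [Int.negSucc (nat_lit 578144324),Int.ofNat (nat_lit 38068178),Int.negSucc (nat_lit 149236080),Int.negSucc (nat_lit 2627537504),Int.negSucc (nat_lit 340702454),Int.negSucc (nat_lit 1168322761),Int.negSucc (nat_lit 117191494),Int.ofNat (nat_lit 310702720),Int.negSucc (nat_lit 330466950),Int.negSucc (nat_lit 301801168),Int.negSucc (nat_lit 2354214022),Int.ofNat (nat_lit 136830626),Int.ofNat (nat_lit 121962022),Int.ofNat (nat_lit 35465415),Int.negSucc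 (nat_lit 81657549),Int.ofNat (nat_lit 36325802),Int.ofNat (nat_lit 65886321),Int.negSucc (nat_lit 35441403),Int.negSucc (nat_lit 149479395),Int.ofNat (nat_lit 160388846),Int.negSucc (nat_lit 8323209),Int.ofNat (nat_lit 8182205),Int.ofNat (nat_lit 22695355),Int.negSucc (nat_lit 224277872),Int.negSucc (nat_lit 44791939),Int.negSucc (nat_lit 172590673),Int.ofNat (nat_lit 74325334),Int.negSucc (nat_lit 87500777),Int.negSucc (nat_lit 23831799),Int.ofNat (nat_lit 59405265),Int.ofNat (nat_lit 39332048),Int.negSucc (nat_lit 75971065),Int.ofNat (nat_lit 117570607),Int.ofNat (nat_lit 130240385),Int.ofNat (nat_lit 103174413),Int.negSucc (nat_lit 627410596),Int.ofNat (nat_lit 748939334)])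

/-- A row. -/
noncomputable def sr5_c1_7 : List ℕ × List ℤ :=
  ([(nat_lit 1),(nat_lit 0),(nat_lit 1),(nat_lit 1),(nat_lit 0),(nat_lit 0),(nat_lit 0),(nat_lit 0),(nat_lit 0),(nat_lit 0),(nat_lit 0),(nat_lit 0)], [Int.ofNat (nat_lit 5156122954),Int.negSucc (nat_lit 1680858840),Int.ofNat (nat_lit 1121867354),Int.ofNat (nat_lit 187381120),Int.ofNat (nat_lit 904569661),Int.negSucc (nat_lit 6999812953),Int.ofNat (nat_lit 4017247538),Int.negSucc (nat_lit 3688562340),Int.negSucc (nat_lit 2843749494),Int.ofNat (nat_lit 1152483371),Int.ofNat (nat_lit 5196713),Int.negSucc (nat_lit 2755464800),Int.ofNat (nat_lit 3391210616),Int.ofNat (nat_lit 139305138),Int.negSucc (nat_lit 376269391),Int.negSucc (nat_lit 153131138),Int.negSucc (nat_lit 215686531),Int.ofNat (nat_lit 635814689),Int.ofNat (nat_lit 473474715),Int.ofNat (nat_lit 149508125),Int.negSucc (nat_lit 555701945),Int.ofNat (nat_lit 34879113),Int.negSucc (nat_lit 933273029),Int.ofNat (nat_lit 314445960),Int.negSucc (nat_lit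 338671162),Int.negSucc (nat_lit 593079173),Int.negSucc (nat_lit 45760809),Int.ofNat (nat_lit 224047279),Int.negSucc (nat_lit 143734970),Int.negSucc (nat_lit 149690194),Int.ofNat (nat_lit 125580836),Int.ofNat (nat_lit 904102082),Int.negSucc (nat_lit 239174842),Int.negSucc (nat_lit 87941036),Int.ofNat (nat_lit 1656122507),Int.negSucc (nat_lit 396332034),Int.negSucc (nat_lit 297717123),Int.ofNat (nat_lit 1859212351)])

/-- A row. -/
noncomputable def sr5_c1_8 : List ℕ × List ℤ :=
  ([(nat_lit 1),(nat_lit 1),(nat_lit 0),(nat_lit 0),(nat_lit 0),(nat_lit 0),(nat_lit 0),(nat_lit 0),(nat_lit 0),(nat_lit 0),(nat_lit 0),(nat_lit 0)], [Int.negSucc (nat_lit 4682907910),Int.negSucc (nat_lit 199286391),Int.ofNat (nat_lit 2002197323),Int.negSucc (nat_lit 2502072768),Int.ofNat (nat_lit 2341653218),Int.ofNat (nat_lit 852476312),Int.negSucc (nat_lit 464859909),Int.ofNat (nat_lit 765218045),Int.negSucc (nat_lit 859234438),Int.ofNat (nat_lit 279739767),Int.ofNat (nat_lit 1288568126),Int.negSucc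 (nat_lit 2096319833),Int.negSucc (nat_lit 1111886569),Int.negSucc (nat_lit 16660553937),Int.ofNat (nat_lit 251201868),Int.ofNat (nat_lit 3268124939),Int.negSucc (nat_lit 1412314133),Int.negSucc (nat_lit 2022775069),Int.negSucc (nat_lit 1573033146),Int.ofNat (nat_lit 2878623313),Int.negSucc (nat_lit 1024297082),Int.ofNat (nat_lit 1436034657),Int.negSucc (nat_lit 921445310),Int.negSucc (nat_lit 257261056),Int.ofNat (nat_lit 1540978445),Int.negSucc (nat_lit 1015694039),Int.negSucc (nat_lit 4399892235),Int.ofNat (nat_lit 1356365200),Int.negSucc (nat_lit 1439593821),Int.ofNat (nat_lit 155332800),Int.ofNat (nat_lit 213426347),Int.ofNat (nat_lit 464014288),Int.ofNat (nat_lit 1090873757),Int.ofNat (nat_lit 368650766),Int.negSucc (nat_lit 495697576),Int.negSucc (nat_lit 925115942),Int.negSucc (nat_lit 1937773551),Int.ofNat (nat_lit 929303942),Int.ofNat (nat_lit 9511703193)])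

/-- A row. -/
noncomputable def sr5_c1_9 : List ℕ × List ℤ :=
  ([(nat_lit 1),(nat_lit 1),(nat_lit 0),(nat_lit 0),(nat_lit 0),(nat_lit 0),(nat_lit 1),(nat_lit 0),(nat_lit 0),(nat_lit 0),(nat_lit 0),(nat_lit 0)], [Int.ofNat (nat_lit 1922545686),Int.negSucc (nat_lit 2569209226),Int.negSucc (nat_lit 13937814),Int.negSucc (nat_lit 1095090829),Int.ofNat (nat_lit 947114787),Int.negSucc (nat_lit 1547261061),Int.negSucc (nat_lit 175013433),Int.ofNat (nat_lit 132148720),Int.negSucc (nat_lit 175627380),Int.ofNat (nat_lit 809581682),Int.negSucc (nat_lit 760675413),Int.negSucc (nat_lit 456185945),Int.negSucc (nat_lit 519939571),Int.negSucc (nat_lit 760333527),Int.ofNat (nat_lit 520997280),Int.negSucc (nat_lit 3661891553),Int.ofNat (nat_lit 164564613),Int.ofNat (nat_lit 187998584),Int.ofNat (nat_lit 52155717),Int.ofNat (nat_lit 156117452),Int.ofNat (nat_lit 51611946),Int.ofNat (nat_lit 42629358),Int.negSucc (nat_lit 392032505),Int.negSucc (nat_lit 186864349),Int.ofNat (nat_lit 256610346),Int.ofNat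 (nat_lit 107624520),Int.negSucc (nat_lit 47669325),Int.ofNat (nat_lit 122327529),Int.negSucc (nat_lit 64275251),Int.negSucc (nat_lit 112165191),Int.ofNat (nat_lit 54411711),Int.ofNat (nat_lit 498688025),Int.ofNat (nat_lit 160195110),Int.negSucc (nat_lit 42892978),Int.ofNat (nat_lit 40527383),Int.negSucc (nat_lit 31489089),Int.ofNat (nat_lit 110531151),Int.ofNat (nat_lit 98007027),Int.ofNat (nat_lit 79889409),Int.ofNat (nat_lit 986514299)])

/-- A row. -/
noncomputable def sr5_c1_10 : List ℕ × List ℤ :=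
  ([(nat_lit 1),(nat_lit 1),(nat_lit 0),(nat_lit 0),(nat_lit 1),(nat_lit 0),(nat_lit 0),(nat_lit 0),(nat_lit 0),(nat_lit 0),(nat_lit 0),(nat_lit 0)], [Int.ofNat (nat_lit 342514721),Int.ofNat (nat_lit 2553247948),Int.ofNat (nat_lit 1270944),Int.ofNat (nat_lit 1549490623),Int.negSucc (nat_lit 1944060055),Int.ofNat (nat_lit 2899923357),Int.ofNat (nat_lit 2426333837),Int.ofNat (nat_lit 1640133340),Int.ofNat (nat_lit 2593490714),Int.negSucc (nat_lit 2115529023),Int.negSucc (nat_lit 332739460),Int.negSucc (nat_lit 159286476),Int.ofNat (nat_lit 1005008764),Int.ofNat (nat_lit 8530741215),Int.ofNat (nat_lit 2340202021),Int.negSucc (nat_lit 2241567507),Int.negSucc (nat_lit 12022404470),Int.ofNat (nat_lit 712290936),Int.negSucc (nat_lit 3995336),Int.negSucc (nat_lit 2512696113),Int.ofNat (nat_lit 4053851728),Int.negSucc (nat_lit 50316498),Int.ofNat (nat_lit 1553600490),Int.ofNat (nat_lit 226950741),Int.negSucc (nat_lit 1874815515),Int.ofNat (nat_lit 876064214),Int.ofNat (nat_lit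 1889062684),Int.negSucc (nat_lit 4115038060),Int.ofNat (nat_lit 436199949),Int.ofNat (nat_lit 435248186),Int.negSucc (nat_lit 485402526),Int.negSucc (nat_lit 1854831507),Int.ofNat (nat_lit 211235376),Int.ofNat (nat_lit 718382828),Int.negSucc (nat_lit 1176475260),Int.ofNat (nat_lit 33302519),Int.negSucc (nat_lit 20672791),Int.ofNat (nat_lit 178413845),Int.negSucc (nat_lit 1716729324),Int.negSucc (nat_lit 2075071661),Int.ofNat (nat_lit 3927227740)])

/-- A row. -/
noncomputable def sr5_c1_11 : List ℕ × List ℤ :=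
  ([(nat_lit 1),(nat_lit 1),(nat_lit 0),(nat_lit 2),(nat_lit 0),(nat_lit 0),(nat_lit 0),(nat_lit 0),(nat_lit 0),(nat_lit 0),(nat_lit 0),(nat_lit 0)], [Int.ofNat (nat_lit 4459765600),Int.ofNat (nat_lit 2607726254),Int.ofNat (nat_lit 349434237),Int.negSucc (nat_lit 1284527663),Int.negSucc (nat_lit 2005068605),Int.ofNat (nat_lit 398836767),Int.negSucc (nat_lit 788735974),Int.ofNat (nat_lit 1473637863),Int.negSucc (nat_lit 2034197334),Int.negSucc (nat_lit 2231576321),Int.negSucc (nat_lit 523154338),Int.ofNat (nat_lit 918314543),Int.ofNat (nat_lit 1901074118),Int.ofNat (nat_lit 1599601023),Int.ofNat (nat_lit 1254067776),Int.ofNat (nat_lit 1587523287),Int.negSucc (nat_lit 294355357),Int.negSucc (nat_lit 1986331842),Int.negSucc (nat_lit 9333076404),Int.negSucc (nat_lit 811715842),Int.ofNat (nat_lit 458383927),Int.negSucc (nat_lit 155578533),Int.ofNat (nat_lit 1549935260),Int.negSucc (nat_lit 83843785),Int.negSucc (nat_lit 925688442),Int.ofNat (nat_lit 26001690),Int.ofNat (nat_lit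 632468765),Int.negSucc (nat_lit 1724888481),Int.ofNat (nat_lit 189309317),Int.ofNat (nat_lit 560843120),Int.negSucc (nat_lit 66443546),Int.negSucc (nat_lit 1311409373),Int.negSucc (nat_lit 449034384),Int.ofNat (nat_lit 309866069),Int.negSucc (nat_lit 917098113),Int.negSucc (nat_lit 297543273),Int.ofNat (nat_lit 976841365),Int.negSucc (nat_lit 606200649),Int.negSucc (nat_lit 658579125),Int.negSucc (nat_lit 1918515882),Int.ofNat (nat_lit 851551007),Int.ofNat (nat_lit 2960038754)])

/-- A row. -/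
noncomputable def sr5_c1_12 : List ℕ × List ℤ :=
  ([(nat_lit 1),(nat_lit 1),(nat_lit 1),(nat_lit 0),(nat_lit 0),(nat_lit 0),(nat_lit 0),(nat_lit 0),(nat_lit 0),(nat_lit 0),(nat_lit 0),(nat_lit 0)], [Int.negSucc (nat_lit 9025808989),Int.ofNat (nat_lit 7040937799),Int.negSucc (nat_lit 2966811940),Int.ofNat (nat_lit 2558835870),Int.ofNat (nat_lit 2539054498),Int.negSucc (nat_lit 4585336087),Int.negSucc (nat_lit 1594518980),Int.ofNat (nat_lit 1633077513),Int.negSucc (nat_lit 892918141),Int.ofNat (nat_lit 463656332),Int.negSucc (nat_lit 2021042112),Int.negSucc (nat_lit 160568668),Int.negSucc (nat_lit 4033520584),Int.negSucc (nat_lit 16420126827),Int.negSucc (nat_lit 2724441990),Int.ofNat (nat_lit 5815914945),Int.negSucc (nat_lit 11403282693),Int.negSucc (nat_lit 624626248),Int.negSucc (nat_lit 3456804167),Int.negSucc (nat_lit 7069314893),Int.negSucc (nat_lit 2038692728),Int.ofNat (nat_lit 4523209472),Int.negSucc (nat_lit 345061915),Int.ofNat (nat_lit 227120990),Int.ofNat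 (nat_lit 2730021133),Int.negSucc (nat_lit 2431044142),Int.negSucc (nat_lit 3709995543),Int.ofNat (nat_lit 236833546),Int.negSucc (nat_lit 3503380202),Int.ofNat (nat_lit 1274278592),Int.ofNat (nat_lit 927040386),Int.negSucc (nat_lit 229897379),Int.negSucc (nat_lit 852432221),Int.negSucc (nat_lit 717618198),Int.ofNat (nat_lit 3023743796),Int.negSucc (nat_lit 1272991821),Int.negSucc (nat_lit 1609368889),Int.negSucc (nat_lit 1894480749),Int.ofNat (nat_lit 8944247824),Int.negSucc (nat_lit 1350399948),Int.ofNat (nat_lit 60099302),Int.ofNat (nat_lit 1167661304),Int.ofNat (nat_lit 5815996545)])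

/-- A row. -/
noncomputable def sr5_c1_13 : List ℕ × List ℤ :=
  ([(nat_lit 1),(nat_lit 1),(nat_lit 2),(nat_lit 0),(nat_lit 0),(nat_lit 0),(nat_lit 0),(nat_lit 0),(nat_lit 0),(nat_lit 0),(nat_lit 0),(nat_lit 0)], [Int.negSucc (nat_lit 1127655686),Int.ofNat (nat_lit 2074373880),Int.negSucc (nat_lit 2383704033),Int.negSucc (nat_lit 24588539),Int.ofNat (nat_lit 1101247909),Int.negSucc (nat_lit 2274846720),Int.ofNat (nat_lit 1599209851),Int.negSucc (nat_lit 567201530),Int.negSucc (nat_lit 1279404416),Int.ofNat (nat_lit 1517124512),Int.negSucc (nat_lit 539861240),Int.negSucc (nat_lit 2039399229),Int.negSucc (nat_lit 922460087),Int.negSucc (nat_lit 3387078736),Int.negSucc (nat_lit 333207052),Int.ofNat (nat_lit 1006866184),Int.negSucc (nat_lit 4074297512),Int.negSucc (nat_lit 91945094),Int.negSucc (nat_lit 1279522740),Int.negSucc (nat_lit 6374637683),Int.negSucc (nat_lit 2166496079),Int.negSucc (nat_lit 2313509646),Int.ofNat (nat_lit 662081847),Int.ofNat (nat_lit 9743594),Int.negSucc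 (nat_lit 364538502),Int.negSucc (nat_lit 138024994),Int.ofNat (nat_lit 556296727),Int.negSucc (nat_lit 1048724420),Int.negSucc (nat_lit 46814243),Int.ofNat (nat_lit 277288954),Int.negSucc (nat_lit 93712839),Int.negSucc (nat_lit 879356515),Int.ofNat (nat_lit 295603224),Int.negSucc (nat_lit 160784928),Int.ofNat (nat_lit 180651246),Int.negSucc (nat_lit 765792276),Int.negSucc (nat_lit 183824139),Int.negSucc (nat_lit 192867031),Int.negSucc (nat_lit 526066616),Int.negSucc (nat_lit 1161868037),Int.ofNat (nat_lit 929094088),Int.ofNat (nat_lit 875926052),Int.ofNat (nat_lit 1290604562),Int.ofNat (nat_lit 2058392984)])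

/-- A row. -/
noncomputable def sr5_c1_14 : List ℕ × List ℤ :=
  ([(nat_lit 1),(nat_lit 2),(nat_lit 0),(nat_lit 0),(nat_lit 0),(nat_lit 1),(nat_lit 0),(nat_lit 0),(nat_lit 0),(nat_lit 0),(nat_lit 0),(nat_lit 0)], [Int.ofNat (nat_lit 538179006),Int.negSucc (nat_lit 4738458344),Int.ofNat (nat_lit 156794019),Int.ofNat (nat_lit 1992687867),Int.ofNat (nat_lit 4683435925),Int.negSucc (nat_lit 6232355264),Int.ofNat (nat_lit 2450934548),Int.negSucc (nat_lit 26601424),Int.negSucc (nat_lit 3968577346),Int.negSucc (nat_lit 58348093),Int.negSucc (nat_lit 6639571097),Int.negSucc (nat_lit 2137119999),Int.negSucc (nat_lit 446440545),Int.negSucc (nat_lit 1723899526),Int.negSucc (nat_lit 3935255767),Int.negSucc (nat_lit 1420639639),Int.ofNat (nat_lit 1739871859),Int.negSucc (nat_lit 6906852349),Int.ofNat (nat_lit 2751149221),Int.ofNat (nat_lit 2193752112),Int.negSucc (nat_lit 258635049),Int.ofNat (nat_lit 650379266),Int.negSucc (nat_lit 1657162975),Int.negSucc (nat_lit 16606733575),Int.ofNat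 (nat_lit 938355170),Int.ofNat (nat_lit 174394575),Int.ofNat (nat_lit 254264510),Int.ofNat (nat_lit 277269402),Int.negSucc (nat_lit 3175011),Int.negSucc (nat_lit 758106479),Int.ofNat (nat_lit 46171886),Int.ofNat (nat_lit 1457334073),Int.ofNat (nat_lit 581796063),Int.negSucc (nat_lit 652947712),Int.ofNat (nat_lit 972473815),Int.negSucc (nat_lit 206356689),Int.negSucc (nat_lit 252040580),Int.ofNat (nat_lit 1061304917),Int.ofNat (nat_lit 789270725),Int.ofNat (nat_lit 1870882407),Int.negSucc (nat_lit 775492554),Int.negSucc (nat_lit 824230874),Int.ofNat (nat_lit 185321482),Int.ofNat (nat_lit 955567819),Int.ofNat (nat_lit 3978994785)])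

/-- A row. -/
noncomputable def sr5_c1_15 : List ℕ × List ℤ :=
  ([(nat_lit 1),(nat_lit 2),(nat_lit 0),(nat_lit 1),(nat_lit 0),(nat_lit 0),(nat_lit 0),(nat_lit 0),(nat_lit 0),(nat_lit 0),(nat_lit 0),(nat_lit 0)], [Int.negSucc (nat_lit 1271405402),Int.ofNat (nat_lit 3603739243),Int.negSucc (nat_lit 7426385458),Int.ofNat (nat_lit 6320201228),Int.negSucc (nat_lit 857916552),Int.ofNat (nat_lit 22426865889),Int.ofNat (nat_lit 3897379352),Int.ofNat (nat_lit 6516752575),Int.ofNat (nat_lit 9189549566),Int.negSucc (nat_lit 664619017),Int.ofNat (nat_lit 4349422700),Int.negSucc (nat_lit 12609565325),Int.ofNat (nat_lit 8225654957),Int.ofNat (nat_lit 3567670824),Int.ofNat (nat_lit 1229083430),Int.negSucc (nat_lit 407839789),Int.negSucc (nat_lit 1138316787),Int.ofNat (nat_lit 3164315216),Int.ofNat (nat_lit 5914597483),Int.ofNat (nat_lit 290393529),Int.ofNat (nat_lit 1988045454),Int.ofNat (nat_lit 2327570452),Int.ofNat (nat_lit 1195573798),Int.ofNat (nat_lit 929276109),Int.negSucc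 (nat_lit 29019475791),Int.ofNat (nat_lit 11857225990),Int.negSucc (nat_lit 1355602068),Int.ofNat (nat_lit 2360836965),Int.ofNat (nat_lit 271256238),Int.negSucc (nat_lit 12684072480),Int.ofNat (nat_lit 1770656341),Int.ofNat (nat_lit 25164638),Int.ofNat (nat_lit 7017143099),Int.negSucc (nat_lit 4267023934),Int.negSucc (nat_lit 1597780203),Int.ofNat (nat_lit 10425102),Int.negSucc (nat_lit 1462707493),Int.ofNat (nat_lit 1631397921),Int.negSucc (nat_lit 3545242626),Int.ofNat (nat_lit 5444688131),Int.negSucc (nat_lit 2105789204),Int.negSucc (nat_lit 6890347533),Int.negSucc (nat_lit 1099752156),Int.negSucc (nat_lit 4042625118),Int.negSucc (nat_lit 741791016),Int.ofNat (nat_lit 13892745346)])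

/-- A row. -/
noncomputable def sr5_c1_16 : List ℕ × List ℤ :=
  ([(nat_lit 1),(nat_lit 3),(nat_lit 0),(nat_lit 0),(nat_lit 0),(nat_lit 0),(nat_lit 0),(nat_lit 0),(nat_lit 0),(nat_lit 0),(nat_lit 0),(nat_lit 0)], [Int.ofNat (nat_lit 60736691),Int.ofNat (nat_lit 7387311471),Int.ofNat (nat_lit 2601350743),Int.negSucc (nat_lit 1838568277),Int.negSucc (nat_lit 233252699),Int.negSucc (nat_lit 2221117445),Int.negSucc (nat_lit 5079842120),Int.negSucc (nat_lit 1131901943),Int.negSucc (nat_lit 2967022314),Int.negSucc (nat_lit 2828964611),Int.negSucc (nat_lit 6706413120),Int.ofNat (nat_lit 10575260728),Int.negSucc (nat_lit 4292855107),Int.ofNat (nat_lit 21469845235),Int.ofNat (nat_lit 238435590),Int.negSucc (nat_lit 5078752082),Int.ofNat (nat_lit 18335381763),Int.negSucc (nat_lit 10420406114),Int.ofNat (nat_lit 4534597557),Int.negSucc (nat_lit 22306982056),Int.negSucc (nat_lit 7572620251),Int.ofNat (nat_lit 9569827029),Int.negSucc (nat_lit 1790200125),Int.ofNat (nat_lit 984812042),Int.ofNat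 (nat_lit 10713562517),Int.negSucc (nat_lit 13808672848),Int.negSucc (nat_lit 25951552147),Int.negSucc (nat_lit 14693231126),Int.ofNat (nat_lit 4879296820),Int.ofNat (nat_lit 6904254802),Int.negSucc (nat_lit 3182230946),Int.ofNat (nat_lit 2417137581),Int.negSucc (nat_lit 11351112096),Int.ofNat (nat_lit 5013956560),Int.ofNat (nat_lit 950440137),Int.ofNat (nat_lit 1822875338),Int.ofNat (nat_lit 1522239026),Int.negSucc (nat_lit 4120248226),Int.negSucc (nat_lit 9838032521),Int.negSucc (nat_lit 816003470),Int.negSucc (nat_lit 4780528228),Int.ofNat (nat_lit 8870994815),Int.ofNat (nat_lit 12201401889),Int.negSucc (nat_lit 1892114352),Int.ofNat (nat_lit 2753104630),Int.negSucc (nat_lit 12180441861),Int.ofNat (nat_lit 19871378774)])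

/-- A row. -/
noncomputable def sr5_c1_17 : List ℕ × List ℤ :=
  ([(nat_lit 1),(nat_lit 3),(nat_lit 1),(nat_lit 0),(nat_lit 0),(nat_lit 0),(nat_lit 0),(nat_lit 0),(nat_lit 0),(nat_lit 0),(nat_lit 0),(nat_lit 0)], [Int.ofNat (nat_lit 5565521477),Int.ofNat (nat_lit 13167854569),Int.negSucc (nat_lit 1236583362),Int.ofNat (nat_lit 138762112),Int.negSucc (nat_lit 4938798934),Int.ofNat (nat_lit 10530993528),Int.negSucc (nat_lit 3636244613),Int.ofNat (nat_lit 2032908160),Int.ofNat (nat_lit 825245910),Int.ofNat (nat_lit 1716590158),Int.negSucc (nat_lit 1665420448),Int.ofNat (nat_lit 2514271690),Int.ofNat (nat_lit 3908074987),Int.ofNat (nat_lit 16058952668),Int.ofNat (nat_lit 2418505868),Int.negSucc (nat_lit 2352169862),Int.ofNat (nat_lit 11446934077),Int.ofNat (nat_lit 1160692382),Int.negSucc (nat_lit 666932268),Int.negSucc (nat_lit 4309033689),Int.negSucc (nat_lit 1790773475),Int.negSucc (nat_lit 10508703767),Int.ofNat (nat_lit 3391901504),Int.ofNat (nat_lit 4791214592),Int.negSucc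 (nat_lit 4881437751),Int.negSucc (nat_lit 12492911754),Int.negSucc (nat_lit 15737193927),Int.negSucc (nat_lit 12433427288),Int.negSucc (nat_lit 14648192663),Int.negSucc (nat_lit 2163476889),Int.negSucc (nat_lit 374559294),Int.ofNat (nat_lit 4276599156),Int.negSucc (nat_lit 2150184697),Int.negSucc (nat_lit 498191869),Int.negSucc (nat_lit 1630195336),Int.negSucc (nat_lit 737553142),Int.ofNat (nat_lit 1819506084),Int.negSucc (nat_lit 1195840955),Int.negSucc (nat_lit 1406392915),Int.ofNat (nat_lit 479982422),Int.negSucc (nat_lit 250118452),Int.ofNat (nat_lit 2135895565),Int.negSucc (nat_lit 2247148966),Int.ofNat (nat_lit 33205706),Int.ofNat (nat_lit 1367540442),Int.ofNat (nat_lit 1945969748),Int.ofNat (nat_lit 9314548600),Int.ofNat (nat_lit 12829522200)])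

/-- A row. -/
noncomputable def sr5_c1_18 : List ℕ × List ℤ :=
  ([(nat_lit 1),(nat_lit 5),(nat_lit 0),(nat_lit 0),(nat_lit 0),(nat_lit 0),(nat_lit 0),(nat_lit 0),(nat_lit 0),(nat_lit 0),(nat_lit 0),(nat_lit 0)], [Int.ofNat (nat_lit 490870472),Int.ofNat (nat_lit 6686124011),Int.negSucc (nat_lit 7489990056),Int.negSucc (nat_lit 662466267),Int.negSucc (nat_lit 5322824099),Int.negSucc (nat_lit 6476928384),Int.ofNat (nat_lit 4286357964),Int.negSucc (nat_lit 975665838),Int.ofNat (nat_lit 2241983591),Int.ofNat (nat_lit 11779302327),Int.ofNat (nat_lit 1527224264),Int.negSucc (nat_lit 3338841377),Int.negSucc (nat_lit 1612368259),Int.negSucc (nat_lit 7385033017),Int.negSucc (nat_lit 272818855),Int.ofNat (nat_lit 1140472764),Int.negSucc (nat_lit 11585335878),Int.ofNat (nat_lit 13424478431),Int.ofNat (nat_lit 1212433344),Int.ofNat (nat_lit 20348427546),Int.ofNat (nat_lit 5427699777),Int.negSucc (nat_lit 19808882631),Int.negSucc (nat_lit 1842833969),Int.ofNat (nat_lit 1885466777),Int.ofNat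 (nat_lit 8976846344),Int.negSucc (nat_lit 1797669295),Int.ofNat (nat_lit 23173828309),Int.ofNat (nat_lit 10469975825),Int.negSucc (nat_lit 27522645374),Int.negSucc (nat_lit 15995273078),Int.negSucc (nat_lit 21350845563),Int.ofNat (nat_lit 3668880743),Int.ofNat (nat_lit 2465849180),Int.negSucc (nat_lit 922116220),Int.ofNat (nat_lit 1191902272),Int.negSucc (nat_lit 2544329996),Int.ofNat (nat_lit 2856011698),Int.ofNat (nat_lit 391428754),Int.ofNat (nat_lit 4824864580),Int.ofNat (nat_lit 1048262466),Int.negSucc (nat_lit 173481613),Int.negSucc (nat_lit 9716511181),Int.negSucc (nat_lit 2496224315),Int.ofNat (nat_lit 791289912),Int.negSucc (nat_lit 1471077676),Int.ofNat (nat_lit 4135776777),Int.negSucc (nat_lit 9988220036),Int.ofNat (nat_lit 7768993516),Int.ofNat (nat_lit 22286202674)])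

/-- A row. -/
noncomputable def sr5_c1_19 : List ℕ × List ℤ :=
  ([(nat_lit 2),(nat_lit 0),(nat_lit 0),(nat_lit 0),(nat_lit 0),(nat_lit 0),(nat_lit 0),(nat_lit 1),(nat_lit 0),(nat_lit 0),(nat_lit 0),(nat_lit 0)], [Int.negSucc (nat_lit 17655315),Int.ofNat (nat_lit 474031439),Int.ofNat (nat_lit 3659946162),Int.ofNat (nat_lit 824157436),Int.negSucc (nat_lit 760082671),Int.ofNat (nat_lit 479124233),Int.negSucc (nat_lit 471864012),Int.ofNat (nat_lit 262676049),Int.ofNat (nat_lit 50006980),Int.negSucc (nat_lit 2817425544),Int.ofNat (nat_lit 252392932),Int.negSucc (nat_lit 3274455),Int.ofNat (nat_lit 861683112),Int.ofNat (nat_lit 89660257),Int.negSucc (nat_lit 698124983),Int.ofNat (nat_lit 332315547),Int.ofNat (nat_lit 26664532),Int.negSucc (nat_lit 201448182),Int.ofNat (nat_lit 60906971),Int.ofNat (nat_lit 110204576),Int.negSucc (nat_lit 326562505),Int.negSucc (nat_lit 179003762),Int.ofNat (nat_lit 634878331),Int.ofNat (nat_lit 238781496),Int.negSucc (nat_lit 35448313),Int.ofNat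 (nat_lit 315482801),Int.ofNat (nat_lit 109955995),Int.negSucc (nat_lit 293538548),Int.negSucc (nat_lit 63511171),Int.ofNat (nat_lit 455800206),Int.ofNat (nat_lit 97331865),Int.negSucc (nat_lit 499974812),Int.negSucc (nat_lit 1770122048),Int.ofNat (nat_lit 49874686),Int.ofNat (nat_lit 26755522),Int.negSucc (nat_lit 59706208),Int.ofNat (nat_lit 102885871),Int.ofNat (nat_lit 25930526),Int.negSucc (nat_lit 79523492),Int.negSucc (nat_lit 150137898),Int.negSucc (nat_lit 16845174),Int.ofNat (nat_lit 54813453),Int.negSucc (nat_lit 852661),Int.ofNat (nat_lit 2413327),Int.negSucc (nat_lit 283348),Int.negSucc (nat_lit 11821472),Int.negSucc (nat_lit 32497511),Int.ofNat (nat_lit 37304361),Int.ofNat (nat_lit 26506099),Int.ofNat (nat_lit 277333819)])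

/-- A row. -/
noncomputable def sr5_c1_20 : List ℕ × List ℤ :=
  ([(nat_lit 2),(nat_lit 0),(nat_lit 0),(nat_lit 0),(nat_lit 0),(nat_lit 1),(nat_lit 0),(nat_lit 0),(nat_lit 0),(nat_lit 0),(nat_lit 0),(nat_lit 0)], [Int.negSucc (nat_lit 275575730),Int.ofNat (nat_lit 2973749833),Int.ofNat (nat_lit 2347495759),Int.ofNat (nat_lit 8031009271),Int.ofNat (nat_lit 560458915),Int.ofNat (nat_lit 1273450778),Int.negSucc (nat_lit 925354438),Int.negSucc (nat_lit 1357222878),Int.negSucc (nat_lit 149160111),Int.ofNat (nat_lit 65513083),Int.negSucc (nat_lit 6002325625),Int.ofNat (nat_lit 1727635044),Int.ofNat (nat_lit 429736082),Int.ofNat (nat_lit 849759901),Int.negSucc (nat_lit 2603629309),Int.negSucc (nat_lit 266589550),Int.negSucc (nat_lit 1024114612),Int.ofNat (nat_lit 4533334316),Int.negSucc (nat_lit 506893668),Int.ofNat (nat_lit 676644025),Int.ofNat (nat_lit 196698779),Int.ofNat (nat_lit 984224634),Int.ofNat (nat_lit 218998211),Int.ofNat (nat_lit 4701770410),Int.ofNat (nat_lit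 722201624),Int.negSucc (nat_lit 722627635),Int.negSucc (nat_lit 327554501),Int.ofNat (nat_lit 1045712956),Int.negSucc (nat_lit 285764563),Int.negSucc (nat_lit 99545755),Int.ofNat (nat_lit 492549170),Int.ofNat (nat_lit 2106369801),Int.negSucc (nat_lit 962842376),Int.negSucc (nat_lit 7084299711),Int.ofNat (nat_lit 57729511),Int.negSucc (nat_lit 1068133714),Int.ofNat (nat_lit 1436686451),Int.negSucc (nat_lit 236647676),Int.ofNat (nat_lit 264714341),Int.negSucc (nat_lit 168851381),Int.ofNat (nat_lit 147436855),Int.ofNat (nat_lit 401504772),Int.ofNat (nat_lit 199473590),Int.negSucc (nat_lit 363877231),Int.negSucc (nat_lit 734024584),Int.negSucc (nat_lit 33066595),Int.negSucc (nat_lit 31556688),Int.negSucc (nat_lit 13675113),Int.negSucc (nat_lit 99978256),Int.negSucc (nat_lit 169801632),Int.ofNat (nat_lit 1071997481)])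

/-- A row. -/
noncomputable def sr5_c1_21 : List ℕ × List ℤ :=
  ([(nat_lit 2),(nat_lit 0),(nat_lit 0),(nat_lit 1),(nat_lit 0),(nat_lit 0),(nat_lit 0),(nat_lit 0),(nat_lit 0),(nat_lit 0),(nat_lit 0),(nat_lit 0)], [Int.negSucc (nat_lit 1659240953),Int.ofNat (nat_lit 823241462),Int.negSucc (nat_lit 4685193886),Int.negSucc (nat_lit 2030009662),Int.negSucc (nat_lit 410264782),Int.ofNat (nat_lit 5637234266),Int.ofNat (nat_lit 141737764),Int.ofNat (nat_lit 5151902394),Int.ofNat (nat_lit 1125754651),Int.ofNat (nat_lit 2317865958),Int.ofNat (nat_lit 1992001169),Int.negSucc (nat_lit 6585339587),Int.ofNat (nat_lit 2176236449),Int.negSucc (nat_lit 1829270521),Int.ofNat (nat_lit 4310677676),Int.negSucc (nat_lit 613168410),Int.negSucc (nat_lit 31389958),Int.negSucc (nat_lit 2379288603),Int.ofNat (nat_lit 4816037),Int.negSucc (nat_lit 2100624128),Int.ofNat (nat_lit 1773320968),Int.negSucc (nat_lit 50444489),Int.negSucc (nat_lit 150129423),Int.negSucc (nat_lit 1276531124),Int.negSucc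 (nat_lit 319290996),Int.negSucc (nat_lit 903562322),Int.negSucc (nat_lit 396442868),Int.ofNat (nat_lit 706093126),Int.ofNat (nat_lit 1499670647),Int.negSucc (nat_lit 1571027770),Int.negSucc (nat_lit 896872748),Int.negSucc (nat_lit 1502921058),Int.ofNat (nat_lit 6179881452),Int.ofNat (nat_lit 670870518),Int.negSucc (nat_lit 13308380349),Int.negSucc (nat_lit 1230076703),Int.negSucc (nat_lit 1227915260),Int.ofNat (nat_lit 4176046915),Int.ofNat (nat_lit 272625971),Int.ofNat (nat_lit 900510542),Int.ofNat (nat_lit 148198136),Int.negSucc (nat_lit 223823089),Int.negSucc (nat_lit 238546137),Int.ofNat (nat_lit 427673007),Int.negSucc (nat_lit 473315159),Int.negSucc (nat_lit 1846921031),Int.ofNat (nat_lit 182116600),Int.negSucc (nat_lit 851252735),Int.ofNat (nat_lit 198937388),Int.negSucc (nat_lit 874448777),Int.ofNat (nat_lit 384271208),Int.ofNat (nat_lit 2963252183)])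

/-- A row. -/
noncomputable def sr5_c1_22 : List ℕ × List ℤ :=
  ([(nat_lit 2),(nat_lit 0),(nat_lit 1),(nat_lit 1),(nat_lit 0),(nat_lit 0),(nat_lit 0),(nat_lit 0),(nat_lit 0),(nat_lit 0),(nat_lit 0),(nat_lit 0)], [Int.negSucc (nat_lit 3402601307),Int.ofNat (nat_lit 490694166),Int.negSucc (nat_lit 1738817507),Int.negSucc (nat_lit 1349328228),Int.ofNat (nat_lit 1516281246),Int.ofNat (nat_lit 3709262024),Int.negSucc (nat_lit 1695712661),Int.ofNat (nat_lit 4571614491),Int.ofNat (nat_lit 719873204),Int.ofNat (nat_lit 888923115),Int.ofNat (nat_lit 874371378),Int.negSucc (nat_lit 86665875),Int.negSucc (nat_lit 6007735440),Int.negSucc (nat_lit 283319118),Int.ofNat (nat_lit 374845515),Int.ofNat (nat_lit 127083445),Int.ofNat (nat_lit 84232887),Int.negSucc (nat_lit 869815193),Int.negSucc (nat_lit 629961593),Int.negSucc (nat_lit 394608215),Int.ofNat (nat_lit 789253952),Int.negSucc (nat_lit 80937134),Int.ofNat (nat_lit 1189166067),Int.negSucc (nat_lit 205806506),Int.ofNat (nat_lit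 355628534),Int.ofNat (nat_lit 479911988),Int.negSucc (nat_lit 31990378),Int.ofNat (nat_lit 4157702),Int.ofNat (nat_lit 262648897),Int.ofNat (nat_lit 31779971),Int.negSucc (nat_lit 261038221),Int.negSucc (nat_lit 1137441095),Int.ofNat (nat_lit 524248527),Int.negSucc (nat_lit 38321108),Int.negSucc (nat_lit 2262138626),Int.ofNat (nat_lit 23961491),Int.negSucc (nat_lit 399860564),Int.negSucc (nat_lit 2789867992),Int.negSucc (nat_lit 36464114),Int.ofNat (nat_lit 18848330),Int.ofNat (nat_lit 87359118),Int.ofNat (nat_lit 60488869),Int.negSucc (nat_lit 62117100),Int.ofNat (nat_lit 79889898),Int.negSucc (nat_lit 119955796),Int.negSucc (nat_lit 243821733),Int.negSucc (nat_lit 112894238),Int.negSucc (nat_lit 189067724),Int.ofNat (nat_lit 51645771),Int.negSucc (nat_lit 50391535),Int.ofNat (nat_lit 27601322),Int.ofNat (nat_lit 156707237),Int.ofNat (nat_lit 558946617)])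

/-- A row. -/
noncomputable def sr5_c1_23 : List ℕ × List ℤ :=
  ([(nat_lit 2),(nat_lit 1),(nat_lit 0),(nat_lit 0),(nat_lit 0),(nat_lit 0),(nat_lit 0),(nat_lit 0),(nat_lit 0),(nat_lit 0),(nat_lit 0),(nat_lit 0)], [Int.negSucc (nat_lit 1098528275),Int.negSucc (nat_lit 7977772850),Int.negSucc (nat_lit 2530629395),Int.negSucc (nat_lit 3491539235),Int.negSucc (nat_lit 9815305085),Int.ofNat (nat_lit 1470866315),Int.negSucc (nat_lit 4893788908),Int.negSucc (nat_lit 211833915),Int.ofNat (nat_lit 2304188966),Int.negSucc (nat_lit 325727030),Int.negSucc (nat_lit 1020895586),Int.ofNat (nat_lit 261176571),Int.negSucc (nat_lit 2832994848),Int.ofNat (nat_lit 13812464239),Int.negSucc (nat_lit 3845771199),Int.negSucc (nat_lit 6210663072),Int.ofNat (nat_lit 3639021928),Int.ofNat (nat_lit 2527115304),Int.ofNat (nat_lit 3196560413),Int.negSucc (nat_lit 8442915932),Int.negSucc (nat_lit 3096550225),Int.negSucc (nat_lit 6317978581),Int.ofNat (nat_lit 4145018065),Int.negSucc (nat_lit 3077313470),Int.negSucc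 (nat_lit 3573923088),Int.ofNat (nat_lit 6328103730),Int.ofNat (nat_lit 12135425292),Int.negSucc (nat_lit 2077028350),Int.ofNat (nat_lit 6351759236),Int.negSucc (nat_lit 157582544),Int.negSucc (nat_lit 1005883101),Int.negSucc (nat_lit 5118021355),Int.negSucc (nat_lit 3835656198),Int.ofNat (nat_lit 2303328878),Int.ofNat (nat_lit 55303490),Int.ofNat (nat_lit 2133692525),Int.ofNat (nat_lit 8441201883),Int.negSucc (nat_lit 7634598635),Int.negSucc (nat_lit 33977523950),Int.ofNat (nat_lit 3998326175),Int.negSucc (nat_lit 5630273183),Int.negSucc (nat_lit 2847713487),Int.ofNat (nat_lit 3106148751),Int.negSucc (nat_lit 209182154),Int.negSucc (nat_lit 620913853),Int.ofNat (nat_lit 2191322375),Int.negSucc (nat_lit 3040066324),Int.negSucc (nat_lit 1272477665),Int.ofNat (nat_lit 1175374699),Int.ofNat (nat_lit 2086951351),Int.negSucc (nat_lit 2436853786),Int.negSucc (nat_lit 1442109627),Int.ofNat (nat_lit 841151682),Int.ofNat (nat_lit 6685314838)])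

/-- A row. -/
noncomputable def sr5_c1_24 : List ℕ × List ℤ :=
  ([(nat_lit 2),(nat_lit 1),(nat_lit 0),(nat_lit 0),(nat_lit 1),(nat_lit 0),(nat_lit 0),(nat_lit 0),(nat_lit 0),(nat_lit 0),(nat_lit 0),(nat_lit 0)], [Int.negSucc (nat_lit 129518527),Int.negSucc (nat_lit 1236650713),Int.negSucc (nat_lit 2625080145),Int.negSucc (nat_lit 3880254963),Int.ofNat (nat_lit 6015942647),Int.negSucc (nat_lit 5421569352),Int.negSucc (nat_lit 580994282),Int.ofNat (nat_lit 3243749907),Int.negSucc (nat_lit 2902483458),Int.ofNat (nat_lit 1618809998),Int.ofNat (nat_lit 741065910),Int.ofNat (nat_lit 104128851),Int.negSucc (nat_lit 1070861352),Int.negSucc (nat_lit 5967030919),Int.negSucc (nat_lit 2134601919),Int.ofNat (nat_lit 3913938456),Int.ofNat (nat_lit 8117517002),Int.negSucc (nat_lit 859497568),Int.negSucc (nat_lit 474969397),Int.ofNat (nat_lit 3256586916),Int.negSucc (nat_lit 6310688483),Int.negSucc (nat_lit 197061751),Int.negSucc (nat_lit 1878424682),Int.negSucc (nat_lit 42126634),Int.ofNat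 (nat_lit 2406818096),Int.negSucc (nat_lit 1762617521),Int.negSucc (nat_lit 2013966946),Int.ofNat (nat_lit 4718189502),Int.negSucc (nat_lit 624032938),Int.negSucc (nat_lit 468617680),Int.ofNat (nat_lit 647516974),Int.ofNat (nat_lit 2084409086),Int.negSucc (nat_lit 120804082),Int.negSucc (nat_lit 1132515557),Int.ofNat (nat_lit 2525217749),Int.negSucc (nat_lit 2811810392),Int.ofNat (nat_lit 247590614),Int.negSucc (nat_lit 484147571),Int.ofNat (nat_lit 2111194128),Int.ofNat (nat_lit 765033268),Int.negSucc (nat_lit 5603741489),Int.ofNat (nat_lit 818554890),Int.ofNat (nat_lit 228816072),Int.ofNat (nat_lit 514247566),Int.ofNat (nat_lit 23368304),Int.negSucc (nat_lit 232112318),Int.negSucc (nat_lit 4408090),Int.ofNat (nat_lit 205186615),Int.ofNat (nat_lit 189604433),Int.ofNat (nat_lit 296594219),Int.negSucc (nat_lit 52020152),Int.negSucc (nat_lit 222034057),Int.ofNat (nat_lit 148808968),Int.negSucc (nat_lit 150380578),Int.ofNat (nat_lit 930592660)])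

/-- A row. -/
noncomputable def sr5_c1_25 : List ℕ × List ℤ :=
  ([(nat_lit 2),(nat_lit 1),(nat_lit 1),(nat_lit 0),(nat_lit 0),(nat_lit 0),(nat_lit 0),(nat_lit 0),(nat_lit 0),(nat_lit 0),(nat_lit 0),(nat_lit 0)], [Int.negSucc (nat_lit 3690329705),Int.negSucc (nat_lit 18449926490),Int.negSucc (nat_lit 3246232574),Int.negSucc (nat_lit 2285823501),Int.negSucc (nat_lit 7086386001),Int.ofNat (nat_lit 2662305379),Int.negSucc (nat_lit 2282148141),Int.ofNat (nat_lit 40759735),Int.ofNat (nat_lit 4265545919),Int.negSucc (nat_lit 490876666),Int.ofNat (nat_lit 4458947405),Int.negSucc (nat_lit 611017780),Int.negSucc (nat_lit 2758788671),Int.ofNat (nat_lit 6110885492),Int.negSucc (nat_lit 845409488),Int.negSucc (nat_lit 6138583567),Int.ofNat (nat_lit 12877602940),Int.negSucc (nat_lit 4163962045),Int.ofNat (nat_lit 4277375306),Int.negSucc (nat_lit 6575822025),Int.negSucc (nat_lit 3853669585),Int.negSucc (nat_lit 14366739191),Int.ofNat (nat_lit 1567065376),Int.negSucc (nat_lit 2795325613),Int.negSucc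 (nat_lit 5525856043),Int.ofNat (nat_lit 8593679556),Int.ofNat (nat_lit 7900327881),Int.ofNat (nat_lit 2773434283),Int.ofNat (nat_lit 9734335543),Int.negSucc (nat_lit 3831873385),Int.negSucc (nat_lit 2727138687),Int.negSucc (nat_lit 3227596706),Int.ofNat (nat_lit 6231511491),Int.ofNat (nat_lit 3393879625),Int.negSucc (nat_lit 11852689770),Int.ofNat (nat_lit 3243102311),Int.ofNat (nat_lit 4071306440),Int.ofNat (nat_lit 454328427),Int.negSucc (nat_lit 24452345176),Int.ofNat (nat_lit 8394464587),Int.negSucc (nat_lit 4033617747),Int.negSucc (nat_lit 4664761859),Int.negSucc (nat_lit 14930467866),Int.ofNat (nat_lit 4403550310),Int.negSucc (nat_lit 1119703186),Int.ofNat (nat_lit 563481549),Int.negSucc (nat_lit 2536858742),Int.negSucc (nat_lit 3313573857),Int.ofNat (nat_lit 24741100),Int.ofNat (nat_lit 40109960),Int.negSucc (nat_lit 1074206101),Int.ofNat (nat_lit 1548386541),Int.ofNat (nat_lit 507247831),Int.ofNat (nat_lit 2416707839),Int.negSucc (nat_lit 2346431561),Int.ofNat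 (nat_lit 4020378131)])

/-- A row. -/
noncomputable def sr5_c1_26 : List ℕ × List ℤ :=
  ([(nat_lit 2),(nat_lit 2),(nat_lit 0),(nat_lit 1),(nat_lit 0),(nat_lit 0),(nat_lit 0),(nat_lit 0),(nat_lit 0),(nat_lit 0),(nat_lit 0),(nat_lit 0)], [Int.negSucc (nat_lit 9079131868),Int.negSucc (nat_lit 3152083012),Int.negSucc (nat_lit 1164442513),Int.negSucc (nat_lit 1441051581),Int.negSucc (nat_lit 1746146939),Int.negSucc (nat_lit 11974842970),Int.negSucc (nat_lit 11898306370),Int.negSucc (nat_lit 8828445999),Int.ofNat (nat_lit 2838965846),Int.ofNat (nat_lit 5205126023),Int.ofNat (nat_lit 2265137476),Int.ofNat (nat_lit 12002016392),Int.negSucc (nat_lit 14770434988),Int.negSucc (nat_lit 6921517871),Int.negSucc (nat_lit 10266251660),Int.ofNat (nat_lit 830646719),Int.negSucc (nat_lit 405831184),Int.ofNat (nat_lit 15117672390),Int.ofNat (nat_lit 18879035126),Int.ofNat (nat_lit 453543018),Int.negSucc (nat_lit 7012336248),Int.negSucc (nat_lit 3376112261),Int.negSucc (nat_lit 3257030092),Int.ofNat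 (nat_lit 12373599644),Int.ofNat (nat_lit 19977168660),Int.negSucc (nat_lit 22771539667),Int.ofNat (nat_lit 396373601),Int.ofNat (nat_lit 3840189050),Int.negSucc (nat_lit 1782580586),Int.ofNat (nat_lit 14643322225),Int.negSucc (nat_lit 3182434356),Int.ofNat (nat_lit 3158605789),Int.negSucc (nat_lit 8638925517),Int.ofNat (nat_lit 6254596612),Int.ofNat (nat_lit 6350009570),Int.negSucc (nat_lit 885821159),Int.negSucc (nat_lit 2111582029),Int.negSucc (nat_lit 1619642230),Int.ofNat (nat_lit 6992195042),Int.negSucc (nat_lit 5995515267),Int.ofNat (nat_lit 1101781539),Int.negSucc (nat_lit 2731699838),Int.ofNat (nat_lit 2695683414),Int.ofNat (nat_lit 7444698921),Int.negSucc (nat_lit 4143678509),Int.negSucc (nat_lit 23857949862),Int.negSucc (nat_lit 1104756537),Int.negSucc (nat_lit 151074816),Int.ofNat (nat_lit 958269495),Int.ofNat (nat_lit 809930408),Int.negSucc (nat_lit 586658943),Int.ofNat (nat_lit 180896206),Int.ofNat (nat_lit 1357792707),Int.negSucc (nat_lit 2224897751),Int.ofNat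 (nat_lit 2350785279),Int.negSucc (nat_lit 1065089618),Int.ofNat (nat_lit 4265493893)])

/-- A row. -/
noncomputable def sr5_c1_27 : List ℕ × List ℤ :=
  ([(nat_lit 2),(nat_lit 3),(nat_lit 0),(nat_lit 0),(nat_lit 0),(nat_lit 0),(nat_lit 0),(nat_lit 0),(nat_lit 0),(nat_lit 0),(nat_lit 0),(nat_lit 0)], [Int.ofNat (nat_lit 1853143020),Int.negSucc (nat_lit 14434438433),Int.ofNat (nat_lit 15817459814),Int.ofNat (nat_lit 6689614195),Int.ofNat (nat_lit 9565136451),Int.ofNat (nat_lit 7694264645),Int.ofNat (nat_lit 19996051599),Int.negSucc (nat_lit 1835630734),Int.negSucc (nat_lit 3114904715),Int.negSucc (nat_lit 404303489),Int.ofNat (nat_lit 901311037),Int.ofNat (nat_lit 6945219344),Int.negSucc (nat_lit 747885288),Int.negSucc (nat_lit 6563596804),Int.ofNat (nat_lit 9239571139),Int.negSucc (nat_lit 7495278251),Int.ofNat (nat_lit 3054178676),Int.negSucc (nat_lit 9525669874),Int.negSucc (nat_lit 9235837078),Int.ofNat (nat_lit 9588317142),Int.ofNat (nat_lit 8150923910),Int.negSucc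 (nat_lit 19854114954),Int.ofNat (nat_lit 5871419241),Int.negSucc (nat_lit 2028559510),Int.ofNat (nat_lit 11867708170),Int.ofNat (nat_lit 8143368030),Int.negSucc (nat_lit 6479475793),Int.ofNat (nat_lit 7385922227),Int.negSucc (nat_lit 15277912845),Int.negSucc (nat_lit 4001988711),Int.negSucc (nat_lit 1997528839),Int.ofNat (nat_lit 1264838103),Int.ofNat (nat_lit 17337639358),Int.negSucc (nat_lit 7935514886),Int.negSucc (nat_lit 4570032696),Int.ofNat (nat_lit 4372808453),Int.negSucc (nat_lit 8767066450),Int.ofNat (nat_lit 6737318702),Int.ofNat (nat_lit 35362327689),Int.negSucc (nat_lit 3654608594),Int.ofNat (nat_lit 23012516981),Int.ofNat (nat_lit 2310378833),Int.negSucc (nat_lit 48752071625),Int.ofNat (nat_lit 17277937700),Int.ofNat (nat_lit 6853787785),Int.ofNat (nat_lit 2512007062),Int.negSucc (nat_lit 35464981081),Int.ofNat (nat_lit 18243457354),Int.negSucc (nat_lit 20079013800),Int.negSucc (nat_lit 8028903351),Int.ofNat (nat_lit 5217841392),Int.negSucc (nat_lit 2899970820),Int.ofNat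 (nat_lit 1280789850),Int.negSucc (nat_lit 5709173566),Int.negSucc (nat_lit 7938719393),Int.ofNat (nat_lit 6318643907),Int.negSucc (nat_lit 1073936984),Int.ofNat (nat_lit 20057261346)])

/-- A row. -/
noncomputable def sr5_c1_28 : List ℕ × List ℤ :=
  ([(nat_lit 3),(nat_lit 0),(nat_lit 0),(nat_lit 0),(nat_lit 0),(nat_lit 1),(nat_lit 0),(nat_lit 0),(nat_lit 0),(nat_lit 0),(nat_lit 0),(nat_lit 0)], [Int.ofNat (nat_lit 301526935),Int.negSucc (nat_lit 2360524346),Int.negSucc (nat_lit 2274018790),Int.negSucc (nat_lit 3006800752),Int.ofNat (nat_lit 1550276413),Int.negSucc (nat_lit 800950525),Int.ofNat (nat_lit 1384043058),Int.ofNat (nat_lit 949649702),Int.ofNat (nat_lit 365644673),Int.ofNat (nat_lit 1545860390),Int.ofNat (nat_lit 5010159089),Int.negSucc (nat_lit 1565634233),Int.negSucc (nat_lit 1224225189),Int.negSucc (nat_lit 650742124),Int.ofNat (nat_lit 2481448504),Int.negSucc (nat_lit 82290200),Int.ofNat (nat_lit 580658517),Int.negSucc (nat_lit 3457559672),Int.ofNat (nat_lit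 379269878),Int.negSucc (nat_lit 807894440),Int.ofNat (nat_lit 73925971),Int.negSucc (nat_lit 737673087),Int.negSucc (nat_lit 841028786),Int.negSucc (nat_lit 2621204731),Int.negSucc (nat_lit 528067775),Int.ofNat (nat_lit 731784161),Int.ofNat (nat_lit 9861299),Int.negSucc (nat_lit 344279784),Int.ofNat (nat_lit 428290279),Int.negSucc (nat_lit 354037582),Int.negSucc (nat_lit 566929513),Int.negSucc (nat_lit 1079581443),Int.ofNat (nat_lit 1550856513),Int.ofNat (nat_lit 5353685789),Int.negSucc (nat_lit 304350232),Int.ofNat (nat_lit 1661567627),Int.negSucc (nat_lit 2380634548),Int.ofNat (nat_lit 120974617),Int.negSucc (nat_lit 319221311),Int.ofNat (nat_lit 370734169),Int.negSucc (nat_lit 179101975),Int.negSucc (nat_lit 504281831),Int.negSucc (nat_lit 482716940),Int.ofNat (nat_lit 278809494),Int.ofNat (nat_lit 656357230),Int.ofNat (nat_lit 109388943),Int.ofNat (nat_lit 102960041),Int.negSucc (nat_lit 92641617),Int.ofNat (nat_lit 148370640),Int.negSucc (nat_lit 147511807),Int.negSucc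 (nat_lit 1623303870),Int.ofNat (nat_lit 57652819),Int.ofNat (nat_lit 30670121),Int.ofNat (nat_lit 77304979),Int.negSucc (nat_lit 104988910),Int.ofNat (nat_lit 108258126),Int.negSucc (nat_lit 1076049),Int.ofNat (nat_lit 24758294),Int.ofNat (nat_lit 278765527)])

/-- A row. -/
noncomputable def sr5_c1_29 : List ℕ × List ℤ :=
  ([(nat_lit 3),(nat_lit 0),(nat_lit 0),(nat_lit 1),(nat_lit 0),(nat_lit 0),(nat_lit 0),(nat_lit 0),(nat_lit 0),(nat_lit 0),(nat_lit 0),(nat_lit 0)], [Int.negSucc (nat_lit 5690398644),Int.ofNat (nat_lit 5965890292),Int.ofNat (nat_lit 3037888617),Int.negSucc (nat_lit 1347116262),Int.negSucc (nat_lit 2357692688),Int.ofNat (nat_lit 9124251712),Int.negSucc (nat_lit 5008339486),Int.ofNat (nat_lit 532100480),Int.ofNat (nat_lit 1437437531),Int.negSucc (nat_lit 2202865107),Int.ofNat (nat_lit 383647961),Int.ofNat (nat_lit 5723456221),Int.negSucc (nat_lit 7119581648),Int.ofNat (nat_lit 1521046191),Int.negSucc (nat_lit 4115388416),Int.ofNat (nat_lit 2564026326),Int.ofNat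 (nat_lit 1705269635),Int.ofNat (nat_lit 946527575),Int.negSucc (nat_lit 1077987994),Int.ofNat (nat_lit 1916516386),Int.negSucc (nat_lit 445251085),Int.negSucc (nat_lit 310391701),Int.ofNat (nat_lit 1775304359),Int.negSucc (nat_lit 1020374082),Int.ofNat (nat_lit 2129400049),Int.ofNat (nat_lit 3235048901),Int.ofNat (nat_lit 1104368495),Int.negSucc (nat_lit 3283952067),Int.negSucc (nat_lit 1919046179),Int.ofNat (nat_lit 2972031466),Int.ofNat (nat_lit 700024412),Int.negSucc (nat_lit 2887573623),Int.negSucc (nat_lit 8034449169),Int.ofNat (nat_lit 2391863352),Int.ofNat (nat_lit 15785487491),Int.ofNat (nat_lit 3454355482),Int.ofNat (nat_lit 1924522870),Int.negSucc (nat_lit 12492367249),Int.negSucc (nat_lit 1151283124),Int.negSucc (nat_lit 2845659685),Int.negSucc (nat_lit 473058303),Int.ofNat (nat_lit 580653007),Int.ofNat (nat_lit 500468590),Int.negSucc (nat_lit 795920321),Int.ofNat (nat_lit 2283422253),Int.ofNat (nat_lit 4627531655),Int.negSucc (nat_lit 823311117),Int.ofNat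 (nat_lit 2646239062),Int.negSucc (nat_lit 375375433),Int.ofNat (nat_lit 3012549252),Int.negSucc (nat_lit 2179910621),Int.negSucc (nat_lit 8644838110),Int.ofNat (nat_lit 932876583),Int.negSucc (nat_lit 84439885),Int.negSucc (nat_lit 118189929),Int.negSucc (nat_lit 112850670),Int.negSucc (nat_lit 440440092),Int.ofNat (nat_lit 48505661),Int.negSucc (nat_lit 179703883),Int.ofNat (nat_lit 1062138243)])

/-- A part of a triangular factor. -/
noncomputable def sr5_c1 : Rows :=
  [sr5_c1_0,
   sr5_c1_1,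
   sr5_c1_2,
   sr5_c1_3,
   sr5_c1_4,
   sr5_c1_5,
   sr5_c1_6,
   sr5_c1_7,
   sr5_c1_8,
   sr5_c1_9,
   sr5_c1_10,
   sr5_c1_11,
   sr5_c1_12,
   sr5_c1_13,
   sr5_c1_14,
   sr5_c1_15,
   sr5_c1_16,
   sr5_c1_17,
   sr5_c1_18,
   sr5_c1_19,
   sr5_c1_20,
   sr5_c1_21,
   sr5_c1_22,
   sr5_c1_23,
   sr5_c1_24,
   sr5_c1_25,
   sr5_c1_26,
   sr5_c1_27,
   sr5_c1_28,
   sr5_c1_29]

/-- A row. -/
noncomputable def sr5_c2_0 : List ℕ × List ℤ :=
  ([(nat_lit 3),(nat_lit 1),(nat_lit 0),(nat_lit 0),(nat_lit 0),(nat_lit 0),(nat_lit 0),(nat_lit 0),(nat_lit 0),(nat_lit 0),(nat_lit 0),(nat_lit 0)], [Int.ofNat (nat_lit 10679897331),Int.ofNat (nat_lit 11547224548),Int.ofNat (nat_lit 4302199328),Int.ofNat (nat_lit 6973730967),Int.ofNat (nat_lit 1915758709),Int.negSucc (nat_lit 367130018),Int.ofNat (nat_lit 6170670935),Int.negSucc (nat_lit 8313838710),Int.negSucc (nat_lit 2955129703),Int.ofNat (nat_lit 1135527937),Int.negSucc (nat_lit 6449796053),Int.ofNat (nat_lit 8045243054),Int.ofNat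 (nat_lit 11347228493),Int.ofNat (nat_lit 9741304210),Int.ofNat (nat_lit 2331533373),Int.negSucc (nat_lit 3596836781),Int.negSucc (nat_lit 2455328492),Int.ofNat (nat_lit 8467263947),Int.ofNat (nat_lit 2712691293),Int.ofNat (nat_lit 6078517439),Int.ofNat (nat_lit 9584759756),Int.ofNat (nat_lit 6636933111),Int.negSucc (nat_lit 3104091067),Int.ofNat (nat_lit 5897636260),Int.ofNat (nat_lit 5503112639),Int.negSucc (nat_lit 11054973781),Int.negSucc (nat_lit 2920168990),Int.ofNat (nat_lit 1710232438),Int.negSucc (nat_lit 12505647079),Int.ofNat (nat_lit 1690676056),Int.ofNat (nat_lit 5708670207),Int.ofNat (nat_lit 11394946908),Int.ofNat (nat_lit 64748861),Int.negSucc (nat_lit 7712555037),Int.ofNat (nat_lit 5464228577),Int.ofNat (nat_lit 468133848),Int.negSucc (nat_lit 4774847308),Int.ofNat (nat_lit 10932522934),Int.ofNat (nat_lit 30555725492),Int.negSucc (nat_lit 5475287975),Int.ofNat (nat_lit 12872070455),Int.ofNat (nat_lit 3348122610),Int.negSucc (nat_lit 8298187179),Int.ofNat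 (nat_lit 1592528037),Int.negSucc (nat_lit 605128404),Int.negSucc (nat_lit 3378175825),Int.ofNat (nat_lit 2760328280),Int.ofNat (nat_lit 2812465219),Int.negSucc (nat_lit 3828645709),Int.negSucc (nat_lit 3400159184),Int.ofNat (nat_lit 8326219675),Int.negSucc (nat_lit 377386895),Int.negSucc (nat_lit 3559685762),Int.negSucc (nat_lit 22812145957),Int.negSucc (nat_lit 2918875243),Int.ofNat (nat_lit 4618900018),Int.negSucc (nat_lit 270107144),Int.negSucc (nat_lit 6339068427),Int.negSucc (nat_lit 2171981549),Int.ofNat (nat_lit 1571457134),Int.ofNat (nat_lit 4313806568)])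

/-- A row. -/
noncomputable def sr5_c2_1 : List ℕ × List ℤ :=
  ([(nat_lit 3),(nat_lit 1),(nat_lit 1),(nat_lit 0),(nat_lit 0),(nat_lit 0),(nat_lit 0),(nat_lit 0),(nat_lit 0),(nat_lit 0),(nat_lit 0),(nat_lit 0)], [Int.ofNat (nat_lit 8703992281),Int.ofNat (nat_lit 13102636689),Int.ofNat (nat_lit 9005340046),Int.ofNat (nat_lit 4303474438),Int.negSucc (nat_lit 3671750906),Int.ofNat (nat_lit 5053786608),Int.negSucc (nat_lit 3382807880),Int.negSucc (nat_lit 7339987362),Int.negSucc (nat_lit 1457070827),Int.negSucc (nat_lit 5535818851),Int.negSucc (nat_lit 4698554040),Int.ofNat (nat_lit 5669594912),Int.ofNat (nat_lit 13549821111),Int.ofNat (nat_lit 6303786956),Int.negSucc (nat_lit 108728127),Int.negSucc (nat_lit 212644106),Int.negSucc (nat_lit 847999620),Int.ofNat (nat_lit 7265125594),Int.ofNat (nat_lit 416497392),Int.ofNat (nat_lit 12889209805),Int.ofNat (nat_lit 11025804498),Int.ofNat (nat_lit 12266937926),Int.negSucc (nat_lit 2352150209),Int.ofNat (nat_lit 2363852301),Int.ofNat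 (nat_lit 3246331475),Int.negSucc (nat_lit 6245570011),Int.negSucc (nat_lit 4468456143),Int.negSucc (nat_lit 2392609466),Int.negSucc (nat_lit 6556138234),Int.ofNat (nat_lit 3059934701),Int.ofNat (nat_lit 2644588439),Int.ofNat (nat_lit 4949824851),Int.negSucc (nat_lit 7468310149),Int.negSucc (nat_lit 2662996408),Int.ofNat (nat_lit 10676858351),Int.ofNat (nat_lit 413173209),Int.ofNat (nat_lit 98948743),Int.ofNat (nat_lit 4443535839),Int.ofNat (nat_lit 17453553057),Int.negSucc (nat_lit 5534256605),Int.ofNat (nat_lit 4413451532),Int.ofNat (nat_lit 2157542787),Int.ofNat (nat_lit 8719001034),Int.negSucc (nat_lit 8508992240),Int.ofNat (nat_lit 1509256712),Int.negSucc (nat_lit 321967418),Int.ofNat (nat_lit 2734235142),Int.ofNat (nat_lit 3557828836),Int.negSucc (nat_lit 401316020),Int.ofNat (nat_lit 641827590),Int.ofNat (nat_lit 1812882909),Int.negSucc (nat_lit 2506575727),Int.negSucc (nat_lit 2254860404),Int.negSucc (nat_lit 3231437409),Int.ofNat (nat_lit 2527625307),Int.negSucc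 (nat_lit 5825078740),Int.negSucc (nat_lit 51377631),Int.negSucc (nat_lit 147061151),Int.negSucc (nat_lit 418153309),Int.ofNat (nat_lit 42532522),Int.negSucc (nat_lit 150036606),Int.ofNat (nat_lit 663415042)])

/-- A row. -/
noncomputable def sr5_c2_2 : List ℕ × List ℤ :=
  ([(nat_lit 3),(nat_lit 3),(nat_lit 0),(nat_lit 0),(nat_lit 0),(nat_lit 0),(nat_lit 0),(nat_lit 0),(nat_lit 0),(nat_lit 0),(nat_lit 0),(nat_lit 0)], [Int.ofNat (nat_lit 7997426536),Int.ofNat (nat_lit 3036501413),Int.negSucc (nat_lit 10879691968),Int.negSucc (nat_lit 9499020874),Int.ofNat (nat_lit 5401063326),Int.negSucc (nat_lit 22996562028),Int.negSucc (nat_lit 5807989523),Int.ofNat (nat_lit 8021400334),Int.negSucc (nat_lit 9891399573),Int.negSucc (nat_lit 6513431219),Int.negSucc (nat_lit 5089494522),Int.negSucc (nat_lit 23041754373),Int.ofNat (nat_lit 16362539353),Int.negSucc (nat_lit 5337084010),Int.ofNat (nat_lit 1930420639),Int.ofNat (nat_lit 11450542634),Int.negSucc (nat_lit 24136417376),Int.negSucc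 (nat_lit 8690849839),Int.negSucc (nat_lit 18095430754),Int.ofNat (nat_lit 9674148589),Int.ofNat (nat_lit 3519866427),Int.ofNat (nat_lit 18937454088),Int.negSucc (nat_lit 87275217),Int.negSucc (nat_lit 30785691328),Int.negSucc (nat_lit 16707036008),Int.ofNat (nat_lit 24852049285),Int.ofNat (nat_lit 22184650271),Int.ofNat (nat_lit 13105834945),Int.ofNat (nat_lit 19022301672),Int.negSucc (nat_lit 4363528905),Int.ofNat (nat_lit 15539865095),Int.negSucc (nat_lit 15478363836),Int.negSucc (nat_lit 3720420754),Int.negSucc (nat_lit 635192511),Int.ofNat (nat_lit 2450811440),Int.negSucc (nat_lit 9847320126),Int.ofNat (nat_lit 15074446028),Int.ofNat (nat_lit 2340607832),Int.negSucc (nat_lit 34137670055),Int.ofNat (nat_lit 5591790612),Int.negSucc (nat_lit 22138783641),Int.negSucc (nat_lit 582921228),Int.ofNat (nat_lit 47045378809),Int.negSucc (nat_lit 21425223290),Int.ofNat (nat_lit 2037450790),Int.ofNat (nat_lit 28938700427),Int.ofNat (nat_lit 11624612808),Int.negSucc (nat_lit 33461976349),Int.ofNat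 (nat_lit 18486270675),Int.ofNat (nat_lit 12714994197),Int.negSucc (nat_lit 6179822902),Int.ofNat (nat_lit 4111328723),Int.negSucc (nat_lit 5747015756),Int.ofNat (nat_lit 14038906301),Int.ofNat (nat_lit 8608112860),Int.negSucc (nat_lit 8126215102),Int.negSucc (nat_lit 10993273332),Int.negSucc (nat_lit 31533273142),Int.negSucc (nat_lit 232223856),Int.negSucc (nat_lit 1681021216),Int.ofNat (nat_lit 659684637),Int.ofNat (nat_lit 497094163),Int.ofNat (nat_lit 5506896466)])

/-- A row. -/
noncomputable def sr5_c2_3 : List ℕ × List ℤ :=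
  ([(nat_lit 4),(nat_lit 0),(nat_lit 0),(nat_lit 1),(nat_lit 0),(nat_lit 0),(nat_lit 0),(nat_lit 0),(nat_lit 0),(nat_lit 0),(nat_lit 0),(nat_lit 0)], [Int.ofNat (nat_lit 5215464263),Int.negSucc (nat_lit 3355344563),Int.ofNat (nat_lit 1629414250),Int.ofNat (nat_lit 3131543485),Int.negSucc (nat_lit 740468790),Int.negSucc (nat_lit 7169079623),Int.ofNat (nat_lit 2628415213),Int.negSucc (nat_lit 5088863627),Int.negSucc (nat_lit 689709450),Int.negSucc (nat_lit 1732371955),Int.negSucc (nat_lit 2164607166),Int.negSucc (nat_lit 473663386),Int.ofNat (nat_lit 7188166161),Int.negSucc (nat_lit 24058374),Int.ofNat (nat_lit 742977457),Int.negSucc (nat_lit 1738390224),Int.negSucc (nat_lit 1390473714),Int.ofNat (nat_lit 830590731),Int.ofNat (nat_lit 1296208305),Int.negSucc (nat_lit 18759241),Int.negSucc (nat_lit 1126216307),Int.ofNat (nat_lit 328123927),Int.negSucc (nat_lit 1189823717),Int.ofNat (nat_lit 1294814262),Int.negSucc (nat_lit 1659552809),Int.negSucc (nat_lit 1977062054),Int.negSucc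 (nat_lit 586957253),Int.ofNat (nat_lit 2082572487),Int.ofNat (nat_lit 606371650),Int.negSucc (nat_lit 1397974335),Int.ofNat (nat_lit 267378910),Int.ofNat (nat_lit 3474125060),Int.ofNat (nat_lit 2271581410),Int.negSucc (nat_lit 2846131110),Int.negSucc (nat_lit 5486711987),Int.negSucc (nat_lit 1819292088),Int.ofNat (nat_lit 260731700),Int.ofNat (nat_lit 9643464446),Int.ofNat (nat_lit 980400070),Int.ofNat (nat_lit 2024771820),Int.ofNat (nat_lit 211211089),Int.negSucc (nat_lit 486501813),Int.negSucc (nat_lit 267267),Int.ofNat (nat_lit 424987914),Int.negSucc (nat_lit 1778223076),Int.negSucc (nat_lit 2579258135),Int.ofNat (nat_lit 818526862),Int.negSucc (nat_lit 1760981137),Int.ofNat (nat_lit 104126240),Int.negSucc (nat_lit 1907515718),Int.ofNat (nat_lit 2344162586),Int.ofNat (nat_lit 6000319163),Int.negSucc (nat_lit 1749586079),Int.ofNat (nat_lit 118977505),Int.ofNat (nat_lit 231843141),Int.ofNat (nat_lit 88414378),Int.ofNat (nat_lit 451360205),Int.negSucc (nat_lit 119467604),Int.negSucc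 (nat_lit 27935211),Int.negSucc (nat_lit 1519384767),Int.negSucc (nat_lit 44783788),Int.negSucc (nat_lit 15412200),Int.negSucc (nat_lit 33939707),Int.ofNat (nat_lit 235552873)])

/-- A row. -/
noncomputable def sr5_c2_4 : List ℕ × List ℤ :=
  ([(nat_lit 4),(nat_lit 1),(nat_lit 0),(nat_lit 0),(nat_lit 0),(nat_lit 0),(nat_lit 0),(nat_lit 0),(nat_lit 0),(nat_lit 0),(nat_lit 0),(nat_lit 0)], [Int.negSucc (nat_lit 2200169545),Int.negSucc (nat_lit 2663798970),Int.ofNat (nat_lit 5473206956),Int.ofNat (nat_lit 2683091135),Int.ofNat (nat_lit 14865154271),Int.ofNat (nat_lit 1377631819),Int.ofNat (nat_lit 7264870320),Int.ofNat (nat_lit 1914677295),Int.ofNat (nat_lit 2302135882),Int.negSucc (nat_lit 4732223811),Int.ofNat (nat_lit 5605854281),Int.negSucc (nat_lit 3179557951),Int.negSucc (nat_lit 4467175611),Int.negSucc (nat_lit 10070241951),Int.ofNat (nat_lit 6577296256),Int.ofNat (nat_lit 7207918270),Int.ofNat (nat_lit 117432611),Int.negSucc (nat_lit 12996515619),Int.negSucc (nat_lit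 4899416570),Int.ofNat (nat_lit 7302239409),Int.ofNat (nat_lit 1606393039),Int.ofNat (nat_lit 4361403008),Int.negSucc (nat_lit 4303030010),Int.ofNat (nat_lit 3189977215),Int.negSucc (nat_lit 8621477159),Int.ofNat (nat_lit 5712245381),Int.negSucc (nat_lit 15625708194),Int.negSucc (nat_lit 1963888207),Int.ofNat (nat_lit 11595240211),Int.negSucc (nat_lit 5187684554),Int.negSucc (nat_lit 10262125329),Int.ofNat (nat_lit 2321088791),Int.ofNat (nat_lit 5323195265),Int.ofNat (nat_lit 1718197929),Int.negSucc (nat_lit 8650394149),Int.negSucc (nat_lit 950989374),Int.negSucc (nat_lit 10466920010),Int.ofNat (nat_lit 7429562942),Int.ofNat (nat_lit 12694967687),Int.ofNat (nat_lit 433599629),Int.negSucc (nat_lit 2990676367),Int.ofNat (nat_lit 1065167980),Int.ofNat (nat_lit 4794264725),Int.negSucc (nat_lit 9786380912),Int.ofNat (nat_lit 418274971),Int.negSucc (nat_lit 2239149670),Int.ofNat (nat_lit 9629726975),Int.negSucc (nat_lit 2451666682),Int.ofNat (nat_lit 4963717256),Int.negSucc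 (nat_lit 5808676447),Int.negSucc (nat_lit 5153584739),Int.ofNat (nat_lit 11115306938),Int.ofNat (nat_lit 1310170655),Int.ofNat (nat_lit 24699872396),Int.ofNat (nat_lit 6873739787),Int.negSucc (nat_lit 13701315680),Int.ofNat (nat_lit 2559340866),Int.ofNat (nat_lit 15658532330),Int.ofNat (nat_lit 6502448883),Int.negSucc (nat_lit 7206777498),Int.negSucc (nat_lit 12007464049),Int.ofNat (nat_lit 1033094188),Int.negSucc (nat_lit 1602752857),Int.ofNat (nat_lit 756671292),Int.ofNat (nat_lit 1055408652)])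

/-- A row. -/
noncomputable def sr5_c2_5 : List ℕ × List ℤ :=
  ([(nat_lit 5),(nat_lit 1),(nat_lit 0),(nat_lit 0),(nat_lit 0),(nat_lit 0),(nat_lit 0),(nat_lit 0),(nat_lit 0),(nat_lit 0),(nat_lit 0),(nat_lit 0)], [Int.negSucc (nat_lit 5653943492),Int.negSucc (nat_lit 4370748244),Int.negSucc (nat_lit 11502602615),Int.negSucc (nat_lit 9230812887),Int.negSucc (nat_lit 2828411143),Int.negSucc (nat_lit 4145038774),Int.negSucc (nat_lit 3781113009),Int.ofNat (nat_lit 10432501345),Int.negSucc (nat_lit 2166214532),Int.ofNat (nat_lit 9593282650),Int.ofNat (nat_lit 2443584259),Int.negSucc (nat_lit 5707030288),Int.negSucc (nat_lit 8687948169),Int.negSucc (nat_lit 3130080234),Int.negSucc (nat_lit 2960576861),Int.ofNat (nat_lit 742527285),Int.negSucc (nat_lit 353195903),Int.ofNat (nat_lit 1723259158),Int.negSucc (nat_lit 872573330),Int.negSucc (nat_lit 9564559437),Int.negSucc (nat_lit 9617327735),Int.negSucc (nat_lit 7429160638),Int.ofNat (nat_lit 4120027162),Int.negSucc (nat_lit 5305635541),Int.ofNat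 (nat_lit 5488021837),Int.negSucc (nat_lit 67286995),Int.ofNat (nat_lit 10570922392),Int.ofNat (nat_lit 1259632128),Int.negSucc (nat_lit 3855374644),Int.ofNat (nat_lit 2701984181),Int.ofNat (nat_lit 4252399422),Int.negSucc (nat_lit 9437978690),Int.ofNat (nat_lit 10724090),Int.ofNat (nat_lit 4365144943),Int.ofNat (nat_lit 2147168331),Int.negSucc (nat_lit 2382462661),Int.ofNat (nat_lit 5792079102),Int.negSucc (nat_lit 15806376536),Int.negSucc (nat_lit 20193362657),Int.negSucc (nat_lit 6620873),Int.negSucc (nat_lit 5675592634),Int.negSucc (nat_lit 666957659),Int.negSucc (nat_lit 562508400),Int.ofNat (nat_lit 10201451647),Int.ofNat (nat_lit 814261876),Int.ofNat (nat_lit 3372465376),Int.negSucc (nat_lit 10061085537),Int.ofNat (nat_lit 1500559871),Int.negSucc (nat_lit 1976502102),Int.ofNat (nat_lit 6441661961),Int.negSucc (nat_lit 2766056711),Int.negSucc (nat_lit 10151986863),Int.ofNat (nat_lit 4149532073),Int.negSucc (nat_lit 8271567911),Int.negSucc (nat_lit 4255687146),Int.ofNat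 (nat_lit 10712948156),Int.negSucc (nat_lit 2466863556),Int.negSucc (nat_lit 8830722089),Int.negSucc (nat_lit 3591900805),Int.ofNat (nat_lit 7313664834),Int.ofNat (nat_lit 8289090910),Int.negSucc (nat_lit 1524941788),Int.ofNat (nat_lit 1628997114),Int.negSucc (nat_lit 1666399911),Int.negSucc (nat_lit 1294688716),Int.ofNat (nat_lit 157634319)])

/-- A part of a triangular factor. -/
noncomputable def sr5_c2 : Rows :=
  [sr5_c2_0,
   sr5_c2_1,
   sr5_c2_2,
   sr5_c2_3,
   sr5_c2_4,
   sr5_c2_5]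

/-- A triangular factor. -/
noncomputable def sr5_rows : List Rows :=
  [sr5_c0, sr5_c1, sr5_c2]

end Vale.Agent.P142K.CertB
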