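import Vale.Agent.P142K.CertB.Sr6Rows
import Vale.Agent.P142K.Fast

/-!
# An expanded part of the certificate

Generated from a semidefinite program; only the checker is trusted.
-/

namespace Vale.Agent.P142K.CertB

open Vale.Agent.P142J (MP)

/-- A coefficient. -/
noncomputable def sr6_m0_0_0 : MP 10 :=
  [[[[[[[[[[Int.ofNat (nat_lit 12708291878227074456),Int.ofNat (nat_lit 0),Int.ofNat (nat_lit 718468176809438316)],[Int.ofNat (nat_lit 1123383045846099672)],[Int.ofNat (nat_lit 779508304834478412)]],[[Int.ofNat (nat_lit 0),Int.negSucc (nat_lit 509840135229058727)]],[[Int.ofNat (nat_lit 2427824088221298786)]]],[[[Int.ofNat (nat_lit 911141681349717072)],[Int.negSucc (nat_lit 24436553880550223)]]],[[[Int.ofNat (nat_lit 1122556597843541526)]]]],[[[[Int.ofNat (nat_lit 0),Int.negSucc (nat_lit 2551326760315949279)]],[[Int.ofNat (nat_lit 2163943050282344688)]]]],[[[[Int.ofNat (nat_lit 6802380368531771256)]]]]],[[[[[Int.ofNat (nat_lit 7953924747462878088)],[Int.ofNat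 (nat_lit 3125620382020852344)]]],[[[Int.negSucc (nat_lit 1802438204560271651)]]]]],[[[[[Int.ofNat (nat_lit 7671373907740702842)]]]]]],[[[[[[Int.ofNat (nat_lit 0),Int.negSucc (nat_lit 658029516511751591)]],[[Int.ofNat (nat_lit 2217848935645480884)]]]],[[[[Int.ofNat (nat_lit 950738960835553752)]]]]]],[[[[[[Int.ofNat (nat_lit 19583172352575500940)],[Int.ofNat (nat_lit 913602325243168428)]]],[[[Int.ofNat (nat_lit 1407252297168594720)]]]]],[[[[[Int.negSucc (nat_lit 365029918423409315)]]]]]],[],[[[[[[Int.ofNat (nat_lit 6105753597848405982)]]]]]]],[[[[[[[Int.negSucc (nat_lit 28006233276210986015)],[Int.negSucc (nat_lit 2417417075567638187)]]],[[[Int.negSucc (nat_lit 1177975996272852047)]]]]],[[[[[Int.negSucc (nat_lit 8449161828421741595)]]]]]],[[[[[[Int.ofNat (nat_lit 0),Int.ofNat (nat_lit 2672156449847196)]],[[Int.negSucc (nat_lit 1138498633317386375)]]]],[[[[Int.negSucc (nat_lit 413154779800613963)]]]]]],[[[[[[Int.negSucc (nat_lit 18639742069296046547)]]]]]]],[[[[[[[Int.ofNat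 (nat_lit 36350867842039586682)],[Int.ofNat (nat_lit 835976529368460744)]]],[[[Int.ofNat (nat_lit 2617127464349505528)]]]]],[[[[[Int.negSucc (nat_lit 1676436491859810887)]]]]]],[],[[[[[[Int.ofNat (nat_lit 16787035059515263248)]]]]]]],[[[[[[[Int.negSucc (nat_lit 24475384884291392939)]]]]]]],[[[[[[[Int.ofNat (nat_lit 11889202299968528010)]]]]]]]],[[[[[[[[Int.ofNat (nat_lit 0),Int.negSucc (nat_lit 2149671479954001395)],[Int.ofNat (nat_lit 0),Int.negSucc (nat_lit 1313219810590368599)]],[[Int.ofNat (nat_lit 5912836656748638336)],[Int.ofNat (nat_lit 502366522329436392)]]],[[[Int.ofNat (nat_lit 0),Int.negSucc (nat_lit 177571495411396091)]],[[Int.negSucc (nat_lit 1480773256073906999)]]]],[[[[Int.ofNat (nat_lit 6798467817723264240)],[Int.ofNat (nat_lit 973492434101782440)]]],[[[Int.negSucc (nat_lit 1246276538385595319)]]]]],[[[[[Int.ofNat (nat_lit 0),Int.negSucc (nat_lit 1178382574665278783)]],[[Int.ofNat (nat_lit 1113776203108414740)]]]],[[[[Int.ofNat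 (nat_lit 676211296660140612)]]]]]],[[[[[[Int.negSucc (nat_lit 10760061537725997971)],[Int.negSucc (nat_lit 3389557630006599179)]]],[[[Int.ofNat (nat_lit 1000824239413013856)]]]]],[[[[[Int.negSucc (nat_lit 9337638692999501627)]]]]]],[[[[[[Int.ofNat (nat_lit 0),Int.negSucc (nat_lit 590559342180227087)]],[[Int.ofNat (nat_lit 908286405192720204)]]]],[[[[Int.ofNat (nat_lit 1101190097947680912)]]]]]],[[[[[[Int.negSucc (nat_lit 4639714262966171723)]]]]]]],[[[[[[[Int.ofNat (nat_lit 0),Int.ofNat (nat_lit 5902197740352922992)]],[[Int.negSucc (nat_lit 5199524456254237655)]]]],[[[[Int.negSucc (nat_lit 15492130243805281259)]]]]]],[[[[[[Int.negSucc (nat_lit 1161920015671536467)],[Int.ofNat (nat_lit 124857889416440400)]]],[[[Int.ofNat (nat_lit 436531863885335652)]]]]],[[[[[Int.negSucc (nat_lit 109516756630049207)]]]]]],[],[[[[[[Int.negSucc (nat_lit 1361079657395804279)]]]]]]],[[[[[[[Int.ofNat (nat_lit 0),Int.negSucc (nat_lit 696357151342809767)]],[[Int.negSucc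 (nat_lit 246117456430382807)]]]],[[[[Int.ofNat (nat_lit 501601326371680836)]]]]]],[[[[[[Int.ofNat (nat_lit 3382198535041213572)]]]]]]],[[],[[[[[[Int.negSucc (nat_lit 3137335818280054763)]]]]]]]],[[[[[[[[Int.ofNat (nat_lit 23546479329135988728)],[Int.ofNat (nat_lit 6777763229807671860)]]],[[[Int.negSucc (nat_lit 760557093900977147)]]]],[[[[Int.ofNat (nat_lit 0),Int.ofNat (nat_lit 1468018138566150324)]],[[Int.negSucc (nat_lit 360373760407177799)]]]],[[[[Int.negSucc (nat_lit 2288377884376919573)]]]]],[[[[[Int.ofNat (nat_lit 11438455989651976524)],[Int.negSucc (nat_lit 1635524030932607723)]]],[[[Int.ofNat (nat_lit 164306509291609500)]]]]],[[[[[Int.negSucc (nat_lit 2828912275487376665)]]]]]],[[[[[[Int.ofNat (nat_lit 0),Int.ofNat (nat_lit 4053911455779141132)]],[[Int.negSucc (nat_lit 3633319193359963463)]]]],[[[[Int.negSucc (nat_lit 6538360671748982051)]]]]]],[[[[[[Int.ofNat (nat_lit 21837163052920389078)]]]]],[[[[[Int.ofNat (nat_lit 2863253183407229364)]]]]]]],[[[[[[[Int.negSucc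 (nat_lit 39672248783801323763)],[Int.negSucc (nat_lit 4179065362481232215)]]],[[[Int.ofNat (nat_lit 890947734663009036)]]]]],[[[[[Int.negSucc (nat_lit 10780239445077631775)]]]]]],[[[],[[[[Int.negSucc (nat_lit 266815860271428779)]]]]]],[[[[[[Int.negSucc (nat_lit 8273978483597653775)]]]]]]],[[[[[[[Int.ofNat (nat_lit 46767104150908125018)]]]]],[[[[[Int.ofNat (nat_lit 4290482895578339004)]]]]]]],[[[[[[[Int.negSucc (nat_lit 10472617593113593523)]]]]]]]],[[[[[[[[Int.ofNat (nat_lit 0),Int.negSucc (nat_lit 5348479117076413343)]],[[Int.ofNat (nat_lit 580592572209586860)]]]],[[[[Int.negSucc (nat_lit 1089112395007625375)]]]]],[[],[[[[Int.ofNat (nat_lit 2280716072067175476)]]]]]],[[[[[[Int.negSucc (nat_lit 28270641516422906627)]]]]],[[[[[Int.ofNat (nat_lit 885098763300448764)]]]]]]],[[[[],[[[[Int.ofNat (nat_lit 3755617558311658500)]]]]]],[[[[[[Int.ofNat (nat_lit 26399750979326088324)]]]]]]]],[[[[[[[[Int.ofNat (nat_lit 13767440130889117350)],[Int.negSucc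 (nat_lit 215842397839904387)]]],[[[Int.negSucc (nat_lit 826689237160546583)]]]]],[[[[[Int.negSucc (nat_lit 3653947871238022823)]]]]]],[],[[[[[[Int.negSucc (nat_lit 4313701151687896979)]]]]]]],[[[[[[[Int.negSucc (nat_lit 11051502582845051207)]]]]]]],[[[[[[[Int.negSucc (nat_lit 5097677679004451543)]]]]]]]],[[[[[],[[[[Int.ofNat (nat_lit 1133680899561836952)]]]]]],[[[[[[Int.ofNat (nat_lit 3772899506149046016)]]]]]]]],[[[[[[[[Int.negSucc (nat_lit 3928847239201907567)]]]]]]]]],[[[[[[[[[Int.ofNat (nat_lit 49525578416074789152),Int.ofNat (nat_lit 0),Int.ofNat (nat_lit 718468176809438316)],[Int.negSucc (nat_lit 1457261596721592635)],[Int.negSucc (nat_lit 779508304834478411)]],[[Int.ofNat (nat_lit 0),Int.negSucc (nat_lit 509840135229058727)]],[[Int.ofNat (nat_lit 2427824088221298786)]]],[[[Int.ofNat (nat_lit 6753309208020495144)],[Int.ofNat (nat_lit 24436553880550224)]]],[[[Int.negSucc (nat_lit 1122556597843541525)]]]],[[[[Int.ofNat (nat_lit 0),Int.negSucc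 (nat_lit 1881196957706340191)]],[[Int.ofNat (nat_lit 3445452401620818900)]]]],[[[[Int.ofNat (nat_lit 6816182365711337424)]]]]],[[[[[Int.ofNat (nat_lit 2805848758255258596)],[Int.negSucc (nat_lit 1316069445649158719)]]],[[[Int.ofNat (nat_lit 1423778341467621852)]]]]],[[[[[Int.ofNat (nat_lit 240517108579173294)]]]]]],[[[[[[Int.ofNat (nat_lit 0),Int.ofNat (nat_lit 504204303846797136)]],[[Int.ofNat (nat_lit 6049665817688227764)]]]],[[[[Int.ofNat (nat_lit 2589015295392446328)]]]]]],[[[[[[Int.ofNat (nat_lit 49027269223958712792)],[Int.negSucc (nat_lit 913602325243168427)]]],[[[Int.negSucc (nat_lit 1407252297168594719)]]]]],[[[[[Int.ofNat (nat_lit 833818018909821228)]]]]]],[],[[[[[[Int.negSucc (nat_lit 6105753597848405981)]]]]]]],[[[[[[[Int.negSucc (nat_lit 67003735129682332823)],[Int.ofNat (nat_lit 629460191163943848)]]],[[[Int.negSucc (nat_lit 2073806222082304091)]]]]],[[[[[Int.negSucc (nat_lit 4297986009695911511)]]]]]],[[[[[[Int.ofNat (nat_lit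 0),Int.ofNat (nat_lit 2672156449847196)]],[[Int.negSucc (nat_lit 1138498633317386375)]]]],[[[[Int.negSucc (nat_lit 861992088988958483)]]]]]],[[[[[[Int.negSucc (nat_lit 9961320293851017959)]]]]]]],[[[[[[[Int.ofNat (nat_lit 52919839499589014874)],[Int.negSucc (nat_lit 835976529368460743)]]],[[[Int.negSucc (nat_lit 2617127464349505527)]]]]],[[[[[Int.ofNat (nat_lit 1000648548790231032)]]]]]],[],[[[[[[Int.negSucc (nat_lit 14479361688900660767)]]]]]]],[[[[[[[Int.negSucc (nat_lit 1455858345433942487)]]]]]]],[[[[[[[Int.negSucc (nat_lit 11889202299968528009)]]]]]]]],[[[[[[[[Int.ofNat (nat_lit 0),Int.negSucc (nat_lit 4344453541581261779)]],[[Int.ofNat (nat_lit 4232820335394184236)]]]],[[[[Int.ofNat (nat_lit 6227957756625380652)],[Int.ofNat (nat_lit 907108567574937744)]]],[[[Int.ofNat (nat_lit 315097334725159452)]]]]],[[[[[Int.ofNat (nat_lit 0),Int.ofNat (nat_lit 305667307832533332)]],[[Int.negSucc (nat_lit 201860515794140015)]]]],[[[[Int.negSucc (nat_lit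 2242946732270059427)]]]]]],[[[[[[Int.ofNat (nat_lit 16479280740035359896)],[Int.ofNat (nat_lit 4548508423998839424)]]],[[[Int.negSucc (nat_lit 2861842358671444727)]]]]],[[[[[Int.ofNat (nat_lit 15332166107174837016)]]]]]],[[[],[[[[Int.negSucc (nat_lit 1173018590130082643)]]]]]],[[[[[[Int.ofNat (nat_lit 26916288299494843836)]]]]]]],[[[[[[[Int.ofNat (nat_lit 0),Int.ofNat (nat_lit 6002143115635232208)]],[[Int.negSucc (nat_lit 3469835181527655047)]]]],[[[[Int.negSucc (nat_lit 7092271635241794659)]]]]]],[[[[[[Int.negSucc (nat_lit 80373426515221550135)]]]]],[[[[[Int.ofNat (nat_lit 239020677868842756)]]]]]]],[[[[],[[[[Int.negSucc (nat_lit 2282551195375988627)]]]]]],[[[[[[Int.ofNat (nat_lit 43149776854685163384)]]]]]]]],[[[[[[[[Int.ofNat (nat_lit 23289269298218172636)],[Int.negSucc (nat_lit 3908775579635790071)]]],[[[Int.negSucc (nat_lit 3843338372236280171)]]]],[],[[[[Int.negSucc (nat_lit 2519974047623271725)]]]]],[[[[[Int.negSucc (nat_lit 5743236208662489443)]]]]],[[[[[Int.negSucc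 (nat_lit 128724390536920565)]]]]]],[[[],[[[[Int.ofNat (nat_lit 7116185460260457156)]]]]]],[[[[[[Int.negSucc (nat_lit 52337671068224202017)]]]]]]],[[[[[[[Int.negSucc (nat_lit 17411447257505864087)]]]]],[[[[[Int.negSucc (nat_lit 7108862638793061419)]]]]]]],[[[[[[[Int.ofNat (nat_lit 14340090465668759658)]]]]]]]],[[[[[[[[Int.ofNat (nat_lit 0),Int.ofNat (nat_lit 212149150396271976)]],[[Int.negSucc (nat_lit 1013403975852112103)]]]],[[[[Int.negSucc (nat_lit 4860258252738297611)]]]]]],[[[[[[Int.ofNat (nat_lit 32279116290251381292)]]]]]]],[[],[[[[[[Int.negSucc (nat_lit 632870431711163483)]]]]]]]],[[[[[[[[Int.negSucc (nat_lit 28859320041089129537)]]]]],[[[[[Int.ofNat (nat_lit 2060007916129959264)]]]]]]],[[[[[[[Int.ofNat (nat_lit 7355221049592016296)]]]]]]]],[],[[[[[[[[Int.ofNat (nat_lit 796386194930009592)]]]]]]]]],[[[[[[[[[Int.ofNat (nat_lit 70017427544996765586)],[Int.negSucc (nat_lit 2868167968118126903)]]],[[[Int.ofNat (nat_lit 129967786012821036)]]]],[[[[Int.ofNat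 (nat_lit 0),Int.ofNat (nat_lit 670129802609609088)]],[[Int.ofNat (nat_lit 1281509351338474212)]]]],[[[[Int.ofNat (nat_lit 1358712146327231238)]]]]],[[[[[Int.negSucc (nat_lit 12579549983259161663)],[Int.negSucc (nat_lit 1809550936371693623)]]],[[[Int.ofNat (nat_lit 378659863092649800)]]]]],[[[[[Int.negSucc (nat_lit 5181974588390626367)]]]]]],[[[[[[Int.ofNat (nat_lit 0),Int.ofNat (nat_lit 1162233820358548728)]],[[Int.ofNat (nat_lit 3831816882042746880)]]]],[[[[Int.negSucc (nat_lit 1046301177213920339)]]]]]],[[[[[[Int.ofNat (nat_lit 47531595724206903876)]]]]],[[[[[Int.negSucc (nat_lit 468788100486411911)]]]]]]],[[[[[[[Int.negSucc (nat_lit 24697729619456214791)],[Int.ofNat (nat_lit 1787956884403694340)]]],[[[Int.ofNat (nat_lit 3251782218355156140)]]]]],[[[[[Int.ofNat (nat_lit 7725181563800169876)]]]]]],[[[],[[[[Int.negSucc (nat_lit 448837309188344519)]]]]]],[[[[[[Int.ofNat (nat_lit 8131273324851672828)]]]]]]],[[[[[[[Int.negSucc (nat_lit 22156575420138547391)]]]]],[[[[[Int.ofNat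 (nat_lit 675787943069579856)]]]]]]],[[[[[[[Int.ofNat (nat_lit 25931243229725335428)]]]]]]]],[[[[[[[[Int.ofNat (nat_lit 0),Int.negSucc (nat_lit 553128826293991163)]],[[Int.negSucc (nat_lit 5488838127148887047)]]]],[[[[Int.negSucc (nat_lit 9227797734200674847)]]]]],[[],[[[[Int.negSucc (nat_lit 1238130706795281239)]]]]]],[[[[[[Int.ofNat (nat_lit 42106489013129672664)]]]]],[[[[[Int.ofNat (nat_lit 13394148490579109424)]]]]]]],[[[[],[[[[Int.ofNat (nat_lit 9014229175289738616)]]]]]],[[[[[[Int.negSucc (nat_lit 75443487651075123047)]]]]]]]],[[[[[[[[Int.negSucc (nat_lit 30931305628397047523)],[Int.ofNat (nat_lit 12832998031273464)]]],[[[Int.negSucc (nat_lit 542231064371490419)]]]]],[[[[[Int.negSucc (nat_lit 4037072524875587099)]]]]]],[],[[[[[[Int.negSucc (nat_lit 12296160378310487927)]]]]]]],[[[[[[[Int.ofNat (nat_lit 41906365835808925908)]]]]]]],[[[[[[[Int.negSucc (nat_lit 15261665791948171475)]]]]]]]],[[[[[],[[[[Int.negSucc (nat_lit 3289997849042391575)]]]]]],[[[[[[Int.ofNat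 (nat_lit 18350932568804016708)]]]]]]]],[[[[[[[[Int.negSucc (nat_lit 22906216918941305447)]]]]]]]]],[[[[[[[[[Int.ofNat (nat_lit 17089827445615972470)],[Int.ofNat (nat_lit 1559404171158751848)]]],[[[Int.negSucc (nat_lit 6379263832706645027)]]]],[],[[[[Int.ofNat (nat_lit 1344910149147665070)]]]]],[[[[[Int.negSucc (nat_lit 5110138557658762319)]]]]],[[[[[Int.negSucc (nat_lit 2729916427929249767)]]]]]],[[[],[[[[Int.negSucc (nat_lit 2684577511770812915)]]]]]],[[[[[[Int.ofNat (nat_lit 10900624231778093136)]]]]]]],[[[[[[[Int.ofNat (nat_lit 61193796280444460784)]]]]],[[[[[Int.ofNat (nat_lit 5021966274317483232)]]]]]]],[[[[[[[Int.negSucc (nat_lit 55603854993931959431)]]]]]]]],[[[[[[[[Int.ofNat (nat_lit 0),Int.ofNat (nat_lit 1483772091562143732)]],[[Int.negSucc (nat_lit 4062358721168632055)]]]],[[[[Int.negSucc (nat_lit 13815044164021944323)]]]]]],[[[[[[Int.ofNat (nat_lit 22933885915224987120)]]]]]]],[[],[[[[[[Int.negSucc (nat_lit 155593486319154563)]]]]]]]],[[[[[[[[Int.negSucc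 (nat_lit 56666960238210991211)]]]]],[[[[[Int.ofNat (nat_lit 3244300631012669808)]]]]]]],[[[[[[[Int.ofNat (nat_lit 19892112577919578224)]]]]]]]],[],[[[[[[[[Int.negSucc (nat_lit 4136155612829005799)]]]]]]]]],[[[[[[[[[Int.negSucc (nat_lit 53325583082348038163)],[Int.ofNat (nat_lit 1642642347834868020)]]],[[[Int.negSucc (nat_lit 1415154842676388223)]]]]],[[[[[Int.ofNat (nat_lit 4656358429119809508)]]]]]],[],[[[[[[Int.negSucc (nat_lit 7891490240733029327)]]]]]]],[[[[[[[Int.ofNat (nat_lit 52006496414252340444)]]]]]]],[[[[[[[Int.negSucc (nat_lit 11510276927558094731)]]]]]]]],[[[[[],[[[[Int.negSucc (nat_lit 5041848197768732327)]]]]]],[[[[[[Int.ofNat (nat_lit 8465814958049636724)]]]]]]]],[[[[[[[[Int.negSucc (nat_lit 36150440261542507919)]]]]]]]]],[[[[[[[[[Int.negSucc (nat_lit 59097697807293391487)]]]]],[[[[[Int.ofNat (nat_lit 2273556606079977792)]]]]]]],[[[[[[[Int.ofNat (nat_lit 6507405330652732404)]]]]]]]],[],[[[[[[[[Int.negSucc (nat_lit 8855297712088854587)]]]]]]]]],[[[[[[[[[Int.negSucc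 (nat_lit 29319315602136498953)]]]]]]]]],[[[[[[[[[Int.negSucc (nat_lit 7598528793136673057)]]]]]]]]]]

/-- A coefficient. -/
noncomputable def sr6_m0_0_1 : MP 10 :=
  [[[[[[[[[[Int.ofNat (nat_lit 0),Int.ofNat (nat_lit 5030426222057229276)]],[[Int.negSucc (nat_lit 11648315422385063435)],[Int.negSucc (nat_lit 48258863685432263)]]],[[[Int.ofNat (nat_lit 0),Int.ofNat (nat_lit 135927471229217532)]],[[Int.negSucc (nat_lit 905440835940864407)]]]],[[[[Int.negSucc (nat_lit 13816290524084196683)],[Int.ofNat (nat_lit 3635125691063052936)]]],[[[Int.negSucc (nat_lit 1239272078425194695)]]]]],[[[[[Int.ofNat (nat_lit 0),Int.negSucc (nat_lit 3483180500773313711)]],[[Int.ofNat (nat_lit 3721284014940902868)]]]],[[[[Int.ofNat (nat_lit 5537625377026270164)]]]]]],[[[[[[Int.ofNat (nat_lit 10343287837489662828)],[Int.ofNat (nat_lit 3599282607135731544)]]],[[[Int.negSucc (nat_lit 10632393795003931679)]]]]],[[[[[Int.ofNat (nat_lit 17441306553630676620)]]]]]],[[[[[],[[Int.negSucc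 (nat_lit 4006199280259327835)]]]],[[[[Int.ofNat (nat_lit 3601441594760364156)]]]]]],[[[[[[Int.ofNat (nat_lit 16203847506082355832)]]]]]]],[[[[[[[Int.ofNat (nat_lit 0),Int.negSucc (nat_lit 5010270340103296799)]],[[Int.ofNat (nat_lit 13765134549695752548)]]]],[[[[Int.ofNat (nat_lit 7955817248861994012)]]]]]],[[[[[[Int.negSucc (nat_lit 19303454139922160735)]]],[[[Int.ofNat (nat_lit 1007301051993186240)]]]]],[[[[[Int.ofNat (nat_lit 488621536583207232)]]]]]]],[[[[[[],[[Int.negSucc (nat_lit 6953374453920119171)]]]],[[[[Int.ofNat (nat_lit 5924481271861176240)]]]]]],[[[[[[Int.ofNat (nat_lit 12948963220542013764)]]]]]]]],[[[[[[[[Int.negSucc (nat_lit 80309565302002270451)],[Int.negSucc (nat_lit 30361634998931757383)]],[[Int.ofNat (nat_lit 0),Int.ofNat (nat_lit 230061280494414540)]],[[Int.negSucc (nat_lit 404494769517164363)]]],[[[Int.ofNat (nat_lit 1081697901283096308)],[Int.negSucc (nat_lit 534421818546815903)]]],[[[Int.negSucc (nat_lit 289044126407339423)]]]],[[[[Int.ofNat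 (nat_lit 0),Int.negSucc (nat_lit 2573565854401451615)]],[[Int.ofNat (nat_lit 61135363268820684)]]]],[[[[Int.negSucc (nat_lit 3122780782913720975)]]]]],[[[[[Int.negSucc (nat_lit 58614486502888660439)],[Int.ofNat (nat_lit 4041560521946444376)]]],[[[Int.negSucc (nat_lit 260308795312827899)]]]]],[[[[[Int.negSucc (nat_lit 4884235725247459211)]]]]]],[[[[[[Int.ofNat (nat_lit 0),Int.ofNat (nat_lit 649916050356520656)]],[[Int.ofNat (nat_lit 7670199634129168824)]]]],[[[[Int.ofNat (nat_lit 23392823390691980220)]]]]]],[[[[[[Int.negSucc (nat_lit 92783623777807087907)]]],[[[Int.negSucc (nat_lit 2336518835676981779)]]]]],[[[[[Int.negSucc (nat_lit 5912855294617119059)]]]]]]],[[[[[[[Int.ofNat (nat_lit 157874063150350317900)],[Int.ofNat (nat_lit 12810980048483216832)]]],[[[Int.ofNat (nat_lit 8289869916513703560)]]]]],[[[[[Int.ofNat (nat_lit 23229602495642279916)]]]]]],[[[[[],[[Int.ofNat (nat_lit 1434676687430155212)]]]],[[[[Int.negSucc (nat_lit 776769169514739215)]]]]]],[[[[[[Int.ofNat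 (nat_lit 999892798064343852)]]]]]]],[[[[[[[Int.negSucc (nat_lit 108187304131535888687)]]],[[[Int.negSucc (nat_lit 3867699999934553987)]]]]],[[[[[Int.negSucc (nat_lit 9939362194538985827)]]]]]]],[[[[[[[Int.ofNat (nat_lit 2957772196553894016)]]]]]]]],[[[[[[[[Int.ofNat (nat_lit 0),Int.ofNat (nat_lit 19309519981386539220)]],[[Int.negSucc (nat_lit 7364808765353112407)]]]],[[[[Int.ofNat (nat_lit 8360890615056142512)]]],[[[Int.ofNat (nat_lit 1881373758587562576)]]]]],[[[[],[[Int.negSucc (nat_lit 782491712673398303)]]]],[[[[Int.negSucc (nat_lit 10569988652527904123)]]]]]],[[[[[[Int.ofNat (nat_lit 181951818869047962720)],[Int.negSucc (nat_lit 1249945430100982691)]]],[[[Int.negSucc (nat_lit 2632587320932725419)]]]]],[[[[[Int.ofNat (nat_lit 2957433832353832236)]]]]]],[],[[[[[[Int.ofNat (nat_lit 9611558939920729500)]]]]]]],[[[[[[[Int.ofNat (nat_lit 0),Int.negSucc (nat_lit 4932884715171175955)]],[[Int.ofNat (nat_lit 2077294719326811696)]]]],[[[[Int.negSucc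 (nat_lit 12522227844222880787)]]]]]],[[[[[[Int.negSucc (nat_lit 87963948357836317571)]]]]]]],[[],[[[[[[Int.ofNat (nat_lit 12702459649671186600)]]]]]]]],[[[[[[[[Int.negSucc (nat_lit 174912756066917771543)],[Int.ofNat (nat_lit 578055910292142456)]]],[[[Int.ofNat (nat_lit 3793136190609777996)]]]]],[[[[[Int.ofNat (nat_lit 35434528596106226316)]]]]]],[[[],[[[[Int.negSucc (nat_lit 1251262668506167331)]]]]]],[[[[[[Int.negSucc (nat_lit 3009270224472606275)]]]]]]],[[[[[[[Int.ofNat (nat_lit 115804549297510865724)]]]]],[[[[[Int.negSucc (nat_lit 5792954139156519335)]]]]]]],[[[[[[[Int.negSucc (nat_lit 25561956836298921287)]]]]]]]],[[[[[[[],[[Int.ofNat (nat_lit 1208245753632108348)]]]],[[[[Int.negSucc (nat_lit 2620063923814555199)]]]]]],[[[[[[Int.negSucc (nat_lit 23313016485757378835)]]]]]]]],[[[[[[[[Int.ofNat (nat_lit 25945160044052602008)]]]]]]],[[[[[[[Int.negSucc (nat_lit 988610427125092175)]]]]]]]]],[[[[[[[[[Int.ofNat (nat_lit 0),Int.ofNat (nat_lit 19641606682406614680)]],[[Int.negSucc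 (nat_lit 19906712099854990523)],[Int.ofNat (nat_lit 48258863685432264)]]],[[[Int.ofNat (nat_lit 0),Int.ofNat (nat_lit 135927471229217532)]],[[Int.ofNat (nat_lit 1890428008251868440)]]]],[[[[Int.negSucc (nat_lit 25671541549981582115)],[Int.negSucc (nat_lit 3635125691063052935)]]],[[[Int.negSucc (nat_lit 3594122453713857815)]]]]],[[[[[Int.ofNat (nat_lit 0),Int.negSucc (nat_lit 3483180500773313711)]],[[Int.ofNat (nat_lit 1582399999083659700)]]]],[[[[Int.ofNat (nat_lit 6028779948193387860)]]]]]],[[[[[[Int.negSucc (nat_lit 44364886026309125651)],[Int.negSucc (nat_lit 334989848269512299)]]],[[[Int.negSucc (nat_lit 7931948369832904343)]]]]],[[[[[Int.negSucc (nat_lit 8205566661158719031)]]]]]],[[[[[],[[Int.ofNat (nat_lit 4006199280259327836)]]]],[[[[Int.negSucc (nat_lit 3601441594760364155)]]]]]],[[[[[[Int.negSucc (nat_lit 12816594078495722555)]]]]]]],[[[[[[[Int.ofNat (nat_lit 0),Int.negSucc (nat_lit 5805033784531042751)]],[[Int.ofNat (nat_lit 15271968858356358672)]]]],[[[[Int.ofNat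 (nat_lit 17133210568800912324)]]]]]],[[[[[[Int.ofNat (nat_lit 35209431875081360904)]]],[[[Int.ofNat (nat_lit 1007301051993186240)]]]]],[[[[[Int.ofNat (nat_lit 488621536583207232)]]]]]]],[[[[[[],[[Int.ofNat (nat_lit 6953374453920119172)]]]],[[[[Int.negSucc (nat_lit 5924481271861176239)]]]]]],[[[[[[Int.negSucc (nat_lit 20234215522399150139)]]]]]]]],[[[[[[[[Int.negSucc (nat_lit 126525977445369782591)],[Int.negSucc (nat_lit 6473787149211711647)]]],[[[Int.negSucc (nat_lit 5350107528053729711)]]]],[[[],[[Int.negSucc (nat_lit 1102899992506839671)]]]],[[[[Int.ofNat (nat_lit 7996949016605741016)]]]]],[[[[[Int.negSucc (nat_lit 7841016101091688883)]]],[[[Int.negSucc (nat_lit 1133474834647297883)]]]]],[[[[[Int.negSucc (nat_lit 5773257624335070863)]]]]]],[[[[[[Int.ofNat (nat_lit 0),Int.negSucc (nat_lit 151766562328773287)]],[[Int.negSucc (nat_lit 518571355485374399)]]]],[[[[Int.ofNat (nat_lit 1999885911921273156)]]]]]],[[[[[[Int.ofNat (nat_lit 87644175311905154844)]]]]]]],[[[[[[[Int.ofNat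 (nat_lit 216874029058663381212)],[Int.negSucc (nat_lit 5731742571197816495)]]],[[[Int.ofNat (nat_lit 3889639151584632456)]]]]],[[[[[Int.ofNat (nat_lit 7717774262763050832)]]]]]],[],[[[[[[Int.ofNat (nat_lit 4563217003969805568)]]]]]]],[[[[[[[Int.negSucc (nat_lit 82632148807207620323)]]]]]]],[[[[[[[Int.ofNat (nat_lit 9228503180438523588)]]]]]]]],[[[[[[[[Int.ofNat (nat_lit 0),Int.ofNat (nat_lit 12382168353220204452)]],[[Int.ofNat (nat_lit 2363032481691640536)]]]],[[[[Int.ofNat (nat_lit 281260141824914232)]]]]]],[[[[[[Int.negSucc (nat_lit 43586727731115898859)]]]]],[[[[[Int.negSucc (nat_lit 4678863432057308831)]]]]]]],[[[[],[[[[Int.ofNat (nat_lit 3699545027061895644)]]]]]],[[[[[[Int.ofNat (nat_lit 2482987315338257952)]]]]]]]],[[[[[[[[Int.negSucc (nat_lit 44842506723808991123)]]],[[[Int.ofNat (nat_lit 1542546833143947840)]]]]],[[[[[Int.ofNat (nat_lit 12935506591762760952)]]]]]]],[[[[[[[Int.negSucc (nat_lit 2641216235513768795)]]]]]]]],[[[],[[[[[[Int.negSucc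 (nat_lit 4481967267085127123)]]]]]]]],[[[[[[[[Int.negSucc (nat_lit 2530015090000112999)]]]]]]]]],[[[[[[[[[Int.ofNat (nat_lit 0),Int.ofNat (nat_lit 21043170557602737912)]],[[Int.ofNat (nat_lit 4159340257999926324)]]]],[[[[Int.ofNat (nat_lit 3174245091634863636)]]],[[[Int.ofNat (nat_lit 668146610431942032)]]]]],[[[[],[[Int.negSucc (nat_lit 320559982020050975)]]]],[[[[Int.negSucc (nat_lit 900655808856320855)]]]]]],[[[[[[Int.negSucc (nat_lit 74911549495228510871)],[Int.negSucc (nat_lit 3264292758866219243)]]],[[[Int.negSucc (nat_lit 5199218789065654775)]]]]],[[[[[Int.negSucc (nat_lit 25011262849190706419)]]]]]],[],[[[[[[Int.negSucc (nat_lit 3387253427586633275)]]]]]]],[[[[[[[Int.ofNat (nat_lit 0),Int.negSucc (nat_lit 794763444427745951)]],[[Int.negSucc (nat_lit 2273673237841646075)]]]],[[[[Int.ofNat (nat_lit 9136552772151331212)]]]]]],[[[[[[Int.ofNat (nat_lit 70454284135449130932)]]]]]]],[[],[[[[[[Int.negSucc (nat_lit 5764972455630461615)]]]]]]]],[[[[[[[[Int.negSucc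 (nat_lit 48751668824331105755)],[Int.ofNat (nat_lit 11240790007509482388)]]],[[[Int.negSucc (nat_lit 3271911342779574311)]]]]],[[[[[Int.ofNat (nat_lit 45621608005793796588)]]]]]],[[[],[[[[Int.ofNat (nat_lit 4670713059881540256)]]]]]],[[[[[[Int.ofNat (nat_lit 24205352641271527812)]]]]]]],[[[[[[[Int.ofNat (nat_lit 27517987938330655008)]]]]],[[[[[Int.negSucc (nat_lit 8865834834130084319)]]]]]]],[[[[[[[Int.negSucc (nat_lit 10646942332006876535)]]]]]]]],[[[[[[[],[[Int.ofNat (nat_lit 3560586943874714928)]]]],[[[[Int.negSucc (nat_lit 4237053553558612211)]]]]]],[[[[[[Int.negSucc (nat_lit 81024571092729030191)]]]]]]]],[[[[[[[[Int.ofNat (nat_lit 39294231060932428188)]]]]]]],[[[[[[[Int.ofNat (nat_lit 10011461934224888400)]]]]]]]]],[[[[[[[[[Int.ofNat (nat_lit 0),Int.ofNat (nat_lit 6431990097253352508)]],[[Int.ofNat (nat_lit 14035650381270790380)]]]],[[[[Int.ofNat (nat_lit 21891303229270244520)]]]]]],[[[[[[Int.negSucc (nat_lit 13943444310312808199)]]]]],[[[[[Int.negSucc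 (nat_lit 7182375016326856487)]]]]]]],[[[[],[[[[Int.ofNat (nat_lit 3693279926043340236)]]]]]],[[[[[[Int.ofNat (nat_lit 21709369481347178388)]]]]]]]],[[[[[[[[Int.negSucc (nat_lit 8648054575812474647)]]],[[[Int.ofNat (nat_lit 784728301479945600)]]]]],[[[[[Int.ofNat (nat_lit 17006141584212382620)]]]]]]],[[[[[[[Int.negSucc (nat_lit 25610227471280171675)]]]]]]]],[[[],[[[[[[Int.negSucc (nat_lit 8822382461376719891)]]]]]]]],[[[[[[[[Int.negSucc (nat_lit 5370691425384416219)]]]]]]]]],[[[[[[[[],[[Int.ofNat (nat_lit 2475740328688834248)]]]],[[[[Int.ofNat (nat_lit 6111172212974818644)]]]]]],[[[[[[Int.ofNat (nat_lit 10940322192197107260)]]]]]]]],[[[[[[[[Int.negSucc (nat_lit 25936936258650977999)]]]]]]],[[[[[[[Int.ofNat (nat_lit 9061061068034407392)]]]]]]]]],[[[[],[[[[[[Int.ofNat (nat_lit 3451025917925171244)]]]]]]]],[[[[[[[[Int.negSucc (nat_lit 20775179846467140335)]]]]]]]]]]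

/-- A coefficient. -/
noncomputable def sr6_m0_0_2 : MP 10 :=
  [[[[[[[[[[Int.ofNat (nat_lit 95929410108802683780)],[Int.ofNat (nat_lit 22556610252013415184)]],[],[[Int.ofNat (nat_lit 2441945063365990728)]]],[[[Int.negSucc (nat_lit 1009395162859503911)]]],[[[Int.ofNat (nat_lit 3510729315856468380)]]]],[[[[Int.ofNat (nat_lit 0),Int.negSucc (nat_lit 2279167944744985787)]],[[Int.negSucc (nat_lit 7654055730268222487)]]]],[[[[Int.ofNat (nat_lit 20724923548809534444)]]]]],[[[[[Int.ofNat (nat_lit 59637949811524739232)],[Int.ofNat (nat_lit 2335151102912601072)]]],[[[Int.negSucc (nat_lit 5375787764620047959)]]]]],[[[[[Int.ofNat (nat_lit 39418406724085346172)]]]]]],[[[[[[Int.ofNat (nat_lit 0),Int.negSucc (nat_lit 9515577842723103419)]],[[Int.ofNat (nat_lit 3887209622994658080)]]]],[[[[Int.negSucc (nat_lit 14493727429670048183)]]]]]],[[[[[[Int.ofNat (nat_lit 78886289478663425526)]]]]],[[[[[Int.ofNat (nat_lit 8826080637646725540)]]]]]]],[[[[[[[Int.negSucc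 (nat_lit 156411862834457152727)],[Int.negSucc (nat_lit 14360458318307145863)]]],[[[Int.negSucc (nat_lit 4276633651697788475)]]]]],[[[[[Int.negSucc (nat_lit 19043157616254772631)]]]]]],[[[],[[[[Int.ofNat (nat_lit 164211704300518692)]]]]]],[[[[[[Int.negSucc (nat_lit 954293215177441439)]]]]]]],[[[[[[[Int.ofNat (nat_lit 125804119992155250816)]]]]],[[[[[Int.ofNat (nat_lit 9776937827245284996)]]]]]]],[[[[[[[Int.negSucc (nat_lit 5917674287885535803)]]]]]]]],[[[[[[[[Int.ofNat (nat_lit 0),Int.negSucc (nat_lit 10766605601106965831)]],[[Int.ofNat (nat_lit 8082245222060714028)]]],[[],[[Int.ofNat (nat_lit 1933781486539897104)]]]],[[[[Int.negSucc (nat_lit 20169188457609562187)],[Int.ofNat (nat_lit 2247016106633506248)]]],[[[Int.negSucc (nat_lit 7860162001915376879)]]]]],[[[[[Int.ofNat (nat_lit 0),Int.negSucc (nat_lit 1794629371247377211)]],[[Int.ofNat (nat_lit 6184095336325896408)]]]],[[[[Int.ofNat (nat_lit 28623133788346440852)]]]]]],[[[[[[Int.negSucc (nat_lit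 337525450695675864803)],[Int.ofNat (nat_lit 5995771998557162832)]]],[[[Int.negSucc (nat_lit 2330564534541150527)]]]]],[[[[[Int.negSucc (nat_lit 27675103283061510335)]]]]]],[[[],[[[[Int.negSucc (nat_lit 1688059890439889207)]]]]]],[[[[[[Int.negSucc (nat_lit 20168485850827540331)]]]]]]],[[[[[[[Int.ofNat (nat_lit 0),Int.ofNat (nat_lit 11512324914336216228)]],[[Int.ofNat (nat_lit 4428092879992886640)]]]],[[[[Int.ofNat (nat_lit 15642474968183233176)]]]]]],[[[[[[Int.ofNat (nat_lit 129081960143365291452)]]]]],[[[[[Int.negSucc (nat_lit 607166924826777167)]]]]]]],[[[[],[[[[Int.negSucc (nat_lit 390337896356269595)]]]]]],[[[[[[Int.negSucc (nat_lit 28853042828826273095)]]]]]]]],[[[[[[[[Int.ofNat (nat_lit 490732797588091887474)],[Int.negSucc (nat_lit 9049141947180734255)]]],[[[Int.negSucc (nat_lit 5841029479726618451)]]]],[],[[[[Int.ofNat (nat_lit 1058654025783204768)]]]]],[[[[[Int.negSucc (nat_lit 93259389109119360767)]]]]],[[[[[Int.ofNat (nat_lit 202875665009778888)]]]]]],[[[[[],[[Int.ofNat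 (nat_lit 34211940304500192)]]]],[[[[Int.negSucc (nat_lit 6508912317618574211)]]]]]],[[[[[[Int.ofNat (nat_lit 35129523742090399008)]]]]]]],[[[[[[[Int.negSucc (nat_lit 274951734644656679375)]]],[[[Int.negSucc (nat_lit 6199332507798923939)]]]]],[[[[[Int.ofNat (nat_lit 27277378623625062444)]]]]]]],[[[[[[[Int.ofNat (nat_lit 63615896897173876788)]]]]]]]],[[[[[[[[Int.ofNat (nat_lit 0),Int.ofNat (nat_lit 2397124444737313452)]],[[Int.ofNat (nat_lit 2218556750384842236)]]]],[[[[Int.negSucc (nat_lit 40824381447997127)]]]]]],[[[[[[Int.ofNat (nat_lit 109408020318580076856)]]]]]]],[[],[[[[[[Int.negSucc (nat_lit 18330567138154749719)]]]]]]]],[[[[[[[[Int.negSucc (nat_lit 88717862551361740211)]]]]],[[[[[Int.negSucc (nat_lit 4561890627636442187)]]]]]]],[[[[[[[Int.ofNat (nat_lit 40133962618777763376)]]]]]]]],[],[[[[[[[[Int.negSucc (nat_lit 3849554917643748155)]]]]]]]]],[[[[[[[[[Int.ofNat (nat_lit 220201974652206552684)],[Int.negSucc (nat_lit 5688875304791378903)]],[],[[Int.negSucc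 (nat_lit 2441945063365990727)]]],[[[Int.ofNat (nat_lit 8958420477992841216)]]],[[[Int.ofNat (nat_lit 3510729315856468380)]]]],[[[[Int.ofNat (nat_lit 0),Int.negSucc (nat_lit 2279167944744985787)]],[[Int.negSucc (nat_lit 461367056390531543)]]]],[[[[Int.negSucc (nat_lit 13741167234925133471)]]]]],[[[[[Int.negSucc (nat_lit 19655922271306360727)],[Int.negSucc (nat_lit 2335151102912601071)]]],[[[Int.negSucc (nat_lit 1841225977015788911)]]]]],[[[[[Int.ofNat (nat_lit 32482364812922984436)]]]]]],[[[[[[Int.ofNat (nat_lit 0),Int.negSucc (nat_lit 9515577842723103419)]],[[Int.negSucc (nat_lit 1348374913777158239)]]]],[[[[Int.ofNat (nat_lit 21775263138348245928)]]]]]],[[[[[[Int.negSucc (nat_lit 113602635225147714029)]]]]],[[[[[Int.negSucc (nat_lit 8826080637646725539)]]]]]]],[[[[[[[Int.negSucc (nat_lit 237185557875909424319)],[Int.ofNat (nat_lit 14360458318307145864)]]],[[[Int.negSucc (nat_lit 5829522331301180375)]]]]],[[[[[Int.ofNat (nat_lit 37918734169211925156)]]]]]],[[[],[[[[Int.ofNat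 (nat_lit 164211704300518692)]]]]]],[[[[[[Int.ofNat (nat_lit 8986845234540333576)]]]]]]],[[[[[[[Int.ofNat (nat_lit 99153021299180465520)]]]]],[[[[[Int.negSucc (nat_lit 9776937827245284995)]]]]]]],[[[[[[[Int.ofNat (nat_lit 5917674287885535804)]]]]]]]],[[[[[[[[Int.ofNat (nat_lit 0),Int.negSucc (nat_lit 8885034554339907983)]],[[Int.ofNat (nat_lit 8875863844280905548)]]]],[[[[Int.negSucc (nat_lit 3566033116473579827)]]]]],[[],[[[[Int.negSucc (nat_lit 1477460363299469603)]]]]]],[[[[[[Int.ofNat (nat_lit 44237239216214791764)]]],[[[Int.negSucc (nat_lit 4359568469866044323)]]]]],[[[[[Int.ofNat (nat_lit 38546927371143557088)]]]]]]],[[[[[[],[[Int.negSucc (nat_lit 1041482849629751939)]]]],[[[[Int.negSucc (nat_lit 33805442725088306771)]]]]]],[[[[[[Int.ofNat (nat_lit 73433502611122746180)]]]]]]]],[[[[[[[[Int.ofNat (nat_lit 257675526136474788318)],[Int.ofNat (nat_lit 3136461199896700392)]]],[[[Int.ofNat (nat_lit 7767884275367846928)]]]]],[[[[[Int.negSucc (nat_lit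 111469754979949744643)]]]]]],[],[[[[[[Int.ofNat (nat_lit 42845245702705761900)]]]]]]],[[[[[[[Int.ofNat (nat_lit 29106378185068157808)]]]]]]],[[[[[[[Int.negSucc (nat_lit 38847288626274163787)]]]]]]]],[[[[[],[[[[Int.ofNat (nat_lit 10435835012309042892)]]]]]],[[[[[[Int.negSucc (nat_lit 53638015855846173095)]]]]]]]],[[[[[[[[Int.ofNat (nat_lit 73583553860036906256)]]]]]]]]],[[[[[[[[[Int.ofNat (nat_lit 287176096371971923410)],[Int.negSucc (nat_lit 23041135039761651419)]]],[[[Int.ofNat (nat_lit 216187355245388856)]]]],[],[[[[Int.negSucc (nat_lit 2331738564806834723)]]]]],[[[[[Int.negSucc (nat_lit 105323634638217266423)]]]]],[[[[[Int.negSucc (nat_lit 321304275257515631)]]]]]],[[[[[],[[Int.ofNat (nat_lit 140177796476702424)]]]],[[[[Int.negSucc (nat_lit 8508570290241418367)]]]]]],[[[[[[Int.negSucc (nat_lit 80821179558266619929)]]]]]]],[[[[[[[Int.negSucc (nat_lit 77913268667036558519)]]],[[[Int.negSucc (nat_lit 5084606257855664963)]]]]],[[[[[Int.ofNat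 (nat_lit 30116960476181868060)]]]]]]],[[[[[[[Int.ofNat (nat_lit 21474947579253527310)]]]]]]]],[[[[[[[[Int.ofNat (nat_lit 0),Int.ofNat (nat_lit 2580207740453267088)]],[[Int.ofNat (nat_lit 5422195157985800304)]]]],[[[[Int.ofNat (nat_lit 47774119307783811276)]]]]]],[[[[[[Int.ofNat (nat_lit 92805497392807889952)]]]]]]],[[],[[[[[[Int.ofNat (nat_lit 67111940672738767284)]]]]]]]],[[[[[[[[Int.negSucc (nat_lit 58510869249764498501)]]]]],[[[[[Int.negSucc (nat_lit 8269997965127158103)]]]]]]],[[[[[[[Int.ofNat (nat_lit 52191968725560443196)]]]]]]]],[],[[[[[[[[Int.negSucc (nat_lit 14466742276754364875)]]]]]]]]],[[[[[[[[[Int.ofNat (nat_lit 339799910495415131922)],[Int.ofNat (nat_lit 6173400092539615140)]]],[[[Int.ofNat (nat_lit 5637246590338396008)]]]]],[[[[[Int.negSucc (nat_lit 48756370926355325891)]]]]]],[],[[[[[[Int.negSucc (nat_lit 22982615671078019525)]]]]]]],[[[[[[[Int.negSucc (nat_lit 32151434204054509055)]]]]]]],[[[[[[[Int.ofNat (nat_lit 29260975819850815998)]]]]]]]],[[[[[],[[[[Int.ofNat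 (nat_lit 7873473360297009084)]]]]]],[[[[[[Int.negSucc (nat_lit 22163626391810378051)]]]]]]]],[[[[[[[[Int.negSucc (nat_lit 24686779261327578905)]]]]]]]]],[[[[[[[[[Int.ofNat (nat_lit 284281191606365735202)]]]]],[[[[[Int.ofNat (nat_lit 651112246525341036)]]]]]]],[[[[[[[Int.negSucc (nat_lit 43486245855271703375)]]]]]]]],[],[[[[[[[[Int.negSucc (nat_lit 29706904739204642891)]]]]]]]]],[[[[[[[[[Int.ofNat (nat_lit 90126556339346198406)]]]]]]]]],[[[[[[[[[Int.negSucc (nat_lit 15906246388592552771)]]]]]]]]]]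

/-- A coefficient. -/
noncomputable def sr6_m0_0_3 : MP 10 :=
  [[[[[[[[[[Int.ofNat (nat_lit 0),Int.negSucc (nat_lit 16897579440397302851)]],[[Int.ofNat (nat_lit 16680685906316914800)]]]],[[[[Int.ofNat (nat_lit 21439937474046729288)]]],[[[Int.ofNat (nat_lit 1093128628783883556)]]]]],[[[[],[[Int.ofNat (nat_lit 3441477160290635904)]]]],[[[[Int.negSucc (nat_lit 11312915667335563595)]]]]]],[[[[[[Int.ofNat (nat_lit 211719515599002665652)],[Int.ofNat (nat_lit 1211559746259047184)]]],[[[Int.ofNat (nat_lit 9390760470087617964)]]]]],[[[[[Int.ofNat (nat_lit 70094677119845074308)]]]]]],[],[[[[[[Int.negSucc (nat_lit 2406686970772835747)]]]]]]],[[[[[[[Int.ofNat (nat_lit 0),Int.ofNat (nat_lit 5796419003578067832)]],[[Int.negSucc (nat_lit 13738986102387509447)]]]],[[[[Int.negSucc (nat_lit 40419542559301331339)]]]]]],[[[[[[Int.negSucc (nat_lit 74334547006680977855)]]]]]]],[[],[[[[[[Int.ofNat (nat_lit 4964831241516936240)]]]]]]]],[[[[[[[[Int.negSucc (nat_lit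 516913775529441096467)],[Int.ofNat (nat_lit 29214767685994237560)]]],[[[Int.ofNat (nat_lit 6995633044960214100)]]]],[[[],[[Int.ofNat (nat_lit 195657296263652880)]]]],[[[[Int.negSucc (nat_lit 5022688079072778839)]]]]],[[[[[Int.negSucc (nat_lit 9558778527634615943)]]],[[[Int.ofNat (nat_lit 3280971511872005976)]]]]],[[[[[Int.negSucc (nat_lit 5817003046556757923)]]]]]],[[[[[[Int.ofNat (nat_lit 0),Int.negSucc (nat_lit 467630544326557427)]],[[Int.negSucc (nat_lit 5921746398049495859)]]]],[[[[Int.ofNat (nat_lit 429261799158051564)]]]]]],[[[[[[Int.negSucc (nat_lit 89064617642558469671)]]]]]]],[[[[[[[Int.ofNat (nat_lit 258230964163496227008)],[Int.negSucc (nat_lit 4089448492857930971)]]],[[[Int.ofNat (nat_lit 10158501426085843728)]]]]],[[[[[Int.negSucc (nat_lit 25150979599361365151)]]]]]],[],[[[[[[Int.ofNat (nat_lit 12327840354061060656)]]]]]]],[[[[[[[Int.negSucc (nat_lit 103967224035580512299)]]]]]]],[[[[[[[Int.ofNat (nat_lit 15032976110374068516)]]]]]]]],[[[[[[[[Int.ofNat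 (nat_lit 0),Int.negSucc (nat_lit 13386135763706228351)]],[[Int.negSucc (nat_lit 941759224318965551)]]]],[[[[Int.negSucc (nat_lit 34314200097032507063)]]]]]],[[[[[[Int.negSucc (nat_lit 201711234817908551531)]]]]],[[[[[Int.ofNat (nat_lit 13059804924047890848)]]]]]]],[[[[],[[[[Int.ofNat (nat_lit 11038331986883798676)]]]]]],[[[[[[Int.ofNat (nat_lit 55110097840221717672)]]]]]]]],[[[[[[[[Int.ofNat (nat_lit 266159657981934482160)]]],[[[Int.ofNat (nat_lit 330795097586294496)]]]]],[[[[[Int.negSucc (nat_lit 10838197996011064307)]]]]]]],[[[[[[[Int.negSucc (nat_lit 108076668379849603955)]]]]]]]],[[[],[[[[[[Int.negSucc (nat_lit 2988406248934023407)]]]]]]]],[[[[[[[[Int.ofNat (nat_lit 26643588432619116168)]]]]]]]]],[[[[[[[[[Int.ofNat (nat_lit 0),Int.negSucc (nat_lit 35433370947335084939)]],[[Int.ofNat (nat_lit 5844738278699128872)]]]],[[[[Int.ofNat (nat_lit 21204231383948723808)]]],[[[Int.ofNat (nat_lit 1093128628783883556)]]]]],[[[[],[[Int.negSucc (nat_lit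 3441477160290635903)]]]],[[[[Int.negSucc (nat_lit 4774854984019283843)]]]]]],[[[[[[Int.ofNat (nat_lit 29071884739926005652)],[Int.negSucc (nat_lit 1211559746259047183)]]],[[[Int.ofNat (nat_lit 5306896656037657692)]]]]],[[[[[Int.ofNat (nat_lit 14128055242125897744)]]]]]],[],[[[[[[Int.ofNat (nat_lit 2406686970772835748)]]]]]]],[[[[[[[Int.ofNat (nat_lit 0),Int.ofNat (nat_lit 5796419003578067832)]],[[Int.negSucc (nat_lit 8602026625827922607)]]]],[[[[Int.ofNat (nat_lit 13642162627081756032)]]]]]],[[[[[[Int.negSucc (nat_lit 92406121513386199691)]]]]]]],[[],[[[[[[Int.ofNat (nat_lit 3863983377843295152)]]]]]]]],[[[[[[[[Int.negSucc (nat_lit 121385756882543459651)],[Int.ofNat (nat_lit 4964157399232002264)]]],[[[Int.ofNat (nat_lit 1958668306549740984)]]]]],[[[[[Int.ofNat (nat_lit 9604716373593056436)]]]]]],[[[],[[[[Int.negSucc (nat_lit 3775254285478670879)]]]]]],[[[[[[Int.negSucc (nat_lit 91700248613422850003)]]]]]]],[[[[[[[Int.negSucc (nat_lit 129787346498273782115)]]]]],[[[[[Int.ofNat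 (nat_lit 32744441113752536748)]]]]]]],[[[[[[[Int.ofNat (nat_lit 86367485196270448104)]]]]]]]],[[[[[[[],[[Int.negSucc (nat_lit 867999296975101175)]]]],[[[[Int.negSucc (nat_lit 57217743903761436323)]]]]]],[[[[[[Int.ofNat (nat_lit 70592756919051403788)]]]]]]]],[[[[[[[[Int.negSucc (nat_lit 116222662946282313755)]]]]]]],[[[[[[[Int.ofNat (nat_lit 40439833324759612548)]]]]]]]]],[[[[[[[[[Int.ofNat (nat_lit 0),Int.negSucc (nat_lit 18535791506937782087)]],[[Int.ofNat (nat_lit 4966137803942904012)]]]],[[[[Int.negSucc (nat_lit 66842915459353402115)]]]]]],[[[[[[Int.negSucc (nat_lit 28126579775800350203)]]]]],[[[[[Int.negSucc (nat_lit 11092098288861885563)]]]]]]],[[[[],[[[[Int.negSucc (nat_lit 14091838895566328195)]]]]]],[[[[[[Int.negSucc (nat_lit 6509767760084207843)]]]]]]]],[[[[[[[[Int.ofNat (nat_lit 377399533798759563912)]]],[[[Int.ofNat (nat_lit 4985266495390625196)]]]]],[[[[[Int.negSucc (nat_lit 22333697246419333955)]]]]]]],[[[[[[[Int.negSucc (nat_lit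 150379203498686347187)]]]]]]]],[[[],[[[[[[Int.negSucc (nat_lit 10368135584732900663)]]]]]]]],[[[[[[[[Int.ofNat (nat_lit 23383001778210492144)]]]]]]]]],[[[[[[[[],[[Int.ofNat (nat_lit 3366422170294520124)]]]],[[[[Int.negSucc (nat_lit 11669633122008848819)]]]]]],[[[[[[Int.negSucc (nat_lit 59052216366787112591)]]]]]]]],[[[[[[[[Int.ofNat (nat_lit 146803800613642229052)]]]]]]],[[[[[[[Int.ofNat (nat_lit 113300469259278912372)]]]]]]]]],[[[[],[[[[[[Int.negSucc (nat_lit 24626311824308248667)]]]]]]]],[[[[[[[[Int.negSucc (nat_lit 84070041937664673407)]]]]]]]]]]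

/-- A coefficient. -/
noncomputable def sr6_m0_0_4 : MP 10 :=
  [[[[[[[[[[Int.ofNat (nat_lit 146485458985038844008)],[Int.negSucc (nat_lit 19480447010975490695)]]],[[[Int.negSucc (nat_lit 10358466159634261055)]]]],[],[[[[Int.ofNat (nat_lit 21733392198260957046)]]]]],[[[[[Int.ofNat (nat_lit 94421943529635128748)]]]]],[[[[[Int.ofNat (nat_lit 20119994625173717268)]]]]]],[[[[[],[[Int.ofNat (nat_lit 5180648007502245180)]]]],[[[[Int.ofNat (nat_lit 7241397038643148296)]]]]]],[[[[[[Int.ofNat (nat_lit 126876289024051524756)]]]]]]],[[[[[[[Int.negSucc (nat_lit 85639990676441005439)]]],[[[Int.ofNat (nat_lit 11280344113460470632)]]]]],[[[[[Int.negSucc (nat_lit 82411278953757325583)]]]]]]],[[[[[[[Int.ofNat (nat_lit 41577203901427230528)]]]]]]]],[[[[[[[[Int.ofNat (nat_lit 0),Int.ofNat (nat_lit 19358910476706534828)]],[[Int.negSucc (nat_lit 26997223876179211487)]]]],[[[[Int.ofNat (nat_lit 83957750606482528692)]]]]],[[],[[[[Int.ofNat (nat_lit 1820481546426844368)]]]]]],[[[[[[Int.ofNat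 (nat_lit 59557474485272458584)]]],[[[Int.ofNat (nat_lit 11275667811164110980)]]]]],[[[[[Int.negSucc (nat_lit 28322798534812533191)]]]]]]],[[[[[[],[[Int.negSucc (nat_lit 1763889301228478843)]]]],[[[[Int.negSucc (nat_lit 38475207489288938939)]]]]]],[[[[[[Int.negSucc (nat_lit 65458313714958098207)]]]]]]]],[[[[[[[[Int.negSucc (nat_lit 672703913700901060823)],[Int.negSucc (nat_lit 4423219991857184351)]]],[[[Int.ofNat (nat_lit 7005662908556799936)]]]]],[[[[[Int.negSucc (nat_lit 6700949822697729095)]]]]]],[],[[[[[[Int.negSucc (nat_lit 22558092711425418287)]]]]]]],[[[[[[[Int.ofNat (nat_lit 390042545620506483432)]]]]]]],[[[[[[[Int.negSucc (nat_lit 20024509979446839587)]]]]]]]],[[[[[],[[[[Int.negSucc (nat_lit 13834735757276339759)]]]]]],[[[[[[Int.ofNat (nat_lit 23706660227256119208)]]]]]]]],[[[[[[[[Int.negSucc (nat_lit 72034396473385892189)]]]]]]]]],[[[[[[[[[Int.negSucc (nat_lit 422525022983803608371)],[Int.ofNat (nat_lit 7252398471353251740)]]],[[[Int.negSucc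 (nat_lit 24307565047024098923)]]]],[],[[[[Int.ofNat (nat_lit 21733392198260957046)]]]]],[[[[[Int.ofNat (nat_lit 57711252640546429644)]]]]],[[[[[Int.negSucc (nat_lit 20119994625173717267)]]]]]],[[[[[],[[Int.negSucc (nat_lit 5180648007502245179)]]]],[[[[Int.ofNat (nat_lit 19891410400779314880)]]]]]],[[[[[[Int.ofNat (nat_lit 249315387362060572776)]]]]]]],[[[[[[[Int.ofNat (nat_lit 379812211951853453256)]]],[[[Int.ofNat (nat_lit 11280344113460470632)]]]]],[[[[[Int.negSucc (nat_lit 10516012233799448231)]]]]]]],[[[[[[[Int.negSucc (nat_lit 209309246574669741527)]]]]]]]],[[[[[[[[Int.ofNat (nat_lit 0),Int.ofNat (nat_lit 13796421787708355076)]],[[Int.negSucc (nat_lit 6428160608300156447)]]]],[[[[Int.ofNat (nat_lit 74139567975662761200)]]]]]],[[[[[[Int.negSucc (nat_lit 266581943669909156483)]]]]]]],[[],[[[[[[Int.negSucc (nat_lit 69381543842159911835)]]]]]]]],[[[[[[[[Int.negSucc (nat_lit 271917313808735306891)]]]]],[[[[[Int.ofNat (nat_lit 31981418505045206352)]]]]]]],[[[[[[[Int.ofNat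 (nat_lit 28660836736845529440)]]]]]]]],[],[[[[[[[[Int.negSucc (nat_lit 31083345225174868625)]]]]]]]]],[[[[[[[[[Int.negSucc (nat_lit 1173618931413980310113)],[Int.ofNat (nat_lit 12228048539622238956)]]],[[[Int.negSucc (nat_lit 8014071064730514059)]]]]],[[[[[Int.ofNat (nat_lit 9688169625151317288)]]]]]],[],[[[[[[Int.ofNat (nat_lit 4323789913959848532)]]]]]]],[[[[[[[Int.ofNat (nat_lit 463862840333455586700)]]]]]]],[[[[[[[Int.negSucc (nat_lit 55092099820060777655)]]]]]]]],[[[[[],[[[[Int.negSucc (nat_lit 13872619658363009387)]]]]]],[[[[[[Int.ofNat (nat_lit 53124914841421103712)]]]]]]]],[[[[[[[[Int.negSucc (nat_lit 236339089677550802417)]]]]]]]]],[[[[[[[[[Int.negSucc (nat_lit 1001602360085812836785)]]]]],[[[[[Int.ofNat (nat_lit 27502334786177805360)]]]]]]],[[[[[[[Int.negSucc (nat_lit 31108241920057572875)]]]]]]]],[],[[[[[[[[Int.negSucc (nat_lit 23865630245931658157)]]]]]]]]],[[[[[[[[[Int.negSucc (nat_lit 350337839652377050883)]]]]]]]]],[[[[[[[[[Int.negSucc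 (nat_lit 122540145075240562499)]]]]]]]]]]

/-- A coefficient. -/
noncomputable def sr6_m0_0_5 : MP 10 :=
  [[[[[[[[[[Int.ofNat (nat_lit 0),Int.ofNat (nat_lit 7165447441680386220)]],[[Int.negSucc (nat_lit 457352385422912867)]]]],[[[[Int.negSucc (nat_lit 35341853854466012483)]]]]]],[[[[[[Int.ofNat (nat_lit 104680958143684941180)]]]]],[[[[[Int.ofNat (nat_lit 22333373101363223208)]]]]]]],[[[[],[[[[Int.ofNat (nat_lit 12202432462120053156)]]]]]],[[[[[[Int.negSucc (nat_lit 59666028875227712519)]]]]]]]],[[[[[[[[Int.ofNat (nat_lit 697216018582517826396)],[Int.negSucc (nat_lit 3851251136761736747)]]],[[[Int.negSucc (nat_lit 3985358455578764087)]]]]],[[[[[Int.ofNat (nat_lit 51751102214268070956)]]]]]],[[[],[[[[Int.ofNat (nat_lit 14382950102925480600)]]]]]],[[[[[[Int.negSucc (nat_lit 59124290232712283183)]]]]]]],[[[[[[[Int.negSucc (nat_lit 400346753307797124431)]]]]],[[[[[Int.ofNat (nat_lit 3265167115406621424)]]]]]]],[[[[[[[Int.negSucc (nat_lit 20100975871840509131)]]]]]]]],[[[[[[[],[[Int.ofNat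 (nat_lit 9279157521206006628)]]]],[[[[Int.ofNat (nat_lit 31655525610995298348)]]]]]],[[[[[[Int.negSucc (nat_lit 291584688124716083)]]]]]]]],[[[[[[[[Int.negSucc (nat_lit 9895900634419315823)]]]]]]],[[[[[[[Int.negSucc (nat_lit 26579993913945061391)]]]]]]]]],[[[[[[[[[Int.ofNat (nat_lit 0),Int.ofNat (nat_lit 7165447441680386220)]],[[Int.negSucc (nat_lit 16128702959411374619)]]]],[[[[Int.ofNat (nat_lit 33857501488099499448)]]]]]],[[[[[[Int.ofNat (nat_lit 309915960290836380348)]]]]],[[[[[Int.negSucc (nat_lit 22333373101363223207)]]]]]]],[[[[],[[[[Int.ofNat (nat_lit 12202432462120053156)]]]]]],[[[[[[Int.ofNat (nat_lit 37747424009083064352)]]]]]]]],[[[[[[[[Int.ofNat (nat_lit 258026995208725057920)]]],[[[Int.negSucc (nat_lit 1555213555401987383)]]]]],[[[[[Int.negSucc (nat_lit 19528122528216200075)]]]]]]],[[[[[[[Int.negSucc (nat_lit 238142767120630842935)]]]]]]]],[[[],[[[[[[Int.negSucc (nat_lit 55021560951595659371)]]]]]]]],[[[[[[[[Int.ofNat (nat_lit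 152062538945834267676)]]]]]]]]],[[[[[[[[],[[Int.ofNat (nat_lit 2090086685689119000)]]]],[[[[Int.ofNat (nat_lit 59271701032181184780)]]]]]],[[[[[[Int.negSucc (nat_lit 19797527760103345943)]]]]]]]],[[[[[[[[Int.ofNat (nat_lit 95924240008771174800)]]]]]]],[[[[[[[Int.negSucc (nat_lit 109495112408409055379)]]]]]]]]],[[[[],[[[[[[Int.ofNat (nat_lit 75136585590551491296)]]]]]]]],[[[[[[[[Int.negSucc (nat_lit 188734829401739047295)]]]]]]]]]]

/-- A coefficient. -/
noncomputable def sr6_m0_0_6 : MP 10 :=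
  [[[[[[[[[[Int.ofNat (nat_lit 68346297151549725972)],[Int.ofNat (nat_lit 5330260409198968452)]]],[[[Int.ofNat (nat_lit 10501908805833746004)]]]]],[[[[[Int.negSucc (nat_lit 96642386427408038099)]]]]]],[],[[[[[[Int.ofNat (nat_lit 105341524824449933418)]]]]]]],[[[[[[[Int.negSucc (nat_lit 45796183749294196967)]]]]]]],[[[[[[[Int.ofNat (nat_lit 205723551170919592398)]]]]]]]],[[[[[[[[Int.ofNat (nat_lit 0),Int.negSucc (nat_lit 4215985855774231091)]],[[Int.ofNat (nat_lit 15009174674133671112)]]]],[[[[Int.negSucc (nat_lit 86223438429001990631)]]]]]],[[[[[[Int.negSucc (nat_lit 83515226445426073547)]]]]]]],[[],[[[[[[Int.ofNat (nat_lit 94680392603038835928)]]]]]]]],[[[[[[[[Int.ofNat (nat_lit 382824742407621022530)]]]]],[[[[[Int.negSucc (nat_lit 18633280126247782847)]]]]]]],[[[[[[[Int.ofNat (nat_lit 20486364346720060560)]]]]]]]],[],[[[[[[[[Int.ofNat (nat_lit 8543826647286692316)]]]]]]]]],[[[[[[[[[Int.ofNat (nat_lit 1111292782147340625132)],[Int.negSucc (nat_lit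 5330260409198968451)]]],[[[Int.ofNat (nat_lit 4075759134120048180)]]]]],[[[[[Int.ofNat (nat_lit 4655814367444166808)]]]]]],[],[[[[[[Int.negSucc (nat_lit 105341524824449933417)]]]]]]],[[[[[[[Int.negSucc (nat_lit 221660507253170391167)]]]]]]],[[[[[[[Int.ofNat (nat_lit 139856416641848260710)]]]]]]]],[[[[[],[[[[Int.negSucc (nat_lit 61547413664724618275)]]]]]],[[[[[[Int.ofNat (nat_lit 164051090266178273232)]]]]]]]],[[[[[[[[Int.negSucc (nat_lit 376110345921544009241)]]]]]]]]],[[[[[[[[[Int.ofNat (nat_lit 1489950939449810954586)]]]]],[[[[[Int.ofNat (nat_lit 32783074908385610148)]]]]]]],[[[[[[[Int.negSucc (nat_lit 152761092521214569159)]]]]]]]],[],[[[[[[[[Int.negSucc (nat_lit 113900554177193005163)]]]]]]]]],[[[[[[[[[Int.ofNat (nat_lit 847320432764220458130)]]]]]]]]],[[[[[[[[[Int.negSucc (nat_lit 83342867353717925159)]]]]]]]]]]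

/-- A coefficient. -/
noncomputable def sr6_m0_0_7 : MP 10 :=
  [[[[[[[[[],[[Int.negSucc (nat_lit 11492194541121435527)]]]],[[[[Int.ofNat (nat_lit 42851675339788121040)]]]]]],[[[[[[Int.negSucc (nat_lit 63366759693531349667)]]]]]]]],[[[[[[[[Int.negSucc (nat_lit 628949539464040414319)]]],[[[Int.negSucc (nat_lit 8341160834023005083)]]]]],[[[[[Int.ofNat (nat_lit 17463531791824101024)]]]]]]],[[[[[[[Int.ofNat (nat_lit 84231889883423802168)]]]]]]]],[[[],[[[[[[Int.negSucc (nat_lit 46606577945687554919)]]]]]]]],[[[[[[[[Int.negSucc (nat_lit 116465600571537739523)]]]]]]]]],[[[[[[[[],[[Int.ofNat (nat_lit 11492194541121435528)]]]],[[[[Int.negSucc (nat_lit 5904472939876313039)]]]]]],[[[[[[Int.negSucc (nat_lit 351586116525261806015)]]]]]]]],[[[[[[[[Int.ofNat (nat_lit 238201979793928607904)]]]]]]],[[[[[[[Int.negSucc (nat_lit 7373071376643727295)]]]]]]]]],[[[[],[[[[[[Int.ofNat (nat_lit 22597839970802563500)]]]]]]]],[[[[[[[[Int.negSucc (nat_lit 297660375283613109287)]]]]]]]]]]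

/-- A coefficient. -/
noncomputable def sr6_m0_0_8 : MP 10 :=
  [[[[[[[[[[Int.negSucc (nat_lit 230103642033528170093)]]]]],[[[[[Int.ofNat (nat_lit 15240814056457023324)]]]]]]],[[[[[[[Int.ofNat (nat_lit 113411189370994630776)]]]]]]]],[[[[[],[[[[Int.ofNat (nat_lit 4181607018749435424)]]]]]],[[[[[[Int.ofNat (nat_lit 139690880399061332616)]]]]]]]],[[[[[[[[Int.negSucc (nat_lit 26445901857341560979)]]]]]]]]],[[[[[[[[[Int.negSucc (nat_lit 1430421391454106539417)]]]]],[[[[[Int.negSucc (nat_lit 15240814056457023323)]]]]]]],[[[[[[[Int.ofNat (nat_lit 144226732254093046992)]]]]]]]],[],[[[[[[[[Int.ofNat (nat_lit 229430400002257843368)]]]]]]]]],[[[[[[[[[Int.negSucc (nat_lit 481530871216134934487)]]]]]]]]],[[[[[[[[[Int.negSucc (nat_lit 222400165945556691791)]]]]]]]]]]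

/-- A coefficient. -/
noncomputable def sr6_m0_0_9 : MP 10 :=
  [[[[[],[[[[[[Int.negSucc (nat_lit 77073878336524555511)]]]]]]]],[[[[[[[[Int.ofNat (nat_lit 518916927050596316736)]]]]]]],[[[[[[[Int.negSucc (nat_lit 32736778561123386203)]]]]]]]]],[[[[],[[[[[[Int.ofNat (nat_lit 77073878336524555512)]]]]]]]],[[[[[[[[Int.negSucc (nat_lit 297708771936668230619)]]]]]]]]]]

/-- A coefficient. -/
noncomputable def sr6_m0_0_10 : MP 10 :=
  [[[[[[[[[[Int.negSucc (nat_lit 17422922569844521781)]]]]]]]],[],[[[[[[[[Int.negSucc (nat_lit 12182056373250984395)]]]]]]]]],[[[[[[[[[Int.ofNat (nat_lit 941936844898392266214)]]]]]]]]],[[[[[[[[[Int.ofNat (nat_lit 33750661567163147868)]]]]]]]]]]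

/-- A coefficient. -/
noncomputable def sr6_m0_0_11 : MP 10 :=
  [[[],[[[[[[[[Int.negSucc (nat_lit 250078308751269606803)]]]]]]]]]]

/-- A coefficient. -/
noncomputable def sr6_m0_0_12 : MP 10 :=
  [[[[[[[[[[Int.ofNat (nat_lit 180249307367254751232)]]]]]]]]],[[[[[[[[[Int.negSucc (nat_lit 180249307367254751231)]]]]]]]]]]

/-- A coefficient. -/
noncomputable def sr6_m0_1_0 : MP 10 :=
  [[[[[[[[[[Int.negSucc (nat_lit 108376515344135872655)],[Int.negSucc (nat_lit 9883165912494926639)]],[[Int.ofNat (nat_lit 0),Int.ofNat (nat_lit 836936745784589508)]],[[Int.negSucc (nat_lit 6245440062479403443)]]],[[[Int.negSucc (nat_lit 18023287274515484279)],[Int.ofNat (nat_lit 470718793996903836)]]],[[[Int.negSucc (nat_lit 3810718775585014607)]]]],[[[[Int.ofNat (nat_lit 0),Int.ofNat (nat_lit 10830426944090854908)]],[[Int.negSucc (nat_lit 7243838209707019979)]]]],[[[[Int.negSucc (nat_lit 44722210407146341283)]]]]],[[[[[Int.negSucc (nat_lit 54749433078062567951)],[Int.negSucc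 (nat_lit 8744172875472279791)]]],[[[Int.ofNat (nat_lit 1593055399903963980)]]]]],[[[[[Int.negSucc (nat_lit 31010347224664145615)]]]]]],[[[[[[Int.ofNat (nat_lit 0),Int.ofNat (nat_lit 3387848606949765924)]],[[Int.negSucc (nat_lit 10237066758268042427)]]]],[[[[Int.negSucc (nat_lit 19886795177558620367)]]]]]],[[[[[[Int.negSucc (nat_lit 113060022689975764511)]]],[[[Int.negSucc (nat_lit 116422464847746671)]]]]],[[[[[Int.negSucc (nat_lit 15011511440858618963)]]]]]]],[[[[[[[Int.ofNat (nat_lit 185621907038647574112)],[Int.ofNat (nat_lit 6197004512832480192)]]],[[[Int.ofNat (nat_lit 10513056907228475412)]]]]],[[[[[Int.ofNat (nat_lit 52237305179586277644)]]]]]],[[[[[],[[Int.ofNat (nat_lit 1092811100121699780)]]]],[[[[Int.ofNat (nat_lit 1107610853825541204)]]]]]],[[[[[[Int.ofNat (nat_lit 48583443500191434384)]]]]]]],[[[[[[[Int.negSucc (nat_lit 183526057799908754315)]]],[[[Int.negSucc (nat_lit 2177723748222974195)]]]]],[[[[[Int.negSucc (nat_lit 20024242156734799367)]]]]]]],[[[[[[[Int.ofNat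 (nat_lit 65619495556186071528)]]]]]]]],[[[[[[[[Int.ofNat (nat_lit 0),Int.ofNat (nat_lit 12486292881928896384)]],[[Int.negSucc (nat_lit 17790801931416172871)],[Int.negSucc (nat_lit 924831951964875827)]]],[[[Int.ofNat (nat_lit 0),Int.ofNat (nat_lit 256298252007928368)]],[[Int.ofNat (nat_lit 5419146219630585024)]]]],[[[[Int.negSucc (nat_lit 24572712279105212291)],[Int.negSucc (nat_lit 10990915954742900915)]]],[[[Int.ofNat (nat_lit 145901303407548852)]]]]],[[[[[Int.ofNat (nat_lit 0),Int.ofNat (nat_lit 9162440014342524300)]],[[Int.negSucc (nat_lit 6056040964186019879)]]]],[[[[Int.negSucc (nat_lit 11667961005628016051)]]]]]],[[[[[[Int.ofNat (nat_lit 30502645790871934884)],[Int.negSucc (nat_lit 1027395506672916371)]]],[[[Int.negSucc (nat_lit 898324080285421511)]]]]],[[[[[Int.ofNat (nat_lit 45419586350560180248)]]]]]],[[[[[],[[Int.negSucc (nat_lit 415742542718362295)]]]],[[[[Int.negSucc (nat_lit 8299880525613420023)]]]]]],[[[[[[Int.negSucc (nat_lit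 26675231480202084407)]]]]]]],[[[[[[[Int.ofNat (nat_lit 0),Int.negSucc (nat_lit 11406748717802163059)]],[[Int.ofNat (nat_lit 10398072362565673836)]]]],[[[[Int.ofNat (nat_lit 76757581228655900244)]]]]]],[[[[[[Int.ofNat (nat_lit 62188569771673994808)]]],[[[Int.negSucc (nat_lit 928954281933588011)]]]]],[[[[[Int.ofNat (nat_lit 1677720444324434448)]]]]]]],[[[[[[],[[Int.ofNat (nat_lit 1829168738173647492)]]]],[[[[Int.negSucc (nat_lit 9694142935935273827)]]]]]],[[[[[[Int.negSucc (nat_lit 51401370663081094739)]]]]]]]],[[[[[[[[Int.negSucc (nat_lit 129659799147510134627)],[Int.negSucc (nat_lit 9650855847268457939)]]],[[[Int.ofNat (nat_lit 13042574627369721348)]]]],[[[],[[Int.ofNat (nat_lit 343095521719199676)]]]],[[[[Int.ofNat (nat_lit 18155539101128078784)]]]]],[[[[[Int.negSucc (nat_lit 73346930221777653203)]]],[[[Int.ofNat (nat_lit 616562622223840800)]]]]],[[[[[Int.ofNat (nat_lit 10285831037110496364)]]]]]],[[[[[[Int.ofNat (nat_lit 0),Int.negSucc (nat_lit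 4387290301370740451)]],[[Int.ofNat (nat_lit 3723252385867938048)]]]],[[[[Int.ofNat (nat_lit 29595898888416333480)]]]]]],[[[[[[Int.ofNat (nat_lit 23145275982435126888)]]]]]]],[[[[[[[Int.ofNat (nat_lit 97645389860408291520)],[Int.ofNat (nat_lit 5328123899096099196)]]],[[[Int.negSucc (nat_lit 8741567614099159379)]]]]],[[[[[Int.ofNat (nat_lit 45947013186795094164)]]]]]],[],[[[[[[Int.ofNat (nat_lit 13557943047683771304)]]]]]]],[[[[[[[Int.negSucc (nat_lit 64824378243436160387)]]]]]]],[[[[[[[Int.ofNat (nat_lit 17329180432701998604)]]]]]]]],[[[[[[[[Int.ofNat (nat_lit 0),Int.ofNat (nat_lit 10300006992499087080)]],[[Int.negSucc (nat_lit 1249330613963337923)]]]],[[[[Int.negSucc (nat_lit 25237635836670387671)]]]]]],[[[[[[Int.ofNat (nat_lit 26979108553962979092)]]]]],[[[[[Int.negSucc (nat_lit 5108806800480710819)]]]]]]],[[[[],[[[[Int.negSucc (nat_lit 4228486791405971471)]]]]]],[[[[[[Int.negSucc (nat_lit 56061201648630416291)]]]]]]]],[[[[[[[[Int.negSucc (nat_lit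 3475999998596321303)]]],[[[Int.negSucc (nat_lit 314008486192915151)]]]]],[[[[[Int.ofNat (nat_lit 26730167795750176116)]]]]]]],[[[[[[[Int.ofNat (nat_lit 20514541160775399036)]]]]]]]],[[[],[[[[[[Int.ofNat (nat_lit 1795533649124521968)]]]]]]]],[[[[[[[[Int.ofNat (nat_lit 5440194709872422580)]]]]]]]]],[[[[[[[[[Int.negSucc (nat_lit 338326049594893388831)],[Int.ofNat (nat_lit 12363923387209188204)]],[[Int.ofNat (nat_lit 0),Int.ofNat (nat_lit 836936745784589508)]],[[Int.negSucc (nat_lit 6245440062479403443)]]],[[[Int.negSucc (nat_lit 27173238686962004135)],[Int.negSucc (nat_lit 470718793996903835)]]],[[[Int.ofNat (nat_lit 3810718775585014608)]]]],[[[[Int.ofNat (nat_lit 0),Int.ofNat (nat_lit 10830426944090854908)]],[[Int.negSucc (nat_lit 8686176449669598467)]]]],[[[[Int.negSucc (nat_lit 40722537129933120071)]]]]],[[[[[Int.negSucc (nat_lit 14839560883870920215)],[Int.ofNat (nat_lit 8744172875472279792)]]],[[[Int.negSucc (nat_lit 935227434033977255)]]]]],[[[[[Int.ofNat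 (nat_lit 17103638565809949960)]]]]]],[[[[[[Int.ofNat (nat_lit 0),Int.ofNat (nat_lit 3253580147252351664)]],[[Int.negSucc (nat_lit 19057234238026516655)]]]],[[[[Int.negSucc (nat_lit 37706548251788958167)]]]]]],[[[[[[Int.negSucc (nat_lit 136590312180541218419)]]],[[[Int.ofNat (nat_lit 116422464847746672)]]]]],[[[[[Int.ofNat (nat_lit 15011511440858618964)]]]]]]],[[[[[[[Int.ofNat (nat_lit 259489283681732083212)],[Int.negSucc (nat_lit 4355047313449059791)]]],[[[Int.negSucc (nat_lit 1873980461830834031)]]]]],[[[[[Int.ofNat (nat_lit 11408756964278943900)]]]]]],[[[[[],[[Int.ofNat (nat_lit 1092811100121699780)]]]],[[[[Int.ofNat (nat_lit 1107610853825541204)]]]]]],[[[[[[Int.negSucc (nat_lit 26381014821974072387)]]]]]]],[[[[[[[Int.negSucc (nat_lit 45459616313209669607)]]],[[[Int.ofNat (nat_lit 2177723748222974196)]]]]],[[[[[Int.ofNat (nat_lit 20024242156734799368)]]]]]]],[[[[[[[Int.negSucc (nat_lit 66210588846748256027)]]]]]]]],[[[[[[[[Int.ofNat (nat_lit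 0),Int.ofNat (nat_lit 9579054591905658312)]],[[Int.negSucc (nat_lit 3326479957484683079)]]]],[[[[Int.negSucc (nat_lit 20337113136739896971)]]],[[[Int.ofNat (nat_lit 340861535847521436)]]]]],[[[[],[[Int.ofNat (nat_lit 461193132386549484)]]]],[[[[Int.ofNat (nat_lit 155559848166620760)]]]]]],[[[[[[Int.negSucc (nat_lit 145819840083896339687)],[Int.negSucc (nat_lit 4678395866301774143)]]],[[[Int.ofNat (nat_lit 11186546392923112932)]]]]],[[[[[Int.negSucc (nat_lit 76936889377105969175)]]]]]],[],[[[[[[Int.negSucc (nat_lit 17021413076626491551)]]]]]]],[[[[[[[Int.ofNat (nat_lit 0),Int.negSucc (nat_lit 8383102246788776447)]],[[Int.ofNat (nat_lit 6791925363250933884)]]]],[[[[Int.ofNat (nat_lit 70031615460051663108)]]]]]],[[[[[[Int.ofNat (nat_lit 292484236597403184648)]]]]]]],[[],[[[[[[Int.negSucc (nat_lit 37184083785559980647)]]]]]]]],[[[[[[[[Int.ofNat (nat_lit 26460555576633857664)],[Int.ofNat (nat_lit 7548378283093485336)]]],[[[Int.ofNat (nat_lit 11074395249317705148)]]]]],[[[[[Int.ofNat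 (nat_lit 70174523459070550476)]]]]]],[[[],[[[[Int.negSucc (nat_lit 5985933742841223959)]]]]]],[[[[[[Int.ofNat (nat_lit 52145581896983884836)]]]]]]],[[[[[[[Int.negSucc (nat_lit 49271892022134760487)]]]]],[[[[[Int.ofNat (nat_lit 226492465672914960)]]]]]]],[[[[[[[Int.negSucc (nat_lit 81374086678108528715)]]]]]]]],[[[[[[[],[[Int.ofNat (nat_lit 974127191993223420)]]]],[[[[Int.ofNat (nat_lit 1749863777615696448)]]]]]],[[[[[[Int.negSucc (nat_lit 2792662640662694687)]]]]]]]],[[[[[[[[Int.ofNat (nat_lit 81736900519820018868)]]]]]]],[[[[[[[Int.ofNat (nat_lit 1526182980028735944)]]]]]]]]],[[[[[[[[[Int.negSucc (nat_lit 290679889547720937431)],[Int.ofNat (nat_lit 9578201093386112196)]]],[[[Int.ofNat (nat_lit 24811108610941831896)]]]],[[[],[[Int.negSucc (nat_lit 1442338239962578487)]]]],[[[[Int.ofNat (nat_lit 3999673277213221212)]]]]],[[[[[Int.ofNat (nat_lit 64438282457450337612)]]],[[[Int.negSucc (nat_lit 657827965869986723)]]]]],[[[[[Int.ofNat (nat_lit 13906708658854195656)]]]]]],[[[[[[Int.ofNat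 (nat_lit 0),Int.negSucc (nat_lit 134268459697414259)]],[[Int.negSucc (nat_lit 8820167479758474227)]]]],[[[[Int.negSucc (nat_lit 14503420150957696619)]]]]]],[[[[[[Int.negSucc (nat_lit 92423469260184969311)]]]]]]],[[[[[[[Int.negSucc (nat_lit 116017303542359112443)],[Int.negSucc (nat_lit 1841957199383420399)]]],[[[Int.negSucc (nat_lit 8639076445397641379)]]]]],[[[[[Int.negSucc (nat_lit 54730968744943052903)]]]]]],[],[[[[[[Int.ofNat (nat_lit 12944814976094163108)]]]]]]],[[[[[[[Int.ofNat (nat_lit 186158101198973388228)]]]]]]],[[[[[[[Int.ofNat (nat_lit 591093290562184500)]]]]]]]],[[[[[[[[Int.ofNat (nat_lit 0),Int.negSucc (nat_lit 3903301159396082879)]],[[Int.ofNat (nat_lit 13447672590443981112)]]]],[[[[Int.ofNat (nat_lit 25557467262230565192)]]]]]],[[[[[[Int.negSucc (nat_lit 102824952120353502731)]]]]],[[[[[Int.negSucc (nat_lit 16563421631290272395)]]]]]]],[[[[],[[[[Int.negSucc (nat_lit 7591604913840341447)]]]]]],[[[[[[Int.ofNat (nat_lit 138041824438987568736)]]]]]]]],[[[[[[[[Int.ofNat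 (nat_lit 208871337449951687064)]]],[[[Int.negSucc (nat_lit 1530818908355143931)]]]]],[[[[[Int.ofNat (nat_lit 37790975086792785504)]]]]]]],[[[[[[[Int.negSucc (nat_lit 98546359355497061543)]]]]]]]],[[[],[[[[[[Int.negSucc (nat_lit 3799542156619451663)]]]]]]]],[[[[[[[[Int.ofNat (nat_lit 17209959933129679884)]]]]]]]]],[[[[[[[[[Int.ofNat (nat_lit 151071725456595234372)],[Int.negSucc (nat_lit 12058958568100373759)]]],[[[Int.ofNat (nat_lit 18549139433000763000)]]]]],[[[[[Int.ofNat (nat_lit 18014577489241150008)]]]]]],[[[],[[[[Int.ofNat (nat_lit 3316332923272641180)]]]]]],[[[[[[Int.negSucc (nat_lit 73962463176295707179)]]]]]]],[[[[[[[Int.negSucc (nat_lit 278239778283633478643)]]]]],[[[[[Int.negSucc (nat_lit 8915093398922168639)]]]]]]],[[[[[[[Int.ofNat (nat_lit 42827572914145035696)]]]]]]]],[[[[[[[],[[Int.ofNat (nat_lit 5212969927409717460)]]]],[[[[Int.ofNat (nat_lit 27170068710273435288)]]]]]],[[[[[[Int.ofNat (nat_lit 46980600302472568392)]]]]]]]],[[[[[[[[Int.ofNat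 (nat_lit 77437511467756884096)]]]]]]],[[[[[[[Int.negSucc (nat_lit 1983025241465962367)]]]]]]]]],[[[[[[[[[Int.ofNat (nat_lit 356986787877811140036)]]],[[[Int.ofNat (nat_lit 1836277917534893520)]]]]],[[[[[Int.negSucc (nat_lit 12863865984757999451)]]]]]]],[[[[[[[Int.negSucc (nat_lit 57505942564707745643)]]]]]]]],[[[],[[[[[[Int.negSucc (nat_lit 2144034533424814823)]]]]]]]],[[[[[[[[Int.ofNat (nat_lit 28573235949169786824)]]]]]]]]],[[[[[[[[[Int.ofNat (nat_lit 189470252896051292976)]]]]]]],[[[[[[[Int.ofNat (nat_lit 6651833670320679408)]]]]]]]]],[[[[[[[[[Int.ofNat (nat_lit 39853688256292531536)]]]]]]]]]]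

/-- A coefficient. -/
noncomputable def sr6_m0_1_1 : MP 10 :=
  [[[[[[[[[[Int.ofNat (nat_lit 0),Int.negSucc (nat_lit 3126130719841267835)]],[[Int.ofNat (nat_lit 44569621726858042704)]]],[[],[[Int.ofNat (nat_lit 521993626262436336)]]]],[[[[Int.ofNat (nat_lit 5485196174600908812)],[Int.negSucc (nat_lit 5711851726669428503)]]],[[[Int.ofNat (nat_lit 19802350025062588716)]]]]],[[[[[Int.ofNat (nat_lit 0),Int.ofNat (nat_lit 1615856008344639528)]],[[Int.negSucc (nat_lit 10297243718892961679)]]]],[[[[Int.negSucc (nat_lit 45639700235334230879)]]]]]],[[[[[[Int.ofNat (nat_lit 39828022619502780876)],[Int.ofNat (nat_lit 4956054213996410988)]]],[[[Int.ofNat (nat_lit 17897590900834265916)]]]]],[[[[[Int.negSucc (nat_lit 63114001473478770587)]]]]]],[[[],[[[[Int.negSucc (nat_lit 449438002793318207)]]]]]],[[[[[[Int.ofNat (nat_lit 10997627766824939928)]]]]]]],[[[[[[[Int.ofNat (nat_lit 0),Int.negSucc (nat_lit 1997000057577921155)]],[[Int.negSucc (nat_lit 30912658716383526083)]]]],[[[[Int.ofNat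 (nat_lit 13845734281568437092)]]]]]],[[[[[[Int.negSucc (nat_lit 20071260368029023803)]]]]],[[[[[Int.ofNat (nat_lit 3994098992535736680)]]]]]]],[[[[],[[[[Int.ofNat (nat_lit 2588540979365494212)]]]]]],[[[[[[Int.ofNat (nat_lit 5030792705787679848)]]]]]]]],[[[[[[[[Int.ofNat (nat_lit 457267103687688015432)],[Int.ofNat (nat_lit 34223422193920898064)]],[],[[Int.negSucc (nat_lit 632840569961042951)]]],[[[Int.negSucc (nat_lit 3897474872635711859)]]],[[[Int.negSucc (nat_lit 2221291968096083807)]]]],[[[[Int.ofNat (nat_lit 0),Int.ofNat (nat_lit 3538813402338567276)]],[[Int.ofNat (nat_lit 2996393670477268500)]]]],[[[[Int.negSucc (nat_lit 32128386794139189467)]]]]],[[[[[Int.ofNat (nat_lit 270994646829837296820)],[Int.negSucc (nat_lit 1794073812988630871)]]],[[[Int.ofNat (nat_lit 4517031359321157216)]]]]],[[[[[Int.negSucc (nat_lit 11166039898847416127)]]]]]],[[[[[[Int.ofNat (nat_lit 0),Int.negSucc (nat_lit 4444519859831690675)]],[[Int.ofNat (nat_lit 21225724798188062544)]]]],[[[[Int.ofNat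 (nat_lit 2960332062602785728)]]]]]],[[[[[[Int.ofNat (nat_lit 20449869144251572716)]]]]],[[[[[Int.negSucc (nat_lit 4678875110469019871)]]]]]]],[[[[[[[Int.negSucc (nat_lit 437265466128043541015)],[Int.negSucc (nat_lit 4417782693489957299)]]],[[[Int.negSucc (nat_lit 7253537044328549471)]]]]],[[[[[Int.negSucc (nat_lit 58377905292717043571)]]]]]],[[[],[[[[Int.ofNat (nat_lit 1089701699156594184)]]]]]],[[[[[[Int.negSucc (nat_lit 15034936082702602211)]]]]]]],[[[[[[[Int.ofNat (nat_lit 64477867667732092008)]]]]],[[[[[Int.negSucc (nat_lit 3413008238405076407)]]]]]]],[[[[[[[Int.negSucc (nat_lit 5220662022879453899)]]]]]]]],[[[[[[[[Int.ofNat (nat_lit 0),Int.negSucc (nat_lit 28100926586875686047)]],[[Int.negSucc (nat_lit 2486951991736374911)]]]],[[[[Int.ofNat (nat_lit 54440713818455925648)]]]]],[[],[[[[Int.ofNat (nat_lit 2842596560646723972)]]]]]],[[[[[[Int.negSucc (nat_lit 109265388770329718267)]]],[[[Int.ofNat (nat_lit 14105896203302237424)]]]]],[[[[[Int.ofNat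 (nat_lit 14171495930264159088)]]]]]]],[[[[[[],[[Int.negSucc (nat_lit 5748591262934046383)]]]],[[[[Int.negSucc (nat_lit 4622488569580169399)]]]]]],[[[[[[Int.ofNat (nat_lit 53082470252199973656)]]]]]]]],[[[[[[[[Int.ofNat (nat_lit 424770458674862405352)],[Int.ofNat (nat_lit 1873070660247388404)]]],[[[Int.negSucc (nat_lit 13040104482702826919)]]]]],[[[[[Int.negSucc (nat_lit 120485670318742394759)]]]]]],[],[[[[[[Int.negSucc (nat_lit 8568886318128757475)]]]]]]],[[[[[[[Int.negSucc (nat_lit 279981264717976935887)]]]]]]],[[[[[[[Int.ofNat (nat_lit 53720962828561841772)]]]]]]]],[[[[[],[[[[Int.negSucc (nat_lit 5754925231690766879)]]]]]],[[[[[[Int.ofNat (nat_lit 53751588081200781912)]]]]]]]],[[[[[[[[Int.negSucc (nat_lit 119369568185632580543)]]]]]]]]],[[[[[[[[[Int.ofNat (nat_lit 0),Int.negSucc (nat_lit 17841630113695854323)]],[[Int.ofNat (nat_lit 22668777210187535364)]]],[[],[[Int.negSucc (nat_lit 2962854175709071199)]]]],[[[[Int.ofNat (nat_lit 144453090259730441736)],[Int.ofNat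 (nat_lit 5711851726669428504)]]],[[[Int.ofNat (nat_lit 3669852582563486820)]]]]],[[[[[Int.ofNat (nat_lit 0),Int.ofNat (nat_lit 1615856008344639528)]],[[Int.negSucc (nat_lit 16775821891604641703)]]]],[[[[Int.negSucc (nat_lit 2584339232729196155)]]]]]],[[[[[[Int.ofNat (nat_lit 317602195223417311824)],[Int.negSucc (nat_lit 4956054213996410987)]]],[[[Int.ofNat (nat_lit 27487346007896427756)]]]]],[[[[[Int.ofNat (nat_lit 5359866397554552240)]]]]]],[[[],[[[[Int.ofNat (nat_lit 449438002793318208)]]]]]],[[[[[[Int.negSucc (nat_lit 10997627766824939927)]]]]]]],[[[[[[[Int.ofNat (nat_lit 0),Int.negSucc (nat_lit 1997000057577921155)]],[[Int.ofNat (nat_lit 3338582602387507548)]]]],[[[[Int.negSucc (nat_lit 54983704609574335583)]]]]]],[[[[[[Int.negSucc (nat_lit 138205412995679484635)]]]]],[[[[[Int.ofNat (nat_lit 3994098992535736680)]]]]]]],[[[[],[[[[Int.negSucc (nat_lit 2588540979365494211)]]]]]],[[[[[[Int.negSucc (nat_lit 12476376125953584119)]]]]]]]],[[[[[[[[Int.ofNat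 (nat_lit 398139138475866605736)],[Int.negSucc (nat_lit 2688435562982100863)]]],[[[Int.negSucc (nat_lit 8083358153576634887)]]]],[],[[[[Int.ofNat (nat_lit 4168754250025578660)]]]]],[[[[[Int.negSucc (nat_lit 34610329860429847067)]]]]],[[[[[Int.ofNat (nat_lit 1336595844261822048)]]]]]],[[[[[],[[Int.negSucc (nat_lit 915517245365955119)]]]],[[[[Int.negSucc (nat_lit 33853983142804411379)]]]]]],[[[[[[Int.negSucc (nat_lit 29215653863751729743)]]]]]]],[[[[[[[Int.negSucc (nat_lit 359807550436712199167)]]],[[[Int.ofNat (nat_lit 2707538057382110244)]]]]],[[[[[Int.ofNat (nat_lit 22317416885854293300)]]]]]]],[[[[[[[Int.ofNat (nat_lit 93095775284112968688)]]]]]]]],[[[[[[[[Int.ofNat (nat_lit 0),Int.negSucc (nat_lit 9328001822292206411)]],[[Int.ofNat (nat_lit 16869965637223244076)]]]],[[[[Int.ofNat (nat_lit 100442013484207768308)]]]]]],[[[[[[Int.ofNat (nat_lit 55297545516974958732)]]]]]]],[[],[[[[[[Int.negSucc (nat_lit 73695867698298784667)]]]]]]]],[[[[[[[[Int.ofNat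 (nat_lit 137903885602889895564)]]]]],[[[[[Int.negSucc (nat_lit 25871408034831988871)]]]]]]],[[[[[[[Int.ofNat (nat_lit 12333414319719521568)]]]]]]]],[],[[[[[[[[Int.negSucc (nat_lit 3893198316000911903)]]]]]]]]],[[[[[[[[[Int.ofNat (nat_lit 0),Int.negSucc (nat_lit 21762082527456606899)]],[[Int.negSucc (nat_lit 42098553946544943803)]]]],[[[[Int.ofNat (nat_lit 85874481061701671112)]]]]],[[],[[[[Int.ofNat (nat_lit 7877161837371306252)]]]]]],[[[[[[Int.ofNat (nat_lit 312561709615427493024)]]],[[[Int.ofNat (nat_lit 7741487133440355816)]]]]],[[[[[Int.ofNat (nat_lit 28240170161179499628)]]]]]]],[[[[[[],[[Int.negSucc (nat_lit 5947073005767340199)]]]],[[[[Int.ofNat (nat_lit 3010482549799348812)]]]]]],[[[[[[Int.negSucc (nat_lit 105498981040451173043)]]]]]]]],[[[[[[[[Int.ofNat (nat_lit 820882267566627360)],[Int.negSucc (nat_lit 4501241505334273607)]]],[[[Int.negSucc (nat_lit 398367854388733523)]]]]],[[[[[Int.negSucc (nat_lit 138597030616164428891)]]]]]],[],[[[[[[Int.ofNat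 (nat_lit 28217434755552898572)]]]]]]],[[[[[[[Int.negSucc (nat_lit 49094857273619025095)]]]]]]],[[[[[[[Int.ofNat (nat_lit 28828613361392210244)]]]]]]]],[[[[[],[[[[Int.ofNat (nat_lit 2742925214911869156)]]]]]],[[[[[[Int.ofNat (nat_lit 63822107174468707800)]]]]]]]],[[[[[[[[Int.ofNat (nat_lit 2093356722269554716)]]]]]]]]],[[[[[[[[[Int.ofNat (nat_lit 0),Int.negSucc (nat_lit 7046583133602020411)]],[[Int.negSucc (nat_lit 4875955778982461039)]]]],[[[[Int.negSucc (nat_lit 73277119950697219223)]]]]]],[[[[[[Int.ofNat (nat_lit 37499086208454515220)]]]]]]],[[],[[[[[[Int.negSucc (nat_lit 16589400561590883995)]]]]]]]],[[[[[[[[Int.ofNat (nat_lit 191992084569979615440)]]]]],[[[[[Int.negSucc (nat_lit 16461355661693103491)]]]]]]],[[[[[[[Int.negSucc (nat_lit 65944940745863186831)]]]]]]]],[],[[[[[[[[Int.ofNat (nat_lit 16338847310954560464)]]]]]]]]],[[[[[[],[[[[Int.negSucc (nat_lit 6670487406671414339)]]]]]],[[[[[[Int.negSucc (nat_lit 47410800587657631263)]]]]]]]],[[[[[[[[Int.ofNat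 (nat_lit 176872788834715357560)]]]]]]]]],[[],[[[[[[[[Int.ofNat (nat_lit 20471654759323207692)]]]]]]]]]]

/-- A coefficient. -/
noncomputable def sr6_m0_1_2 : MP 10 :=
  [[[[[[[[[[Int.negSucc (nat_lit 519113914254730611143)],[Int.ofNat (nat_lit 2770582506708842268)]]],[[[Int.ofNat (nat_lit 7536723359319004428)]]]],[[[],[[Int.negSucc (nat_lit 3623870300456474591)]]]],[[[[Int.negSucc (nat_lit 43466364403133092271)]]]]],[[[[[Int.negSucc (nat_lit 181345775324368385639)]]],[[[Int.negSucc (nat_lit 1887606658653388559)]]]]],[[[[[Int.negSucc (nat_lit 89920341480392670143)]]]]]],[[[[[[Int.ofNat (nat_lit 0),Int.ofNat (nat_lit 8338258941556832376)]],[[Int.negSucc (nat_lit 11028300759763462187)]]]],[[[[Int.negSucc (nat_lit 72645680127820995563)]]]]]],[[[[[[Int.ofNat (nat_lit 66443695896283883472)]]]]]]],[[[[[[[Int.ofNat (nat_lit 471621159146768058444)],[Int.negSucc (nat_lit 1039241139678235163)]]],[[[Int.negSucc (nat_lit 7494363763640919383)]]]]],[[[[[Int.negSucc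 (nat_lit 4463873441919318227)]]]]]],[],[[[[[[Int.negSucc (nat_lit 13657795927972782731)]]]]]]],[[[[[[[Int.negSucc (nat_lit 279031062622174966043)]]]]]]],[[[[[[[Int.negSucc (nat_lit 23831894552005263287)]]]]]]]],[[[[[[[[Int.ofNat (nat_lit 0),Int.negSucc (nat_lit 17042158606779170327)]],[[Int.negSucc (nat_lit 9375961565991887363)]]]],[[[[Int.ofNat (nat_lit 91616632544005725540)]]],[[[Int.ofNat (nat_lit 541543916742865908)]]]]],[[[[],[[Int.negSucc (nat_lit 8110941177782210999)]]]],[[[[Int.negSucc (nat_lit 41541025294880974979)]]]]]],[[[[[[Int.ofNat (nat_lit 100500634639555554636)],[Int.negSucc (nat_lit 4859347885658046527)]]],[[[Int.negSucc (nat_lit 18916965097028904227)]]]]],[[[[[Int.negSucc (nat_lit 51167544023241663635)]]]]]],[],[[[[[[Int.ofNat (nat_lit 11944001246692150020)]]]]]]],[[[[[[[Int.ofNat (nat_lit 0),Int.ofNat (nat_lit 663455120034626808)]],[[Int.ofNat (nat_lit 7933688653893397152)]]]],[[[[Int.ofNat (nat_lit 23045346010705772592)]]]]]],[[[[[[Int.negSucc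 (nat_lit 76924717354240264187)]]]]]]],[[],[[[[[[Int.ofNat (nat_lit 1698976994016666036)]]]]]]]],[[[[[[[[Int.negSucc (nat_lit 738413512521428442311)],[Int.ofNat (nat_lit 17471141540547760464)]]],[[[Int.ofNat (nat_lit 32037078462619084680)]]]]],[[[[[Int.ofNat (nat_lit 429468889958853579960)]]]]]],[[[],[[[[Int.ofNat (nat_lit 557477730287581620)]]]]]],[[[[[[Int.ofNat (nat_lit 169050172122651178344)]]]]]]],[[[[[[[Int.ofNat (nat_lit 211623306443188797192)]]]]],[[[[[Int.ofNat (nat_lit 13972268297330399868)]]]]]]],[[[[[[[Int.ofNat (nat_lit 25341205838330269248)]]]]]]]],[[[[[[[],[[Int.negSucc (nat_lit 6961582809125632595)]]]],[[[[Int.ofNat (nat_lit 34921319190076859388)]]]]]],[[[[[[Int.negSucc (nat_lit 540742107126816499019)]]]]]]]],[[[[[[[[Int.ofNat (nat_lit 473197733229475323888)]]]]]]],[[[[[[[Int.negSucc (nat_lit 47710902115789970855)]]]]]]]]],[[[[[[[[[Int.negSucc (nat_lit 757679836325727605147)],[Int.ofNat (nat_lit 3850928447670706788)]]],[[[Int.negSucc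 (nat_lit 20972948555541285239)]]]],[[[],[[Int.ofNat (nat_lit 11525684160971121816)]]]],[[[[Int.negSucc (nat_lit 1926408686447157335)]]]]],[[[[[Int.ofNat (nat_lit 223332503572080480480)]]],[[[Int.negSucc (nat_lit 8288342973082807031)]]]]],[[[[[Int.negSucc (nat_lit 40027091087933818055)]]]]]],[[[[[[Int.ofNat (nat_lit 0),Int.ofNat (nat_lit 8338258941556832376)]],[[Int.negSucc (nat_lit 6329716248263114339)]]]],[[[[Int.negSucc (nat_lit 58034733144885954131)]]]]]],[[[[[[Int.ofNat (nat_lit 197552493898946276808)]]]]]]],[[[[[[[Int.ofNat (nat_lit 435393614171578370520)],[Int.ofNat (nat_lit 1039241139678235164)]]],[[[Int.ofNat (nat_lit 30329630289297209112)]]]]],[[[[[Int.negSucc (nat_lit 228136040639335604543)]]]]]],[],[[[[[[Int.ofNat (nat_lit 26265631088727579252)]]]]]]],[[[[[[[Int.negSucc (nat_lit 334339605250940128427)]]]]]]],[[[[[[[Int.ofNat (nat_lit 23831894552005263288)]]]]]]]],[[[[[[[[Int.ofNat (nat_lit 0),Int.negSucc (nat_lit 25242673233663143987)]],[[Int.negSucc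 (nat_lit 31580669006967103859)]]]],[[[[Int.negSucc (nat_lit 175559997397665262919)]]]]]],[[[[[[Int.negSucc (nat_lit 112621554946282185443)]]]]],[[[[[Int.negSucc (nat_lit 42452245346831641475)]]]]]]],[[[[],[[[[Int.ofNat (nat_lit 29756696576376873816)]]]]]],[[[[[[Int.ofNat (nat_lit 86841729232719971220)]]]]]]]],[[[[[[[[Int.negSucc (nat_lit 280498615612867160807)]]],[[[Int.ofNat (nat_lit 1325972194014375060)]]]]],[[[[[Int.ofNat (nat_lit 149899916594244558912)]]]]]]],[[[[[[[Int.negSucc (nat_lit 224392056245669343671)]]]]]]]],[[[],[[[[[[Int.ofNat (nat_lit 96855429255861948312)]]]]]]]],[[[[[[[[Int.negSucc (nat_lit 169819483739942830487)]]]]]]]]],[[[[[[[[[Int.negSucc (nat_lit 742571909204721098159)],[Int.negSucc (nat_lit 6621510954379549055)]]],[[[Int.negSucc (nat_lit 14658315289691514227)]]]]],[[[[[Int.ofNat (nat_lit 291266768563457606088)]]]]]],[[[],[[[[Int.ofNat (nat_lit 22924896710744108712)]]]]]],[[[[[[Int.ofNat (nat_lit 36615283566272728536)]]]]]]],[[[[[[[Int.ofNat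 (nat_lit 142829066585275330464)]]]]],[[[[[Int.negSucc (nat_lit 6242354886797716259)]]]]]]],[[[[[[[Int.negSucc (nat_lit 58347193211402618519)]]]]]]]],[[[[[[[],[[Int.negSucc (nat_lit 20977925515412954555)]]]],[[[[Int.negSucc (nat_lit 29330426004640660199)]]]]]],[[[[[[Int.negSucc (nat_lit 143393288015029442315)]]]]]]]],[[[[[[[[Int.ofNat (nat_lit 109386203040244496328)]]]]]]],[[[[[[[Int.negSucc (nat_lit 51548602909381272779)]]]]]]]]],[[[[[[[[[Int.negSucc (nat_lit 1199889851534133221987)]]],[[[Int.ofNat (nat_lit 2587376836500935664)]]]]],[[[[[Int.ofNat (nat_lit 4383049636471389072)]]]]]]],[[[[[[[Int.ofNat (nat_lit 260465905234131800724)]]]]]]]],[[[],[[[[[[Int.ofNat (nat_lit 81886243983698581056)]]]]]]]],[[[[[[[[Int.ofNat (nat_lit 24293643900348701088)]]]]]]]]],[[[[[[[[[Int.negSucc (nat_lit 907273868871560646263)]]]]]]],[[[[[[[Int.ofNat (nat_lit 34409551612806702672)]]]]]]]]],[[[[[[[[[Int.negSucc (nat_lit 150718958066509008791)]]]]]]]]]]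

/-- A coefficient. -/
noncomputable def sr6_m0_1_3 : MP 10 :=
  [[[[[[[[[[Int.ofNat (nat_lit 0),Int.ofNat (nat_lit 30615911291595413160)]],[[Int.negSucc (nat_lit 26392793762159787419)]]]],[[[[Int.negSucc (nat_lit 217572073065032509043)]]]]],[[],[[[[Int.negSucc (nat_lit 11378788207996244675)]]]]]],[[[[[[Int.negSucc (nat_lit 254729358898198201247)]]],[[[Int.negSucc (nat_lit 27570206726154160235)]]]]],[[[[[Int.ofNat (nat_lit 1074170298574569024)]]]]]]],[[[[[[],[[Int.ofNat (nat_lit 20329534842489777276)]]]],[[[[Int.ofNat (nat_lit 115613355062226256128)]]]]]],[[[[[[Int.ofNat (nat_lit 242098870201395948816)]]]]]]]],[[[[[[[[Int.negSucc (nat_lit 168533939716823160047)],[Int.negSucc (nat_lit 47147035202427876599)]]],[[[Int.negSucc (nat_lit 43618565784575892971)]]]],[],[[[[Int.negSucc (nat_lit 10587306257568426851)]]]]],[[[[[Int.negSucc (nat_lit 408475750083211228547)]]]]],[[[[[Int.negSucc (nat_lit 13421431220408497883)]]]]]],[[[[[],[[Int.ofNat (nat_lit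 3221384262591580164)]]]],[[[[Int.ofNat (nat_lit 28454363368767941484)]]]]]],[[[[[[Int.negSucc (nat_lit 46883526872360670659)]]]]]]],[[[[[[[Int.ofNat (nat_lit 315272040458001140436)]]],[[[Int.negSucc (nat_lit 20159220174253927379)]]]]],[[[[[Int.ofNat (nat_lit 66781608059991204000)]]]]]]],[[[[[[[Int.ofNat (nat_lit 139908564373233112884)]]]]]]]],[[[[[[[[Int.ofNat (nat_lit 0),Int.ofNat (nat_lit 16858713511332796164)]],[[Int.negSucc (nat_lit 563491002770355515)]]]],[[[[Int.ofNat (nat_lit 36160101440232254916)]]]]]],[[[[[[Int.ofNat (nat_lit 999873661864466171844)]]]]]]],[[],[[[[[[Int.ofNat (nat_lit 91350381571288750008)]]]]]]]],[[[[[[[[Int.negSucc (nat_lit 1213533091882797132659)]]]]],[[[[[Int.ofNat (nat_lit 78212298970891308732)]]]]]]],[[[[[[[Int.ofNat (nat_lit 77413252964959321632)]]]]]]]],[],[[[[[[[[Int.negSucc (nat_lit 16500992444580428363)]]]]]]]]],[[[[[[[[[Int.ofNat (nat_lit 0),Int.ofNat (nat_lit 48265079336266611600)]],[[Int.ofNat (nat_lit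 825802036984698528)]]]],[[[[Int.negSucc (nat_lit 151525106213845793375)]]]]],[[],[[[[Int.ofNat (nat_lit 30130525809971720628)]]]]]],[[[[[[Int.negSucc (nat_lit 555490387165746029255)]]],[[[Int.negSucc (nat_lit 7953056819761350443)]]]]],[[[[[Int.negSucc (nat_lit 58002758348994946799)]]]]]]],[[[[[[],[[Int.ofNat (nat_lit 9531996594822519132)]]]],[[[[Int.ofNat (nat_lit 21986190317203230792)]]]]]],[[[[[[Int.ofNat (nat_lit 328432088987893611492)]]]]]]]],[[[[[[[[Int.negSucc (nat_lit 1162117622260976629607)],[Int.negSucc (nat_lit 6145843822923174287)]]],[[[Int.negSucc (nat_lit 18309120030228783875)]]]]],[[[[[Int.ofNat (nat_lit 98461617592035663540)]]]]]],[],[[[[[[Int.negSucc (nat_lit 113222584544128592531)]]]]]]],[[[[[[[Int.ofNat (nat_lit 622671693811854637392)]]]]]]],[[[[[[[Int.ofNat (nat_lit 65504560811913638796)]]]]]]]],[[[[[],[[[[Int.ofNat (nat_lit 33857521810808773872)]]]]]],[[[[[[Int.ofNat (nat_lit 126305534942536724544)]]]]]]]],[[[[[[[[Int.ofNat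 (nat_lit 61563028088791606404)]]]]]]]]],[[[[[[[[[Int.ofNat (nat_lit 0),Int.ofNat (nat_lit 17649168044671198440)]],[[Int.ofNat (nat_lit 23805440371976452812)]]]],[[[[Int.negSucc (nat_lit 55585002446849736767)]]]]]],[[[[[[Int.negSucc (nat_lit 180351055170125673611)]]]]]]],[[],[[[[[[Int.negSucc (nat_lit 104933235043028706539)]]]]]]]],[[[[[[[[Int.negSucc (nat_lit 1089169695343493417783)]]]]],[[[[[Int.ofNat (nat_lit 41089365653862464508)]]]]]]],[[[[[[[Int.ofNat (nat_lit 135647227736767372284)]]]]]]]],[],[[[[[[[[Int.ofNat (nat_lit 969414632184361260)]]]]]]]]],[[[[[[],[[[[Int.ofNat (nat_lit 6928743780154878732)]]]]]],[[[[[[Int.negSucc (nat_lit 63335265850232151107)]]]]]]]],[[[[[[[[Int.negSucc (nat_lit 46625205801423115955)]]]]]]]]],[[],[[[[[[[[Int.ofNat (nat_lit 153221280829137915348)]]]]]]]]]]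

/-- A coefficient. -/
noncomputable def sr6_m0_1_4 : MP 10 :=
  [[[[[[[[[[Int.ofNat (nat_lit 666711419225908106052)],[Int.negSucc (nat_lit 1363162958021248979)]]],[[[Int.ofNat (nat_lit 21684247792971082104)]]]]],[[[[[Int.ofNat (nat_lit 104140973159966468172)]]]]]],[[[],[[[[Int.negSucc (nat_lit 75526898137046753111)]]]]]],[[[[[[Int.negSucc (nat_lit 408685834521975445979)]]]]]]],[[[[[[[Int.negSucc (nat_lit 158236859727744203915)]]]]],[[[[[Int.ofNat (nat_lit 24473131812423084960)]]]]]]],[[[[[[[Int.negSucc (nat_lit 210867903950688302891)]]]]]]]],[[[[[[[[Int.ofNat (nat_lit 0),Int.negSucc (nat_lit 2625562855024509851)]],[[Int.ofNat (nat_lit 41338734321611278320)]]]],[[[[Int.negSucc (nat_lit 39189351922283966759)]]]]]],[[[[[[Int.negSucc (nat_lit 102420908776131201287)]]]]],[[[[[Int.negSucc (nat_lit 28296318390674541203)]]]]]]],[[[[],[[[[Int.ofNat (nat_lit 21671488141142115312)]]]]]],[[[[[[Int.negSucc (nat_lit 181145099876202645551)]]]]]]]],[[[[[[[[Int.ofNat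 (nat_lit 2267199481383620542236)]]],[[[Int.negSucc (nat_lit 27014059617598951415)]]]]],[[[[[Int.negSucc (nat_lit 28416856799113593911)]]]]]]],[[[[[[[Int.negSucc (nat_lit 498595987775003650571)]]]]]]]],[[[],[[[[[[Int.ofNat (nat_lit 145021757115544699812)]]]]]]]],[[[[[[[[Int.negSucc (nat_lit 158111998537097092283)]]]]]]]]],[[[[[[[[[Int.ofNat (nat_lit 2127418622526429140364)],[Int.ofNat (nat_lit 1363162958021248980)]]],[[[Int.ofNat (nat_lit 76415293060991457612)]]]]],[[[[[Int.negSucc (nat_lit 369764476774291418543)]]]]]],[[[],[[[[Int.negSucc (nat_lit 63790513380028823903)]]]]]],[[[[[[Int.negSucc (nat_lit 290550631557343034675)]]]]]]],[[[[[[[Int.negSucc (nat_lit 394755281245605849695)]]]]],[[[[[Int.ofNat (nat_lit 10994257746826385880)]]]]]]],[[[[[[[Int.ofNat (nat_lit 133992016004505581220)]]]]]]]],[[[[[[[],[[Int.ofNat (nat_lit 22516958107943484504)]]]],[[[[Int.ofNat (nat_lit 139956429696322251588)]]]]]],[[[[[[Int.ofNat (nat_lit 123785975817050090328)]]]]]]]],[[[[[[[[Int.ofNat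 (nat_lit 1300328291395685660208)]]]]]]],[[[[[[[Int.negSucc (nat_lit 12915195634167641627)]]]]]]]]],[[[[[[[[[Int.ofNat (nat_lit 3306158907208731867600)]]],[[[Int.ofNat (nat_lit 23602394945973245268)]]]]],[[[[[Int.negSucc (nat_lit 117519125246807207243)]]]]]]],[[[[[[[Int.negSucc (nat_lit 365034926876343748163)]]]]]]]],[[[],[[[[[[Int.negSucc (nat_lit 97917998843155050071)]]]]]]]],[[[[[[[[Int.ofNat (nat_lit 545857290831881802744)]]]]]]]]],[[[[[[[[[Int.ofNat (nat_lit 2629612531635722647668)]]]]]]],[[[[[[[Int.negSucc (nat_lit 159961597858878466439)]]]]]]]]],[[[[[[[[[Int.ofNat (nat_lit 871929393304937502036)]]]]]]]]]]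

/-- A coefficient. -/
noncomputable def sr6_m0_1_5 : MP 10 :=
  [[[[[[[[[[Int.ofNat (nat_lit 0),Int.negSucc (nat_lit 24398179208714769707)]],[[Int.ofNat (nat_lit 22898984734715280888)]]]],[[[[Int.ofNat (nat_lit 34268197580400738096)]]]]]],[[[[[[Int.negSucc (nat_lit 303540612245086165055)]]]]]]],[[],[[[[[[Int.negSucc (nat_lit 31371366372881082251)]]]]]]]],[[[[[[[[Int.negSucc (nat_lit 1086910372442239901447)],[Int.ofNat (nat_lit 21063277418701434024)]]],[[[Int.ofNat (nat_lit 44950165268197485132)]]]]],[[[[[Int.ofNat (nat_lit 95225993530791154896)]]]]]],[],[[[[[[Int.ofNat (nat_lit 7809170596034422704)]]]]]]],[[[[[[[Int.ofNat (nat_lit 497923693139985793440)]]]]]]],[[[[[[[Int.negSucc (nat_lit 132326329908010852871)]]]]]]]],[[[[[],[[[[Int.ofNat (nat_lit 734703190173512940)]]]]]],[[[[[[Int.negSucc (nat_lit 493569598377906786527)]]]]]]]],[[[[[[[[Int.ofNat (nat_lit 1186710499904365206576)]]]]]]]]],[[[[[[[[[Int.ofNat (nat_lit 0),Int.negSucc (nat_lit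 24398179208714769707)]],[[Int.negSucc (nat_lit 6946517636063076479)]]]],[[[[Int.negSucc (nat_lit 110628810385162640255)]]]]]],[[[[[[Int.negSucc (nat_lit 217422277975057659083)]]]]]]],[[],[[[[[[Int.ofNat (nat_lit 26189759299262873196)]]]]]]]],[[[[[[[[Int.ofNat (nat_lit 101635793755078105500)]]]]],[[[[[Int.negSucc (nat_lit 18763463317441917131)]]]]]]],[[[[[[[Int.ofNat (nat_lit 103347521599597045248)]]]]]]]],[],[[[[[[[[Int.ofNat (nat_lit 58549038239873978772)]]]]]]]]],[[[[[[],[[[[Int.negSucc (nat_lit 66488638372642384007)]]]]]],[[[[[[Int.ofNat (nat_lit 39999276535775661780)]]]]]]]],[[[[[[[[Int.ofNat (nat_lit 415169161776379412556)]]]]]]]]],[[],[[[[[[[[Int.ofNat (nat_lit 121117010902370301720)]]]]]]]]]]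

/-- A coefficient. -/
noncomputable def sr6_m0_1_6 : MP 10 :=
  [[[[[[[[[[Int.negSucc (nat_lit 1482558342387291419927)]]],[[[Int.negSucc (nat_lit 18173480354111080919)]]]]],[[[[[Int.ofNat (nat_lit 1366118370770133576)]]]]]]],[[[[[[[Int.negSucc (nat_lit 21052319362626297983)]]]]]]]],[[[[[[[],[[Int.negSucc (nat_lit 33696465501605761367)]]]],[[[[Int.ofNat (nat_lit 9120840241624587336)]]]]]],[[[[[[Int.ofNat (nat_lit 126570569177417426904)]]]]]]]],[[[[[[[[Int.negSucc (nat_lit 2685120953747850307055)]]]]]]],[[[[[[[Int.negSucc (nat_lit 62707604562138609635)]]]]]]]]],[[[[[[[[[Int.negSucc (nat_lit 3703680211648272506627)]]],[[[Int.negSucc (nat_lit 18205991207503480487)]]]]],[[[[[Int.ofNat (nat_lit 109111128118534669944)]]]]]]],[[[[[[[Int.negSucc (nat_lit 312940292593289514131)]]]]]]]],[[[],[[[[[[Int.ofNat (nat_lit 104681296659070439940)]]]]]]]],[[[[[[[[Int.negSucc (nat_lit 780948892912533736475)]]]]]]]]],[[[[[[[[[Int.negSucc (nat_lit 3588741540950928534899)]]]]]]],[[[[[[[Int.negSucc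 (nat_lit 85203325269539230307)]]]]]]]]],[[[[[[[[[Int.negSucc (nat_lit 1443765115650108076847)]]]]]]]]]]

/-- A coefficient. -/
noncomputable def sr6_m0_1_7 : MP 10 :=
  [[[[[[[],[[[[Int.ofNat (nat_lit 79141602832676463024)]]]]]],[[[[[[Int.ofNat (nat_lit 432622152252639952260)]]]]]]]],[[[[[[[[Int.ofNat (nat_lit 2174028673457457055044)]]]]],[[[[[Int.negSucc (nat_lit 32461590695088820271)]]]]]]],[[[[[[[Int.negSucc (nat_lit 252686799049356509231)]]]]]]]],[],[[[[[[[[Int.negSucc (nat_lit 74556635085396639815)]]]]]]]]],[[[[[[],[[[[Int.ofNat (nat_lit 116777088164695174776)]]]]]],[[[[[[Int.ofNat (nat_lit 349430405043059001900)]]]]]]]],[[[[[[[[Int.ofNat (nat_lit 1340444461940955689568)]]]]]]]]],[[],[[[[[[[[Int.ofNat (nat_lit 501976385855916698844)]]]]]]]]]]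

/-- A coefficient. -/
noncomputable def sr6_m0_1_8 : MP 10 :=
  [[[[[[[[[[Int.ofNat (nat_lit 1900855142153082755508)]]]]]]],[[[[[[[Int.negSucc (nat_lit 118545909048116517419)]]]]]]]],[[[],[[[[[[Int.negSucc (nat_lit 11070628963322344235)]]]]]]]],[[[[[[[[Int.ofNat (nat_lit 916113245008920276276)]]]]]]]]],[[[[[[[[[Int.ofNat (nat_lit 2825892749198801993532)]]]]]]],[[[[[[[Int.negSucc (nat_lit 23090311161635614379)]]]]]]]]],[[[[[[[[[Int.ofNat (nat_lit 825905854331463823608)]]]]]]]]]]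

/-- A coefficient. -/
noncomputable def sr6_m0_1_9 : MP 10 :=
  [[[],[[[[[[[[Int.negSucc (nat_lit 1440523073665418083655)]]]]]]]]],[[],[[[[[[[[Int.negSucc (nat_lit 728040339404422248551)]]]]]]]]]]

/-- A coefficient. -/
noncomputable def sr6_m0_1_10 : MP 10 :=
  [[[[[[[[[[Int.negSucc (nat_lit 875651620997723373683)]]]]]]]]],[[[[[[[[[Int.negSucc (nat_lit 865686385712939489507)]]]]]]]]]]

/-- A coefficient. -/
noncomputable def sr6_m0_1_11 : MP 10 :=
  [[[],[[[[[[[[Int.ofNat (nat_lit 183530537637173104200)]]]]]]]]]]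

/-- A coefficient. -/
noncomputable def sr6_m0_2_0 : MP 10 :=
  [[[[[[[[[[Int.ofNat (nat_lit 411223982699203903158)],[Int.negSucc (nat_lit 1601869327787401283)]],[],[[Int.ofNat (nat_lit 4280516563785891402)]]],[[[Int.ofNat (nat_lit 42324935648844444336)]]],[[[Int.ofNat (nat_lit 4165671543160113096)]]]],[[[[Int.ofNat (nat_lit 0),Int.negSucc (nat_lit 8965511739902380403)]],[[Int.ofNat (nat_lit 6447479791463563668)]]]],[[[[Int.ofNat (nat_lit 115937917215015574938)]]]]],[[[[[Int.ofNat (nat_lit 185944241310501001116)],[Int.ofNat (nat_lit 4479727853081565984)]]],[[[Int.ofNat (nat_lit 4427094779004453660)]]]]],[[[[[Int.ofNat (nat_lit 67626062728881851694)]]]]]],[[[[[[Int.ofNat (nat_lit 0),Int.negSucc (nat_lit 6206179856730944435)]],[[Int.ofNat (nat_lit 17829690595247054616)]]]],[[[[Int.ofNat (nat_lit 90137872471665164232)]]]]]],[[[[[[Int.ofNat (nat_lit 236334906288634771464)]]]]],[[[[[Int.ofNat (nat_lit 20583133538314345848)]]]]]]],[[[[[[[Int.negSucc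 (nat_lit 446457287486462231843)],[Int.ofNat (nat_lit 4617760895464883256)]]],[[[Int.negSucc (nat_lit 16524555807377311715)]]]]],[[[[[Int.negSucc (nat_lit 126921884603778241439)]]]]]],[[[],[[[[Int.negSucc (nat_lit 659386107552006719)]]]]]],[[[[[[Int.negSucc (nat_lit 20006508280622103359)]]]]]]],[[[[[[[Int.ofNat (nat_lit 241670434408343467260)]]]]],[[[[[Int.ofNat (nat_lit 30328864824424372452)]]]]]]],[[[[[[[Int.negSucc (nat_lit 24679785144848861555)]]]]]]]],[[[[[[[[Int.ofNat (nat_lit 0),Int.negSucc (nat_lit 1113089249744854235)]],[[Int.ofNat (nat_lit 2626817372794326768)]]],[[],[[Int.negSucc (nat_lit 4554107786308371515)]]]],[[[[Int.ofNat (nat_lit 86357328711241997436)],[Int.ofNat (nat_lit 8891511736659397464)]]],[[[Int.ofNat (nat_lit 2621569262072951736)]]]]],[[[[[Int.ofNat (nat_lit 0),Int.negSucc (nat_lit 5670292293729928127)]],[[Int.ofNat (nat_lit 10057551560954899848)]]]],[[[[Int.ofNat (nat_lit 56890384645315622652)]]]]]],[[[[[[Int.ofNat (nat_lit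 16345451588876483172)],[Int.ofNat (nat_lit 5653631428706361816)]]],[[[Int.negSucc (nat_lit 11128276095336060947)]]]]],[[[[[Int.negSucc (nat_lit 34470931928578799063)]]]]]],[[[],[[[[Int.ofNat (nat_lit 5537734874446705776)]]]]]],[[[[[[Int.ofNat (nat_lit 27831404511487475124)]]]]]]],[[[[[[[Int.ofNat (nat_lit 0),Int.negSucc (nat_lit 2810193963314424479)]],[[Int.ofNat (nat_lit 2505301679490980412)]]]],[[[[Int.negSucc (nat_lit 157413811563296073923)]]]]]],[[[[[[Int.negSucc (nat_lit 188161413468931512743)]]]]],[[[[[Int.negSucc (nat_lit 3998376905144258003)]]]]]]],[[[[],[[[[Int.ofNat (nat_lit 7958717877769467228)]]]]]],[[[[[[Int.ofNat (nat_lit 48125402331569703540)]]]]]]]],[[[[[[[[Int.ofNat (nat_lit 75712294197140673330)],[Int.negSucc (nat_lit 61029137948199803)]]],[[[Int.negSucc (nat_lit 10782062602892859203)]]]],[],[[[[Int.negSucc (nat_lit 14453428999585097867)]]]]],[[[[[Int.ofNat (nat_lit 69687762062861915496)]]]]],[[[[[Int.negSucc (nat_lit 3526714168384879751)]]]]]],[[[[[],[[Int.ofNat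 (nat_lit 2007117653473467180)]]]],[[[[Int.negSucc (nat_lit 42874463625404834231)]]]]]],[[[[[[Int.negSucc (nat_lit 24928859498598806513)]]]]]]],[[[[[[[Int.ofNat (nat_lit 155225684416344387204)]]],[[[Int.ofNat (nat_lit 9358495101157571172)]]]]],[[[[[Int.negSucc (nat_lit 67572254932901134439)]]]]]]],[[[[[[[Int.ofNat (nat_lit 3277428015330834210)]]]]]]]],[[[[[[[[Int.ofNat (nat_lit 0),Int.negSucc (nat_lit 3544531506591682667)]],[[Int.negSucc (nat_lit 2683551377860310639)]]]],[[[[Int.ofNat (nat_lit 75978952117035465528)]]]]]],[[[[[[Int.negSucc (nat_lit 35793255132791583671)]]]]]]],[[],[[[[[[Int.ofNat (nat_lit 28378000800076752168)]]]]]]]],[[[[[[[[Int.negSucc (nat_lit 11748457499198355371)]]]]],[[[[[Int.negSucc (nat_lit 22021910596826739791)]]]]]]],[[[[[[[Int.negSucc (nat_lit 5648489444335019015)]]]]]]]],[],[[[[[[[[Int.negSucc (nat_lit 5343935052426450455)]]]]]]]]],[[[[[[[[[Int.ofNat (nat_lit 821523434831148563142)],[Int.negSucc (nat_lit 18984848956751337347)]],[],[[Int.ofNat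 (nat_lit 4280516563785891402)]]],[[[Int.ofNat (nat_lit 28753875684269469492)]]],[[[Int.negSucc (nat_lit 4165671543160113095)]]]],[[[[Int.ofNat (nat_lit 0),Int.negSucc (nat_lit 8965511739902380403)]],[[Int.ofNat (nat_lit 6447479791463563668)]]]],[[[[Int.ofNat (nat_lit 110836273553342650602)]]]]],[[[[[Int.negSucc (nat_lit 29749576327644288635)],[Int.negSucc (nat_lit 4479727853081565983)]]],[[[Int.negSucc (nat_lit 4427094779004453659)]]]]],[[[[[Int.negSucc (nat_lit 63696202503852124781)]]]]]],[[[[[[Int.ofNat (nat_lit 0),Int.negSucc (nat_lit 6206179856730944435)]],[[Int.ofNat (nat_lit 22296186053047504740)]]]],[[[[Int.ofNat (nat_lit 135174588171229668348)]]]]]],[[[[[[Int.ofNat (nat_lit 230265699189866303520)]]]]],[[[[[Int.negSucc (nat_lit 20583133538314345847)]]]]]]],[[[[[[[Int.negSucc (nat_lit 156929319224479656707)],[Int.negSucc (nat_lit 4617760895464883255)]]],[[[Int.ofNat (nat_lit 6541309431748592616)]]]]],[[[[[Int.ofNat (nat_lit 59373638713561846176)]]]]]],[[[],[[[[Int.negSucc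 (nat_lit 659386107552006719)]]]]]],[[[[[[Int.ofNat (nat_lit 1192599479327096040)]]]]]]],[[[[[[[Int.negSucc (nat_lit 155835178902899697971)]]]]],[[[[[Int.negSucc (nat_lit 30328864824424372451)]]]]]]],[[[[[[[Int.ofNat (nat_lit 24679785144848861556)]]]]]]]],[[[[[[[[Int.ofNat (nat_lit 0),Int.ofNat (nat_lit 13070996405461392684)]],[[Int.negSucc (nat_lit 12801545517668600915)]]]],[[[[Int.ofNat (nat_lit 35748187381120912404)]]]]],[[],[[[[Int.negSucc (nat_lit 2337730822025448167)]]]]]],[[[[[[Int.ofNat (nat_lit 86351579639983033080)]]],[[[Int.negSucc (nat_lit 3234885491814391883)]]]]],[[[[[Int.ofNat (nat_lit 113424155076150622092)]]]]]]],[[[[[[],[[Int.negSucc (nat_lit 3802608666123211763)]]]],[[[[Int.negSucc (nat_lit 121944489838715067551)]]]]]],[[[[[[Int.negSucc (nat_lit 227452452582737355839)]]]]]]]],[[[[[[[[Int.negSucc (nat_lit 194035006370095700765)],[Int.negSucc (nat_lit 2620913732462599991)]]],[[[Int.negSucc (nat_lit 12365752348671838307)]]]]],[[[[[Int.negSucc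 (nat_lit 110591063964029170355)]]]]]],[],[[[[[[Int.negSucc (nat_lit 16973906162825192957)]]]]]]],[[[[[[[Int.ofNat (nat_lit 95335638335374170048)]]]]]]],[[[[[[[Int.ofNat (nat_lit 70290217234153672446)]]]]]]]],[[[[[],[[[[Int.ofNat (nat_lit 3989617694270860032)]]]]]],[[[[[[Int.negSucc (nat_lit 53672319483164466803)]]]]]]]],[[[[[[[[Int.negSucc (nat_lit 150179545431433221335)]]]]]]]]],[[[[[[[[[Int.ofNat (nat_lit 200523705451864506096)],[Int.ofNat (nat_lit 13487686635311847972)]]],[[[Int.negSucc (nat_lit 51173462845001360807)]]]],[],[[[[Int.negSucc (nat_lit 5101643661672924335)]]]]],[[[[[Int.negSucc (nat_lit 178253730441201895787)]]]]],[[[[[Int.negSucc (nat_lit 3929860225029726911)]]]]]],[[[[[],[[Int.ofNat (nat_lit 4466495457800450124)]]]],[[[[Int.ofNat (nat_lit 45036715699564504116)]]]]]],[[[[[[Int.ofNat (nat_lit 128606455829845393350)]]]]]]],[[[[[[[Int.ofNat (nat_lit 451878735326000205036)]]],[[[Int.ofNat (nat_lit 9983246375628719100)]]]]],[[[[[Int.ofNat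 (nat_lit 67548245890216395264)]]]]]]],[[[[[[[Int.negSucc (nat_lit 75733275596568446207)]]]]]]]],[[[[[[[[Int.ofNat (nat_lit 0),Int.ofNat (nat_lit 3939130419814653108)]],[[Int.negSucc (nat_lit 4372220170106298059)]]]],[[[[Int.negSucc (nat_lit 77754267994847269475)]]]]]],[[[[[[Int.negSucc (nat_lit 164051906743939447595)]]]]]]],[[],[[[[[[Int.negSucc (nat_lit 100366245988894349759)]]]]]]]],[[[[[[[[Int.negSucc (nat_lit 120875208710659266401)]]]]],[[[[[Int.negSucc (nat_lit 37642851776522579339)]]]]]]],[[[[[[[Int.ofNat (nat_lit 122118799733846789688)]]]]]]]],[],[[[[[[[[Int.negSucc (nat_lit 9876381972556267343)]]]]]]]]],[[[[[[[[[Int.negSucc (nat_lit 609397196373623667179)],[Int.ofNat (nat_lit 7099031649226890660)]]],[[[Int.negSucc (nat_lit 19905348488112553019)]]]]],[[[[[Int.ofNat (nat_lit 23243170954727290956)]]]]]],[],[[[[[[Int.ofNat (nat_lit 67356750858833752470)]]]]]]],[[[[[[[Int.ofNat (nat_lit 142376190316970361804)]]]]]]],[[[[[[[Int.negSucc (nat_lit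 10101979908875323079)]]]]]]]],[[[[[],[[[[Int.negSucc (nat_lit 5619466116650193167)]]]]]],[[[[[[Int.negSucc (nat_lit 130054186727477660375)]]]]]]]],[[[[[[[[Int.ofNat (nat_lit 41484144236290054326)]]]]]]]]],[[[[[[[[[Int.negSucc (nat_lit 595594156813463560295)]]]]],[[[[[Int.negSucc (nat_lit 1184105496382107647)]]]]]]],[[[[[[[Int.ofNat (nat_lit 9131681067971321712)]]]]]]]],[],[[[[[[[[Int.negSucc (nat_lit 701447860069495811)]]]]]]]]],[[[[[[[[[Int.negSucc (nat_lit 232065388909167050843)]]]]]]]]],[[[[[[[[[Int.ofNat (nat_lit 3785619114037305924)]]]]]]]]]]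

/-- A coefficient. -/
noncomputable def sr6_m0_2_1 : MP 10 :=
  [[[[[[[[[[Int.ofNat (nat_lit 0),Int.negSucc (nat_lit 37576567662514719443)]],[[Int.negSucc (nat_lit 22096034124347676275)]]]],[[[[Int.ofNat (nat_lit 61216366410341855784)]]],[[[Int.negSucc (nat_lit 24851859044700141599)]]]]],[[[[],[[Int.ofNat (nat_lit 6945150837333279432)]]]],[[[[Int.ofNat (nat_lit 34381809353586966420)]]]]]],[[[[[[Int.negSucc (nat_lit 98804488946556399599)],[Int.negSucc (nat_lit 6722323246478729447)]]],[[[Int.ofNat (nat_lit 26992461357465087864)]]]]],[[[[[Int.ofNat (nat_lit 36198390972496174908)]]]]]],[],[[[[[[Int.ofNat (nat_lit 3106901770927199520)]]]]]]],[[[[[[[Int.ofNat (nat_lit 0),Int.ofNat (nat_lit 12232299436722029844)]],[[Int.negSucc (nat_lit 4942384535031300971)]]]],[[[[Int.negSucc (nat_lit 57739961962500917435)]]]]]],[[[[[[Int.ofNat (nat_lit 80861741219941436268)]]]]]]],[[],[[[[[[Int.ofNat (nat_lit 19613226837889788120)]]]]]]]],[[[[[[[[Int.negSucc (nat_lit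 481993612119654086303)],[Int.ofNat (nat_lit 62832026911370488296)]]],[[[Int.ofNat (nat_lit 3045179626246327176)]]]],[[[],[[Int.ofNat (nat_lit 3239830279042851084)]]]],[[[[Int.ofNat (nat_lit 34873608017622203112)]]]]],[[[[[Int.negSucc (nat_lit 239526326180916074939)]]],[[[Int.ofNat (nat_lit 768819124968783744)]]]]],[[[[[Int.ofNat (nat_lit 21208360009066339428)]]]]]],[[[[[[Int.ofNat (nat_lit 0),Int.ofNat (nat_lit 6212431228323962472)]],[[Int.negSucc (nat_lit 77613414423398647487)]]]],[[[[Int.negSucc (nat_lit 63335309307000201395)]]]]]],[[[[[[Int.negSucc (nat_lit 167489361093650849543)]]]]]]],[[[[[[[Int.negSucc (nat_lit 281559898897299068111)],[Int.negSucc (nat_lit 5734310859643442375)]]],[[[Int.negSucc (nat_lit 10986110474940899327)]]]]],[[[[[Int.ofNat (nat_lit 22332182596025612520)]]]]]],[],[[[[[[Int.ofNat (nat_lit 11703319889808997668)]]]]]]],[[[[[[[Int.ofNat (nat_lit 306312337992177072408)]]]]]]],[[[[[[[Int.negSucc (nat_lit 3020829951531674987)]]]]]]]],[[[[[[[[Int.ofNat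 (nat_lit 0),Int.negSucc (nat_lit 24339768483476603735)]],[[Int.ofNat (nat_lit 30528637280571540912)]]]],[[[[Int.negSucc (nat_lit 207991366982482338047)]]]]]],[[[[[[Int.negSucc (nat_lit 204159035000450786003)]]]]],[[[[[Int.ofNat (nat_lit 16818078256148650572)]]]]]]],[[[[],[[[[Int.ofNat (nat_lit 13786407896768860260)]]]]]],[[[[[[Int.ofNat (nat_lit 159103823511832890228)]]]]]]]],[[[[[[[[Int.negSucc (nat_lit 314834338582476964835)]]],[[[Int.ofNat (nat_lit 6657905172745545084)]]]]],[[[[[Int.negSucc (nat_lit 60317352129173820827)]]]]]]],[[[[[[[Int.ofNat (nat_lit 101622806021793459996)]]]]]]]],[[[],[[[[[[Int.negSucc (nat_lit 78984994482767540315)]]]]]]]],[[[[[[[[Int.ofNat (nat_lit 258641527169164627416)]]]]]]]]],[[[[[[[[[Int.ofNat (nat_lit 0),Int.negSucc (nat_lit 65694617784544126595)]],[[Int.ofNat (nat_lit 21606477043724449212)]]]],[[[[Int.negSucc (nat_lit 164325927110491489643)]]],[[[Int.ofNat (nat_lit 3607193049502796904)]]]]],[[[[],[[Int.ofNat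 (nat_lit 19599354285146400384)]]]],[[[[Int.negSucc (nat_lit 18996900190193281955)]]]]]],[[[[[[Int.negSucc (nat_lit 341931673576405000523)],[Int.ofNat (nat_lit 6722323246478729448)]]],[[[Int.negSucc (nat_lit 66231953160591892103)]]]]],[[[[[Int.ofNat (nat_lit 26663014017953469792)]]]]]],[],[[[[[[Int.negSucc (nat_lit 3106901770927199519)]]]]]]],[[[[[[[Int.ofNat (nat_lit 0),Int.ofNat (nat_lit 12232299436722029844)]],[[Int.negSucc (nat_lit 31596675919703442179)]]]],[[[[Int.negSucc (nat_lit 92072518399774988123)]]]]]],[[[[[[Int.ofNat (nat_lit 85023305449782839760)]]]]]]],[[],[[[[[[Int.ofNat (nat_lit 10388766202697647032)]]]]]]]],[[[[[[[[Int.negSucc (nat_lit 119880885166631614871)],[Int.ofNat (nat_lit 3643772144309986872)]]],[[[Int.ofNat (nat_lit 56171565473539071744)]]]]],[[[[[Int.ofNat (nat_lit 6869128202476054992)]]]]]],[[[],[[[[Int.negSucc (nat_lit 4816162559981900471)]]]]]],[[[[[[Int.ofNat (nat_lit 48961523078347833156)]]]]]]],[[[[[[[Int.negSucc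 (nat_lit 227899595496502574087)]]]]],[[[[[Int.ofNat (nat_lit 14801950366124894256)]]]]]]],[[[[[[[Int.ofNat (nat_lit 160537178908618352100)]]]]]]]],[[[[[[[],[[Int.negSucc (nat_lit 22417994781084622019)]]]],[[[[Int.negSucc (nat_lit 105144436872387292451)]]]]]],[[[[[[Int.negSucc (nat_lit 199610282795682910475)]]]]]]]],[[[[[[[[Int.ofNat (nat_lit 121137783238689767292)]]]]]]],[[[[[[[Int.negSucc (nat_lit 75499267780593989927)]]]]]]]]],[[[[[[[[[Int.ofNat (nat_lit 0),Int.negSucc (nat_lit 28118050122029407151)]],[[Int.negSucc (nat_lit 2252015363593999451)]]]],[[[[Int.negSucc (nat_lit 51306566956687056803)]]]]]],[[[[[[Int.negSucc (nat_lit 614067037557956946035)]]]]],[[[[[Int.negSucc (nat_lit 6091625481538739075)]]]]]]],[[[[],[[[[Int.negSucc (nat_lit 14042472097731186311)]]]]]],[[[[[[Int.ofNat (nat_lit 137041266972356134692)]]]]]]]],[[[[[[[[Int.ofNat (nat_lit 8595004435505535924)]]],[[[Int.negSucc (nat_lit 1508333337628057451)]]]]],[[[[[Int.ofNat (nat_lit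 354606057525880656)]]]]]]],[[[[[[[Int.ofNat (nat_lit 68350783109062359276)]]]]]]]],[[[],[[[[[[Int.negSucc (nat_lit 9276248728383642239)]]]]]]]],[[[[[[[[Int.ofNat (nat_lit 97168081273217277408)]]]]]]]]],[[[[[[[[],[[Int.negSucc (nat_lit 8239774435432269995)]]]],[[[[Int.ofNat (nat_lit 33715738506143193864)]]]]]],[[[[[[Int.negSucc (nat_lit 302153109312300643475)]]]]]]]],[[[[[[[[Int.negSucc (nat_lit 299756596193885973323)]]]]]]],[[[[[[[Int.ofNat (nat_lit 24062450023446638016)]]]]]]]]],[[[[],[[[[[[Int.ofNat (nat_lit 16345502801403759804)]]]]]]]],[[[[[[[[Int.negSucc (nat_lit 763165200456170999)]]]]]]]]]]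

/-- A coefficient. -/
noncomputable def sr6_m0_2_2 : MP 10 :=
  [[[[[[[[[[Int.ofNat (nat_lit 560155218260485058850)],[Int.negSucc (nat_lit 48411865974983325203)]]],[[[Int.negSucc (nat_lit 17926112886453841751)]]]],[],[[[[Int.ofNat (nat_lit 62723773459389083736)]]]]],[[[[[Int.negSucc (nat_lit 88003723514055837047)]]]]],[[[[[Int.ofNat (nat_lit 91569841852456647714)]]]]]],[[[[[],[[Int.ofNat (nat_lit 18198757554918894468)]]]],[[[[Int.ofNat (nat_lit 19845869887014922248)]]]]]],[[[[[[Int.ofNat (nat_lit 211636146298678589448)]]]]]]],[[[[[[[Int.negSucc (nat_lit 115678256318066662583)]]],[[[Int.ofNat (nat_lit 36334035792853676652)]]]]],[[[[[Int.ofNat (nat_lit 85818330067581692856)]]]]]]],[[[[[[[Int.ofNat (nat_lit 632254605167158827924)]]]]]]]],[[[[[[[[Int.ofNat (nat_lit 0),Int.ofNat (nat_lit 63164446487927414880)]],[[Int.negSucc (nat_lit 41846588586727178879)]]]],[[[[Int.ofNat (nat_lit 11570909304362550252)]]]]],[[],[[[[Int.ofNat (nat_lit 38542870364162629488)]]]]]],[[[[[[Int.negSucc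 (nat_lit 32505353438843680631)]]],[[[Int.ofNat (nat_lit 23682564585441821760)]]]]],[[[[[Int.negSucc (nat_lit 42379112074613874335)]]]]]]],[[[[[[],[[Int.negSucc (nat_lit 9156264475122181751)]]]],[[[[Int.negSucc (nat_lit 47254109226041117651)]]]]]],[[[[[[Int.negSucc (nat_lit 32402042063997126287)]]]]]]]],[[[[[[[[Int.negSucc (nat_lit 852924288596476910633)],[Int.negSucc (nat_lit 19710491748881944343)]]],[[[Int.negSucc (nat_lit 39969076848806832011)]]]]],[[[[[Int.negSucc (nat_lit 262366169407014168935)]]]]]],[],[[[[[[Int.negSucc (nat_lit 152312167735973486591)]]]]]]],[[[[[[[Int.ofNat (nat_lit 798495551608649334972)]]]]]]],[[[[[[[Int.negSucc (nat_lit 111660735534585575399)]]]]]]]],[[[[[],[[[[Int.negSucc (nat_lit 32369623242923062571)]]]]]],[[[[[[Int.ofNat (nat_lit 647498289103483859568)]]]]]]]],[[[[[[[[Int.negSucc (nat_lit 732345732913064158655)]]]]]]]]],[[[[[[[[[Int.ofNat (nat_lit 523477545581903968182)],[Int.ofNat (nat_lit 40026191002959957456)]]],[[[Int.negSucc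 (nat_lit 38077005450780116795)]]]],[],[[[[Int.negSucc (nat_lit 21667210258334300879)]]]]],[[[[[Int.negSucc (nat_lit 111237275782564872143)]]]]],[[[[[Int.ofNat (nat_lit 31209560936338614306)]]]]]],[[[[[],[[Int.ofNat (nat_lit 6472279277989300284)]]]],[[[[Int.ofNat (nat_lit 160391301487745199816)]]]]]],[[[[[[Int.negSucc (nat_lit 395216348959935517991)]]]]]]],[[[[[[[Int.negSucc (nat_lit 709956460537599058751)]]],[[[Int.negSucc (nat_lit 23929733640797432843)]]]]],[[[[[Int.ofNat (nat_lit 110916039273074079960)]]]]]]],[[[[[[[Int.ofNat (nat_lit 963121167876561220056)]]]]]]]],[[[[[[[[Int.ofNat (nat_lit 0),Int.ofNat (nat_lit 32175265695443937228)]],[[Int.ofNat (nat_lit 60993104131121901372)]]]],[[[[Int.negSucc (nat_lit 128221806601234740875)]]]]]],[[[[[[Int.ofNat (nat_lit 528141587111565792876)]]]]]]],[[],[[[[[[Int.negSucc (nat_lit 61965705244847828843)]]]]]]]],[[[[[[[[Int.negSucc (nat_lit 1505914767389999150741)]]]]],[[[[[Int.negSucc (nat_lit 52149371015362432451)]]]]]]],[[[[[[[Int.ofNat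 (nat_lit 166421582254402094136)]]]]]]]],[],[[[[[[[[Int.ofNat (nat_lit 160584020770721604168)]]]]]]]]],[[[[[[[[[Int.ofNat (nat_lit 431266262444085040188)],[Int.ofNat (nat_lit 8385674972023367748)]]],[[[Int.ofNat (nat_lit 16384611745855097340)]]]]],[[[[[Int.ofNat (nat_lit 68534387316863366172)]]]]]],[],[[[[[[Int.negSucc (nat_lit 51629106187902890135)]]]]]]],[[[[[[[Int.negSucc (nat_lit 621597125056105696823)]]]]]]],[[[[[[[Int.negSucc (nat_lit 89000485173583608395)]]]]]]]],[[[[[],[[[[Int.ofNat (nat_lit 4414061045533397700)]]]]]],[[[[[[Int.ofNat (nat_lit 360244929986590865148)]]]]]]]],[[[[[[[[Int.negSucc (nat_lit 484941744796771036289)]]]]]]]]],[[[[[[[[[Int.ofNat (nat_lit 719787084604664987592)]]]]],[[[[[Int.ofNat (nat_lit 3115857980957580300)]]]]]]],[[[[[[[Int.negSucc (nat_lit 71986897593985512287)]]]]]]]],[],[[[[[[[[Int.negSucc (nat_lit 14372105712285159665)]]]]]]]]],[[[[[[[[[Int.ofNat (nat_lit 203984887367141188794)]]]]]]]]],[[[[[[[[[Int.ofNat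 (nat_lit 149443694622924023034)]]]]]]]]]]

/-- A coefficient. -/
noncomputable def sr6_m0_2_3 : MP 10 :=
  [[[[[[[[[[Int.ofNat (nat_lit 0),Int.ofNat (nat_lit 28713435946438328232)]],[[Int.ofNat (nat_lit 650275146017087064)]]]],[[[[Int.ofNat (nat_lit 289665063294158660868)]]]]]],[[[[[[Int.ofNat (nat_lit 855934043725735326000)]]]]],[[[[[Int.ofNat (nat_lit 81183566783395350888)]]]]]]],[[[[],[[[[Int.negSucc (nat_lit 109785405156314377391)]]]]]],[[[[[[Int.negSucc (nat_lit 319826019731032195535)]]]]]]]],[[[[[[[[Int.ofNat (nat_lit 3106414828853288883876)],[Int.negSucc (nat_lit 19234904215565588471)]]],[[[Int.ofNat (nat_lit 22993674375401931180)]]]]],[[[[[Int.ofNat (nat_lit 414539791992653218692)]]]]]],[[[],[[[[Int.ofNat (nat_lit 32161970556937856148)]]]]]],[[[[[[Int.negSucc (nat_lit 127613199975681589943)]]]]]]],[[[[[[[Int.negSucc (nat_lit 1899495009512155425539)]]]]],[[[[[Int.negSucc (nat_lit 51974081096454070223)]]]]]]],[[[[[[[Int.negSucc (nat_lit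 359196968412709542671)]]]]]]]],[[[[[[[],[[Int.ofNat (nat_lit 244421564578165560)]]]],[[[[Int.ofNat (nat_lit 29391887741927204136)]]]]]],[[[[[[Int.negSucc (nat_lit 690417747521894885111)]]]]]]]],[[[[[[[[Int.ofNat (nat_lit 868034416287620686776)]]]]]]],[[[[[[[Int.ofNat (nat_lit 6359872329180391044)]]]]]]]]],[[[[[[[[[Int.ofNat (nat_lit 0),Int.ofNat (nat_lit 28713435946438328232)]],[[Int.negSucc (nat_lit 52814262964805470031)]]]],[[[[Int.ofNat (nat_lit 771810053101642573020)]]]]]],[[[[[[Int.ofNat (nat_lit 1292936914348514794920)]]]]],[[[[[Int.ofNat (nat_lit 65311908196047761928)]]]]]]],[[[[],[[[[Int.negSucc (nat_lit 40425341534107341719)]]]]]],[[[[[[Int.negSucc (nat_lit 793181212951890934727)]]]]]]]],[[[[[[[[Int.ofNat (nat_lit 3586412959247464779348)]]],[[[Int.negSucc (nat_lit 24706384965254969723)]]]]],[[[[[Int.negSucc (nat_lit 45067415926913707283)]]]]]]],[[[[[[[Int.negSucc (nat_lit 426248005088499135695)]]]]]]]],[[[],[[[[[[Int.negSucc (nat_lit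 175311450355727472383)]]]]]]]],[[[[[[[[Int.negSucc (nat_lit 95998151079353956763)]]]]]]]]],[[[[[[[[],[[Int.negSucc (nat_lit 15063163226166157583)]]]],[[[[Int.ofNat (nat_lit 270820846992142544496)]]]]]],[[[[[[Int.ofNat (nat_lit 649184468725401734856)]]]]]]]],[[[[[[[[Int.negSucc (nat_lit 195129230388757398827)]]]]]]],[[[[[[[Int.negSucc (nat_lit 133051240637062988579)]]]]]]]]],[[[[],[[[[[[Int.ofNat (nat_lit 145413570878491430664)]]]]]]]],[[[[[[[[Int.negSucc (nat_lit 248561438502174164915)]]]]]]]]]]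

/-- A coefficient. -/
noncomputable def sr6_m0_2_4 : MP 10 :=
  [[[[[[[[[[Int.negSucc (nat_lit 1297080165108374911661)],[Int.ofNat (nat_lit 24502900430640770136)]]],[[[Int.ofNat (nat_lit 5355872568564743784)]]]]],[[[[[Int.negSucc (nat_lit 94052918546902495043)]]]]]],[],[[[[[[Int.ofNat (nat_lit 506616008811201656706)]]]]]]],[[[[[[[Int.ofNat (nat_lit 86947615314272686260)]]]]]]],[[[[[[[Int.ofNat (nat_lit 589999797372276620346)]]]]]]]],[[[[[[[[Int.ofNat (nat_lit 0),Int.negSucc (nat_lit 20480352142535056175)]],[[Int.ofNat (nat_lit 46116944210870467956)]]]],[[[[Int.negSucc (nat_lit 56533898730121659587)]]]]]],[[[[[[Int.negSucc (nat_lit 208618342410503828003)]]]]]]],[[],[[[[[[Int.ofNat (nat_lit 136624538126678602020)]]]]]]]],[[[[[[[[Int.ofNat (nat_lit 291950652209510177028)]]]]],[[[[[Int.negSucc (nat_lit 163129950474591351215)]]]]]]],[[[[[[[Int.ofNat (nat_lit 44068357173929692836)]]]]]]]],[],[[[[[[[[Int.ofNat (nat_lit 317849591770242935220)]]]]]]]]],[[[[[[[[[Int.negSucc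 (nat_lit 2418598699577018859569)],[Int.negSucc (nat_lit 24502900430640770135)]]],[[[Int.ofNat (nat_lit 8495990754029004336)]]]]],[[[[[Int.ofNat (nat_lit 269740390752759085068)]]]]]],[],[[[[[[Int.ofNat (nat_lit 302461394812795321674)]]]]]]],[[[[[[[Int.ofNat (nat_lit 245464970555783500236)]]]]]]],[[[[[[[Int.negSucc (nat_lit 200623679436264902225)]]]]]]]],[[[[[],[[[[Int.negSucc (nat_lit 142832696938091261015)]]]]]],[[[[[[Int.negSucc (nat_lit 358841741389973457431)]]]]]]]],[[[[[[[[Int.ofNat (nat_lit 1012324118246457526092)]]]]]]]]],[[[[[[[[[Int.negSucc (nat_lit 1494130707287987180717)]]]]],[[[[[Int.negSucc (nat_lit 16991294355612680567)]]]]]]],[[[[[[[Int.ofNat (nat_lit 489968887404506514912)]]]]]]]],[],[[[[[[[[Int.negSucc (nat_lit 37935458246905017491)]]]]]]]]],[[[[[[[[[Int.negSucc (nat_lit 1328361840072750751889)]]]]]]]]],[[[[[[[[[Int.negSucc (nat_lit 162039799582852513631)]]]]]]]]]]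

/-- A coefficient. -/
noncomputable def sr6_m0_2_5 : MP 10 :=
  [[[[[[[[[],[[Int.negSucc (nat_lit 8974702248755242979)]]]],[[[[Int.negSucc (nat_lit 326775521843796887495)]]]]]],[[[[[[Int.negSucc (nat_lit 230055881948932751243)]]]]]]]],[[[[[[[[Int.negSucc (nat_lit 3558050417765514986975)]]],[[[Int.negSucc (nat_lit 10392157425978046043)]]]]],[[[[[Int.negSucc (nat_lit 38858287037652132791)]]]]]]],[[[[[[[Int.ofNat (nat_lit 1014786167831428339848)]]]]]]]],[[[],[[[[[[Int.ofNat (nat_lit 55030749223332819312)]]]]]]]],[[[[[[[[Int.negSucc (nat_lit 1297268619648466807799)]]]]]]]]],[[[[[[[[],[[Int.ofNat (nat_lit 13365486637770326796)]]]],[[[[Int.negSucc (nat_lit 415368752087202289007)]]]]]],[[[[[[Int.negSucc (nat_lit 394999311022494924011)]]]]]]]],[[[[[[[[Int.negSucc (nat_lit 5022399637327718109575)]]]]]]],[[[[[[[Int.ofNat (nat_lit 158664875560600900392)]]]]]]]]],[[[[],[[[[[[Int.negSucc (nat_lit 247713654965402563223)]]]]]]]],[[[[[[[[Int.negSucc (nat_lit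 957575822811396175739)]]]]]]]]]]

/-- A coefficient. -/
noncomputable def sr6_m0_2_6 : MP 10 :=
  [[[[[[[[[[Int.ofNat (nat_lit 2138384469375385402536)]]]]],[[[[[Int.ofNat (nat_lit 120776902023348581688)]]]]]]],[[[[[[[Int.ofNat (nat_lit 484823714641467466884)]]]]]]]],[[[[[],[[[[Int.negSucc (nat_lit 12997481593479990167)]]]]]],[[[[[[Int.ofNat (nat_lit 335119293833720506152)]]]]]]]],[[[[[[[[Int.ofNat (nat_lit 1407407027840838114096)]]]]]]]]],[[[[[[[[[Int.ofNat (nat_lit 3847798180539702833520)]]]]],[[[[[Int.negSucc (nat_lit 95262665380169189015)]]]]]]],[[[[[[[Int.ofNat (nat_lit 759544554759958803564)]]]]]]]],[],[[[[[[[[Int.ofNat (nat_lit 290098051578273381144)]]]]]]]]],[[[[[[[[[Int.ofNat (nat_lit 2115064565565137907042)]]]]]]]]],[[[[[[[[[Int.ofNat (nat_lit 1066834272755658992058)]]]]]]]]]]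

/-- A coefficient. -/
noncomputable def sr6_m0_2_7 : MP 10 :=
  [[[[[],[[[[[[Int.negSucc (nat_lit 525505715638435564511)]]]]]]]],[[[[[[[[Int.ofNat (nat_lit 1131313801743437544000)]]]]]]],[[[[[[[Int.ofNat (nat_lit 185261225770079383428)]]]]]]]]],[[[[],[[[[[[Int.negSucc (nat_lit 491638710411563954015)]]]]]]]],[[[[[[[[Int.ofNat (nat_lit 1294505499096517647744)]]]]]]]]]]

/-- A coefficient. -/
noncomputable def sr6_m0_2_8 : MP 10 :=
  [[[[[[[[[[Int.negSucc (nat_lit 3055515383808235681277)]]]]]]]],[],[[[[[[[[Int.negSucc (nat_lit 366715023145208823755)]]]]]]]]],[[[[[[[[[Int.negSucc (nat_lit 2983113568725157174913)]]]]]]]]],[[[[[[[[[Int.negSucc (nat_lit 317737345369437856919)]]]]]]]]]]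

/-- A coefficient. -/
noncomputable def sr6_m0_2_9 : MP 10 :=
  [[[],[[[[[[[[Int.negSucc (nat_lit 271521744517623245447)]]]]]]]]]]

/-- A coefficient. -/
noncomputable def sr6_m0_2_10 : MP 10 :=
  [[[[[[[[[[Int.ofNat (nat_lit 2019780776161425111246)]]]]]]]]],[[[[[[[[[Int.ofNat (nat_lit 1235567101491676772262)]]]]]]]]]]

/-- A coefficient. -/
noncomputable def sr6_m0_3_0 : MP 10 :=
  [[[[[[[[[[Int.negSucc (nat_lit 535245831698520305255)],[Int.ofNat (nat_lit 35192921391428629896)]]],[[[Int.negSucc (nat_lit 13771225524253717067)]]]],[[[],[[Int.negSucc (nat_lit 1244914878672223259)]]]],[[[[Int.negSucc (nat_lit 131744654015121336983)]]]]],[[[[[Int.negSucc (nat_lit 193056507487793207555)]]],[[[Int.negSucc (nat_lit 7809037997501987747)]]]]],[[[[[Int.negSucc (nat_lit 88256216909532591131)]]]]]],[[[[[[Int.ofNat (nat_lit 0),Int.ofNat (nat_lit 2479452161031685224)]],[[Int.negSucc (nat_lit 11748547671107667455)]]]],[[[[Int.negSucc (nat_lit 172341458795476422023)]]]]]],[[[[[[Int.negSucc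 (nat_lit 372816309085302472655)]]]]]]],[[[[[[[Int.ofNat (nat_lit 236032491402642835008)],[Int.negSucc (nat_lit 8819250894026346215)]]],[[[Int.ofNat (nat_lit 8655943647110429820)]]]]],[[[[[Int.ofNat (nat_lit 80820521114243438436)]]]]]],[],[[[[[[Int.ofNat (nat_lit 3320406419700852180)]]]]]]],[[[[[[[Int.negSucc (nat_lit 33062747594917632407)]]]]]]],[[[[[[[Int.ofNat (nat_lit 866505053510402388)]]]]]]]],[[[[[[[[Int.ofNat (nat_lit 0),Int.negSucc (nat_lit 40900080819184634711)]],[[Int.ofNat (nat_lit 34803332123460598740)]]]],[[[[Int.negSucc (nat_lit 45637084941871826255)]]],[[[Int.negSucc (nat_lit 2295692935256016755)]]]]],[[[[],[[Int.negSucc (nat_lit 4379295842285982251)]]]],[[[[Int.negSucc (nat_lit 57470997778987579475)]]]]]],[[[[[[Int.negSucc (nat_lit 94310157957270617315)],[Int.negSucc (nat_lit 1060846349427464639)]]],[[[Int.ofNat (nat_lit 6884454553045951848)]]]]],[[[[[Int.negSucc (nat_lit 36003062504377237655)]]]]]],[],[[[[[[Int.negSucc (nat_lit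 6415223528194378691)]]]]]]],[[[[[[[Int.ofNat (nat_lit 0),Int.ofNat (nat_lit 7927632498355184712)]],[[Int.negSucc (nat_lit 8410010439963812159)]]]],[[[[Int.ofNat (nat_lit 73776153095083148868)]]]]]],[[[[[[Int.ofNat (nat_lit 197904238238020008804)]]]]]]],[[],[[[[[[Int.negSucc (nat_lit 12428247698655042347)]]]]]]]],[[[[[[[[Int.ofNat (nat_lit 379304566342745118900)],[Int.ofNat (nat_lit 4611617678424104808)]]],[[[Int.negSucc (nat_lit 8535526446606355139)]]]]],[[[[[Int.ofNat (nat_lit 73160435270012612640)]]]]]],[[[],[[[[Int.ofNat (nat_lit 22504190370244900524)]]]]]],[[[[[[Int.negSucc (nat_lit 26326430276041690139)]]]]]]],[[[[[[[Int.negSucc (nat_lit 552160779249274204919)]]]]],[[[[[Int.ofNat (nat_lit 41150349106821711552)]]]]]]],[[[[[[[Int.ofNat (nat_lit 47131450701550360788)]]]]]]]],[[[[[[[],[[Int.ofNat (nat_lit 5967837346400652888)]]]],[[[[Int.negSucc (nat_lit 92505002703116227535)]]]]]],[[[[[[Int.ofNat (nat_lit 96981884093488972248)]]]]]]]],[[[[[[[[Int.ofNat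 (nat_lit 51815478409505987676)]]]]]]],[[[[[[[Int.negSucc (nat_lit 11663396885666697575)]]]]]]]]],[[[[[[[[[Int.negSucc (nat_lit 567789641508844976531)],[Int.negSucc (nat_lit 19571632741561245167)]]],[[[Int.ofNat (nat_lit 535064828884168380)]]]],[[[],[[Int.negSucc (nat_lit 1244914878672223259)]]]],[[[[Int.negSucc (nat_lit 131744654015121336983)]]]]],[[[[[Int.ofNat (nat_lit 152545915860112159752)]]],[[[Int.ofNat (nat_lit 7809037997501987748)]]]]],[[[[[Int.ofNat (nat_lit 88256216909532591132)]]]]]],[[[[[[Int.ofNat (nat_lit 0),Int.ofNat (nat_lit 2479452161031685224)]],[[Int.negSucc (nat_lit 11748547671107667455)]]]],[[[[Int.negSucc (nat_lit 203071530625187233139)]]]]]],[[[[[[Int.negSucc (nat_lit 468915212396402175395)]]]]]]],[[[[[[[Int.negSucc (nat_lit 314589712219891196639)],[Int.ofNat (nat_lit 8819250894026346216)]]],[[[Int.negSucc (nat_lit 8655943647110429819)]]]]],[[[[[Int.negSucc (nat_lit 77681039580435269339)]]]]]],[],[[[[[[Int.ofNat (nat_lit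 2793802538287766460)]]]]]]],[[[[[[[Int.ofNat (nat_lit 98318427483698870040)]]]]]]],[[[[[[[Int.negSucc (nat_lit 866505053510402387)]]]]]]]],[[[[[[[[Int.ofNat (nat_lit 0),Int.negSucc (nat_lit 27492205525572366815)]],[[Int.ofNat (nat_lit 26403401309441701824)]]]],[[[[Int.ofNat (nat_lit 121427587251894764652)]]]]]],[[[[[[Int.ofNat (nat_lit 451595235078623289264)]]]]],[[[[[Int.negSucc (nat_lit 43550110763269092551)]]]]]]],[[[[],[[[[Int.ofNat (nat_lit 61728714477573962736)]]]]]],[[[[[[Int.negSucc (nat_lit 21123849710700199211)]]]]]]]],[[[[[[[[Int.ofNat (nat_lit 104272361027544585000)]]],[[[Int.ofNat (nat_lit 3000209513175933324)]]]]],[[[[[Int.negSucc (nat_lit 18374881990642004195)]]]]]]],[[[[[[[Int.negSucc (nat_lit 27923348244263762147)]]]]]]]],[[[],[[[[[[Int.ofNat (nat_lit 17826702077353080048)]]]]]]]],[[[[[[[[Int.ofNat (nat_lit 176165552165826953640)]]]]]]]]],[[[[[[[[[Int.ofNat (nat_lit 109503447951146153748)],[Int.negSucc (nat_lit 15621288649867384727)]]],[[[Int.ofNat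 (nat_lit 13436547540285689460)]]]]],[[[[[Int.ofNat (nat_lit 98667422572120582416)]]]]]],[[[],[[[[Int.negSucc (nat_lit 30730071829710811115)]]]]]],[[[[[[Int.negSucc (nat_lit 36547813100988034979)]]]]]]],[[[[[[[Int.negSucc (nat_lit 72883320641587789583)]]]]],[[[[[Int.negSucc (nat_lit 3139481533808169095)]]]]]]],[[[[[[[Int.negSucc (nat_lit 65255679888781237631)]]]]]]]],[[[[[[[],[[Int.negSucc (nat_lit 2783384803389304331)]]]],[[[[Int.ofNat (nat_lit 93609507437351953860)]]]]]],[[[[[[Int.ofNat (nat_lit 468188645618037391224)]]]]]]]],[[[[[[[[Int.negSucc (nat_lit 141253498597010326067)]]]]]]],[[[[[[[Int.negSucc (nat_lit 80697328310722402559)]]]]]]]]],[[[[[[[[[Int.ofNat (nat_lit 389091784065605451660)]]],[[[Int.negSucc (nat_lit 200386844916140771)]]]]],[[[[[Int.negSucc (nat_lit 58156830944439534611)]]]]]]],[[[[[[[Int.ofNat (nat_lit 155069876885917555860)]]]]]]]],[[[],[[[[[[Int.ofNat (nat_lit 66376119483180658068)]]]]]]]],[[[[[[[[Int.negSucc (nat_lit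 89778918470939243123)]]]]]]]]],[[[[[[[[[Int.ofNat (nat_lit 445625427378757840248)]]]]]]],[[[[[[[Int.negSucc (nat_lit 3629335427081404643)]]]]]]]]],[[[[[[[[[Int.ofNat (nat_lit 158814813811855836132)]]]]]]]]]]

/-- A coefficient. -/
noncomputable def sr6_m0_3_1 : MP 10 :=
  [[[[[[[[[[Int.ofNat (nat_lit 0),Int.ofNat (nat_lit 36931075846656980292)]],[[Int.negSucc (nat_lit 32825826049705663019)]]]],[[[[Int.negSucc (nat_lit 259733580546806949047)]]]]],[[],[[[[Int.ofNat (nat_lit 7147226050228188192)]]]]]],[[[[[[Int.negSucc (nat_lit 105055819030856640575)]]],[[[Int.negSucc (nat_lit 35967036953469353651)]]]]],[[[[[Int.ofNat (nat_lit 41975223434920674900)]]]]]]],[[[[[[],[[Int.ofNat (nat_lit 19923263161358861352)]]]],[[[[Int.ofNat (nat_lit 146806138109687564808)]]]]]],[[[[[[Int.negSucc (nat_lit 37568271255241693475)]]]]]]]],[[[[[[[[Int.negSucc (nat_lit 1344462207132429839531)],[Int.negSucc (nat_lit 63704430557327527163)]]],[[[Int.negSucc (nat_lit 1187073226156360511)]]]],[],[[[[Int.negSucc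 (nat_lit 7646264115600898679)]]]]],[[[[[Int.negSucc (nat_lit 252523268156519850335)]]]]],[[[[[Int.negSucc (nat_lit 38185581383635770527)]]]]]],[[[[[],[[Int.ofNat (nat_lit 43299012185478983064)]]]],[[[[Int.ofNat (nat_lit 122555439556957064328)]]]]]],[[[[[[Int.ofNat (nat_lit 425029450013860547376)]]]]]]],[[[[[[[Int.ofNat (nat_lit 1792115822570434495764)]]],[[[Int.negSucc (nat_lit 3956872150455807467)]]]]],[[[[[Int.ofNat (nat_lit 48519405147262167048)]]]]]]],[[[[[[[Int.negSucc (nat_lit 500978202649407677771)]]]]]]]],[[[[[[[[Int.ofNat (nat_lit 0),Int.ofNat (nat_lit 20695805178201736992)]],[[Int.negSucc (nat_lit 28446773115863919623)]]]],[[[[Int.ofNat (nat_lit 45474904370268758112)]]]]]],[[[[[[Int.ofNat (nat_lit 114286942864462473816)]]]]]]],[[],[[[[[[Int.negSucc (nat_lit 93827279225273734595)]]]]]]]],[[[[[[[[Int.negSucc (nat_lit 490572567073256004299)]]]]],[[[[[Int.ofNat (nat_lit 167497005641354054448)]]]]]]],[[[[[[[Int.ofNat (nat_lit 186779169934576762824)]]]]]]]],[],[[[[[[[[Int.negSucc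 (nat_lit 175910557158142824071)]]]]]]]]],[[[[[[[[[Int.ofNat (nat_lit 0),Int.ofNat (nat_lit 62473345652251200264)]],[[Int.ofNat (nat_lit 17995201055563158876)]]]],[[[[Int.negSucc (nat_lit 473162631637280364083)]]]]],[[],[[[[Int.ofNat (nat_lit 18269114215483482192)]]]]]],[[[[[[Int.negSucc (nat_lit 170652672573281418767)]]],[[[Int.ofNat (nat_lit 51315548363217300732)]]]]],[[[[[Int.negSucc (nat_lit 16439951166539558963)]]]]]]],[[[[[[],[[Int.ofNat (nat_lit 20899637717911404408)]]]],[[[[Int.ofNat (nat_lit 246363942997523543016)]]]]]],[[[[[[Int.negSucc (nat_lit 54733007411412987275)]]]]]]]],[[[[[[[[Int.negSucc (nat_lit 1161696284074821879191)],[Int.negSucc (nat_lit 7684203176539783571)]]],[[[Int.negSucc (nat_lit 7967267549896287887)]]]]],[[[[[Int.ofNat (nat_lit 207054289597772889924)]]]]]],[],[[[[[[Int.negSucc (nat_lit 51554879128647055931)]]]]]]],[[[[[[[Int.ofNat (nat_lit 814783791671839954032)]]]]]]],[[[[[[[Int.negSucc (nat_lit 175341233229737616767)]]]]]]]],[[[[[],[[[[Int.ofNat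 (nat_lit 18702459392387440752)]]]]]],[[[[[[Int.ofNat (nat_lit 27668373043687800936)]]]]]]]],[[[[[[[[Int.negSucc (nat_lit 377414656617884537387)]]]]]]]]],[[[[[[[[[Int.ofNat (nat_lit 0),Int.ofNat (nat_lit 25542269805594219972)]],[[Int.ofNat (nat_lit 60277724038485348696)]]]],[[[[Int.negSucc (nat_lit 108813043487370692303)]]]]]],[[[[[[Int.ofNat (nat_lit 622630608287938349640)]]]]]]],[[],[[[[[[Int.negSucc (nat_lit 35012054307267919127)]]]]]]]],[[[[[[[[Int.ofNat (nat_lit 89507404605281658828)]]]]],[[[[[Int.ofNat (nat_lit 106229361680953027788)]]]]]]],[[[[[[[Int.negSucc (nat_lit 137647441875039641159)]]]]]]]],[],[[[[[[[[Int.negSucc (nat_lit 98345728950386099363)]]]]]]]]],[[[[[[],[[[[Int.ofNat (nat_lit 17302754197725614100)]]]]]],[[[[[[Int.ofNat (nat_lit 398722792430382472800)]]]]]]]],[[[[[[[[Int.negSucc (nat_lit 92839682985894490367)]]]]]]]]],[[],[[[[[[[[Int.negSucc (nat_lit 86541252807374969327)]]]]]]]]]]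

/-- A coefficient. -/
noncomputable def sr6_m0_3_2 : MP 10 :=
  [[[[[[[[[[Int.ofNat (nat_lit 252027831594067078656)],[Int.negSucc (nat_lit 17746030727563081115)]]],[[[Int.ofNat (nat_lit 16879489148416546908)]]]]],[[[[[Int.ofNat (nat_lit 526488106624151817156)]]]]]],[[[],[[[[Int.ofNat (nat_lit 6659230228310192196)]]]]]],[[[[[[Int.negSucc (nat_lit 609319111777601402171)]]]]]]],[[[[[[[Int.ofNat (nat_lit 20253856171202061108)]]]]],[[[[[Int.negSucc (nat_lit 75463942649169320447)]]]]]]],[[[[[[[Int.negSucc (nat_lit 1153019643374586786911)]]]]]]]],[[[[[[[[Int.ofNat (nat_lit 0),Int.ofNat (nat_lit 8021993075211770304)]],[[Int.ofNat (nat_lit 38497161703983493440)]]]],[[[[Int.ofNat (nat_lit 157766381658741792864)]]]]]],[[[[[[Int.ofNat (nat_lit 493325741401941138528)]]]]],[[[[[Int.negSucc (nat_lit 19945464118562198903)]]]]]]],[[[[],[[[[Int.ofNat (nat_lit 16440547426024118496)]]]]]],[[[[[[Int.negSucc (nat_lit 225684871222719630791)]]]]]]]],[[[[[[[[Int.ofNat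 (nat_lit 2941574650044222750888)]]],[[[Int.negSucc (nat_lit 1108379687313777191)]]]]],[[[[[Int.ofNat (nat_lit 135850712721142304352)]]]]]]],[[[[[[[Int.negSucc (nat_lit 715230465255603899339)]]]]]]]],[[[],[[[[[[Int.negSucc (nat_lit 7650017821838764679)]]]]]]]],[[[[[[[[Int.ofNat (nat_lit 30201944220196241016)]]]]]]]]],[[[[[[[[[Int.ofNat (nat_lit 110344792582194289044)],[Int.ofNat (nat_lit 17746030727563081116)]]],[[[Int.ofNat (nat_lit 28277751316585536972)]]]]],[[[[[Int.negSucc (nat_lit 450287180692360345667)]]]]]],[[[],[[[[Int.negSucc (nat_lit 80082859404913304171)]]]]]],[[[[[[Int.ofNat (nat_lit 568995319913363256996)]]]]]]],[[[[[[[Int.ofNat (nat_lit 1250726577015165593016)]]]]],[[[[[Int.negSucc (nat_lit 3916446001012322087)]]]]]]],[[[[[[[Int.negSucc (nat_lit 1206152429151598172975)]]]]]]]],[[[[[[[],[[Int.negSucc (nat_lit 16197240669496777895)]]]],[[[[Int.ofNat (nat_lit 340545165191458351680)]]]]]],[[[[[[Int.negSucc (nat_lit 389839223246778979379)]]]]]]]],[[[[[[[[Int.ofNat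 (nat_lit 2131234767697343619972)]]]]]]],[[[[[[[Int.ofNat (nat_lit 150849570009627691932)]]]]]]]]],[[[[[[[[[Int.ofNat (nat_lit 746766232250624405592)]]],[[[Int.negSucc (nat_lit 32352527088713561831)]]]]],[[[[[Int.negSucc (nat_lit 262218509675639046263)]]]]]]],[[[[[[[Int.ofNat (nat_lit 140915569118341261284)]]]]]]]],[[[],[[[[[[Int.negSucc (nat_lit 206087927963107675559)]]]]]]]],[[[[[[[[Int.ofNat (nat_lit 400377784713630928524)]]]]]]]]],[[[[[[[[[Int.ofNat (nat_lit 1407006274374200195556)]]]]]]],[[[[[[[Int.ofNat (nat_lit 49536334455363095616)]]]]]]]]],[[[[[[[[[Int.ofNat (nat_lit 666709511308592767464)]]]]]]]]]]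

/-- A coefficient. -/
noncomputable def sr6_m0_3_3 : MP 10 :=
  [[[[[[[[[[Int.ofNat (nat_lit 0),Int.negSucc (nat_lit 41416087670158622747)]],[[Int.negSucc (nat_lit 11592782346193825487)]]]],[[[[Int.ofNat (nat_lit 21904001252677379160)]]]]]],[[[[[[Int.negSucc (nat_lit 741738529366076028947)]]]]]]],[[],[[[[[[Int.ofNat (nat_lit 81120942005285236044)]]]]]]]],[[[[[[[[Int.negSucc (nat_lit 1460464074564879945599)],[Int.ofNat (nat_lit 41134335879142664952)]]],[[[Int.ofNat (nat_lit 94328627128648954020)]]]]],[[[[[Int.negSucc (nat_lit 105178990743908723375)]]]]]],[],[[[[[[Int.ofNat (nat_lit 127984474939472223588)]]]]]]],[[[[[[[Int.ofNat (nat_lit 272233833806882491044)]]]]]]],[[[[[[[Int.ofNat (nat_lit 129983947962434391300)]]]]]]]],[[[[[],[[[[Int.negSucc (nat_lit 20032845586413029159)]]]]]],[[[[[[Int.negSucc (nat_lit 565218752003344623407)]]]]]]]],[[[[[[[[Int.ofNat (nat_lit 1654909523508144589824)]]]]]]]]],[[[[[[[[[Int.ofNat (nat_lit 0),Int.negSucc (nat_lit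 41416087670158622747)]],[[Int.negSucc (nat_lit 30070841566916499551)]]]],[[[[Int.negSucc (nat_lit 220094185553325246755)]]]]]],[[[[[[Int.negSucc (nat_lit 1020817392525833547107)]]]]]]],[[],[[[[[[Int.ofNat (nat_lit 707768113405373468796)]]]]]]]],[[[[[[[[Int.ofNat (nat_lit 1229387597159293244568)]]]]],[[[[[Int.negSucc (nat_lit 22096994654874644111)]]]]]]],[[[[[[[Int.negSucc (nat_lit 397989681786613614143)]]]]]]]],[],[[[[[[[[Int.negSucc (nat_lit 41136800505241881719)]]]]]]]]],[[[[[[],[[[[Int.negSucc (nat_lit 183100783424112716579)]]]]]],[[[[[[Int.negSucc (nat_lit 621235434179754082991)]]]]]]]],[[[[[[[[Int.ofNat (nat_lit 2521041933804037691580)]]]]]]]]],[[],[[[[[[[[Int.ofNat (nat_lit 312203194920067806360)]]]]]]]]]]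

/-- A coefficient. -/
noncomputable def sr6_m0_3_4 : MP 10 :=
  [[[[[[[[[[Int.negSucc (nat_lit 479220903801174467651)]]],[[[Int.negSucc (nat_lit 51897831803391146375)]]]]],[[[[[Int.negSucc (nat_lit 378076455713445842147)]]]]]]],[[[[[[[Int.negSucc (nat_lit 157084170256728022655)]]]]]]]],[[[[[[[],[[Int.negSucc (nat_lit 62126157816329670971)]]]],[[[[Int.ofNat (nat_lit 2867112952258010448)]]]]]],[[[[[[Int.ofNat (nat_lit 244286511283390701960)]]]]]]]],[[[[[[[[Int.negSucc (nat_lit 6142695167643590808467)]]]]]]],[[[[[[[Int.ofNat (nat_lit 56525067850604493696)]]]]]]]]],[[[[[[[[[Int.negSucc (nat_lit 177669816976495820627)]]],[[[Int.negSucc (nat_lit 28669499701372627607)]]]]],[[[[[Int.ofNat (nat_lit 118637375722788083988)]]]]]]],[[[[[[[Int.negSucc (nat_lit 1790751590676408461987)]]]]]]]],[[[],[[[[[[Int.ofNat (nat_lit 302746649039104356852)]]]]]]]],[[[[[[[[Int.negSucc (nat_lit 3118817674704436661723)]]]]]]]]],[[[[[[[[[Int.negSucc (nat_lit 2850204814674448874903)]]]]]]],[[[[[[[Int.negSucc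 (nat_lit 147794029850848931195)]]]]]]]]],[[[[[[[[[Int.negSucc (nat_lit 1312028845908972622703)]]]]]]]]]]

/-- A coefficient. -/
noncomputable def sr6_m0_3_5 : MP 10 :=
  [[[[[[[],[[[[Int.ofNat (nat_lit 338702425294099843452)]]]]]],[[[[[[Int.ofNat (nat_lit 1038433905934812341628)]]]]]]]],[[[[[[[[Int.ofNat (nat_lit 4544630785186786770024)]]]]],[[[[[Int.ofNat (nat_lit 37357383448664064444)]]]]]]],[[[[[[[Int.negSucc (nat_lit 991997467648999757267)]]]]]]]],[],[[[[[[[[Int.negSucc (nat_lit 123745361823799072763)]]]]]]]]],[[[[[[],[[[[Int.ofNat (nat_lit 429511284850921962948)]]]]]],[[[[[[Int.ofNat (nat_lit 1215624552068059490484)]]]]]]]],[[[[[[[[Int.ofNat (nat_lit 2947215125829928934544)]]]]]]]]],[[],[[[[[[[[Int.negSucc (nat_lit 10984131217047474803)]]]]]]]]]]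

/-- A coefficient. -/
noncomputable def sr6_m0_3_6 : MP 10 :=
  [[[[[[[[[[Int.ofNat (nat_lit 2940681791020231565352)]]]]]]],[[[[[[[Int.negSucc (nat_lit 753690759552544117511)]]]]]]]],[[[],[[[[[[Int.negSucc (nat_lit 34758470231417550239)]]]]]]]],[[[[[[[[Int.ofNat (nat_lit 2570554951361387747580)]]]]]]]]],[[[[[[[[[Int.ofNat (nat_lit 43164991577677624836)]]]]]]],[[[[[[[Int.ofNat (nat_lit 47139161997018255936)]]]]]]]]],[[[[[[[[[Int.ofNat (nat_lit 871457209523348185332)]]]]]]]]]]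

/-- A coefficient. -/
noncomputable def sr6_m0_3_7 : MP 10 :=
  [[[],[[[[[[[[Int.negSucc (nat_lit 2560526235005213855135)]]]]]]]]],[[],[[[[[[[[Int.negSucc (nat_lit 1146698069768564786363)]]]]]]]]]]

/-- A coefficient. -/
noncomputable def sr6_m0_3_8 : MP 10 :=
  [[[[[[[[[[Int.negSucc (nat_lit 2669418130721514908903)]]]]]]]]],[[[[[[[[[Int.negSucc (nat_lit 356669050191932155175)]]]]]]]]]]

/-- A coefficient. -/
noncomputable def sr6_m0_3_9 : MP 10 :=
  [[[],[[[[[[[[Int.negSucc (nat_lit 28772347168927476935)]]]]]]]]]]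

/-- A coefficient. -/
noncomputable def sr6_m0_4_0 : MP 10 :=
  [[[[[[[[[[Int.negSucc (nat_lit 170754476805310968653)],[Int.negSucc (nat_lit 17927757568630845959)]]],[[[Int.negSucc (nat_lit 43022938133779551359)]]]],[],[[[[Int.ofNat (nat_lit 55050968853011164962)]]]]],[[[[[Int.negSucc (nat_lit 190741775388933295595)]]]]],[[[[[Int.ofNat (nat_lit 53420959972644451038)]]]]]],[[[[[],[[Int.ofNat (nat_lit 1997620673813849496)]]]],[[[[Int.ofNat (nat_lit 144866472164009494920)]]]]]],[[[[[[Int.ofNat (nat_lit 539381440254039321618)]]]]]]],[[[[[[[Int.ofNat (nat_lit 294006575791073967516)]]],[[[Int.ofNat (nat_lit 2445607489636245180)]]]]],[[[[[Int.ofNat (nat_lit 27388569987346044180)]]]]]]],[[[[[[[Int.ofNat (nat_lit 24751571857239401454)]]]]]]]],[[[[[[[[Int.ofNat (nat_lit 0),Int.ofNat (nat_lit 28943865223137589836)]],[[Int.negSucc (nat_lit 45189685244872256159)]]]],[[[[Int.negSucc (nat_lit 249068214859430243735)]]]]],[[],[[[[Int.ofNat (nat_lit 11172955829095833360)]]]]]],[[[[[[Int.ofNat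 (nat_lit 4385656215265003908)]]],[[[Int.negSucc (nat_lit 1570957701827481335)]]]]],[[[[[Int.ofNat (nat_lit 28280694081063174588)]]]]]]],[[[[[[],[[Int.ofNat (nat_lit 1510801459072071972)]]]],[[[[Int.ofNat (nat_lit 70495972136577115152)]]]]]],[[[[[[Int.negSucc (nat_lit 104259185992003430543)]]]]]]]],[[[[[[[[Int.negSucc (nat_lit 581168147694772326533)],[Int.negSucc (nat_lit 2520243778582714079)]]],[[[Int.negSucc (nat_lit 700091472307077587)]]]]],[[[[[Int.negSucc (nat_lit 168373717788769782587)]]]]]],[],[[[[[[Int.ofNat (nat_lit 30321688798804405320)]]]]]]],[[[[[[[Int.ofNat (nat_lit 512761751114212089720)]]]]]]],[[[[[[[Int.negSucc (nat_lit 16379004176719473623)]]]]]]]],[[[[[],[[[[Int.ofNat (nat_lit 42556109419257095160)]]]]]],[[[[[[Int.negSucc (nat_lit 63220038757892708735)]]]]]]]],[[[[[[[[Int.negSucc (nat_lit 249295469179119295115)]]]]]]]]],[[[[[[[[[Int.negSucc (nat_lit 217505906838248872109)],[Int.ofNat (nat_lit 19477686666267741096)]]],[[[Int.negSucc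 (nat_lit 507717802197995783)]]]],[],[[[[Int.ofNat (nat_lit 55050968853011164962)]]]]],[[[[[Int.negSucc (nat_lit 5163990487574440943)]]]]],[[[[[Int.negSucc (nat_lit 53420959972644451037)]]]]]],[[[[[],[[Int.ofNat (nat_lit 1997620673813849496)]]]],[[[[Int.ofNat (nat_lit 144866472164009494920)]]]]]],[[[[[[Int.ofNat (nat_lit 570820711605601904718)]]]]]]],[[[[[[[Int.ofNat (nat_lit 127969249734227006892)]]],[[[Int.negSucc (nat_lit 2445607489636245179)]]]]],[[[[[Int.negSucc (nat_lit 27388569987346044179)]]]]]]],[[[[[[[Int.negSucc (nat_lit 84206535421678259213)]]]]]]]],[[[[[[[[Int.ofNat (nat_lit 0),Int.ofNat (nat_lit 8484786322320755148)]],[[Int.negSucc (nat_lit 32936297442423202727)]]]],[[[[Int.negSucc (nat_lit 280130167456754369291)]]]]]],[[[[[[Int.negSucc (nat_lit 563423260817674359491)]]]]]]],[[],[[[[[[Int.ofNat (nat_lit 79933768645143627264)]]]]]]]],[[[[[[[[Int.negSucc (nat_lit 251539736733497815613)]]]]],[[[[[Int.ofNat (nat_lit 65127367099592022924)]]]]]]],[[[[[[[Int.negSucc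 (nat_lit 17087500988499017375)]]]]]]]],[],[[[[[[[[Int.negSucc (nat_lit 69471924905029944287)]]]]]]]]],[[[[[[[[[Int.ofNat (nat_lit 410229679619908977318)],[Int.negSucc (nat_lit 1549929097636895135)]]],[[[Int.ofNat (nat_lit 43530655935977547144)]]]]],[[[[[Int.ofNat (nat_lit 160965762765328397532)]]]]]],[],[[[[[[Int.negSucc (nat_lit 22961414469024597611)]]]]]]],[[[[[[[Int.negSucc (nat_lit 295665355596651612287)]]]]]]],[[[[[[[Int.ofNat (nat_lit 59454963564438857760)]]]]]]]],[[[[[],[[[[Int.negSucc (nat_lit 38114402146915785743)]]]]]],[[[[[[Int.negSucc (nat_lit 304374791262732548231)]]]]]]]],[[[[[[[[Int.negSucc (nat_lit 232493739898024166327)]]]]]]]]],[[[[[[[[[Int.ofNat (nat_lit 182135959262128563642)]]]]],[[[[[Int.ofNat (nat_lit 34940003111179339008)]]]]]]],[[[[[[[Int.negSucc (nat_lit 126310469928649362119)]]]]]]]],[],[[[[[[[[Int.ofNat (nat_lit 40562055229785231504)]]]]]]]]],[[[[[[[[[Int.negSucc (nat_lit 121848400542607622159)]]]]]]]]],[[[[[[[[[Int.negSucc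 (nat_lit 82256854695870078035)]]]]]]]]]]

/-- A coefficient. -/
noncomputable def sr6_m0_4_1 : MP 10 :=
  [[[[[[[[[[Int.ofNat (nat_lit 0),Int.ofNat (nat_lit 32326065577022875764)]],[[Int.ofNat (nat_lit 5206102278880782660)]]]],[[[[Int.ofNat (nat_lit 299763185964825144540)]]]]]],[[[[[[Int.ofNat (nat_lit 347310114323319927528)]]]]],[[[[[Int.ofNat (nat_lit 4908476395549049460)]]]]]]],[[[[],[[[[Int.negSucc (nat_lit 110468723676050427851)]]]]]],[[[[[[Int.negSucc (nat_lit 28401859211030080619)]]]]]]]],[[[[[[[[Int.ofNat (nat_lit 2291863213759979099016)],[Int.negSucc (nat_lit 28418123688263846495)]]],[[[Int.negSucc (nat_lit 26566839113294906471)]]]]],[[[[[Int.ofNat (nat_lit 372290578955765164368)]]]]]],[[[],[[[[Int.negSucc (nat_lit 74847111907771593191)]]]]]],[[[[[[Int.negSucc (nat_lit 462949173893434403483)]]]]]]],[[[[[[[Int.negSucc (nat_lit 1154003664586195133267)]]]]],[[[[[Int.negSucc (nat_lit 35983418823343694267)]]]]]]],[[[[[[[Int.ofNat (nat_lit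 230990833828039005012)]]]]]]]],[[[[[[[],[[Int.ofNat (nat_lit 1302898267155617976)]]]],[[[[Int.ofNat (nat_lit 271096615036897618080)]]]]]],[[[[[[Int.ofNat (nat_lit 246620256484521419820)]]]]]]]],[[[[[[[[Int.ofNat (nat_lit 1269672223675645384404)]]]]]]],[[[[[[[Int.negSucc (nat_lit 104026757497426346795)]]]]]]]]],[[[[[[[[[Int.ofNat (nat_lit 0),Int.ofNat (nat_lit 32326065577022875764)]],[[Int.negSucc (nat_lit 57650952038688043343)]]]],[[[[Int.ofNat (nat_lit 702387475918481765268)]]]]]],[[[[[[Int.ofNat (nat_lit 360335606232083331528)]]]]],[[[[[Int.negSucc (nat_lit 43739617880521384883)]]]]]]],[[[[],[[[[Int.negSucc (nat_lit 138416556945526398995)]]]]]],[[[[[[Int.negSucc (nat_lit 56234180593610497619)]]]]]]]],[[[[[[[[Int.ofNat (nat_lit 1054871540829377283300)]]],[[[Int.negSucc (nat_lit 22629549462150769331)]]]]],[[[[[Int.negSucc (nat_lit 171708700110911090711)]]]]]]],[[[[[[[Int.negSucc (nat_lit 56348513596674694139)]]]]]]]],[[[],[[[[[[Int.ofNat (nat_lit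 129328661356134191832)]]]]]]]],[[[[[[[[Int.ofNat (nat_lit 100222027478889219216)]]]]]]]]],[[[[[[[[],[[Int.negSucc (nat_lit 28114093090496728043)]]]],[[[[Int.ofNat (nat_lit 146750281083107751504)]]]]]],[[[[[[Int.negSucc (nat_lit 60352190086096274891)]]]]]]]],[[[[[[[[Int.ofNat (nat_lit 192416486859411656412)]]]]]]],[[[[[[[Int.ofNat (nat_lit 122335034256770614212)]]]]]]]]],[[[[],[[[[[[Int.negSucc (nat_lit 108244284107894073539)]]]]]]]],[[[[[[[[Int.ofNat (nat_lit 202742363523033919656)]]]]]]]]]]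

/-- A coefficient. -/
noncomputable def sr6_m0_4_2 : MP 10 :=
  [[[[[[[[[[Int.ofNat (nat_lit 1006288689402320029932)],[Int.ofNat (nat_lit 30922674373467505224)]]],[[[Int.ofNat (nat_lit 38663470070725380660)]]]]],[[[[[Int.negSucc (nat_lit 82826943184234334279)]]]]]],[],[[[[[[Int.ofNat (nat_lit 419273270420477721522)]]]]]]],[[[[[[[Int.negSucc (nat_lit 799362599368887298799)]]]]]]],[[[[[[[Int.ofNat (nat_lit 754696253829157089240)]]]]]]]],[[[[[[[[Int.ofNat (nat_lit 0),Int.negSucc (nat_lit 28628478897256926599)]],[[Int.ofNat (nat_lit 35305966611466021872)]]]],[[[[Int.negSucc (nat_lit 181730236623651786071)]]]]]],[[[[[[Int.negSucc (nat_lit 568939699022100614099)]]]]]]],[[],[[[[[[Int.ofNat (nat_lit 201027344588270622372)]]]]]]]],[[[[[[[[Int.negSucc (nat_lit 297648143570966384489)]]]]],[[[[[Int.negSucc (nat_lit 187924277579702061467)]]]]]]],[[[[[[[Int.negSucc (nat_lit 318142849910497849703)]]]]]]]],[],[[[[[[[[Int.ofNat (nat_lit 347681034801451111200)]]]]]]]]],[[[[[[[[[Int.ofNat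 (nat_lit 1213777903136710747788)],[Int.negSucc (nat_lit 30922674373467505223)]]],[[[Int.ofNat (nat_lit 11422355435871431820)]]]]],[[[[[Int.ofNat (nat_lit 245130484070593245144)]]]]]],[],[[[[[[Int.negSucc (nat_lit 325447383600689789201)]]]]]]],[[[[[[[Int.ofNat (nat_lit 396669800827189373160)]]]]]]],[[[[[[[Int.ofNat (nat_lit 607892436319148182464)]]]]]]]],[[[[[],[[[[Int.negSucc (nat_lit 114027568650657840563)]]]]]],[[[[[[Int.negSucc (nat_lit 89473828964297474459)]]]]]]]],[[[[[[[[Int.ofNat (nat_lit 359467487044534267578)]]]]]]]]],[[[[[[[[[Int.ofNat (nat_lit 219361058212603012326)]]]]],[[[[[Int.ofNat (nat_lit 82455599097862923816)]]]]]]],[[[[[[[Int.ofNat (nat_lit 768350404474778683752)]]]]]]]],[],[[[[[[[[Int.negSucc (nat_lit 64417163602430743163)]]]]]]]]],[[[[[[[[[Int.ofNat (nat_lit 158422435269894942210)]]]]]]]]],[[[[[[[[[Int.negSucc (nat_lit 548226246545562659051)]]]]]]]]]]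

/-- A coefficient. -/
noncomputable def sr6_m0_4_3 : MP 10 :=
  [[[[[[[[[],[[Int.ofNat (nat_lit 29747213681561716548)]]]],[[[[Int.negSucc (nat_lit 565785912609511224887)]]]]]],[[[[[[Int.negSucc (nat_lit 537184587152743277231)]]]]]]]],[[[[[[[[Int.negSucc (nat_lit 7401740305430075831147)]]],[[[Int.negSucc (nat_lit 21299677649861029547)]]]]],[[[[[Int.negSucc (nat_lit 15317277491842106495)]]]]]]],[[[[[[[Int.ofNat (nat_lit 2104231787745062292096)]]]]]]]],[[[],[[[[[[Int.ofNat (nat_lit 63131874538983947064)]]]]]]]],[[[[[[[[Int.negSucc (nat_lit 1773671711817312019775)]]]]]]]]],[[[[[[[[],[[Int.ofNat (nat_lit 37429779264210783132)]]]],[[[[Int.negSucc (nat_lit 787173917796006527975)]]]]]],[[[[[[Int.negSucc (nat_lit 431947246107725269487)]]]]]]]],[[[[[[[[Int.negSucc (nat_lit 6314197964029307101355)]]]]]]],[[[[[[[Int.ofNat (nat_lit 399944075688040718592)]]]]]]]]],[[[[],[[[[[[Int.negSucc (nat_lit 24942164637378563999)]]]]]]]],[[[[[[[[Int.negSucc (nat_lit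 1509687061541814851099)]]]]]]]]]]

/-- A coefficient. -/
noncomputable def sr6_m0_4_4 : MP 10 :=
  [[[[[[[[[[Int.negSucc (nat_lit 1724731051677338639033)]]]]],[[[[[Int.ofNat (nat_lit 334895514512184718200)]]]]]]],[[[[[[[Int.ofNat (nat_lit 1560395118075810663564)]]]]]]]],[[[[[],[[[[Int.ofNat (nat_lit 17538421101246949236)]]]]]],[[[[[[Int.ofNat (nat_lit 233606311177644298320)]]]]]]]],[[[[[[[[Int.ofNat (nat_lit 2800342347915043127964)]]]]]]]]],[[[[[[[[[Int.negSucc (nat_lit 2575136976629723584973)]]]]],[[[[[Int.negSucc (nat_lit 57048564770162746775)]]]]]]],[[[[[[[Int.ofNat (nat_lit 1292858181043941975252)]]]]]]]],[],[[[[[[[[Int.ofNat (nat_lit 1385164270640115401268)]]]]]]]]],[[[[[[[[[Int.ofNat (nat_lit 1349478079683427412400)]]]]]]]]],[[[[[[[[[Int.ofNat (nat_lit 87744095066549414808)]]]]]]]]]]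

/-- A coefficient. -/
noncomputable def sr6_m0_4_5 : MP 10 :=
  [[[[[],[[[[[[Int.negSucc (nat_lit 514278824613204701591)]]]]]]]],[[[[[[[[Int.ofNat (nat_lit 6013247372867063065368)]]]]]]],[[[[[[[Int.ofNat (nat_lit 164462568682336247796)]]]]]]]]],[[[[],[[[[[[Int.negSucc (nat_lit 600496190031332993855)]]]]]]]],[[[[[[[[Int.ofNat (nat_lit 3652033110536282759088)]]]]]]]]]]

/-- A coefficient. -/
noncomputable def sr6_m0_4_6 : MP 10 :=
  [[[[[[[[[[Int.negSucc (nat_lit 1575847451165051722181)]]]]]]]],[],[[[[[[[[Int.negSucc (nat_lit 1146523469215797337259)]]]]]]]]],[[[[[[[[[Int.ofNat (nat_lit 2611144664896735813014)]]]]]]]]],[[[[[[[[[Int.negSucc (nat_lit 1068549551762607177155)]]]]]]]]]]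

/-- A coefficient. -/
noncomputable def sr6_m0_4_7 : MP 10 :=
  [[[],[[[[[[[[Int.negSucc (nat_lit 1959772461207882014243)]]]]]]]]]]

/-- A coefficient. -/
noncomputable def sr6_m0_4_8 : MP 10 :=
  [[[[[[[[[[Int.ofNat (nat_lit 4554598692614363867886)]]]]]]]]],[[[[[[[[[Int.ofNat (nat_lit 217090592744831707554)]]]]]]]]]]

/-- A coefficient. -/
noncomputable def sr6_m0_5_0 : MP 10 :=
  [[[[[[[[[[Int.ofNat (nat_lit 573409514267911067304)],[Int.negSucc (nat_lit 16618015135110935783)]]],[[[Int.ofNat (nat_lit 30680226667048942620)]]]]],[[[[[Int.ofNat (nat_lit 479018549912193008892)]]]]]],[[[],[[[[Int.negSucc (nat_lit 44354678662542466079)]]]]]],[[[[[[Int.negSucc (nat_lit 441237555119432821823)]]]]]]],[[[[[[[Int.negSucc (nat_lit 1404459207370363655)]]]]],[[[[[Int.negSucc (nat_lit 29621685926555689835)]]]]]]],[[[[[[[Int.negSucc (nat_lit 175543964890881929651)]]]]]]]],[[[[[[[[Int.ofNat (nat_lit 0),Int.ofNat (nat_lit 14047445943183066756)]],[[Int.ofNat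 (nat_lit 23593335657188721132)]]]],[[[[Int.ofNat (nat_lit 324481479824111737200)]]]]]],[[[[[[Int.ofNat (nat_lit 47415584910137483328)]]]]],[[[[[Int.ofNat (nat_lit 3882969605177430636)]]]]]]],[[[[],[[[[Int.negSucc (nat_lit 48105862907385942863)]]]]]],[[[[[[Int.ofNat (nat_lit 47480345258825840496)]]]]]]]],[[[[[[[[Int.ofNat (nat_lit 68951026872012960480)]]],[[[Int.ofNat (nat_lit 10852153197016978776)]]]]],[[[[[Int.ofNat (nat_lit 130588160819476097484)]]]]]]],[[[[[[[Int.negSucc (nat_lit 159857397091074453623)]]]]]]]],[[[],[[[[[[Int.negSucc (nat_lit 1172248474794986291)]]]]]]]],[[[[[[[[Int.ofNat (nat_lit 365529085015307764404)]]]]]]]]],[[[[[[[[[Int.ofNat (nat_lit 106015670280253065024)],[Int.ofNat (nat_lit 16618015135110935784)]]],[[[Int.negSucc (nat_lit 16024775804850727199)]]]]],[[[[[Int.negSucc (nat_lit 235450418388092408711)]]]]]],[[[],[[[[Int.negSucc (nat_lit 44354678662542466079)]]]]]],[[[[[[Int.negSucc (nat_lit 382654857902098190975)]]]]]]],[[[[[[[Int.ofNat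 (nat_lit 62454527889340124088)]]]]],[[[[[Int.ofNat (nat_lit 29621685926555689836)]]]]]]],[[[[[[[Int.ofNat (nat_lit 175543964890881929652)]]]]]]]],[[[[[[[],[[Int.ofNat (nat_lit 18694436989821715308)]]]],[[[[Int.ofNat (nat_lit 137745543089062401276)]]]]]],[[[[[[Int.negSucc (nat_lit 20437742123838572687)]]]]]]]],[[[[[[[[Int.ofNat (nat_lit 624397908291383386992)]]]]]]],[[[[[[[Int.ofNat (nat_lit 396571874744386140)]]]]]]]]],[[[[[[[[[Int.negSucc (nat_lit 413657499283486217939)]]],[[[Int.negSucc (nat_lit 14655450862198215419)]]]]],[[[[[Int.negSucc (nat_lit 243568131524100600179)]]]]]]],[[[[[[[Int.negSucc (nat_lit 39800474054731269167)]]]]]]]],[[[],[[[[[[Int.ofNat (nat_lit 21993009501350577840)]]]]]]]],[[[[[[[[Int.ofNat (nat_lit 672928070340335286180)]]]]]]]]],[[[[[[[[[Int.negSucc (nat_lit 152105266493944127807)]]]]]]],[[[[[[[Int.negSucc (nat_lit 21249594627238491263)]]]]]]]]],[[[[[[[[[Int.negSucc (nat_lit 113662418770733786579)]]]]]]]]]]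

/-- A coefficient. -/
noncomputable def sr6_m0_5_1 : MP 10 :=
  [[[[[[[[[[Int.ofNat (nat_lit 0),Int.negSucc (nat_lit 30818265439579599683)]],[[Int.ofNat (nat_lit 22756638693612450408)]]]],[[[[Int.ofNat (nat_lit 185719323915765412320)]]]]]],[[[[[[Int.negSucc (nat_lit 13447312120940647067)]]]]]]],[[],[[[[[[Int.ofNat (nat_lit 49179234684145106964)]]]]]]]],[[[[[[[[Int.ofNat (nat_lit 1491242881785493077192)],[Int.ofNat (nat_lit 32551304743649039364)]]],[[[Int.ofNat (nat_lit 15425322455028600504)]]]]],[[[[[Int.negSucc (nat_lit 48794096346595545827)]]]]]],[],[[[[[[Int.ofNat (nat_lit 187753371606798337128)]]]]]]],[[[[[[[Int.negSucc (nat_lit 1087855690914501397679)]]]]]]],[[[[[[[Int.negSucc (nat_lit 70932995004340959719)]]]]]]]],[[[[[],[[[[Int.negSucc (nat_lit 161615882456275657415)]]]]]],[[[[[[Int.negSucc (nat_lit 103759229458842840887)]]]]]]]],[[[[[[[[Int.negSucc (nat_lit 422745950503827888935)]]]]]]]]],[[[[[[[[[Int.ofNat (nat_lit 0),Int.negSucc (nat_lit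 30818265439579599683)]],[[Int.ofNat (nat_lit 17830595847222138792)]]]],[[[[Int.ofNat (nat_lit 179854942287371036052)]]]]]],[[[[[[Int.negSucc (nat_lit 36497417334948146999)]]]]]]],[[],[[[[[[Int.ofNat (nat_lit 57277251346009472652)]]]]]]]],[[[[[[[[Int.ofNat (nat_lit 1471959968636619402336)]]]]],[[[[[Int.ofNat (nat_lit 16736243508346091496)]]]]]]],[[[[[[[Int.negSucc (nat_lit 552926541660576781199)]]]]]]]],[],[[[[[[[[Int.ofNat (nat_lit 56519790492107652660)]]]]]]]]],[[[[[[],[[[[Int.negSucc (nat_lit 56714957313028986875)]]]]]],[[[[[[Int.negSucc (nat_lit 168413943251478235379)]]]]]]]],[[[[[[[[Int.negSucc (nat_lit 583581267949135802207)]]]]]]]]],[[],[[[[[[[[Int.negSucc (nat_lit 78149758620993909851)]]]]]]]]]]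

/-- A coefficient. -/
noncomputable def sr6_m0_5_2 : MP 10 :=
  [[[[[[[[[[Int.negSucc (nat_lit 2580044026517769574415)]]],[[[Int.negSucc (nat_lit 38038816609908633743)]]]]],[[[[[Int.negSucc (nat_lit 505603229335502584835)]]]]]]],[[[[[[[Int.negSucc (nat_lit 326102108941766374871)]]]]]]]],[[[[[[[],[[Int.negSucc (nat_lit 27001818901706957795)]]]],[[[[Int.negSucc (nat_lit 39845833850031776543)]]]]]],[[[[[[Int.negSucc (nat_lit 184431569161081821959)]]]]]]]],[[[[[[[[Int.negSucc (nat_lit 3940710756455806656251)]]]]]]],[[[[[[[Int.ofNat (nat_lit 188218853057211866568)]]]]]]]]],[[[[[[[[[Int.negSucc (nat_lit 2329929707170511370623)]]],[[[Int.ofNat (nat_lit 24654712875389185632)]]]]],[[[[[Int.ofNat (nat_lit 230861572126195990188)]]]]]]],[[[[[[[Int.negSucc (nat_lit 2161851077221910516963)]]]]]]]],[[[],[[[[[[Int.ofNat (nat_lit 67542875087339127216)]]]]]]]],[[[[[[[[Int.negSucc (nat_lit 1218750160387133520923)]]]]]]]]],[[[[[[[[[Int.negSucc (nat_lit 3773605426872318237887)]]]]]]],[[[[[[[Int.negSucc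 (nat_lit 688966532709082056611)]]]]]]]]],[[[[[[[[[Int.negSucc (nat_lit 2620868006995779673871)]]]]]]]]]]

/-- A coefficient. -/
noncomputable def sr6_m0_5_3 : MP 10 :=
  [[[[[[[],[[[[Int.ofNat (nat_lit 355572650320245872736)]]]]]],[[[[[[Int.ofNat (nat_lit 834754599434740712964)]]]]]]]],[[[[[[[[Int.ofNat (nat_lit 5138074692067559979756)]]]]],[[[[[Int.ofNat (nat_lit 23909392124514672912)]]]]]]],[[[[[[[Int.negSucc (nat_lit 1091894953012628252699)]]]]]]]],[],[[[[[[[[Int.ofNat (nat_lit 110134569261205302456)]]]]]]]]],[[[[[[],[[[[Int.ofNat (nat_lit 485730825882157549176)]]]]]],[[[[[[Int.ofNat (nat_lit 1207250392897145867868)]]]]]]]],[[[[[[[[Int.ofNat (nat_lit 469366279441793225148)]]]]]]]]],[[],[[[[[[[[Int.negSucc (nat_lit 254532315032444699831)]]]]]]]]]]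

/-- A coefficient. -/
noncomputable def sr6_m0_5_4 : MP 10 :=
  [[[[[[[[[[Int.ofNat (nat_lit 8633012840806124812116)]]]]]]],[[[[[[[Int.negSucc (nat_lit 922658159984802547139)]]]]]]]],[[[],[[[[[[Int.negSucc (nat_lit 49577638826059433651)]]]]]]]],[[[[[[[[Int.ofNat (nat_lit 2615785648699124440896)]]]]]]]]],[[[[[[[[[Int.ofNat (nat_lit 6302622551479829188620)]]]]]]],[[[[[[[Int.negSucc (nat_lit 187950426742088019371)]]]]]]]]],[[[[[[[[[Int.ofNat (nat_lit 1597092335799852142224)]]]]]]]]]]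

/-- A coefficient. -/
noncomputable def sr6_m0_5_5 : MP 10 :=
  [[[],[[[[[[[[Int.negSucc (nat_lit 6330346759048606800467)]]]]]]]]],[[],[[[[[[[[Int.negSucc (nat_lit 2379704003848498518419)]]]]]]]]]]

/-- A coefficient. -/
noncomputable def sr6_m0_5_6 : MP 10 :=
  [[[[[[[[[[Int.negSucc (nat_lit 9289755959580664315619)]]]]]]]]],[[[[[[[[[Int.negSucc (nat_lit 6495889731800875321451)]]]]]]]]]]

/-- A coefficient. -/
noncomputable def sr6_m0_5_7 : MP 10 :=
  [[[],[[[[[[[[Int.ofNat (nat_lit 1277767399870660064196)]]]]]]]]]]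

/-- A coefficient. -/
noncomputable def sr6_m0_6_0 : MP 10 :=
  [[[[[[[[[[Int.ofNat (nat_lit 621797469341285461908)],[Int.ofNat (nat_lit 10131442869361362060)]]],[[[Int.ofNat (nat_lit 22011541975075524612)]]]]],[[[[[Int.negSucc (nat_lit 160154824149579584783)]]]]]],[],[[[[[[Int.ofNat (nat_lit 139107604342738769364)]]]]]]],[[[[[[[Int.negSucc (nat_lit 464045511569471076911)]]]]]]],[[[[[[[Int.ofNat (nat_lit 110115280039576234944)]]]]]]]],[[[[[[[[Int.ofNat (nat_lit 0),Int.negSucc (nat_lit 11421630118455356411)]],[[Int.ofNat (nat_lit 4361339021915365380)]]]],[[[[Int.negSucc (nat_lit 18915773144817351047)]]]]]],[[[[[[Int.ofNat (nat_lit 69459160762766589960)]]]]]]],[[],[[[[[[Int.negSucc (nat_lit 30708982200262609931)]]]]]]]],[[[[[[[[Int.ofNat (nat_lit 627980932818961615026)]]]]],[[[[[Int.negSucc (nat_lit 47507614906436769491)]]]]]]],[[[[[[[Int.negSucc (nat_lit 40355525277620454731)]]]]]]]],[],[[[[[[[[Int.negSucc (nat_lit 157305585796141818479)]]]]]]]]],[[[[[[[[[Int.ofNat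 (nat_lit 167734584959212231068)],[Int.negSucc (nat_lit 10131442869361362059)]]],[[[Int.negSucc (nat_lit 22011541975075524611)]]]]],[[[[[Int.ofNat (nat_lit 67224567672021531828)]]]]]],[],[[[[[[Int.ofNat (nat_lit 114339771649706052612)]]]]]]],[[[[[[[Int.ofNat (nat_lit 249051426004562020284)]]]]]]],[[[[[[[Int.negSucc (nat_lit 110115280039576234943)]]]]]]]],[[[[[],[[[[Int.ofNat (nat_lit 5511599582949964824)]]]]]],[[[[[[Int.ofNat (nat_lit 316567091913832376616)]]]]]]]],[[[[[[[[Int.negSucc (nat_lit 100217653409187185681)]]]]]]]]],[[[[[[[[[Int.negSucc (nat_lit 735703034599821007925)]]]]],[[[[[Int.ofNat (nat_lit 92930256477558052956)]]]]]]],[[[[[[[Int.ofNat (nat_lit 214994085564909056628)]]]]]]]],[],[[[[[[[[Int.negSucc (nat_lit 322485488035454738999)]]]]]]]]],[[[[[[[[[Int.negSucc (nat_lit 197175923658413085413)]]]]]]]]],[[[[[[[[[Int.ofNat (nat_lit 143346903957736400364)]]]]]]]]]]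

/-- A coefficient. -/
noncomputable def sr6_m0_6_1 : MP 10 :=
  [[[[[[[[[],[[Int.negSucc (nat_lit 4560446016110202743)]]]],[[[[Int.negSucc (nat_lit 455158554387658171607)]]]]]],[[[[[[Int.negSucc (nat_lit 309659506124983105079)]]]]]]]],[[[[[[[[Int.negSucc (nat_lit 4493503161515360797715)]]],[[[Int.ofNat (nat_lit 1816157224186956912)]]]]],[[[[[Int.negSucc (nat_lit 96848728254090108539)]]]]]]],[[[[[[[Int.ofNat (nat_lit 1266210381187236596736)]]]]]]]],[[[],[[[[[[Int.negSucc (nat_lit 73237159405904364755)]]]]]]]],[[[[[[[[Int.negSucc (nat_lit 889036122067089334823)]]]]]]]]],[[[[[[[[],[[Int.ofNat (nat_lit 2232695799827429424)]]]],[[[[Int.negSucc (nat_lit 574941938765824729871)]]]]]],[[[[[[Int.negSucc (nat_lit 333686729566456033199)]]]]]]]],[[[[[[[[Int.negSucc (nat_lit 1994681946605806135763)]]]]]]],[[[[[[[Int.ofNat (nat_lit 254309000123682600048)]]]]]]]]],[[[[],[[[[[[Int.negSucc (nat_lit 21251882870037057719)]]]]]]]],[[[[[[[[Int.ofNat (nat_lit 237895277233575995220)]]]]]]]]]]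

/-- A coefficient. -/
noncomputable def sr6_m0_6_2 : MP 10 :=
  [[[[[[[[[[Int.negSucc (nat_lit 1557388998509473320047)]]]]],[[[[[Int.ofNat (nat_lit 316086972674013864876)]]]]]]],[[[[[[[Int.ofNat (nat_lit 1514546039930254102800)]]]]]]]],[[[[[],[[[[Int.ofNat (nat_lit 27940767958733776980)]]]]]],[[[[[[Int.ofNat (nat_lit 292393096788364482324)]]]]]]]],[[[[[[[[Int.ofNat (nat_lit 2133646463471709286008)]]]]]]]]],[[[[[[[[[Int.negSucc (nat_lit 453832151586561893735)]]]]],[[[[[Int.negSucc (nat_lit 186837179301933909083)]]]]]]],[[[[[[[Int.ofNat (nat_lit 901239482669112748896)]]]]]]]],[],[[[[[[[[Int.ofNat (nat_lit 279868111820112012468)]]]]]]]]],[[[[[[[[[Int.ofNat (nat_lit 2915486982655010421318)]]]]]]]]],[[[[[[[[[Int.ofNat (nat_lit 1645452082570549829022)]]]]]]]]]]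

/-- A coefficient. -/
noncomputable def sr6_m0_6_3 : MP 10 :=
  [[[[[],[[[[[[Int.negSucc (nat_lit 113263106409431326391)]]]]]]]],[[[[[[[[Int.ofNat (nat_lit 6213334095040728677940)]]]]]]],[[[[[[[Int.negSucc (nat_lit 17561271371046058067)]]]]]]]]],[[[[],[[[[[[Int.negSucc (nat_lit 496669343947401212495)]]]]]]]],[[[[[[[[Int.ofNat (nat_lit 2700720795239685847524)]]]]]]]]]]

/-- A coefficient. -/
noncomputable def sr6_m0_6_4 : MP 10 :=
  [[[[[[[[[[Int.negSucc (nat_lit 3885305892972567187565)]]]]]]]],[],[[[[[[[[Int.negSucc (nat_lit 935966801662938670427)]]]]]]]]],[[[[[[[[[Int.negSucc (nat_lit 702154392768936365729)]]]]]]]]],[[[[[[[[[Int.ofNat (nat_lit 191308775333470548096)]]]]]]]]]]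

/-- A coefficient. -/
noncomputable def sr6_m0_6_5 : MP 10 :=
  [[[],[[[[[[[[Int.negSucc (nat_lit 1601419776751772200835)]]]]]]]]]]

/-- A coefficient. -/
noncomputable def sr6_m0_6_6 : MP 10 :=
  [[[[[[[[[[Int.ofNat (nat_lit 7387984476816933318318)]]]]]]]]],[[[[[[[[[Int.ofNat (nat_lit 3252729036515478131670)]]]]]]]]]]

/-- A coefficient. -/
noncomputable def sr6_m0_7_0 : MP 10 :=
  [[[[[[[[[[Int.negSucc (nat_lit 1388459313140999844803)]]],[[[Int.negSucc (nat_lit 17315203517264063507)]]]]],[[[[[Int.negSucc (nat_lit 205215051121987189643)]]]]]]],[[[[[[[Int.ofNat (nat_lit 112976393621941913244)]]]]]]]],[[[[[[[],[[Int.negSucc (nat_lit 10172009175875396087)]]]],[[[[Int.negSucc (nat_lit 104144464815977355371)]]]]]],[[[[[[Int.negSucc (nat_lit 97273624908039730187)]]]]]]]],[[[[[[[[Int.negSucc (nat_lit 812497527440413098659)]]]]]]],[[[[[[[Int.ofNat (nat_lit 48231058970153471592)]]]]]]]]],[[[[[[[[[Int.negSucc (nat_lit 76261768978571340983)]]],[[[Int.ofNat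 (nat_lit 17315203517264063508)]]]]],[[[[[Int.ofNat (nat_lit 205215051121987189644)]]]]]]],[[[[[[[Int.negSucc (nat_lit 101596188130088105495)]]]]]]]],[[[],[[[[[[Int.negSucc (nat_lit 102568569446454315431)]]]]]]]],[[[[[[[[Int.negSucc (nat_lit 564583989046007051771)]]]]]]]]],[[[[[[[[[Int.ofNat (nat_lit 1061665247000853241980)]]]]]]],[[[[[[[Int.negSucc (nat_lit 11380205491853807747)]]]]]]]]],[[[[[[[[[Int.ofNat (nat_lit 403055835118717943808)]]]]]]]]]]

/-- A coefficient. -/
noncomputable def sr6_m0_7_1 : MP 10 :=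
  [[[[[[[],[[[[Int.ofNat (nat_lit 163768789398035947080)]]]]]],[[[[[[Int.ofNat (nat_lit 105550514287272534708)]]]]]]]],[[[[[[[[Int.ofNat (nat_lit 1056686417976502911288)]]]]],[[[[[Int.ofNat (nat_lit 28782508783467110748)]]]]]]],[[[[[[[Int.negSucc (nat_lit 174811480154192521559)]]]]]]]],[],[[[[[[[[Int.ofNat (nat_lit 576883712119795253736)]]]]]]]]],[[[[[[],[[[[Int.ofNat (nat_lit 203150094866653779744)]]]]]],[[[[[[Int.ofNat (nat_lit 225571299157873845036)]]]]]]]],[[[[[[[[Int.negSucc (nat_lit 83130900666924815183)]]]]]]]]],[[],[[[[[[[[Int.ofNat (nat_lit 85681873307901791748)]]]]]]]]]]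

/-- A coefficient. -/
noncomputable def sr6_m0_7_2 : MP 10 :=
  [[[[[[[[[[Int.ofNat (nat_lit 5164365879088068618444)]]]]]]],[[[[[[[Int.negSucc (nat_lit 516468571294384901303)]]]]]]]],[[[],[[[[[[Int.ofNat (nat_lit 8062617058251295356)]]]]]]]],[[[[[[[[Int.ofNat (nat_lit 1412966382887610837360)]]]]]]]]],[[[[[[[[[Int.ofNat (nat_lit 2747612295690568238220)]]]]]]],[[[[[[[Int.ofNat (nat_lit 168528007581782936472)]]]]]]]]],[[[[[[[[[Int.ofNat (nat_lit 683684853867583694880)]]]]]]]]]]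

/-- A coefficient. -/
noncomputable def sr6_m0_7_3 : MP 10 :=
  [[[],[[[[[[[[Int.negSucc (nat_lit 4774337355256413952931)]]]]]]]]],[[],[[[[[[[[Int.negSucc (nat_lit 130167773101395912419)]]]]]]]]]]

/-- A coefficient. -/
noncomputable def sr6_m0_7_4 : MP 10 :=
  [[[[[[[[[[Int.negSucc (nat_lit 6402291437059617844067)]]]]]]]]],[[[[[[[[[Int.negSucc (nat_lit 2589249440326170408947)]]]]]]]]]]

/-- A coefficient. -/
noncomputable def sr6_m0_7_5 : MP 10 :=
  [[[],[[[[[[[[Int.ofNat (nat_lit 987889875590324409840)]]]]]]]]]]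

/-- A coefficient. -/
noncomputable def sr6_m0_8_0 : MP 10 :=
  [[[[[[[[[[Int.ofNat (nat_lit 36930207519463473168)]]]]],[[[[[Int.ofNat (nat_lit 123742907785308901332)]]]]]]],[[[[[[[Int.ofNat (nat_lit 226385084678745693912)]]]]]]]],[[[[[],[[[[Int.ofNat (nat_lit 24799479599291757288)]]]]]],[[[[[[Int.ofNat (nat_lit 24460487698567704744)]]]]]]]],[[[[[[[[Int.ofNat (nat_lit 332696291531363935500)]]]]]]]]],[[[[[[[[[Int.ofNat (nat_lit 378991457023898664600)]]]]],[[[[[Int.negSucc (nat_lit 123742907785308901331)]]]]]]],[[[[[[[Int.negSucc (nat_lit 226385084678745693911)]]]]]]]],[],[[[[[[[[Int.ofNat (nat_lit 289041391855170269820)]]]]]]]]],[[[[[[[[[Int.negSucc (nat_lit 142064822983739987969)]]]]]]]]],[[[[[[[[[Int.negSucc (nat_lit 273856841559622149797)]]]]]]]]]]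

/-- A coefficient. -/
noncomputable def sr6_m0_8_1 : MP 10 :=
  [[[[[],[[[[[[Int.ofNat (nat_lit 45131987248808602824)]]]]]]]],[[[[[[[[Int.ofNat (nat_lit 2436778051824860474748)]]]]]]],[[[[[[[Int.negSucc (nat_lit 152339533729734758807)]]]]]]]]],[[[[],[[[[[[Int.ofNat (nat_lit 8994640075341751512)]]]]]]]],[[[[[[[[Int.ofNat (nat_lit 1016696425999283423352)]]]]]]]]]]

/-- A coefficient. -/
noncomputable def sr6_m0_8_2 : MP 10 :=
  [[[[[[[[[[Int.negSucc (nat_lit 645588262168095219545)]]]]]]]],[],[[[[[[[[Int.negSucc (nat_lit 1066301623586375944427)]]]]]]]]],[[[[[[[[[Int.negSucc (nat_lit 282282337144382164337)]]]]]]]]],[[[[[[[[[Int.negSucc (nat_lit 1023368742535104404279)]]]]]]]]]]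

/-- A coefficient. -/
noncomputable def sr6_m0_8_3 : MP 10 :=
  [[[],[[[[[[[[Int.negSucc (nat_lit 1737916600707698506367)]]]]]]]]]]

/-- A coefficient. -/
noncomputable def sr6_m0_8_4 : MP 10 :=
  [[[[[[[[[[Int.ofNat (nat_lit 4758558264981574358244)]]]]]]]]],[[[[[[[[[Int.negSucc (nat_lit 231286807384381656611)]]]]]]]]]]

/-- A coefficient. -/
noncomputable def sr6_m0_9_0 : MP 10 :=
  [[[[[[[[[[Int.ofNat (nat_lit 1155955803946125373824)]]]]]]],[[[[[[[Int.negSucc (nat_lit 98850469301552068355)]]]]]]]],[[[],[[[[[[Int.negSucc (nat_lit 6346543603990804547)]]]]]]]],[[[[[[[[Int.ofNat (nat_lit 102123973069680331200)]]]]]]]]],[[[[[[[[[Int.negSucc (nat_lit 627886858790926206971)]]]]]]],[[[[[[[Int.ofNat (nat_lit 98850469301552068356)]]]]]]]]],[[[[[[[[[Int.negSucc (nat_lit 528068945155199166851)]]]]]]]]]]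

/-- A coefficient. -/
noncomputable def sr6_m0_9_1 : MP 10 :=
  [[[],[[[[[[[[Int.negSucc (nat_lit 1272124708226874223475)]]]]]]]]],[[],[[[[[[[[Int.negSucc (nat_lit 369591875653475289359)]]]]]]]]]]

/-- A coefficient. -/
noncomputable def sr6_m0_9_2 : MP 10 :=
  [[[[[[[[[[Int.negSucc (nat_lit 3699263241468771119519)]]]]]]]]],[[[[[[[[[Int.negSucc (nat_lit 1669855287926830876343)]]]]]]]]]]

/-- A coefficient. -/
noncomputable def sr6_m0_9_3 : MP 10 :=
  [[[],[[[[[[[[Int.ofNat (nat_lit 1262175507042376664496)]]]]]]]]]]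

/-- A coefficient. -/
noncomputable def sr6_m0_10_0 : MP 10 :=
  [[[[[[[[[[Int.negSucc (nat_lit 463555302946628296961)]]]]]]]],[],[[[[[[[[Int.negSucc (nat_lit 74316485393469260903)]]]]]]]]],[[[[[[[[[Int.ofNat (nat_lit 131403250438608030786)]]]]]]]]],[[[[[[[[[Int.ofNat (nat_lit 332152052508020266176)]]]]]]]]]]

/-- A coefficient. -/
noncomputable def sr6_m0_10_1 : MP 10 :=
  [[[],[[[[[[[[Int.negSucc (nat_lit 253296810086984307899)]]]]]]]]]]

/-- A coefficient. -/
noncomputable def sr6_m0_10_2 : MP 10 :=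
  [[[[[[[[[[Int.ofNat (nat_lit 1987897631171222302626)]]]]]]]]],[[[[[[[[[Int.ofNat (nat_lit 653346556061069203794)]]]]]]]]]]

/-- A coefficient. -/
noncomputable def sr6_m0_11_0 : MP 10 :=
  [[[[[[[[[[Int.negSucc (nat_lit 364323749263066697015)]]]]]]]]],[[[[[[[[[Int.ofNat (nat_lit 364323749263066697016)]]]]]]]]]]

/-- A coefficient. -/
noncomputable def sr6_m0_11_1 : MP 10 :=
  [[[],[[[[[[[[Int.ofNat (nat_lit 142592103932047462488)]]]]]]]]]]

/-- A coefficient. -/
noncomputable def sr6_m0_12_0 : MP 10 :=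
  [[[[[[[[[[Int.ofNat (nat_lit 226244979575899640880)]]]]]]]]],[[[[[[[[[Int.negSucc (nat_lit 226244979575899640879)]]]]]]]]]]

/-- An expanded part. -/
noncomputable def sr6_m0 : R12 :=
  [[sr6_m0_0_0, sr6_m0_0_1, sr6_m0_0_2, sr6_m0_0_3, sr6_m0_0_4, sr6_m0_0_5, sr6_m0_0_6, sr6_m0_0_7, sr6_m0_0_8, sr6_m0_0_9, sr6_m0_0_10, sr6_m0_0_11, sr6_m0_0_12],
   [sr6_m0_1_0, sr6_m0_1_1, sr6_m0_1_2, sr6_m0_1_3, sr6_m0_1_4, sr6_m0_1_5, sr6_m0_1_6, sr6_m0_1_7, sr6_m0_1_8, sr6_m0_1_9, sr6_m0_1_10, sr6_m0_1_11],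
   [sr6_m0_2_0, sr6_m0_2_1, sr6_m0_2_2, sr6_m0_2_3, sr6_m0_2_4, sr6_m0_2_5, sr6_m0_2_6, sr6_m0_2_7, sr6_m0_2_8, sr6_m0_2_9, sr6_m0_2_10],
   [sr6_m0_3_0, sr6_m0_3_1, sr6_m0_3_2, sr6_m0_3_3, sr6_m0_3_4, sr6_m0_3_5, sr6_m0_3_6, sr6_m0_3_7, sr6_m0_3_8, sr6_m0_3_9],
   [sr6_m0_4_0, sr6_m0_4_1, sr6_m0_4_2, sr6_m0_4_3, sr6_m0_4_4, sr6_m0_4_5, sr6_m0_4_6, sr6_m0_4_7, sr6_m0_4_8],
   [sr6_m0_5_0, sr6_m0_5_1, sr6_m0_5_2, sr6_m0_5_3, sr6_m0_5_4, sr6_m0_5_5, sr6_m0_5_6, sr6_m0_5_7],
   [sr6_m0_6_0, sr6_m0_6_1, sr6_m0_6_2, sr6_m0_6_3, sr6_m0_6_4, sr6_m0_6_5, sr6_m0_6_6],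
   [sr6_m0_7_0, sr6_m0_7_1, sr6_m0_7_2, sr6_m0_7_3, sr6_m0_7_4, sr6_m0_7_5],
   [sr6_m0_8_0, sr6_m0_8_1, sr6_m0_8_2, sr6_m0_8_3, sr6_m0_8_4],
   [sr6_m0_9_0, sr6_m0_9_1, sr6_m0_9_2, sr6_m0_9_3],
   [sr6_m0_10_0, sr6_m0_10_1, sr6_m0_10_2],
   [sr6_m0_11_0, sr6_m0_11_1],
   [sr6_m0_12_0]]

set_option maxRecDepth 100000 in
theorem sr6_check0 : partOk 4 sr6_rows 0 sr6_m0 = true :=
  Fast.partOk_of_fast (by decide +kernel)

end Vale.Agent.P142K.CertB
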