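import Vale.Agent.P142K.Checker

/-!
# A factor of the certificate

Generated from a semidefinite program; only the checker is trusted.
-/

namespace Vale.Agent.P142K.CertB

open Vale.Agent.P142J (MP)

/-- A row. -/
noncomputable def sr6_c0_0 : List ℕ × List ℤ :=
  ([(nat_lit 0),(nat_lit 0),(nat_lit 0),(nat_lit 0),(nat_lit 0),(nat_lit 0),(nat_lit 0),(nat_lit 0),(nat_lit 0),(nat_lit 0),(nat_lit 0),(nat_lit 0)], [Int.ofNat (nat_lit 1455351726)])

/-- A row. -/
noncomputable def sr6_c0_1 : List ℕ × List ℤ :=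
  ([(nat_lit 0),(nat_lit 0),(nat_lit 0),(nat_lit 0),(nat_lit 0),(nat_lit 0),(nat_lit 0),(nat_lit 0),(nat_lit 0),(nat_lit 0),(nat_lit 1),(nat_lit 0)], [Int.ofNat (nat_lit 64324831),Int.ofNat (nat_lit 354655279)])

/-- A row. -/
noncomputable def sr6_c0_2 : List ℕ × List ℤ :=
  ([(nat_lit 0),(nat_lit 0),(nat_lit 0),(nat_lit 0),(nat_lit 0),(nat_lit 0),(nat_lit 0),(nat_lit 0),(nat_lit 1),(nat_lit 0),(nat_lit 0),(nat_lit 0)], [Int.ofNat (nat_lit 52171906),Int.negSucc (nat_lit 15204421),Int.ofNat (nat_lit 429115001)])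

/-- A row. -/
noncomputable def sr6_c0_3 : List ℕ × List ℤ :=
  ([(nat_lit 0),(nat_lit 0),(nat_lit 0),(nat_lit 0),(nat_lit 0),(nat_lit 0),(nat_lit 1),(nat_lit 0),(nat_lit 0),(nat_lit 0),(nat_lit 0),(nat_lit 0)], [Int.ofNat (nat_lit 455441149),Int.ofNat (nat_lit 651822217),Int.negSucc (nat_lit 382307390),Int.ofNat (nat_lit 707180694)])

/-- A row. -/
noncomputable def sr6_c0_4 : List ℕ × List ℤ :=
  ([(nat_lit 0),(nat_lit 0),(nat_lit 0),(nat_lit 0),(nat_lit 0),(nat_lit 2),(nat_lit 0),(nat_lit 0),(nat_lit 0),(nat_lit 0),(nat_lit 0),(nat_lit 0)], [Int.ofNat (nat_lit 447440181),Int.ofNat (nat_lit 133515602),Int.ofNat (nat_lit 223616618),Int.negSucc (nat_lit 333351831),Int.ofNat (nat_lit 799042322)])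

/-- A row. -/
noncomputable def sr6_c0_5 : List ℕ × List ℤ :=
  ([(nat_lit 0),(nat_lit 0),(nat_lit 0),(nat_lit 0),(nat_lit 1),(nat_lit 0),(nat_lit 0),(nat_lit 0),(nat_lit 0),(nat_lit 0),(nat_lit 0),(nat_lit 0)], [Int.negSucc (nat_lit 1603634867),Int.negSucc (nat_lit 277164578),Int.negSucc (nat_lit 43610933),Int.ofNat (nat_lit 269031292),Int.negSucc (nat_lit 451941000),Int.ofNat (nat_lit 915698545)])

/-- A row. -/
noncomputable def sr6_c0_6 : List ℕ × List ℤ :=
  ([(nat_lit 0),(nat_lit 0),(nat_lit 0),(nat_lit 0),(nat_lit 2),(nat_lit 0),(nat_lit 0),(nat_lit 0),(nat_lit 0),(nat_lit 0),(nat_lit 0),(nat_lit 0)], [Int.ofNat (nat_lit 787774768),Int.ofNat (nat_lit 53548426),Int.ofNat (nat_lit 414360758),Int.negSucc (nat_lit 530244904),Int.ofNat (nat_lit 843157885),Int.negSucc (nat_lit 239915029),Int.ofNat (nat_lit 369794889)])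

/-- A row. -/
noncomputable def sr6_c0_7 : List ℕ × List ℤ :=
  ([(nat_lit 0),(nat_lit 0),(nat_lit 0),(nat_lit 1),(nat_lit 0),(nat_lit 0),(nat_lit 0),(nat_lit 1),(nat_lit 0),(nat_lit 0),(nat_lit 0),(nat_lit 0)], [Int.ofNat (nat_lit 19336718),Int.negSucc (nat_lit 414523161),Int.negSucc (nat_lit 206924034),Int.ofNat (nat_lit 171235010),Int.ofNat (nat_lit 83801900),Int.negSucc (nat_lit 122699249),Int.ofNat (nat_lit 18694496),Int.ofNat (nat_lit 396485514)])

/-- A row. -/
noncomputable def sr6_c0_8 : List ℕ × List ℤ :=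
  ([(nat_lit 0),(nat_lit 0),(nat_lit 0),(nat_lit 1),(nat_lit 0),(nat_lit 1),(nat_lit 0),(nat_lit 0),(nat_lit 0),(nat_lit 0),(nat_lit 0),(nat_lit 0)], [Int.negSucc (nat_lit 898412740),Int.negSucc (nat_lit 927702703),Int.ofNat (nat_lit 298898540),Int.ofNat (nat_lit 104088612),Int.negSucc (nat_lit 869625985),Int.ofNat (nat_lit 398485474),Int.ofNat (nat_lit 63351394),Int.negSucc (nat_lit 652637520),Int.ofNat (nat_lit 1052528475)])

/-- A row. -/
noncomputable def sr6_c0_9 : List ℕ × List ℤ :=
  ([(nat_lit 0),(nat_lit 0),(nat_lit 0),(nat_lit 2),(nat_lit 0),(nat_lit 0),(nat_lit 0),(nat_lit 0),(nat_lit 0),(nat_lit 0),(nat_lit 0),(nat_lit 0)], [Int.ofNat (nat_lit 746241738),Int.ofNat (nat_lit 1290145260),Int.ofNat (nat_lit 238892246),Int.ofNat (nat_lit 109029732),Int.ofNat (nat_lit 656352847),Int.ofNat (nat_lit 139988032),Int.ofNat (nat_lit 164247635),Int.ofNat (nat_lit 521514718),Int.negSucc (nat_lit 417982127),Int.ofNat (nat_lit 1203182897)])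

/-- A row. -/
noncomputable def sr6_c0_10 : List ℕ × List ℤ :=
  ([(nat_lit 0),(nat_lit 0),(nat_lit 1),(nat_lit 0),(nat_lit 0),(nat_lit 0),(nat_lit 0),(nat_lit 0),(nat_lit 0),(nat_lit 0),(nat_lit 0),(nat_lit 0)], [Int.ofNat (nat_lit 3563506859),Int.negSucc (nat_lit 724774743),Int.ofNat (nat_lit 1029489796),Int.negSucc (nat_lit 243787694),Int.ofNat (nat_lit 136704923),Int.ofNat (nat_lit 450594581),Int.ofNat (nat_lit 310213445),Int.ofNat (nat_lit 93554266),Int.ofNat (nat_lit 54724305),Int.ofNat (nat_lit 174472934),Int.ofNat (nat_lit 543158733)])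

/-- A row. -/
noncomputable def sr6_c0_11 : List ℕ × List ℤ :=
  ([(nat_lit 0),(nat_lit 0),(nat_lit 1),(nat_lit 0),(nat_lit 0),(nat_lit 0),(nat_lit 1),(nat_lit 0),(nat_lit 0),(nat_lit 0),(nat_lit 0),(nat_lit 0)], [Int.ofNat (nat_lit 214441580),Int.ofNat (nat_lit 386296218),Int.negSucc (nat_lit 85919633),Int.ofNat (nat_lit 391716807),Int.ofNat (nat_lit 51726793),Int.ofNat (nat_lit 16229942),Int.negSucc (nat_lit 114510405),Int.ofNat (nat_lit 45628014),Int.ofNat (nat_lit 82358300),Int.negSucc (nat_lit 48487953),Int.ofNat (nat_lit 78173587),Int.ofNat (nat_lit 256072587)])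

/-- A row. -/
noncomputable def sr6_c0_12 : List ℕ × List ℤ :=
  ([(nat_lit 0),(nat_lit 0),(nat_lit 1),(nat_lit 0),(nat_lit 1),(nat_lit 0),(nat_lit 0),(nat_lit 0),(nat_lit 0),(nat_lit 0),(nat_lit 0),(nat_lit 0)], [Int.negSucc (nat_lit 1816851601),Int.negSucc (nat_lit 90588626),Int.negSucc (nat_lit 413806526),Int.ofNat (nat_lit 23178349),Int.negSucc (nat_lit 334156071),Int.ofNat (nat_lit 960029579),Int.negSucc (nat_lit 78392019),Int.ofNat (nat_lit 13660507),Int.ofNat (nat_lit 24273269),Int.ofNat (nat_lit 68306233),Int.negSucc (nat_lit 227962095),Int.negSucc (nat_lit 106575010),Int.ofNat (nat_lit 448865424)])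

/-- A row. -/
noncomputable def sr6_c0_13 : List ℕ × List ℤ :=
  ([(nat_lit 0),(nat_lit 0),(nat_lit 1),(nat_lit 2),(nat_lit 0),(nat_lit 0),(nat_lit 0),(nat_lit 0),(nat_lit 0),(nat_lit 0),(nat_lit 0),(nat_lit 0)], [Int.ofNat (nat_lit 360583957),Int.negSucc (nat_lit 39029288),Int.negSucc (nat_lit 69512190),Int.negSucc (nat_lit 153243639),Int.ofNat (nat_lit 632713956),Int.ofNat (nat_lit 53384011),Int.ofNat (nat_lit 267724966),Int.ofNat (nat_lit 365058806),Int.ofNat (nat_lit 151273096),Int.ofNat (nat_lit 374632544),Int.ofNat (nat_lit 58702719),Int.ofNat (nat_lit 20979206),Int.ofNat (nat_lit 132994893),Int.ofNat (nat_lit 469301630)])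

/-- A row. -/
noncomputable def sr6_c0_14 : List ℕ × List ℤ :=
  ([(nat_lit 0),(nat_lit 0),(nat_lit 2),(nat_lit 0),(nat_lit 0),(nat_lit 0),(nat_lit 0),(nat_lit 0),(nat_lit 0),(nat_lit 0),(nat_lit 0),(nat_lit 0)], [Int.ofNat (nat_lit 2419881100),Int.negSucc (nat_lit 1191285390),Int.ofNat (nat_lit 1177242169),Int.negSucc (nat_lit 493596996),Int.ofNat (nat_lit 680804582),Int.ofNat (nat_lit 713855940),Int.ofNat (nat_lit 548153054),Int.ofNat (nat_lit 273825330),Int.ofNat (nat_lit 82395007),Int.ofNat (nat_lit 429279933),Int.ofNat (nat_lit 766753284),Int.negSucc (nat_lit 6855422),Int.ofNat (nat_lit 373470735),Int.ofNat (nat_lit 165121628),Int.ofNat (nat_lit 370862509)])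

/-- A row. -/
noncomputable def sr6_c0_15 : List ℕ × List ℤ :=
  ([(nat_lit 0),(nat_lit 0),(nat_lit 3),(nat_lit 0),(nat_lit 0),(nat_lit 0),(nat_lit 0),(nat_lit 0),(nat_lit 0),(nat_lit 0),(nat_lit 0),(nat_lit 0)], [Int.ofNat (nat_lit 357205214),Int.negSucc (nat_lit 450758910),Int.ofNat (nat_lit 215420026),Int.negSucc (nat_lit 238871187),Int.ofNat (nat_lit 538369384),Int.ofNat (nat_lit 253844047),Int.ofNat (nat_lit 251433153),Int.ofNat (nat_lit 174180580),Int.ofNat (nat_lit 28714584),Int.ofNat (nat_lit 242959916),Int.ofNat (nat_lit 234310033),Int.ofNat (nat_lit 458941),Int.ofNat (nat_lit 334739342),Int.ofNat (nat_lit 160243712),Int.ofNat (nat_lit 357431021),Int.ofNat (nat_lit 64033699)])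

/-- A row. -/
noncomputable def sr6_c0_16 : List ℕ × List ℤ :=
  ([(nat_lit 0),(nat_lit 1),(nat_lit 0),(nat_lit 0),(nat_lit 0),(nat_lit 0),(nat_lit 0),(nat_lit 0),(nat_lit 0),(nat_lit 1),(nat_lit 0),(nat_lit 0)], [Int.negSucc (nat_lit 266329770),Int.ofNat (nat_lit 36965601),Int.negSucc (nat_lit 237786053),Int.ofNat (nat_lit 153810766),Int.negSucc (nat_lit 144138509),Int.ofNat (nat_lit 67931751),Int.negSucc (nat_lit 145225082),Int.ofNat (nat_lit 168973884),Int.negSucc (nat_lit 110596753),Int.ofNat (nat_lit 137266643),Int.ofNat (nat_lit 9691124),Int.negSucc (nat_lit 55119519),Int.ofNat (nat_lit 74726401),Int.ofNat (nat_lit 16680919),Int.ofNat (nat_lit 7460444),Int.negSucc (nat_lit 29441266),Int.ofNat (nat_lit 372114450)])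

/-- A row. -/
noncomputable def sr6_c0_17 : List ℕ × List ℤ :=
  ([(nat_lit 0),(nat_lit 1),(nat_lit 0),(nat_lit 0),(nat_lit 0),(nat_lit 0),(nat_lit 0),(nat_lit 1),(nat_lit 0),(nat_lit 0),(nat_lit 0),(nat_lit 0)], [Int.ofNat (nat_lit 55100329),Int.ofNat (nat_lit 844151601),Int.ofNat (nat_lit 316741096),Int.negSucc (nat_lit 570803726),Int.negSucc (nat_lit 123082864),Int.ofNat (nat_lit 43636873),Int.ofNat (nat_lit 231030006),Int.negSucc (nat_lit 603897589),Int.ofNat (nat_lit 324823079),Int.ofNat (nat_lit 71280910),Int.ofNat (nat_lit 160916725),Int.ofNat (nat_lit 176757316),Int.ofNat (nat_lit 152498562),Int.ofNat (nat_lit 168703764),Int.ofNat (nat_lit 113116387),Int.negSucc (nat_lit 16690858),Int.negSucc (nat_lit 52257140),Int.ofNat (nat_lit 930442014)])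

/-- A row. -/
noncomputable def sr6_c0_18 : List ℕ × List ℤ :=
  ([(nat_lit 0),(nat_lit 1),(nat_lit 0),(nat_lit 0),(nat_lit 0),(nat_lit 1),(nat_lit 0),(nat_lit 0),(nat_lit 0),(nat_lit 0),(nat_lit 0),(nat_lit 0)], [Int.ofNat (nat_lit 887261424),Int.ofNat (nat_lit 684798142),Int.negSucc (nat_lit 1530163744),Int.ofNat (nat_lit 171572054),Int.ofNat (nat_lit 1578460668),Int.negSucc (nat_lit 517563496),Int.negSucc (nat_lit 775613485),Int.ofNat (nat_lit 1062389814),Int.negSucc (nat_lit 1189529530),Int.negSucc (nat_lit 122327794),Int.negSucc (nat_lit 347960377),Int.ofNat (nat_lit 329069642),Int.negSucc (nat_lit 290901988),Int.negSucc (nat_lit 30093590),Int.negSucc (nat_lit 165756460),Int.negSucc (nat_lit 8624654),Int.negSucc (nat_lit 178586741),Int.negSucc (nat_lit 198581790),Int.ofNat (nat_lit 1655519330)])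

/-- A row. -/
noncomputable def sr6_c0_19 : List ℕ × List ℤ :=
  ([(nat_lit 0),(nat_lit 1),(nat_lit 0),(nat_lit 1),(nat_lit 0),(nat_lit 0),(nat_lit 0),(nat_lit 0),(nat_lit 0),(nat_lit 0),(nat_lit 0),(nat_lit 0)], [Int.negSucc (nat_lit 2340709795),Int.negSucc (nat_lit 5452351791),Int.ofNat (nat_lit 290497519),Int.negSucc (nat_lit 303955864),Int.negSucc (nat_lit 1167180128),Int.ofNat (nat_lit 744111762),Int.negSucc (nat_lit 137628255),Int.negSucc (nat_lit 965777260),Int.ofNat (nat_lit 1205867276),Int.negSucc (nat_lit 1835242948),Int.ofNat (nat_lit 254930450),Int.negSucc (nat_lit 352012360),Int.ofNat (nat_lit 285771814),Int.ofNat (nat_lit 71194466),Int.negSucc (nat_lit 156729126),Int.negSucc (nat_lit 110321897),Int.ofNat (nat_lit 729557299),Int.negSucc (nat_lit 221576922),Int.negSucc (nat_lit 1071736815),Int.ofNat (nat_lit 2911099176)])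

/-- A row. -/
noncomputable def sr6_c0_20 : List ℕ × List ℤ :=
  ([(nat_lit 0),(nat_lit 1),(nat_lit 0),(nat_lit 1),(nat_lit 1),(nat_lit 0),(nat_lit 0),(nat_lit 0),(nat_lit 0),(nat_lit 0),(nat_lit 0),(nat_lit 0)], [Int.negSucc (nat_lit 162996083),Int.ofNat (nat_lit 1554023555),Int.ofNat (nat_lit 521017623),Int.ofNat (nat_lit 51353784),Int.negSucc (nat_lit 564272284),Int.negSucc (nat_lit 605665664),Int.negSucc (nat_lit 283460236),Int.negSucc (nat_lit 233698246),Int.ofNat (nat_lit 90496827),Int.ofNat (nat_lit 129927050),Int.negSucc (nat_lit 140046473),Int.negSucc (nat_lit 100534251),Int.negSucc (nat_lit 124690147),Int.negSucc (nat_lit 492251287),Int.ofNat (nat_lit 109621759),Int.negSucc (nat_lit 210854257),Int.ofNat (nat_lit 48807620),Int.ofNat (nat_lit 210384215),Int.negSucc (nat_lit 369113742),Int.negSucc (nat_lit 787130585),Int.ofNat (nat_lit 1663610112)])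

/-- A row. -/
noncomputable def sr6_c0_21 : List ℕ × List ℤ :=
  ([(nat_lit 0),(nat_lit 1),(nat_lit 1),(nat_lit 0),(nat_lit 0),(nat_lit 1),(nat_lit 0),(nat_lit 0),(nat_lit 0),(nat_lit 0),(nat_lit 0),(nat_lit 0)], [Int.ofNat (nat_lit 406832647),Int.ofNat (nat_lit 693222320),Int.negSucc (nat_lit 704404578),Int.ofNat (nat_lit 133031391),Int.ofNat (nat_lit 262244780),Int.ofNat (nat_lit 435509621),Int.negSucc (nat_lit 203865478),Int.ofNat (nat_lit 164102855),Int.ofNat (nat_lit 291689301),Int.negSucc (nat_lit 198121302),Int.negSucc (nat_lit 152455321),Int.ofNat (nat_lit 225288091),Int.negSucc (nat_lit 13582103),Int.ofNat (nat_lit 309900823),Int.negSucc (nat_lit 409136648),Int.ofNat (nat_lit 164447753),Int.negSucc (nat_lit 239026799),Int.negSucc (nat_lit 24311704),Int.ofNat (nat_lit 759337618),Int.ofNat (nat_lit 393211360),Int.negSucc (nat_lit 1157710114),Int.ofNat (nat_lit 1060546797)])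

/-- A row. -/
noncomputable def sr6_c0_22 : List ℕ × List ℤ :=
  ([(nat_lit 0),(nat_lit 1),(nat_lit 1),(nat_lit 1),(nat_lit 0),(nat_lit 0),(nat_lit 0),(nat_lit 0),(nat_lit 0),(nat_lit 0),(nat_lit 0),(nat_lit 0)], [Int.negSucc (nat_lit 1754733362),Int.negSucc (nat_lit 3691385120),Int.ofNat (nat_lit 93760995),Int.ofNat (nat_lit 483359545),Int.negSucc (nat_lit 602534638),Int.ofNat (nat_lit 456293697),Int.negSucc (nat_lit 340870417),Int.negSucc (nat_lit 252389710),Int.negSucc (nat_lit 382448036),Int.negSucc (nat_lit 263431384),Int.negSucc (nat_lit 207642090),Int.negSucc (nat_lit 417515284),Int.negSucc (nat_lit 82537771),Int.negSucc (nat_lit 1159222911),Int.ofNat (nat_lit 145351242),Int.negSucc (nat_lit 72692574),Int.ofNat (nat_lit 672892971),Int.negSucc (nat_lit 328292596),Int.negSucc (nat_lit 487091916),Int.ofNat (nat_lit 2681408975),Int.ofNat (nat_lit 469745731),Int.negSucc (nat_lit 733483195),Int.ofNat (nat_lit 1506803502)])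

/-- A row. -/
noncomputable def sr6_c0_23 : List ℕ × List ℤ :=
  ([(nat_lit 0),(nat_lit 2),(nat_lit 0),(nat_lit 0),(nat_lit 0),(nat_lit 0),(nat_lit 0),(nat_lit 0),(nat_lit 0),(nat_lit 0),(nat_lit 0),(nat_lit 0)], [Int.ofNat (nat_lit 1408620992),Int.ofNat (nat_lit 5044640020),Int.negSucc (nat_lit 468588109),Int.negSucc (nat_lit 130334854),Int.ofNat (nat_lit 1584977681),Int.ofNat (nat_lit 88684102),Int.ofNat (nat_lit 161088937),Int.ofNat (nat_lit 1302648469),Int.negSucc (nat_lit 1697141176),Int.ofNat (nat_lit 632202465),Int.ofNat (nat_lit 243479462),Int.negSucc (nat_lit 404010930),Int.negSucc (nat_lit 136678665),Int.ofNat (nat_lit 79024530),Int.negSucc (nat_lit 670083737),Int.ofNat (nat_lit 232728525),Int.ofNat (nat_lit 56953904),Int.negSucc (nat_lit 982595396),Int.ofNat (nat_lit 1602027578),Int.negSucc (nat_lit 1337026218),Int.negSucc (nat_lit 1062368383),Int.ofNat (nat_lit 846028530),Int.negSucc (nat_lit 86953142),Int.ofNat (nat_lit 3374839925)])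

/-- A row. -/
noncomputable def sr6_c0_24 : List ℕ × List ℤ :=
  ([(nat_lit 0),(nat_lit 2),(nat_lit 0),(nat_lit 0),(nat_lit 0),(nat_lit 0),(nat_lit 1),(nat_lit 0),(nat_lit 0),(nat_lit 0),(nat_lit 0),(nat_lit 0)], [Int.ofNat (nat_lit 202100217),Int.ofNat (nat_lit 512034851),Int.negSucc (nat_lit 349631606),Int.negSucc (nat_lit 363524869),Int.ofNat (nat_lit 667944691),Int.negSucc (nat_lit 49511884),Int.ofNat (nat_lit 13985148),Int.ofNat (nat_lit 441865905),Int.negSucc (nat_lit 574688764),Int.ofNat (nat_lit 149926668),Int.ofNat (nat_lit 26732272),Int.negSucc (nat_lit 397538410),Int.negSucc (nat_lit 3791020),Int.negSucc (nat_lit 11430162),Int.negSucc (nat_lit 203581683),Int.ofNat (nat_lit 39027657),Int.ofNat (nat_lit 586655643),Int.negSucc (nat_lit 178162835),Int.negSucc (nat_lit 128724236),Int.ofNat (nat_lit 201058913),Int.negSucc (nat_lit 364750048),Int.ofNat (nat_lit 132000400),Int.ofNat (nat_lit 8073969),Int.ofNat (nat_lit 214712207),Int.ofNat (nat_lit 983731729)])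

/-- A row. -/
noncomputable def sr6_c0_25 : List ℕ × List ℤ :=
  ([(nat_lit 0),(nat_lit 2),(nat_lit 0),(nat_lit 0),(nat_lit 1),(nat_lit 0),(nat_lit 0),(nat_lit 0),(nat_lit 0),(nat_lit 0),(nat_lit 0),(nat_lit 0)], [Int.ofNat (nat_lit 457442321),Int.negSucc (nat_lit 3457243786),Int.negSucc (nat_lit 521039650),Int.ofNat (nat_lit 510795165),Int.ofNat (nat_lit 162058296),Int.ofNat (nat_lit 468435288),Int.negSucc (nat_lit 556747079),Int.negSucc (nat_lit 135320452),Int.ofNat (nat_lit 217921228),Int.negSucc (nat_lit 14950300),Int.ofNat (nat_lit 83520148),Int.ofNat (nat_lit 562595365),Int.ofNat (nat_lit 309240607),Int.ofNat (nat_lit 475235064),Int.ofNat (nat_lit 147519702),Int.ofNat (nat_lit 10962125),Int.negSucc (nat_lit 561070439),Int.ofNat (nat_lit 215759683),Int.ofNat (nat_lit 252757527),Int.negSucc (nat_lit 106663992),Int.negSucc (nat_lit 467199586),Int.negSucc (nat_lit 525313660),Int.negSucc (nat_lit 50707428),Int.negSucc (nat_lit 1499866358),Int.negSucc (nat_lit 308772984),Int.ofNat (nat_lit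 2490614975)])

/-- A row. -/
noncomputable def sr6_c0_26 : List ℕ × List ℤ :=
  ([(nat_lit 0),(nat_lit 2),(nat_lit 0),(nat_lit 2),(nat_lit 0),(nat_lit 0),(nat_lit 0),(nat_lit 0),(nat_lit 0),(nat_lit 0),(nat_lit 0),(nat_lit 0)], [Int.negSucc (nat_lit 5043785),Int.negSucc (nat_lit 1101633554),Int.negSucc (nat_lit 257661233),Int.ofNat (nat_lit 585382720),Int.negSucc (nat_lit 1336013501),Int.ofNat (nat_lit 565857626),Int.ofNat (nat_lit 403383963),Int.negSucc (nat_lit 928205526),Int.ofNat (nat_lit 419457943),Int.ofNat (nat_lit 47636437),Int.negSucc (nat_lit 66680745),Int.ofNat (nat_lit 341098987),Int.ofNat (nat_lit 61246206),Int.ofNat (nat_lit 387741087),Int.ofNat (nat_lit 488062608),Int.ofNat (nat_lit 15867213),Int.negSucc (nat_lit 1164228226),Int.ofNat (nat_lit 618819997),Int.ofNat (nat_lit 267993917),Int.negSucc (nat_lit 559883394),Int.negSucc (nat_lit 180497198),Int.ofNat (nat_lit 280200521),Int.negSucc (nat_lit 11105709),Int.negSucc (nat_lit 255803264),Int.negSucc (nat_lit 343132738),Int.ofNat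 (nat_lit 184733617),Int.ofNat (nat_lit 2078997036)])

/-- A row. -/
noncomputable def sr6_c0_27 : List ℕ × List ℤ :=
  ([(nat_lit 0),(nat_lit 2),(nat_lit 1),(nat_lit 0),(nat_lit 0),(nat_lit 0),(nat_lit 0),(nat_lit 0),(nat_lit 0),(nat_lit 0),(nat_lit 0),(nat_lit 0)], [Int.ofNat (nat_lit 1021940759),Int.ofNat (nat_lit 3778058559),Int.ofNat (nat_lit 639978225),Int.negSucc (nat_lit 188107650),Int.ofNat (nat_lit 462232783),Int.ofNat (nat_lit 1351038076),Int.ofNat (nat_lit 814437399),Int.ofNat (nat_lit 721858994),Int.ofNat (nat_lit 7133431),Int.negSucc (nat_lit 174316600),Int.ofNat (nat_lit 731457967),Int.ofNat (nat_lit 373930208),Int.ofNat (nat_lit 565267534),Int.ofNat (nat_lit 1942432157),Int.negSucc (nat_lit 146335161),Int.ofNat (nat_lit 104854606),Int.negSucc (nat_lit 993238684),Int.negSucc (nat_lit 1116126959),Int.ofNat (nat_lit 961573473),Int.negSucc (nat_lit 399045566),Int.negSucc (nat_lit 2204085701),Int.ofNat (nat_lit 2333013473),Int.negSucc (nat_lit 1352020228),Int.ofNat (nat_lit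 4326738874),Int.negSucc (nat_lit 263541689),Int.ofNat (nat_lit 674019426),Int.ofNat (nat_lit 20522066),Int.ofNat (nat_lit 2710988348)])

/-- A row. -/
noncomputable def sr6_c0_28 : List ℕ × List ℤ :=
  ([(nat_lit 0),(nat_lit 2),(nat_lit 2),(nat_lit 0),(nat_lit 0),(nat_lit 0),(nat_lit 0),(nat_lit 0),(nat_lit 0),(nat_lit 0),(nat_lit 0),(nat_lit 0)], [Int.ofNat (nat_lit 270466269),Int.negSucc (nat_lit 1499618745),Int.negSucc (nat_lit 473832091),Int.ofNat (nat_lit 409931619),Int.negSucc (nat_lit 472940783),Int.ofNat (nat_lit 918707136),Int.ofNat (nat_lit 720005386),Int.ofNat (nat_lit 314741811),Int.ofNat (nat_lit 369614752),Int.negSucc (nat_lit 64355352),Int.negSucc (nat_lit 967462),Int.ofNat (nat_lit 300104559),Int.ofNat (nat_lit 484508947),Int.ofNat (nat_lit 944820028),Int.ofNat (nat_lit 579099543),Int.ofNat (nat_lit 359604024),Int.negSucc (nat_lit 1041144919),Int.negSucc (nat_lit 139711285),Int.ofNat (nat_lit 145719647),Int.ofNat (nat_lit 810562503),Int.negSucc (nat_lit 796152323),Int.ofNat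 (nat_lit 743559398),Int.ofNat (nat_lit 190496326),Int.ofNat (nat_lit 1222254368),Int.negSucc (nat_lit 237248073),Int.ofNat (nat_lit 651621699),Int.ofNat (nat_lit 166506204),Int.ofNat (nat_lit 2193527211),Int.ofNat (nat_lit 1255390998)])

/-- A row. -/
noncomputable def sr6_c0_29 : List ℕ × List ℤ :=
  ([(nat_lit 0),(nat_lit 3),(nat_lit 0),(nat_lit 0),(nat_lit 0),(nat_lit 1),(nat_lit 0),(nat_lit 0),(nat_lit 0),(nat_lit 0),(nat_lit 0),(nat_lit 0)], [Int.negSucc (nat_lit 141218944),Int.ofNat (nat_lit 310293413),Int.ofNat (nat_lit 424703134),Int.negSucc (nat_lit 119851),Int.negSucc (nat_lit 342672537),Int.negSucc (nat_lit 878226028),Int.ofNat (nat_lit 115429458),Int.ofNat (nat_lit 646887269),Int.ofNat (nat_lit 152983003),Int.ofNat (nat_lit 428382300),Int.ofNat (nat_lit 346621516),Int.negSucc (nat_lit 754638045),Int.ofNat (nat_lit 28979148),Int.ofNat (nat_lit 466115041),Int.negSucc (nat_lit 552436805),Int.ofNat (nat_lit 188088989),Int.ofNat (nat_lit 844499764),Int.negSucc (nat_lit 571348407),Int.negSucc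 (nat_lit 855510638),Int.ofNat (nat_lit 346033564),Int.negSucc (nat_lit 662287406),Int.ofNat (nat_lit 533849270),Int.negSucc (nat_lit 179037353),Int.negSucc (nat_lit 15827481),Int.ofNat (nat_lit 297962679),Int.negSucc (nat_lit 394835017),Int.negSucc (nat_lit 916405646),Int.negSucc (nat_lit 116641066),Int.negSucc (nat_lit 426854023),Int.ofNat (nat_lit 2605207455)])

/-- A row. -/
noncomputable def sr6_c0_30 : List ℕ × List ℤ :=
  ([(nat_lit 0),(nat_lit 3),(nat_lit 0),(nat_lit 1),(nat_lit 0),(nat_lit 0),(nat_lit 0),(nat_lit 0),(nat_lit 0),(nat_lit 0),(nat_lit 0),(nat_lit 0)], [Int.ofNat (nat_lit 2261628026),Int.ofNat (nat_lit 3461099588),Int.ofNat (nat_lit 208016139),Int.negSucc (nat_lit 437889918),Int.ofNat (nat_lit 1835777690),Int.negSucc (nat_lit 1061307367),Int.ofNat (nat_lit 279851141),Int.ofNat (nat_lit 1744122280),Int.negSucc (nat_lit 1766201518),Int.ofNat (nat_lit 714338633),Int.negSucc (nat_lit 280339604),Int.negSucc (nat_lit 299479007),Int.ofNat (nat_lit 35773384),Int.negSucc (nat_lit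 543135002),Int.negSucc (nat_lit 10275880),Int.ofNat (nat_lit 339020063),Int.ofNat (nat_lit 253922614),Int.ofNat (nat_lit 165866876),Int.ofNat (nat_lit 366600080),Int.negSucc (nat_lit 1114569279),Int.negSucc (nat_lit 279041696),Int.negSucc (nat_lit 390697613),Int.ofNat (nat_lit 1723287076),Int.ofNat (nat_lit 893466707),Int.ofNat (nat_lit 385469366),Int.ofNat (nat_lit 72601164),Int.negSucc (nat_lit 1924312618),Int.ofNat (nat_lit 509375324),Int.ofNat (nat_lit 690408013),Int.negSucc (nat_lit 762045530),Int.ofNat (nat_lit 3580249431)])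

/-- A row. -/
noncomputable def sr6_c0_31 : List ℕ × List ℤ :=
  ([(nat_lit 0),(nat_lit 4),(nat_lit 0),(nat_lit 0),(nat_lit 0),(nat_lit 0),(nat_lit 0),(nat_lit 0),(nat_lit 0),(nat_lit 0),(nat_lit 0),(nat_lit 0)], [Int.negSucc (nat_lit 2004752538),Int.negSucc (nat_lit 4213712030),Int.ofNat (nat_lit 34876217),Int.ofNat (nat_lit 707020294),Int.negSucc (nat_lit 1944152649),Int.ofNat (nat_lit 377969328),Int.negSucc (nat_lit 106043326),Int.negSucc (nat_lit 1675863791),Int.ofNat (nat_lit 1581192051),Int.negSucc (nat_lit 261418490),Int.ofNat (nat_lit 17386813),Int.ofNat (nat_lit 305498573),Int.negSucc (nat_lit 277865815),Int.ofNat (nat_lit 968742136),Int.ofNat (nat_lit 1271094595),Int.negSucc (nat_lit 881452249),Int.ofNat (nat_lit 660393914),Int.negSucc (nat_lit 729524321),Int.negSucc (nat_lit 2421972414),Int.ofNat (nat_lit 2072356694),Int.ofNat (nat_lit 1294002051),Int.negSucc (nat_lit 582423185),Int.negSucc (nat_lit 1748823668),Int.negSucc (nat_lit 2996088531),Int.negSucc (nat_lit 10609394),Int.negSucc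 (nat_lit 1025506425),Int.ofNat (nat_lit 822674885),Int.ofNat (nat_lit 1944416590),Int.negSucc (nat_lit 681004777),Int.ofNat (nat_lit 2304669713),Int.negSucc (nat_lit 1944186281),Int.ofNat (nat_lit 3971111956)])

/-- A row. -/
noncomputable def sr6_c0_32 : List ℕ × List ℤ :=
  ([(nat_lit 0),(nat_lit 4),(nat_lit 1),(nat_lit 0),(nat_lit 0),(nat_lit 0),(nat_lit 0),(nat_lit 0),(nat_lit 0),(nat_lit 0),(nat_lit 0),(nat_lit 0)], [Int.ofNat (nat_lit 396281848),Int.negSucc (nat_lit 2945098718),Int.negSucc (nat_lit 788378232),Int.ofNat (nat_lit 515465081),Int.negSucc (nat_lit 42964702),Int.ofNat (nat_lit 105286099),Int.ofNat (nat_lit 396249350),Int.negSucc (nat_lit 465330428),Int.ofNat (nat_lit 27528880),Int.ofNat (nat_lit 198997221),Int.negSucc (nat_lit 599300305),Int.ofNat (nat_lit 6936152),Int.negSucc (nat_lit 160640832),Int.negSucc (nat_lit 537267653),Int.ofNat (nat_lit 1171801517),Int.ofNat (nat_lit 264327296),Int.negSucc (nat_lit 273464487),Int.ofNat (nat_lit 414415644),Int.negSucc (nat_lit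 538170053),Int.ofNat (nat_lit 704993358),Int.ofNat (nat_lit 628172274),Int.negSucc (nat_lit 1354552445),Int.ofNat (nat_lit 1217612121),Int.negSucc (nat_lit 2021771859),Int.negSucc (nat_lit 456639642),Int.ofNat (nat_lit 95928337),Int.ofNat (nat_lit 987751976),Int.ofNat (nat_lit 457568911),Int.ofNat (nat_lit 1684304601),Int.ofNat (nat_lit 391718232),Int.negSucc (nat_lit 322621665),Int.ofNat (nat_lit 2078422022),Int.ofNat (nat_lit 2803138748)])

/-- A row. -/
noncomputable def sr6_c0_33 : List ℕ × List ℤ :=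
  ([(nat_lit 0),(nat_lit 6),(nat_lit 0),(nat_lit 0),(nat_lit 0),(nat_lit 0),(nat_lit 0),(nat_lit 0),(nat_lit 0),(nat_lit 0),(nat_lit 0),(nat_lit 0)], [Int.ofNat (nat_lit 1491349321),Int.ofNat (nat_lit 981960780),Int.ofNat (nat_lit 477447410),Int.negSucc (nat_lit 691887425),Int.ofNat (nat_lit 937649785),Int.ofNat (nat_lit 9246386),Int.ofNat (nat_lit 443382016),Int.ofNat (nat_lit 370792156),Int.negSucc (nat_lit 290190007),Int.negSucc (nat_lit 162506533),Int.negSucc (nat_lit 108116002),Int.negSucc (nat_lit 18764704),Int.ofNat (nat_lit 282236970),Int.negSucc (nat_lit 500562479),Int.negSucc (nat_lit 182700033),Int.ofNat (nat_lit 757500773),Int.negSucc (nat_lit 643434629),Int.ofNat (nat_lit 1051533243),Int.ofNat (nat_lit 1060261507),Int.negSucc (nat_lit 860561019),Int.negSucc (nat_lit 804609227),Int.ofNat (nat_lit 41622524),Int.ofNat (nat_lit 1380364257),Int.ofNat (nat_lit 672790550),Int.negSucc (nat_lit 216764934),Int.ofNat (nat_lit 855894940),Int.negSucc (nat_lit 86718151),Int.negSucc (nat_lit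 1013232638),Int.ofNat (nat_lit 1107287857),Int.negSucc (nat_lit 1471322370),Int.ofNat (nat_lit 938215797),Int.negSucc (nat_lit 2387243994),Int.ofNat (nat_lit 1845907541),Int.ofNat (nat_lit 1513385321)])

/-- A row. -/
noncomputable def sr6_c0_34 : List ℕ × List ℤ :=
  ([(nat_lit 1),(nat_lit 0),(nat_lit 0),(nat_lit 0),(nat_lit 0),(nat_lit 0),(nat_lit 0),(nat_lit 0),(nat_lit 0),(nat_lit 0),(nat_lit 0),(nat_lit 0)], [Int.negSucc (nat_lit 6205631337),Int.negSucc (nat_lit 1196714097),Int.negSucc (nat_lit 2374963873),Int.ofNat (nat_lit 923292240),Int.ofNat (nat_lit 437983982),Int.negSucc (nat_lit 718025347),Int.negSucc (nat_lit 475298477),Int.ofNat (nat_lit 148216493),Int.ofNat (nat_lit 109751904),Int.negSucc (nat_lit 578280408),Int.ofNat (nat_lit 43314534),Int.ofNat (nat_lit 769739344),Int.negSucc (nat_lit 594920367),Int.negSucc (nat_lit 107344409),Int.ofNat (nat_lit 293760396),Int.negSucc (nat_lit 450772513),Int.ofNat (nat_lit 59138236),Int.negSucc (nat_lit 109416337),Int.ofNat (nat_lit 30890986),Int.ofNat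 (nat_lit 133831893),Int.ofNat (nat_lit 398438461),Int.negSucc (nat_lit 270735642),Int.ofNat (nat_lit 79173784),Int.negSucc (nat_lit 561857791),Int.negSucc (nat_lit 11245180),Int.ofNat (nat_lit 278097260),Int.ofNat (nat_lit 195086672),Int.negSucc (nat_lit 201723117),Int.ofNat (nat_lit 16506440),Int.negSucc (nat_lit 165308614),Int.negSucc (nat_lit 225807779),Int.ofNat (nat_lit 133383018),Int.negSucc (nat_lit 16798938),Int.negSucc (nat_lit 64047335),Int.ofNat (nat_lit 1520846755)])

/-- A row. -/
noncomputable def sr6_c0_35 : List ℕ × List ℤ :=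
  ([(nat_lit 1),(nat_lit 0),(nat_lit 0),(nat_lit 0),(nat_lit 0),(nat_lit 0),(nat_lit 0),(nat_lit 0),(nat_lit 1),(nat_lit 0),(nat_lit 0),(nat_lit 0)], [Int.negSucc (nat_lit 121787543),Int.ofNat (nat_lit 132693723),Int.negSucc (nat_lit 720525913),Int.negSucc (nat_lit 168452783),Int.ofNat (nat_lit 165249833),Int.ofNat (nat_lit 9019949),Int.negSucc (nat_lit 55632487),Int.negSucc (nat_lit 76314933),Int.ofNat (nat_lit 39360684),Int.negSucc (nat_lit 9719466),Int.negSucc (nat_lit 40691598),Int.ofNat (nat_lit 84507703),Int.ofNat (nat_lit 30199592),Int.negSucc (nat_lit 38330249),Int.ofNat (nat_lit 27970351),Int.negSucc (nat_lit 30328114),Int.negSucc (nat_lit 4076699),Int.ofNat (nat_lit 72986255),Int.ofNat (nat_lit 26117829),Int.negSucc (nat_lit 35521946),Int.ofNat (nat_lit 87376950),Int.negSucc (nat_lit 45929569),Int.ofNat (nat_lit 26270295),Int.negSucc (nat_lit 36198723),Int.negSucc (nat_lit 28985110),Int.negSucc (nat_lit 18561515),Int.negSucc (nat_lit 7593126),Int.negSucc (nat_lit 44279460),Int.ofNat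 (nat_lit 1243187),Int.negSucc (nat_lit 68803650),Int.negSucc (nat_lit 54651593),Int.negSucc (nat_lit 4170256),Int.ofNat (nat_lit 13563238),Int.negSucc (nat_lit 9308989),Int.ofNat (nat_lit 49501161),Int.ofNat (nat_lit 175432671)])

/-- A row. -/
noncomputable def sr6_c0_36 : List ℕ × List ℤ :=
  ([(nat_lit 1),(nat_lit 0),(nat_lit 0),(nat_lit 0),(nat_lit 0),(nat_lit 0),(nat_lit 1),(nat_lit 0),(nat_lit 0),(nat_lit 0),(nat_lit 0),(nat_lit 0)], [Int.negSucc (nat_lit 1729484836),Int.negSucc (nat_lit 1740936310),Int.ofNat (nat_lit 21331632),Int.negSucc (nat_lit 924206273),Int.negSucc (nat_lit 697750375),Int.ofNat (nat_lit 103328204),Int.negSucc (nat_lit 267199121),Int.ofNat (nat_lit 127507846),Int.ofNat (nat_lit 459099218),Int.negSucc (nat_lit 179801061),Int.ofNat (nat_lit 302495753),Int.ofNat (nat_lit 688017793),Int.negSucc (nat_lit 21259646),Int.ofNat (nat_lit 77962708),Int.ofNat (nat_lit 26692799),Int.negSucc (nat_lit 16522273),Int.negSucc (nat_lit 99389244),Int.negSucc (nat_lit 125088757),Int.negSucc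 (nat_lit 13698278),Int.ofNat (nat_lit 57815070),Int.ofNat (nat_lit 125698903),Int.negSucc (nat_lit 161495613),Int.ofNat (nat_lit 52796786),Int.negSucc (nat_lit 160177334),Int.negSucc (nat_lit 62010344),Int.ofNat (nat_lit 77554665),Int.negSucc (nat_lit 9543256),Int.ofNat (nat_lit 39507123),Int.negSucc (nat_lit 60657261),Int.ofNat (nat_lit 27666793),Int.negSucc (nat_lit 76956361),Int.negSucc (nat_lit 79123650),Int.ofNat (nat_lit 47679688),Int.negSucc (nat_lit 27843143),Int.ofNat (nat_lit 151526436),Int.negSucc (nat_lit 50869098),Int.ofNat (nat_lit 551364348)])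

/-- A row. -/
noncomputable def sr6_c0_37 : List ℕ × List ℤ :=
  ([(nat_lit 1),(nat_lit 0),(nat_lit 0),(nat_lit 0),(nat_lit 1),(nat_lit 0),(nat_lit 0),(nat_lit 0),(nat_lit 0),(nat_lit 0),(nat_lit 0),(nat_lit 0)], [Int.ofNat (nat_lit 3908819696),Int.ofNat (nat_lit 747156160),Int.ofNat (nat_lit 1410607200),Int.negSucc (nat_lit 1118855277),Int.ofNat (nat_lit 804370348),Int.negSucc (nat_lit 2218838780),Int.negSucc (nat_lit 106271945),Int.negSucc (nat_lit 404254263),Int.ofNat (nat_lit 213958123),Int.negSucc (nat_lit 6406686),Int.negSucc (nat_lit 11103425),Int.negSucc (nat_lit 136162010),Int.ofNat (nat_lit 455188033),Int.negSucc (nat_lit 30507381),Int.ofNat (nat_lit 25899343),Int.ofNat (nat_lit 285687448),Int.negSucc (nat_lit 309988085),Int.ofNat (nat_lit 165962748),Int.negSucc (nat_lit 53937812),Int.negSucc (nat_lit 194808244),Int.negSucc (nat_lit 53685409),Int.negSucc (nat_lit 105637009),Int.ofNat (nat_lit 93887625),Int.ofNat (nat_lit 115132395),Int.ofNat (nat_lit 29249100),Int.negSucc (nat_lit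 106497426),Int.negSucc (nat_lit 123527830),Int.ofNat (nat_lit 22606579),Int.negSucc (nat_lit 149408621),Int.negSucc (nat_lit 26811221),Int.negSucc (nat_lit 14956991),Int.ofNat (nat_lit 160002),Int.ofNat (nat_lit 87396474),Int.ofNat (nat_lit 34919454),Int.negSucc (nat_lit 642363266),Int.negSucc (nat_lit 87947866),Int.ofNat (nat_lit 22563984),Int.ofNat (nat_lit 878975375)])

/-- A row. -/
noncomputable def sr6_c0_38 : List ℕ × List ℤ :=
  ([(nat_lit 1),(nat_lit 0),(nat_lit 0),(nat_lit 1),(nat_lit 0),(nat_lit 1),(nat_lit 0),(nat_lit 0),(nat_lit 0),(nat_lit 0),(nat_lit 0),(nat_lit 0)], [Int.ofNat (nat_lit 1095098871),Int.ofNat (nat_lit 628537786),Int.ofNat (nat_lit 43240695),Int.ofNat (nat_lit 708802874),Int.negSucc (nat_lit 276762334),Int.negSucc (nat_lit 771235723),Int.ofNat (nat_lit 290332849),Int.ofNat (nat_lit 572316281),Int.negSucc (nat_lit 1533493871),Int.ofNat (nat_lit 195230040),Int.ofNat (nat_lit 397990656),Int.ofNat (nat_lit 107256478),Int.ofNat (nat_lit 65839840),Int.ofNat (nat_lit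 16039849),Int.ofNat (nat_lit 138432585),Int.ofNat (nat_lit 122071946),Int.negSucc (nat_lit 58604228),Int.ofNat (nat_lit 68219212),Int.negSucc (nat_lit 119116653),Int.negSucc (nat_lit 35605517),Int.ofNat (nat_lit 42281496),Int.negSucc (nat_lit 75509954),Int.ofNat (nat_lit 57304141),Int.negSucc (nat_lit 153041669),Int.negSucc (nat_lit 8193498),Int.negSucc (nat_lit 32459266),Int.negSucc (nat_lit 42354014),Int.ofNat (nat_lit 76981674),Int.negSucc (nat_lit 133624988),Int.ofNat (nat_lit 98990953),Int.negSucc (nat_lit 11449947),Int.negSucc (nat_lit 80594954),Int.ofNat (nat_lit 48200711),Int.negSucc (nat_lit 4708230),Int.negSucc (nat_lit 140221597),Int.negSucc (nat_lit 239056170),Int.ofNat (nat_lit 223262673),Int.ofNat (nat_lit 118075560),Int.ofNat (nat_lit 503860479)])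

/-- A row. -/
noncomputable def sr6_c0_39 : List ℕ × List ℤ :=
  ([(nat_lit 1),(nat_lit 0),(nat_lit 0),(nat_lit 2),(nat_lit 0),(nat_lit 0),(nat_lit 0),(nat_lit 0),(nat_lit 0),(nat_lit 0),(nat_lit 0),(nat_lit 0)], [Int.negSucc (nat_lit 93054287),Int.negSucc (nat_lit 2144785973),Int.negSucc (nat_lit 459999875),Int.negSucc (nat_lit 2460518052),Int.ofNat (nat_lit 1909594864),Int.negSucc (nat_lit 1176121966),Int.ofNat (nat_lit 80319341),Int.negSucc (nat_lit 52656559),Int.ofNat (nat_lit 299256556),Int.negSucc (nat_lit 3727621615),Int.negSucc (nat_lit 329917209),Int.negSucc (nat_lit 338718420),Int.ofNat (nat_lit 232174660),Int.ofNat (nat_lit 701363150),Int.negSucc (nat_lit 382343423),Int.ofNat (nat_lit 101596861),Int.ofNat (nat_lit 190768032),Int.ofNat (nat_lit 22639018),Int.negSucc (nat_lit 18860976),Int.negSucc (nat_lit 123308127),Int.negSucc (nat_lit 119244907),Int.negSucc (nat_lit 78148980),Int.ofNat (nat_lit 53931294),Int.ofNat (nat_lit 369599815),Int.ofNat (nat_lit 170159765),Int.negSucc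 (nat_lit 214699776),Int.negSucc (nat_lit 141603910),Int.negSucc (nat_lit 224058171),Int.ofNat (nat_lit 109939189),Int.negSucc (nat_lit 195453907),Int.ofNat (nat_lit 86442187),Int.ofNat (nat_lit 10628593),Int.negSucc (nat_lit 47370408),Int.ofNat (nat_lit 713580),Int.negSucc (nat_lit 284477485),Int.ofNat (nat_lit 280582307),Int.negSucc (nat_lit 591528900),Int.negSucc (nat_lit 35940359),Int.negSucc (nat_lit 468074495),Int.ofNat (nat_lit 918720513)])

/-- A row. -/
noncomputable def sr6_c0_40 : List ℕ × List ℤ :=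
  ([(nat_lit 1),(nat_lit 0),(nat_lit 1),(nat_lit 0),(nat_lit 0),(nat_lit 0),(nat_lit 0),(nat_lit 0),(nat_lit 0),(nat_lit 0),(nat_lit 0),(nat_lit 0)], [Int.negSucc (nat_lit 8822651251),Int.ofNat (nat_lit 2183092671),Int.negSucc (nat_lit 4713497020),Int.ofNat (nat_lit 745731964),Int.ofNat (nat_lit 2605680588),Int.negSucc (nat_lit 3433181517),Int.negSucc (nat_lit 1085952605),Int.negSucc (nat_lit 474523428),Int.ofNat (nat_lit 292752822),Int.negSucc (nat_lit 1751795768),Int.negSucc (nat_lit 1591431540),Int.ofNat (nat_lit 1211003608),Int.negSucc (nat_lit 755291473),Int.negSucc (nat_lit 602676737),Int.ofNat (nat_lit 523021658),Int.negSucc (nat_lit 422425202),Int.negSucc (nat_lit 100790370),Int.ofNat (nat_lit 106644444),Int.ofNat (nat_lit 359302),Int.negSucc (nat_lit 36365239),Int.ofNat (nat_lit 535788898),Int.negSucc (nat_lit 179933528),Int.ofNat (nat_lit 126284613),Int.negSucc (nat_lit 716346957),Int.negSucc (nat_lit 34331363),Int.ofNat (nat_lit 321220512),Int.ofNat (nat_lit 141041985),Int.negSucc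 (nat_lit 660760206),Int.negSucc (nat_lit 109694842),Int.negSucc (nat_lit 435782309),Int.negSucc (nat_lit 356861355),Int.ofNat (nat_lit 244278253),Int.negSucc (nat_lit 29429129),Int.negSucc (nat_lit 24316),Int.ofNat (nat_lit 2064362375),Int.ofNat (nat_lit 240070795),Int.negSucc (nat_lit 459520549),Int.ofNat (nat_lit 419862434),Int.negSucc (nat_lit 93606660),Int.ofNat (nat_lit 497856738),Int.ofNat (nat_lit 990462063)])

/-- A row. -/
noncomputable def sr6_c0_41 : List ℕ × List ℤ :=
  ([(nat_lit 1),(nat_lit 0),(nat_lit 1),(nat_lit 0),(nat_lit 1),(nat_lit 0),(nat_lit 0),(nat_lit 0),(nat_lit 0),(nat_lit 0),(nat_lit 0),(nat_lit 0)], [Int.ofNat (nat_lit 1451844245),Int.ofNat (nat_lit 169479495),Int.ofNat (nat_lit 401700125),Int.ofNat (nat_lit 940457451),Int.negSucc (nat_lit 1165893174),Int.negSucc (nat_lit 1045625220),Int.negSucc (nat_lit 372272794),Int.negSucc (nat_lit 32234018),Int.ofNat (nat_lit 113269880),Int.ofNat (nat_lit 176852452),Int.ofNat (nat_lit 670879267),Int.ofNat (nat_lit 59209005),Int.negSucc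 (nat_lit 529244517),Int.ofNat (nat_lit 167488930),Int.ofNat (nat_lit 206355703),Int.ofNat (nat_lit 109727024),Int.negSucc (nat_lit 171077342),Int.ofNat (nat_lit 50640430),Int.negSucc (nat_lit 7133774),Int.negSucc (nat_lit 60222285),Int.ofNat (nat_lit 69777850),Int.negSucc (nat_lit 94548616),Int.ofNat (nat_lit 10017187),Int.negSucc (nat_lit 94265951),Int.negSucc (nat_lit 55115303),Int.negSucc (nat_lit 97226356),Int.negSucc (nat_lit 81309773),Int.ofNat (nat_lit 86411532),Int.negSucc (nat_lit 72520599),Int.ofNat (nat_lit 96461219),Int.negSucc (nat_lit 6993848),Int.negSucc (nat_lit 94369737),Int.ofNat (nat_lit 66777456),Int.negSucc (nat_lit 16957960),Int.negSucc (nat_lit 207095389),Int.negSucc (nat_lit 95919585),Int.ofNat (nat_lit 266795961),Int.ofNat (nat_lit 140671874),Int.ofNat (nat_lit 294178874),Int.negSucc (nat_lit 85832402),Int.negSucc (nat_lit 143163209),Int.ofNat (nat_lit 320324989)])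

/-- A row. -/
noncomputable def sr6_c0_42 : List ℕ × List ℤ :=
  ([(nat_lit 1),(nat_lit 0),(nat_lit 2),(nat_lit 0),(nat_lit 0),(nat_lit 0),(nat_lit 0),(nat_lit 0),(nat_lit 0),(nat_lit 0),(nat_lit 0),(nat_lit 0)], [Int.negSucc (nat_lit 2093573157),Int.ofNat (nat_lit 3213210182),Int.negSucc (nat_lit 869217511),Int.negSucc (nat_lit 123651179),Int.ofNat (nat_lit 1778054638),Int.negSucc (nat_lit 2602057978),Int.negSucc (nat_lit 420699345),Int.negSucc (nat_lit 923306732),Int.ofNat (nat_lit 366072221),Int.negSucc (nat_lit 1440369690),Int.negSucc (nat_lit 1284054955),Int.ofNat (nat_lit 568430189),Int.negSucc (nat_lit 791858444),Int.negSucc (nat_lit 558914509),Int.negSucc (nat_lit 71454506),Int.ofNat (nat_lit 357152395),Int.negSucc (nat_lit 204424451),Int.ofNat (nat_lit 296532020),Int.negSucc (nat_lit 52865146),Int.negSucc (nat_lit 178584534),Int.ofNat (nat_lit 144647494),Int.ofNat (nat_lit 103524900),Int.ofNat (nat_lit 62680135),Int.negSucc (nat_lit 138846400),Int.negSucc (nat_lit 23434187),Int.ofNat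 (nat_lit 45038447),Int.negSucc (nat_lit 66384143),Int.negSucc (nat_lit 451586705),Int.negSucc (nat_lit 199626216),Int.negSucc (nat_lit 269257531),Int.negSucc (nat_lit 122889226),Int.ofNat (nat_lit 108190817),Int.negSucc (nat_lit 32430358),Int.ofNat (nat_lit 60977987),Int.ofNat (nat_lit 486204301),Int.ofNat (nat_lit 245122847),Int.negSucc (nat_lit 401495203),Int.ofNat (nat_lit 458210962),Int.negSucc (nat_lit 132710797),Int.ofNat (nat_lit 489025987),Int.ofNat (nat_lit 941659210),Int.negSucc (nat_lit 65654835),Int.ofNat (nat_lit 325180175)])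

/-- A row. -/
noncomputable def sr6_c0_43 : List ℕ × List ℤ :=
  ([(nat_lit 1),(nat_lit 1),(nat_lit 0),(nat_lit 0),(nat_lit 0),(nat_lit 0),(nat_lit 0),(nat_lit 1),(nat_lit 0),(nat_lit 0),(nat_lit 0),(nat_lit 0)], [Int.ofNat (nat_lit 64027798),Int.negSucc (nat_lit 1353726419),Int.ofNat (nat_lit 1331406981),Int.ofNat (nat_lit 153563569),Int.negSucc (nat_lit 165062855),Int.ofNat (nat_lit 211007693),Int.negSucc (nat_lit 115459563),Int.negSucc (nat_lit 770135509),Int.negSucc (nat_lit 123252695),Int.negSucc (nat_lit 77690168),Int.negSucc (nat_lit 184752829),Int.negSucc (nat_lit 183213217),Int.negSucc (nat_lit 99117079),Int.negSucc (nat_lit 366704990),Int.negSucc (nat_lit 12705097),Int.ofNat (nat_lit 146306240),Int.negSucc (nat_lit 508654212),Int.negSucc (nat_lit 1323707379),Int.ofNat (nat_lit 65846496),Int.negSucc (nat_lit 109692383),Int.negSucc (nat_lit 32011105),Int.ofNat (nat_lit 38380083),Int.ofNat (nat_lit 50045119),Int.negSucc (nat_lit 78199415),Int.negSucc (nat_lit 114463231),Int.negSucc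 (nat_lit 193282797),Int.ofNat (nat_lit 122104298),Int.negSucc (nat_lit 8383863),Int.negSucc (nat_lit 45278632),Int.negSucc (nat_lit 32605712),Int.negSucc (nat_lit 76522482),Int.negSucc (nat_lit 56919436),Int.ofNat (nat_lit 104629366),Int.ofNat (nat_lit 19516746),Int.negSucc (nat_lit 106815343),Int.ofNat (nat_lit 189336517),Int.negSucc (nat_lit 50871241),Int.ofNat (nat_lit 1150268),Int.ofNat (nat_lit 288646889),Int.negSucc (nat_lit 26307767),Int.ofNat (nat_lit 12720509),Int.ofNat (nat_lit 78931417),Int.ofNat (nat_lit 4415427),Int.ofNat (nat_lit 446116037)])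

/-- A row. -/
noncomputable def sr6_c0_44 : List ℕ × List ℤ :=
  ([(nat_lit 1),(nat_lit 1),(nat_lit 0),(nat_lit 0),(nat_lit 0),(nat_lit 1),(nat_lit 0),(nat_lit 0),(nat_lit 0),(nat_lit 0),(nat_lit 0),(nat_lit 0)], [Int.negSucc (nat_lit 197753589),Int.ofNat (nat_lit 1200390941),Int.negSucc (nat_lit 2093011829),Int.negSucc (nat_lit 2119037729),Int.ofNat (nat_lit 758818481),Int.ofNat (nat_lit 1776395969),Int.ofNat (nat_lit 949188149),Int.negSucc (nat_lit 967246104),Int.ofNat (nat_lit 378123670),Int.negSucc (nat_lit 1053558021),Int.negSucc (nat_lit 484007330),Int.negSucc (nat_lit 290510788),Int.ofNat (nat_lit 157912738),Int.negSucc (nat_lit 84574277),Int.negSucc (nat_lit 229421079),Int.negSucc (nat_lit 521825601),Int.negSucc (nat_lit 63186425),Int.negSucc (nat_lit 377094196),Int.negSucc (nat_lit 4021800560),Int.ofNat (nat_lit 643436290),Int.negSucc (nat_lit 1138689987),Int.ofNat (nat_lit 1198955337),Int.ofNat (nat_lit 52859363),Int.ofNat (nat_lit 28832360),Int.negSucc (nat_lit 37856558),Int.ofNat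 (nat_lit 544507517),Int.ofNat (nat_lit 362169319),Int.negSucc (nat_lit 505161666),Int.ofNat (nat_lit 378900430),Int.negSucc (nat_lit 1269864987),Int.negSucc (nat_lit 486324369),Int.ofNat (nat_lit 440826125),Int.negSucc (nat_lit 193588819),Int.negSucc (nat_lit 118493024),Int.ofNat (nat_lit 1128309690),Int.ofNat (nat_lit 985013231),Int.negSucc (nat_lit 186398313),Int.negSucc (nat_lit 127222746),Int.negSucc (nat_lit 1345424539),Int.ofNat (nat_lit 9052056),Int.negSucc (nat_lit 58323652),Int.negSucc (nat_lit 451787686),Int.negSucc (nat_lit 137194264),Int.negSucc (nat_lit 195243912),Int.ofNat (nat_lit 1517047531)])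

/-- A row. -/
noncomputable def sr6_c0_45 : List ℕ × List ℤ :=
  ([(nat_lit 1),(nat_lit 1),(nat_lit 0),(nat_lit 1),(nat_lit 0),(nat_lit 0),(nat_lit 0),(nat_lit 0),(nat_lit 0),(nat_lit 0),(nat_lit 0),(nat_lit 0)], [Int.ofNat (nat_lit 717435273),Int.ofNat (nat_lit 6502852757),Int.ofNat (nat_lit 2274068327),Int.ofNat (nat_lit 4037875287),Int.negSucc (nat_lit 4834928421),Int.negSucc (nat_lit 327230914),Int.negSucc (nat_lit 89049026),Int.negSucc (nat_lit 873158344),Int.negSucc (nat_lit 298964708),Int.ofNat (nat_lit 4806288450),Int.ofNat (nat_lit 1152499312),Int.ofNat (nat_lit 1051392808),Int.negSucc (nat_lit 96602255),Int.negSucc (nat_lit 1101163811),Int.ofNat (nat_lit 1497611603),Int.ofNat (nat_lit 554589611),Int.negSucc (nat_lit 1384505595),Int.ofNat (nat_lit 1196880194),Int.ofNat (nat_lit 2376992805),Int.negSucc (nat_lit 6914866200),Int.negSucc (nat_lit 521268312),Int.negSucc (nat_lit 752467146),Int.ofNat (nat_lit 910023726),Int.negSucc (nat_lit 963364411),Int.ofNat (nat_lit 117745911),Int.negSucc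 (nat_lit 170196372),Int.negSucc (nat_lit 776883920),Int.ofNat (nat_lit 884543066),Int.negSucc (nat_lit 857765468),Int.ofNat (nat_lit 778490887),Int.ofNat (nat_lit 289634774),Int.negSucc (nat_lit 24509701),Int.ofNat (nat_lit 292693636),Int.negSucc (nat_lit 209309622),Int.negSucc (nat_lit 390356202),Int.negSucc (nat_lit 949213401),Int.ofNat (nat_lit 1079126268),Int.ofNat (nat_lit 19256897),Int.ofNat (nat_lit 1760589832),Int.negSucc (nat_lit 2215838991),Int.negSucc (nat_lit 252465156),Int.ofNat (nat_lit 510363172),Int.ofNat (nat_lit 128505813),Int.negSucc (nat_lit 121628477),Int.negSucc (nat_lit 846404908),Int.ofNat (nat_lit 2465474730)])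

/-- A row. -/
noncomputable def sr6_c0_46 : List ℕ × List ℤ :=
  ([(nat_lit 1),(nat_lit 1),(nat_lit 1),(nat_lit 1),(nat_lit 0),(nat_lit 0),(nat_lit 0),(nat_lit 0),(nat_lit 0),(nat_lit 0),(nat_lit 0),(nat_lit 0)], [Int.negSucc (nat_lit 102224224),Int.ofNat (nat_lit 2518061322),Int.negSucc (nat_lit 233225773),Int.negSucc (nat_lit 229632572),Int.negSucc (nat_lit 640012217),Int.negSucc (nat_lit 1158474152),Int.negSucc (nat_lit 637664348),Int.ofNat (nat_lit 397102760),Int.negSucc (nat_lit 835250745),Int.negSucc (nat_lit 76136853),Int.ofNat (nat_lit 646751968),Int.negSucc (nat_lit 152289299),Int.ofNat (nat_lit 241378675),Int.negSucc (nat_lit 101656371),Int.ofNat (nat_lit 421370830),Int.ofNat (nat_lit 327637016),Int.negSucc (nat_lit 63444585),Int.ofNat (nat_lit 437805378),Int.ofNat (nat_lit 364121632),Int.negSucc (nat_lit 3824362400),Int.negSucc (nat_lit 1240082331),Int.negSucc (nat_lit 335943783),Int.negSucc (nat_lit 2390958061),Int.negSucc (nat_lit 478434376),Int.ofNat (nat_lit 206393147),Int.negSucc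 (nat_lit 347167000),Int.negSucc (nat_lit 469309409),Int.negSucc (nat_lit 349984744),Int.negSucc (nat_lit 126094906),Int.ofNat (nat_lit 176353567),Int.negSucc (nat_lit 50486013),Int.negSucc (nat_lit 85246229),Int.ofNat (nat_lit 270225405),Int.negSucc (nat_lit 177065115),Int.negSucc (nat_lit 309623580),Int.ofNat (nat_lit 144786801),Int.ofNat (nat_lit 66537389),Int.negSucc (nat_lit 38175968),Int.ofNat (nat_lit 398084607),Int.ofNat (nat_lit 168364081),Int.negSucc (nat_lit 405457103),Int.ofNat (nat_lit 342679245),Int.negSucc (nat_lit 84072135),Int.negSucc (nat_lit 43623034),Int.negSucc (nat_lit 36188855),Int.ofNat (nat_lit 594472376),Int.ofNat (nat_lit 1405507248)])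

/-- A row. -/
noncomputable def sr6_c0_47 : List ℕ × List ℤ :=
  ([(nat_lit 1),(nat_lit 2),(nat_lit 0),(nat_lit 0),(nat_lit 0),(nat_lit 0),(nat_lit 0),(nat_lit 0),(nat_lit 0),(nat_lit 0),(nat_lit 0),(nat_lit 0)], [Int.ofNat (nat_lit 2239517475),Int.ofNat (nat_lit 244816016),Int.ofNat (nat_lit 969676699),Int.negSucc (nat_lit 2091755484),Int.ofNat (nat_lit 1884217249),Int.negSucc (nat_lit 176100961),Int.negSucc (nat_lit 865030958),Int.ofNat (nat_lit 1754464789),Int.ofNat (nat_lit 48355270),Int.negSucc (nat_lit 811731978),Int.negSucc (nat_lit 2651333191),Int.ofNat (nat_lit 362019742),Int.ofNat (nat_lit 772696649),Int.ofNat (nat_lit 53728232),Int.negSucc (nat_lit 448600541),Int.ofNat (nat_lit 332272324),Int.negSucc (nat_lit 688739598),Int.ofNat (nat_lit 379153899),Int.negSucc (nat_lit 2410901396),Int.ofNat (nat_lit 547641573),Int.ofNat (nat_lit 591186659),Int.ofNat (nat_lit 685219398),Int.negSucc (nat_lit 1060559398),Int.negSucc (nat_lit 6842475698),Int.ofNat (nat_lit 1151085587),Int.negSucc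 (nat_lit 107534702),Int.negSucc (nat_lit 1551533189),Int.ofNat (nat_lit 1160421386),Int.ofNat (nat_lit 577916891),Int.negSucc (nat_lit 956214683),Int.negSucc (nat_lit 201094163),Int.negSucc (nat_lit 2199667395),Int.negSucc (nat_lit 785981370),Int.ofNat (nat_lit 577916195),Int.negSucc (nat_lit 2493259625),Int.ofNat (nat_lit 1025912541),Int.negSucc (nat_lit 611677578),Int.negSucc (nat_lit 1300379774),Int.negSucc (nat_lit 1556350619),Int.ofNat (nat_lit 2811288665),Int.ofNat (nat_lit 1854815760),Int.negSucc (nat_lit 535505231),Int.ofNat (nat_lit 325130916),Int.ofNat (nat_lit 131850016),Int.ofNat (nat_lit 1643628109),Int.negSucc (nat_lit 2102849994),Int.ofNat (nat_lit 66954036),Int.ofNat (nat_lit 4969859717)])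

/-- A row. -/
noncomputable def sr6_c0_48 : List ℕ × List ℤ :=
  ([(nat_lit 1),(nat_lit 2),(nat_lit 0),(nat_lit 0),(nat_lit 1),(nat_lit 0),(nat_lit 0),(nat_lit 0),(nat_lit 0),(nat_lit 0),(nat_lit 0),(nat_lit 0)], [Int.negSucc (nat_lit 1123138829),Int.negSucc (nat_lit 40483572),Int.negSucc (nat_lit 3356753198),Int.negSucc (nat_lit 981440156),Int.negSucc (nat_lit 916187480),Int.ofNat (nat_lit 735928932),Int.ofNat (nat_lit 1948407994),Int.negSucc (nat_lit 1027430510),Int.ofNat (nat_lit 56049548),Int.negSucc (nat_lit 982400123),Int.negSucc (nat_lit 429382335),Int.negSucc (nat_lit 180236453),Int.negSucc (nat_lit 1162844091),Int.ofNat (nat_lit 855244428),Int.ofNat (nat_lit 327840766),Int.negSucc (nat_lit 71803688),Int.negSucc (nat_lit 45962313),Int.negSucc (nat_lit 265614921),Int.ofNat (nat_lit 425107046),Int.ofNat (nat_lit 1854846844),Int.negSucc (nat_lit 2221187918),Int.negSucc (nat_lit 344642834),Int.ofNat (nat_lit 293215181),Int.ofNat (nat_lit 1967196125),Int.negSucc (nat_lit 995899612),Int.negSucc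 (nat_lit 3765169606),Int.ofNat (nat_lit 1173673222),Int.negSucc (nat_lit 248917708),Int.ofNat (nat_lit 527228700),Int.negSucc (nat_lit 616043192),Int.negSucc (nat_lit 537621916),Int.ofNat (nat_lit 575451889),Int.ofNat (nat_lit 277788271),Int.ofNat (nat_lit 220282667),Int.ofNat (nat_lit 854250878),Int.ofNat (nat_lit 648568073),Int.negSucc (nat_lit 166827949),Int.ofNat (nat_lit 228500213),Int.negSucc (nat_lit 922626554),Int.negSucc (nat_lit 201751769),Int.ofNat (nat_lit 219011223),Int.negSucc (nat_lit 599951371),Int.negSucc (nat_lit 149307908),Int.ofNat (nat_lit 62977696),Int.ofNat (nat_lit 587426120),Int.negSucc (nat_lit 418760519),Int.negSucc (nat_lit 338825791),Int.negSucc (nat_lit 685022201),Int.ofNat (nat_lit 1912728144)])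

/-- A row. -/
noncomputable def sr6_c0_49 : List ℕ × List ℤ :=
  ([(nat_lit 1),(nat_lit 2),(nat_lit 1),(nat_lit 0),(nat_lit 0),(nat_lit 0),(nat_lit 0),(nat_lit 0),(nat_lit 0),(nat_lit 0),(nat_lit 0),(nat_lit 0)], [Int.ofNat (nat_lit 2871492367),Int.ofNat (nat_lit 1035045409),Int.ofNat (nat_lit 2293135064),Int.ofNat (nat_lit 186709410),Int.negSucc (nat_lit 2487232093),Int.ofNat (nat_lit 1006222674),Int.negSucc (nat_lit 111957057),Int.negSucc (nat_lit 1709169688),Int.ofNat (nat_lit 1016624005),Int.negSucc (nat_lit 111739436),Int.negSucc (nat_lit 810993094),Int.negSucc (nat_lit 6655987),Int.negSucc (nat_lit 779533630),Int.ofNat (nat_lit 85983886),Int.negSucc (nat_lit 1678499602),Int.ofNat (nat_lit 1599585856),Int.ofNat (nat_lit 290983769),Int.ofNat (nat_lit 1169560425),Int.negSucc (nat_lit 897443275),Int.negSucc (nat_lit 1105611221),Int.ofNat (nat_lit 740000970),Int.ofNat (nat_lit 780904906),Int.negSucc (nat_lit 632993536),Int.negSucc (nat_lit 4149667064),Int.ofNat (nat_lit 1444080968),Int.negSucc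 (nat_lit 964061486),Int.negSucc (nat_lit 1152528154),Int.negSucc (nat_lit 1049353849),Int.ofNat (nat_lit 1813180078),Int.negSucc (nat_lit 348945819),Int.ofNat (nat_lit 555942096),Int.negSucc (nat_lit 1169020747),Int.negSucc (nat_lit 1804385880),Int.ofNat (nat_lit 244926404),Int.negSucc (nat_lit 1740343567),Int.negSucc (nat_lit 291282851),Int.ofNat (nat_lit 102072042),Int.negSucc (nat_lit 595464883),Int.negSucc (nat_lit 743492011),Int.ofNat (nat_lit 263102540),Int.ofNat (nat_lit 1443663497),Int.negSucc (nat_lit 831984439),Int.ofNat (nat_lit 1352056869),Int.negSucc (nat_lit 124015820),Int.ofNat (nat_lit 669810335),Int.ofNat (nat_lit 14088362),Int.negSucc (nat_lit 1900110172),Int.ofNat (nat_lit 4686639402),Int.negSucc (nat_lit 241126979),Int.ofNat (nat_lit 3149485973)])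

/-- A row. -/
noncomputable def sr6_c0_50 : List ℕ × List ℤ :=
  ([(nat_lit 1),(nat_lit 3),(nat_lit 0),(nat_lit 1),(nat_lit 0),(nat_lit 0),(nat_lit 0),(nat_lit 0),(nat_lit 0),(nat_lit 0),(nat_lit 0),(nat_lit 0)], [Int.negSucc (nat_lit 3977485759),Int.negSucc (nat_lit 2254874131),Int.negSucc (nat_lit 1927536507),Int.negSucc (nat_lit 2996967626),Int.ofNat (nat_lit 2782688525),Int.ofNat (nat_lit 139816445),Int.negSucc (nat_lit 2009353023),Int.negSucc (nat_lit 61438801),Int.ofNat (nat_lit 1808005523),Int.negSucc (nat_lit 3317113244),Int.negSucc (nat_lit 654931051),Int.negSucc (nat_lit 24324810),Int.negSucc (nat_lit 281918170),Int.ofNat (nat_lit 132920566),Int.negSucc (nat_lit 862367580),Int.negSucc (nat_lit 459484539),Int.ofNat (nat_lit 900750877),Int.negSucc (nat_lit 1731646687),Int.ofNat (nat_lit 356771898),Int.ofNat (nat_lit 3981202097),Int.ofNat (nat_lit 147978348),Int.negSucc (nat_lit 474603899),Int.negSucc (nat_lit 2955728964),Int.ofNat (nat_lit 394781115),Int.negSucc (nat_lit 1315099278),Int.negSucc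 (nat_lit 540698670),Int.negSucc (nat_lit 2526139546),Int.negSucc (nat_lit 573741926),Int.ofNat (nat_lit 430548493),Int.negSucc (nat_lit 930588295),Int.negSucc (nat_lit 5680424764),Int.negSucc (nat_lit 895657823),Int.ofNat (nat_lit 627300276),Int.ofNat (nat_lit 846238721),Int.ofNat (nat_lit 416836263),Int.ofNat (nat_lit 103301287),Int.negSucc (nat_lit 872404080),Int.negSucc (nat_lit 302420595),Int.negSucc (nat_lit 1786295208),Int.ofNat (nat_lit 392282835),Int.negSucc (nat_lit 228614433),Int.ofNat (nat_lit 325601254),Int.negSucc (nat_lit 199328093),Int.ofNat (nat_lit 606035226),Int.ofNat (nat_lit 7857189),Int.negSucc (nat_lit 1009731704),Int.ofNat (nat_lit 709635082),Int.negSucc (nat_lit 1080593224),Int.ofNat (nat_lit 975037852),Int.negSucc (nat_lit 147450634),Int.ofNat (nat_lit 3673775014)])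

/-- A row. -/
noncomputable def sr6_c0_51 : List ℕ × List ℤ :=
  ([(nat_lit 1),(nat_lit 4),(nat_lit 0),(nat_lit 0),(nat_lit 0),(nat_lit 0),(nat_lit 0),(nat_lit 0),(nat_lit 0),(nat_lit 0),(nat_lit 0),(nat_lit 0)], [Int.ofNat (nat_lit 421579776),Int.negSucc (nat_lit 396765448),Int.negSucc (nat_lit 747506516),Int.ofNat (nat_lit 1922204213),Int.negSucc (nat_lit 2900655553),Int.ofNat (nat_lit 736767777),Int.ofNat (nat_lit 274689242),Int.negSucc (nat_lit 1767657723),Int.negSucc (nat_lit 824367373),Int.ofNat (nat_lit 871097194),Int.ofNat (nat_lit 1674421468),Int.negSucc (nat_lit 1407976784),Int.negSucc (nat_lit 673890713),Int.negSucc (nat_lit 60285245),Int.negSucc (nat_lit 1045684508),Int.ofNat (nat_lit 637349975),Int.ofNat (nat_lit 1453557052),Int.ofNat (nat_lit 297192493),Int.ofNat (nat_lit 149705818),Int.negSucc (nat_lit 1275132127),Int.negSucc (nat_lit 117372409),Int.ofNat (nat_lit 607018088),Int.ofNat (nat_lit 673755078),Int.ofNat (nat_lit 3901265893),Int.ofNat (nat_lit 642614750),Int.ofNat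 (nat_lit 578009613),Int.ofNat (nat_lit 1262625507),Int.negSucc (nat_lit 2570035696),Int.ofNat (nat_lit 847781786),Int.ofNat (nat_lit 1406459238),Int.ofNat (nat_lit 1470290064),Int.ofNat (nat_lit 388767116),Int.negSucc (nat_lit 619667421),Int.negSucc (nat_lit 999327551),Int.ofNat (nat_lit 1053063678),Int.negSucc (nat_lit 1259581862),Int.ofNat (nat_lit 260109982),Int.ofNat (nat_lit 668093130),Int.ofNat (nat_lit 995559831),Int.negSucc (nat_lit 2212499802),Int.negSucc (nat_lit 866761848),Int.negSucc (nat_lit 353614892),Int.ofNat (nat_lit 512912418),Int.negSucc (nat_lit 794601395),Int.negSucc (nat_lit 662300159),Int.ofNat (nat_lit 1974289891),Int.negSucc (nat_lit 1464493190),Int.negSucc (nat_lit 2308033508),Int.negSucc (nat_lit 1184751320),Int.ofNat (nat_lit 3083779141),Int.negSucc (nat_lit 1802003128),Int.ofNat (nat_lit 4038022378)])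

/-- A row. -/
noncomputable def sr6_c0_52 : List ℕ × List ℤ :=
  ([(nat_lit 2),(nat_lit 0),(nat_lit 0),(nat_lit 0),(nat_lit 0),(nat_lit 0),(nat_lit 0),(nat_lit 0),(nat_lit 0),(nat_lit 0),(nat_lit 0),(nat_lit 0)], [Int.ofNat (nat_lit 5632003274),Int.negSucc (nat_lit 1397883518),Int.ofNat (nat_lit 1720038943),Int.negSucc (nat_lit 1287899432),Int.negSucc (nat_lit 2309575137),Int.ofNat (nat_lit 2472429953),Int.ofNat (nat_lit 976804418),Int.negSucc (nat_lit 585259110),Int.negSucc (nat_lit 758096989),Int.negSucc (nat_lit 35874075),Int.negSucc (nat_lit 551368528),Int.negSucc (nat_lit 1576140969),Int.negSucc (nat_lit 115220212),Int.ofNat (nat_lit 194805770),Int.negSucc (nat_lit 1660250734),Int.ofNat (nat_lit 817981233),Int.negSucc (nat_lit 485895943),Int.negSucc (nat_lit 397430042),Int.negSucc (nat_lit 163330331),Int.negSucc (nat_lit 162944292),Int.negSucc (nat_lit 899647970),Int.negSucc (nat_lit 108792482),Int.negSucc (nat_lit 352275453),Int.ofNat (nat_lit 1071574230),Int.ofNat (nat_lit 291385961),Int.ofNat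 (nat_lit 507531410),Int.negSucc (nat_lit 326296741),Int.ofNat (nat_lit 624763821),Int.ofNat (nat_lit 72941037),Int.ofNat (nat_lit 454938373),Int.ofNat (nat_lit 482923479),Int.ofNat (nat_lit 22869067),Int.negSucc (nat_lit 251943312),Int.ofNat (nat_lit 252731981),Int.negSucc (nat_lit 3742543252),Int.negSucc (nat_lit 699345405),Int.ofNat (nat_lit 687151178),Int.ofNat (nat_lit 338127967),Int.negSucc (nat_lit 1443989508),Int.negSucc (nat_lit 850309766),Int.ofNat (nat_lit 511618122),Int.negSucc (nat_lit 1160920091),Int.negSucc (nat_lit 171563499),Int.negSucc (nat_lit 1103823159),Int.ofNat (nat_lit 485289444),Int.negSucc (nat_lit 50717373),Int.negSucc (nat_lit 139270646),Int.negSucc (nat_lit 412509194),Int.ofNat (nat_lit 202729855),Int.ofNat (nat_lit 201834636),Int.negSucc (nat_lit 29695926),Int.negSucc (nat_lit 121498707),Int.ofNat (nat_lit 1945578584)])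

/-- A row. -/
noncomputable def sr6_c0_53 : List ℕ × List ℤ :=
  ([(nat_lit 2),(nat_lit 0),(nat_lit 0),(nat_lit 0),(nat_lit 0),(nat_lit 0),(nat_lit 1),(nat_lit 0),(nat_lit 0),(nat_lit 0),(nat_lit 0),(nat_lit 0)], [Int.ofNat (nat_lit 1763777644),Int.ofNat (nat_lit 732700092),Int.ofNat (nat_lit 463534200),Int.ofNat (nat_lit 230689371),Int.ofNat (nat_lit 1003070799),Int.negSucc (nat_lit 138536439),Int.ofNat (nat_lit 405571843),Int.ofNat (nat_lit 114881949),Int.negSucc (nat_lit 797424216),Int.ofNat (nat_lit 177721552),Int.negSucc (nat_lit 414105624),Int.negSucc (nat_lit 1117219386),Int.negSucc (nat_lit 184998748),Int.negSucc (nat_lit 12133532),Int.negSucc (nat_lit 146976390),Int.ofNat (nat_lit 33869074),Int.ofNat (nat_lit 79511066),Int.ofNat (nat_lit 48299901),Int.negSucc (nat_lit 44828921),Int.negSucc (nat_lit 3651010),Int.negSucc (nat_lit 341260073),Int.ofNat (nat_lit 357715816),Int.negSucc (nat_lit 170492591),Int.ofNat (nat_lit 316045384),Int.ofNat (nat_lit 65772493),Int.ofNat (nat_lit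 39550782),Int.ofNat (nat_lit 3875210),Int.ofNat (nat_lit 8537150),Int.ofNat (nat_lit 136829101),Int.ofNat (nat_lit 146425692),Int.ofNat (nat_lit 281853240),Int.ofNat (nat_lit 164256696),Int.negSucc (nat_lit 162694307),Int.ofNat (nat_lit 55640908),Int.negSucc (nat_lit 266289594),Int.negSucc (nat_lit 385379551),Int.negSucc (nat_lit 871328946),Int.negSucc (nat_lit 5781436),Int.negSucc (nat_lit 97986280),Int.negSucc (nat_lit 38594038),Int.ofNat (nat_lit 12445720),Int.negSucc (nat_lit 71373599),Int.negSucc (nat_lit 5581003),Int.negSucc (nat_lit 181866737),Int.ofNat (nat_lit 43134532),Int.ofNat (nat_lit 19133665),Int.ofNat (nat_lit 40316280),Int.ofNat (nat_lit 5235119),Int.ofNat (nat_lit 18180787),Int.negSucc (nat_lit 15266370),Int.negSucc (nat_lit 39651708),Int.ofNat (nat_lit 6109421),Int.ofNat (nat_lit 44159702),Int.ofNat (nat_lit 195104284)])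

/-- A row. -/
noncomputable def sr6_c0_54 : List ℕ × List ℤ :=
  ([(nat_lit 2),(nat_lit 0),(nat_lit 0),(nat_lit 0),(nat_lit 1),(nat_lit 0),(nat_lit 0),(nat_lit 0),(nat_lit 0),(nat_lit 0),(nat_lit 0),(nat_lit 0)], [Int.negSucc (nat_lit 1534996420),Int.ofNat (nat_lit 1363441691),Int.negSucc (nat_lit 466131045),Int.ofNat (nat_lit 747903349),Int.negSucc (nat_lit 31247679),Int.ofNat (nat_lit 1010423243),Int.negSucc (nat_lit 167516281),Int.ofNat (nat_lit 61753160),Int.negSucc (nat_lit 199249213),Int.ofNat (nat_lit 841894809),Int.ofNat (nat_lit 345048323),Int.ofNat (nat_lit 210952703),Int.negSucc (nat_lit 317797025),Int.negSucc (nat_lit 185711915),Int.ofNat (nat_lit 571266288),Int.negSucc (nat_lit 434740502),Int.ofNat (nat_lit 532272972),Int.ofNat (nat_lit 228015571),Int.ofNat (nat_lit 350862905),Int.ofNat (nat_lit 16171268),Int.ofNat (nat_lit 597951360),Int.ofNat (nat_lit 268198330),Int.negSucc (nat_lit 66666915),Int.negSucc (nat_lit 314323051),Int.negSucc (nat_lit 203984593),Int.negSucc (nat_lit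 577588536),Int.ofNat (nat_lit 219620166),Int.negSucc (nat_lit 158686672),Int.ofNat (nat_lit 281860702),Int.negSucc (nat_lit 175376202),Int.negSucc (nat_lit 162441359),Int.negSucc (nat_lit 216527795),Int.ofNat (nat_lit 2144029),Int.negSucc (nat_lit 121102247),Int.ofNat (nat_lit 1153975085),Int.ofNat (nat_lit 1133274233),Int.negSucc (nat_lit 430370773),Int.negSucc (nat_lit 2335179988),Int.ofNat (nat_lit 908589218),Int.ofNat (nat_lit 202628053),Int.negSucc (nat_lit 250065996),Int.ofNat (nat_lit 870880735),Int.ofNat (nat_lit 136706111),Int.ofNat (nat_lit 530860919),Int.negSucc (nat_lit 80118424),Int.negSucc (nat_lit 18006781),Int.ofNat (nat_lit 64483864),Int.ofNat (nat_lit 19881433),Int.negSucc (nat_lit 260330530),Int.ofNat (nat_lit 78388322),Int.ofNat (nat_lit 103306103),Int.negSucc (nat_lit 64001164),Int.negSucc (nat_lit 287245004),Int.negSucc (nat_lit 295405017),Int.ofNat (nat_lit 585991005)])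

/-- A row. -/
noncomputable def sr6_c0_55 : List ℕ × List ℤ :=
  ([(nat_lit 2),(nat_lit 0),(nat_lit 0),(nat_lit 2),(nat_lit 0),(nat_lit 0),(nat_lit 0),(nat_lit 0),(nat_lit 0),(nat_lit 0),(nat_lit 0),(nat_lit 0)], [Int.negSucc (nat_lit 347046201),Int.ofNat (nat_lit 469031049),Int.ofNat (nat_lit 852855496),Int.ofNat (nat_lit 2328118662),Int.negSucc (nat_lit 2168582253),Int.ofNat (nat_lit 1460333645),Int.negSucc (nat_lit 484069454),Int.negSucc (nat_lit 1065377417),Int.ofNat (nat_lit 769018750),Int.ofNat (nat_lit 2861865883),Int.ofNat (nat_lit 354645637),Int.ofNat (nat_lit 693611456),Int.negSucc (nat_lit 203604057),Int.negSucc (nat_lit 1215409684),Int.ofNat (nat_lit 699120078),Int.negSucc (nat_lit 219030604),Int.negSucc (nat_lit 381512510),Int.ofNat (nat_lit 372443),Int.ofNat (nat_lit 201101813),Int.ofNat (nat_lit 59199717),Int.ofNat (nat_lit 377132841),Int.ofNat (nat_lit 93472423),Int.negSucc (nat_lit 67014414),Int.negSucc (nat_lit 589638584),Int.negSucc (nat_lit 314686229),Int.ofNat (nat_lit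 295174107),Int.ofNat (nat_lit 260874352),Int.ofNat (nat_lit 181435448),Int.negSucc (nat_lit 184761557),Int.ofNat (nat_lit 117248577),Int.negSucc (nat_lit 334637616),Int.ofNat (nat_lit 10715973),Int.ofNat (nat_lit 128089330),Int.ofNat (nat_lit 7115282),Int.ofNat (nat_lit 560676742),Int.ofNat (nat_lit 29755480),Int.ofNat (nat_lit 718262486),Int.ofNat (nat_lit 127789311),Int.ofNat (nat_lit 549488018),Int.negSucc (nat_lit 1459643538),Int.negSucc (nat_lit 22268441),Int.ofNat (nat_lit 136712106),Int.ofNat (nat_lit 24259547),Int.ofNat (nat_lit 273509622),Int.ofNat (nat_lit 124836081),Int.negSucc (nat_lit 32483009),Int.negSucc (nat_lit 48966937),Int.ofNat (nat_lit 11130710),Int.negSucc (nat_lit 104187541),Int.ofNat (nat_lit 75102835),Int.ofNat (nat_lit 23018959),Int.negSucc (nat_lit 73420790),Int.negSucc (nat_lit 26844536),Int.negSucc (nat_lit 203985312),Int.ofNat (nat_lit 138490878),Int.ofNat (nat_lit 453213128)])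

/-- A row. -/
noncomputable def sr6_c0_56 : List ℕ × List ℤ :=
  ([(nat_lit 2),(nat_lit 0),(nat_lit 1),(nat_lit 0),(nat_lit 0),(nat_lit 0),(nat_lit 0),(nat_lit 0),(nat_lit 0),(nat_lit 0),(nat_lit 0),(nat_lit 0)], [Int.ofNat (nat_lit 2608769353),Int.negSucc (nat_lit 5310420050),Int.ofNat (nat_lit 99582674),Int.ofNat (nat_lit 158100180),Int.negSucc (nat_lit 4790895014),Int.ofNat (nat_lit 5426844704),Int.ofNat (nat_lit 440275706),Int.ofNat (nat_lit 273885413),Int.negSucc (nat_lit 1647157977),Int.ofNat (nat_lit 1242247289),Int.negSucc (nat_lit 29856945),Int.negSucc (nat_lit 1423310342),Int.negSucc (nat_lit 379756556),Int.ofNat (nat_lit 747965127),Int.negSucc (nat_lit 1887004912),Int.ofNat (nat_lit 273021814),Int.ofNat (nat_lit 40149224),Int.negSucc (nat_lit 789809181),Int.negSucc (nat_lit 223897779),Int.ofNat (nat_lit 312984364),Int.negSucc (nat_lit 454840359),Int.negSucc (nat_lit 730780910),Int.negSucc (nat_lit 344915076),Int.ofNat (nat_lit 803925629),Int.ofNat (nat_lit 379291816),Int.ofNat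 (nat_lit 747263778),Int.ofNat (nat_lit 89468508),Int.ofNat (nat_lit 1105783622),Int.ofNat (nat_lit 305502797),Int.ofNat (nat_lit 776435464),Int.ofNat (nat_lit 485435029),Int.negSucc (nat_lit 19075659),Int.negSucc (nat_lit 294740729),Int.ofNat (nat_lit 72078249),Int.negSucc (nat_lit 3352983188),Int.negSucc (nat_lit 891081595),Int.ofNat (nat_lit 1641504856),Int.negSucc (nat_lit 985618127),Int.negSucc (nat_lit 1316326285),Int.negSucc (nat_lit 1923298638),Int.negSucc (nat_lit 1774475928),Int.negSucc (nat_lit 1464045415),Int.ofNat (nat_lit 479210043),Int.negSucc (nat_lit 1024596766),Int.ofNat (nat_lit 813048797),Int.negSucc (nat_lit 29321903),Int.negSucc (nat_lit 150534974),Int.negSucc (nat_lit 345210867),Int.ofNat (nat_lit 261352422),Int.negSucc (nat_lit 77182102),Int.negSucc (nat_lit 43504806),Int.negSucc (nat_lit 47461620),Int.ofNat (nat_lit 1968209881),Int.negSucc (nat_lit 84364395),Int.ofNat (nat_lit 79316100),Int.ofNat (nat_lit 232797023),Int.ofNat (nat_lit 717334974)])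

/-- A row. -/
noncomputable def sr6_c0_57 : List ℕ × List ℤ :=
  ([(nat_lit 2),(nat_lit 0),(nat_lit 2),(nat_lit 0),(nat_lit 0),(nat_lit 0),(nat_lit 0),(nat_lit 0),(nat_lit 0),(nat_lit 0),(nat_lit 0),(nat_lit 0)], [Int.negSucc (nat_lit 299182409),Int.negSucc (nat_lit 1613795554),Int.negSucc (nat_lit 720446742),Int.ofNat (nat_lit 282837291),Int.negSucc (nat_lit 1617551604),Int.ofNat (nat_lit 1761606656),Int.negSucc (nat_lit 419821276),Int.negSucc (nat_lit 23988150),Int.negSucc (nat_lit 644575398),Int.ofNat (nat_lit 859734247),Int.negSucc (nat_lit 59766826),Int.negSucc (nat_lit 229483390),Int.ofNat (nat_lit 43591199),Int.negSucc (nat_lit 69815222),Int.negSucc (nat_lit 879560720),Int.negSucc (nat_lit 705158227),Int.ofNat (nat_lit 231103036),Int.negSucc (nat_lit 213152014),Int.negSucc (nat_lit 18477775),Int.ofNat (nat_lit 107943606),Int.ofNat (nat_lit 191759448),Int.negSucc (nat_lit 411781654),Int.negSucc (nat_lit 10456076),Int.negSucc (nat_lit 140293112),Int.ofNat (nat_lit 102556274),Int.ofNat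 (nat_lit 64116012),Int.ofNat (nat_lit 258553405),Int.ofNat (nat_lit 233010190),Int.ofNat (nat_lit 132302403),Int.ofNat (nat_lit 171912405),Int.negSucc (nat_lit 69394526),Int.negSucc (nat_lit 50638864),Int.ofNat (nat_lit 117101016),Int.negSucc (nat_lit 69725911),Int.negSucc (nat_lit 284229510),Int.ofNat (nat_lit 87568676),Int.ofNat (nat_lit 360309580),Int.negSucc (nat_lit 625028611),Int.ofNat (nat_lit 211251802),Int.negSucc (nat_lit 615033665),Int.negSucc (nat_lit 1198884440),Int.negSucc (nat_lit 219835453),Int.negSucc (nat_lit 500785968),Int.ofNat (nat_lit 125163658),Int.ofNat (nat_lit 171578854),Int.ofNat (nat_lit 25956698),Int.ofNat (nat_lit 77469688),Int.negSucc (nat_lit 25835240),Int.ofNat (nat_lit 22936959),Int.negSucc (nat_lit 11340178),Int.negSucc (nat_lit 5918289),Int.negSucc (nat_lit 26628598),Int.ofNat (nat_lit 78972266),Int.negSucc (nat_lit 120222265),Int.ofNat (nat_lit 207548786),Int.ofNat (nat_lit 239139980),Int.ofNat (nat_lit 262840690),Int.ofNat (nat_lit 350755841)])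

/-- A row. -/
noncomputable def sr6_c0_58 : List ℕ × List ℤ :=
  ([(nat_lit 2),(nat_lit 1),(nat_lit 0),(nat_lit 0),(nat_lit 0),(nat_lit 1),(nat_lit 0),(nat_lit 0),(nat_lit 0),(nat_lit 0),(nat_lit 0),(nat_lit 0)], [Int.negSucc (nat_lit 645034061),Int.negSucc (nat_lit 1462552307),Int.ofNat (nat_lit 3743311265),Int.ofNat (nat_lit 1419501120),Int.ofNat (nat_lit 474221294),Int.negSucc (nat_lit 687111273),Int.negSucc (nat_lit 1060799795),Int.ofNat (nat_lit 1927727642),Int.ofNat (nat_lit 917765495),Int.ofNat (nat_lit 1006691855),Int.ofNat (nat_lit 552706863),Int.negSucc (nat_lit 1003128647),Int.negSucc (nat_lit 164922497),Int.ofNat (nat_lit 541371145),Int.negSucc (nat_lit 54081264),Int.ofNat (nat_lit 457097247),Int.ofNat (nat_lit 1606255741),Int.ofNat (nat_lit 245638616),Int.ofNat (nat_lit 2488660266),Int.negSucc (nat_lit 454898368),Int.ofNat (nat_lit 1069701288),Int.negSucc (nat_lit 1467828754),Int.negSucc (nat_lit 438958645),Int.ofNat (nat_lit 826709805),Int.ofNat (nat_lit 400961637),Int.negSucc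 (nat_lit 239097566),Int.negSucc (nat_lit 488153791),Int.ofNat (nat_lit 881273727),Int.negSucc (nat_lit 79586836),Int.ofNat (nat_lit 1583331780),Int.ofNat (nat_lit 1289131352),Int.negSucc (nat_lit 309281854),Int.negSucc (nat_lit 152261126),Int.ofNat (nat_lit 236655023),Int.negSucc (nat_lit 1436435967),Int.negSucc (nat_lit 2068687556),Int.negSucc (nat_lit 241405553),Int.negSucc (nat_lit 140707085),Int.ofNat (nat_lit 141538132),Int.ofNat (nat_lit 94423605),Int.ofNat (nat_lit 77798741),Int.ofNat (nat_lit 522686795),Int.ofNat (nat_lit 259616644),Int.negSucc (nat_lit 581707823),Int.negSucc (nat_lit 2437604744),Int.ofNat (nat_lit 2256579),Int.negSucc (nat_lit 119336789),Int.ofNat (nat_lit 51657160),Int.negSucc (nat_lit 45002616),Int.ofNat (nat_lit 46330822),Int.ofNat (nat_lit 51117085),Int.ofNat (nat_lit 63287876),Int.ofNat (nat_lit 126761656),Int.ofNat (nat_lit 110127676),Int.negSucc (nat_lit 59489448),Int.negSucc (nat_lit 136694248),Int.negSucc (nat_lit 102698556),Int.negSucc (nat_lit 42633303),Int.ofNat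 (nat_lit 453531174)])

/-- A row. -/
noncomputable def sr6_c0_59 : List ℕ × List ℤ :=
  ([(nat_lit 2),(nat_lit 1),(nat_lit 0),(nat_lit 1),(nat_lit 0),(nat_lit 0),(nat_lit 0),(nat_lit 0),(nat_lit 0),(nat_lit 0),(nat_lit 0),(nat_lit 0)], [Int.ofNat (nat_lit 3710433096),Int.ofNat (nat_lit 6109253148),Int.negSucc (nat_lit 176118114),Int.negSucc (nat_lit 1342599959),Int.ofNat (nat_lit 1447698792),Int.negSucc (nat_lit 2646252355),Int.ofNat (nat_lit 2397153476),Int.negSucc (nat_lit 68539000),Int.negSucc (nat_lit 880344515),Int.ofNat (nat_lit 1667417448),Int.negSucc (nat_lit 791805286),Int.negSucc (nat_lit 967554058),Int.negSucc (nat_lit 842599971),Int.negSucc (nat_lit 165879885),Int.negSucc (nat_lit 374061004),Int.ofNat (nat_lit 211709500),Int.negSucc (nat_lit 1621676678),Int.ofNat (nat_lit 548779614),Int.negSucc (nat_lit 1069494238),Int.ofNat (nat_lit 1258261317),Int.ofNat (nat_lit 1530166012),Int.ofNat (nat_lit 309701945),Int.negSucc (nat_lit 2744990294),Int.ofNat (nat_lit 330011806),Int.negSucc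 (nat_lit 541308008),Int.negSucc (nat_lit 432610642),Int.ofNat (nat_lit 954698567),Int.negSucc (nat_lit 1702264878),Int.ofNat (nat_lit 1392509551),Int.ofNat (nat_lit 182266099),Int.negSucc (nat_lit 988956221),Int.negSucc (nat_lit 499273999),Int.negSucc (nat_lit 288106112),Int.ofNat (nat_lit 437494795),Int.negSucc (nat_lit 17871293),Int.ofNat (nat_lit 768185311),Int.negSucc (nat_lit 668858364),Int.ofNat (nat_lit 155434081),Int.ofNat (nat_lit 486079184),Int.ofNat (nat_lit 2703468591),Int.ofNat (nat_lit 726630436),Int.negSucc (nat_lit 75766935),Int.negSucc (nat_lit 200468104),Int.ofNat (nat_lit 162278956),Int.ofNat (nat_lit 696387772),Int.negSucc (nat_lit 6220043818),Int.ofNat (nat_lit 2262050142),Int.negSucc (nat_lit 232003745),Int.ofNat (nat_lit 298660440),Int.negSucc (nat_lit 205774941),Int.negSucc (nat_lit 1082864967),Int.ofNat (nat_lit 99469700),Int.negSucc (nat_lit 489257458),Int.ofNat (nat_lit 585281229),Int.ofNat (nat_lit 55468769),Int.negSucc (nat_lit 860844952),Int.negSucc (nat_lit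 227114441),Int.negSucc (nat_lit 46204685),Int.negSucc (nat_lit 22057362),Int.ofNat (nat_lit 2136722296)])

/-- A row. -/
noncomputable def sr6_c0_60 : List ℕ × List ℤ :=
  ([(nat_lit 2),(nat_lit 2),(nat_lit 0),(nat_lit 0),(nat_lit 0),(nat_lit 0),(nat_lit 0),(nat_lit 0),(nat_lit 0),(nat_lit 0),(nat_lit 0),(nat_lit 0)], [Int.negSucc (nat_lit 3978676344),Int.negSucc (nat_lit 10653709967),Int.negSucc (nat_lit 1682992213),Int.negSucc (nat_lit 710682336),Int.ofNat (nat_lit 5672762652),Int.negSucc (nat_lit 566156810),Int.negSucc (nat_lit 1131607744),Int.negSucc (nat_lit 310030735),Int.ofNat (nat_lit 2934429523),Int.negSucc (nat_lit 2836032132),Int.ofNat (nat_lit 1855102743),Int.ofNat (nat_lit 1181031764),Int.ofNat (nat_lit 208081026),Int.ofNat (nat_lit 267866900),Int.ofNat (nat_lit 1318974405),Int.negSucc (nat_lit 2290303574),Int.ofNat (nat_lit 4348632708),Int.ofNat (nat_lit 460991844),Int.negSucc (nat_lit 724139543),Int.ofNat (nat_lit 5057136714),Int.ofNat (nat_lit 2755111081),Int.negSucc (nat_lit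 1992161631),Int.ofNat (nat_lit 2957391746),Int.ofNat (nat_lit 1367825634),Int.negSucc (nat_lit 1498033769),Int.ofNat (nat_lit 1006391985),Int.ofNat (nat_lit 2700672142),Int.negSucc (nat_lit 3380798017),Int.negSucc (nat_lit 1813123615),Int.ofNat (nat_lit 405509971),Int.ofNat (nat_lit 515731995),Int.ofNat (nat_lit 3043072038),Int.ofNat (nat_lit 1641395880),Int.negSucc (nat_lit 1319193735),Int.ofNat (nat_lit 5750901253),Int.negSucc (nat_lit 486619766),Int.negSucc (nat_lit 45480460),Int.ofNat (nat_lit 2450634646),Int.ofNat (nat_lit 96900497),Int.negSucc (nat_lit 3279085087),Int.negSucc (nat_lit 4488451902),Int.ofNat (nat_lit 780989634),Int.ofNat (nat_lit 125728232),Int.ofNat (nat_lit 446341924),Int.negSucc (nat_lit 2272076407),Int.ofNat (nat_lit 3414470042),Int.negSucc (nat_lit 2134436995),Int.negSucc (nat_lit 10184247943),Int.negSucc (nat_lit 2414662623),Int.negSucc (nat_lit 23907507),Int.negSucc (nat_lit 41845608),Int.ofNat (nat_lit 638567200),Int.negSucc (nat_lit 1326738429),Int.negSucc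 (nat_lit 504981271),Int.negSucc (nat_lit 287982521),Int.ofNat (nat_lit 1082627621),Int.ofNat (nat_lit 608713482),Int.negSucc (nat_lit 37337853),Int.ofNat (nat_lit 437871798),Int.negSucc (nat_lit 1760600350),Int.ofNat (nat_lit 3338908678)])

/-- A row. -/
noncomputable def sr6_c0_61 : List ℕ × List ℤ :=
  ([(nat_lit 2),(nat_lit 2),(nat_lit 1),(nat_lit 0),(nat_lit 0),(nat_lit 0),(nat_lit 0),(nat_lit 0),(nat_lit 0),(nat_lit 0),(nat_lit 0),(nat_lit 0)], [Int.negSucc (nat_lit 1058405332),Int.negSucc (nat_lit 1778415663),Int.negSucc (nat_lit 357815351),Int.negSucc (nat_lit 2271448960),Int.ofNat (nat_lit 6711727531),Int.negSucc (nat_lit 2864902093),Int.negSucc (nat_lit 702634545),Int.ofNat (nat_lit 1109916275),Int.ofNat (nat_lit 305285618),Int.ofNat (nat_lit 1245235789),Int.negSucc (nat_lit 864125672),Int.negSucc (nat_lit 6345173),Int.ofNat (nat_lit 981548181),Int.negSucc (nat_lit 2485197286),Int.ofNat (nat_lit 431080035),Int.negSucc (nat_lit 2584592481),Int.ofNat (nat_lit 664438092),Int.negSucc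 (nat_lit 56029728),Int.ofNat (nat_lit 661436754),Int.ofNat (nat_lit 1756219738),Int.ofNat (nat_lit 3432388887),Int.negSucc (nat_lit 1084830327),Int.ofNat (nat_lit 3930195956),Int.negSucc (nat_lit 1136879875),Int.negSucc (nat_lit 133075230),Int.ofNat (nat_lit 135702415),Int.ofNat (nat_lit 1443457845),Int.negSucc (nat_lit 3964044373),Int.negSucc (nat_lit 3412514946),Int.ofNat (nat_lit 657451204),Int.negSucc (nat_lit 101487895),Int.ofNat (nat_lit 813240129),Int.ofNat (nat_lit 1157955527),Int.negSucc (nat_lit 4954101),Int.ofNat (nat_lit 2241467231),Int.ofNat (nat_lit 312103534),Int.negSucc (nat_lit 719464042),Int.ofNat (nat_lit 449857249),Int.ofNat (nat_lit 991225984),Int.negSucc (nat_lit 857249464),Int.negSucc (nat_lit 1500939693),Int.ofNat (nat_lit 940441116),Int.negSucc (nat_lit 1686693057),Int.ofNat (nat_lit 1216810756),Int.negSucc (nat_lit 1044804458),Int.negSucc (nat_lit 1052795146),Int.negSucc (nat_lit 533885417),Int.negSucc (nat_lit 5915616121),Int.negSucc (nat_lit 1387589598),Int.negSucc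 (nat_lit 4781394610),Int.negSucc (nat_lit 648916981),Int.ofNat (nat_lit 28187624),Int.negSucc (nat_lit 207198425),Int.ofNat (nat_lit 88610414),Int.ofNat (nat_lit 39669906),Int.negSucc (nat_lit 75575047),Int.negSucc (nat_lit 107461593),Int.ofNat (nat_lit 19321119),Int.ofNat (nat_lit 207645963),Int.ofNat (nat_lit 446880592),Int.ofNat (nat_lit 1446798715),Int.ofNat (nat_lit 1975902014)])

/-- A row. -/
noncomputable def sr6_c0_62 : List ℕ × List ℤ :=
  ([(nat_lit 2),(nat_lit 4),(nat_lit 0),(nat_lit 0),(nat_lit 0),(nat_lit 0),(nat_lit 0),(nat_lit 0),(nat_lit 0),(nat_lit 0),(nat_lit 0),(nat_lit 0)], [Int.ofNat (nat_lit 1002821844),Int.ofNat (nat_lit 5575560666),Int.ofNat (nat_lit 1878279466),Int.negSucc (nat_lit 362113301),Int.negSucc (nat_lit 155035807),Int.negSucc (nat_lit 296151044),Int.ofNat (nat_lit 1008275913),Int.ofNat (nat_lit 3371641452),Int.negSucc (nat_lit 2398178024),Int.ofNat (nat_lit 3050963688),Int.negSucc (nat_lit 1927329911),Int.negSucc (nat_lit 306435905),Int.ofNat (nat_lit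 1740701320),Int.negSucc (nat_lit 897594755),Int.negSucc (nat_lit 620444203),Int.ofNat (nat_lit 345800920),Int.negSucc (nat_lit 4234159983),Int.ofNat (nat_lit 574582079),Int.ofNat (nat_lit 1108402449),Int.negSucc (nat_lit 3732563982),Int.negSucc (nat_lit 1596823591),Int.ofNat (nat_lit 2192437401),Int.ofNat (nat_lit 2314647477),Int.negSucc (nat_lit 1861857328),Int.ofNat (nat_lit 1342555102),Int.ofNat (nat_lit 657404876),Int.negSucc (nat_lit 711968296),Int.ofNat (nat_lit 597550818),Int.negSucc (nat_lit 1398233966),Int.negSucc (nat_lit 912103539),Int.ofNat (nat_lit 2547115835),Int.negSucc (nat_lit 4349304190),Int.negSucc (nat_lit 391471740),Int.negSucc (nat_lit 877237075),Int.negSucc (nat_lit 2934060675),Int.ofNat (nat_lit 1292542958),Int.negSucc (nat_lit 616138775),Int.negSucc (nat_lit 1806997282),Int.ofNat (nat_lit 1032198057),Int.ofNat (nat_lit 2956363293),Int.ofNat (nat_lit 1827128248),Int.negSucc (nat_lit 397253347),Int.negSucc (nat_lit 1054613796),Int.ofNat (nat_lit 1203295483),Int.ofNat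 (nat_lit 1709763506),Int.negSucc (nat_lit 1803730162),Int.ofNat (nat_lit 692105757),Int.ofNat (nat_lit 5524573629),Int.ofNat (nat_lit 1853415260),Int.negSucc (nat_lit 5851378685),Int.negSucc (nat_lit 2732304416),Int.negSucc (nat_lit 4970932159),Int.ofNat (nat_lit 383366339),Int.ofNat (nat_lit 437017078),Int.negSucc (nat_lit 232397319),Int.negSucc (nat_lit 2334115814),Int.negSucc (nat_lit 312779598),Int.negSucc (nat_lit 75066687),Int.ofNat (nat_lit 33944377),Int.negSucc (nat_lit 89185516),Int.negSucc (nat_lit 2034796920),Int.ofNat (nat_lit 1240990887),Int.ofNat (nat_lit 4798711877)])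

/-- A row. -/
noncomputable def sr6_c0_63 : List ℕ × List ℤ :=
  ([(nat_lit 3),(nat_lit 0),(nat_lit 0),(nat_lit 0),(nat_lit 0),(nat_lit 0),(nat_lit 0),(nat_lit 0),(nat_lit 0),(nat_lit 0),(nat_lit 0),(nat_lit 0)], [Int.ofNat (nat_lit 4329169811),Int.ofNat (nat_lit 7484085223),Int.ofNat (nat_lit 4164884406),Int.negSucc (nat_lit 801870182),Int.ofNat (nat_lit 2072486089),Int.negSucc (nat_lit 1193177458),Int.negSucc (nat_lit 372046763),Int.ofNat (nat_lit 1818075854),Int.negSucc (nat_lit 307989073),Int.ofNat (nat_lit 2333729844),Int.ofNat (nat_lit 140781135),Int.negSucc (nat_lit 1577344592),Int.ofNat (nat_lit 1954003071),Int.ofNat (nat_lit 313232706),Int.ofNat (nat_lit 1475345678),Int.negSucc (nat_lit 121023565),Int.ofNat (nat_lit 145770480),Int.ofNat (nat_lit 1071688434),Int.negSucc (nat_lit 589383440),Int.ofNat (nat_lit 231818480),Int.negSucc (nat_lit 461567036),Int.ofNat (nat_lit 2436819162),Int.negSucc (nat_lit 16667172),Int.ofNat (nat_lit 1336932491),Int.negSucc (nat_lit 417133310),Int.negSucc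 (nat_lit 1872966632),Int.negSucc (nat_lit 70712245),Int.negSucc (nat_lit 565363656),Int.ofNat (nat_lit 378369733),Int.ofNat (nat_lit 401469464),Int.ofNat (nat_lit 835534436),Int.negSucc (nat_lit 234224491),Int.ofNat (nat_lit 145198119),Int.negSucc (nat_lit 274855659),Int.ofNat (nat_lit 883919822),Int.negSucc (nat_lit 75195468),Int.negSucc (nat_lit 2618518128),Int.negSucc (nat_lit 1204329393),Int.ofNat (nat_lit 2546867082),Int.ofNat (nat_lit 2166312704),Int.negSucc (nat_lit 1630883975),Int.ofNat (nat_lit 2146350270),Int.negSucc (nat_lit 212776672),Int.ofNat (nat_lit 1488726675),Int.negSucc (nat_lit 489930409),Int.ofNat (nat_lit 121075403),Int.ofNat (nat_lit 667163800),Int.ofNat (nat_lit 936395923),Int.ofNat (nat_lit 227855367),Int.negSucc (nat_lit 557167755),Int.negSucc (nat_lit 295882787),Int.ofNat (nat_lit 474449977),Int.negSucc (nat_lit 5571582489),Int.ofNat (nat_lit 1697154119),Int.negSucc (nat_lit 211431945),Int.negSucc (nat_lit 321806469),Int.ofNat (nat_lit 377435526),Int.ofNat (nat_lit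 540524385),Int.ofNat (nat_lit 29362574),Int.ofNat (nat_lit 336578178),Int.negSucc (nat_lit 419450217),Int.negSucc (nat_lit 301011334),Int.negSucc (nat_lit 6887655),Int.ofNat (nat_lit 1207070546)])

/-- A row. -/
noncomputable def sr6_c0_64 : List ℕ × List ℤ :=
  ([(nat_lit 3),(nat_lit 0),(nat_lit 0),(nat_lit 0),(nat_lit 1),(nat_lit 0),(nat_lit 0),(nat_lit 0),(nat_lit 0),(nat_lit 0),(nat_lit 0),(nat_lit 0)], [Int.negSucc (nat_lit 744489082),Int.negSucc (nat_lit 1937228854),Int.negSucc (nat_lit 568434076),Int.negSucc (nat_lit 562720099),Int.ofNat (nat_lit 692371292),Int.ofNat (nat_lit 375302446),Int.ofNat (nat_lit 556669991),Int.ofNat (nat_lit 234423942),Int.ofNat (nat_lit 149939193),Int.negSucc (nat_lit 890790693),Int.negSucc (nat_lit 380538621),Int.ofNat (nat_lit 291281861),Int.ofNat (nat_lit 158977662),Int.ofNat (nat_lit 89236611),Int.negSucc (nat_lit 643161216),Int.ofNat (nat_lit 69563956),Int.ofNat (nat_lit 138797995),Int.negSucc (nat_lit 430994367),Int.negSucc (nat_lit 203311068),Int.ofNat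 (nat_lit 187545448),Int.negSucc (nat_lit 516330503),Int.negSucc (nat_lit 254844094),Int.ofNat (nat_lit 45059705),Int.ofNat (nat_lit 16058795),Int.ofNat (nat_lit 187845555),Int.ofNat (nat_lit 780064620),Int.negSucc (nat_lit 131982569),Int.ofNat (nat_lit 86082129),Int.negSucc (nat_lit 256787338),Int.ofNat (nat_lit 46508327),Int.negSucc (nat_lit 1805784),Int.ofNat (nat_lit 152910246),Int.ofNat (nat_lit 7767641),Int.ofNat (nat_lit 61504156),Int.negSucc (nat_lit 366368605),Int.negSucc (nat_lit 666117945),Int.ofNat (nat_lit 674856909),Int.ofNat (nat_lit 1540612265),Int.negSucc (nat_lit 923274045),Int.negSucc (nat_lit 228356244),Int.ofNat (nat_lit 308742474),Int.negSucc (nat_lit 1030398905),Int.negSucc (nat_lit 194958411),Int.negSucc (nat_lit 346447828),Int.ofNat (nat_lit 1669089),Int.ofNat (nat_lit 20767645),Int.negSucc (nat_lit 107035899),Int.ofNat (nat_lit 48140925),Int.ofNat (nat_lit 102328902),Int.negSucc (nat_lit 111497420),Int.negSucc (nat_lit 12530832),Int.ofNat (nat_lit 86164795),Int.ofNat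 (nat_lit 348486206),Int.ofNat (nat_lit 20688755),Int.negSucc (nat_lit 834577743),Int.ofNat (nat_lit 105802583),Int.negSucc (nat_lit 7539994),Int.ofNat (nat_lit 4861695),Int.negSucc (nat_lit 18350468),Int.negSucc (nat_lit 67975874),Int.ofNat (nat_lit 12610404),Int.ofNat (nat_lit 11810638),Int.ofNat (nat_lit 31122588),Int.negSucc (nat_lit 44935131),Int.ofNat (nat_lit 173919459)])

/-- A row. -/
noncomputable def sr6_c0_65 : List ℕ × List ℤ :=
  ([(nat_lit 3),(nat_lit 0),(nat_lit 1),(nat_lit 0),(nat_lit 0),(nat_lit 0),(nat_lit 0),(nat_lit 0),(nat_lit 0),(nat_lit 0),(nat_lit 0),(nat_lit 0)], [Int.ofNat (nat_lit 4764274249),Int.ofNat (nat_lit 2806423525),Int.ofNat (nat_lit 3489157806),Int.negSucc (nat_lit 555474493),Int.negSucc (nat_lit 202984952),Int.negSucc (nat_lit 140337241),Int.ofNat (nat_lit 347012708),Int.ofNat (nat_lit 1694268724),Int.negSucc (nat_lit 138006350),Int.ofNat (nat_lit 531961720),Int.ofNat (nat_lit 1117567268),Int.negSucc (nat_lit 2127023507),Int.ofNat (nat_lit 626858799),Int.ofNat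 (nat_lit 470390321),Int.negSucc (nat_lit 108523796),Int.negSucc (nat_lit 91982115),Int.negSucc (nat_lit 505614965),Int.ofNat (nat_lit 363107016),Int.negSucc (nat_lit 489872953),Int.ofNat (nat_lit 180923525),Int.negSucc (nat_lit 1064469322),Int.ofNat (nat_lit 1946507736),Int.negSucc (nat_lit 154609075),Int.ofNat (nat_lit 1365829461),Int.negSucc (nat_lit 120152859),Int.negSucc (nat_lit 970168813),Int.negSucc (nat_lit 305485601),Int.negSucc (nat_lit 115461659),Int.ofNat (nat_lit 416641725),Int.ofNat (nat_lit 487358337),Int.ofNat (nat_lit 928222885),Int.negSucc (nat_lit 112570974),Int.ofNat (nat_lit 140370813),Int.negSucc (nat_lit 154265030),Int.negSucc (nat_lit 9272012),Int.negSucc (nat_lit 963826830),Int.negSucc (nat_lit 2220725160),Int.ofNat (nat_lit 66732729),Int.ofNat (nat_lit 1162999264),Int.ofNat (nat_lit 1943387488),Int.negSucc (nat_lit 589110703),Int.ofNat (nat_lit 1497678344),Int.negSucc (nat_lit 1870531211),Int.ofNat (nat_lit 338305062),Int.negSucc (nat_lit 770645978),Int.ofNat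 (nat_lit 75524450),Int.ofNat (nat_lit 759399618),Int.ofNat (nat_lit 437022149),Int.ofNat (nat_lit 255360757),Int.ofNat (nat_lit 114656969),Int.negSucc (nat_lit 294022972),Int.ofNat (nat_lit 177468008),Int.negSucc (nat_lit 3956021950),Int.ofNat (nat_lit 1803373202),Int.negSucc (nat_lit 243649736),Int.negSucc (nat_lit 549017145),Int.negSucc (nat_lit 1193525446),Int.ofNat (nat_lit 1174372608),Int.ofNat (nat_lit 247865151),Int.ofNat (nat_lit 287752563),Int.negSucc (nat_lit 362572310),Int.negSucc (nat_lit 329199854),Int.ofNat (nat_lit 25666845),Int.ofNat (nat_lit 1073758080),Int.negSucc (nat_lit 52804056),Int.ofNat (nat_lit 444573131)])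

/-- A row. -/
noncomputable def sr6_c0_66 : List ℕ × List ℤ :=
  ([(nat_lit 3),(nat_lit 1),(nat_lit 0),(nat_lit 1),(nat_lit 0),(nat_lit 0),(nat_lit 0),(nat_lit 0),(nat_lit 0),(nat_lit 0),(nat_lit 0),(nat_lit 0)], [Int.negSucc (nat_lit 3504239827),Int.negSucc (nat_lit 4697221848),Int.negSucc (nat_lit 2090261596),Int.negSucc (nat_lit 1904108507),Int.ofNat (nat_lit 1250233369),Int.ofNat (nat_lit 858109304),Int.negSucc (nat_lit 1442531885),Int.ofNat (nat_lit 537306704),Int.negSucc (nat_lit 1094321876),Int.negSucc (nat_lit 5002605396),Int.negSucc (nat_lit 274110267),Int.ofNat (nat_lit 608939653),Int.ofNat (nat_lit 1344719801),Int.ofNat (nat_lit 2207737013),Int.negSucc (nat_lit 1461789963),Int.negSucc (nat_lit 518722647),Int.ofNat (nat_lit 2337635565),Int.negSucc (nat_lit 1452513809),Int.negSucc (nat_lit 1101671454),Int.ofNat (nat_lit 3152945061),Int.negSucc (nat_lit 65647688),Int.ofNat (nat_lit 392316983),Int.ofNat (nat_lit 2841486909),Int.ofNat (nat_lit 120893457),Int.ofNat (nat_lit 485714914),Int.negSucc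 (nat_lit 10700835),Int.negSucc (nat_lit 203778816),Int.ofNat (nat_lit 859132806),Int.negSucc (nat_lit 1021057097),Int.negSucc (nat_lit 1075971418),Int.ofNat (nat_lit 510559589),Int.ofNat (nat_lit 82639414),Int.ofNat (nat_lit 399081185),Int.negSucc (nat_lit 479001081),Int.negSucc (nat_lit 104725100),Int.ofNat (nat_lit 769317239),Int.ofNat (nat_lit 325080600),Int.negSucc (nat_lit 128321070),Int.negSucc (nat_lit 811478952),Int.ofNat (nat_lit 1161674499),Int.negSucc (nat_lit 576310861),Int.negSucc (nat_lit 1098514174),Int.negSucc (nat_lit 229139103),Int.ofNat (nat_lit 661198371),Int.ofNat (nat_lit 307695381),Int.ofNat (nat_lit 3992270857),Int.negSucc (nat_lit 2932917916),Int.ofNat (nat_lit 339206124),Int.negSucc (nat_lit 54450970),Int.negSucc (nat_lit 106126831),Int.ofNat (nat_lit 998387403),Int.ofNat (nat_lit 16345345),Int.ofNat (nat_lit 590741894),Int.negSucc (nat_lit 656828418),Int.negSucc (nat_lit 756692015),Int.negSucc (nat_lit 299531723),Int.ofNat (nat_lit 778913701),Int.ofNat (nat_lit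 292131384),Int.negSucc (nat_lit 808759824),Int.negSucc (nat_lit 3052976271),Int.negSucc (nat_lit 91087324),Int.negSucc (nat_lit 32448959),Int.ofNat (nat_lit 19633565),Int.negSucc (nat_lit 110869752),Int.ofNat (nat_lit 73468823),Int.negSucc (nat_lit 95718363),Int.ofNat (nat_lit 766807473)])

/-- A row. -/
noncomputable def sr6_c0_67 : List ℕ × List ℤ :=
  ([(nat_lit 3),(nat_lit 2),(nat_lit 0),(nat_lit 0),(nat_lit 0),(nat_lit 0),(nat_lit 0),(nat_lit 0),(nat_lit 0),(nat_lit 0),(nat_lit 0),(nat_lit 0)], [Int.ofNat (nat_lit 121584713),Int.negSucc (nat_lit 4191836123),Int.negSucc (nat_lit 3533538470),Int.ofNat (nat_lit 3342229592),Int.negSucc (nat_lit 6016476420),Int.ofNat (nat_lit 2230458591),Int.ofNat (nat_lit 742592381),Int.negSucc (nat_lit 3276713015),Int.ofNat (nat_lit 1460450892),Int.negSucc (nat_lit 1108247506),Int.ofNat (nat_lit 2152698791),Int.negSucc (nat_lit 396477912),Int.negSucc (nat_lit 2958255482),Int.ofNat (nat_lit 62123857),Int.negSucc (nat_lit 1199894200),Int.ofNat (nat_lit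 724787314),Int.negSucc (nat_lit 626153580),Int.negSucc (nat_lit 86977800),Int.ofNat (nat_lit 1801134272),Int.negSucc (nat_lit 1460680461),Int.negSucc (nat_lit 1561093511),Int.negSucc (nat_lit 1256902470),Int.negSucc (nat_lit 936516575),Int.ofNat (nat_lit 4031031716),Int.negSucc (nat_lit 781960273),Int.ofNat (nat_lit 987450878),Int.ofNat (nat_lit 853126024),Int.ofNat (nat_lit 93937886),Int.ofNat (nat_lit 1240121077),Int.ofNat (nat_lit 198751948),Int.ofNat (nat_lit 685964324),Int.ofNat (nat_lit 2265084743),Int.negSucc (nat_lit 1851636158),Int.ofNat (nat_lit 440291788),Int.ofNat (nat_lit 467453739),Int.negSucc (nat_lit 1202535028),Int.ofNat (nat_lit 1037681737),Int.ofNat (nat_lit 1485041185),Int.negSucc (nat_lit 1324887184),Int.negSucc (nat_lit 3056003215),Int.ofNat (nat_lit 1308824571),Int.negSucc (nat_lit 193987498),Int.negSucc (nat_lit 1110454705),Int.negSucc (nat_lit 2162089055),Int.negSucc (nat_lit 831597899),Int.ofNat (nat_lit 1835887554),Int.negSucc (nat_lit 7990713),Int.negSucc (nat_lit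 202700564),Int.ofNat (nat_lit 1180385037),Int.ofNat (nat_lit 1501419469),Int.ofNat (nat_lit 298884177),Int.negSucc (nat_lit 3961897785),Int.ofNat (nat_lit 2893513526),Int.negSucc (nat_lit 678243423),Int.ofNat (nat_lit 1198439754),Int.ofNat (nat_lit 146960655),Int.negSucc (nat_lit 2987454522),Int.ofNat (nat_lit 237612973),Int.ofNat (nat_lit 584861848),Int.negSucc (nat_lit 145169688),Int.negSucc (nat_lit 5043743972),Int.ofNat (nat_lit 2058227152),Int.negSucc (nat_lit 1642619869),Int.negSucc (nat_lit 982502397),Int.negSucc (nat_lit 403544113),Int.ofNat (nat_lit 1702429249),Int.negSucc (nat_lit 405227647),Int.ofNat (nat_lit 2874066873)])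

/-- A row. -/
noncomputable def sr6_c0_68 : List ℕ × List ℤ :=
  ([(nat_lit 4),(nat_lit 0),(nat_lit 0),(nat_lit 0),(nat_lit 0),(nat_lit 0),(nat_lit 0),(nat_lit 0),(nat_lit 0),(nat_lit 0),(nat_lit 0),(nat_lit 0)], [Int.negSucc (nat_lit 6254495651),Int.negSucc (nat_lit 3078088741),Int.negSucc (nat_lit 2158219570),Int.ofNat (nat_lit 1136426334),Int.ofNat (nat_lit 1891292856),Int.negSucc (nat_lit 2337803264),Int.negSucc (nat_lit 636748731),Int.negSucc (nat_lit 1292282022),Int.ofNat (nat_lit 1796398961),Int.negSucc (nat_lit 872636153),Int.ofNat (nat_lit 959511566),Int.ofNat (nat_lit 3568685067),Int.negSucc (nat_lit 345408574),Int.negSucc (nat_lit 422978643),Int.ofNat (nat_lit 1455998932),Int.negSucc (nat_lit 79611845),Int.ofNat (nat_lit 1146200693),Int.negSucc (nat_lit 45563142),Int.ofNat (nat_lit 1254665215),Int.negSucc (nat_lit 386355547),Int.ofNat (nat_lit 1762119521),Int.negSucc (nat_lit 2415968188),Int.ofNat (nat_lit 686035038),Int.negSucc (nat_lit 2685019522),Int.negSucc (nat_lit 70522411),Int.ofNat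 (nat_lit 452712281),Int.ofNat (nat_lit 182171297),Int.negSucc (nat_lit 35139463),Int.negSucc (nat_lit 860185137),Int.negSucc (nat_lit 1177627565),Int.negSucc (nat_lit 1633560320),Int.negSucc (nat_lit 183659867),Int.ofNat (nat_lit 319301470),Int.negSucc (nat_lit 15660695),Int.ofNat (nat_lit 2913949953),Int.ofNat (nat_lit 1944758235),Int.ofNat (nat_lit 2116985334),Int.ofNat (nat_lit 843817377),Int.negSucc (nat_lit 116481276),Int.negSucc (nat_lit 1049327933),Int.ofNat (nat_lit 1016380788),Int.negSucc (nat_lit 4268601),Int.ofNat (nat_lit 1625669117),Int.ofNat (nat_lit 537150521),Int.negSucc (nat_lit 452706788),Int.ofNat (nat_lit 25779925),Int.negSucc (nat_lit 701530119),Int.negSucc (nat_lit 51357984),Int.negSucc (nat_lit 844512311),Int.negSucc (nat_lit 55420553),Int.ofNat (nat_lit 563113651),Int.negSucc (nat_lit 382293772),Int.ofNat (nat_lit 3501481755),Int.negSucc (nat_lit 2561699997),Int.ofNat (nat_lit 407658508),Int.ofNat (nat_lit 433453641),Int.negSucc (nat_lit 341062448),Int.negSucc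 (nat_lit 1270041247),Int.negSucc (nat_lit 241691750),Int.negSucc (nat_lit 495133372),Int.ofNat (nat_lit 402156840),Int.ofNat (nat_lit 635014876),Int.negSucc (nat_lit 23961433),Int.negSucc (nat_lit 2341029473),Int.negSucc (nat_lit 221855814),Int.ofNat (nat_lit 119419755),Int.ofNat (nat_lit 283879521),Int.negSucc (nat_lit 296694419),Int.ofNat (nat_lit 572726086)])

/-- A row. -/
noncomputable def sr6_c0_69 : List ℕ × List ℤ :=
  ([(nat_lit 4),(nat_lit 0),(nat_lit 1),(nat_lit 0),(nat_lit 0),(nat_lit 0),(nat_lit 0),(nat_lit 0),(nat_lit 0),(nat_lit 0),(nat_lit 0),(nat_lit 0)], [Int.negSucc (nat_lit 2199446860),Int.ofNat (nat_lit 763106661),Int.negSucc (nat_lit 16768574),Int.ofNat (nat_lit 607934715),Int.ofNat (nat_lit 995728631),Int.negSucc (nat_lit 2636646481),Int.negSucc (nat_lit 90618773),Int.negSucc (nat_lit 1005293575),Int.ofNat (nat_lit 1391387940),Int.negSucc (nat_lit 77870696),Int.ofNat (nat_lit 310450204),Int.ofNat (nat_lit 1628819659),Int.ofNat (nat_lit 268725637),Int.negSucc (nat_lit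 215184331),Int.ofNat (nat_lit 1679483677),Int.ofNat (nat_lit 540018993),Int.ofNat (nat_lit 381889227),Int.ofNat (nat_lit 262594427),Int.ofNat (nat_lit 674715592),Int.negSucc (nat_lit 360794471),Int.ofNat (nat_lit 637735003),Int.negSucc (nat_lit 680539053),Int.ofNat (nat_lit 262263472),Int.negSucc (nat_lit 1207382921),Int.negSucc (nat_lit 258732912),Int.negSucc (nat_lit 96360346),Int.negSucc (nat_lit 86255497),Int.negSucc (nat_lit 151001900),Int.negSucc (nat_lit 523208630),Int.negSucc (nat_lit 528079300),Int.negSucc (nat_lit 777826377),Int.negSucc (nat_lit 131009638),Int.ofNat (nat_lit 21547919),Int.ofNat (nat_lit 85555362),Int.ofNat (nat_lit 1114100488),Int.ofNat (nat_lit 893969525),Int.ofNat (nat_lit 891913271),Int.ofNat (nat_lit 717808253),Int.ofNat (nat_lit 215279008),Int.negSucc (nat_lit 369684708),Int.ofNat (nat_lit 1647224917),Int.ofNat (nat_lit 325240443),Int.ofNat (nat_lit 1570877151),Int.ofNat (nat_lit 385888564),Int.negSucc (nat_lit 112779812),Int.ofNat (nat_lit 12925651),Int.negSucc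 (nat_lit 539334901),Int.ofNat (nat_lit 12086607),Int.negSucc (nat_lit 404522343),Int.negSucc (nat_lit 44150281),Int.ofNat (nat_lit 264799999),Int.negSucc (nat_lit 115503606),Int.ofNat (nat_lit 1961956112),Int.negSucc (nat_lit 1359471357),Int.ofNat (nat_lit 128408328),Int.ofNat (nat_lit 119232542),Int.ofNat (nat_lit 290018249),Int.negSucc (nat_lit 1471511746),Int.negSucc (nat_lit 387260663),Int.negSucc (nat_lit 236220449),Int.ofNat (nat_lit 256575352),Int.ofNat (nat_lit 263768623),Int.negSucc (nat_lit 71328972),Int.negSucc (nat_lit 1271161272),Int.negSucc (nat_lit 175714217),Int.negSucc (nat_lit 602993405),Int.ofNat (nat_lit 149236369),Int.negSucc (nat_lit 160359060),Int.ofNat (nat_lit 175308310),Int.ofNat (nat_lit 319356096)])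

/-- A row. -/
noncomputable def sr6_c0_70 : List ℕ × List ℤ :=
  ([(nat_lit 4),(nat_lit 2),(nat_lit 0),(nat_lit 0),(nat_lit 0),(nat_lit 0),(nat_lit 0),(nat_lit 0),(nat_lit 0),(nat_lit 0),(nat_lit 0),(nat_lit 0)], [Int.ofNat (nat_lit 1589005581),Int.ofNat (nat_lit 6977696829),Int.ofNat (nat_lit 2675757074),Int.negSucc (nat_lit 169706975),Int.negSucc (nat_lit 1581306571),Int.negSucc (nat_lit 92478915),Int.ofNat (nat_lit 1371702386),Int.ofNat (nat_lit 2581313194),Int.negSucc (nat_lit 2358546534),Int.ofNat (nat_lit 4771704624),Int.negSucc (nat_lit 1975296881),Int.negSucc (nat_lit 2280599724),Int.ofNat (nat_lit 462547311),Int.negSucc (nat_lit 61066112),Int.ofNat (nat_lit 1760332469),Int.ofNat (nat_lit 990848019),Int.negSucc (nat_lit 2663182276),Int.ofNat (nat_lit 459164953),Int.ofNat (nat_lit 258653025),Int.negSucc (nat_lit 2906289612),Int.negSucc (nat_lit 2919520474),Int.ofNat (nat_lit 1017816898),Int.negSucc (nat_lit 2566838256),Int.negSucc (nat_lit 196583229),Int.ofNat (nat_lit 356463821),Int.negSucc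 (nat_lit 1658704422),Int.negSucc (nat_lit 1571212543),Int.ofNat (nat_lit 2971625600),Int.ofNat (nat_lit 1067847102),Int.ofNat (nat_lit 379515659),Int.negSucc (nat_lit 428525604),Int.negSucc (nat_lit 2108223726),Int.ofNat (nat_lit 411645376),Int.ofNat (nat_lit 1040279501),Int.negSucc (nat_lit 3598254459),Int.negSucc (nat_lit 1208090424),Int.negSucc (nat_lit 1342502550),Int.negSucc (nat_lit 2901813376),Int.ofNat (nat_lit 538081179),Int.ofNat (nat_lit 2225573598),Int.ofNat (nat_lit 2017140763),Int.ofNat (nat_lit 207129405),Int.ofNat (nat_lit 1137917922),Int.negSucc (nat_lit 442893796),Int.ofNat (nat_lit 988652723),Int.negSucc (nat_lit 3407986527),Int.ofNat (nat_lit 3344886230),Int.ofNat (nat_lit 6188358674),Int.ofNat (nat_lit 2777346857),Int.negSucc (nat_lit 769080385),Int.ofNat (nat_lit 284709625),Int.ofNat (nat_lit 3825038473),Int.negSucc (nat_lit 1592258580),Int.ofNat (nat_lit 1136034279),Int.ofNat (nat_lit 89963986),Int.ofNat (nat_lit 26420141),Int.ofNat (nat_lit 2262805580),Int.negSucc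 (nat_lit 669769141),Int.ofNat (nat_lit 463141977),Int.ofNat (nat_lit 3447112604),Int.ofNat (nat_lit 875293877),Int.negSucc (nat_lit 3207154303),Int.ofNat (nat_lit 795105550),Int.ofNat (nat_lit 1076654430),Int.ofNat (nat_lit 331505999),Int.negSucc (nat_lit 2957279709),Int.negSucc (nat_lit 1621324099),Int.negSucc (nat_lit 4032253413),Int.ofNat (nat_lit 143068153),Int.ofNat (nat_lit 170932548),Int.ofNat (nat_lit 1323306704)])

/-- A row. -/
noncomputable def sr6_c0_71 : List ℕ × List ℤ :=
  ([(nat_lit 5),(nat_lit 0),(nat_lit 0),(nat_lit 0),(nat_lit 0),(nat_lit 0),(nat_lit 0),(nat_lit 0),(nat_lit 0),(nat_lit 0),(nat_lit 0),(nat_lit 0)], [Int.negSucc (nat_lit 870252023),Int.negSucc (nat_lit 3746894121),Int.negSucc (nat_lit 2470826223),Int.negSucc (nat_lit 264327832),Int.negSucc (nat_lit 1360237753),Int.ofNat (nat_lit 936571931),Int.ofNat (nat_lit 305228742),Int.negSucc (nat_lit 974428479),Int.negSucc (nat_lit 8494969),Int.negSucc (nat_lit 1934058095),Int.ofNat (nat_lit 2271378),Int.ofNat (nat_lit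 293450083),Int.negSucc (nat_lit 1075827427),Int.negSucc (nat_lit 419574108),Int.negSucc (nat_lit 1683268707),Int.negSucc (nat_lit 402634667),Int.negSucc (nat_lit 313889887),Int.negSucc (nat_lit 689046589),Int.ofNat (nat_lit 263863406),Int.negSucc (nat_lit 198707822),Int.negSucc (nat_lit 90573938),Int.negSucc (nat_lit 1149962065),Int.negSucc (nat_lit 63361779),Int.negSucc (nat_lit 526626604),Int.ofNat (nat_lit 369170424),Int.ofNat (nat_lit 879141015),Int.negSucc (nat_lit 100522328),Int.ofNat (nat_lit 263906073),Int.ofNat (nat_lit 44293203),Int.negSucc (nat_lit 319333681),Int.negSucc (nat_lit 411252510),Int.ofNat (nat_lit 13836023),Int.ofNat (nat_lit 247656002),Int.ofNat (nat_lit 95617531),Int.negSucc (nat_lit 634335743),Int.ofNat (nat_lit 226035043),Int.ofNat (nat_lit 909298023),Int.ofNat (nat_lit 692982760),Int.negSucc (nat_lit 1376502735),Int.negSucc (nat_lit 590267095),Int.ofNat (nat_lit 1171748284),Int.negSucc (nat_lit 975030309),Int.negSucc (nat_lit 1724312913),Int.negSucc (nat_lit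 846911581),Int.negSucc (nat_lit 92027823),Int.negSucc (nat_lit 164880869),Int.negSucc (nat_lit 17225644),Int.negSucc (nat_lit 731141664),Int.negSucc (nat_lit 182363230),Int.ofNat (nat_lit 973340819),Int.ofNat (nat_lit 166095145),Int.negSucc (nat_lit 140601198),Int.ofNat (nat_lit 2353031642),Int.negSucc (nat_lit 672195933),Int.ofNat (nat_lit 102292228),Int.ofNat (nat_lit 58957927),Int.negSucc (nat_lit 948388922),Int.ofNat (nat_lit 635201565),Int.ofNat (nat_lit 336158342),Int.negSucc (nat_lit 80993460),Int.ofNat (nat_lit 678275911),Int.negSucc (nat_lit 219357029),Int.ofNat (nat_lit 276155630),Int.ofNat (nat_lit 115097009),Int.ofNat (nat_lit 259198800),Int.negSucc (nat_lit 345473188),Int.negSucc (nat_lit 221046528),Int.ofNat (nat_lit 288311124),Int.negSucc (nat_lit 1078695182),Int.ofNat (nat_lit 649197417),Int.negSucc (nat_lit 302992288),Int.ofNat (nat_lit 237982158)])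

/-- A row. -/
noncomputable def sr6_c0_72 : List ℕ × List ℤ :=
  ([(nat_lit 6),(nat_lit 0),(nat_lit 0),(nat_lit 0),(nat_lit 0),(nat_lit 0),(nat_lit 0),(nat_lit 0),(nat_lit 0),(nat_lit 0),(nat_lit 0),(nat_lit 0)], [Int.ofNat (nat_lit 1708711768),Int.ofNat (nat_lit 2070670743),Int.ofNat (nat_lit 1085032663),Int.negSucc (nat_lit 81576653),Int.negSucc (nat_lit 348974238),Int.ofNat (nat_lit 1061543486),Int.ofNat (nat_lit 274146341),Int.ofNat (nat_lit 846236353),Int.negSucc (nat_lit 763019157),Int.ofNat (nat_lit 857602186),Int.negSucc (nat_lit 695458630),Int.negSucc (nat_lit 1139488187),Int.ofNat (nat_lit 386714662),Int.ofNat (nat_lit 336071856),Int.ofNat (nat_lit 96868574),Int.ofNat (nat_lit 167473127),Int.negSucc (nat_lit 397783867),Int.ofNat (nat_lit 155879421),Int.negSucc (nat_lit 729937842),Int.ofNat (nat_lit 358602037),Int.negSucc (nat_lit 663989827),Int.ofNat (nat_lit 1408404687),Int.negSucc (nat_lit 276715812),Int.ofNat (nat_lit 1367939244),Int.negSucc (nat_lit 157977400),Int.negSucc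 (nat_lit 272396049),Int.ofNat (nat_lit 109525749),Int.negSucc (nat_lit 118836668),Int.ofNat (nat_lit 348859339),Int.ofNat (nat_lit 615577245),Int.ofNat (nat_lit 868355441),Int.ofNat (nat_lit 237244840),Int.negSucc (nat_lit 385962858),Int.ofNat (nat_lit 6753188),Int.negSucc (nat_lit 902029776),Int.negSucc (nat_lit 1021121190),Int.negSucc (nat_lit 976468000),Int.negSucc (nat_lit 757917983),Int.ofNat (nat_lit 276100351),Int.ofNat (nat_lit 307658896),Int.negSucc (nat_lit 1120833153),Int.negSucc (nat_lit 137471479),Int.ofNat (nat_lit 431335526),Int.ofNat (nat_lit 8520041),Int.ofNat (nat_lit 487190142),Int.ofNat (nat_lit 5910025),Int.ofNat (nat_lit 113646991),Int.ofNat (nat_lit 191022253),Int.ofNat (nat_lit 487953435),Int.negSucc (nat_lit 566738303),Int.negSucc (nat_lit 343036181),Int.ofNat (nat_lit 188113003),Int.negSucc (nat_lit 2242869640),Int.ofNat (nat_lit 1361890458),Int.negSucc (nat_lit 429865111),Int.negSucc (nat_lit 190253262),Int.ofNat (nat_lit 890638555),Int.ofNat (nat_lit 140606996),Int.ofNat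 (nat_lit 2507997),Int.ofNat (nat_lit 218821077),Int.negSucc (nat_lit 582295315),Int.negSucc (nat_lit 65946527),Int.negSucc (nat_lit 190836233),Int.ofNat (nat_lit 1189503397),Int.ofNat (nat_lit 155778262),Int.ofNat (nat_lit 374428077),Int.negSucc (nat_lit 185434075),Int.ofNat (nat_lit 140275863),Int.ofNat (nat_lit 377009936),Int.negSucc (nat_lit 880635446),Int.ofNat (nat_lit 275426313),Int.negSucc (nat_lit 284219451),Int.ofNat (nat_lit 69169019)])

/-- A part of a triangular factor. -/
noncomputable def sr6_c0 : Rows :=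
  [sr6_c0_0,
   sr6_c0_1,
   sr6_c0_2,
   sr6_c0_3,
   sr6_c0_4,
   sr6_c0_5,
   sr6_c0_6,
   sr6_c0_7,
   sr6_c0_8,
   sr6_c0_9,
   sr6_c0_10,
   sr6_c0_11,
   sr6_c0_12,
   sr6_c0_13,
   sr6_c0_14,
   sr6_c0_15,
   sr6_c0_16,
   sr6_c0_17,
   sr6_c0_18,
   sr6_c0_19,
   sr6_c0_20,
   sr6_c0_21,
   sr6_c0_22,
   sr6_c0_23,
   sr6_c0_24,
   sr6_c0_25,
   sr6_c0_26,
   sr6_c0_27,
   sr6_c0_28,
   sr6_c0_29,
   sr6_c0_30,
   sr6_c0_31,
   sr6_c0_32,
   sr6_c0_33,
   sr6_c0_34,
   sr6_c0_35,
   sr6_c0_36,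
   sr6_c0_37,
   sr6_c0_38,
   sr6_c0_39,
   sr6_c0_40,
   sr6_c0_41,
   sr6_c0_42,
   sr6_c0_43,
   sr6_c0_44,
   sr6_c0_45,
   sr6_c0_46,
   sr6_c0_47,
   sr6_c0_48,
   sr6_c0_49,
   sr6_c0_50,
   sr6_c0_51,
   sr6_c0_52,
   sr6_c0_53,
   sr6_c0_54,
   sr6_c0_55,
   sr6_c0_56,
   sr6_c0_57,
   sr6_c0_58,
   sr6_c0_59,
   sr6_c0_60,
   sr6_c0_61,
   sr6_c0_62,
   sr6_c0_63,
   sr6_c0_64,
   sr6_c0_65,
   sr6_c0_66,
   sr6_c0_67,
   sr6_c0_68,
   sr6_c0_69,
   sr6_c0_70,
   sr6_c0_71,
   sr6_c0_72]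

/-- A row. -/
noncomputable def sr6_c1_0 : List ℕ × List ℤ :=
  ([(nat_lit 0),(nat_lit 0),(nat_lit 0),(nat_lit 0),(nat_lit 0),(nat_lit 0),(nat_lit 0),(nat_lit 0),(nat_lit 0),(nat_lit 0),(nat_lit 0),(nat_lit 1)], [Int.negSucc (nat_lit 106533111),Int.negSucc (nat_lit 289244981),Int.negSucc (nat_lit 31780272),Int.negSucc (nat_lit 66153451),Int.ofNat (nat_lit 27691721),Int.negSucc (nat_lit 24747845),Int.negSucc (nat_lit 26533512),Int.ofNat (nat_lit 11063848),Int.ofNat (nat_lit 31364007),Int.ofNat (nat_lit 3943181),Int.negSucc (nat_lit 2934150),Int.ofNat (nat_lit 11747202),Int.ofNat (nat_lit 14944497),Int.negSucc (nat_lit 6326327),Int.negSucc (nat_lit 5626528),Int.negSucc (nat_lit 1539739),Int.ofNat (nat_lit 17864884),Int.ofNat (nat_lit 14442118),Int.ofNat (nat_lit 19569448),Int.negSucc (nat_lit 20304791),Int.ofNat (nat_lit 12324461),Int.negSucc (nat_lit 14920160),Int.ofNat (nat_lit 10955436),Int.negSucc (nat_lit 15009591),Int.negSucc (nat_lit 10108471),Int.negSucc (nat_lit 8875623),Int.negSucc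 (nat_lit 16373370),Int.negSucc (nat_lit 6063520),Int.ofNat (nat_lit 1978793),Int.ofNat (nat_lit 21266195),Int.ofNat (nat_lit 3724972),Int.negSucc (nat_lit 9951389),Int.ofNat (nat_lit 8573389),Int.negSucc (nat_lit 4781578),Int.ofNat (nat_lit 1536652),Int.ofNat (nat_lit 3277420),Int.ofNat (nat_lit 9704163),Int.negSucc (nat_lit 1424317),Int.ofNat (nat_lit 21542464),Int.negSucc (nat_lit 6927763),Int.ofNat (nat_lit 1254296),Int.ofNat (nat_lit 5198432),Int.ofNat (nat_lit 1128630),Int.negSucc (nat_lit 2473225),Int.negSucc (nat_lit 2644195),Int.negSucc (nat_lit 10151793),Int.ofNat (nat_lit 24600843),Int.negSucc (nat_lit 7913645),Int.negSucc (nat_lit 9376702),Int.negSucc (nat_lit 11101756),Int.negSucc (nat_lit 989787),Int.negSucc (nat_lit 640221),Int.negSucc (nat_lit 3818044),Int.negSucc (nat_lit 440520),Int.negSucc (nat_lit 1706580),Int.ofNat (nat_lit 6893240),Int.ofNat (nat_lit 374062),Int.ofNat (nat_lit 12618296),Int.ofNat (nat_lit 3676300),Int.ofNat (nat_lit 8277920),Int.ofNat (nat_lit 6625589),Int.ofNat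 (nat_lit 4145148),Int.ofNat (nat_lit 627953),Int.negSucc (nat_lit 900676),Int.ofNat (nat_lit 16260898),Int.ofNat (nat_lit 1315752),Int.ofNat (nat_lit 14056342),Int.ofNat (nat_lit 4163476),Int.ofNat (nat_lit 5197939),Int.ofNat (nat_lit 14387636),Int.negSucc (nat_lit 2045464),Int.ofNat (nat_lit 2587271),Int.ofNat (nat_lit 2556227),Int.ofNat (nat_lit 98763726)])

/-- A row. -/
noncomputable def sr6_c1_1 : List ℕ × List ℤ :=
  ([(nat_lit 0),(nat_lit 0),(nat_lit 0),(nat_lit 0),(nat_lit 0),(nat_lit 0),(nat_lit 0),(nat_lit 0),(nat_lit 0),(nat_lit 1),(nat_lit 0),(nat_lit 0)], [Int.ofNat (nat_lit 21353727),Int.ofNat (nat_lit 114168051),Int.negSucc (nat_lit 286114389),Int.negSucc (nat_lit 57589980),Int.ofNat (nat_lit 119737098),Int.ofNat (nat_lit 103616145),Int.negSucc (nat_lit 85251748),Int.negSucc (nat_lit 71094939),Int.negSucc (nat_lit 61115628),Int.ofNat (nat_lit 18183485),Int.negSucc (nat_lit 88577620),Int.negSucc (nat_lit 35522846),Int.negSucc (nat_lit 90961512),Int.ofNat (nat_lit 2576899),Int.ofNat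 (nat_lit 50431353),Int.negSucc (nat_lit 44861227),Int.negSucc (nat_lit 233428835),Int.ofNat (nat_lit 16121274),Int.negSucc (nat_lit 54575671),Int.ofNat (nat_lit 23066141),Int.ofNat (nat_lit 64054202),Int.ofNat (nat_lit 17218237),Int.ofNat (nat_lit 16802449),Int.ofNat (nat_lit 25433816),Int.ofNat (nat_lit 64814360),Int.ofNat (nat_lit 56589772),Int.ofNat (nat_lit 106196208),Int.negSucc (nat_lit 47238042),Int.ofNat (nat_lit 46752635),Int.negSucc (nat_lit 23452395),Int.negSucc (nat_lit 25876028),Int.ofNat (nat_lit 37252431),Int.negSucc (nat_lit 57687594),Int.negSucc (nat_lit 2619106),Int.ofNat (nat_lit 49300605),Int.negSucc (nat_lit 30233352),Int.negSucc (nat_lit 112618008),Int.negSucc (nat_lit 47555778),Int.negSucc (nat_lit 87976550),Int.negSucc (nat_lit 5774862),Int.negSucc (nat_lit 34400163),Int.negSucc (nat_lit 50072618),Int.negSucc (nat_lit 20255409),Int.negSucc (nat_lit 54316865),Int.ofNat (nat_lit 85310334),Int.ofNat (nat_lit 16829610),Int.ofNat (nat_lit 12107455),Int.ofNat (nat_lit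 20615956),Int.ofNat (nat_lit 54456379),Int.ofNat (nat_lit 9474090),Int.negSucc (nat_lit 44299741),Int.negSucc (nat_lit 1542562),Int.ofNat (nat_lit 21850401),Int.ofNat (nat_lit 58608306),Int.ofNat (nat_lit 18127926),Int.negSucc (nat_lit 1116915),Int.ofNat (nat_lit 28835867),Int.ofNat (nat_lit 19598165),Int.ofNat (nat_lit 12095254),Int.ofNat (nat_lit 23429597),Int.negSucc (nat_lit 36931556),Int.negSucc (nat_lit 3329875),Int.negSucc (nat_lit 10842897),Int.ofNat (nat_lit 42417892),Int.negSucc (nat_lit 73448485),Int.negSucc (nat_lit 18855662),Int.ofNat (nat_lit 21373777),Int.negSucc (nat_lit 15611820),Int.ofNat (nat_lit 9108052),Int.ofNat (nat_lit 2364517),Int.ofNat (nat_lit 9752369),Int.negSucc (nat_lit 31515031),Int.ofNat (nat_lit 5375365),Int.negSucc (nat_lit 48079089),Int.ofNat (nat_lit 290268159)])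

/-- A row. -/
noncomputable def sr6_c1_2 : List ℕ × List ℤ :=
  ([(nat_lit 0),(nat_lit 0),(nat_lit 0),(nat_lit 0),(nat_lit 0),(nat_lit 0),(nat_lit 0),(nat_lit 1),(nat_lit 0),(nat_lit 0),(nat_lit 0),(nat_lit 0)], [Int.ofNat (nat_lit 118354276),Int.ofNat (nat_lit 618291226),Int.negSucc (nat_lit 44621130),Int.negSucc (nat_lit 89936388),Int.ofNat (nat_lit 24204727),Int.ofNat (nat_lit 143688850),Int.negSucc (nat_lit 62700330),Int.negSucc (nat_lit 317122802),Int.ofNat (nat_lit 21275910),Int.negSucc (nat_lit 208706966),Int.ofNat (nat_lit 54790819),Int.ofNat (nat_lit 172172902),Int.negSucc (nat_lit 69055395),Int.ofNat (nat_lit 313967),Int.ofNat (nat_lit 81909512),Int.negSucc (nat_lit 53410806),Int.negSucc (nat_lit 93414767),Int.negSucc (nat_lit 299988741),Int.negSucc (nat_lit 31912717),Int.ofNat (nat_lit 90523026),Int.ofNat (nat_lit 53307904),Int.negSucc (nat_lit 117671323),Int.ofNat (nat_lit 10871121),Int.negSucc (nat_lit 35010639),Int.negSucc (nat_lit 48814682),Int.ofNat (nat_lit 50503276),Int.ofNat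 (nat_lit 34430941),Int.negSucc (nat_lit 15282951),Int.negSucc (nat_lit 17406345),Int.negSucc (nat_lit 18433996),Int.negSucc (nat_lit 50924434),Int.negSucc (nat_lit 18230698),Int.ofNat (nat_lit 25103423),Int.ofNat (nat_lit 3956911),Int.ofNat (nat_lit 80914650),Int.negSucc (nat_lit 40475409),Int.ofNat (nat_lit 21880246),Int.negSucc (nat_lit 6484293),Int.negSucc (nat_lit 29317213),Int.negSucc (nat_lit 78177601),Int.negSucc (nat_lit 28573557),Int.ofNat (nat_lit 26087431),Int.negSucc (nat_lit 7156996),Int.negSucc (nat_lit 7223035),Int.ofNat (nat_lit 74429155),Int.ofNat (nat_lit 59855456),Int.negSucc (nat_lit 20102615),Int.ofNat (nat_lit 25042066),Int.ofNat (nat_lit 55616605),Int.ofNat (nat_lit 58485327),Int.ofNat (nat_lit 13144590),Int.negSucc (nat_lit 46296519),Int.ofNat (nat_lit 71319077),Int.ofNat (nat_lit 31752498),Int.negSucc (nat_lit 1208876),Int.ofNat (nat_lit 9695544),Int.negSucc (nat_lit 11707531),Int.ofNat (nat_lit 6759463),Int.ofNat (nat_lit 4151008),Int.negSucc (nat_lit 4109112),Int.ofNat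 (nat_lit 24878706),Int.negSucc (nat_lit 4371368),Int.negSucc (nat_lit 25993305),Int.ofNat (nat_lit 21920351),Int.negSucc (nat_lit 24848779),Int.negSucc (nat_lit 5848196),Int.ofNat (nat_lit 7437027),Int.ofNat (nat_lit 7584357),Int.negSucc (nat_lit 2420799),Int.negSucc (nat_lit 30644548),Int.negSucc (nat_lit 10379732),Int.ofNat (nat_lit 25713152),Int.ofNat (nat_lit 195773),Int.negSucc (nat_lit 151066788),Int.negSucc (nat_lit 21316454),Int.ofNat (nat_lit 551264736)])

/-- A row. -/
noncomputable def sr6_c1_3 : List ℕ × List ℤ :=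
  ([(nat_lit 0),(nat_lit 0),(nat_lit 0),(nat_lit 0),(nat_lit 0),(nat_lit 1),(nat_lit 0),(nat_lit 0),(nat_lit 0),(nat_lit 0),(nat_lit 0),(nat_lit 0)], [Int.ofNat (nat_lit 625442722),Int.ofNat (nat_lit 180767860),Int.negSucc (nat_lit 97818005),Int.negSucc (nat_lit 514158231),Int.ofNat (nat_lit 436056895),Int.negSucc (nat_lit 293900101),Int.ofNat (nat_lit 275636936),Int.ofNat (nat_lit 13200807),Int.ofNat (nat_lit 98015773),Int.ofNat (nat_lit 26923331),Int.negSucc (nat_lit 85690747),Int.negSucc (nat_lit 8748784),Int.negSucc (nat_lit 41734589),Int.ofNat (nat_lit 31590040),Int.ofNat (nat_lit 7768974),Int.negSucc (nat_lit 51717558),Int.negSucc (nat_lit 73634623),Int.ofNat (nat_lit 120243595),Int.negSucc (nat_lit 196706553),Int.negSucc (nat_lit 129435540),Int.negSucc (nat_lit 4760799),Int.ofNat (nat_lit 68356327),Int.ofNat (nat_lit 92250323),Int.ofNat (nat_lit 30115653),Int.negSucc (nat_lit 58693315),Int.negSucc (nat_lit 84902090),Int.ofNat (nat_lit 9011563),Int.negSucc (nat_lit 12560354),Int.ofNat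 (nat_lit 125176720),Int.ofNat (nat_lit 7619252),Int.negSucc (nat_lit 4705698),Int.ofNat (nat_lit 73881420),Int.negSucc (nat_lit 50357896),Int.ofNat (nat_lit 29554126),Int.ofNat (nat_lit 92211386),Int.negSucc (nat_lit 1459985),Int.negSucc (nat_lit 126698886),Int.ofNat (nat_lit 55966818),Int.negSucc (nat_lit 103003027),Int.ofNat (nat_lit 2805508),Int.ofNat (nat_lit 7203430),Int.negSucc (nat_lit 123345881),Int.negSucc (nat_lit 6961436),Int.ofNat (nat_lit 16605261),Int.ofNat (nat_lit 60508962),Int.negSucc (nat_lit 61487732),Int.ofNat (nat_lit 4886562),Int.negSucc (nat_lit 56924612),Int.ofNat (nat_lit 76659837),Int.negSucc (nat_lit 408896),Int.negSucc (nat_lit 35810091),Int.negSucc (nat_lit 4493907),Int.negSucc (nat_lit 22508618),Int.ofNat (nat_lit 64823185),Int.ofNat (nat_lit 58197169),Int.negSucc (nat_lit 32168275),Int.negSucc (nat_lit 81246230),Int.ofNat (nat_lit 9843459),Int.ofNat (nat_lit 356288),Int.negSucc (nat_lit 8804485),Int.ofNat (nat_lit 838044),Int.negSucc (nat_lit 57564855),Int.negSucc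 (nat_lit 25929987),Int.ofNat (nat_lit 285552),Int.negSucc (nat_lit 29270280),Int.negSucc (nat_lit 72339353),Int.negSucc (nat_lit 5069223),Int.ofNat (nat_lit 69419856),Int.negSucc (nat_lit 46140498),Int.ofNat (nat_lit 26756843),Int.ofNat (nat_lit 22836597),Int.negSucc (nat_lit 42588641),Int.ofNat (nat_lit 787219),Int.ofNat (nat_lit 180067145),Int.ofNat (nat_lit 55024334),Int.negSucc (nat_lit 58729665),Int.ofNat (nat_lit 784966608)])

/-- A row. -/
noncomputable def sr6_c1_4 : List ℕ × List ℤ :=
  ([(nat_lit 0),(nat_lit 0),(nat_lit 0),(nat_lit 0),(nat_lit 1),(nat_lit 1),(nat_lit 0),(nat_lit 0),(nat_lit 0),(nat_lit 0),(nat_lit 0),(nat_lit 0)], [Int.negSucc (nat_lit 167588387),Int.ofNat (nat_lit 59733832),Int.ofNat (nat_lit 107265603),Int.ofNat (nat_lit 153988346),Int.negSucc (nat_lit 23862313),Int.ofNat (nat_lit 74464785),Int.negSucc (nat_lit 155306640),Int.ofNat (nat_lit 39432731),Int.ofNat (nat_lit 19908134),Int.ofNat (nat_lit 56871275),Int.ofNat (nat_lit 23694549),Int.ofNat (nat_lit 3946049),Int.ofNat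 (nat_lit 70669418),Int.negSucc (nat_lit 12995701),Int.negSucc (nat_lit 23327793),Int.ofNat (nat_lit 12412692),Int.ofNat (nat_lit 71694894),Int.negSucc (nat_lit 16674638),Int.negSucc (nat_lit 10965295),Int.negSucc (nat_lit 6315178),Int.negSucc (nat_lit 7169781),Int.ofNat (nat_lit 4521735),Int.negSucc (nat_lit 2498296),Int.negSucc (nat_lit 31652150),Int.ofNat (nat_lit 7836743),Int.negSucc (nat_lit 5094425),Int.negSucc (nat_lit 32429622),Int.ofNat (nat_lit 2936365),Int.negSucc (nat_lit 42827043),Int.ofNat (nat_lit 31080048),Int.ofNat (nat_lit 8834154),Int.negSucc (nat_lit 26625903),Int.ofNat (nat_lit 37462035),Int.negSucc (nat_lit 9999206),Int.negSucc (nat_lit 26414192),Int.negSucc (nat_lit 8397193),Int.ofNat (nat_lit 30282366),Int.ofNat (nat_lit 11758542),Int.ofNat (nat_lit 71831941),Int.negSucc (nat_lit 15661789),Int.negSucc (nat_lit 2808432),Int.negSucc (nat_lit 3752903),Int.negSucc (nat_lit 20621288),Int.ofNat (nat_lit 23483948),Int.negSucc (nat_lit 39149075),Int.ofNat (nat_lit 5020319),Int.ofNat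 (nat_lit 25696749),Int.ofNat (nat_lit 15340356),Int.negSucc (nat_lit 41755280),Int.negSucc (nat_lit 20213693),Int.ofNat (nat_lit 23224621),Int.ofNat (nat_lit 9489775),Int.negSucc (nat_lit 16451775),Int.negSucc (nat_lit 31083915),Int.negSucc (nat_lit 38255001),Int.ofNat (nat_lit 31707559),Int.ofNat (nat_lit 4987535),Int.ofNat (nat_lit 18302207),Int.negSucc (nat_lit 7098686),Int.negSucc (nat_lit 786558),Int.ofNat (nat_lit 7752989),Int.ofNat (nat_lit 5540308),Int.ofNat (nat_lit 11496686),Int.negSucc (nat_lit 25937468),Int.ofNat (nat_lit 24266757),Int.ofNat (nat_lit 6289357),Int.ofNat (nat_lit 2113410),Int.negSucc (nat_lit 1406078),Int.ofNat (nat_lit 2527232),Int.ofNat (nat_lit 16317137),Int.negSucc (nat_lit 8627820),Int.ofNat (nat_lit 5965307),Int.ofNat (nat_lit 20863702),Int.ofNat (nat_lit 18306210),Int.negSucc (nat_lit 38569647),Int.negSucc (nat_lit 12804041),Int.negSucc (nat_lit 47921730),Int.ofNat (nat_lit 215564872)])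

/-- A row. -/
noncomputable def sr6_c1_5 : List ℕ × List ℤ :=
  ([(nat_lit 0),(nat_lit 0),(nat_lit 0),(nat_lit 1),(nat_lit 0),(nat_lit 0),(nat_lit 0),(nat_lit 0),(nat_lit 0),(nat_lit 0),(nat_lit 0),(nat_lit 0)], [Int.negSucc (nat_lit 758398970),Int.ofNat (nat_lit 304630422),Int.negSucc (nat_lit 328606772),Int.negSucc (nat_lit 206359885),Int.ofNat (nat_lit 202404957),Int.negSucc (nat_lit 101277179),Int.negSucc (nat_lit 87505292),Int.negSucc (nat_lit 208506993),Int.negSucc (nat_lit 220025257),Int.negSucc (nat_lit 200251307),Int.negSucc (nat_lit 238301573),Int.negSucc (nat_lit 40717319),Int.negSucc (nat_lit 116919604),Int.negSucc (nat_lit 143094823),Int.ofNat (nat_lit 216021379),Int.negSucc (nat_lit 118094771),Int.negSucc (nat_lit 82905337),Int.ofNat (nat_lit 152302223),Int.ofNat (nat_lit 53436978),Int.negSucc (nat_lit 210275510),Int.ofNat (nat_lit 296505368),Int.negSucc (nat_lit 48759131),Int.negSucc (nat_lit 211628250),Int.ofNat (nat_lit 227361140),Int.negSucc (nat_lit 129350479),Int.ofNat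 (nat_lit 83210555),Int.ofNat (nat_lit 275690095),Int.negSucc (nat_lit 240831279),Int.ofNat (nat_lit 81268824),Int.negSucc (nat_lit 103294462),Int.ofNat (nat_lit 48948655),Int.ofNat (nat_lit 159140603),Int.negSucc (nat_lit 139471600),Int.ofNat (nat_lit 39230338),Int.ofNat (nat_lit 5580368),Int.ofNat (nat_lit 54565539),Int.negSucc (nat_lit 250579951),Int.negSucc (nat_lit 234923840),Int.negSucc (nat_lit 250611089),Int.ofNat (nat_lit 36393145),Int.ofNat (nat_lit 54994277),Int.ofNat (nat_lit 109848567),Int.ofNat (nat_lit 6436853),Int.negSucc (nat_lit 161847475),Int.ofNat (nat_lit 124472935),Int.ofNat (nat_lit 47912322),Int.ofNat (nat_lit 3938867),Int.ofNat (nat_lit 46545017),Int.ofNat (nat_lit 84511350),Int.negSucc (nat_lit 22016408),Int.ofNat (nat_lit 57825439),Int.negSucc (nat_lit 65523908),Int.negSucc (nat_lit 145838466),Int.ofNat (nat_lit 160578366),Int.ofNat (nat_lit 85066177),Int.negSucc (nat_lit 7657457),Int.ofNat (nat_lit 131706),Int.negSucc (nat_lit 29434551),Int.ofNat (nat_lit 67255679),Int.ofNat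 (nat_lit 58208468),Int.ofNat (nat_lit 5288343),Int.negSucc (nat_lit 18690869),Int.ofNat (nat_lit 87711077),Int.ofNat (nat_lit 160689437),Int.ofNat (nat_lit 86540495),Int.ofNat (nat_lit 125651021),Int.negSucc (nat_lit 145817262),Int.negSucc (nat_lit 93413143),Int.ofNat (nat_lit 33153947),Int.negSucc (nat_lit 178566936),Int.ofNat (nat_lit 14225974),Int.negSucc (nat_lit 12909478),Int.ofNat (nat_lit 120712732),Int.negSucc (nat_lit 266965916),Int.ofNat (nat_lit 199728242),Int.ofNat (nat_lit 184112299),Int.negSucc (nat_lit 448960096),Int.negSucc (nat_lit 165324866),Int.ofNat (nat_lit 1214817777)])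

/-- A row. -/
noncomputable def sr6_c1_6 : List ℕ × List ℤ :=
  ([(nat_lit 0),(nat_lit 0),(nat_lit 0),(nat_lit 1),(nat_lit 0),(nat_lit 0),(nat_lit 1),(nat_lit 0),(nat_lit 0),(nat_lit 0),(nat_lit 0),(nat_lit 0)], [Int.negSucc (nat_lit 81365056),Int.negSucc (nat_lit 369541589),Int.ofNat (nat_lit 28706787),Int.negSucc (nat_lit 258242977),Int.ofNat (nat_lit 290153481),Int.negSucc (nat_lit 163652473),Int.ofNat (nat_lit 23502428),Int.ofNat (nat_lit 110407579),Int.ofNat (nat_lit 61033207),Int.ofNat (nat_lit 81481264),Int.negSucc (nat_lit 16953666),Int.ofNat (nat_lit 11167507),Int.ofNat (nat_lit 29717143),Int.ofNat (nat_lit 11307888),Int.ofNat (nat_lit 7474715),Int.negSucc (nat_lit 9131753),Int.ofNat (nat_lit 12462219),Int.ofNat (nat_lit 24105694),Int.ofNat (nat_lit 40171003),Int.negSucc (nat_lit 37516716),Int.ofNat (nat_lit 85613037),Int.negSucc (nat_lit 85363535),Int.ofNat (nat_lit 10140555),Int.negSucc (nat_lit 62877654),Int.negSucc (nat_lit 17090362),Int.negSucc (nat_lit 43856187),Int.negSucc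 (nat_lit 14550663),Int.negSucc (nat_lit 17495438),Int.negSucc (nat_lit 12545669),Int.ofNat (nat_lit 32496622),Int.negSucc (nat_lit 9516208),Int.negSucc (nat_lit 24533044),Int.ofNat (nat_lit 39025121),Int.negSucc (nat_lit 13896134),Int.negSucc (nat_lit 1089330),Int.ofNat (nat_lit 43048841),Int.negSucc (nat_lit 1214274),Int.negSucc (nat_lit 28959780),Int.ofNat (nat_lit 57620362),Int.negSucc (nat_lit 6162962),Int.negSucc (nat_lit 7606986),Int.ofNat (nat_lit 43850964),Int.ofNat (nat_lit 11599788),Int.negSucc (nat_lit 17220928),Int.negSucc (nat_lit 32929422),Int.negSucc (nat_lit 4555800),Int.ofNat (nat_lit 57146225),Int.negSucc (nat_lit 15255287),Int.ofNat (nat_lit 6517414),Int.negSucc (nat_lit 17513551),Int.ofNat (nat_lit 25739703),Int.negSucc (nat_lit 24219574),Int.negSucc (nat_lit 11669457),Int.negSucc (nat_lit 34120542),Int.ofNat (nat_lit 8398523),Int.negSucc (nat_lit 6455568),Int.ofNat (nat_lit 7622826),Int.ofNat (nat_lit 34301637),Int.ofNat (nat_lit 27244260),Int.ofNat (nat_lit 26780947),Int.ofNat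 (nat_lit 15847404),Int.ofNat (nat_lit 17363479),Int.ofNat (nat_lit 14649023),Int.ofNat (nat_lit 7739154),Int.ofNat (nat_lit 13818315),Int.negSucc (nat_lit 760995),Int.ofNat (nat_lit 11415902),Int.ofNat (nat_lit 12893435),Int.ofNat (nat_lit 4028918),Int.ofNat (nat_lit 4006180),Int.negSucc (nat_lit 4737934),Int.negSucc (nat_lit 1623861),Int.ofNat (nat_lit 18955785),Int.ofNat (nat_lit 137863617),Int.ofNat (nat_lit 5507370),Int.ofNat (nat_lit 29295207),Int.negSucc (nat_lit 1986339),Int.ofNat (nat_lit 6243689),Int.ofNat (nat_lit 62034399),Int.ofNat (nat_lit 228399515)])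

/-- A row. -/
noncomputable def sr6_c1_7 : List ℕ × List ℤ :=
  ([(nat_lit 0),(nat_lit 0),(nat_lit 0),(nat_lit 1),(nat_lit 1),(nat_lit 0),(nat_lit 0),(nat_lit 0),(nat_lit 0),(nat_lit 0),(nat_lit 0),(nat_lit 0)], [Int.negSucc (nat_lit 220528424),Int.negSucc (nat_lit 941956916),Int.ofNat (nat_lit 166456829),Int.ofNat (nat_lit 46259419),Int.negSucc (nat_lit 833376676),Int.negSucc (nat_lit 99722491),Int.negSucc (nat_lit 38540982),Int.ofNat (nat_lit 29295726),Int.ofNat (nat_lit 299629484),Int.negSucc (nat_lit 23708611),Int.negSucc (nat_lit 24365938),Int.negSucc (nat_lit 265206717),Int.ofNat (nat_lit 134468163),Int.ofNat (nat_lit 200527049),Int.negSucc (nat_lit 225359519),Int.ofNat (nat_lit 153722014),Int.ofNat (nat_lit 4843567),Int.negSucc (nat_lit 186286790),Int.ofNat (nat_lit 131031423),Int.ofNat (nat_lit 127743545),Int.negSucc (nat_lit 656080299),Int.ofNat (nat_lit 344055058),Int.ofNat (nat_lit 126400373),Int.ofNat (nat_lit 30771304),Int.ofNat (nat_lit 134845469),Int.negSucc (nat_lit 142040725),Int.negSucc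 (nat_lit 111013262),Int.ofNat (nat_lit 209621863),Int.ofNat (nat_lit 47296206),Int.ofNat (nat_lit 127908732),Int.ofNat (nat_lit 81220512),Int.negSucc (nat_lit 69213633),Int.negSucc (nat_lit 13724264),Int.ofNat (nat_lit 720378),Int.negSucc (nat_lit 66156916),Int.negSucc (nat_lit 247288443),Int.ofNat (nat_lit 52748176),Int.ofNat (nat_lit 87158804),Int.ofNat (nat_lit 183586697),Int.ofNat (nat_lit 5988186),Int.negSucc (nat_lit 9730175),Int.negSucc (nat_lit 169393746),Int.negSucc (nat_lit 12329635),Int.ofNat (nat_lit 124956592),Int.negSucc (nat_lit 113499884),Int.negSucc (nat_lit 159695938),Int.negSucc (nat_lit 69898239),Int.negSucc (nat_lit 52393851),Int.negSucc (nat_lit 97273296),Int.negSucc (nat_lit 47934787),Int.negSucc (nat_lit 75764895),Int.ofNat (nat_lit 84751884),Int.negSucc (nat_lit 29165911),Int.negSucc (nat_lit 38631855),Int.negSucc (nat_lit 203889697),Int.ofNat (nat_lit 77636189),Int.ofNat (nat_lit 25583987),Int.negSucc (nat_lit 13555439),Int.negSucc (nat_lit 42162592),Int.negSucc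 (nat_lit 60882532),Int.negSucc (nat_lit 26102296),Int.ofNat (nat_lit 25746068),Int.negSucc (nat_lit 55433105),Int.negSucc (nat_lit 34282208),Int.negSucc (nat_lit 70770601),Int.negSucc (nat_lit 51051062),Int.ofNat (nat_lit 41437893),Int.ofNat (nat_lit 32311277),Int.negSucc (nat_lit 41482802),Int.ofNat (nat_lit 79481350),Int.ofNat (nat_lit 42361071),Int.negSucc (nat_lit 16379994),Int.negSucc (nat_lit 80559940),Int.ofNat (nat_lit 226743769),Int.ofNat (nat_lit 66888379),Int.negSucc (nat_lit 306263960),Int.ofNat (nat_lit 64919575),Int.ofNat (nat_lit 161073946),Int.negSucc (nat_lit 712345258),Int.negSucc (nat_lit 266400674),Int.ofNat (nat_lit 721077866)])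

/-- A row. -/
noncomputable def sr6_c1_8 : List ℕ × List ℤ :=
  ([(nat_lit 0),(nat_lit 0),(nat_lit 0),(nat_lit 3),(nat_lit 0),(nat_lit 0),(nat_lit 0),(nat_lit 0),(nat_lit 0),(nat_lit 0),(nat_lit 0),(nat_lit 0)], [Int.negSucc (nat_lit 113873404),Int.negSucc (nat_lit 30062935),Int.negSucc (nat_lit 147761943),Int.ofNat (nat_lit 177654984),Int.negSucc (nat_lit 265625538),Int.negSucc (nat_lit 214320070),Int.negSucc (nat_lit 14919060),Int.ofNat (nat_lit 49079295),Int.ofNat (nat_lit 92417616),Int.negSucc (nat_lit 268745139),Int.ofNat (nat_lit 32298214),Int.negSucc (nat_lit 74059384),Int.negSucc (nat_lit 66491995),Int.ofNat (nat_lit 60778198),Int.negSucc (nat_lit 136401458),Int.ofNat (nat_lit 48064632),Int.ofNat (nat_lit 64295782),Int.negSucc (nat_lit 108088256),Int.negSucc (nat_lit 53719451),Int.ofNat (nat_lit 86323215),Int.negSucc (nat_lit 72581303),Int.ofNat (nat_lit 57438411),Int.ofNat (nat_lit 67774155),Int.negSucc (nat_lit 29123053),Int.ofNat (nat_lit 45431879),Int.negSucc (nat_lit 19375707),Int.negSucc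 (nat_lit 213119363),Int.ofNat (nat_lit 72601871),Int.negSucc (nat_lit 10496143),Int.ofNat (nat_lit 55668846),Int.ofNat (nat_lit 78658864),Int.negSucc (nat_lit 13008982),Int.ofNat (nat_lit 18051065),Int.ofNat (nat_lit 4770515),Int.ofNat (nat_lit 24482105),Int.negSucc (nat_lit 142016216),Int.ofNat (nat_lit 95192924),Int.ofNat (nat_lit 70851446),Int.ofNat (nat_lit 80955414),Int.ofNat (nat_lit 5472857),Int.ofNat (nat_lit 34595034),Int.negSucc (nat_lit 87137027),Int.negSucc (nat_lit 11621201),Int.negSucc (nat_lit 23101375),Int.negSucc (nat_lit 26050978),Int.negSucc (nat_lit 52649847),Int.negSucc (nat_lit 17387324),Int.negSucc (nat_lit 48557286),Int.ofNat (nat_lit 13041450),Int.negSucc (nat_lit 12534644),Int.ofNat (nat_lit 2116427),Int.ofNat (nat_lit 23689394),Int.negSucc (nat_lit 2482993),Int.ofNat (nat_lit 24386627),Int.negSucc (nat_lit 75201788),Int.negSucc (nat_lit 83864006),Int.ofNat (nat_lit 4824458),Int.negSucc (nat_lit 17760546),Int.negSucc (nat_lit 60099293),Int.negSucc (nat_lit 25647249),Int.negSucc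 (nat_lit 2214289),Int.negSucc (nat_lit 2563632),Int.negSucc (nat_lit 18600239),Int.negSucc (nat_lit 17505618),Int.negSucc (nat_lit 14704468),Int.negSucc (nat_lit 21903121),Int.ofNat (nat_lit 3070328),Int.ofNat (nat_lit 18611245),Int.ofNat (nat_lit 7148879),Int.ofNat (nat_lit 21687365),Int.ofNat (nat_lit 11154350),Int.ofNat (nat_lit 28326523),Int.negSucc (nat_lit 46236292),Int.negSucc (nat_lit 8420087),Int.negSucc (nat_lit 87070560),Int.negSucc (nat_lit 82929771),Int.ofNat (nat_lit 81594998),Int.ofNat (nat_lit 62569308),Int.negSucc (nat_lit 220811874),Int.negSucc (nat_lit 129715382),Int.ofNat (nat_lit 109966518),Int.ofNat (nat_lit 348056541)])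

/-- A row. -/
noncomputable def sr6_c1_9 : List ℕ × List ℤ :=
  ([(nat_lit 0),(nat_lit 0),(nat_lit 1),(nat_lit 0),(nat_lit 0),(nat_lit 0),(nat_lit 0),(nat_lit 1),(nat_lit 0),(nat_lit 0),(nat_lit 0),(nat_lit 0)], [Int.negSucc (nat_lit 92693556),Int.negSucc (nat_lit 181060658),Int.negSucc (nat_lit 123839997),Int.negSucc (nat_lit 68177511),Int.negSucc (nat_lit 137942503),Int.ofNat (nat_lit 141650776),Int.negSucc (nat_lit 50117900),Int.negSucc (nat_lit 139596360),Int.negSucc (nat_lit 56701540),Int.negSucc (nat_lit 65214747),Int.negSucc (nat_lit 40362262),Int.negSucc (nat_lit 36357464),Int.negSucc (nat_lit 24202604),Int.negSucc (nat_lit 16740401),Int.ofNat (nat_lit 22018009),Int.ofNat (nat_lit 2454526),Int.negSucc (nat_lit 107655880),Int.ofNat (nat_lit 314130),Int.ofNat (nat_lit 2551393),Int.ofNat (nat_lit 22930357),Int.negSucc (nat_lit 51100959),Int.ofNat (nat_lit 42203850),Int.ofNat (nat_lit 4568192),Int.ofNat (nat_lit 34933069),Int.ofNat (nat_lit 18855430),Int.ofNat (nat_lit 23628731),Int.ofNat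 (nat_lit 49855723),Int.ofNat (nat_lit 5640544),Int.ofNat (nat_lit 29329549),Int.negSucc (nat_lit 20103609),Int.negSucc (nat_lit 4490642),Int.ofNat (nat_lit 20493866),Int.negSucc (nat_lit 12424680),Int.ofNat (nat_lit 2785081),Int.ofNat (nat_lit 20556063),Int.ofNat (nat_lit 14004874),Int.negSucc (nat_lit 20095397),Int.negSucc (nat_lit 11515217),Int.negSucc (nat_lit 35426576),Int.negSucc (nat_lit 19929105),Int.negSucc (nat_lit 10143329),Int.negSucc (nat_lit 19309131),Int.ofNat (nat_lit 5195045),Int.ofNat (nat_lit 20915781),Int.ofNat (nat_lit 47095484),Int.ofNat (nat_lit 20227916),Int.ofNat (nat_lit 8334656),Int.ofNat (nat_lit 10684650),Int.ofNat (nat_lit 19416191),Int.ofNat (nat_lit 309551),Int.negSucc (nat_lit 22437047),Int.ofNat (nat_lit 8278477),Int.ofNat (nat_lit 8289745),Int.ofNat (nat_lit 20338128),Int.ofNat (nat_lit 20400963),Int.negSucc (nat_lit 17260228),Int.ofNat (nat_lit 18130744),Int.ofNat (nat_lit 9812329),Int.ofNat (nat_lit 8928090),Int.negSucc (nat_lit 4578724),Int.negSucc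 (nat_lit 7294822),Int.ofNat (nat_lit 6550170),Int.negSucc (nat_lit 21665001),Int.ofNat (nat_lit 22640069),Int.ofNat (nat_lit 198618),Int.ofNat (nat_lit 1132125),Int.ofNat (nat_lit 10208559),Int.ofNat (nat_lit 863055),Int.negSucc (nat_lit 6616142),Int.ofNat (nat_lit 16294543),Int.ofNat (nat_lit 5175464),Int.ofNat (nat_lit 9531123),Int.ofNat (nat_lit 2313737),Int.ofNat (nat_lit 24954667),Int.ofNat (nat_lit 56502199),Int.ofNat (nat_lit 57199153),Int.negSucc (nat_lit 25854906),Int.negSucc (nat_lit 19315944),Int.negSucc (nat_lit 32104362),Int.negSucc (nat_lit 57652276),Int.negSucc (nat_lit 17724837),Int.negSucc (nat_lit 26498760),Int.ofNat (nat_lit 206215879)])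

/-- A row. -/
noncomputable def sr6_c1_10 : List ℕ × List ℤ :=
  ([(nat_lit 0),(nat_lit 0),(nat_lit 1),(nat_lit 0),(nat_lit 0),(nat_lit 1),(nat_lit 0),(nat_lit 0),(nat_lit 0),(nat_lit 0),(nat_lit 0),(nat_lit 0)], [Int.ofNat (nat_lit 544583272),Int.negSucc (nat_lit 120660172),Int.negSucc (nat_lit 403710549),Int.negSucc (nat_lit 562520590),Int.ofNat (nat_lit 913153835),Int.negSucc (nat_lit 572972774),Int.ofNat (nat_lit 342063022),Int.negSucc (nat_lit 191555634),Int.ofNat (nat_lit 314103781),Int.negSucc (nat_lit 137422686),Int.ofNat (nat_lit 27932252),Int.ofNat (nat_lit 217233536),Int.negSucc (nat_lit 316488928),Int.negSucc (nat_lit 33358023),Int.ofNat (nat_lit 135038327),Int.negSucc (nat_lit 165993043),Int.negSucc (nat_lit 73965454),Int.ofNat (nat_lit 88654538),Int.negSucc (nat_lit 145278473),Int.negSucc (nat_lit 197672630),Int.ofNat (nat_lit 647000478),Int.negSucc (nat_lit 482185379),Int.negSucc (nat_lit 10301145),Int.negSucc (nat_lit 54398177),Int.negSucc (nat_lit 103971384),Int.ofNat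 (nat_lit 31117803),Int.negSucc (nat_lit 18628720),Int.negSucc (nat_lit 147994588),Int.ofNat (nat_lit 80079400),Int.ofNat (nat_lit 19872135),Int.negSucc (nat_lit 18289500),Int.ofNat (nat_lit 60606572),Int.negSucc (nat_lit 122393717),Int.ofNat (nat_lit 36916968),Int.ofNat (nat_lit 146856652),Int.ofNat (nat_lit 43453604),Int.negSucc (nat_lit 77772866),Int.negSucc (nat_lit 43155416),Int.negSucc (nat_lit 140628274),Int.ofNat (nat_lit 14778411),Int.ofNat (nat_lit 44430327),Int.negSucc (nat_lit 53798085),Int.ofNat (nat_lit 10606502),Int.negSucc (nat_lit 148939793),Int.ofNat (nat_lit 179132772),Int.negSucc (nat_lit 64453534),Int.ofNat (nat_lit 35865903),Int.negSucc (nat_lit 88139990),Int.ofNat (nat_lit 103346665),Int.ofNat (nat_lit 55550248),Int.ofNat (nat_lit 23571346),Int.negSucc (nat_lit 59409066),Int.ofNat (nat_lit 96361138),Int.ofNat (nat_lit 143453061),Int.ofNat (nat_lit 97313269),Int.ofNat (nat_lit 22714200),Int.negSucc (nat_lit 59941005),Int.ofNat (nat_lit 32331543),Int.negSucc (nat_lit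 23271451),Int.ofNat (nat_lit 76167906),Int.negSucc (nat_lit 14740492),Int.negSucc (nat_lit 73299289),Int.negSucc (nat_lit 7567320),Int.ofNat (nat_lit 34010531),Int.negSucc (nat_lit 41320696),Int.negSucc (nat_lit 1130296),Int.ofNat (nat_lit 47224176),Int.ofNat (nat_lit 754219),Int.ofNat (nat_lit 52638618),Int.negSucc (nat_lit 30439929),Int.negSucc (nat_lit 21341379),Int.negSucc (nat_lit 642827),Int.negSucc (nat_lit 17479555),Int.ofNat (nat_lit 207232887),Int.negSucc (nat_lit 13306660),Int.ofNat (nat_lit 107136956),Int.ofNat (nat_lit 398222574),Int.negSucc (nat_lit 243841971),Int.ofNat (nat_lit 268646061),Int.ofNat (nat_lit 42564069),Int.negSucc (nat_lit 173584741),Int.ofNat (nat_lit 140326510),Int.negSucc (nat_lit 199311931),Int.ofNat (nat_lit 663894914)])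

/-- A row. -/
noncomputable def sr6_c1_11 : List ℕ × List ℤ :=
  ([(nat_lit 0),(nat_lit 0),(nat_lit 1),(nat_lit 1),(nat_lit 0),(nat_lit 0),(nat_lit 0),(nat_lit 0),(nat_lit 0),(nat_lit 0),(nat_lit 0),(nat_lit 0)], [Int.negSucc (nat_lit 1125383684),Int.ofNat (nat_lit 684791609),Int.negSucc (nat_lit 277083727),Int.ofNat (nat_lit 383355462),Int.negSucc (nat_lit 246674480),Int.negSucc (nat_lit 431722931),Int.negSucc (nat_lit 191505241),Int.ofNat (nat_lit 55087335),Int.negSucc (nat_lit 216267336),Int.ofNat (nat_lit 391452330),Int.negSucc (nat_lit 416129918),Int.negSucc (nat_lit 262853550),Int.negSucc (nat_lit 267852404),Int.negSucc (nat_lit 258148022),Int.negSucc (nat_lit 78568720),Int.negSucc (nat_lit 92222623),Int.ofNat (nat_lit 188111743),Int.ofNat (nat_lit 92136988),Int.negSucc (nat_lit 84748843),Int.negSucc (nat_lit 226471039),Int.ofNat (nat_lit 94256877),Int.ofNat (nat_lit 190285531),Int.negSucc (nat_lit 394626986),Int.ofNat (nat_lit 165178446),Int.negSucc (nat_lit 84214589),Int.negSucc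 (nat_lit 33432194),Int.ofNat (nat_lit 41962037),Int.negSucc (nat_lit 225619544),Int.negSucc (nat_lit 86759485),Int.ofNat (nat_lit 46001230),Int.ofNat (nat_lit 134140782),Int.ofNat (nat_lit 42121590),Int.negSucc (nat_lit 74291437),Int.negSucc (nat_lit 12203027),Int.negSucc (nat_lit 89517788),Int.negSucc (nat_lit 237568016),Int.negSucc (nat_lit 185876802),Int.negSucc (nat_lit 94983799),Int.negSucc (nat_lit 226948278),Int.ofNat (nat_lit 18576813),Int.ofNat (nat_lit 65370523),Int.negSucc (nat_lit 77941463),Int.ofNat (nat_lit 73480406),Int.negSucc (nat_lit 143750344),Int.ofNat (nat_lit 58132603),Int.ofNat (nat_lit 47603640),Int.negSucc (nat_lit 2657637),Int.ofNat (nat_lit 24666662),Int.ofNat (nat_lit 45541622),Int.negSucc (nat_lit 9737914),Int.ofNat (nat_lit 67176818),Int.negSucc (nat_lit 51996929),Int.negSucc (nat_lit 158257486),Int.ofNat (nat_lit 201230436),Int.negSucc (nat_lit 47360022),Int.ofNat (nat_lit 28284871),Int.negSucc (nat_lit 158436215),Int.negSucc (nat_lit 21284330),Int.negSucc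 (nat_lit 2829215),Int.ofNat (nat_lit 14992832),Int.negSucc (nat_lit 4557344),Int.negSucc (nat_lit 8266562),Int.ofNat (nat_lit 99463051),Int.ofNat (nat_lit 64689722),Int.ofNat (nat_lit 53762227),Int.ofNat (nat_lit 126044828),Int.negSucc (nat_lit 163668281),Int.negSucc (nat_lit 120537323),Int.ofNat (nat_lit 50607044),Int.negSucc (nat_lit 177744192),Int.ofNat (nat_lit 63024619),Int.negSucc (nat_lit 16518055),Int.ofNat (nat_lit 104546316),Int.negSucc (nat_lit 330387014),Int.ofNat (nat_lit 40176760),Int.ofNat (nat_lit 149397642),Int.negSucc (nat_lit 157493865),Int.ofNat (nat_lit 18556256),Int.ofNat (nat_lit 1011387705),Int.negSucc (nat_lit 210128828),Int.ofNat (nat_lit 109048230),Int.ofNat (nat_lit 270432738),Int.negSucc (nat_lit 212453500),Int.negSucc (nat_lit 125236110),Int.ofNat (nat_lit 704474283)])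

/-- A row. -/
noncomputable def sr6_c1_12 : List ℕ × List ℤ :=
  ([(nat_lit 0),(nat_lit 0),(nat_lit 2),(nat_lit 1),(nat_lit 0),(nat_lit 0),(nat_lit 0),(nat_lit 0),(nat_lit 0),(nat_lit 0),(nat_lit 0),(nat_lit 0)], [Int.negSucc (nat_lit 213052182),Int.ofNat (nat_lit 68028089),Int.negSucc (nat_lit 101276369),Int.ofNat (nat_lit 131509520),Int.negSucc (nat_lit 218655237),Int.negSucc (nat_lit 494516203),Int.ofNat (nat_lit 64633285),Int.ofNat (nat_lit 185578362),Int.ofNat (nat_lit 139958195),Int.negSucc (nat_lit 128475861),Int.negSucc (nat_lit 42764847),Int.negSucc (nat_lit 121239984),Int.negSucc (nat_lit 102209369),Int.ofNat (nat_lit 173224975),Int.negSucc (nat_lit 294804039),Int.ofNat (nat_lit 40290176),Int.ofNat (nat_lit 244070245),Int.negSucc (nat_lit 99460741),Int.negSucc (nat_lit 31442174),Int.ofNat (nat_lit 4144261),Int.negSucc (nat_lit 115706551),Int.ofNat (nat_lit 55820607),Int.ofNat (nat_lit 17360215),Int.negSucc (nat_lit 55329593),Int.ofNat (nat_lit 24765065),Int.negSucc (nat_lit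 84505474),Int.negSucc (nat_lit 277967919),Int.ofNat (nat_lit 44727527),Int.negSucc (nat_lit 40002050),Int.ofNat (nat_lit 102931604),Int.ofNat (nat_lit 84807710),Int.negSucc (nat_lit 42604596),Int.ofNat (nat_lit 14266862),Int.ofNat (nat_lit 1138262),Int.negSucc (nat_lit 4201092),Int.negSucc (nat_lit 154943027),Int.ofNat (nat_lit 94594138),Int.ofNat (nat_lit 69969296),Int.ofNat (nat_lit 99302364),Int.ofNat (nat_lit 44394166),Int.ofNat (nat_lit 45020467),Int.negSucc (nat_lit 88668412),Int.negSucc (nat_lit 9405911),Int.ofNat (nat_lit 22880690),Int.negSucc (nat_lit 56174433),Int.negSucc (nat_lit 72773148),Int.negSucc (nat_lit 1540482),Int.negSucc (nat_lit 52196024),Int.negSucc (nat_lit 37374866),Int.negSucc (nat_lit 20509115),Int.ofNat (nat_lit 19984506),Int.ofNat (nat_lit 14831086),Int.negSucc (nat_lit 31481438),Int.ofNat (nat_lit 12605772),Int.negSucc (nat_lit 91166296),Int.negSucc (nat_lit 13907105),Int.negSucc (nat_lit 43729769),Int.negSucc (nat_lit 87350538),Int.negSucc (nat_lit 81043168),Int.negSucc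 (nat_lit 15835916),Int.negSucc (nat_lit 2017286),Int.negSucc (nat_lit 16307306),Int.negSucc (nat_lit 10100007),Int.negSucc (nat_lit 57959822),Int.negSucc (nat_lit 30969495),Int.negSucc (nat_lit 21175980),Int.negSucc (nat_lit 14424970),Int.ofNat (nat_lit 3845151),Int.ofNat (nat_lit 2623822),Int.ofNat (nat_lit 42729997),Int.ofNat (nat_lit 30691541),Int.ofNat (nat_lit 29181109),Int.negSucc (nat_lit 46675998),Int.negSucc (nat_lit 8029018),Int.negSucc (nat_lit 166808585),Int.negSucc (nat_lit 146267837),Int.ofNat (nat_lit 113399927),Int.ofNat (nat_lit 59651466),Int.negSucc (nat_lit 189827901),Int.negSucc (nat_lit 158550522),Int.ofNat (nat_lit 139815577),Int.ofNat (nat_lit 334992008),Int.negSucc (nat_lit 113868643),Int.ofNat (nat_lit 81967410),Int.ofNat (nat_lit 177733826),Int.ofNat (nat_lit 283882146)])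

/-- A row. -/
noncomputable def sr6_c1_13 : List ℕ × List ℤ :=
  ([(nat_lit 0),(nat_lit 1),(nat_lit 0),(nat_lit 0),(nat_lit 0),(nat_lit 0),(nat_lit 0),(nat_lit 0),(nat_lit 0),(nat_lit 0),(nat_lit 0),(nat_lit 0)], [Int.negSucc (nat_lit 438840388),Int.negSucc (nat_lit 1177585200),Int.ofNat (nat_lit 671388589),Int.ofNat (nat_lit 223654051),Int.negSucc (nat_lit 1190010648),Int.ofNat (nat_lit 71700650),Int.negSucc (nat_lit 56709048),Int.negSucc (nat_lit 108761027),Int.ofNat (nat_lit 711711955),Int.ofNat (nat_lit 147436731),Int.ofNat (nat_lit 450911385),Int.ofNat (nat_lit 219804341),Int.ofNat (nat_lit 469295917),Int.ofNat (nat_lit 318101537),Int.ofNat (nat_lit 293884086),Int.ofNat (nat_lit 268135797),Int.negSucc (nat_lit 438295241),Int.ofNat (nat_lit 453573848),Int.negSucc (nat_lit 326960344),Int.negSucc (nat_lit 299712298),Int.ofNat (nat_lit 161986723),Int.ofNat (nat_lit 188275996),Int.ofNat (nat_lit 233881505),Int.negSucc (nat_lit 626994996),Int.negSucc (nat_lit 145181296),Int.ofNat (nat_lit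 104686702),Int.negSucc (nat_lit 300119753),Int.ofNat (nat_lit 361259510),Int.ofNat (nat_lit 208566944),Int.negSucc (nat_lit 80131482),Int.ofNat (nat_lit 51156658),Int.ofNat (nat_lit 121814827),Int.ofNat (nat_lit 23756814),Int.negSucc (nat_lit 24630590),Int.negSucc (nat_lit 526252915),Int.ofNat (nat_lit 16831521),Int.negSucc (nat_lit 61498949),Int.ofNat (nat_lit 265255630),Int.ofNat (nat_lit 407400151),Int.ofNat (nat_lit 43742697),Int.negSucc (nat_lit 42375948),Int.negSucc (nat_lit 3011796),Int.ofNat (nat_lit 37706795),Int.ofNat (nat_lit 217216200),Int.negSucc (nat_lit 151209091),Int.negSucc (nat_lit 72578358),Int.negSucc (nat_lit 4444001),Int.ofNat (nat_lit 52979018),Int.negSucc (nat_lit 65674113),Int.negSucc (nat_lit 130809487),Int.ofNat (nat_lit 206286357),Int.ofNat (nat_lit 66682918),Int.negSucc (nat_lit 13796446),Int.negSucc (nat_lit 107785021),Int.negSucc (nat_lit 29595315),Int.negSucc (nat_lit 142871166),Int.ofNat (nat_lit 30329883),Int.ofNat (nat_lit 31526275),Int.ofNat (nat_lit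 177038588),Int.negSucc (nat_lit 25157934),Int.ofNat (nat_lit 34141416),Int.negSucc (nat_lit 3244920),Int.negSucc (nat_lit 6176341),Int.ofNat (nat_lit 9811261),Int.negSucc (nat_lit 145198453),Int.negSucc (nat_lit 167098852),Int.ofNat (nat_lit 32119014),Int.ofNat (nat_lit 39074687),Int.negSucc (nat_lit 98825092),Int.ofNat (nat_lit 30503085),Int.ofNat (nat_lit 28063636),Int.negSucc (nat_lit 179122589),Int.negSucc (nat_lit 183875133),Int.ofNat (nat_lit 594021568),Int.ofNat (nat_lit 186634550),Int.negSucc (nat_lit 268918108),Int.ofNat (nat_lit 610031818),Int.ofNat (nat_lit 194260335),Int.negSucc (nat_lit 746218910),Int.ofNat (nat_lit 149689535),Int.ofNat (nat_lit 85740591),Int.ofNat (nat_lit 251585935),Int.ofNat (nat_lit 50667077),Int.ofNat (nat_lit 4207703),Int.negSucc (nat_lit 101876144),Int.ofNat (nat_lit 168075442),Int.ofNat (nat_lit 1805450972)])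

/-- A row. -/
noncomputable def sr6_c1_14 : List ℕ × List ℤ :=
  ([(nat_lit 0),(nat_lit 1),(nat_lit 0),(nat_lit 0),(nat_lit 0),(nat_lit 0),(nat_lit 0),(nat_lit 0),(nat_lit 1),(nat_lit 0),(nat_lit 0),(nat_lit 0)], [Int.negSucc (nat_lit 15072506),Int.negSucc (nat_lit 122839324),Int.negSucc (nat_lit 58651759),Int.ofNat (nat_lit 247980714),Int.negSucc (nat_lit 94844234),Int.ofNat (nat_lit 72317402),Int.negSucc (nat_lit 137223491),Int.ofNat (nat_lit 178922444),Int.negSucc (nat_lit 144888048),Int.ofNat (nat_lit 122765861),Int.negSucc (nat_lit 26650876),Int.negSucc (nat_lit 188373700),Int.negSucc (nat_lit 51882107),Int.ofNat (nat_lit 41156781),Int.negSucc (nat_lit 90434049),Int.ofNat (nat_lit 32509950),Int.ofNat (nat_lit 7156759),Int.negSucc (nat_lit 125072455),Int.negSucc (nat_lit 10327409),Int.ofNat (nat_lit 68767685),Int.negSucc (nat_lit 141751568),Int.ofNat (nat_lit 178212746),Int.negSucc (nat_lit 41939944),Int.ofNat (nat_lit 82525880),Int.ofNat (nat_lit 70438856),Int.ofNat (nat_lit 57374394),Int.ofNat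 (nat_lit 9439273),Int.ofNat (nat_lit 69940226),Int.ofNat (nat_lit 27743621),Int.ofNat (nat_lit 161037867),Int.ofNat (nat_lit 119568278),Int.ofNat (nat_lit 26395804),Int.negSucc (nat_lit 19625393),Int.ofNat (nat_lit 9384296),Int.negSucc (nat_lit 87768340),Int.negSucc (nat_lit 322088534),Int.negSucc (nat_lit 45334156),Int.negSucc (nat_lit 42328905),Int.ofNat (nat_lit 2494099),Int.negSucc (nat_lit 54021268),Int.negSucc (nat_lit 17847361),Int.negSucc (nat_lit 4720508),Int.negSucc (nat_lit 7382089),Int.negSucc (nat_lit 9527204),Int.negSucc (nat_lit 8089801),Int.ofNat (nat_lit 25451769),Int.ofNat (nat_lit 24879648),Int.ofNat (nat_lit 28706680),Int.negSucc (nat_lit 4569017),Int.negSucc (nat_lit 30385482),Int.negSucc (nat_lit 38696556),Int.ofNat (nat_lit 13470898),Int.negSucc (nat_lit 8558759),Int.ofNat (nat_lit 10747538),Int.negSucc (nat_lit 10179112),Int.ofNat (nat_lit 37642725),Int.ofNat (nat_lit 38219013),Int.ofNat (nat_lit 20821497),Int.negSucc (nat_lit 7859146),Int.ofNat (nat_lit 6450858),Int.negSucc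 (nat_lit 17751477),Int.negSucc (nat_lit 3479976),Int.negSucc (nat_lit 10145712),Int.negSucc (nat_lit 20645531),Int.negSucc (nat_lit 4118184),Int.ofNat (nat_lit 4813153),Int.ofNat (nat_lit 15968622),Int.ofNat (nat_lit 3285932),Int.ofNat (nat_lit 4101760),Int.ofNat (nat_lit 18089363),Int.negSucc (nat_lit 8457151),Int.negSucc (nat_lit 16374887),Int.ofNat (nat_lit 22443253),Int.ofNat (nat_lit 16898570),Int.ofNat (nat_lit 86189591),Int.negSucc (nat_lit 45914131),Int.ofNat (nat_lit 5820525),Int.ofNat (nat_lit 40392574),Int.negSucc (nat_lit 46013894),Int.ofNat (nat_lit 3163976),Int.ofNat (nat_lit 22385325),Int.negSucc (nat_lit 18952293),Int.ofNat (nat_lit 43950920),Int.negSucc (nat_lit 26661152),Int.ofNat (nat_lit 9610523),Int.negSucc (nat_lit 49307667),Int.ofNat (nat_lit 15351786),Int.ofNat (nat_lit 261056532)])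

/-- A row. -/
noncomputable def sr6_c1_15 : List ℕ × List ℤ :=
  ([(nat_lit 0),(nat_lit 1),(nat_lit 0),(nat_lit 0),(nat_lit 0),(nat_lit 0),(nat_lit 1),(nat_lit 0),(nat_lit 0),(nat_lit 0),(nat_lit 0),(nat_lit 0)], [Int.negSucc (nat_lit 544359782),Int.ofNat (nat_lit 1048377349),Int.ofNat (nat_lit 22557945),Int.negSucc (nat_lit 303135285),Int.negSucc (nat_lit 619791035),Int.ofNat (nat_lit 331787258),Int.negSucc (nat_lit 63513200),Int.negSucc (nat_lit 190116283),Int.ofNat (nat_lit 69235304),Int.ofNat (nat_lit 199547491),Int.negSucc (nat_lit 99015455),Int.ofNat (nat_lit 41286102),Int.ofNat (nat_lit 270419940),Int.ofNat (nat_lit 185071824),Int.ofNat (nat_lit 316497003),Int.negSucc (nat_lit 34510998),Int.ofNat (nat_lit 181274110),Int.ofNat (nat_lit 564063275),Int.negSucc (nat_lit 45287561),Int.negSucc (nat_lit 145214344),Int.negSucc (nat_lit 151460413),Int.ofNat (nat_lit 319450268),Int.negSucc (nat_lit 49490689),Int.ofNat (nat_lit 278511268),Int.negSucc (nat_lit 548918115),Int.negSucc (nat_lit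 123698117),Int.ofNat (nat_lit 189935845),Int.negSucc (nat_lit 159609936),Int.ofNat (nat_lit 232168169),Int.negSucc (nat_lit 179328335),Int.ofNat (nat_lit 201084052),Int.ofNat (nat_lit 183690276),Int.negSucc (nat_lit 197035322),Int.ofNat (nat_lit 176180803),Int.negSucc (nat_lit 215052955),Int.ofNat (nat_lit 170944403),Int.negSucc (nat_lit 771481942),Int.negSucc (nat_lit 90187934),Int.negSucc (nat_lit 89731187),Int.ofNat (nat_lit 200356712),Int.negSucc (nat_lit 31644406),Int.ofNat (nat_lit 16783640),Int.negSucc (nat_lit 44406010),Int.ofNat (nat_lit 104248195),Int.ofNat (nat_lit 84918800),Int.negSucc (nat_lit 5501853),Int.ofNat (nat_lit 13973731),Int.ofNat (nat_lit 81466863),Int.negSucc (nat_lit 43963176),Int.negSucc (nat_lit 34985624),Int.ofNat (nat_lit 179649308),Int.ofNat (nat_lit 159805238),Int.ofNat (nat_lit 63795749),Int.ofNat (nat_lit 22500658),Int.negSucc (nat_lit 14902819),Int.negSucc (nat_lit 154693634),Int.negSucc (nat_lit 100417727),Int.negSucc (nat_lit 158510311),Int.negSucc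 (nat_lit 18826903),Int.negSucc (nat_lit 166621881),Int.negSucc (nat_lit 30486582),Int.negSucc (nat_lit 46669515),Int.ofNat (nat_lit 21477828),Int.negSucc (nat_lit 95484024),Int.negSucc (nat_lit 33166668),Int.negSucc (nat_lit 70467239),Int.negSucc (nat_lit 66045371),Int.negSucc (nat_lit 106271761),Int.negSucc (nat_lit 3561645),Int.negSucc (nat_lit 65167916),Int.ofNat (nat_lit 34398230),Int.negSucc (nat_lit 68360176),Int.ofNat (nat_lit 16524317),Int.negSucc (nat_lit 244748636),Int.ofNat (nat_lit 156195340),Int.negSucc (nat_lit 7520412),Int.negSucc (nat_lit 942082),Int.negSucc (nat_lit 236747662),Int.ofNat (nat_lit 212153146),Int.negSucc (nat_lit 212882114),Int.negSucc (nat_lit 153726578),Int.ofNat (nat_lit 6659579),Int.negSucc (nat_lit 178664642),Int.ofNat (nat_lit 179505361),Int.ofNat (nat_lit 153439112),Int.ofNat (nat_lit 102378690),Int.ofNat (nat_lit 357563553),Int.negSucc (nat_lit 259389902),Int.ofNat (nat_lit 994848275)])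

/-- A row. -/
noncomputable def sr6_c1_16 : List ℕ × List ℤ :=
  ([(nat_lit 0),(nat_lit 1),(nat_lit 0),(nat_lit 0),(nat_lit 1),(nat_lit 0),(nat_lit 0),(nat_lit 0),(nat_lit 0),(nat_lit 0),(nat_lit 0),(nat_lit 0)], [Int.ofNat (nat_lit 116340155),Int.ofNat (nat_lit 1464633910),Int.negSucc (nat_lit 809269845),Int.negSucc (nat_lit 246947135),Int.ofNat (nat_lit 779167799),Int.ofNat (nat_lit 84911021),Int.negSucc (nat_lit 173032436),Int.ofNat (nat_lit 425501365),Int.negSucc (nat_lit 310549738),Int.ofNat (nat_lit 408755740),Int.negSucc (nat_lit 581662752),Int.ofNat (nat_lit 111372941),Int.negSucc (nat_lit 362671354),Int.negSucc (nat_lit 363833154),Int.negSucc (nat_lit 261798540),Int.negSucc (nat_lit 370288404),Int.ofNat (nat_lit 376460779),Int.negSucc (nat_lit 218401050),Int.ofNat (nat_lit 747316507),Int.ofNat (nat_lit 176051196),Int.negSucc (nat_lit 332687674),Int.negSucc (nat_lit 186142673),Int.negSucc (nat_lit 101239071),Int.ofNat (nat_lit 206288559),Int.negSucc (nat_lit 55005644),Int.negSucc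 (nat_lit 957030754),Int.ofNat (nat_lit 310132159),Int.negSucc (nat_lit 216541717),Int.negSucc (nat_lit 322147812),Int.ofNat (nat_lit 143114439),Int.negSucc (nat_lit 228219888),Int.negSucc (nat_lit 192991459),Int.ofNat (nat_lit 252303011),Int.negSucc (nat_lit 288276804),Int.ofNat (nat_lit 537469862),Int.ofNat (nat_lit 207123745),Int.negSucc (nat_lit 236387278),Int.negSucc (nat_lit 444412058),Int.negSucc (nat_lit 456038800),Int.ofNat (nat_lit 41487926),Int.negSucc (nat_lit 10322942),Int.negSucc (nat_lit 100869367),Int.negSucc (nat_lit 154816591),Int.negSucc (nat_lit 156140673),Int.ofNat (nat_lit 179111494),Int.ofNat (nat_lit 38765093),Int.ofNat (nat_lit 64089976),Int.negSucc (nat_lit 5779079),Int.ofNat (nat_lit 196267664),Int.ofNat (nat_lit 132881040),Int.negSucc (nat_lit 279272762),Int.negSucc (nat_lit 146981667),Int.ofNat (nat_lit 6190710),Int.ofNat (nat_lit 96957550),Int.ofNat (nat_lit 237354816),Int.ofNat (nat_lit 15221618),Int.negSucc (nat_lit 229387940),Int.negSucc (nat_lit 96649552),Int.negSucc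 (nat_lit 145008294),Int.ofNat (nat_lit 11568189),Int.negSucc (nat_lit 124103766),Int.negSucc (nat_lit 98655645),Int.negSucc (nat_lit 72294853),Int.negSucc (nat_lit 61959105),Int.ofNat (nat_lit 151808881),Int.negSucc (nat_lit 65006850),Int.negSucc (nat_lit 70471016),Int.negSucc (nat_lit 10371250),Int.ofNat (nat_lit 125023316),Int.ofNat (nat_lit 17718577),Int.ofNat (nat_lit 28880415),Int.negSucc (nat_lit 2897152),Int.ofNat (nat_lit 250040958),Int.negSucc (nat_lit 549195925),Int.negSucc (nat_lit 173769766),Int.ofNat (nat_lit 146723519),Int.ofNat (nat_lit 126832085),Int.ofNat (nat_lit 324406),Int.ofNat (nat_lit 323863664),Int.negSucc (nat_lit 37700865),Int.negSucc (nat_lit 648109614),Int.negSucc (nat_lit 446451499),Int.ofNat (nat_lit 37985466),Int.negSucc (nat_lit 90456771),Int.ofNat (nat_lit 250340101),Int.negSucc (nat_lit 109729011),Int.negSucc (nat_lit 1324278288),Int.ofNat (nat_lit 66002748),Int.ofNat (nat_lit 44446857),Int.ofNat (nat_lit 1662210745)])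

/-- A row. -/
noncomputable def sr6_c1_17 : List ℕ × List ℤ :=
  ([(nat_lit 0),(nat_lit 1),(nat_lit 0),(nat_lit 1),(nat_lit 0),(nat_lit 1),(nat_lit 0),(nat_lit 0),(nat_lit 0),(nat_lit 0),(nat_lit 0),(nat_lit 0)], [Int.negSucc (nat_lit 345600056),Int.negSucc (nat_lit 231017155),Int.negSucc (nat_lit 405433840),Int.negSucc (nat_lit 1240696727),Int.ofNat (nat_lit 830389318),Int.ofNat (nat_lit 153169289),Int.ofNat (nat_lit 21107637),Int.negSucc (nat_lit 292528750),Int.negSucc (nat_lit 296473234),Int.negSucc (nat_lit 75552158),Int.negSucc (nat_lit 217121922),Int.ofNat (nat_lit 55139170),Int.ofNat (nat_lit 159087817),Int.negSucc (nat_lit 64829282),Int.ofNat (nat_lit 85016901),Int.negSucc (nat_lit 170690109),Int.ofNat (nat_lit 381100942),Int.ofNat (nat_lit 185558237),Int.negSucc (nat_lit 68516201),Int.ofNat (nat_lit 124757099),Int.negSucc (nat_lit 179717458),Int.negSucc (nat_lit 338515864),Int.negSucc (nat_lit 58889424),Int.ofNat (nat_lit 115882641),Int.negSucc (nat_lit 135450211),Int.negSucc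 (nat_lit 6518388),Int.ofNat (nat_lit 215060993),Int.negSucc (nat_lit 241535845),Int.ofNat (nat_lit 40766386),Int.ofNat (nat_lit 13028112),Int.negSucc (nat_lit 76286898),Int.ofNat (nat_lit 9267241),Int.ofNat (nat_lit 49790402),Int.ofNat (nat_lit 5009472),Int.ofNat (nat_lit 157438085),Int.ofNat (nat_lit 589504907),Int.negSucc (nat_lit 218433854),Int.negSucc (nat_lit 200078594),Int.negSucc (nat_lit 445881618),Int.ofNat (nat_lit 82051815),Int.negSucc (nat_lit 45578171),Int.ofNat (nat_lit 86718880),Int.negSucc (nat_lit 8017199),Int.ofNat (nat_lit 118491537),Int.ofNat (nat_lit 40747257),Int.negSucc (nat_lit 2829789),Int.ofNat (nat_lit 179493818),Int.ofNat (nat_lit 13091581),Int.ofNat (nat_lit 14474511),Int.ofNat (nat_lit 7541263),Int.ofNat (nat_lit 70989374),Int.negSucc (nat_lit 42658888),Int.negSucc (nat_lit 43347678),Int.ofNat (nat_lit 33015138),Int.ofNat (nat_lit 14320228),Int.negSucc (nat_lit 20242057),Int.ofNat (nat_lit 31275381),Int.ofNat (nat_lit 118703466),Int.negSucc (nat_lit 106763948),Int.negSucc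 (nat_lit 32569646),Int.ofNat (nat_lit 57615423),Int.ofNat (nat_lit 6163571),Int.negSucc (nat_lit 20849310),Int.ofNat (nat_lit 30102845),Int.ofNat (nat_lit 139563680),Int.ofNat (nat_lit 47509784),Int.ofNat (nat_lit 90226708),Int.negSucc (nat_lit 32832783),Int.negSucc (nat_lit 8604705),Int.ofNat (nat_lit 35336049),Int.negSucc (nat_lit 11746269),Int.ofNat (nat_lit 62371865),Int.ofNat (nat_lit 106175327),Int.ofNat (nat_lit 167068309),Int.negSucc (nat_lit 185631806),Int.ofNat (nat_lit 463155714),Int.negSucc (nat_lit 309129664),Int.negSucc (nat_lit 14696290),Int.ofNat (nat_lit 409026120),Int.ofNat (nat_lit 107987757),Int.negSucc (nat_lit 260034563),Int.negSucc (nat_lit 393220118),Int.ofNat (nat_lit 211432080),Int.negSucc (nat_lit 55218840),Int.ofNat (nat_lit 5749488),Int.negSucc (nat_lit 32613883),Int.negSucc (nat_lit 92765381),Int.negSucc (nat_lit 281223325),Int.ofNat (nat_lit 152677861),Int.ofNat (nat_lit 33414115),Int.ofNat (nat_lit 808406595)])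

/-- A row. -/
noncomputable def sr6_c1_18 : List ℕ × List ℤ :=
  ([(nat_lit 0),(nat_lit 1),(nat_lit 0),(nat_lit 2),(nat_lit 0),(nat_lit 0),(nat_lit 0),(nat_lit 0),(nat_lit 0),(nat_lit 0),(nat_lit 0),(nat_lit 0)], [Int.ofNat (nat_lit 552077660),Int.ofNat (nat_lit 35693882),Int.ofNat (nat_lit 134963532),Int.ofNat (nat_lit 1307135962),Int.ofNat (nat_lit 512365687),Int.ofNat (nat_lit 419717600),Int.negSucc (nat_lit 160231162),Int.negSucc (nat_lit 231732785),Int.ofNat (nat_lit 130296348),Int.ofNat (nat_lit 1047188100),Int.ofNat (nat_lit 270809347),Int.ofNat (nat_lit 733929719),Int.negSucc (nat_lit 321988944),Int.negSucc (nat_lit 440922898),Int.ofNat (nat_lit 311108808),Int.negSucc (nat_lit 166662293),Int.negSucc (nat_lit 341192084),Int.negSucc (nat_lit 298727796),Int.ofNat (nat_lit 625672737),Int.negSucc (nat_lit 1308672199),Int.ofNat (nat_lit 514274513),Int.negSucc (nat_lit 556181048),Int.negSucc (nat_lit 226117912),Int.negSucc (nat_lit 689921733),Int.ofNat (nat_lit 12532864),Int.ofNat (nat_lit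 162271010),Int.ofNat (nat_lit 388119361),Int.negSucc (nat_lit 138852505),Int.negSucc (nat_lit 611282326),Int.ofNat (nat_lit 131543807),Int.negSucc (nat_lit 1227918282),Int.negSucc (nat_lit 178863342),Int.ofNat (nat_lit 175901811),Int.negSucc (nat_lit 90204791),Int.ofNat (nat_lit 299967451),Int.negSucc (nat_lit 25692169),Int.ofNat (nat_lit 454050422),Int.ofNat (nat_lit 91474071),Int.ofNat (nat_lit 296476299),Int.negSucc (nat_lit 452707791),Int.negSucc (nat_lit 99421099),Int.ofNat (nat_lit 27504027),Int.ofNat (nat_lit 3225843),Int.negSucc (nat_lit 53629343),Int.ofNat (nat_lit 137732947),Int.ofNat (nat_lit 187567588),Int.ofNat (nat_lit 12440621),Int.ofNat (nat_lit 172199993),Int.negSucc (nat_lit 126766557),Int.ofNat (nat_lit 280727546),Int.negSucc (nat_lit 283972889),Int.negSucc (nat_lit 374165355),Int.ofNat (nat_lit 220369705),Int.negSucc (nat_lit 39640693),Int.ofNat (nat_lit 210175041),Int.ofNat (nat_lit 330933929),Int.ofNat (nat_lit 107167964),Int.ofNat (nat_lit 134067413),Int.negSucc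 (nat_lit 27089986),Int.negSucc (nat_lit 123225518),Int.negSucc (nat_lit 61584379),Int.negSucc (nat_lit 64141014),Int.negSucc (nat_lit 5641868),Int.ofNat (nat_lit 43822795),Int.negSucc (nat_lit 167677473),Int.negSucc (nat_lit 35412223),Int.ofNat (nat_lit 139027112),Int.negSucc (nat_lit 109225899),Int.ofNat (nat_lit 105647829),Int.negSucc (nat_lit 81567650),Int.negSucc (nat_lit 46446422),Int.negSucc (nat_lit 102907381),Int.ofNat (nat_lit 31267586),Int.negSucc (nat_lit 425504471),Int.ofNat (nat_lit 46518618),Int.ofNat (nat_lit 8671886),Int.negSucc (nat_lit 29983411),Int.negSucc (nat_lit 109902518),Int.ofNat (nat_lit 390329535),Int.ofNat (nat_lit 168284965),Int.negSucc (nat_lit 275805121),Int.negSucc (nat_lit 1139979111),Int.negSucc (nat_lit 214480512),Int.ofNat (nat_lit 221683044),Int.ofNat (nat_lit 64059744),Int.negSucc (nat_lit 96107366),Int.negSucc (nat_lit 486153964),Int.ofNat (nat_lit 12485160),Int.negSucc (nat_lit 390365835),Int.ofNat (nat_lit 170600254),Int.negSucc (nat_lit 487049442),Int.ofNat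 (nat_lit 1640521405)])

/-- A row. -/
noncomputable def sr6_c1_19 : List ℕ × List ℤ :=
  ([(nat_lit 0),(nat_lit 1),(nat_lit 1),(nat_lit 0),(nat_lit 0),(nat_lit 0),(nat_lit 0),(nat_lit 0),(nat_lit 0),(nat_lit 0),(nat_lit 0),(nat_lit 0)], [Int.negSucc (nat_lit 1372886743),Int.negSucc (nat_lit 3139387967),Int.negSucc (nat_lit 620331132),Int.ofNat (nat_lit 65607214),Int.negSucc (nat_lit 668244615),Int.ofNat (nat_lit 22723357),Int.negSucc (nat_lit 517670551),Int.negSucc (nat_lit 528619946),Int.ofNat (nat_lit 1010834343),Int.negSucc (nat_lit 662322272),Int.ofNat (nat_lit 471746942),Int.ofNat (nat_lit 741604487),Int.negSucc (nat_lit 119852887),Int.ofNat (nat_lit 377924078),Int.ofNat (nat_lit 282121568),Int.negSucc (nat_lit 17591440),Int.negSucc (nat_lit 552769422),Int.negSucc (nat_lit 94803115),Int.negSucc (nat_lit 77489047),Int.ofNat (nat_lit 84772857),Int.ofNat (nat_lit 736799963),Int.negSucc (nat_lit 486678690),Int.ofNat (nat_lit 49423085),Int.negSucc (nat_lit 675737876),Int.negSucc (nat_lit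 361930442),Int.ofNat (nat_lit 474160359),Int.negSucc (nat_lit 176750908),Int.negSucc (nat_lit 305014638),Int.ofNat (nat_lit 297241595),Int.ofNat (nat_lit 206655734),Int.negSucc (nat_lit 294623161),Int.ofNat (nat_lit 186694388),Int.ofNat (nat_lit 359713026),Int.negSucc (nat_lit 270288427),Int.negSucc (nat_lit 411111070),Int.negSucc (nat_lit 312035796),Int.ofNat (nat_lit 237295175),Int.ofNat (nat_lit 87406726),Int.ofNat (nat_lit 233726380),Int.negSucc (nat_lit 216324616),Int.negSucc (nat_lit 236071658),Int.ofNat (nat_lit 123061341),Int.negSucc (nat_lit 21507207),Int.negSucc (nat_lit 128348432),Int.ofNat (nat_lit 109388565),Int.negSucc (nat_lit 330621998),Int.negSucc (nat_lit 20034837),Int.ofNat (nat_lit 270316767),Int.negSucc (nat_lit 32055848),Int.ofNat (nat_lit 156067074),Int.ofNat (nat_lit 146175320),Int.negSucc (nat_lit 302490746),Int.ofNat (nat_lit 205395067),Int.ofNat (nat_lit 13433932),Int.ofNat (nat_lit 15892821),Int.ofNat (nat_lit 40378751),Int.ofNat (nat_lit 174379684),Int.ofNat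 (nat_lit 114736873),Int.ofNat (nat_lit 145688531),Int.ofNat (nat_lit 257109256),Int.negSucc (nat_lit 6184019),Int.negSucc (nat_lit 74474501),Int.negSucc (nat_lit 82403486),Int.ofNat (nat_lit 135196923),Int.ofNat (nat_lit 24496781),Int.negSucc (nat_lit 30098187),Int.ofNat (nat_lit 99491717),Int.negSucc (nat_lit 527846),Int.negSucc (nat_lit 24156829),Int.negSucc (nat_lit 55960737),Int.negSucc (nat_lit 44470813),Int.negSucc (nat_lit 59819991),Int.negSucc (nat_lit 184326570),Int.ofNat (nat_lit 963154753),Int.ofNat (nat_lit 78062056),Int.ofNat (nat_lit 230126251),Int.ofNat (nat_lit 7015596),Int.ofNat (nat_lit 254643675),Int.negSucc (nat_lit 307855402),Int.ofNat (nat_lit 416100637),Int.ofNat (nat_lit 157240129),Int.ofNat (nat_lit 185655788),Int.ofNat (nat_lit 70094239),Int.ofNat (nat_lit 362420022),Int.negSucc (nat_lit 600613233),Int.ofNat (nat_lit 252632979),Int.ofNat (nat_lit 1868670047),Int.ofNat (nat_lit 456850823),Int.negSucc (nat_lit 67762061),Int.ofNat (nat_lit 575407204),Int.negSucc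 (nat_lit 83505463),Int.ofNat (nat_lit 162529587),Int.ofNat (nat_lit 1778799327)])

/-- A row. -/
noncomputable def sr6_c1_20 : List ℕ × List ℤ :=
  ([(nat_lit 0),(nat_lit 1),(nat_lit 1),(nat_lit 0),(nat_lit 1),(nat_lit 0),(nat_lit 0),(nat_lit 0),(nat_lit 0),(nat_lit 0),(nat_lit 0),(nat_lit 0)], [Int.ofNat (nat_lit 153006024),Int.ofNat (nat_lit 149922091),Int.negSucc (nat_lit 715373711),Int.negSucc (nat_lit 668847479),Int.ofNat (nat_lit 345078031),Int.ofNat (nat_lit 299402951),Int.ofNat (nat_lit 192840404),Int.negSucc (nat_lit 210175972),Int.negSucc (nat_lit 339982039),Int.negSucc (nat_lit 393166365),Int.negSucc (nat_lit 303175776),Int.ofNat (nat_lit 54036726),Int.negSucc (nat_lit 140733784),Int.negSucc (nat_lit 63549136),Int.ofNat (nat_lit 50578424),Int.negSucc (nat_lit 158487893),Int.ofNat (nat_lit 132551174),Int.ofNat (nat_lit 116500227),Int.negSucc (nat_lit 106654501),Int.ofNat (nat_lit 88172076),Int.negSucc (nat_lit 65038111),Int.ofNat (nat_lit 49561732),Int.ofNat (nat_lit 15968447),Int.ofNat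 (nat_lit 199978837),Int.negSucc (nat_lit 78697307),Int.ofNat (nat_lit 139009478),Int.ofNat (nat_lit 234271540),Int.negSucc (nat_lit 187153657),Int.ofNat (nat_lit 135683592),Int.negSucc (nat_lit 250858717),Int.negSucc (nat_lit 69838963),Int.ofNat (nat_lit 158407442),Int.negSucc (nat_lit 99796562),Int.ofNat (nat_lit 71142591),Int.ofNat (nat_lit 265581216),Int.ofNat (nat_lit 318971036),Int.negSucc (nat_lit 243010728),Int.negSucc (nat_lit 88399406),Int.negSucc (nat_lit 499838578),Int.ofNat (nat_lit 164388681),Int.ofNat (nat_lit 58646604),Int.negSucc (nat_lit 297699594),Int.negSucc (nat_lit 66779182),Int.ofNat (nat_lit 41698767),Int.ofNat (nat_lit 232017387),Int.ofNat (nat_lit 4742375),Int.negSucc (nat_lit 3119185),Int.negSucc (nat_lit 4965595),Int.ofNat (nat_lit 139736705),Int.ofNat (nat_lit 3599145),Int.ofNat (nat_lit 45624382),Int.ofNat (nat_lit 73812917),Int.ofNat (nat_lit 54266550),Int.negSucc (nat_lit 15367192),Int.negSucc (nat_lit 4240207),Int.negSucc (nat_lit 70239833),Int.negSucc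 (nat_lit 11942177),Int.ofNat (nat_lit 3718686),Int.ofNat (nat_lit 31061288),Int.negSucc (nat_lit 99129010),Int.negSucc (nat_lit 52305092),Int.negSucc (nat_lit 55782435),Int.negSucc (nat_lit 8504689),Int.ofNat (nat_lit 71118721),Int.ofNat (nat_lit 126816574),Int.ofNat (nat_lit 8652446),Int.negSucc (nat_lit 67154972),Int.negSucc (nat_lit 54897886),Int.ofNat (nat_lit 36079036),Int.ofNat (nat_lit 37222833),Int.ofNat (nat_lit 9779803),Int.ofNat (nat_lit 47169970),Int.negSucc (nat_lit 13681989),Int.negSucc (nat_lit 239065021),Int.ofNat (nat_lit 23889647),Int.ofNat (nat_lit 118241062),Int.ofNat (nat_lit 23797533),Int.negSucc (nat_lit 319986996),Int.negSucc (nat_lit 5688261),Int.negSucc (nat_lit 268526942),Int.negSucc (nat_lit 244339869),Int.negSucc (nat_lit 157821478),Int.ofNat (nat_lit 139499243),Int.negSucc (nat_lit 3684597),Int.negSucc (nat_lit 31865133),Int.ofNat (nat_lit 35019874),Int.negSucc (nat_lit 66857254),Int.negSucc (nat_lit 104305186),Int.ofNat (nat_lit 249520191),Int.ofNat (nat_lit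 116794057),Int.ofNat (nat_lit 195018040),Int.negSucc (nat_lit 36815661),Int.negSucc (nat_lit 119914388),Int.ofNat (nat_lit 553366716)])

/-- A row. -/
noncomputable def sr6_c1_21 : List ℕ × List ℤ :=
  ([(nat_lit 0),(nat_lit 1),(nat_lit 2),(nat_lit 0),(nat_lit 0),(nat_lit 0),(nat_lit 0),(nat_lit 0),(nat_lit 0),(nat_lit 0),(nat_lit 0),(nat_lit 0)], [Int.negSucc (nat_lit 1693441077),Int.negSucc (nat_lit 1061254004),Int.negSucc (nat_lit 1093938103),Int.ofNat (nat_lit 842247984),Int.ofNat (nat_lit 71676855),Int.ofNat (nat_lit 139128488),Int.negSucc (nat_lit 943046156),Int.negSucc (nat_lit 435666581),Int.ofNat (nat_lit 117597217),Int.ofNat (nat_lit 65984748),Int.negSucc (nat_lit 53502603),Int.ofNat (nat_lit 633261870),Int.negSucc (nat_lit 736571738),Int.negSucc (nat_lit 423828636),Int.negSucc (nat_lit 71894027),Int.negSucc (nat_lit 379417548),Int.ofNat (nat_lit 13006106),Int.negSucc (nat_lit 754146598),Int.ofNat (nat_lit 234856992),Int.ofNat (nat_lit 250326743),Int.ofNat (nat_lit 913163713),Int.negSucc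 (nat_lit 870397628),Int.ofNat (nat_lit 20781483),Int.negSucc (nat_lit 420812787),Int.negSucc (nat_lit 197543429),Int.ofNat (nat_lit 220066546),Int.ofNat (nat_lit 99735283),Int.negSucc (nat_lit 394297971),Int.negSucc (nat_lit 879627291),Int.ofNat (nat_lit 293146477),Int.negSucc (nat_lit 543283985),Int.negSucc (nat_lit 139026627),Int.ofNat (nat_lit 582693516),Int.negSucc (nat_lit 298243518),Int.ofNat (nat_lit 124794156),Int.negSucc (nat_lit 499101473),Int.ofNat (nat_lit 251031897),Int.negSucc (nat_lit 150668235),Int.negSucc (nat_lit 241479029),Int.negSucc (nat_lit 428890535),Int.negSucc (nat_lit 294723642),Int.negSucc (nat_lit 6960164),Int.negSucc (nat_lit 183675504),Int.negSucc (nat_lit 363843325),Int.ofNat (nat_lit 320352377),Int.negSucc (nat_lit 59533290),Int.negSucc (nat_lit 32149156),Int.ofNat (nat_lit 339762035),Int.ofNat (nat_lit 83394090),Int.ofNat (nat_lit 417415828),Int.negSucc (nat_lit 4186739),Int.negSucc (nat_lit 393811600),Int.ofNat (nat_lit 283323100),Int.ofNat (nat_lit 107612286),Int.ofNat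 (nat_lit 22447154),Int.ofNat (nat_lit 208665361),Int.ofNat (nat_lit 63071882),Int.ofNat (nat_lit 182667169),Int.ofNat (nat_lit 3627520),Int.ofNat (nat_lit 190635515),Int.negSucc (nat_lit 36587884),Int.negSucc (nat_lit 21513672),Int.negSucc (nat_lit 73549249),Int.ofNat (nat_lit 141154218),Int.ofNat (nat_lit 138069049),Int.ofNat (nat_lit 113476505),Int.ofNat (nat_lit 82556546),Int.negSucc (nat_lit 78680977),Int.ofNat (nat_lit 42483788),Int.negSucc (nat_lit 126782715),Int.negSucc (nat_lit 58767865),Int.ofNat (nat_lit 40762095),Int.ofNat (nat_lit 55131682),Int.ofNat (nat_lit 201067832),Int.negSucc (nat_lit 122942210),Int.ofNat (nat_lit 759957148),Int.negSucc (nat_lit 315434906),Int.ofNat (nat_lit 135977167),Int.ofNat (nat_lit 553681746),Int.ofNat (nat_lit 251199815),Int.negSucc (nat_lit 102965791),Int.negSucc (nat_lit 106442925),Int.negSucc (nat_lit 97963924),Int.ofNat (nat_lit 109210764),Int.ofNat (nat_lit 277044171),Int.negSucc (nat_lit 223658236),Int.ofNat (nat_lit 90319674),Int.ofNat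 (nat_lit 419956551),Int.negSucc (nat_lit 28391877),Int.ofNat (nat_lit 606142533),Int.negSucc (nat_lit 84419277),Int.ofNat (nat_lit 206496672),Int.ofNat (nat_lit 1447424957),Int.negSucc (nat_lit 68947678),Int.ofNat (nat_lit 923919142)])

/-- A row. -/
noncomputable def sr6_c1_22 : List ℕ × List ℤ :=
  ([(nat_lit 0),(nat_lit 2),(nat_lit 0),(nat_lit 0),(nat_lit 0),(nat_lit 0),(nat_lit 0),(nat_lit 1),(nat_lit 0),(nat_lit 0),(nat_lit 0),(nat_lit 0)], [Int.ofNat (nat_lit 421632380),Int.ofNat (nat_lit 451508606),Int.negSucc (nat_lit 177541913),Int.ofNat (nat_lit 353369505),Int.negSucc (nat_lit 290488586),Int.negSucc (nat_lit 155700840),Int.ofNat (nat_lit 215401757),Int.ofNat (nat_lit 431779531),Int.ofNat (nat_lit 270526837),Int.negSucc (nat_lit 554878718),Int.ofNat (nat_lit 96644507),Int.ofNat (nat_lit 154981098),Int.negSucc (nat_lit 146971813),Int.negSucc (nat_lit 37080803),Int.negSucc (nat_lit 247240695),Int.ofNat (nat_lit 99133909),Int.ofNat (nat_lit 194626730),Int.negSucc (nat_lit 436105804),Int.ofNat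 (nat_lit 160401818),Int.ofNat (nat_lit 172550794),Int.negSucc (nat_lit 257645308),Int.ofNat (nat_lit 23496893),Int.negSucc (nat_lit 29288425),Int.ofNat (nat_lit 93430272),Int.negSucc (nat_lit 189186821),Int.ofNat (nat_lit 36860784),Int.negSucc (nat_lit 313707916),Int.ofNat (nat_lit 175695087),Int.negSucc (nat_lit 64265349),Int.ofNat (nat_lit 20203279),Int.ofNat (nat_lit 64589094),Int.negSucc (nat_lit 88688186),Int.negSucc (nat_lit 85303122),Int.negSucc (nat_lit 50269799),Int.negSucc (nat_lit 38959958),Int.negSucc (nat_lit 139146539),Int.ofNat (nat_lit 238967808),Int.ofNat (nat_lit 114695875),Int.negSucc (nat_lit 185159740),Int.ofNat (nat_lit 45582928),Int.ofNat (nat_lit 31496903),Int.negSucc (nat_lit 2981573),Int.ofNat (nat_lit 20092987),Int.negSucc (nat_lit 295555321),Int.negSucc (nat_lit 113737098),Int.negSucc (nat_lit 42138651),Int.negSucc (nat_lit 48569533),Int.negSucc (nat_lit 61775560),Int.negSucc (nat_lit 171877578),Int.ofNat (nat_lit 14684389),Int.ofNat (nat_lit 42995275),Int.negSucc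 (nat_lit 99255759),Int.negSucc (nat_lit 69756323),Int.negSucc (nat_lit 146333702),Int.ofNat (nat_lit 19272027),Int.negSucc (nat_lit 4023271),Int.negSucc (nat_lit 72734123),Int.negSucc (nat_lit 20142553),Int.negSucc (nat_lit 61643456),Int.ofNat (nat_lit 5563234),Int.ofNat (nat_lit 65734713),Int.negSucc (nat_lit 7169979),Int.negSucc (nat_lit 65359346),Int.negSucc (nat_lit 2928491),Int.ofNat (nat_lit 94564130),Int.ofNat (nat_lit 41438960),Int.negSucc (nat_lit 2207437),Int.ofNat (nat_lit 14075385),Int.ofNat (nat_lit 12084596),Int.negSucc (nat_lit 26579854),Int.negSucc (nat_lit 17480560),Int.ofNat (nat_lit 60814407),Int.negSucc (nat_lit 57803925),Int.ofNat (nat_lit 20803021),Int.negSucc (nat_lit 377532485),Int.ofNat (nat_lit 60804518),Int.negSucc (nat_lit 147042298),Int.ofNat (nat_lit 64452262),Int.negSucc (nat_lit 33093851),Int.negSucc (nat_lit 59344305),Int.ofNat (nat_lit 71835424),Int.negSucc (nat_lit 131723142),Int.ofNat (nat_lit 126788440),Int.ofNat (nat_lit 115694042),Int.negSucc (nat_lit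 54625852),Int.ofNat (nat_lit 128582414),Int.negSucc (nat_lit 106044872),Int.negSucc (nat_lit 33142798),Int.negSucc (nat_lit 84753592),Int.ofNat (nat_lit 63182383),Int.ofNat (nat_lit 7460794),Int.ofNat (nat_lit 8786420),Int.ofNat (nat_lit 33515784),Int.negSucc (nat_lit 9285717),Int.ofNat (nat_lit 98153247),Int.ofNat (nat_lit 1027585504)])

/-- A row. -/
noncomputable def sr6_c1_23 : List ℕ × List ℤ :=
  ([(nat_lit 0),(nat_lit 2),(nat_lit 0),(nat_lit 0),(nat_lit 0),(nat_lit 1),(nat_lit 0),(nat_lit 0),(nat_lit 0),(nat_lit 0),(nat_lit 0),(nat_lit 0)], [Int.ofNat (nat_lit 64963603),Int.ofNat (nat_lit 1397043617),Int.ofNat (nat_lit 639857978),Int.ofNat (nat_lit 2226367602),Int.negSucc (nat_lit 1623469398),Int.ofNat (nat_lit 617582735),Int.ofNat (nat_lit 115331639),Int.ofNat (nat_lit 251447756),Int.negSucc (nat_lit 14132178),Int.negSucc (nat_lit 260981696),Int.ofNat (nat_lit 440951561),Int.ofNat (nat_lit 192095189),Int.negSucc (nat_lit 220478639),Int.negSucc (nat_lit 208218018),Int.ofNat (nat_lit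 370922909),Int.ofNat (nat_lit 296953533),Int.negSucc (nat_lit 722773677),Int.ofNat (nat_lit 96069266),Int.negSucc (nat_lit 484250445),Int.ofNat (nat_lit 192205965),Int.ofNat (nat_lit 218722333),Int.ofNat (nat_lit 573700063),Int.ofNat (nat_lit 35337456),Int.ofNat (nat_lit 215303591),Int.negSucc (nat_lit 3470885),Int.negSucc (nat_lit 351684680),Int.ofNat (nat_lit 261370743),Int.ofNat (nat_lit 327048741),Int.ofNat (nat_lit 138330480),Int.negSucc (nat_lit 1688319689),Int.negSucc (nat_lit 240159587),Int.negSucc (nat_lit 141676465),Int.negSucc (nat_lit 296345125),Int.ofNat (nat_lit 9985059),Int.negSucc (nat_lit 420750731),Int.negSucc (nat_lit 824343233),Int.ofNat (nat_lit 313282353),Int.ofNat (nat_lit 338074468),Int.ofNat (nat_lit 606579553),Int.ofNat (nat_lit 13773582),Int.ofNat (nat_lit 4049567),Int.ofNat (nat_lit 314712013),Int.ofNat (nat_lit 316672),Int.negSucc (nat_lit 301299538),Int.negSucc (nat_lit 548229612),Int.ofNat (nat_lit 7483320),Int.negSucc (nat_lit 392773956),Int.ofNat (nat_lit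 175982653),Int.ofNat (nat_lit 181430073),Int.ofNat (nat_lit 280515899),Int.negSucc (nat_lit 82081709),Int.ofNat (nat_lit 189159400),Int.ofNat (nat_lit 129020132),Int.ofNat (nat_lit 78631811),Int.ofNat (nat_lit 51821510),Int.negSucc (nat_lit 260415646),Int.negSucc (nat_lit 30773183),Int.negSucc (nat_lit 293576643),Int.ofNat (nat_lit 244302284),Int.negSucc (nat_lit 2738941),Int.negSucc (nat_lit 48101586),Int.ofNat (nat_lit 78508058),Int.ofNat (nat_lit 93131602),Int.ofNat (nat_lit 272506443),Int.negSucc (nat_lit 109445606),Int.ofNat (nat_lit 156047535),Int.negSucc (nat_lit 101296455),Int.ofNat (nat_lit 156774984),Int.ofNat (nat_lit 23038249),Int.negSucc (nat_lit 219625816),Int.negSucc (nat_lit 157939346),Int.ofNat (nat_lit 50942337),Int.negSucc (nat_lit 196667485),Int.negSucc (nat_lit 643292066),Int.ofNat (nat_lit 846950758),Int.negSucc (nat_lit 557793325),Int.negSucc (nat_lit 569801519),Int.negSucc (nat_lit 448478981),Int.ofNat (nat_lit 29692768),Int.negSucc (nat_lit 393020682),Int.ofNat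 (nat_lit 66231016),Int.ofNat (nat_lit 720750374),Int.negSucc (nat_lit 313612646),Int.ofNat (nat_lit 600460306),Int.ofNat (nat_lit 28565209),Int.ofNat (nat_lit 37078693),Int.ofNat (nat_lit 680540756),Int.ofNat (nat_lit 280731734),Int.ofNat (nat_lit 273773321),Int.negSucc (nat_lit 524447244),Int.negSucc (nat_lit 991385950),Int.negSucc (nat_lit 681577116),Int.ofNat (nat_lit 51540706),Int.ofNat (nat_lit 156686563),Int.ofNat (nat_lit 11429069),Int.negSucc (nat_lit 314467696),Int.ofNat (nat_lit 2784973756)])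

/-- A row. -/
noncomputable def sr6_c1_24 : List ℕ × List ℤ :=
  ([(nat_lit 0),(nat_lit 2),(nat_lit 0),(nat_lit 1),(nat_lit 0),(nat_lit 0),(nat_lit 0),(nat_lit 0),(nat_lit 0),(nat_lit 0),(nat_lit 0),(nat_lit 0)], [Int.negSucc (nat_lit 1865528466),Int.negSucc (nat_lit 685371899),Int.negSucc (nat_lit 1361333955),Int.negSucc (nat_lit 2540096224),Int.ofNat (nat_lit 383808823),Int.negSucc (nat_lit 1803608109),Int.negSucc (nat_lit 359850162),Int.negSucc (nat_lit 295629303),Int.ofNat (nat_lit 1126267180),Int.negSucc (nat_lit 2828638106),Int.negSucc (nat_lit 602253406),Int.negSucc (nat_lit 216979393),Int.ofNat (nat_lit 156234021),Int.ofNat (nat_lit 1150517880),Int.negSucc (nat_lit 1016628883),Int.ofNat (nat_lit 62842854),Int.ofNat (nat_lit 909707877),Int.negSucc (nat_lit 532066037),Int.negSucc (nat_lit 1292757033),Int.ofNat (nat_lit 2127731115),Int.negSucc (nat_lit 602019694),Int.negSucc (nat_lit 261351276),Int.ofNat (nat_lit 146346143),Int.negSucc (nat_lit 1196259207),Int.ofNat (nat_lit 267491087),Int.negSucc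 (nat_lit 195091941),Int.negSucc (nat_lit 1871954709),Int.negSucc (nat_lit 282326851),Int.ofNat (nat_lit 671070461),Int.ofNat (nat_lit 518903143),Int.ofNat (nat_lit 804340070),Int.negSucc (nat_lit 89960165),Int.negSucc (nat_lit 223884666),Int.negSucc (nat_lit 107304204),Int.ofNat (nat_lit 74803671),Int.negSucc (nat_lit 45967090),Int.negSucc (nat_lit 428440881),Int.negSucc (nat_lit 247817723),Int.negSucc (nat_lit 1020499574),Int.ofNat (nat_lit 767362157),Int.negSucc (nat_lit 33258004),Int.negSucc (nat_lit 203350681),Int.ofNat (nat_lit 105032475),Int.ofNat (nat_lit 387373296),Int.ofNat (nat_lit 195519107),Int.negSucc (nat_lit 519525064),Int.ofNat (nat_lit 50059215),Int.negSucc (nat_lit 169531963),Int.ofNat (nat_lit 304621061),Int.ofNat (nat_lit 102066371),Int.ofNat (nat_lit 972308439),Int.ofNat (nat_lit 723056089),Int.negSucc (nat_lit 31219559),Int.negSucc (nat_lit 434593511),Int.negSucc (nat_lit 339278957),Int.negSucc (nat_lit 61483119),Int.ofNat (nat_lit 40004768),Int.ofNat (nat_lit 184271121),Int.negSucc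 (nat_lit 310083923),Int.negSucc (nat_lit 93014135),Int.negSucc (nat_lit 554271570),Int.ofNat (nat_lit 283951948),Int.negSucc (nat_lit 153484520),Int.negSucc (nat_lit 472808602),Int.ofNat (nat_lit 33830975),Int.negSucc (nat_lit 5874458),Int.ofNat (nat_lit 301008599),Int.ofNat (nat_lit 409370169),Int.negSucc (nat_lit 126653958),Int.ofNat (nat_lit 116891804),Int.ofNat (nat_lit 56202019),Int.ofNat (nat_lit 230415167),Int.negSucc (nat_lit 90465889),Int.ofNat (nat_lit 530676684),Int.negSucc (nat_lit 930531934),Int.ofNat (nat_lit 1354448229),Int.ofNat (nat_lit 342688187),Int.ofNat (nat_lit 757552048),Int.negSucc (nat_lit 2316886306),Int.ofNat (nat_lit 848699216),Int.negSucc (nat_lit 193897028),Int.ofNat (nat_lit 1590378942),Int.ofNat (nat_lit 456785699),Int.negSucc (nat_lit 487030897),Int.ofNat (nat_lit 390983932),Int.negSucc (nat_lit 91156503),Int.ofNat (nat_lit 173391645),Int.ofNat (nat_lit 384122463),Int.ofNat (nat_lit 451675752),Int.negSucc (nat_lit 38424569),Int.ofNat (nat_lit 1462365919),Int.negSucc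 (nat_lit 2559035866),Int.ofNat (nat_lit 145217957),Int.ofNat (nat_lit 544053086),Int.negSucc (nat_lit 120395056),Int.ofNat (nat_lit 379802551),Int.negSucc (nat_lit 1067863559),Int.ofNat (nat_lit 3108024446)])

/-- A row. -/
noncomputable def sr6_c1_25 : List ℕ × List ℤ :=
  ([(nat_lit 0),(nat_lit 2),(nat_lit 1),(nat_lit 1),(nat_lit 0),(nat_lit 0),(nat_lit 0),(nat_lit 0),(nat_lit 0),(nat_lit 0),(nat_lit 0),(nat_lit 0)], [Int.ofNat (nat_lit 353531770),Int.negSucc (nat_lit 429695284),Int.ofNat (nat_lit 154565525),Int.ofNat (nat_lit 506359523),Int.negSucc (nat_lit 562283953),Int.ofNat (nat_lit 448161603),Int.ofNat (nat_lit 223219539),Int.negSucc (nat_lit 1147500141),Int.ofNat (nat_lit 276127124),Int.ofNat (nat_lit 68037292),Int.negSucc (nat_lit 329183286),Int.ofNat (nat_lit 330109266),Int.negSucc (nat_lit 184567572),Int.negSucc (nat_lit 255707980),Int.ofNat (nat_lit 124696920),Int.negSucc (nat_lit 167095835),Int.negSucc (nat_lit 496083587),Int.ofNat (nat_lit 225814648),Int.negSucc (nat_lit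 9702246),Int.negSucc (nat_lit 518517838),Int.negSucc (nat_lit 12789659),Int.negSucc (nat_lit 129926411),Int.negSucc (nat_lit 93137186),Int.negSucc (nat_lit 823838278),Int.ofNat (nat_lit 159340664),Int.negSucc (nat_lit 263555123),Int.ofNat (nat_lit 1224548640),Int.negSucc (nat_lit 466719821),Int.negSucc (nat_lit 246546794),Int.negSucc (nat_lit 353885637),Int.negSucc (nat_lit 417885483),Int.ofNat (nat_lit 138875864),Int.negSucc (nat_lit 227300051),Int.ofNat (nat_lit 69292878),Int.ofNat (nat_lit 311835988),Int.ofNat (nat_lit 157674646),Int.negSucc (nat_lit 125742235),Int.negSucc (nat_lit 57239688),Int.negSucc (nat_lit 27223673),Int.negSucc (nat_lit 79232072),Int.negSucc (nat_lit 55280249),Int.negSucc (nat_lit 278668858),Int.negSucc (nat_lit 110742585),Int.ofNat (nat_lit 326145583),Int.ofNat (nat_lit 2750268),Int.ofNat (nat_lit 12288894),Int.negSucc (nat_lit 503275721),Int.negSucc (nat_lit 163706173),Int.ofNat (nat_lit 79619601),Int.negSucc (nat_lit 55960079),Int.ofNat (nat_lit 136407352),Int.negSucc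 (nat_lit 96410340),Int.ofNat (nat_lit 28824010),Int.negSucc (nat_lit 203464873),Int.ofNat (nat_lit 154556047),Int.negSucc (nat_lit 59344712),Int.ofNat (nat_lit 265593929),Int.negSucc (nat_lit 6577220),Int.negSucc (nat_lit 104867629),Int.negSucc (nat_lit 131263958),Int.negSucc (nat_lit 317826761),Int.negSucc (nat_lit 501379682),Int.negSucc (nat_lit 52796489),Int.ofNat (nat_lit 7672440),Int.negSucc (nat_lit 283863631),Int.negSucc (nat_lit 205233471),Int.ofNat (nat_lit 210366963),Int.negSucc (nat_lit 14873077),Int.ofNat (nat_lit 32846929),Int.ofNat (nat_lit 81895155),Int.ofNat (nat_lit 132394168),Int.negSucc (nat_lit 83474714),Int.negSucc (nat_lit 181685535),Int.negSucc (nat_lit 320590768),Int.ofNat (nat_lit 225465123),Int.negSucc (nat_lit 56225146),Int.negSucc (nat_lit 112987666),Int.ofNat (nat_lit 61354346),Int.negSucc (nat_lit 441185786),Int.ofNat (nat_lit 74657698),Int.ofNat (nat_lit 68511858),Int.negSucc (nat_lit 307509163),Int.ofNat (nat_lit 674223822),Int.negSucc (nat_lit 13131000),Int.negSucc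 (nat_lit 314090620),Int.ofNat (nat_lit 258397839),Int.negSucc (nat_lit 518512210),Int.negSucc (nat_lit 140595824),Int.ofNat (nat_lit 55332016),Int.ofNat (nat_lit 19183277),Int.negSucc (nat_lit 201107552),Int.ofNat (nat_lit 314773600),Int.negSucc (nat_lit 259161282),Int.ofNat (nat_lit 508275118),Int.negSucc (nat_lit 13497845),Int.ofNat (nat_lit 40508514),Int.ofNat (nat_lit 275651453),Int.ofNat (nat_lit 804414649),Int.ofNat (nat_lit 2032010979)])

/-- A row. -/
noncomputable def sr6_c1_26 : List ℕ × List ℤ :=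
  ([(nat_lit 0),(nat_lit 3),(nat_lit 0),(nat_lit 0),(nat_lit 0),(nat_lit 0),(nat_lit 0),(nat_lit 0),(nat_lit 0),(nat_lit 0),(nat_lit 0),(nat_lit 0)], [Int.ofNat (nat_lit 2450514790),Int.ofNat (nat_lit 2548838258),Int.ofNat (nat_lit 829703121),Int.ofNat (nat_lit 682798952),Int.negSucc (nat_lit 712101624),Int.ofNat (nat_lit 1184639981),Int.ofNat (nat_lit 864172692),Int.negSucc (nat_lit 403736774),Int.negSucc (nat_lit 1800535325),Int.ofNat (nat_lit 154121608),Int.negSucc (nat_lit 110685640),Int.negSucc (nat_lit 47225581),Int.negSucc (nat_lit 1078071185),Int.negSucc (nat_lit 940203710),Int.ofNat (nat_lit 744954341),Int.negSucc (nat_lit 13320903),Int.negSucc (nat_lit 1597308870),Int.ofNat (nat_lit 740683731),Int.ofNat (nat_lit 984475559),Int.negSucc (nat_lit 1369803619),Int.negSucc (nat_lit 276887152),Int.ofNat (nat_lit 595335809),Int.ofNat (nat_lit 80251624),Int.ofNat (nat_lit 1620396053),Int.ofNat (nat_lit 141341990),Int.negSucc (nat_lit 520929283),Int.ofNat (nat_lit 1622326131),Int.ofNat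 (nat_lit 15800311),Int.negSucc (nat_lit 83436140),Int.negSucc (nat_lit 2235685142),Int.negSucc (nat_lit 299475050),Int.negSucc (nat_lit 1440442538),Int.ofNat (nat_lit 474584604),Int.ofNat (nat_lit 1594614215),Int.ofNat (nat_lit 652110466),Int.ofNat (nat_lit 448895246),Int.negSucc (nat_lit 128733887),Int.ofNat (nat_lit 274069071),Int.ofNat (nat_lit 14941377),Int.negSucc (nat_lit 625567480),Int.negSucc (nat_lit 197925275),Int.negSucc (nat_lit 28223520),Int.ofNat (nat_lit 163671754),Int.negSucc (nat_lit 225110484),Int.negSucc (nat_lit 337393989),Int.ofNat (nat_lit 748296534),Int.negSucc (nat_lit 1104575193),Int.negSucc (nat_lit 1048088124),Int.negSucc (nat_lit 120207850),Int.ofNat (nat_lit 659472083),Int.negSucc (nat_lit 1097482980),Int.ofNat (nat_lit 63069713),Int.ofNat (nat_lit 66573868),Int.ofNat (nat_lit 338358025),Int.ofNat (nat_lit 233879948),Int.negSucc (nat_lit 535793202),Int.negSucc (nat_lit 413039992),Int.negSucc (nat_lit 766949132),Int.ofNat (nat_lit 278115820),Int.negSucc (nat_lit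 119575305),Int.ofNat (nat_lit 44575867),Int.negSucc (nat_lit 277148805),Int.ofNat (nat_lit 267405903),Int.ofNat (nat_lit 485111842),Int.ofNat (nat_lit 154936797),Int.ofNat (nat_lit 373125451),Int.negSucc (nat_lit 414858871),Int.ofNat (nat_lit 177004008),Int.negSucc (nat_lit 64411029),Int.negSucc (nat_lit 91220812),Int.negSucc (nat_lit 75630573),Int.negSucc (nat_lit 4303425),Int.ofNat (nat_lit 33012561),Int.negSucc (nat_lit 806046405),Int.ofNat (nat_lit 1304714611),Int.negSucc (nat_lit 1554203830),Int.negSucc (nat_lit 998000251),Int.negSucc (nat_lit 1322601023),Int.ofNat (nat_lit 1112291793),Int.negSucc (nat_lit 1080208779),Int.ofNat (nat_lit 391704823),Int.negSucc (nat_lit 940598439),Int.ofNat (nat_lit 375994262),Int.negSucc (nat_lit 5177743),Int.negSucc (nat_lit 777054647),Int.ofNat (nat_lit 367990138),Int.negSucc (nat_lit 2734531605),Int.negSucc (nat_lit 857207772),Int.ofNat (nat_lit 841462860),Int.negSucc (nat_lit 1685365171),Int.negSucc (nat_lit 724351422),Int.ofNat (nat_lit 534957545),Int.ofNat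 (nat_lit 281825394),Int.negSucc (nat_lit 81504086),Int.negSucc (nat_lit 696532258),Int.negSucc (nat_lit 951820747),Int.ofNat (nat_lit 1769768430),Int.negSucc (nat_lit 2508242822),Int.ofNat (nat_lit 770393317),Int.ofNat (nat_lit 3887115875)])

/-- A row. -/
noncomputable def sr6_c1_27 : List ℕ × List ℤ :=
  ([(nat_lit 0),(nat_lit 3),(nat_lit 0),(nat_lit 0),(nat_lit 1),(nat_lit 0),(nat_lit 0),(nat_lit 0),(nat_lit 0),(nat_lit 0),(nat_lit 0),(nat_lit 0)], [Int.negSucc (nat_lit 124414102),Int.negSucc (nat_lit 938332171),Int.ofNat (nat_lit 962397563),Int.ofNat (nat_lit 199163965),Int.ofNat (nat_lit 950066877),Int.negSucc (nat_lit 1785734210),Int.negSucc (nat_lit 328967364),Int.ofNat (nat_lit 1374562866),Int.ofNat (nat_lit 437532310),Int.ofNat (nat_lit 321617929),Int.ofNat (nat_lit 548200988),Int.ofNat (nat_lit 37393398),Int.ofNat (nat_lit 177856382),Int.ofNat (nat_lit 113177893),Int.negSucc (nat_lit 383317055),Int.ofNat (nat_lit 333165454),Int.ofNat (nat_lit 79173662),Int.negSucc (nat_lit 386457300),Int.ofNat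 (nat_lit 94388555),Int.ofNat (nat_lit 112186469),Int.ofNat (nat_lit 523835124),Int.ofNat (nat_lit 379104646),Int.negSucc (nat_lit 124627235),Int.ofNat (nat_lit 203542718),Int.negSucc (nat_lit 53067092),Int.negSucc (nat_lit 628049525),Int.negSucc (nat_lit 1168422929),Int.ofNat (nat_lit 98834920),Int.negSucc (nat_lit 419517255),Int.ofNat (nat_lit 1433136229),Int.ofNat (nat_lit 452446674),Int.negSucc (nat_lit 809957541),Int.negSucc (nat_lit 394962987),Int.negSucc (nat_lit 590807880),Int.negSucc (nat_lit 349932086),Int.negSucc (nat_lit 1054878524),Int.ofNat (nat_lit 468556287),Int.ofNat (nat_lit 216118586),Int.ofNat (nat_lit 556644858),Int.ofNat (nat_lit 52039500),Int.negSucc (nat_lit 242731257),Int.ofNat (nat_lit 590310668),Int.ofNat (nat_lit 97449459),Int.negSucc (nat_lit 490859615),Int.negSucc (nat_lit 294462356),Int.ofNat (nat_lit 16893599),Int.ofNat (nat_lit 681197558),Int.ofNat (nat_lit 281001699),Int.negSucc (nat_lit 846464520),Int.negSucc (nat_lit 30429645),Int.ofNat (nat_lit 588413790),Int.negSucc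 (nat_lit 215353028),Int.ofNat (nat_lit 186021132),Int.ofNat (nat_lit 146470659),Int.negSucc (nat_lit 92677654),Int.ofNat (nat_lit 397075305),Int.ofNat (nat_lit 190549589),Int.ofNat (nat_lit 160242615),Int.ofNat (nat_lit 167626262),Int.ofNat (nat_lit 258454161),Int.ofNat (nat_lit 332957097),Int.ofNat (nat_lit 172408262),Int.negSucc (nat_lit 454657846),Int.ofNat (nat_lit 200285076),Int.negSucc (nat_lit 60403836),Int.ofNat (nat_lit 68583171),Int.ofNat (nat_lit 251607066),Int.ofNat (nat_lit 135819703),Int.ofNat (nat_lit 6680576),Int.negSucc (nat_lit 95821911),Int.negSucc (nat_lit 93676956),Int.ofNat (nat_lit 140529362),Int.negSucc (nat_lit 20414448),Int.ofNat (nat_lit 246071907),Int.ofNat (nat_lit 381043674),Int.ofNat (nat_lit 26131021),Int.ofNat (nat_lit 158240742),Int.ofNat (nat_lit 36710877),Int.ofNat (nat_lit 84151289),Int.ofNat (nat_lit 310617245),Int.ofNat (nat_lit 273929899),Int.ofNat (nat_lit 484372025),Int.negSucc (nat_lit 367258310),Int.ofNat (nat_lit 245255301),Int.ofNat (nat_lit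 143678313),Int.negSucc (nat_lit 49984491),Int.ofNat (nat_lit 551884810),Int.ofNat (nat_lit 330923813),Int.negSucc (nat_lit 256921693),Int.negSucc (nat_lit 596818249),Int.negSucc (nat_lit 109336331),Int.negSucc (nat_lit 2295441),Int.ofNat (nat_lit 440323),Int.negSucc (nat_lit 48932368),Int.ofNat (nat_lit 159989919),Int.ofNat (nat_lit 83422442),Int.ofNat (nat_lit 42409326),Int.negSucc (nat_lit 116582903),Int.negSucc (nat_lit 767359004),Int.negSucc (nat_lit 473716585),Int.ofNat (nat_lit 2499062476)])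

/-- A row. -/
noncomputable def sr6_c1_28 : List ℕ × List ℤ :=
  ([(nat_lit 0),(nat_lit 3),(nat_lit 1),(nat_lit 0),(nat_lit 0),(nat_lit 0),(nat_lit 0),(nat_lit 0),(nat_lit 0),(nat_lit 0),(nat_lit 0),(nat_lit 0)], [Int.ofNat (nat_lit 2449864089),Int.ofNat (nat_lit 4593386499),Int.ofNat (nat_lit 674720156),Int.negSucc (nat_lit 1593201081),Int.ofNat (nat_lit 1589410597),Int.negSucc (nat_lit 1380867255),Int.ofNat (nat_lit 1017723724),Int.ofNat (nat_lit 739935147),Int.negSucc (nat_lit 1138624157),Int.negSucc (nat_lit 79356708),Int.negSucc (nat_lit 149262475),Int.negSucc (nat_lit 969143927),Int.ofNat (nat_lit 221092602),Int.ofNat (nat_lit 243196046),Int.negSucc (nat_lit 361143555),Int.ofNat (nat_lit 253873005),Int.ofNat (nat_lit 897473129),Int.ofNat (nat_lit 491183335),Int.negSucc (nat_lit 170208799),Int.negSucc (nat_lit 652016403),Int.negSucc (nat_lit 526010968),Int.ofNat (nat_lit 316845236),Int.negSucc (nat_lit 70931371),Int.ofNat (nat_lit 740007579),Int.ofNat (nat_lit 616579932),Int.negSucc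 (nat_lit 404386961),Int.negSucc (nat_lit 900269267),Int.negSucc (nat_lit 29156715),Int.negSucc (nat_lit 148192761),Int.negSucc (nat_lit 451094756),Int.ofNat (nat_lit 2124493363),Int.negSucc (nat_lit 403303986),Int.negSucc (nat_lit 1579677693),Int.ofNat (nat_lit 1632452479),Int.ofNat (nat_lit 249756304),Int.ofNat (nat_lit 294551901),Int.negSucc (nat_lit 217394172),Int.negSucc (nat_lit 101444441),Int.negSucc (nat_lit 55093920),Int.ofNat (nat_lit 365842751),Int.ofNat (nat_lit 124715294),Int.ofNat (nat_lit 149997669),Int.negSucc (nat_lit 63123718),Int.negSucc (nat_lit 93704220),Int.negSucc (nat_lit 21259399),Int.ofNat (nat_lit 287709190),Int.ofNat (nat_lit 106907762),Int.negSucc (nat_lit 751964077),Int.ofNat (nat_lit 20134372),Int.negSucc (nat_lit 309703624),Int.negSucc (nat_lit 308683402),Int.ofNat (nat_lit 727603003),Int.negSucc (nat_lit 199594038),Int.ofNat (nat_lit 29622910),Int.negSucc (nat_lit 667644),Int.ofNat (nat_lit 9477819),Int.negSucc (nat_lit 265432074),Int.negSucc (nat_lit 124640867),Int.negSucc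 (nat_lit 180820874),Int.negSucc (nat_lit 197889706),Int.ofNat (nat_lit 203247231),Int.ofNat (nat_lit 187739702),Int.ofNat (nat_lit 349909812),Int.negSucc (nat_lit 152990698),Int.ofNat (nat_lit 14064961),Int.ofNat (nat_lit 116346312),Int.negSucc (nat_lit 148820097),Int.ofNat (nat_lit 157017989),Int.negSucc (nat_lit 24873602),Int.ofNat (nat_lit 41015200),Int.negSucc (nat_lit 142365382),Int.ofNat (nat_lit 99365599),Int.ofNat (nat_lit 180013596),Int.negSucc (nat_lit 637972061),Int.negSucc (nat_lit 388937556),Int.ofNat (nat_lit 107317009),Int.ofNat (nat_lit 132066036),Int.negSucc (nat_lit 373837858),Int.ofNat (nat_lit 109254218),Int.negSucc (nat_lit 102919404),Int.negSucc (nat_lit 421509238),Int.negSucc (nat_lit 192296721),Int.negSucc (nat_lit 437846974),Int.negSucc (nat_lit 36027014),Int.ofNat (nat_lit 517319055),Int.negSucc (nat_lit 171020609),Int.negSucc (nat_lit 2100300290),Int.negSucc (nat_lit 457965114),Int.ofNat (nat_lit 134293045),Int.negSucc (nat_lit 980568273),Int.ofNat (nat_lit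 231529301),Int.negSucc (nat_lit 456451116),Int.negSucc (nat_lit 1637309915),Int.negSucc (nat_lit 623372870),Int.ofNat (nat_lit 750430605),Int.ofNat (nat_lit 46811172),Int.negSucc (nat_lit 583173408),Int.negSucc (nat_lit 183069737),Int.negSucc (nat_lit 936399661),Int.ofNat (nat_lit 1361571653),Int.ofNat (nat_lit 31816675),Int.ofNat (nat_lit 2473596474)])

/-- A row. -/
noncomputable def sr6_c1_29 : List ℕ × List ℤ :=
  ([(nat_lit 0),(nat_lit 4),(nat_lit 0),(nat_lit 1),(nat_lit 0),(nat_lit 0),(nat_lit 0),(nat_lit 0),(nat_lit 0),(nat_lit 0),(nat_lit 0),(nat_lit 0)], [Int.negSucc (nat_lit 820954134),Int.negSucc (nat_lit 890425008),Int.ofNat (nat_lit 1234603822),Int.ofNat (nat_lit 894303002),Int.negSucc (nat_lit 433024172),Int.ofNat (nat_lit 942071645),Int.negSucc (nat_lit 793227059),Int.ofNat (nat_lit 337451374),Int.negSucc (nat_lit 660925252),Int.ofNat (nat_lit 1650982681),Int.ofNat (nat_lit 333534016),Int.ofNat (nat_lit 18778897),Int.negSucc (nat_lit 33409788),Int.negSucc (nat_lit 1561136855),Int.ofNat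 (nat_lit 72181341),Int.negSucc (nat_lit 275488263),Int.ofNat (nat_lit 437750147),Int.ofNat (nat_lit 885244530),Int.ofNat (nat_lit 672740850),Int.negSucc (nat_lit 1713293326),Int.ofNat (nat_lit 1169495299),Int.negSucc (nat_lit 63422325),Int.negSucc (nat_lit 476185149),Int.ofNat (nat_lit 242656049),Int.ofNat (nat_lit 112113687),Int.ofNat (nat_lit 297895764),Int.negSucc (nat_lit 138540321),Int.negSucc (nat_lit 753397763),Int.negSucc (nat_lit 789709688),Int.negSucc (nat_lit 1095691043),Int.negSucc (nat_lit 923606956),Int.negSucc (nat_lit 1019684984),Int.negSucc (nat_lit 1355209683),Int.negSucc (nat_lit 601000237),Int.negSucc (nat_lit 313678780),Int.ofNat (nat_lit 264032519),Int.ofNat (nat_lit 165493713),Int.ofNat (nat_lit 160977420),Int.ofNat (nat_lit 813926887),Int.negSucc (nat_lit 481075867),Int.ofNat (nat_lit 29453441),Int.ofNat (nat_lit 111843802),Int.negSucc (nat_lit 49427701),Int.negSucc (nat_lit 667186872),Int.negSucc (nat_lit 215766203),Int.ofNat (nat_lit 449012148),Int.negSucc (nat_lit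 118601900),Int.ofNat (nat_lit 441973721),Int.negSucc (nat_lit 599226056),Int.negSucc (nat_lit 201464886),Int.negSucc (nat_lit 1148179849),Int.negSucc (nat_lit 144317691),Int.ofNat (nat_lit 151819279),Int.ofNat (nat_lit 244982654),Int.ofNat (nat_lit 369018309),Int.ofNat (nat_lit 112255562),Int.negSucc (nat_lit 139900741),Int.negSucc (nat_lit 120738251),Int.ofNat (nat_lit 315399928),Int.ofNat (nat_lit 192469086),Int.ofNat (nat_lit 344116473),Int.negSucc (nat_lit 411441052),Int.negSucc (nat_lit 364271117),Int.ofNat (nat_lit 151250658),Int.ofNat (nat_lit 106168208),Int.ofNat (nat_lit 131565899),Int.negSucc (nat_lit 407191137),Int.negSucc (nat_lit 259495548),Int.ofNat (nat_lit 152259102),Int.ofNat (nat_lit 115232694),Int.ofNat (nat_lit 17369926),Int.negSucc (nat_lit 190281749),Int.ofNat (nat_lit 170292242),Int.ofNat (nat_lit 212872557),Int.ofNat (nat_lit 663986087),Int.negSucc (nat_lit 954443980),Int.negSucc (nat_lit 60161461),Int.negSucc (nat_lit 477012740),Int.ofNat (nat_lit 1226111201),Int.negSucc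 (nat_lit 618608540),Int.negSucc (nat_lit 11425491),Int.negSucc (nat_lit 1808867352),Int.negSucc (nat_lit 530796281),Int.ofNat (nat_lit 287574651),Int.negSucc (nat_lit 24948798),Int.ofNat (nat_lit 155250117),Int.ofNat (nat_lit 216842113),Int.negSucc (nat_lit 351054545),Int.negSucc (nat_lit 437692400),Int.ofNat (nat_lit 3538367),Int.negSucc (nat_lit 1438117841),Int.ofNat (nat_lit 829655378),Int.negSucc (nat_lit 42555428),Int.negSucc (nat_lit 743571871),Int.ofNat (nat_lit 287871258),Int.negSucc (nat_lit 132875016),Int.ofNat (nat_lit 11295099),Int.negSucc (nat_lit 2126949252),Int.ofNat (nat_lit 64867293),Int.negSucc (nat_lit 396956652),Int.ofNat (nat_lit 129299103),Int.ofNat (nat_lit 536464631),Int.ofNat (nat_lit 2829930884)])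

/-- A row. -/
noncomputable def sr6_c1_30 : List ℕ × List ℤ :=
  ([(nat_lit 0),(nat_lit 5),(nat_lit 0),(nat_lit 0),(nat_lit 0),(nat_lit 0),(nat_lit 0),(nat_lit 0),(nat_lit 0),(nat_lit 0),(nat_lit 0),(nat_lit 0)], [Int.negSucc (nat_lit 1927524514),Int.negSucc (nat_lit 555327715),Int.negSucc (nat_lit 1386651984),Int.negSucc (nat_lit 78581812),Int.ofNat (nat_lit 496144920),Int.negSucc (nat_lit 1019156924),Int.negSucc (nat_lit 447529653),Int.ofNat (nat_lit 277892983),Int.ofNat (nat_lit 1541379014),Int.ofNat (nat_lit 140586688),Int.negSucc (nat_lit 239112737),Int.negSucc (nat_lit 127845558),Int.ofNat (nat_lit 709867251),Int.ofNat (nat_lit 851245856),Int.negSucc (nat_lit 965760769),Int.negSucc (nat_lit 113653980),Int.ofNat (nat_lit 1307253640),Int.negSucc (nat_lit 918543263),Int.negSucc (nat_lit 502444276),Int.ofNat (nat_lit 1638352721),Int.negSucc (nat_lit 342994370),Int.negSucc (nat_lit 256116030),Int.negSucc (nat_lit 412196304),Int.negSucc (nat_lit 1250459833),Int.negSucc (nat_lit 147109601),Int.ofNat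 (nat_lit 60072196),Int.negSucc (nat_lit 489336901),Int.negSucc (nat_lit 387503159),Int.negSucc (nat_lit 239306273),Int.ofNat (nat_lit 2361078567),Int.negSucc (nat_lit 965182930),Int.ofNat (nat_lit 1070691374),Int.negSucc (nat_lit 605511924),Int.negSucc (nat_lit 2577650000),Int.negSucc (nat_lit 83595513),Int.negSucc (nat_lit 184138892),Int.ofNat (nat_lit 196717499),Int.negSucc (nat_lit 287857888),Int.negSucc (nat_lit 277852578),Int.ofNat (nat_lit 694308402),Int.ofNat (nat_lit 314209479),Int.ofNat (nat_lit 10263928),Int.negSucc (nat_lit 186808495),Int.ofNat (nat_lit 475960888),Int.ofNat (nat_lit 350301393),Int.negSucc (nat_lit 718028709),Int.ofNat (nat_lit 1022398999),Int.ofNat (nat_lit 632956307),Int.ofNat (nat_lit 473659962),Int.negSucc (nat_lit 676722500),Int.ofNat (nat_lit 998603177),Int.negSucc (nat_lit 411514091),Int.negSucc (nat_lit 226346700),Int.negSucc (nat_lit 312478951),Int.negSucc (nat_lit 313112847),Int.ofNat (nat_lit 518633074),Int.ofNat (nat_lit 375023645),Int.ofNat (nat_lit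 554253773),Int.negSucc (nat_lit 501910456),Int.ofNat (nat_lit 20122474),Int.ofNat (nat_lit 29914937),Int.ofNat (nat_lit 391652928),Int.negSucc (nat_lit 64939233),Int.negSucc (nat_lit 426865136),Int.negSucc (nat_lit 162107867),Int.negSucc (nat_lit 392367645),Int.ofNat (nat_lit 456262109),Int.negSucc (nat_lit 160596185),Int.ofNat (nat_lit 42873611),Int.ofNat (nat_lit 45848477),Int.ofNat (nat_lit 102126591),Int.ofNat (nat_lit 190940242),Int.negSucc (nat_lit 47799283),Int.negSucc (nat_lit 8139841),Int.negSucc (nat_lit 1289448143),Int.ofNat (nat_lit 1348821515),Int.ofNat (nat_lit 493422363),Int.ofNat (nat_lit 1041145667),Int.negSucc (nat_lit 652234850),Int.ofNat (nat_lit 625297891),Int.negSucc (nat_lit 270405859),Int.ofNat (nat_lit 1183896094),Int.negSucc (nat_lit 256809113),Int.negSucc (nat_lit 42115226),Int.ofNat (nat_lit 553532549),Int.negSucc (nat_lit 404251959),Int.ofNat (nat_lit 1018945156),Int.ofNat (nat_lit 655658134),Int.negSucc (nat_lit 533764228),Int.ofNat (nat_lit 1264756506),Int.ofNat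 (nat_lit 905021592),Int.negSucc (nat_lit 500304371),Int.negSucc (nat_lit 820169895),Int.ofNat (nat_lit 172626226),Int.ofNat (nat_lit 606994284),Int.ofNat (nat_lit 707898502),Int.negSucc (nat_lit 976168984),Int.ofNat (nat_lit 2020423712),Int.negSucc (nat_lit 611338420),Int.negSucc (nat_lit 3607561647),Int.negSucc (nat_lit 398729450),Int.ofNat (nat_lit 470321194),Int.negSucc (nat_lit 1647070032),Int.ofNat (nat_lit 1722667926)])

/-- A row. -/
noncomputable def sr6_c1_31 : List ℕ × List ℤ :=
  ([(nat_lit 1),(nat_lit 0),(nat_lit 0),(nat_lit 0),(nat_lit 0),(nat_lit 0),(nat_lit 0),(nat_lit 0),(nat_lit 0),(nat_lit 1),(nat_lit 0),(nat_lit 0)], [Int.ofNat (nat_lit 40744786),Int.negSucc (nat_lit 224697714),Int.ofNat (nat_lit 435640869),Int.ofNat (nat_lit 39733691),Int.negSucc (nat_lit 133968691),Int.negSucc (nat_lit 139657131),Int.ofNat (nat_lit 141625114),Int.ofNat (nat_lit 23822254),Int.ofNat (nat_lit 107316931),Int.negSucc (nat_lit 29076527),Int.ofNat (nat_lit 130430631),Int.ofNat (nat_lit 67003962),Int.ofNat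 (nat_lit 116213683),Int.negSucc (nat_lit 9648153),Int.negSucc (nat_lit 33231302),Int.ofNat (nat_lit 58587304),Int.ofNat (nat_lit 221321489),Int.negSucc (nat_lit 12911824),Int.ofNat (nat_lit 62992392),Int.negSucc (nat_lit 34387255),Int.negSucc (nat_lit 52124799),Int.negSucc (nat_lit 43592854),Int.negSucc (nat_lit 22004744),Int.negSucc (nat_lit 40251728),Int.negSucc (nat_lit 84919760),Int.negSucc (nat_lit 80371828),Int.negSucc (nat_lit 114931317),Int.ofNat (nat_lit 68256578),Int.negSucc (nat_lit 59721479),Int.ofNat (nat_lit 28552652),Int.ofNat (nat_lit 29868388),Int.negSucc (nat_lit 47128832),Int.ofNat (nat_lit 71451486),Int.ofNat (nat_lit 4113798),Int.negSucc (nat_lit 58866307),Int.ofNat (nat_lit 41147742),Int.ofNat (nat_lit 140447474),Int.ofNat (nat_lit 60269817),Int.ofNat (nat_lit 128153243),Int.negSucc (nat_lit 525832),Int.ofNat (nat_lit 43795849),Int.ofNat (nat_lit 66996292),Int.ofNat (nat_lit 35110555),Int.ofNat (nat_lit 76598903),Int.negSucc (nat_lit 102586800),Int.negSucc (nat_lit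 18459253),Int.negSucc (nat_lit 26323056),Int.negSucc (nat_lit 25587692),Int.negSucc (nat_lit 58852439),Int.negSucc (nat_lit 2757078),Int.ofNat (nat_lit 56411763),Int.negSucc (nat_lit 4020835),Int.negSucc (nat_lit 24879679),Int.negSucc (nat_lit 73197104),Int.negSucc (nat_lit 15098038),Int.ofNat (nat_lit 4840830),Int.negSucc (nat_lit 33381180),Int.negSucc (nat_lit 20486869),Int.negSucc (nat_lit 4295740),Int.negSucc (nat_lit 26839328),Int.ofNat (nat_lit 49929058),Int.ofNat (nat_lit 8335229),Int.ofNat (nat_lit 7524313),Int.negSucc (nat_lit 41957625),Int.ofNat (nat_lit 80098889),Int.ofNat (nat_lit 20912782),Int.negSucc (nat_lit 24939168),Int.ofNat (nat_lit 25433278),Int.negSucc (nat_lit 19700410),Int.negSucc (nat_lit 9227093),Int.negSucc (nat_lit 12533005),Int.ofNat (nat_lit 36600595),Int.negSucc (nat_lit 15970697),Int.ofNat (nat_lit 71841567),Int.negSucc (nat_lit 374714550),Int.ofNat (nat_lit 23233843),Int.ofNat (nat_lit 4819056),Int.ofNat (nat_lit 1794078),Int.negSucc (nat_lit 3131148),Int.ofNat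 (nat_lit 26999797),Int.ofNat (nat_lit 15570605),Int.negSucc (nat_lit 11320803),Int.ofNat (nat_lit 25756022),Int.ofNat (nat_lit 1770721),Int.negSucc (nat_lit 9079475),Int.negSucc (nat_lit 15430277),Int.ofNat (nat_lit 2767546),Int.negSucc (nat_lit 12021045),Int.negSucc (nat_lit 18366478),Int.negSucc (nat_lit 10782164),Int.ofNat (nat_lit 5503639),Int.negSucc (nat_lit 3378679),Int.ofNat (nat_lit 1157852),Int.negSucc (nat_lit 11166108),Int.negSucc (nat_lit 3829610),Int.negSucc (nat_lit 15743572),Int.negSucc (nat_lit 8682106),Int.ofNat (nat_lit 3740072),Int.ofNat (nat_lit 10574112),Int.ofNat (nat_lit 4532944),Int.ofNat (nat_lit 9201523),Int.ofNat (nat_lit 971731),Int.negSucc (nat_lit 852750),Int.negSucc (nat_lit 744967),Int.ofNat (nat_lit 67213669)])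

/-- A row. -/
noncomputable def sr6_c1_32 : List ℕ × List ℤ :=
  ([(nat_lit 1),(nat_lit 0),(nat_lit 0),(nat_lit 0),(nat_lit 0),(nat_lit 0),(nat_lit 0),(nat_lit 1),(nat_lit 0),(nat_lit 0),(nat_lit 0),(nat_lit 0)], [Int.negSucc (nat_lit 784408577),Int.negSucc (nat_lit 2440264574),Int.negSucc (nat_lit 423027837),Int.ofNat (nat_lit 59293195),Int.ofNat (nat_lit 124516745),Int.negSucc (nat_lit 353074260),Int.negSucc (nat_lit 114129968),Int.ofNat (nat_lit 926320120),Int.negSucc (nat_lit 376276220),Int.ofNat (nat_lit 607885011),Int.negSucc (nat_lit 327515797),Int.negSucc (nat_lit 636959223),Int.ofNat (nat_lit 143837802),Int.negSucc (nat_lit 47149187),Int.negSucc (nat_lit 357488854),Int.ofNat (nat_lit 114838959),Int.ofNat (nat_lit 399695231),Int.ofNat (nat_lit 837501951),Int.ofNat (nat_lit 111180396),Int.negSucc (nat_lit 260600392),Int.negSucc (nat_lit 179906119),Int.ofNat (nat_lit 397044152),Int.negSucc (nat_lit 69788669),Int.ofNat (nat_lit 152710328),Int.ofNat (nat_lit 180449947),Int.negSucc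 (nat_lit 116613149),Int.negSucc (nat_lit 144478832),Int.ofNat (nat_lit 12745252),Int.ofNat (nat_lit 77205445),Int.ofNat (nat_lit 143791815),Int.ofNat (nat_lit 230625787),Int.ofNat (nat_lit 78471251),Int.negSucc (nat_lit 56121387),Int.negSucc (nat_lit 20047518),Int.negSucc (nat_lit 230903132),Int.ofNat (nat_lit 117186607),Int.negSucc (nat_lit 98779122),Int.negSucc (nat_lit 32903039),Int.ofNat (nat_lit 47327393),Int.ofNat (nat_lit 199161559),Int.ofNat (nat_lit 42131003),Int.negSucc (nat_lit 67508530),Int.ofNat (nat_lit 9348269),Int.negSucc (nat_lit 72545005),Int.negSucc (nat_lit 187471328),Int.negSucc (nat_lit 144001443),Int.ofNat (nat_lit 140022681),Int.negSucc (nat_lit 59709051),Int.negSucc (nat_lit 135012294),Int.negSucc (nat_lit 229012817),Int.negSucc (nat_lit 91199344),Int.ofNat (nat_lit 185494442),Int.negSucc (nat_lit 218332547),Int.negSucc (nat_lit 40403146),Int.negSucc (nat_lit 23147752),Int.negSucc (nat_lit 17680476),Int.ofNat (nat_lit 86446920),Int.ofNat (nat_lit 57471184),Int.ofNat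 (nat_lit 4300453),Int.ofNat (nat_lit 30282435),Int.negSucc (nat_lit 85024281),Int.ofNat (nat_lit 32300152),Int.ofNat (nat_lit 59666477),Int.negSucc (nat_lit 37014496),Int.ofNat (nat_lit 130339886),Int.ofNat (nat_lit 47761524),Int.ofNat (nat_lit 4373172),Int.negSucc (nat_lit 11307091),Int.negSucc (nat_lit 3845670),Int.ofNat (nat_lit 139096152),Int.negSucc (nat_lit 3137684),Int.negSucc (nat_lit 70907637),Int.ofNat (nat_lit 80426289),Int.ofNat (nat_lit 566425488),Int.negSucc (nat_lit 41025542),Int.negSucc (nat_lit 1561647921),Int.negSucc (nat_lit 18034014),Int.negSucc (nat_lit 28013280),Int.negSucc (nat_lit 26971744),Int.negSucc (nat_lit 50241898),Int.negSucc (nat_lit 130307540),Int.negSucc (nat_lit 32655762),Int.ofNat (nat_lit 309519995),Int.negSucc (nat_lit 61584430),Int.ofNat (nat_lit 96907196),Int.negSucc (nat_lit 103561470),Int.negSucc (nat_lit 26677036),Int.ofNat (nat_lit 177467882),Int.negSucc (nat_lit 721522),Int.ofNat (nat_lit 24604264),Int.ofNat (nat_lit 48922236),Int.ofNat (nat_lit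 5153002),Int.negSucc (nat_lit 38463761),Int.ofNat (nat_lit 16242154),Int.ofNat (nat_lit 3206930),Int.negSucc (nat_lit 191914720),Int.negSucc (nat_lit 6359342),Int.negSucc (nat_lit 19026271),Int.negSucc (nat_lit 75386400),Int.negSucc (nat_lit 21777684),Int.ofNat (nat_lit 188920),Int.negSucc (nat_lit 8791951),Int.negSucc (nat_lit 21188601),Int.negSucc (nat_lit 12163899),Int.negSucc (nat_lit 2153081),Int.ofNat (nat_lit 317414570)])

/-- A row. -/
noncomputable def sr6_c1_33 : List ℕ × List ℤ :=
  ([(nat_lit 1),(nat_lit 0),(nat_lit 0),(nat_lit 0),(nat_lit 0),(nat_lit 1),(nat_lit 0),(nat_lit 0),(nat_lit 0),(nat_lit 0),(nat_lit 0),(nat_lit 0)], [Int.negSucc (nat_lit 1769756830),Int.negSucc (nat_lit 747580234),Int.ofNat (nat_lit 145219078),Int.ofNat (nat_lit 1806662664),Int.negSucc (nat_lit 1110874481),Int.ofNat (nat_lit 180706244),Int.negSucc (nat_lit 763101271),Int.ofNat (nat_lit 453422783),Int.negSucc (nat_lit 405403681),Int.ofNat (nat_lit 30159305),Int.ofNat (nat_lit 455475187),Int.negSucc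 (nat_lit 296136421),Int.negSucc (nat_lit 175610807),Int.ofNat (nat_lit 71111802),Int.negSucc (nat_lit 91159794),Int.ofNat (nat_lit 212450305),Int.ofNat (nat_lit 472568600),Int.negSucc (nat_lit 201518723),Int.ofNat (nat_lit 767782771),Int.ofNat (nat_lit 201837532),Int.ofNat (nat_lit 603596614),Int.negSucc (nat_lit 541603436),Int.negSucc (nat_lit 485939863),Int.ofNat (nat_lit 28413123),Int.ofNat (nat_lit 182373604),Int.ofNat (nat_lit 457502692),Int.negSucc (nat_lit 299705447),Int.ofNat (nat_lit 38423594),Int.negSucc (nat_lit 296586370),Int.ofNat (nat_lit 482692920),Int.ofNat (nat_lit 476352713),Int.negSucc (nat_lit 214695076),Int.negSucc (nat_lit 26243719),Int.ofNat (nat_lit 6420515),Int.negSucc (nat_lit 594543072),Int.negSucc (nat_lit 251322649),Int.ofNat (nat_lit 266052727),Int.negSucc (nat_lit 550193514),Int.ofNat (nat_lit 311493983),Int.ofNat (nat_lit 27031019),Int.ofNat (nat_lit 124104658),Int.ofNat (nat_lit 518950323),Int.ofNat (nat_lit 96233681),Int.negSucc (nat_lit 401775942),Int.negSucc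 (nat_lit 449459113),Int.ofNat (nat_lit 107076681),Int.ofNat (nat_lit 35729568),Int.ofNat (nat_lit 20773238),Int.negSucc (nat_lit 362884979),Int.negSucc (nat_lit 121255886),Int.ofNat (nat_lit 119161808),Int.ofNat (nat_lit 9945503),Int.ofNat (nat_lit 225413990),Int.negSucc (nat_lit 23529953),Int.negSucc (nat_lit 149211935),Int.ofNat (nat_lit 173069976),Int.ofNat (nat_lit 286008169),Int.negSucc (nat_lit 46576791),Int.negSucc (nat_lit 18304300),Int.ofNat (nat_lit 149521034),Int.negSucc (nat_lit 72956326),Int.ofNat (nat_lit 117265529),Int.ofNat (nat_lit 175319147),Int.negSucc (nat_lit 21974154),Int.ofNat (nat_lit 111319105),Int.ofNat (nat_lit 319300572),Int.ofNat (nat_lit 78000086),Int.negSucc (nat_lit 357814238),Int.ofNat (nat_lit 373401575),Int.negSucc (nat_lit 124518544),Int.negSucc (nat_lit 84281747),Int.ofNat (nat_lit 90896710),Int.negSucc (nat_lit 257860),Int.negSucc (nat_lit 280886707),Int.negSucc (nat_lit 200598614),Int.negSucc (nat_lit 388483573),Int.negSucc (nat_lit 2683889131),Int.negSucc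 (nat_lit 627611316),Int.ofNat (nat_lit 157002581),Int.ofNat (nat_lit 102043033),Int.negSucc (nat_lit 147388300),Int.ofNat (nat_lit 241954399),Int.negSucc (nat_lit 455529788),Int.ofNat (nat_lit 956239623),Int.negSucc (nat_lit 62071149),Int.ofNat (nat_lit 42313748),Int.negSucc (nat_lit 12354971),Int.ofNat (nat_lit 153298472),Int.ofNat (nat_lit 14841995),Int.ofNat (nat_lit 60273941),Int.negSucc (nat_lit 170993762),Int.ofNat (nat_lit 148052683),Int.negSucc (nat_lit 32523237),Int.negSucc (nat_lit 112473534),Int.negSucc (nat_lit 74189228),Int.ofNat (nat_lit 149435062),Int.negSucc (nat_lit 624240853),Int.negSucc (nat_lit 61143438),Int.ofNat (nat_lit 42055634),Int.ofNat (nat_lit 22040719),Int.negSucc (nat_lit 109781845),Int.negSucc (nat_lit 45621945),Int.ofNat (nat_lit 40327474),Int.negSucc (nat_lit 753290),Int.negSucc (nat_lit 240112906),Int.ofNat (nat_lit 55121942),Int.ofNat (nat_lit 725270750)])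

/-- A row. -/
noncomputable def sr6_c1_34 : List ℕ × List ℤ :=
  ([(nat_lit 1),(nat_lit 0),(nat_lit 0),(nat_lit 1),(nat_lit 0),(nat_lit 0),(nat_lit 0),(nat_lit 0),(nat_lit 0),(nat_lit 0),(nat_lit 0),(nat_lit 0)], [Int.ofNat (nat_lit 1929116040),Int.negSucc (nat_lit 455886858),Int.ofNat (nat_lit 1633171756),Int.ofNat (nat_lit 512168396),Int.negSucc (nat_lit 766194697),Int.ofNat (nat_lit 1638866104),Int.negSucc (nat_lit 336554989),Int.ofNat (nat_lit 518354725),Int.ofNat (nat_lit 105062956),Int.ofNat (nat_lit 1734966660),Int.ofNat (nat_lit 636200219),Int.ofNat (nat_lit 261438545),Int.ofNat (nat_lit 866617577),Int.ofNat (nat_lit 8788265),Int.negSucc (nat_lit 426720177),Int.ofNat (nat_lit 394406597),Int.ofNat (nat_lit 208426627),Int.negSucc (nat_lit 330099526),Int.ofNat (nat_lit 58272564),Int.ofNat (nat_lit 644241377),Int.negSucc (nat_lit 967036990),Int.ofNat (nat_lit 65262692),Int.ofNat (nat_lit 538027841),Int.negSucc (nat_lit 677291244),Int.ofNat (nat_lit 317314276),Int.negSucc (nat_lit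 239644294),Int.negSucc (nat_lit 618488669),Int.ofNat (nat_lit 777665755),Int.negSucc (nat_lit 323711117),Int.ofNat (nat_lit 157459192),Int.negSucc (nat_lit 391035592),Int.negSucc (nat_lit 643789097),Int.ofNat (nat_lit 585049942),Int.negSucc (nat_lit 218094188),Int.negSucc (nat_lit 616644933),Int.ofNat (nat_lit 347138905),Int.ofNat (nat_lit 1114302688),Int.ofNat (nat_lit 582320661),Int.ofNat (nat_lit 735512325),Int.negSucc (nat_lit 658770826),Int.negSucc (nat_lit 457419232),Int.negSucc (nat_lit 112638224),Int.ofNat (nat_lit 108882119),Int.ofNat (nat_lit 559581381),Int.negSucc (nat_lit 368738980),Int.ofNat (nat_lit 9843909),Int.ofNat (nat_lit 148378256),Int.ofNat (nat_lit 19079418),Int.negSucc (nat_lit 361119606),Int.negSucc (nat_lit 15663088),Int.negSucc (nat_lit 152793286),Int.ofNat (nat_lit 241769820),Int.ofNat (nat_lit 635312150),Int.negSucc (nat_lit 796525444),Int.negSucc (nat_lit 154472492),Int.ofNat (nat_lit 115305627),Int.ofNat (nat_lit 32639787),Int.ofNat (nat_lit 138894289),Int.negSucc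 (nat_lit 35206065),Int.negSucc (nat_lit 126898628),Int.ofNat (nat_lit 115041035),Int.ofNat (nat_lit 238563203),Int.negSucc (nat_lit 234631574),Int.negSucc (nat_lit 753498529),Int.negSucc (nat_lit 214351448),Int.negSucc (nat_lit 228094164),Int.ofNat (nat_lit 612758116),Int.ofNat (nat_lit 174199784),Int.ofNat (nat_lit 25132337),Int.ofNat (nat_lit 595394438),Int.negSucc (nat_lit 92244722),Int.negSucc (nat_lit 11719335),Int.negSucc (nat_lit 159165949),Int.ofNat (nat_lit 871023676),Int.negSucc (nat_lit 564063792),Int.negSucc (nat_lit 35899081),Int.ofNat (nat_lit 986393137),Int.ofNat (nat_lit 833415273),Int.negSucc (nat_lit 3662384097),Int.ofNat (nat_lit 374666348),Int.negSucc (nat_lit 607966791),Int.negSucc (nat_lit 711003032),Int.ofNat (nat_lit 279021167),Int.negSucc (nat_lit 454250324),Int.ofNat (nat_lit 334919586),Int.ofNat (nat_lit 4563834),Int.ofNat (nat_lit 122706316),Int.negSucc (nat_lit 95117062),Int.negSucc (nat_lit 137187139),Int.negSucc (nat_lit 45462330),Int.negSucc (nat_lit 50588652),Int.negSucc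 (nat_lit 201825631),Int.negSucc (nat_lit 39104511),Int.ofNat (nat_lit 12268376),Int.negSucc (nat_lit 111266572),Int.negSucc (nat_lit 110086097),Int.ofNat (nat_lit 174903092),Int.ofNat (nat_lit 29904475),Int.negSucc (nat_lit 142608153),Int.ofNat (nat_lit 85915675),Int.ofNat (nat_lit 44463412),Int.ofNat (nat_lit 68857196),Int.ofNat (nat_lit 21176301),Int.ofNat (nat_lit 6271894),Int.ofNat (nat_lit 262948589),Int.negSucc (nat_lit 135959342),Int.negSucc (nat_lit 128010676),Int.ofNat (nat_lit 924902342)])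

/-- A row. -/
noncomputable def sr6_c1_35 : List ℕ × List ℤ :=
  ([(nat_lit 1),(nat_lit 0),(nat_lit 0),(nat_lit 1),(nat_lit 1),(nat_lit 0),(nat_lit 0),(nat_lit 0),(nat_lit 0),(nat_lit 0),(nat_lit 0),(nat_lit 0)], [Int.ofNat (nat_lit 745832476),Int.ofNat (nat_lit 1116675263),Int.negSucc (nat_lit 481767235),Int.negSucc (nat_lit 53790142),Int.ofNat (nat_lit 981807641),Int.ofNat (nat_lit 62859377),Int.ofNat (nat_lit 419474981),Int.negSucc (nat_lit 193684190),Int.negSucc (nat_lit 323510678),Int.negSucc (nat_lit 9554379),Int.negSucc (nat_lit 21394340),Int.ofNat (nat_lit 340454078),Int.negSucc (nat_lit 376761930),Int.negSucc (nat_lit 168033583),Int.ofNat (nat_lit 300797900),Int.negSucc (nat_lit 219514762),Int.negSucc (nat_lit 156848235),Int.ofNat (nat_lit 287464562),Int.negSucc (nat_lit 219844125),Int.negSucc (nat_lit 110422091),Int.ofNat (nat_lit 790348757),Int.negSucc (nat_lit 364667385),Int.negSucc (nat_lit 135832147),Int.negSucc (nat_lit 6921401),Int.negSucc (nat_lit 166176872),Int.ofNat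 (nat_lit 266534797),Int.ofNat (nat_lit 255392770),Int.negSucc (nat_lit 304212947),Int.ofNat (nat_lit 12877807),Int.negSucc (nat_lit 190486409),Int.negSucc (nat_lit 136437031),Int.ofNat (nat_lit 191252329),Int.negSucc (nat_lit 63717083),Int.ofNat (nat_lit 30803686),Int.ofNat (nat_lit 224232123),Int.ofNat (nat_lit 236755616),Int.negSucc (nat_lit 202826912),Int.negSucc (nat_lit 118985335),Int.negSucc (nat_lit 316177873),Int.ofNat (nat_lit 22948936),Int.ofNat (nat_lit 84822126),Int.ofNat (nat_lit 62286572),Int.ofNat (nat_lit 53645815),Int.negSucc (nat_lit 162847659),Int.ofNat (nat_lit 283951896),Int.ofNat (nat_lit 204068413),Int.ofNat (nat_lit 20049171),Int.ofNat (nat_lit 34086881),Int.ofNat (nat_lit 230339272),Int.ofNat (nat_lit 128758159),Int.ofNat (nat_lit 16638571),Int.negSucc (nat_lit 160126504),Int.ofNat (nat_lit 57432896),Int.ofNat (nat_lit 159338380),Int.ofNat (nat_lit 358419504),Int.negSucc (nat_lit 73483986),Int.negSucc (nat_lit 27313129),Int.negSucc (nat_lit 54379539),Int.negSucc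 (nat_lit 8691381),Int.ofNat (nat_lit 63925503),Int.negSucc (nat_lit 14529127),Int.negSucc (nat_lit 94138483),Int.ofNat (nat_lit 31758907),Int.ofNat (nat_lit 61503323),Int.negSucc (nat_lit 57226879),Int.ofNat (nat_lit 18514174),Int.negSucc (nat_lit 64954487),Int.negSucc (nat_lit 36536116),Int.ofNat (nat_lit 62954109),Int.negSucc (nat_lit 135381439),Int.negSucc (nat_lit 10014947),Int.negSucc (nat_lit 6160067),Int.ofNat (nat_lit 17276630),Int.negSucc (nat_lit 357218335),Int.ofNat (nat_lit 39610927),Int.ofNat (nat_lit 379519315),Int.ofNat (nat_lit 67405895),Int.negSucc (nat_lit 544225347),Int.ofNat (nat_lit 896019016),Int.ofNat (nat_lit 184169860),Int.negSucc (nat_lit 1002997422),Int.ofNat (nat_lit 145147267),Int.negSucc (nat_lit 3435709),Int.negSucc (nat_lit 15578741),Int.negSucc (nat_lit 31853745),Int.ofNat (nat_lit 9076581),Int.negSucc (nat_lit 4700319),Int.ofNat (nat_lit 36774828),Int.ofNat (nat_lit 2116180),Int.negSucc (nat_lit 10342173),Int.ofNat (nat_lit 13967907),Int.negSucc (nat_lit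 22808604),Int.ofNat (nat_lit 16306699),Int.ofNat (nat_lit 2319350),Int.ofNat (nat_lit 23153692),Int.ofNat (nat_lit 8142520),Int.negSucc (nat_lit 12143670),Int.ofNat (nat_lit 2732737),Int.ofNat (nat_lit 33713457),Int.ofNat (nat_lit 8210069),Int.negSucc (nat_lit 26492929),Int.ofNat (nat_lit 4724935),Int.ofNat (nat_lit 31530504),Int.negSucc (nat_lit 3076814),Int.negSucc (nat_lit 1033136),Int.negSucc (nat_lit 41792440),Int.negSucc (nat_lit 23292098),Int.negSucc (nat_lit 64837059),Int.ofNat (nat_lit 284149287)])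

/-- A row. -/
noncomputable def sr6_c1_36 : List ℕ × List ℤ :=
  ([(nat_lit 1),(nat_lit 0),(nat_lit 1),(nat_lit 0),(nat_lit 0),(nat_lit 1),(nat_lit 0),(nat_lit 0),(nat_lit 0),(nat_lit 0),(nat_lit 0),(nat_lit 0)], [Int.negSucc (nat_lit 757642722),Int.negSucc (nat_lit 134707675),Int.ofNat (nat_lit 346955744),Int.ofNat (nat_lit 625238439),Int.negSucc (nat_lit 1006794964),Int.ofNat (nat_lit 613820036),Int.negSucc (nat_lit 476690634),Int.ofNat (nat_lit 491264416),Int.negSucc (nat_lit 652695371),Int.ofNat (nat_lit 33848820),Int.negSucc (nat_lit 70498847),Int.negSucc (nat_lit 349551202),Int.ofNat (nat_lit 364339315),Int.ofNat (nat_lit 22636792),Int.negSucc (nat_lit 286518064),Int.ofNat (nat_lit 208093721),Int.ofNat (nat_lit 264938136),Int.negSucc (nat_lit 158282270),Int.ofNat (nat_lit 188706883),Int.ofNat (nat_lit 259742775),Int.negSucc (nat_lit 853628925),Int.ofNat (nat_lit 606075053),Int.negSucc (nat_lit 4680128),Int.ofNat (nat_lit 148109289),Int.ofNat (nat_lit 131005078),Int.ofNat (nat_lit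 6034840),Int.negSucc (nat_lit 76672185),Int.ofNat (nat_lit 219004675),Int.negSucc (nat_lit 94379052),Int.ofNat (nat_lit 6870188),Int.ofNat (nat_lit 135907095),Int.negSucc (nat_lit 90973874),Int.ofNat (nat_lit 140844740),Int.negSucc (nat_lit 42978655),Int.negSucc (nat_lit 238001385),Int.negSucc (nat_lit 141063088),Int.ofNat (nat_lit 105644613),Int.ofNat (nat_lit 34532795),Int.ofNat (nat_lit 105349059),Int.negSucc (nat_lit 5190818),Int.negSucc (nat_lit 49301154),Int.ofNat (nat_lit 88860299),Int.negSucc (nat_lit 16995861),Int.ofNat (nat_lit 64033662),Int.negSucc (nat_lit 310296935),Int.ofNat (nat_lit 61930104),Int.negSucc (nat_lit 49359897),Int.ofNat (nat_lit 108813057),Int.negSucc (nat_lit 177022904),Int.negSucc (nat_lit 101762353),Int.negSucc (nat_lit 23207904),Int.ofNat (nat_lit 121560159),Int.negSucc (nat_lit 112999413),Int.negSucc (nat_lit 147623842),Int.negSucc (nat_lit 154024496),Int.negSucc (nat_lit 108176726),Int.ofNat (nat_lit 45903481),Int.negSucc (nat_lit 65106685),Int.ofNat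 (nat_lit 63896474),Int.negSucc (nat_lit 91483326),Int.ofNat (nat_lit 30003955),Int.ofNat (nat_lit 111835733),Int.ofNat (nat_lit 38755646),Int.negSucc (nat_lit 29897315),Int.ofNat (nat_lit 137023744),Int.ofNat (nat_lit 30595718),Int.negSucc (nat_lit 65470625),Int.negSucc (nat_lit 11910184),Int.negSucc (nat_lit 49460445),Int.ofNat (nat_lit 61796644),Int.ofNat (nat_lit 16059097),Int.ofNat (nat_lit 20436504),Int.ofNat (nat_lit 40203770),Int.negSucc (nat_lit 214559904),Int.negSucc (nat_lit 77413088),Int.negSucc (nat_lit 203155661),Int.negSucc (nat_lit 545077774),Int.ofNat (nat_lit 157236116),Int.negSucc (nat_lit 391032716),Int.negSucc (nat_lit 100893436),Int.ofNat (nat_lit 258405637),Int.negSucc (nat_lit 190129718),Int.ofNat (nat_lit 139591227),Int.negSucc (nat_lit 1002316977),Int.ofNat (nat_lit 40625478),Int.negSucc (nat_lit 7658268),Int.negSucc (nat_lit 1355089),Int.ofNat (nat_lit 12658193),Int.ofNat (nat_lit 4706016),Int.negSucc (nat_lit 2293224),Int.negSucc (nat_lit 192788),Int.ofNat (nat_lit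 2080385),Int.ofNat (nat_lit 25183891),Int.negSucc (nat_lit 15017261),Int.ofNat (nat_lit 32373114),Int.ofNat (nat_lit 1252662),Int.negSucc (nat_lit 43625245),Int.negSucc (nat_lit 23026035),Int.negSucc (nat_lit 9633617),Int.negSucc (nat_lit 10592382),Int.negSucc (nat_lit 40108249),Int.negSucc (nat_lit 13664282),Int.ofNat (nat_lit 15721015),Int.ofNat (nat_lit 822614),Int.negSucc (nat_lit 8952882),Int.ofNat (nat_lit 63066697),Int.ofNat (nat_lit 75461075),Int.ofNat (nat_lit 20829291),Int.negSucc (nat_lit 143425386),Int.ofNat (nat_lit 208843429)])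

/-- A row. -/
noncomputable def sr6_c1_37 : List ℕ × List ℤ :=
  ([(nat_lit 1),(nat_lit 0),(nat_lit 1),(nat_lit 1),(nat_lit 0),(nat_lit 0),(nat_lit 0),(nat_lit 0),(nat_lit 0),(nat_lit 0),(nat_lit 0),(nat_lit 0)], [Int.ofNat (nat_lit 1764849514),Int.negSucc (nat_lit 708117169),Int.ofNat (nat_lit 551239932),Int.negSucc (nat_lit 1380948670),Int.ofNat (nat_lit 840065884),Int.ofNat (nat_lit 1135053999),Int.negSucc (nat_lit 7903198),Int.ofNat (nat_lit 48382507),Int.negSucc (nat_lit 140774812),Int.negSucc (nat_lit 728744141),Int.ofNat (nat_lit 920498613),Int.ofNat (nat_lit 496101543),Int.ofNat (nat_lit 970879247),Int.ofNat (nat_lit 742820433),Int.ofNat (nat_lit 24276664),Int.ofNat (nat_lit 214277428),Int.negSucc (nat_lit 306732017),Int.ofNat (nat_lit 19960758),Int.ofNat (nat_lit 272478167),Int.ofNat (nat_lit 435064230),Int.negSucc (nat_lit 118150804),Int.negSucc (nat_lit 671742472),Int.ofNat (nat_lit 1002447509),Int.negSucc (nat_lit 601931801),Int.ofNat (nat_lit 297849459),Int.negSucc (nat_lit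 30644647),Int.negSucc (nat_lit 185297792),Int.ofNat (nat_lit 508216644),Int.ofNat (nat_lit 143666905),Int.negSucc (nat_lit 150991784),Int.negSucc (nat_lit 489562031),Int.negSucc (nat_lit 218538525),Int.ofNat (nat_lit 352585848),Int.negSucc (nat_lit 33348913),Int.negSucc (nat_lit 49508537),Int.ofNat (nat_lit 1104096294),Int.ofNat (nat_lit 680247244),Int.negSucc (nat_lit 42160859),Int.ofNat (nat_lit 824857124),Int.ofNat (nat_lit 55684232),Int.negSucc (nat_lit 558700606),Int.ofNat (nat_lit 521177305),Int.negSucc (nat_lit 317626140),Int.ofNat (nat_lit 436204844),Int.negSucc (nat_lit 235359624),Int.ofNat (nat_lit 98217574),Int.ofNat (nat_lit 240062112),Int.ofNat (nat_lit 93819219),Int.negSucc (nat_lit 119316537),Int.negSucc (nat_lit 49921885),Int.negSucc (nat_lit 170446866),Int.ofNat (nat_lit 120126179),Int.ofNat (nat_lit 328706270),Int.negSucc (nat_lit 721147676),Int.ofNat (nat_lit 240103099),Int.negSucc (nat_lit 75992676),Int.ofNat (nat_lit 479295174),Int.ofNat (nat_lit 75382745),Int.ofNat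 (nat_lit 41803428),Int.ofNat (nat_lit 101354349),Int.ofNat (nat_lit 69343267),Int.ofNat (nat_lit 163192934),Int.negSucc (nat_lit 243844626),Int.negSucc (nat_lit 290217849),Int.negSucc (nat_lit 205795374),Int.negSucc (nat_lit 502945008),Int.ofNat (nat_lit 519512462),Int.ofNat (nat_lit 226513880),Int.negSucc (nat_lit 90766856),Int.ofNat (nat_lit 670520634),Int.negSucc (nat_lit 203860786),Int.ofNat (nat_lit 41049469),Int.negSucc (nat_lit 127477846),Int.ofNat (nat_lit 708877909),Int.ofNat (nat_lit 48329096),Int.negSucc (nat_lit 233517579),Int.ofNat (nat_lit 9495760),Int.ofNat (nat_lit 133276992),Int.negSucc (nat_lit 2308919404),Int.ofNat (nat_lit 978561168),Int.negSucc (nat_lit 878575611),Int.negSucc (nat_lit 764872395),Int.ofNat (nat_lit 827280180),Int.negSucc (nat_lit 36078422),Int.negSucc (nat_lit 1723882955),Int.ofNat (nat_lit 771212157),Int.ofNat (nat_lit 70265391),Int.negSucc (nat_lit 73327222),Int.negSucc (nat_lit 87422478),Int.ofNat (nat_lit 33569927),Int.ofNat (nat_lit 32801691),Int.ofNat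 (nat_lit 6980129),Int.negSucc (nat_lit 93504501),Int.ofNat (nat_lit 14810639),Int.negSucc (nat_lit 79798785),Int.negSucc (nat_lit 185736230),Int.ofNat (nat_lit 75201474),Int.negSucc (nat_lit 61625628),Int.negSucc (nat_lit 153458658),Int.ofNat (nat_lit 28525989),Int.negSucc (nat_lit 19049812),Int.ofNat (nat_lit 69935459),Int.negSucc (nat_lit 68631284),Int.ofNat (nat_lit 13904016),Int.ofNat (nat_lit 164472149),Int.negSucc (nat_lit 37603211),Int.ofNat (nat_lit 17578295),Int.ofNat (nat_lit 373148810),Int.negSucc (nat_lit 134672572),Int.negSucc (nat_lit 131535979),Int.ofNat (nat_lit 573908367)])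

/-- A row. -/
noncomputable def sr6_c1_38 : List ℕ × List ℤ :=
  ([(nat_lit 1),(nat_lit 1),(nat_lit 0),(nat_lit 0),(nat_lit 0),(nat_lit 0),(nat_lit 0),(nat_lit 0),(nat_lit 0),(nat_lit 0),(nat_lit 0),(nat_lit 0)], [Int.ofNat (nat_lit 1114866061),Int.ofNat (nat_lit 1206293385),Int.negSucc (nat_lit 1351753683),Int.negSucc (nat_lit 1540390981),Int.ofNat (nat_lit 3512431367),Int.negSucc (nat_lit 2000623211),Int.ofNat (nat_lit 857106737),Int.ofNat (nat_lit 448620495),Int.negSucc (nat_lit 505879598),Int.ofNat (nat_lit 1209191068),Int.negSucc (nat_lit 1347466453),Int.negSucc (nat_lit 1075674947),Int.negSucc (nat_lit 616622498),Int.negSucc (nat_lit 376419745),Int.negSucc (nat_lit 768034503),Int.negSucc (nat_lit 876207104),Int.ofNat (nat_lit 2549658251),Int.negSucc (nat_lit 166425986),Int.ofNat (nat_lit 773137121),Int.ofNat (nat_lit 811016359),Int.negSucc (nat_lit 35908639),Int.negSucc (nat_lit 368959084),Int.negSucc (nat_lit 944901322),Int.ofNat (nat_lit 2359667443),Int.negSucc (nat_lit 148527778),Int.negSucc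 (nat_lit 1234340604),Int.ofNat (nat_lit 1119090712),Int.negSucc (nat_lit 2120069026),Int.ofNat (nat_lit 77898082),Int.ofNat (nat_lit 1027127767),Int.ofNat (nat_lit 777763111),Int.negSucc (nat_lit 50759037),Int.negSucc (nat_lit 656944194),Int.ofNat (nat_lit 161469331),Int.ofNat (nat_lit 1469770810),Int.negSucc (nat_lit 34028340),Int.negSucc (nat_lit 402403934),Int.negSucc (nat_lit 881723334),Int.negSucc (nat_lit 184689477),Int.ofNat (nat_lit 734404017),Int.ofNat (nat_lit 100118660),Int.ofNat (nat_lit 331524357),Int.negSucc (nat_lit 254221298),Int.negSucc (nat_lit 342513312),Int.ofNat (nat_lit 192396312),Int.negSucc (nat_lit 366317790),Int.ofNat (nat_lit 324527306),Int.negSucc (nat_lit 933382051),Int.ofNat (nat_lit 33712733),Int.ofNat (nat_lit 372446308),Int.negSucc (nat_lit 282448085),Int.ofNat (nat_lit 293993069),Int.negSucc (nat_lit 406330600),Int.ofNat (nat_lit 445905733),Int.ofNat (nat_lit 90055754),Int.ofNat (nat_lit 868762809),Int.ofNat (nat_lit 102663292),Int.negSucc (nat_lit 14983217),Int.negSucc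 (nat_lit 1212527094),Int.ofNat (nat_lit 138441473),Int.negSucc (nat_lit 416504121),Int.ofNat (nat_lit 6600654),Int.negSucc (nat_lit 327180267),Int.negSucc (nat_lit 343938356),Int.ofNat (nat_lit 276871960),Int.ofNat (nat_lit 142741520),Int.ofNat (nat_lit 269392539),Int.negSucc (nat_lit 5968572),Int.ofNat (nat_lit 575743177),Int.ofNat (nat_lit 228782637),Int.negSucc (nat_lit 264989866),Int.ofNat (nat_lit 666333670),Int.ofNat (nat_lit 413243053),Int.negSucc (nat_lit 1002855652),Int.negSucc (nat_lit 525820296),Int.negSucc (nat_lit 117022460),Int.negSucc (nat_lit 790674189),Int.negSucc (nat_lit 451990507),Int.ofNat (nat_lit 1869493148),Int.negSucc (nat_lit 501325753),Int.ofNat (nat_lit 216517784),Int.negSucc (nat_lit 52705948),Int.negSucc (nat_lit 1285416450),Int.ofNat (nat_lit 1457656426),Int.ofNat (nat_lit 283897412),Int.negSucc (nat_lit 624916838),Int.negSucc (nat_lit 5961500716),Int.negSucc (nat_lit 58533157),Int.ofNat (nat_lit 1540224549),Int.negSucc (nat_lit 297017551),Int.negSucc (nat_lit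 467341780),Int.negSucc (nat_lit 366057739),Int.ofNat (nat_lit 1476586345),Int.negSucc (nat_lit 766916469),Int.negSucc (nat_lit 213572561),Int.negSucc (nat_lit 16152837),Int.negSucc (nat_lit 300708993),Int.negSucc (nat_lit 63869182),Int.ofNat (nat_lit 314717526),Int.negSucc (nat_lit 898528885),Int.ofNat (nat_lit 435998174),Int.ofNat (nat_lit 509698862),Int.negSucc (nat_lit 122614338),Int.negSucc (nat_lit 118383925),Int.negSucc (nat_lit 321394328),Int.ofNat (nat_lit 259970910),Int.negSucc (nat_lit 129468520),Int.negSucc (nat_lit 429907821),Int.negSucc (nat_lit 337815052),Int.negSucc (nat_lit 563779798),Int.ofNat (nat_lit 322320600),Int.ofNat (nat_lit 2657836665)])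

/-- A row. -/
noncomputable def sr6_c1_39 : List ℕ × List ℤ :=
  ([(nat_lit 1),(nat_lit 1),(nat_lit 0),(nat_lit 0),(nat_lit 0),(nat_lit 0),(nat_lit 1),(nat_lit 0),(nat_lit 0),(nat_lit 0),(nat_lit 0),(nat_lit 0)], [Int.ofNat (nat_lit 59903036),Int.negSucc (nat_lit 432418217),Int.ofNat (nat_lit 694193985),Int.ofNat (nat_lit 593967651),Int.negSucc (nat_lit 395733496),Int.negSucc (nat_lit 243321432),Int.negSucc (nat_lit 15849905),Int.negSucc (nat_lit 512318027),Int.ofNat (nat_lit 250198613),Int.negSucc (nat_lit 275811554),Int.ofNat (nat_lit 263518174),Int.ofNat (nat_lit 215279073),Int.ofNat (nat_lit 61563537),Int.negSucc (nat_lit 453649059),Int.negSucc (nat_lit 142781638),Int.ofNat (nat_lit 67045211),Int.negSucc (nat_lit 160097511),Int.negSucc (nat_lit 552637069),Int.ofNat (nat_lit 73146016),Int.ofNat (nat_lit 43121662),Int.ofNat (nat_lit 458630703),Int.negSucc (nat_lit 620017790),Int.ofNat (nat_lit 194437024),Int.negSucc (nat_lit 454254834),Int.ofNat (nat_lit 606574184),Int.negSucc (nat_lit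 139694384),Int.negSucc (nat_lit 212440449),Int.ofNat (nat_lit 204229268),Int.negSucc (nat_lit 438151460),Int.negSucc (nat_lit 28685698),Int.negSucc (nat_lit 491857223),Int.negSucc (nat_lit 395971948),Int.ofNat (nat_lit 368730176),Int.negSucc (nat_lit 256070250),Int.ofNat (nat_lit 343424424),Int.ofNat (nat_lit 412653585),Int.ofNat (nat_lit 1295132847),Int.ofNat (nat_lit 168025266),Int.ofNat (nat_lit 265315658),Int.negSucc (nat_lit 165370675),Int.ofNat (nat_lit 37945533),Int.ofNat (nat_lit 30556364),Int.ofNat (nat_lit 44913464),Int.ofNat (nat_lit 243642088),Int.negSucc (nat_lit 157826411),Int.negSucc (nat_lit 40993893),Int.negSucc (nat_lit 137833949),Int.negSucc (nat_lit 122218456),Int.ofNat (nat_lit 22449723),Int.ofNat (nat_lit 101122712),Int.negSucc (nat_lit 167923647),Int.negSucc (nat_lit 158098281),Int.negSucc (nat_lit 161535765),Int.negSucc (nat_lit 274731685),Int.negSucc (nat_lit 38165292),Int.ofNat (nat_lit 187805153),Int.ofNat (nat_lit 84836812),Int.ofNat (nat_lit 157857451),Int.ofNat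 (nat_lit 30704298),Int.ofNat (nat_lit 172460857),Int.ofNat (nat_lit 44686747),Int.ofNat (nat_lit 52721046),Int.negSucc (nat_lit 56508445),Int.ofNat (nat_lit 130846199),Int.ofNat (nat_lit 44581099),Int.ofNat (nat_lit 91705825),Int.ofNat (nat_lit 78743925),Int.ofNat (nat_lit 125248680),Int.negSucc (nat_lit 10935364),Int.ofNat (nat_lit 90451377),Int.negSucc (nat_lit 67195273),Int.ofNat (nat_lit 113839105),Int.negSucc (nat_lit 62345797),Int.ofNat (nat_lit 308626792),Int.negSucc (nat_lit 291378869),Int.ofNat (nat_lit 46845858),Int.negSucc (nat_lit 25549917),Int.ofNat (nat_lit 346762383),Int.negSucc (nat_lit 407303841),Int.negSucc (nat_lit 235975899),Int.ofNat (nat_lit 195928511),Int.negSucc (nat_lit 57380774),Int.ofNat (nat_lit 267759240),Int.negSucc (nat_lit 190293869),Int.negSucc (nat_lit 258059936),Int.negSucc (nat_lit 134558292),Int.negSucc (nat_lit 559849096),Int.ofNat (nat_lit 1762085),Int.negSucc (nat_lit 1424264798),Int.negSucc (nat_lit 78482),Int.ofNat (nat_lit 84589195),Int.negSucc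 (nat_lit 36513109),Int.ofNat (nat_lit 14943697),Int.ofNat (nat_lit 39422658),Int.ofNat (nat_lit 20168939),Int.negSucc (nat_lit 55743465),Int.negSucc (nat_lit 44745184),Int.ofNat (nat_lit 59944168),Int.ofNat (nat_lit 31534344),Int.ofNat (nat_lit 1280998),Int.ofNat (nat_lit 56688232),Int.negSucc (nat_lit 18264649),Int.ofNat (nat_lit 7144693),Int.negSucc (nat_lit 7905542),Int.ofNat (nat_lit 90327531),Int.ofNat (nat_lit 57305482),Int.negSucc (nat_lit 10697981),Int.ofNat (nat_lit 42935097),Int.negSucc (nat_lit 52072535),Int.ofNat (nat_lit 24764145),Int.negSucc (nat_lit 1261916),Int.ofNat (nat_lit 24533354),Int.ofNat (nat_lit 289886951)])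

/-- A row. -/
noncomputable def sr6_c1_40 : List ℕ × List ℤ :=
  ([(nat_lit 1),(nat_lit 1),(nat_lit 0),(nat_lit 0),(nat_lit 1),(nat_lit 0),(nat_lit 0),(nat_lit 0),(nat_lit 0),(nat_lit 0),(nat_lit 0),(nat_lit 0)], [Int.ofNat (nat_lit 1543153923),Int.negSucc (nat_lit 1317932371),Int.negSucc (nat_lit 57110988),Int.ofNat (nat_lit 2207903412),Int.negSucc (nat_lit 258262021),Int.ofNat (nat_lit 1408137132),Int.ofNat (nat_lit 459290615),Int.negSucc (nat_lit 1002305722),Int.negSucc (nat_lit 1697913582),Int.negSucc (nat_lit 2896688906),Int.ofNat (nat_lit 1658020182),Int.negSucc (nat_lit 226570173),Int.negSucc (nat_lit 766451746),Int.ofNat (nat_lit 292507100),Int.ofNat (nat_lit 307489153),Int.ofNat (nat_lit 576294728),Int.negSucc (nat_lit 949391638),Int.negSucc (nat_lit 382524374),Int.negSucc (nat_lit 2759463635),Int.ofNat (nat_lit 94236897),Int.ofNat (nat_lit 1156831530),Int.ofNat (nat_lit 16392572),Int.negSucc (nat_lit 85885492),Int.negSucc (nat_lit 459255273),Int.ofNat (nat_lit 812095671),Int.ofNat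 (nat_lit 4422021444),Int.negSucc (nat_lit 722424201),Int.ofNat (nat_lit 278422070),Int.ofNat (nat_lit 498492952),Int.negSucc (nat_lit 861493235),Int.ofNat (nat_lit 71338663),Int.ofNat (nat_lit 1088982633),Int.negSucc (nat_lit 595036796),Int.ofNat (nat_lit 882865258),Int.negSucc (nat_lit 836271474),Int.negSucc (nat_lit 842663759),Int.ofNat (nat_lit 1427846177),Int.ofNat (nat_lit 1174706751),Int.negSucc (nat_lit 160357920),Int.negSucc (nat_lit 689002018),Int.ofNat (nat_lit 328741005),Int.negSucc (nat_lit 93789932),Int.ofNat (nat_lit 385020230),Int.negSucc (nat_lit 263456684),Int.ofNat (nat_lit 145084165),Int.ofNat (nat_lit 451313426),Int.negSucc (nat_lit 392403167),Int.ofNat (nat_lit 168414306),Int.negSucc (nat_lit 420200112),Int.negSucc (nat_lit 132372616),Int.ofNat (nat_lit 273502810),Int.ofNat (nat_lit 14300104),Int.ofNat (nat_lit 173539758),Int.ofNat (nat_lit 11313187),Int.negSucc (nat_lit 832281786),Int.negSucc (nat_lit 277410386),Int.ofNat (nat_lit 629094879),Int.ofNat (nat_lit 342020192),Int.ofNat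 (nat_lit 526504475),Int.ofNat (nat_lit 190361916),Int.ofNat (nat_lit 441785735),Int.ofNat (nat_lit 96356930),Int.ofNat (nat_lit 417736121),Int.ofNat (nat_lit 481476707),Int.ofNat (nat_lit 161892966),Int.ofNat (nat_lit 475129996),Int.negSucc (nat_lit 31053411),Int.ofNat (nat_lit 72728523),Int.negSucc (nat_lit 326004104),Int.negSucc (nat_lit 218768270),Int.negSucc (nat_lit 56436903),Int.ofNat (nat_lit 234789754),Int.negSucc (nat_lit 695546154),Int.ofNat (nat_lit 409784131),Int.negSucc (nat_lit 117500648),Int.ofNat (nat_lit 624404483),Int.negSucc (nat_lit 629316417),Int.negSucc (nat_lit 444886000),Int.ofNat (nat_lit 390369778),Int.ofNat (nat_lit 396023694),Int.negSucc (nat_lit 363812899),Int.ofNat (nat_lit 1080005119),Int.ofNat (nat_lit 414007749),Int.negSucc (nat_lit 421941714),Int.negSucc (nat_lit 934876679),Int.ofNat (nat_lit 365448956),Int.ofNat (nat_lit 3031099647),Int.ofNat (nat_lit 450688916),Int.negSucc (nat_lit 1224531402),Int.negSucc (nat_lit 4698456889),Int.ofNat (nat_lit 151705457),Int.ofNat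 (nat_lit 243953234),Int.negSucc (nat_lit 361092612),Int.ofNat (nat_lit 604079107),Int.ofNat (nat_lit 94244023),Int.ofNat (nat_lit 66249260),Int.ofNat (nat_lit 145500888),Int.negSucc (nat_lit 449906894),Int.ofNat (nat_lit 284559397),Int.ofNat (nat_lit 70228741),Int.negSucc (nat_lit 1186881019),Int.negSucc (nat_lit 60385778),Int.ofNat (nat_lit 43523768),Int.ofNat (nat_lit 29978587),Int.negSucc (nat_lit 163044136),Int.negSucc (nat_lit 363249583),Int.ofNat (nat_lit 289274840),Int.negSucc (nat_lit 317048768),Int.ofNat (nat_lit 129044682),Int.ofNat (nat_lit 92408472),Int.ofNat (nat_lit 155518970),Int.negSucc (nat_lit 706719264),Int.negSucc (nat_lit 687561377),Int.ofNat (nat_lit 1091783228)])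

/-- A row. -/
noncomputable def sr6_c1_41 : List ℕ × List ℤ :=
  ([(nat_lit 1),(nat_lit 1),(nat_lit 0),(nat_lit 2),(nat_lit 0),(nat_lit 0),(nat_lit 0),(nat_lit 0),(nat_lit 0),(nat_lit 0),(nat_lit 0),(nat_lit 0)], [Int.ofNat (nat_lit 803927003),Int.ofNat (nat_lit 294304806),Int.negSucc (nat_lit 117196424),Int.negSucc (nat_lit 2387493403),Int.ofNat (nat_lit 230953011),Int.ofNat (nat_lit 783795639),Int.ofNat (nat_lit 612205068),Int.ofNat (nat_lit 487164246),Int.negSucc (nat_lit 1188542513),Int.negSucc (nat_lit 1178666459),Int.negSucc (nat_lit 755434480),Int.negSucc (nat_lit 999421321),Int.ofNat (nat_lit 77458003),Int.ofNat (nat_lit 255783206),Int.negSucc (nat_lit 329539892),Int.ofNat (nat_lit 37985412),Int.ofNat (nat_lit 87163334),Int.ofNat (nat_lit 745510330),Int.negSucc (nat_lit 611021599),Int.ofNat (nat_lit 1468632020),Int.negSucc (nat_lit 1012117904),Int.ofNat (nat_lit 1209969876),Int.negSucc (nat_lit 136147685),Int.ofNat (nat_lit 1718964945),Int.negSucc (nat_lit 120634258),Int.ofNat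 (nat_lit 328740819),Int.ofNat (nat_lit 448892995),Int.negSucc (nat_lit 37235326),Int.ofNat (nat_lit 1174414058),Int.negSucc (nat_lit 643503648),Int.ofNat (nat_lit 1590603279),Int.ofNat (nat_lit 470794364),Int.negSucc (nat_lit 685519303),Int.ofNat (nat_lit 218730221),Int.negSucc (nat_lit 573747736),Int.ofNat (nat_lit 189823656),Int.negSucc (nat_lit 1187540142),Int.negSucc (nat_lit 439418613),Int.negSucc (nat_lit 1397351822),Int.ofNat (nat_lit 660623970),Int.ofNat (nat_lit 234664942),Int.ofNat (nat_lit 44025079),Int.ofNat (nat_lit 135948288),Int.negSucc (nat_lit 207996897),Int.ofNat (nat_lit 76269715),Int.negSucc (nat_lit 163413413),Int.negSucc (nat_lit 515337595),Int.negSucc (nat_lit 19970749),Int.negSucc (nat_lit 6864055),Int.negSucc (nat_lit 330537710),Int.ofNat (nat_lit 126155454),Int.ofNat (nat_lit 519225786),Int.negSucc (nat_lit 270490500),Int.ofNat (nat_lit 291558213),Int.ofNat (nat_lit 104827827),Int.negSucc (nat_lit 358863386),Int.negSucc (nat_lit 445071851),Int.negSucc (nat_lit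 400709883),Int.ofNat (nat_lit 490539026),Int.ofNat (nat_lit 342855970),Int.ofNat (nat_lit 127897306),Int.ofNat (nat_lit 58220508),Int.ofNat (nat_lit 95675523),Int.ofNat (nat_lit 103560086),Int.ofNat (nat_lit 318218390),Int.ofNat (nat_lit 230634740),Int.negSucc (nat_lit 603141360),Int.ofNat (nat_lit 76165910),Int.negSucc (nat_lit 191028924),Int.ofNat (nat_lit 10813437),Int.ofNat (nat_lit 90432477),Int.ofNat (nat_lit 74016485),Int.negSucc (nat_lit 16884476),Int.ofNat (nat_lit 513295039),Int.ofNat (nat_lit 194891706),Int.ofNat (nat_lit 46847093),Int.negSucc (nat_lit 230226506),Int.negSucc (nat_lit 536398885),Int.ofNat (nat_lit 309879480),Int.negSucc (nat_lit 243647348),Int.negSucc (nat_lit 299912154),Int.negSucc (nat_lit 196803618),Int.ofNat (nat_lit 166362653),Int.negSucc (nat_lit 445920942),Int.ofNat (nat_lit 45809412),Int.ofNat (nat_lit 473989775),Int.ofNat (nat_lit 665880646),Int.ofNat (nat_lit 125207965),Int.ofNat (nat_lit 295949690),Int.negSucc (nat_lit 246862796),Int.ofNat (nat_lit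 104719841),Int.negSucc (nat_lit 2441977876),Int.negSucc (nat_lit 77913110),Int.ofNat (nat_lit 2711054),Int.ofNat (nat_lit 28287640),Int.ofNat (nat_lit 161715818),Int.ofNat (nat_lit 40525497),Int.negSucc (nat_lit 328282934),Int.ofNat (nat_lit 96787240),Int.negSucc (nat_lit 44440400),Int.negSucc (nat_lit 347433001),Int.ofNat (nat_lit 5084330),Int.ofNat (nat_lit 148762550),Int.ofNat (nat_lit 47514166),Int.negSucc (nat_lit 23551513),Int.negSucc (nat_lit 99965749),Int.ofNat (nat_lit 169235436),Int.negSucc (nat_lit 163847876),Int.ofNat (nat_lit 191616057),Int.ofNat (nat_lit 233711070),Int.negSucc (nat_lit 74650229),Int.negSucc (nat_lit 205906576),Int.negSucc (nat_lit 349398704),Int.ofNat (nat_lit 283506542),Int.ofNat (nat_lit 777190050)])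

/-- A row. -/
noncomputable def sr6_c1_42 : List ℕ × List ℤ :=
  ([(nat_lit 1),(nat_lit 1),(nat_lit 1),(nat_lit 0),(nat_lit 0),(nat_lit 0),(nat_lit 0),(nat_lit 0),(nat_lit 0),(nat_lit 0),(nat_lit 0),(nat_lit 0)], [Int.ofNat (nat_lit 1986131880),Int.ofNat (nat_lit 3141523469),Int.ofNat (nat_lit 2485083165),Int.negSucc (nat_lit 504313327),Int.ofNat (nat_lit 326603074),Int.ofNat (nat_lit 306571073),Int.ofNat (nat_lit 544003889),Int.ofNat (nat_lit 451457672),Int.negSucc (nat_lit 590483268),Int.ofNat (nat_lit 2134737689),Int.negSucc (nat_lit 573477214),Int.negSucc (nat_lit 1012058239),Int.ofNat (nat_lit 1108002516),Int.negSucc (nat_lit 835450755),Int.negSucc (nat_lit 36897856),Int.ofNat (nat_lit 262038495),Int.ofNat (nat_lit 1087401193),Int.ofNat (nat_lit 573804862),Int.ofNat (nat_lit 939342277),Int.negSucc (nat_lit 765253837),Int.negSucc (nat_lit 856931335),Int.ofNat (nat_lit 689798603),Int.ofNat (nat_lit 766483324),Int.ofNat (nat_lit 1121590527),Int.ofNat (nat_lit 323832182),Int.negSucc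 (nat_lit 1628111627),Int.ofNat (nat_lit 253038128),Int.ofNat (nat_lit 941001256),Int.negSucc (nat_lit 981518553),Int.negSucc (nat_lit 179102644),Int.ofNat (nat_lit 947628436),Int.negSucc (nat_lit 648456253),Int.negSucc (nat_lit 756931069),Int.ofNat (nat_lit 732124800),Int.ofNat (nat_lit 267633432),Int.ofNat (nat_lit 718897110),Int.negSucc (nat_lit 697867003),Int.negSucc (nat_lit 199886147),Int.ofNat (nat_lit 207012445),Int.negSucc (nat_lit 73066480),Int.ofNat (nat_lit 183485305),Int.ofNat (nat_lit 96515204),Int.negSucc (nat_lit 46555465),Int.ofNat (nat_lit 492684075),Int.negSucc (nat_lit 566320448),Int.ofNat (nat_lit 875313092),Int.negSucc (nat_lit 248871665),Int.negSucc (nat_lit 1239911603),Int.negSucc (nat_lit 226443853),Int.negSucc (nat_lit 880571374),Int.ofNat (nat_lit 52240577),Int.ofNat (nat_lit 1215859847),Int.negSucc (nat_lit 476081942),Int.ofNat (nat_lit 12096306),Int.ofNat (nat_lit 179083629),Int.ofNat (nat_lit 25041018),Int.negSucc (nat_lit 503611797),Int.negSucc (nat_lit 179604447),Int.negSucc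 (nat_lit 420819444),Int.negSucc (nat_lit 757578975),Int.negSucc (nat_lit 74779951),Int.ofNat (nat_lit 456337741),Int.negSucc (nat_lit 161331350),Int.negSucc (nat_lit 217169986),Int.negSucc (nat_lit 153472728),Int.ofNat (nat_lit 60525898),Int.ofNat (nat_lit 235489142),Int.ofNat (nat_lit 352635690),Int.ofNat (nat_lit 103127949),Int.ofNat (nat_lit 336921927),Int.negSucc (nat_lit 94058781),Int.ofNat (nat_lit 14744982),Int.ofNat (nat_lit 321708992),Int.negSucc (nat_lit 926062181),Int.negSucc (nat_lit 30744071),Int.negSucc (nat_lit 856448768),Int.ofNat (nat_lit 719883231),Int.negSucc (nat_lit 399289108),Int.ofNat (nat_lit 210107365),Int.negSucc (nat_lit 707129701),Int.ofNat (nat_lit 450507228),Int.negSucc (nat_lit 313729391),Int.negSucc (nat_lit 462446402),Int.ofNat (nat_lit 133123361),Int.ofNat (nat_lit 886892070),Int.negSucc (nat_lit 1174837937),Int.negSucc (nat_lit 3892804580),Int.negSucc (nat_lit 921654248),Int.ofNat (nat_lit 971515957),Int.negSucc (nat_lit 2190294625),Int.negSucc (nat_lit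 279836069),Int.negSucc (nat_lit 741358934),Int.negSucc (nat_lit 3556048417),Int.negSucc (nat_lit 1338421715),Int.ofNat (nat_lit 1104119085),Int.negSucc (nat_lit 171032787),Int.negSucc (nat_lit 191003971),Int.ofNat (nat_lit 200383153),Int.ofNat (nat_lit 13704781),Int.ofNat (nat_lit 244239979),Int.ofNat (nat_lit 406710519),Int.negSucc (nat_lit 1732768),Int.ofNat (nat_lit 31889605),Int.ofNat (nat_lit 186996162),Int.negSucc (nat_lit 102787108),Int.ofNat (nat_lit 129566701),Int.negSucc (nat_lit 331051774),Int.ofNat (nat_lit 557567675),Int.negSucc (nat_lit 215796671),Int.negSucc (nat_lit 497010777),Int.negSucc (nat_lit 392219814),Int.ofNat (nat_lit 1966036085),Int.negSucc (nat_lit 233987313),Int.ofNat (nat_lit 136883886),Int.ofNat (nat_lit 190848261),Int.ofNat (nat_lit 1855567867)])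

/-- A row. -/
noncomputable def sr6_c1_43 : List ℕ × List ℤ :=
  ([(nat_lit 1),(nat_lit 1),(nat_lit 2),(nat_lit 0),(nat_lit 0),(nat_lit 0),(nat_lit 0),(nat_lit 0),(nat_lit 0),(nat_lit 0),(nat_lit 0),(nat_lit 0)], [Int.ofNat (nat_lit 2378696059),Int.ofNat (nat_lit 1010433300),Int.ofNat (nat_lit 1514709622),Int.negSucc (nat_lit 1323394245),Int.ofNat (nat_lit 311612125),Int.ofNat (nat_lit 1006732578),Int.ofNat (nat_lit 666921216),Int.ofNat (nat_lit 336203110),Int.negSucc (nat_lit 619307045),Int.negSucc (nat_lit 64819751),Int.ofNat (nat_lit 160732559),Int.negSucc (nat_lit 844897515),Int.ofNat (nat_lit 1181335793),Int.ofNat (nat_lit 18358718),Int.ofNat (nat_lit 289875115),Int.ofNat (nat_lit 494324773),Int.negSucc (nat_lit 551897136),Int.ofNat (nat_lit 1122434839),Int.negSucc (nat_lit 154561754),Int.negSucc (nat_lit 418777687),Int.negSucc (nat_lit 1454795465),Int.ofNat (nat_lit 1162903328),Int.negSucc (nat_lit 163386433),Int.ofNat (nat_lit 615049982),Int.ofNat (nat_lit 487469809),Int.negSucc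 (nat_lit 64571818),Int.ofNat (nat_lit 235999126),Int.ofNat (nat_lit 411895690),Int.ofNat (nat_lit 1292711916),Int.negSucc (nat_lit 501131552),Int.ofNat (nat_lit 694879094),Int.ofNat (nat_lit 233267986),Int.negSucc (nat_lit 856701132),Int.ofNat (nat_lit 336513901),Int.negSucc (nat_lit 409106418),Int.ofNat (nat_lit 811547316),Int.negSucc (nat_lit 341733717),Int.negSucc (nat_lit 13522667),Int.ofNat (nat_lit 196270871),Int.ofNat (nat_lit 272982685),Int.ofNat (nat_lit 206245078),Int.ofNat (nat_lit 404564535),Int.ofNat (nat_lit 360351436),Int.ofNat (nat_lit 374777259),Int.negSucc (nat_lit 469380783),Int.ofNat (nat_lit 352362367),Int.ofNat (nat_lit 118195172),Int.negSucc (nat_lit 348924392),Int.negSucc (nat_lit 291759275),Int.negSucc (nat_lit 592376960),Int.negSucc (nat_lit 326176172),Int.ofNat (nat_lit 469285201),Int.negSucc (nat_lit 466919878),Int.ofNat (nat_lit 34562642),Int.ofNat (nat_lit 60452161),Int.negSucc (nat_lit 380392039),Int.negSucc (nat_lit 93866213),Int.negSucc (nat_lit 122635153),Int.ofNat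 (nat_lit 178474232),Int.negSucc (nat_lit 60478949),Int.ofNat (nat_lit 146857888),Int.ofNat (nat_lit 173287014),Int.ofNat (nat_lit 52463159),Int.negSucc (nat_lit 47976276),Int.negSucc (nat_lit 233494483),Int.negSucc (nat_lit 95290668),Int.ofNat (nat_lit 62267515),Int.ofNat (nat_lit 136904865),Int.negSucc (nat_lit 61674983),Int.ofNat (nat_lit 260466111),Int.ofNat (nat_lit 35517535),Int.negSucc (nat_lit 136523989),Int.negSucc (nat_lit 22788349),Int.ofNat (nat_lit 109207843),Int.ofNat (nat_lit 301365438),Int.negSucc (nat_lit 726194974),Int.ofNat (nat_lit 44958938),Int.ofNat (nat_lit 145582170),Int.negSucc (nat_lit 444862795),Int.ofNat (nat_lit 121824201),Int.negSucc (nat_lit 77143400),Int.negSucc (nat_lit 645830995),Int.ofNat (nat_lit 716604910),Int.negSucc (nat_lit 398387088),Int.negSucc (nat_lit 874170599),Int.negSucc (nat_lit 354137410),Int.negSucc (nat_lit 117614368),Int.negSucc (nat_lit 379612857),Int.negSucc (nat_lit 411168068),Int.negSucc (nat_lit 989295825),Int.ofNat (nat_lit 125151043),Int.negSucc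 (nat_lit 272230723),Int.negSucc (nat_lit 2107044762),Int.negSucc (nat_lit 361285100),Int.negSucc (nat_lit 1432834155),Int.negSucc (nat_lit 12805794),Int.ofNat (nat_lit 57556812),Int.negSucc (nat_lit 156367178),Int.ofNat (nat_lit 111453090),Int.ofNat (nat_lit 31157593),Int.negSucc (nat_lit 307517567),Int.negSucc (nat_lit 22851589),Int.negSucc (nat_lit 12404146),Int.ofNat (nat_lit 26182571),Int.ofNat (nat_lit 112378980),Int.ofNat (nat_lit 28980916),Int.ofNat (nat_lit 40533999),Int.ofNat (nat_lit 12683789),Int.negSucc (nat_lit 95899864),Int.negSucc (nat_lit 129255781),Int.ofNat (nat_lit 4436153),Int.negSucc (nat_lit 267597465),Int.negSucc (nat_lit 242087001),Int.ofNat (nat_lit 392798213),Int.ofNat (nat_lit 268115397),Int.ofNat (nat_lit 251117479),Int.ofNat (nat_lit 586518503)])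

/-- A row. -/
noncomputable def sr6_c1_44 : List ℕ × List ℤ :=
  ([(nat_lit 1),(nat_lit 2),(nat_lit 0),(nat_lit 0),(nat_lit 0),(nat_lit 1),(nat_lit 0),(nat_lit 0),(nat_lit 0),(nat_lit 0),(nat_lit 0),(nat_lit 0)], [Int.negSucc (nat_lit 470522964),Int.negSucc (nat_lit 1056460650),Int.ofNat (nat_lit 1196270161),Int.negSucc (nat_lit 949940249),Int.ofNat (nat_lit 954577832),Int.negSucc (nat_lit 667145997),Int.negSucc (nat_lit 756682858),Int.negSucc (nat_lit 1055630449),Int.ofNat (nat_lit 895648825),Int.ofNat (nat_lit 1905551664),Int.negSucc (nat_lit 217061891),Int.ofNat (nat_lit 195584132),Int.ofNat (nat_lit 905360286),Int.negSucc (nat_lit 188010900),Int.ofNat (nat_lit 288257957),Int.negSucc (nat_lit 425991075),Int.negSucc (nat_lit 132723185),Int.ofNat (nat_lit 825388335),Int.ofNat (nat_lit 778511440),Int.negSucc (nat_lit 1516261696),Int.ofNat (nat_lit 1766444842),Int.negSucc (nat_lit 1101832969),Int.ofNat (nat_lit 226858166),Int.negSucc (nat_lit 1428018923),Int.ofNat (nat_lit 388774450),Int.ofNat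 (nat_lit 206742201),Int.ofNat (nat_lit 47681261),Int.negSucc (nat_lit 548138565),Int.negSucc (nat_lit 480716337),Int.ofNat (nat_lit 1265382236),Int.ofNat (nat_lit 19955008),Int.ofNat (nat_lit 139412270),Int.ofNat (nat_lit 545412420),Int.negSucc (nat_lit 66637117),Int.ofNat (nat_lit 440027686),Int.ofNat (nat_lit 1289683698),Int.negSucc (nat_lit 289221899),Int.negSucc (nat_lit 231352303),Int.ofNat (nat_lit 886607186),Int.negSucc (nat_lit 155331542),Int.negSucc (nat_lit 68514521),Int.negSucc (nat_lit 624383642),Int.negSucc (nat_lit 147870303),Int.ofNat (nat_lit 871818702),Int.ofNat (nat_lit 793688409),Int.ofNat (nat_lit 231909747),Int.ofNat (nat_lit 389403717),Int.negSucc (nat_lit 43963653),Int.negSucc (nat_lit 371626980),Int.negSucc (nat_lit 492140739),Int.ofNat (nat_lit 179230912),Int.negSucc (nat_lit 31455180),Int.ofNat (nat_lit 39025905),Int.negSucc (nat_lit 371347854),Int.negSucc (nat_lit 36059080),Int.ofNat (nat_lit 359772606),Int.ofNat (nat_lit 101998299),Int.ofNat (nat_lit 309992425),Int.negSucc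 (nat_lit 303438775),Int.ofNat (nat_lit 31752142),Int.negSucc (nat_lit 298872759),Int.negSucc (nat_lit 13440557),Int.ofNat (nat_lit 115292840),Int.negSucc (nat_lit 378002687),Int.negSucc (nat_lit 328400914),Int.negSucc (nat_lit 526410885),Int.negSucc (nat_lit 185900135),Int.negSucc (nat_lit 454597118),Int.ofNat (nat_lit 47175965),Int.ofNat (nat_lit 381427122),Int.ofNat (nat_lit 321511813),Int.negSucc (nat_lit 391642308),Int.ofNat (nat_lit 192341083),Int.ofNat (nat_lit 377830210),Int.negSucc (nat_lit 516126677),Int.negSucc (nat_lit 154848175),Int.ofNat (nat_lit 1584292126),Int.ofNat (nat_lit 983306166),Int.negSucc (nat_lit 828598390),Int.ofNat (nat_lit 535685899),Int.ofNat (nat_lit 508010573),Int.negSucc (nat_lit 198614195),Int.negSucc (nat_lit 71798456),Int.negSucc (nat_lit 1062641315),Int.negSucc (nat_lit 104414810),Int.negSucc (nat_lit 309309576),Int.negSucc (nat_lit 735699808),Int.negSucc (nat_lit 768085762),Int.negSucc (nat_lit 588834436),Int.ofNat (nat_lit 827187840),Int.negSucc (nat_lit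 997193078),Int.ofNat (nat_lit 1127317685),Int.negSucc (nat_lit 162951624),Int.negSucc (nat_lit 87378273),Int.ofNat (nat_lit 5638690),Int.negSucc (nat_lit 673186958),Int.negSucc (nat_lit 4637610753),Int.ofNat (nat_lit 155812237),Int.ofNat (nat_lit 185613848),Int.negSucc (nat_lit 48463483),Int.negSucc (nat_lit 58362728),Int.ofNat (nat_lit 168888793),Int.negSucc (nat_lit 2101332),Int.negSucc (nat_lit 95128789),Int.ofNat (nat_lit 286916298),Int.ofNat (nat_lit 171045198),Int.negSucc (nat_lit 85730719),Int.ofNat (nat_lit 187498567),Int.negSucc (nat_lit 179313608),Int.ofNat (nat_lit 23716859),Int.ofNat (nat_lit 161338839),Int.ofNat (nat_lit 289556882),Int.ofNat (nat_lit 607078826),Int.negSucc (nat_lit 295136423),Int.negSucc (nat_lit 362453628),Int.ofNat (nat_lit 136310617),Int.ofNat (nat_lit 263731143),Int.ofNat (nat_lit 1207593618)])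

/-- A row. -/
noncomputable def sr6_c1_45 : List ℕ × List ℤ :=
  ([(nat_lit 1),(nat_lit 2),(nat_lit 0),(nat_lit 1),(nat_lit 0),(nat_lit 0),(nat_lit 0),(nat_lit 0),(nat_lit 0),(nat_lit 0),(nat_lit 0),(nat_lit 0)], [Int.ofNat (nat_lit 2193619645),Int.ofNat (nat_lit 3707330263),Int.ofNat (nat_lit 1263240024),Int.ofNat (nat_lit 839658725),Int.ofNat (nat_lit 776036649),Int.negSucc (nat_lit 1973269132),Int.ofNat (nat_lit 2335429187),Int.ofNat (nat_lit 1134890362),Int.negSucc (nat_lit 1115831271),Int.ofNat (nat_lit 2533558464),Int.ofNat (nat_lit 701894316),Int.negSucc (nat_lit 709610113),Int.ofNat (nat_lit 424471564),Int.negSucc (nat_lit 158513990),Int.ofNat (nat_lit 477442367),Int.negSucc (nat_lit 316219067),Int.ofNat (nat_lit 1286157500),Int.negSucc (nat_lit 387245103),Int.ofNat (nat_lit 726957280),Int.ofNat (nat_lit 982689736),Int.ofNat (nat_lit 963338452),Int.negSucc (nat_lit 637010323),Int.ofNat (nat_lit 846448798),Int.ofNat (nat_lit 2870573063),Int.negSucc (nat_lit 712818112),Int.negSucc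 (nat_lit 1107988233),Int.ofNat (nat_lit 1778403008),Int.ofNat (nat_lit 628384430),Int.negSucc (nat_lit 1730447223),Int.ofNat (nat_lit 735015769),Int.ofNat (nat_lit 1558294669),Int.ofNat (nat_lit 1450763252),Int.ofNat (nat_lit 1911429531),Int.ofNat (nat_lit 270279161),Int.ofNat (nat_lit 697260197),Int.ofNat (nat_lit 795319368),Int.ofNat (nat_lit 965383325),Int.ofNat (nat_lit 530558712),Int.ofNat (nat_lit 1901381933),Int.ofNat (nat_lit 241990052),Int.negSucc (nat_lit 240555879),Int.ofNat (nat_lit 165485933),Int.negSucc (nat_lit 1230597718),Int.ofNat (nat_lit 298463499),Int.negSucc (nat_lit 1045257911),Int.ofNat (nat_lit 216480275),Int.ofNat (nat_lit 845635930),Int.negSucc (nat_lit 1818126393),Int.ofNat (nat_lit 249775390),Int.negSucc (nat_lit 1713060603),Int.negSucc (nat_lit 434615622),Int.negSucc (nat_lit 1669596050),Int.negSucc (nat_lit 818891575),Int.negSucc (nat_lit 4255503),Int.negSucc (nat_lit 717060702),Int.negSucc (nat_lit 74005246),Int.ofNat (nat_lit 813244627),Int.ofNat (nat_lit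 81041624),Int.negSucc (nat_lit 187553818),Int.negSucc (nat_lit 703609179),Int.ofNat (nat_lit 1602038339),Int.negSucc (nat_lit 1073704956),Int.ofNat (nat_lit 436946088),Int.ofNat (nat_lit 670621366),Int.ofNat (nat_lit 626055298),Int.negSucc (nat_lit 1159009789),Int.negSucc (nat_lit 318837147),Int.negSucc (nat_lit 1209843654),Int.negSucc (nat_lit 213548274),Int.negSucc (nat_lit 17923879),Int.ofNat (nat_lit 13917640),Int.ofNat (nat_lit 109536528),Int.ofNat (nat_lit 267004182),Int.ofNat (nat_lit 168164255),Int.negSucc (nat_lit 164106348),Int.negSucc (nat_lit 654679063),Int.negSucc (nat_lit 463939192),Int.negSucc (nat_lit 633324560),Int.ofNat (nat_lit 4638615247),Int.ofNat (nat_lit 277333275),Int.ofNat (nat_lit 1453656027),Int.ofNat (nat_lit 1959435726),Int.ofNat (nat_lit 40513280),Int.ofNat (nat_lit 874702572),Int.negSucc (nat_lit 2263253856),Int.ofNat (nat_lit 903304354),Int.negSucc (nat_lit 47258816),Int.negSucc (nat_lit 577585345),Int.ofNat (nat_lit 271678426),Int.negSucc (nat_lit 210495933),Int.ofNat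 (nat_lit 1430930841),Int.ofNat (nat_lit 1002821877),Int.negSucc (nat_lit 53790437),Int.negSucc (nat_lit 465768272),Int.ofNat (nat_lit 1156830022),Int.ofNat (nat_lit 216974926),Int.ofNat (nat_lit 1173738437),Int.negSucc (nat_lit 6363108713),Int.ofNat (nat_lit 1580530612),Int.negSucc (nat_lit 612301802),Int.ofNat (nat_lit 750936218),Int.negSucc (nat_lit 668432030),Int.negSucc (nat_lit 1739249244),Int.ofNat (nat_lit 128733819),Int.negSucc (nat_lit 682231101),Int.ofNat (nat_lit 771870887),Int.negSucc (nat_lit 1458057824),Int.negSucc (nat_lit 803308007),Int.negSucc (nat_lit 842952669),Int.negSucc (nat_lit 1102611625),Int.ofNat (nat_lit 928682683),Int.negSucc (nat_lit 771475910),Int.ofNat (nat_lit 496157881),Int.negSucc (nat_lit 199716765),Int.negSucc (nat_lit 2081486127),Int.negSucc (nat_lit 702442044),Int.negSucc (nat_lit 929311950),Int.negSucc (nat_lit 559062794),Int.ofNat (nat_lit 3463720974)])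

/-- A row. -/
noncomputable def sr6_c1_46 : List ℕ × List ℤ :=
  ([(nat_lit 1),(nat_lit 3),(nat_lit 0),(nat_lit 0),(nat_lit 0),(nat_lit 0),(nat_lit 0),(nat_lit 0),(nat_lit 0),(nat_lit 0),(nat_lit 0),(nat_lit 0)], [Int.negSucc (nat_lit 3566270124),Int.negSucc (nat_lit 7455030052),Int.negSucc (nat_lit 444543558),Int.ofNat (nat_lit 2203632429),Int.ofNat (nat_lit 27617546),Int.ofNat (nat_lit 4929090320),Int.negSucc (nat_lit 3191809527),Int.negSucc (nat_lit 63257095),Int.ofNat (nat_lit 866906435),Int.ofNat (nat_lit 2441802561),Int.ofNat (nat_lit 317938830),Int.ofNat (nat_lit 454508400),Int.ofNat (nat_lit 2014181942),Int.negSucc (nat_lit 693333288),Int.ofNat (nat_lit 452377480),Int.ofNat (nat_lit 332025156),Int.negSucc (nat_lit 1881757736),Int.ofNat (nat_lit 1037610446),Int.negSucc (nat_lit 775240648),Int.negSucc (nat_lit 1714196053),Int.ofNat (nat_lit 665489320),Int.ofNat (nat_lit 122056631),Int.ofNat (nat_lit 196246578),Int.negSucc (nat_lit 3957969386),Int.ofNat (nat_lit 326764933),Int.ofNat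 (nat_lit 3086486025),Int.negSucc (nat_lit 29379598),Int.ofNat (nat_lit 215569244),Int.ofNat (nat_lit 340955810),Int.negSucc (nat_lit 1696238),Int.negSucc (nat_lit 1751895232),Int.ofNat (nat_lit 1576666343),Int.negSucc (nat_lit 863918571),Int.negSucc (nat_lit 3278488042),Int.negSucc (nat_lit 1987003957),Int.negSucc (nat_lit 676622539),Int.negSucc (nat_lit 242119293),Int.negSucc (nat_lit 325430669),Int.ofNat (nat_lit 752349953),Int.negSucc (nat_lit 948400639),Int.ofNat (nat_lit 710806972),Int.negSucc (nat_lit 392770999),Int.negSucc (nat_lit 33761328),Int.ofNat (nat_lit 163311267),Int.ofNat (nat_lit 927428703),Int.negSucc (nat_lit 570463138),Int.ofNat (nat_lit 1308077822),Int.ofNat (nat_lit 4117212664),Int.ofNat (nat_lit 555162987),Int.negSucc (nat_lit 1982276397),Int.negSucc (nat_lit 357879915),Int.negSucc (nat_lit 1909419844),Int.ofNat (nat_lit 936195278),Int.ofNat (nat_lit 48668268),Int.ofNat (nat_lit 695524215),Int.negSucc (nat_lit 816250637),Int.ofNat (nat_lit 189418333),Int.ofNat (nat_lit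 722456640),Int.ofNat (nat_lit 955806460),Int.ofNat (nat_lit 1151430999),Int.negSucc (nat_lit 1243641014),Int.ofNat (nat_lit 732933640),Int.ofNat (nat_lit 2031435184),Int.negSucc (nat_lit 119218324),Int.negSucc (nat_lit 586121740),Int.negSucc (nat_lit 416621640),Int.negSucc (nat_lit 342377545),Int.negSucc (nat_lit 1021026997),Int.ofNat (nat_lit 170813264),Int.ofNat (nat_lit 162959766),Int.ofNat (nat_lit 851789878),Int.negSucc (nat_lit 865323589),Int.negSucc (nat_lit 83808172),Int.ofNat (nat_lit 647432254),Int.negSucc (nat_lit 240358066),Int.ofNat (nat_lit 355543602),Int.ofNat (nat_lit 885632837),Int.ofNat (nat_lit 2236202804),Int.negSucc (nat_lit 1682698557),Int.ofNat (nat_lit 33987863),Int.negSucc (nat_lit 753329253),Int.negSucc (nat_lit 1457221906),Int.negSucc (nat_lit 242852663),Int.negSucc (nat_lit 1466693255),Int.ofNat (nat_lit 1830192551),Int.negSucc (nat_lit 1483418976),Int.ofNat (nat_lit 7309048453),Int.ofNat (nat_lit 566994188),Int.negSucc (nat_lit 3708828830),Int.ofNat (nat_lit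 4260864615),Int.negSucc (nat_lit 3078438629),Int.ofNat (nat_lit 2566584208),Int.negSucc (nat_lit 2954361375),Int.ofNat (nat_lit 178968099),Int.ofNat (nat_lit 1401153595),Int.negSucc (nat_lit 663864507),Int.negSucc (nat_lit 1161515289),Int.ofNat (nat_lit 3388117660),Int.negSucc (nat_lit 2163795620),Int.negSucc (nat_lit 6868091445),Int.negSucc (nat_lit 2342302329),Int.ofNat (nat_lit 797117111),Int.ofNat (nat_lit 1462581222),Int.ofNat (nat_lit 893584545),Int.ofNat (nat_lit 908697179),Int.negSucc (nat_lit 1085656308),Int.ofNat (nat_lit 1795890059),Int.ofNat (nat_lit 957937122),Int.ofNat (nat_lit 928844154),Int.ofNat (nat_lit 1109189695),Int.negSucc (nat_lit 1520953096),Int.negSucc (nat_lit 2592687151),Int.ofNat (nat_lit 169179958),Int.negSucc (nat_lit 1121890921),Int.ofNat (nat_lit 1894953464),Int.ofNat (nat_lit 2203607409),Int.ofNat (nat_lit 641406439),Int.ofNat (nat_lit 1455092489),Int.negSucc (nat_lit 3008108567),Int.ofNat (nat_lit 4185272199)])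

/-- A row. -/
noncomputable def sr6_c1_47 : List ℕ × List ℤ :=
  ([(nat_lit 1),(nat_lit 3),(nat_lit 1),(nat_lit 0),(nat_lit 0),(nat_lit 0),(nat_lit 0),(nat_lit 0),(nat_lit 0),(nat_lit 0),(nat_lit 0),(nat_lit 0)], [Int.negSucc (nat_lit 4048165252),Int.negSucc (nat_lit 3686143410),Int.negSucc (nat_lit 2699413285),Int.ofNat (nat_lit 1105513746),Int.negSucc (nat_lit 2166894700),Int.ofNat (nat_lit 2187398700),Int.negSucc (nat_lit 2354669865),Int.ofNat (nat_lit 15500399),Int.ofNat (nat_lit 344473940),Int.negSucc (nat_lit 737675521),Int.ofNat (nat_lit 50302340),Int.negSucc (nat_lit 63015249),Int.negSucc (nat_lit 767476950),Int.negSucc (nat_lit 290073310),Int.ofNat (nat_lit 163507505),Int.negSucc (nat_lit 539321562),Int.negSucc (nat_lit 1196100010),Int.negSucc (nat_lit 1211053181),Int.negSucc (nat_lit 201897590),Int.ofNat (nat_lit 1750428071),Int.ofNat (nat_lit 326429116),Int.ofNat (nat_lit 82917362),Int.negSucc (nat_lit 180124176),Int.ofNat (nat_lit 703606198),Int.negSucc (nat_lit 971009559),Int.ofNat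 (nat_lit 1660473816),Int.negSucc (nat_lit 464170807),Int.ofNat (nat_lit 261973599),Int.ofNat (nat_lit 781300165),Int.ofNat (nat_lit 115526793),Int.negSucc (nat_lit 2532936827),Int.ofNat (nat_lit 329896931),Int.ofNat (nat_lit 2034937628),Int.negSucc (nat_lit 1993683846),Int.negSucc (nat_lit 620468976),Int.negSucc (nat_lit 738458123),Int.negSucc (nat_lit 72493481),Int.negSucc (nat_lit 74394796),Int.negSucc (nat_lit 569077098),Int.negSucc (nat_lit 399036499),Int.negSucc (nat_lit 129803136),Int.negSucc (nat_lit 273740054),Int.ofNat (nat_lit 43474851),Int.negSucc (nat_lit 489921008),Int.ofNat (nat_lit 365734998),Int.negSucc (nat_lit 267323701),Int.ofNat (nat_lit 581867417),Int.ofNat (nat_lit 980362535),Int.ofNat (nat_lit 858409304),Int.ofNat (nat_lit 315357399),Int.ofNat (nat_lit 17595187),Int.negSucc (nat_lit 541497330),Int.ofNat (nat_lit 124709735),Int.ofNat (nat_lit 120001335),Int.negSucc (nat_lit 171639188),Int.negSucc (nat_lit 450382729),Int.ofNat (nat_lit 63586027),Int.ofNat (nat_lit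 264461173),Int.ofNat (nat_lit 571650724),Int.negSucc (nat_lit 53904062),Int.negSucc (nat_lit 1127355249),Int.negSucc (nat_lit 419755147),Int.ofNat (nat_lit 388647909),Int.ofNat (nat_lit 99595370),Int.ofNat (nat_lit 250352539),Int.negSucc (nat_lit 137577269),Int.negSucc (nat_lit 526198220),Int.negSucc (nat_lit 378927151),Int.ofNat (nat_lit 54259229),Int.ofNat (nat_lit 83301589),Int.ofNat (nat_lit 532600481),Int.negSucc (nat_lit 133850430),Int.ofNat (nat_lit 86699360),Int.ofNat (nat_lit 1139141603),Int.ofNat (nat_lit 575589940),Int.ofNat (nat_lit 210903404),Int.negSucc (nat_lit 369530399),Int.ofNat (nat_lit 789280366),Int.ofNat (nat_lit 517996517),Int.negSucc (nat_lit 209222590),Int.ofNat (nat_lit 487599080),Int.ofNat (nat_lit 158248786),Int.ofNat (nat_lit 832501247),Int.negSucc (nat_lit 53446936),Int.negSucc (nat_lit 543273182),Int.negSucc (nat_lit 400974940),Int.ofNat (nat_lit 3728400818),Int.ofNat (nat_lit 988611163),Int.negSucc (nat_lit 450627987),Int.ofNat (nat_lit 1670026983),Int.ofNat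 (nat_lit 435034241),Int.ofNat (nat_lit 191302923),Int.ofNat (nat_lit 2656193217),Int.ofNat (nat_lit 397443743),Int.negSucc (nat_lit 1951730604),Int.ofNat (nat_lit 431109941),Int.ofNat (nat_lit 536832460),Int.negSucc (nat_lit 1405825037),Int.negSucc (nat_lit 1714530436),Int.negSucc (nat_lit 1527913262),Int.negSucc (nat_lit 1694805175),Int.negSucc (nat_lit 3818254211),Int.ofNat (nat_lit 358603290),Int.negSucc (nat_lit 25225218),Int.ofNat (nat_lit 540374945),Int.negSucc (nat_lit 188549792),Int.negSucc (nat_lit 129210427),Int.negSucc (nat_lit 450865330),Int.negSucc (nat_lit 254941695),Int.ofNat (nat_lit 35754277),Int.negSucc (nat_lit 226372221),Int.negSucc (nat_lit 241842060),Int.negSucc (nat_lit 102792710),Int.ofNat (nat_lit 192917019),Int.ofNat (nat_lit 92162553),Int.negSucc (nat_lit 507560875),Int.ofNat (nat_lit 294450386),Int.negSucc (nat_lit 220558162),Int.ofNat (nat_lit 497909814),Int.ofNat (nat_lit 1129775473),Int.ofNat (nat_lit 2715720815)])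

/-- A row. -/
noncomputable def sr6_c1_48 : List ℕ × List ℤ :=
  ([(nat_lit 1),(nat_lit 5),(nat_lit 0),(nat_lit 0),(nat_lit 0),(nat_lit 0),(nat_lit 0),(nat_lit 0),(nat_lit 0),(nat_lit 0),(nat_lit 0),(nat_lit 0)], [Int.ofNat (nat_lit 3994210541),Int.ofNat (nat_lit 4224795989),Int.ofNat (nat_lit 880801263),Int.ofNat (nat_lit 116814520),Int.negSucc (nat_lit 2539731019),Int.negSucc (nat_lit 2497759359),Int.ofNat (nat_lit 2553647626),Int.negSucc (nat_lit 1028810291),Int.ofNat (nat_lit 236069353),Int.negSucc (nat_lit 3310143864),Int.ofNat (nat_lit 912905503),Int.ofNat (nat_lit 1070964085),Int.negSucc (nat_lit 1884275816),Int.ofNat (nat_lit 1313396255),Int.ofNat (nat_lit 1076884976),Int.ofNat (nat_lit 177087564),Int.negSucc (nat_lit 1906860190),Int.negSucc (nat_lit 969769294),Int.negSucc (nat_lit 684021857),Int.ofNat (nat_lit 1209195421),Int.negSucc (nat_lit 190786484),Int.ofNat (nat_lit 26475952),Int.ofNat (nat_lit 676972341),Int.ofNat (nat_lit 1253385193),Int.negSucc (nat_lit 115529232),Int.negSucc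 (nat_lit 1411785823),Int.ofNat (nat_lit 327925767),Int.ofNat (nat_lit 1985030525),Int.negSucc (nat_lit 341765321),Int.negSucc (nat_lit 702005486),Int.ofNat (nat_lit 1859403975),Int.negSucc (nat_lit 217440587),Int.ofNat (nat_lit 1146148267),Int.ofNat (nat_lit 3449008030),Int.ofNat (nat_lit 1020393406),Int.negSucc (nat_lit 15237550),Int.ofNat (nat_lit 376025013),Int.ofNat (nat_lit 1056595393),Int.negSucc (nat_lit 748337995),Int.ofNat (nat_lit 224164362),Int.negSucc (nat_lit 662333552),Int.ofNat (nat_lit 28005095),Int.ofNat (nat_lit 665158809),Int.negSucc (nat_lit 391183627),Int.negSucc (nat_lit 405777312),Int.ofNat (nat_lit 228540597),Int.negSucc (nat_lit 1079765824),Int.negSucc (nat_lit 1903763788),Int.negSucc (nat_lit 296018232),Int.ofNat (nat_lit 1947367496),Int.ofNat (nat_lit 436069901),Int.negSucc (nat_lit 715917757),Int.negSucc (nat_lit 126746003),Int.negSucc (nat_lit 61154931),Int.negSucc (nat_lit 107936137),Int.ofNat (nat_lit 597867199),Int.negSucc (nat_lit 163719631),Int.negSucc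 (nat_lit 605160087),Int.ofNat (nat_lit 60706043),Int.negSucc (nat_lit 524798739),Int.ofNat (nat_lit 790960496),Int.negSucc (nat_lit 825719109),Int.negSucc (nat_lit 2717940552),Int.ofNat (nat_lit 435106213),Int.negSucc (nat_lit 85026880),Int.ofNat (nat_lit 453794501),Int.ofNat (nat_lit 134147298),Int.ofNat (nat_lit 807066717),Int.negSucc (nat_lit 429579049),Int.negSucc (nat_lit 438355006),Int.negSucc (nat_lit 348812320),Int.ofNat (nat_lit 100631920),Int.negSucc (nat_lit 86013144),Int.negSucc (nat_lit 521999266),Int.ofNat (nat_lit 1410086094),Int.negSucc (nat_lit 135827614),Int.negSucc (nat_lit 348615620),Int.negSucc (nat_lit 1598050843),Int.negSucc (nat_lit 886458873),Int.ofNat (nat_lit 176773624),Int.ofNat (nat_lit 612413548),Int.ofNat (nat_lit 1116617848),Int.ofNat (nat_lit 1366287794),Int.ofNat (nat_lit 532171836),Int.negSucc (nat_lit 859973879),Int.ofNat (nat_lit 631975114),Int.negSucc (nat_lit 2022474604),Int.negSucc (nat_lit 212113361),Int.ofNat (nat_lit 2317905061),Int.negSucc (nat_lit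 2553706208),Int.ofNat (nat_lit 2832658436),Int.negSucc (nat_lit 1308546376),Int.ofNat (nat_lit 1866202958),Int.ofNat (nat_lit 654928149),Int.negSucc (nat_lit 1800567436),Int.ofNat (nat_lit 374841241),Int.ofNat (nat_lit 1192308404),Int.ofNat (nat_lit 398462233),Int.ofNat (nat_lit 578337371),Int.ofNat (nat_lit 7313751031),Int.ofNat (nat_lit 1277856213),Int.negSucc (nat_lit 2187738344),Int.negSucc (nat_lit 1960475109),Int.negSucc (nat_lit 3197584370),Int.ofNat (nat_lit 6453320),Int.ofNat (nat_lit 337207343),Int.negSucc (nat_lit 573796265),Int.negSucc (nat_lit 334193766),Int.negSucc (nat_lit 178914075),Int.negSucc (nat_lit 173308977),Int.negSucc (nat_lit 65687082),Int.ofNat (nat_lit 319781163),Int.ofNat (nat_lit 202902041),Int.ofNat (nat_lit 67168191),Int.negSucc (nat_lit 1471808391),Int.negSucc (nat_lit 627410295),Int.negSucc (nat_lit 372796287),Int.negSucc (nat_lit 1661164105),Int.ofNat (nat_lit 672787149),Int.negSucc (nat_lit 1581082820),Int.ofNat (nat_lit 769460296),Int.ofNat (nat_lit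 3274622420)])

/-- A row. -/
noncomputable def sr6_c1_49 : List ℕ × List ℤ :=
  ([(nat_lit 2),(nat_lit 0),(nat_lit 0),(nat_lit 0),(nat_lit 0),(nat_lit 0),(nat_lit 0),(nat_lit 1),(nat_lit 0),(nat_lit 0),(nat_lit 0),(nat_lit 0)], [Int.ofNat (nat_lit 687326384),Int.ofNat (nat_lit 1964575742),Int.ofNat (nat_lit 577482713),Int.ofNat (nat_lit 89084451),Int.negSucc (nat_lit 260060460),Int.ofNat (nat_lit 193898126),Int.ofNat (nat_lit 244215579),Int.negSucc (nat_lit 651022523),Int.ofNat (nat_lit 391355280),Int.negSucc (nat_lit 484922394),Int.ofNat (nat_lit 362150387),Int.ofNat (nat_lit 535904324),Int.negSucc (nat_lit 92041972),Int.ofNat (nat_lit 75943722),Int.ofNat (nat_lit 282193769),Int.negSucc (nat_lit 69693995),Int.negSucc (nat_lit 234808350),Int.negSucc (nat_lit 544666932),Int.negSucc (nat_lit 100254159),Int.ofNat (nat_lit 165851056),Int.ofNat (nat_lit 152953512),Int.negSucc (nat_lit 346881740),Int.ofNat (nat_lit 88458948),Int.negSucc (nat_lit 159151797),Int.negSucc (nat_lit 141130559),Int.ofNat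 (nat_lit 100690385),Int.ofNat (nat_lit 79306302),Int.negSucc (nat_lit 7389826),Int.negSucc (nat_lit 87908012),Int.negSucc (nat_lit 168694223),Int.negSucc (nat_lit 240216630),Int.negSucc (nat_lit 69712359),Int.ofNat (nat_lit 33678003),Int.ofNat (nat_lit 21129702),Int.ofNat (nat_lit 184768684),Int.negSucc (nat_lit 76324911),Int.ofNat (nat_lit 145969685),Int.ofNat (nat_lit 80515116),Int.negSucc (nat_lit 21473551),Int.negSucc (nat_lit 99961561),Int.ofNat (nat_lit 14343872),Int.ofNat (nat_lit 53939836),Int.negSucc (nat_lit 1224698),Int.ofNat (nat_lit 69634832),Int.ofNat (nat_lit 124824550),Int.ofNat (nat_lit 61519873),Int.negSucc (nat_lit 164806557),Int.ofNat (nat_lit 20179780),Int.ofNat (nat_lit 62260753),Int.ofNat (nat_lit 201348675),Int.ofNat (nat_lit 110277290),Int.negSucc (nat_lit 158651291),Int.ofNat (nat_lit 174847302),Int.negSucc (nat_lit 27686982),Int.ofNat (nat_lit 29375880),Int.negSucc (nat_lit 304171),Int.negSucc (nat_lit 109903349),Int.negSucc (nat_lit 100871305),Int.negSucc (nat_lit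 19711811),Int.negSucc (nat_lit 28770892),Int.ofNat (nat_lit 74450876),Int.negSucc (nat_lit 39852797),Int.negSucc (nat_lit 14278714),Int.ofNat (nat_lit 10991779),Int.negSucc (nat_lit 88777079),Int.negSucc (nat_lit 47796470),Int.negSucc (nat_lit 22591781),Int.negSucc (nat_lit 3129765),Int.ofNat (nat_lit 27198083),Int.negSucc (nat_lit 116759562),Int.ofNat (nat_lit 25016399),Int.ofNat (nat_lit 61036840),Int.negSucc (nat_lit 122847287),Int.negSucc (nat_lit 451693761),Int.ofNat (nat_lit 62871563),Int.ofNat (nat_lit 1048607591),Int.ofNat (nat_lit 32251564),Int.negSucc (nat_lit 27343615),Int.ofNat (nat_lit 57104480),Int.ofNat (nat_lit 31434393),Int.ofNat (nat_lit 142707704),Int.ofNat (nat_lit 83178187),Int.negSucc (nat_lit 496489302),Int.ofNat (nat_lit 50399382),Int.negSucc (nat_lit 124372536),Int.ofNat (nat_lit 165239721),Int.ofNat (nat_lit 36760659),Int.negSucc (nat_lit 246656697),Int.ofNat (nat_lit 10575040),Int.negSucc (nat_lit 42142924),Int.negSucc (nat_lit 47662055),Int.ofNat (nat_lit 3683532),Int.ofNat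 (nat_lit 51750206),Int.negSucc (nat_lit 7736080),Int.negSucc (nat_lit 3046204),Int.ofNat (nat_lit 188402932),Int.ofNat (nat_lit 37682768),Int.ofNat (nat_lit 10736307),Int.ofNat (nat_lit 97031797),Int.ofNat (nat_lit 23153947),Int.negSucc (nat_lit 29621344),Int.ofNat (nat_lit 13235579),Int.ofNat (nat_lit 35733183),Int.ofNat (nat_lit 22606222),Int.negSucc (nat_lit 86040908),Int.negSucc (nat_lit 461433682),Int.ofNat (nat_lit 11714323),Int.negSucc (nat_lit 3612750),Int.ofNat (nat_lit 4339122),Int.ofNat (nat_lit 25073747),Int.ofNat (nat_lit 21859377),Int.negSucc (nat_lit 10966577),Int.negSucc (nat_lit 34721590),Int.ofNat (nat_lit 16571990),Int.ofNat (nat_lit 6031783),Int.negSucc (nat_lit 5440076),Int.negSucc (nat_lit 15007799),Int.negSucc (nat_lit 1823659),Int.negSucc (nat_lit 13930078),Int.negSucc (nat_lit 2916328),Int.ofNat (nat_lit 8226351),Int.ofNat (nat_lit 2215963),Int.ofNat (nat_lit 82677080)])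

/-- A row. -/
noncomputable def sr6_c1_50 : List ℕ × List ℤ :=
  ([(nat_lit 2),(nat_lit 0),(nat_lit 0),(nat_lit 0),(nat_lit 0),(nat_lit 1),(nat_lit 0),(nat_lit 0),(nat_lit 0),(nat_lit 0),(nat_lit 0),(nat_lit 0)], [Int.ofNat (nat_lit 1842051309),Int.ofNat (nat_lit 994335441),Int.ofNat (nat_lit 94979821),Int.negSucc (nat_lit 2257460106),Int.ofNat (nat_lit 736568137),Int.ofNat (nat_lit 868226380),Int.ofNat (nat_lit 862529672),Int.negSucc (nat_lit 1169817039),Int.ofNat (nat_lit 583533539),Int.negSucc (nat_lit 500752134),Int.negSucc (nat_lit 697514630),Int.ofNat (nat_lit 833683840),Int.ofNat (nat_lit 595364996),Int.negSucc (nat_lit 160566026),Int.ofNat (nat_lit 170558220),Int.negSucc (nat_lit 219350975),Int.negSucc (nat_lit 1077230977),Int.negSucc (nat_lit 277666987),Int.negSucc (nat_lit 913659817),Int.ofNat (nat_lit 277335359),Int.negSucc (nat_lit 1767607162),Int.ofNat (nat_lit 1060541728),Int.ofNat (nat_lit 825832663),Int.negSucc (nat_lit 210054749),Int.negSucc (nat_lit 153650692),Int.negSucc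 (nat_lit 687110958),Int.ofNat (nat_lit 681492792),Int.ofNat (nat_lit 65153022),Int.ofNat (nat_lit 156500219),Int.negSucc (nat_lit 1132812700),Int.negSucc (nat_lit 1228515264),Int.ofNat (nat_lit 139060004),Int.ofNat (nat_lit 290955727),Int.negSucc (nat_lit 159158904),Int.ofNat (nat_lit 1112918658),Int.ofNat (nat_lit 543671342),Int.ofNat (nat_lit 14380334),Int.ofNat (nat_lit 1192906142),Int.negSucc (nat_lit 408626288),Int.negSucc (nat_lit 77073475),Int.negSucc (nat_lit 365480255),Int.negSucc (nat_lit 736116425),Int.negSucc (nat_lit 180454268),Int.ofNat (nat_lit 971282998),Int.ofNat (nat_lit 810476456),Int.ofNat (nat_lit 53659175),Int.negSucc (nat_lit 177034754),Int.ofNat (nat_lit 225381773),Int.ofNat (nat_lit 604995206),Int.ofNat (nat_lit 342090018),Int.negSucc (nat_lit 160940259),Int.negSucc (nat_lit 32074100),Int.negSucc (nat_lit 457072450),Int.negSucc (nat_lit 233505855),Int.ofNat (nat_lit 85536463),Int.negSucc (nat_lit 297024627),Int.negSucc (nat_lit 324310805),Int.negSucc (nat_lit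 210815),Int.ofNat (nat_lit 4170958),Int.negSucc (nat_lit 302054242),Int.ofNat (nat_lit 215046481),Int.ofNat (nat_lit 27931799),Int.negSucc (nat_lit 346344174),Int.ofNat (nat_lit 49483047),Int.negSucc (nat_lit 240411053),Int.negSucc (nat_lit 497000969),Int.negSucc (nat_lit 137600275),Int.ofNat (nat_lit 585988744),Int.negSucc (nat_lit 727633659),Int.ofNat (nat_lit 190860161),Int.ofNat (nat_lit 117076090),Int.ofNat (nat_lit 29179458),Int.negSucc (nat_lit 99939158),Int.negSucc (nat_lit 395907709),Int.ofNat (nat_lit 342894210),Int.ofNat (nat_lit 1384248309),Int.ofNat (nat_lit 2832884910),Int.ofNat (nat_lit 1432925947),Int.negSucc (nat_lit 537644260),Int.negSucc (nat_lit 263593494),Int.ofNat (nat_lit 575671036),Int.negSucc (nat_lit 611994939),Int.ofNat (nat_lit 1058848797),Int.negSucc (nat_lit 2739987470),Int.ofNat (nat_lit 144435407),Int.ofNat (nat_lit 115381801),Int.ofNat (nat_lit 72380768),Int.negSucc (nat_lit 588662364),Int.negSucc (nat_lit 44020113),Int.negSucc (nat_lit 156939872),Int.ofNat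 (nat_lit 498795966),Int.negSucc (nat_lit 315414548),Int.ofNat (nat_lit 148460002),Int.ofNat (nat_lit 157990201),Int.ofNat (nat_lit 195432761),Int.negSucc (nat_lit 158618035),Int.ofNat (nat_lit 1531202383),Int.ofNat (nat_lit 168328499),Int.negSucc (nat_lit 73928786),Int.negSucc (nat_lit 9637472),Int.ofNat (nat_lit 324950187),Int.ofNat (nat_lit 97550219),Int.negSucc (nat_lit 57082572),Int.ofNat (nat_lit 31756028),Int.ofNat (nat_lit 754057537),Int.negSucc (nat_lit 381917557),Int.negSucc (nat_lit 1972532031),Int.ofNat (nat_lit 31282873),Int.negSucc (nat_lit 206326170),Int.ofNat (nat_lit 268600500),Int.negSucc (nat_lit 56033176),Int.negSucc (nat_lit 4127569),Int.negSucc (nat_lit 42098064),Int.negSucc (nat_lit 31622741),Int.ofNat (nat_lit 137507923),Int.ofNat (nat_lit 51224464),Int.negSucc (nat_lit 98683022),Int.negSucc (nat_lit 241833091),Int.ofNat (nat_lit 28787360),Int.negSucc (nat_lit 30448326),Int.ofNat (nat_lit 8770069),Int.negSucc (nat_lit 18836822),Int.negSucc (nat_lit 53098600),Int.ofNat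 (nat_lit 293627828)])

/-- A row. -/
noncomputable def sr6_c1_51 : List ℕ × List ℤ :=
  ([(nat_lit 2),(nat_lit 0),(nat_lit 0),(nat_lit 1),(nat_lit 0),(nat_lit 0),(nat_lit 0),(nat_lit 0),(nat_lit 0),(nat_lit 0),(nat_lit 0),(nat_lit 0)], [Int.negSucc (nat_lit 2631366654),Int.ofNat (nat_lit 56832101),Int.negSucc (nat_lit 313577270),Int.negSucc (nat_lit 700453436),Int.negSucc (nat_lit 380443122),Int.negSucc (nat_lit 2786321803),Int.ofNat (nat_lit 575799359),Int.negSucc (nat_lit 14930667),Int.ofNat (nat_lit 903636513),Int.negSucc (nat_lit 2927503942),Int.ofNat (nat_lit 27587794),Int.negSucc (nat_lit 432024095),Int.negSucc (nat_lit 93461797),Int.ofNat (nat_lit 576798007),Int.ofNat (nat_lit 191098992),Int.negSucc (nat_lit 162270179),Int.ofNat (nat_lit 285572834),Int.ofNat (nat_lit 331510792),Int.negSucc (nat_lit 147274641),Int.negSucc (nat_lit 392607775),Int.ofNat (nat_lit 337403752),Int.ofNat (nat_lit 433530302),Int.negSucc (nat_lit 26593563),Int.ofNat (nat_lit 597587071),Int.negSucc (nat_lit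 155516432),Int.negSucc (nat_lit 734058780),Int.ofNat (nat_lit 245556467),Int.negSucc (nat_lit 400130769),Int.ofNat (nat_lit 210361047),Int.negSucc (nat_lit 161938121),Int.ofNat (nat_lit 688539568),Int.ofNat (nat_lit 291218455),Int.negSucc (nat_lit 51350639),Int.ofNat (nat_lit 161269321),Int.ofNat (nat_lit 1197667702),Int.ofNat (nat_lit 10347391),Int.negSucc (nat_lit 1271245298),Int.negSucc (nat_lit 325056559),Int.ofNat (nat_lit 324348167),Int.ofNat (nat_lit 1834710992),Int.ofNat (nat_lit 489670521),Int.ofNat (nat_lit 597798230),Int.negSucc (nat_lit 615961978),Int.ofNat (nat_lit 489683482),Int.negSucc (nat_lit 270651247),Int.negSucc (nat_lit 98442332),Int.negSucc (nat_lit 167264346),Int.ofNat (nat_lit 170629080),Int.ofNat (nat_lit 176376045),Int.ofNat (nat_lit 124434333),Int.ofNat (nat_lit 118762345),Int.negSucc (nat_lit 138763542),Int.negSucc (nat_lit 1786432519),Int.ofNat (nat_lit 522253171),Int.negSucc (nat_lit 127390254),Int.negSucc (nat_lit 297250240),Int.negSucc (nat_lit 341221190),Int.ofNat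 (nat_lit 194731143),Int.ofNat (nat_lit 75470659),Int.negSucc (nat_lit 144178154),Int.negSucc (nat_lit 90005640),Int.negSucc (nat_lit 357722603),Int.ofNat (nat_lit 91898656),Int.ofNat (nat_lit 1006179851),Int.ofNat (nat_lit 362784359),Int.negSucc (nat_lit 236597236),Int.negSucc (nat_lit 647837057),Int.ofNat (nat_lit 373408054),Int.negSucc (nat_lit 849040228),Int.ofNat (nat_lit 33466497),Int.negSucc (nat_lit 91184387),Int.ofNat (nat_lit 214693657),Int.negSucc (nat_lit 171537609),Int.negSucc (nat_lit 17147540),Int.ofNat (nat_lit 146681550),Int.negSucc (nat_lit 703984215),Int.negSucc (nat_lit 157340123),Int.negSucc (nat_lit 790182771),Int.ofNat (nat_lit 2136263890),Int.negSucc (nat_lit 460669237),Int.ofNat (nat_lit 1162164022),Int.ofNat (nat_lit 719272229),Int.negSucc (nat_lit 100413537),Int.ofNat (nat_lit 783160018),Int.negSucc (nat_lit 1079341304),Int.ofNat (nat_lit 50367250),Int.negSucc (nat_lit 432309171),Int.ofNat (nat_lit 334600594),Int.ofNat (nat_lit 334935072),Int.ofNat (nat_lit 146843338),Int.ofNat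 (nat_lit 180626301),Int.ofNat (nat_lit 279959374),Int.ofNat (nat_lit 8277122),Int.ofNat (nat_lit 81565569),Int.ofNat (nat_lit 277098295),Int.negSucc (nat_lit 43454024),Int.negSucc (nat_lit 143602057),Int.negSucc (nat_lit 600775470),Int.ofNat (nat_lit 179791965),Int.negSucc (nat_lit 306128700),Int.negSucc (nat_lit 8287578),Int.negSucc (nat_lit 167499551),Int.negSucc (nat_lit 222790438),Int.negSucc (nat_lit 21977824),Int.negSucc (nat_lit 551287128),Int.ofNat (nat_lit 746957994),Int.ofNat (nat_lit 29974779),Int.negSucc (nat_lit 3059557567),Int.negSucc (nat_lit 449473708),Int.negSucc (nat_lit 286910073),Int.ofNat (nat_lit 581195124),Int.ofNat (nat_lit 717532),Int.ofNat (nat_lit 68488687),Int.ofNat (nat_lit 110061247),Int.ofNat (nat_lit 129088526),Int.negSucc (nat_lit 183295370),Int.negSucc (nat_lit 52263124),Int.ofNat (nat_lit 134728409),Int.negSucc (nat_lit 363435188),Int.ofNat (nat_lit 55449019),Int.negSucc (nat_lit 99834329),Int.ofNat (nat_lit 95288224),Int.negSucc (nat_lit 266904147),Int.ofNat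 (nat_lit 17247717),Int.ofNat (nat_lit 857627982)])

/-- A row. -/
noncomputable def sr6_c1_52 : List ℕ × List ℤ :=
  ([(nat_lit 2),(nat_lit 0),(nat_lit 1),(nat_lit 1),(nat_lit 0),(nat_lit 0),(nat_lit 0),(nat_lit 0),(nat_lit 0),(nat_lit 0),(nat_lit 0),(nat_lit 0)], [Int.negSucc (nat_lit 462642330),Int.negSucc (nat_lit 125838923),Int.ofNat (nat_lit 480778835),Int.ofNat (nat_lit 994706505),Int.negSucc (nat_lit 891444131),Int.ofNat (nat_lit 46938553),Int.ofNat (nat_lit 63032373),Int.negSucc (nat_lit 490996224),Int.ofNat (nat_lit 647121599),Int.ofNat (nat_lit 423460561),Int.negSucc (nat_lit 326132443),Int.ofNat (nat_lit 60664001),Int.negSucc (nat_lit 464401588),Int.negSucc (nat_lit 808300861),Int.ofNat (nat_lit 596322683),Int.negSucc (nat_lit 117602224),Int.negSucc (nat_lit 348311954),Int.negSucc (nat_lit 124513402),Int.negSucc (nat_lit 13627393),Int.negSucc (nat_lit 150202894),Int.ofNat (nat_lit 116981852),Int.ofNat (nat_lit 530789788),Int.negSucc (nat_lit 639437168),Int.ofNat (nat_lit 652070814),Int.negSucc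 (nat_lit 362116640),Int.ofNat (nat_lit 7292765),Int.ofNat (nat_lit 475802702),Int.negSucc (nat_lit 180493076),Int.ofNat (nat_lit 17963593),Int.negSucc (nat_lit 34146104),Int.ofNat (nat_lit 286416842),Int.ofNat (nat_lit 171558695),Int.negSucc (nat_lit 257750735),Int.ofNat (nat_lit 24143064),Int.ofNat (nat_lit 66262676),Int.negSucc (nat_lit 669220538),Int.negSucc (nat_lit 538271827),Int.ofNat (nat_lit 155177060),Int.negSucc (nat_lit 706127782),Int.negSucc (nat_lit 287841621),Int.ofNat (nat_lit 513138952),Int.negSucc (nat_lit 203214956),Int.ofNat (nat_lit 347457588),Int.negSucc (nat_lit 185421627),Int.ofNat (nat_lit 216618650),Int.negSucc (nat_lit 157538748),Int.negSucc (nat_lit 351081273),Int.negSucc (nat_lit 63203018),Int.ofNat (nat_lit 62577516),Int.ofNat (nat_lit 113072275),Int.ofNat (nat_lit 135913080),Int.negSucc (nat_lit 100551185),Int.negSucc (nat_lit 205788795),Int.ofNat (nat_lit 416128676),Int.negSucc (nat_lit 208575547),Int.ofNat (nat_lit 82927608),Int.negSucc (nat_lit 413929487),Int.negSucc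 (nat_lit 73157257),Int.ofNat (nat_lit 124379327),Int.negSucc (nat_lit 139285818),Int.ofNat (nat_lit 8585151),Int.negSucc (nat_lit 75009713),Int.ofNat (nat_lit 170847012),Int.ofNat (nat_lit 383132329),Int.ofNat (nat_lit 318659489),Int.ofNat (nat_lit 524398428),Int.negSucc (nat_lit 376008069),Int.negSucc (nat_lit 20533621),Int.negSucc (nat_lit 49825688),Int.negSucc (nat_lit 700479390),Int.ofNat (nat_lit 60167358),Int.negSucc (nat_lit 20242291),Int.ofNat (nat_lit 99727340),Int.negSucc (nat_lit 240004834),Int.ofNat (nat_lit 81483064),Int.ofNat (nat_lit 361943770),Int.ofNat (nat_lit 25996140),Int.negSucc (nat_lit 2410923),Int.ofNat (nat_lit 1530582488),Int.negSucc (nat_lit 470806928),Int.ofNat (nat_lit 785576255),Int.ofNat (nat_lit 19437443),Int.negSucc (nat_lit 318918552),Int.ofNat (nat_lit 251660467),Int.ofNat (nat_lit 818638601),Int.negSucc (nat_lit 1421184800),Int.negSucc (nat_lit 80925658),Int.ofNat (nat_lit 35656266),Int.ofNat (nat_lit 102472391),Int.negSucc (nat_lit 55016031),Int.negSucc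 (nat_lit 94332630),Int.negSucc (nat_lit 66890579),Int.ofNat (nat_lit 93095279),Int.negSucc (nat_lit 27835319),Int.ofNat (nat_lit 50221355),Int.ofNat (nat_lit 249438315),Int.negSucc (nat_lit 72205717),Int.ofNat (nat_lit 39626051),Int.ofNat (nat_lit 103604423),Int.negSucc (nat_lit 29487864),Int.ofNat (nat_lit 87293295),Int.negSucc (nat_lit 101821524),Int.ofNat (nat_lit 41883311),Int.negSucc (nat_lit 21232933),Int.negSucc (nat_lit 148306631),Int.ofNat (nat_lit 38823124),Int.negSucc (nat_lit 63123917),Int.negSucc (nat_lit 445470873),Int.ofNat (nat_lit 20633067),Int.negSucc (nat_lit 6047793),Int.negSucc (nat_lit 815039212),Int.negSucc (nat_lit 10867512),Int.ofNat (nat_lit 13468925),Int.ofNat (nat_lit 27866235),Int.ofNat (nat_lit 53883162),Int.negSucc (nat_lit 28750395),Int.negSucc (nat_lit 5889640),Int.negSucc (nat_lit 17556247),Int.negSucc (nat_lit 30574542),Int.negSucc (nat_lit 3948933),Int.negSucc (nat_lit 33485107),Int.ofNat (nat_lit 30127796),Int.negSucc (nat_lit 26893686),Int.ofNat (nat_lit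 26470363),Int.ofNat (nat_lit 61599969),Int.ofNat (nat_lit 147161535)])

/-- A row. -/
noncomputable def sr6_c1_53 : List ℕ × List ℤ :=
  ([(nat_lit 2),(nat_lit 1),(nat_lit 0),(nat_lit 0),(nat_lit 0),(nat_lit 0),(nat_lit 0),(nat_lit 0),(nat_lit 0),(nat_lit 0),(nat_lit 0),(nat_lit 0)], [Int.ofNat (nat_lit 1025755408),Int.ofNat (nat_lit 7795369198),Int.ofNat (nat_lit 753079994),Int.ofNat (nat_lit 2589629075),Int.negSucc (nat_lit 2416883793),Int.ofNat (nat_lit 2032638617),Int.negSucc (nat_lit 714794644),Int.negSucc (nat_lit 113586849),Int.negSucc (nat_lit 1929867824),Int.negSucc (nat_lit 4288908748),Int.ofNat (nat_lit 754810575),Int.ofNat (nat_lit 1195050283),Int.negSucc (nat_lit 996830620),Int.negSucc (nat_lit 315617406),Int.ofNat (nat_lit 301985546),Int.ofNat (nat_lit 891185249),Int.negSucc (nat_lit 3797795656),Int.negSucc (nat_lit 1973418043),Int.ofNat (nat_lit 255722512),Int.negSucc (nat_lit 1043755623),Int.negSucc (nat_lit 108728668),Int.negSucc (nat_lit 308303303),Int.ofNat (nat_lit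 1627608666),Int.negSucc (nat_lit 2179118572),Int.ofNat (nat_lit 1102232810),Int.ofNat (nat_lit 1639644569),Int.negSucc (nat_lit 1913391286),Int.ofNat (nat_lit 4354014716),Int.negSucc (nat_lit 1241745459),Int.negSucc (nat_lit 1955044685),Int.negSucc (nat_lit 1537686432),Int.negSucc (nat_lit 618579775),Int.ofNat (nat_lit 910886202),Int.negSucc (nat_lit 233057686),Int.negSucc (nat_lit 193870748),Int.negSucc (nat_lit 9513412),Int.ofNat (nat_lit 906185588),Int.ofNat (nat_lit 1052740045),Int.negSucc (nat_lit 1872452772),Int.negSucc (nat_lit 1628562991),Int.ofNat (nat_lit 237597227),Int.negSucc (nat_lit 1058525015),Int.ofNat (nat_lit 669882016),Int.negSucc (nat_lit 634240252),Int.negSucc (nat_lit 293380103),Int.ofNat (nat_lit 1489641097),Int.negSucc (nat_lit 1436714828),Int.ofNat (nat_lit 1758350273),Int.ofNat (nat_lit 402985755),Int.negSucc (nat_lit 600730688),Int.ofNat (nat_lit 291841622),Int.negSucc (nat_lit 1260755200),Int.ofNat (nat_lit 1655205803),Int.negSucc (nat_lit 786151906),Int.negSucc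 (nat_lit 53983649),Int.negSucc (nat_lit 1564866403),Int.negSucc (nat_lit 906871708),Int.negSucc (nat_lit 797751509),Int.ofNat (nat_lit 1808196967),Int.negSucc (nat_lit 908084017),Int.ofNat (nat_lit 705923308),Int.ofNat (nat_lit 80385795),Int.ofNat (nat_lit 1162648892),Int.ofNat (nat_lit 229167974),Int.negSucc (nat_lit 117149971),Int.ofNat (nat_lit 795361505),Int.negSucc (nat_lit 1240343464),Int.negSucc (nat_lit 399355251),Int.negSucc (nat_lit 633258314),Int.negSucc (nat_lit 943113345),Int.ofNat (nat_lit 542576117),Int.negSucc (nat_lit 582167626),Int.ofNat (nat_lit 203119645),Int.negSucc (nat_lit 1748482677),Int.ofNat (nat_lit 746087967),Int.ofNat (nat_lit 212554046),Int.negSucc (nat_lit 1230067761),Int.negSucc (nat_lit 1181989406),Int.negSucc (nat_lit 465908634),Int.negSucc (nat_lit 733939135),Int.ofNat (nat_lit 734933003),Int.ofNat (nat_lit 61647217),Int.ofNat (nat_lit 1912858392),Int.negSucc (nat_lit 2935951433),Int.negSucc (nat_lit 330934862),Int.ofNat (nat_lit 73798060),Int.ofNat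 (nat_lit 4161013558),Int.negSucc (nat_lit 789790429),Int.negSucc (nat_lit 4038852370),Int.ofNat (nat_lit 711354876),Int.ofNat (nat_lit 1598434444),Int.ofNat (nat_lit 858799285),Int.negSucc (nat_lit 5158237504),Int.ofNat (nat_lit 1378671252),Int.ofNat (nat_lit 426944481),Int.ofNat (nat_lit 759352962),Int.negSucc (nat_lit 1940863),Int.ofNat (nat_lit 992075152),Int.negSucc (nat_lit 1021042214),Int.ofNat (nat_lit 2329360777),Int.negSucc (nat_lit 627654624),Int.negSucc (nat_lit 1728504341),Int.ofNat (nat_lit 528411310),Int.ofNat (nat_lit 470426211),Int.ofNat (nat_lit 201575775),Int.negSucc (nat_lit 521930737),Int.ofNat (nat_lit 1204759254),Int.ofNat (nat_lit 1026640995),Int.ofNat (nat_lit 919510042),Int.ofNat (nat_lit 2569009832),Int.negSucc (nat_lit 2196558005),Int.negSucc (nat_lit 8430501499),Int.ofNat (nat_lit 1399228263),Int.negSucc (nat_lit 1189041313),Int.negSucc (nat_lit 874349193),Int.ofNat (nat_lit 932150076),Int.ofNat (nat_lit 118079594),Int.negSucc (nat_lit 784836127),Int.ofNat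 (nat_lit 348706527),Int.negSucc (nat_lit 202350193),Int.negSucc (nat_lit 333346638),Int.ofNat (nat_lit 199899385),Int.ofNat (nat_lit 822286990),Int.negSucc (nat_lit 331729646),Int.negSucc (nat_lit 723274946),Int.ofNat (nat_lit 214940344),Int.ofNat (nat_lit 1640839160)])

/-- A row. -/
noncomputable def sr6_c1_54 : List ℕ × List ℤ :=
  ([(nat_lit 2),(nat_lit 1),(nat_lit 0),(nat_lit 0),(nat_lit 1),(nat_lit 0),(nat_lit 0),(nat_lit 0),(nat_lit 0),(nat_lit 0),(nat_lit 0),(nat_lit 0)], [Int.negSucc (nat_lit 2367889102),Int.negSucc (nat_lit 917919994),Int.ofNat (nat_lit 1503008275),Int.negSucc (nat_lit 2019203639),Int.ofNat (nat_lit 5252587),Int.negSucc (nat_lit 1732649005),Int.negSucc (nat_lit 1219045399),Int.ofNat (nat_lit 1492132925),Int.ofNat (nat_lit 2146232489),Int.ofNat (nat_lit 3420071181),Int.negSucc (nat_lit 1125432694),Int.negSucc (nat_lit 410600558),Int.ofNat (nat_lit 1700716634),Int.ofNat (nat_lit 183897908),Int.negSucc (nat_lit 381949711),Int.ofNat (nat_lit 17025908),Int.ofNat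 (nat_lit 648482008),Int.ofNat (nat_lit 553413117),Int.ofNat (nat_lit 2297364232),Int.negSucc (nat_lit 388976275),Int.negSucc (nat_lit 1357154608),Int.ofNat (nat_lit 439713150),Int.ofNat (nat_lit 41676747),Int.ofNat (nat_lit 246911062),Int.negSucc (nat_lit 595360836),Int.negSucc (nat_lit 3922656464),Int.ofNat (nat_lit 190094170),Int.ofNat (nat_lit 139604433),Int.negSucc (nat_lit 132094991),Int.ofNat (nat_lit 1279836259),Int.ofNat (nat_lit 700602773),Int.negSucc (nat_lit 1111228101),Int.ofNat (nat_lit 343341299),Int.negSucc (nat_lit 688405832),Int.negSucc (nat_lit 342455975),Int.ofNat (nat_lit 127901),Int.negSucc (nat_lit 1439512875),Int.negSucc (nat_lit 884202170),Int.ofNat (nat_lit 1164581864),Int.ofNat (nat_lit 658020535),Int.negSucc (nat_lit 597441682),Int.ofNat (nat_lit 577754823),Int.negSucc (nat_lit 248884860),Int.ofNat (nat_lit 275096367),Int.negSucc (nat_lit 841353845),Int.negSucc (nat_lit 485228739),Int.ofNat (nat_lit 631924312),Int.negSucc (nat_lit 112134147),Int.negSucc (nat_lit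 22190322),Int.negSucc (nat_lit 193526416),Int.negSucc (nat_lit 95608771),Int.ofNat (nat_lit 292213540),Int.negSucc (nat_lit 338697958),Int.ofNat (nat_lit 17534745),Int.ofNat (nat_lit 624478255),Int.ofNat (nat_lit 278705945),Int.negSucc (nat_lit 322239578),Int.negSucc (nat_lit 25688758),Int.negSucc (nat_lit 332843020),Int.negSucc (nat_lit 52632332),Int.negSucc (nat_lit 289051993),Int.ofNat (nat_lit 184637431),Int.negSucc (nat_lit 375216347),Int.negSucc (nat_lit 615844779),Int.negSucc (nat_lit 515307242),Int.negSucc (nat_lit 453355685),Int.ofNat (nat_lit 286063315),Int.negSucc (nat_lit 55688814),Int.ofNat (nat_lit 174290126),Int.ofNat (nat_lit 358024888),Int.negSucc (nat_lit 37709396),Int.negSucc (nat_lit 327050883),Int.ofNat (nat_lit 644264045),Int.ofNat (nat_lit 538962264),Int.ofNat (nat_lit 182533926),Int.negSucc (nat_lit 1148598114),Int.ofNat (nat_lit 189770674),Int.ofNat (nat_lit 1723557388),Int.negSucc (nat_lit 1040196567),Int.ofNat (nat_lit 125992278),Int.ofNat (nat_lit 1839188203),Int.negSucc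 (nat_lit 1024568012),Int.negSucc (nat_lit 535208047),Int.ofNat (nat_lit 614239939),Int.ofNat (nat_lit 855340301),Int.negSucc (nat_lit 398509819),Int.negSucc (nat_lit 1629441156),Int.negSucc (nat_lit 312634031),Int.ofNat (nat_lit 1414879909),Int.ofNat (nat_lit 3275507822),Int.negSucc (nat_lit 293899472),Int.negSucc (nat_lit 213922678),Int.ofNat (nat_lit 462267457),Int.negSucc (nat_lit 1054879119),Int.negSucc (nat_lit 264162083),Int.negSucc (nat_lit 123368018),Int.negSucc (nat_lit 126719419),Int.ofNat (nat_lit 512702115),Int.negSucc (nat_lit 325603265),Int.negSucc (nat_lit 72739975),Int.ofNat (nat_lit 1259063282),Int.ofNat (nat_lit 109167840),Int.negSucc (nat_lit 147690371),Int.negSucc (nat_lit 16298737),Int.ofNat (nat_lit 354873208),Int.ofNat (nat_lit 580250575),Int.negSucc (nat_lit 326853583),Int.ofNat (nat_lit 542022107),Int.negSucc (nat_lit 779422372),Int.negSucc (nat_lit 131535625),Int.negSucc (nat_lit 154691880),Int.ofNat (nat_lit 871275197),Int.ofNat (nat_lit 501961850),Int.negSucc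 (nat_lit 1417941424),Int.ofNat (nat_lit 193665463),Int.negSucc (nat_lit 24978589),Int.ofNat (nat_lit 128164287),Int.ofNat (nat_lit 5610872),Int.negSucc (nat_lit 37809365),Int.ofNat (nat_lit 12434196),Int.ofNat (nat_lit 35297907),Int.ofNat (nat_lit 27200559),Int.ofNat (nat_lit 24441074),Int.ofNat (nat_lit 10795104),Int.negSucc (nat_lit 97724537),Int.negSucc (nat_lit 5296488),Int.negSucc (nat_lit 39936232),Int.ofNat (nat_lit 293690150)])

/-- A row. -/
noncomputable def sr6_c1_55 : List ℕ × List ℤ :=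
  ([(nat_lit 2),(nat_lit 1),(nat_lit 1),(nat_lit 0),(nat_lit 0),(nat_lit 0),(nat_lit 0),(nat_lit 0),(nat_lit 0),(nat_lit 0),(nat_lit 0),(nat_lit 0)], [Int.ofNat (nat_lit 772741530),Int.ofNat (nat_lit 7498247536),Int.ofNat (nat_lit 1919243709),Int.ofNat (nat_lit 379382469),Int.ofNat (nat_lit 644995641),Int.negSucc (nat_lit 3233435751),Int.ofNat (nat_lit 1708411839),Int.ofNat (nat_lit 2536927329),Int.negSucc (nat_lit 136838678),Int.ofNat (nat_lit 482289923),Int.negSucc (nat_lit 288919322),Int.negSucc (nat_lit 1181996152),Int.ofNat (nat_lit 984517044),Int.ofNat (nat_lit 214397780),Int.negSucc (nat_lit 759137663),Int.ofNat (nat_lit 148216517),Int.ofNat (nat_lit 2088628865),Int.ofNat (nat_lit 588170074),Int.negSucc (nat_lit 1270347438),Int.ofNat (nat_lit 285730887),Int.negSucc (nat_lit 1667215846),Int.ofNat (nat_lit 1379068895),Int.negSucc (nat_lit 2053796311),Int.ofNat (nat_lit 563123130),Int.negSucc (nat_lit 65567553),Int.negSucc (nat_lit 654104281),Int.negSucc (nat_lit 644089958),Int.negSucc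 (nat_lit 191676337),Int.ofNat (nat_lit 1666655805),Int.negSucc (nat_lit 141567644),Int.ofNat (nat_lit 369592253),Int.ofNat (nat_lit 46012507),Int.ofNat (nat_lit 200432546),Int.negSucc (nat_lit 563076793),Int.ofNat (nat_lit 515590388),Int.ofNat (nat_lit 818528527),Int.ofNat (nat_lit 120079833),Int.ofNat (nat_lit 787392158),Int.ofNat (nat_lit 367666073),Int.ofNat (nat_lit 1729446668),Int.ofNat (nat_lit 1292934175),Int.ofNat (nat_lit 154972954),Int.ofNat (nat_lit 525019862),Int.ofNat (nat_lit 569890549),Int.negSucc (nat_lit 921105746),Int.negSucc (nat_lit 1358646697),Int.ofNat (nat_lit 1075618386),Int.ofNat (nat_lit 1162772238),Int.negSucc (nat_lit 216566806),Int.ofNat (nat_lit 604172729),Int.negSucc (nat_lit 61028753),Int.negSucc (nat_lit 949029635),Int.negSucc (nat_lit 690589217),Int.negSucc (nat_lit 720871846),Int.negSucc (nat_lit 817343894),Int.negSucc (nat_lit 210258253),Int.negSucc (nat_lit 271169942),Int.negSucc (nat_lit 450870775),Int.ofNat (nat_lit 8062207),Int.ofNat (nat_lit 172213108),Int.ofNat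 (nat_lit 523483299),Int.negSucc (nat_lit 615200551),Int.ofNat (nat_lit 938410697),Int.negSucc (nat_lit 1296289688),Int.ofNat (nat_lit 293822315),Int.ofNat (nat_lit 96508430),Int.negSucc (nat_lit 912968601),Int.negSucc (nat_lit 960369261),Int.ofNat (nat_lit 103542840),Int.negSucc (nat_lit 217740728),Int.ofNat (nat_lit 181469790),Int.ofNat (nat_lit 227261356),Int.ofNat (nat_lit 264374933),Int.negSucc (nat_lit 744602785),Int.negSucc (nat_lit 1362940023),Int.negSucc (nat_lit 1093432556),Int.negSucc (nat_lit 620354218),Int.negSucc (nat_lit 204711535),Int.negSucc (nat_lit 11577197),Int.negSucc (nat_lit 1018684218),Int.ofNat (nat_lit 312402783),Int.ofNat (nat_lit 522395804),Int.negSucc (nat_lit 840155002),Int.negSucc (nat_lit 950086050),Int.ofNat (nat_lit 755968280),Int.negSucc (nat_lit 375198856),Int.ofNat (nat_lit 694551611),Int.negSucc (nat_lit 861349858),Int.negSucc (nat_lit 1309688417),Int.ofNat (nat_lit 1851942419),Int.ofNat (nat_lit 787563823),Int.ofNat (nat_lit 439642980),Int.negSucc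 (nat_lit 809787759),Int.ofNat (nat_lit 1786598875),Int.negSucc (nat_lit 3554322356),Int.ofNat (nat_lit 841971015),Int.ofNat (nat_lit 106564422),Int.negSucc (nat_lit 163626581),Int.negSucc (nat_lit 215913489),Int.negSucc (nat_lit 1057500624),Int.negSucc (nat_lit 287433933),Int.negSucc (nat_lit 472236439),Int.negSucc (nat_lit 41021646),Int.negSucc (nat_lit 644681089),Int.negSucc (nat_lit 521344835),Int.ofNat (nat_lit 909738197),Int.ofNat (nat_lit 968734064),Int.negSucc (nat_lit 2028116368),Int.ofNat (nat_lit 318099741),Int.ofNat (nat_lit 1588357614),Int.negSucc (nat_lit 832498393),Int.negSucc (nat_lit 4665642270),Int.ofNat (nat_lit 1991640631),Int.negSucc (nat_lit 862010307),Int.negSucc (nat_lit 696246529),Int.negSucc (nat_lit 4629538765),Int.ofNat (nat_lit 685446047),Int.negSucc (nat_lit 137629334),Int.ofNat (nat_lit 39354388),Int.negSucc (nat_lit 181910137),Int.negSucc (nat_lit 786041647),Int.negSucc (nat_lit 16065853),Int.ofNat (nat_lit 115299099),Int.negSucc (nat_lit 305158804),Int.ofNat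 (nat_lit 397702157),Int.ofNat (nat_lit 314140027),Int.ofNat (nat_lit 305247465),Int.negSucc (nat_lit 516898622),Int.ofNat (nat_lit 979723690)])

/-- A row. -/
noncomputable def sr6_c1_56 : List ℕ × List ℤ :=
  ([(nat_lit 2),(nat_lit 2),(nat_lit 0),(nat_lit 1),(nat_lit 0),(nat_lit 0),(nat_lit 0),(nat_lit 0),(nat_lit 0),(nat_lit 0),(nat_lit 0),(nat_lit 0)], [Int.negSucc (nat_lit 2300964298),Int.negSucc (nat_lit 4214040866),Int.negSucc (nat_lit 894838994),Int.ofNat (nat_lit 3184301130),Int.negSucc (nat_lit 2602536050),Int.ofNat (nat_lit 2516479299),Int.negSucc (nat_lit 2986583176),Int.negSucc (nat_lit 650352114),Int.ofNat (nat_lit 1328094722),Int.negSucc (nat_lit 891449946),Int.ofNat (nat_lit 1476722460),Int.ofNat (nat_lit 1773746662),Int.negSucc (nat_lit 619059277),Int.negSucc (nat_lit 457101599),Int.ofNat (nat_lit 712756419),Int.ofNat (nat_lit 772357849),Int.negSucc (nat_lit 2005052219),Int.negSucc (nat_lit 594449006),Int.ofNat (nat_lit 440622176),Int.negSucc (nat_lit 2741344363),Int.negSucc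 (nat_lit 139540614),Int.negSucc (nat_lit 114011805),Int.negSucc (nat_lit 448248212),Int.negSucc (nat_lit 2397353630),Int.ofNat (nat_lit 238552827),Int.ofNat (nat_lit 878177195),Int.negSucc (nat_lit 2740028385),Int.ofNat (nat_lit 696953386),Int.ofNat (nat_lit 665458871),Int.negSucc (nat_lit 66094549),Int.negSucc (nat_lit 2758115172),Int.negSucc (nat_lit 1796286913),Int.negSucc (nat_lit 969201996),Int.negSucc (nat_lit 430597748),Int.negSucc (nat_lit 726179166),Int.negSucc (nat_lit 1444477624),Int.ofNat (nat_lit 1032071027),Int.ofNat (nat_lit 505257311),Int.negSucc (nat_lit 91415252),Int.negSucc (nat_lit 1741128624),Int.ofNat (nat_lit 141755703),Int.ofNat (nat_lit 793391090),Int.ofNat (nat_lit 1621801483),Int.negSucc (nat_lit 1273329533),Int.ofNat (nat_lit 602816911),Int.ofNat (nat_lit 271581452),Int.ofNat (nat_lit 321942952),Int.ofNat (nat_lit 2159816320),Int.negSucc (nat_lit 411687134),Int.ofNat (nat_lit 2514187408),Int.negSucc (nat_lit 423855352),Int.ofNat (nat_lit 498019622),Int.ofNat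 (nat_lit 931144658),Int.ofNat (nat_lit 469379959),Int.ofNat (nat_lit 697283177),Int.ofNat (nat_lit 325223898),Int.negSucc (nat_lit 877170379),Int.ofNat (nat_lit 98684968),Int.ofNat (nat_lit 75854588),Int.ofNat (nat_lit 827477813),Int.negSucc (nat_lit 993449278),Int.ofNat (nat_lit 934303063),Int.negSucc (nat_lit 673160896),Int.negSucc (nat_lit 121758894),Int.negSucc (nat_lit 541217644),Int.ofNat (nat_lit 1861174204),Int.ofNat (nat_lit 1058649647),Int.ofNat (nat_lit 1530043345),Int.ofNat (nat_lit 335859318),Int.negSucc (nat_lit 409938043),Int.negSucc (nat_lit 883570106),Int.negSucc (nat_lit 109378582),Int.negSucc (nat_lit 189902733),Int.negSucc (nat_lit 644419622),Int.ofNat (nat_lit 420012358),Int.negSucc (nat_lit 282008103),Int.negSucc (nat_lit 166912846),Int.ofNat (nat_lit 1095275723),Int.negSucc (nat_lit 3163796855),Int.negSucc (nat_lit 1082239229),Int.negSucc (nat_lit 582645856),Int.negSucc (nat_lit 1862627854),Int.ofNat (nat_lit 35067646),Int.ofNat (nat_lit 201875932),Int.ofNat (nat_lit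 1943588098),Int.negSucc (nat_lit 2318106802),Int.negSucc (nat_lit 142741250),Int.ofNat (nat_lit 31619357),Int.negSucc (nat_lit 265257074),Int.ofNat (nat_lit 73308051),Int.negSucc (nat_lit 259556703),Int.ofNat (nat_lit 3499084484),Int.ofNat (nat_lit 105672417),Int.negSucc (nat_lit 429861838),Int.negSucc (nat_lit 1705605286),Int.negSucc (nat_lit 185997139),Int.ofNat (nat_lit 705756985),Int.ofNat (nat_lit 3518276468),Int.negSucc (nat_lit 3918505136),Int.ofNat (nat_lit 1419016511),Int.ofNat (nat_lit 148856842),Int.ofNat (nat_lit 542849116),Int.ofNat (nat_lit 1011143426),Int.negSucc (nat_lit 312489194),Int.ofNat (nat_lit 1050695779),Int.negSucc (nat_lit 688306577),Int.ofNat (nat_lit 1582641861),Int.ofNat (nat_lit 1609903856),Int.ofNat (nat_lit 260570734),Int.ofNat (nat_lit 647220316),Int.negSucc (nat_lit 1124942031),Int.ofNat (nat_lit 1226464157),Int.negSucc (nat_lit 742744772),Int.negSucc (nat_lit 144428503),Int.ofNat (nat_lit 193218299),Int.ofNat (nat_lit 1031350412),Int.ofNat (nat_lit 1740634654),Int.negSucc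 (nat_lit 422910069),Int.negSucc (nat_lit 5105505440),Int.negSucc (nat_lit 377372522),Int.negSucc (nat_lit 43604196),Int.ofNat (nat_lit 485878576),Int.ofNat (nat_lit 260518814),Int.negSucc (nat_lit 204630144),Int.ofNat (nat_lit 13190648),Int.ofNat (nat_lit 304325319),Int.negSucc (nat_lit 304877731),Int.ofNat (nat_lit 799181753),Int.negSucc (nat_lit 404038451),Int.ofNat (nat_lit 988603919)])

/-- A row. -/
noncomputable def sr6_c1_57 : List ℕ × List ℤ :=
  ([(nat_lit 2),(nat_lit 3),(nat_lit 0),(nat_lit 0),(nat_lit 0),(nat_lit 0),(nat_lit 0),(nat_lit 0),(nat_lit 0),(nat_lit 0),(nat_lit 0),(nat_lit 0)], [Int.negSucc (nat_lit 2729441924),Int.negSucc (nat_lit 4024577888),Int.negSucc (nat_lit 2899671043),Int.negSucc (nat_lit 2721038450),Int.ofNat (nat_lit 5719259302),Int.negSucc (nat_lit 2494131557),Int.negSucc (nat_lit 612214264),Int.negSucc (nat_lit 602015589),Int.ofNat (nat_lit 1687949822),Int.ofNat (nat_lit 4624783259),Int.negSucc (nat_lit 1600083709),Int.negSucc (nat_lit 1048656057),Int.ofNat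 (nat_lit 1112952560),Int.ofNat (nat_lit 585611667),Int.negSucc (nat_lit 1290311651),Int.negSucc (nat_lit 1813154059),Int.ofNat (nat_lit 7318838320),Int.ofNat (nat_lit 909767619),Int.negSucc (nat_lit 121791248),Int.ofNat (nat_lit 921478532),Int.negSucc (nat_lit 54866039),Int.negSucc (nat_lit 1241523075),Int.negSucc (nat_lit 2017282499),Int.ofNat (nat_lit 599022638),Int.negSucc (nat_lit 87640683),Int.negSucc (nat_lit 1194446469),Int.ofNat (nat_lit 1495780051),Int.negSucc (nat_lit 3864884892),Int.ofNat (nat_lit 1115534368),Int.ofNat (nat_lit 3619978163),Int.ofNat (nat_lit 317837883),Int.ofNat (nat_lit 2165792764),Int.negSucc (nat_lit 751612888),Int.ofNat (nat_lit 1775361846),Int.ofNat (nat_lit 456173900),Int.negSucc (nat_lit 457818415),Int.negSucc (nat_lit 600159507),Int.negSucc (nat_lit 2299121793),Int.ofNat (nat_lit 876671193),Int.ofNat (nat_lit 1761055786),Int.ofNat (nat_lit 196485254),Int.ofNat (nat_lit 214002201),Int.negSucc (nat_lit 1078785319),Int.ofNat (nat_lit 796508785),Int.ofNat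 (nat_lit 186878180),Int.ofNat (nat_lit 506046958),Int.ofNat (nat_lit 1922044192),Int.negSucc (nat_lit 249758009),Int.negSucc (nat_lit 614882220),Int.ofNat (nat_lit 1565955042),Int.ofNat (nat_lit 2147678166),Int.ofNat (nat_lit 5880170057),Int.negSucc (nat_lit 1068119533),Int.ofNat (nat_lit 50920101),Int.negSucc (nat_lit 477946351),Int.ofNat (nat_lit 3781445030),Int.ofNat (nat_lit 1626195205),Int.ofNat (nat_lit 1506241529),Int.negSucc (nat_lit 3161112249),Int.ofNat (nat_lit 999585664),Int.negSucc (nat_lit 875701121),Int.negSucc (nat_lit 186142639),Int.negSucc (nat_lit 4975104528),Int.negSucc (nat_lit 1202667169),Int.negSucc (nat_lit 410629203),Int.negSucc (nat_lit 1350642008),Int.ofNat (nat_lit 1758338033),Int.negSucc (nat_lit 731695211),Int.ofNat (nat_lit 1301186439),Int.ofNat (nat_lit 840561492),Int.negSucc (nat_lit 435724598),Int.ofNat (nat_lit 562301304),Int.negSucc (nat_lit 269336900),Int.ofNat (nat_lit 867990832),Int.negSucc (nat_lit 2011480559),Int.ofNat (nat_lit 1911063366),Int.ofNat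 (nat_lit 1923369206),Int.ofNat (nat_lit 1239030205),Int.ofNat (nat_lit 1080106385),Int.ofNat (nat_lit 1926398371),Int.negSucc (nat_lit 1871131136),Int.ofNat (nat_lit 1225507139),Int.negSucc (nat_lit 1907619136),Int.ofNat (nat_lit 2444634767),Int.ofNat (nat_lit 1076034374),Int.ofNat (nat_lit 160665994),Int.negSucc (nat_lit 4211303622),Int.ofNat (nat_lit 1286764206),Int.ofNat (nat_lit 2574933648),Int.ofNat (nat_lit 113098666),Int.negSucc (nat_lit 1661489077),Int.negSucc (nat_lit 2498575354),Int.ofNat (nat_lit 5450833001),Int.negSucc (nat_lit 445284602),Int.negSucc (nat_lit 1561023950),Int.ofNat (nat_lit 658824750),Int.negSucc (nat_lit 1304185334),Int.ofNat (nat_lit 846946591),Int.ofNat (nat_lit 2003397497),Int.negSucc (nat_lit 3860733861),Int.ofNat (nat_lit 527481974),Int.negSucc (nat_lit 483691213),Int.negSucc (nat_lit 1075318347),Int.negSucc (nat_lit 4420445949),Int.negSucc (nat_lit 191922216),Int.ofNat (nat_lit 924159672),Int.negSucc (nat_lit 2197391425),Int.negSucc (nat_lit 1196974095),Int.ofNat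 (nat_lit 117299262),Int.negSucc (nat_lit 2094818105),Int.ofNat (nat_lit 2452492851),Int.ofNat (nat_lit 8995549804),Int.negSucc (nat_lit 1111832411),Int.ofNat (nat_lit 3660025873),Int.ofNat (nat_lit 1210611491),Int.negSucc (nat_lit 5945798914),Int.ofNat (nat_lit 858010426),Int.ofNat (nat_lit 2397930574),Int.ofNat (nat_lit 924699511),Int.negSucc (nat_lit 7690170296),Int.ofNat (nat_lit 2464475497),Int.negSucc (nat_lit 3212756922),Int.negSucc (nat_lit 1373162317),Int.ofNat (nat_lit 998647632),Int.negSucc (nat_lit 506168051),Int.ofNat (nat_lit 251581408),Int.negSucc (nat_lit 2122422582),Int.negSucc (nat_lit 1682018162),Int.ofNat (nat_lit 2069420549),Int.negSucc (nat_lit 1024788085),Int.ofNat (nat_lit 4373072295)])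

/-- A row. -/
noncomputable def sr6_c1_58 : List ℕ × List ℤ :=
  ([(nat_lit 3),(nat_lit 0),(nat_lit 0),(nat_lit 0),(nat_lit 0),(nat_lit 1),(nat_lit 0),(nat_lit 0),(nat_lit 0),(nat_lit 0),(nat_lit 0),(nat_lit 0)], [Int.negSucc (nat_lit 563901528),Int.negSucc (nat_lit 146990598),Int.negSucc (nat_lit 88352770),Int.ofNat (nat_lit 943921215),Int.ofNat (nat_lit 89795987),Int.negSucc (nat_lit 802594928),Int.negSucc (nat_lit 358287634),Int.ofNat (nat_lit 630503231),Int.negSucc (nat_lit 61811755),Int.ofNat (nat_lit 541884672),Int.ofNat (nat_lit 294833315),Int.negSucc (nat_lit 512361097),Int.negSucc (nat_lit 389559492),Int.ofNat (nat_lit 24647495),Int.negSucc (nat_lit 782527),Int.ofNat (nat_lit 39784170),Int.ofNat (nat_lit 530663873),Int.ofNat (nat_lit 390711908),Int.ofNat (nat_lit 296467076),Int.negSucc (nat_lit 373948365),Int.ofNat (nat_lit 1288284513),Int.negSucc (nat_lit 578636508),Int.negSucc (nat_lit 455055254),Int.ofNat (nat_lit 162696546),Int.ofNat (nat_lit 4626999),Int.ofNat (nat_lit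 231934866),Int.negSucc (nat_lit 348658179),Int.negSucc (nat_lit 119103563),Int.ofNat (nat_lit 39781748),Int.ofNat (nat_lit 645377113),Int.ofNat (nat_lit 746004292),Int.ofNat (nat_lit 14310460),Int.negSucc (nat_lit 208918567),Int.ofNat (nat_lit 112335798),Int.negSucc (nat_lit 591154211),Int.negSucc (nat_lit 234018550),Int.negSucc (nat_lit 241553794),Int.negSucc (nat_lit 722757392),Int.ofNat (nat_lit 200069806),Int.ofNat (nat_lit 21817781),Int.ofNat (nat_lit 257523072),Int.ofNat (nat_lit 311710896),Int.ofNat (nat_lit 78250676),Int.negSucc (nat_lit 544296482),Int.negSucc (nat_lit 360087303),Int.negSucc (nat_lit 115280152),Int.ofNat (nat_lit 175646439),Int.negSucc (nat_lit 205768361),Int.negSucc (nat_lit 263639510),Int.negSucc (nat_lit 216232957),Int.ofNat (nat_lit 72945047),Int.ofNat (nat_lit 6281689),Int.ofNat (nat_lit 230911914),Int.ofNat (nat_lit 229026793),Int.ofNat (nat_lit 9594336),Int.ofNat (nat_lit 193373390),Int.ofNat (nat_lit 121580345),Int.ofNat (nat_lit 64679309),Int.ofNat (nat_lit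 7380101),Int.ofNat (nat_lit 159093528),Int.negSucc (nat_lit 142533110),Int.negSucc (nat_lit 106082528),Int.ofNat (nat_lit 180829993),Int.negSucc (nat_lit 22392725),Int.ofNat (nat_lit 105586137),Int.ofNat (nat_lit 263768932),Int.ofNat (nat_lit 63579875),Int.negSucc (nat_lit 283146036),Int.ofNat (nat_lit 366401614),Int.negSucc (nat_lit 142080323),Int.negSucc (nat_lit 65967184),Int.negSucc (nat_lit 102907888),Int.ofNat (nat_lit 138017332),Int.ofNat (nat_lit 536147415),Int.negSucc (nat_lit 177065492),Int.negSucc (nat_lit 939279186),Int.negSucc (nat_lit 866586472),Int.negSucc (nat_lit 641062521),Int.ofNat (nat_lit 438245359),Int.ofNat (nat_lit 223096654),Int.negSucc (nat_lit 471184315),Int.ofNat (nat_lit 392496841),Int.negSucc (nat_lit 534121918),Int.ofNat (nat_lit 2055062816),Int.negSucc (nat_lit 77482526),Int.negSucc (nat_lit 234764314),Int.negSucc (nat_lit 64964337),Int.ofNat (nat_lit 479810521),Int.ofNat (nat_lit 23223363),Int.ofNat (nat_lit 88268060),Int.negSucc (nat_lit 359578319),Int.ofNat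 (nat_lit 121189360),Int.negSucc (nat_lit 128690245),Int.negSucc (nat_lit 40427906),Int.negSucc (nat_lit 151350291),Int.ofNat (nat_lit 7096504),Int.negSucc (nat_lit 872308215),Int.negSucc (nat_lit 101293216),Int.ofNat (nat_lit 13604056),Int.negSucc (nat_lit 17263223),Int.negSucc (nat_lit 157426665),Int.negSucc (nat_lit 57716756),Int.negSucc (nat_lit 2528474),Int.negSucc (nat_lit 41042779),Int.negSucc (nat_lit 479160273),Int.ofNat (nat_lit 383054949),Int.ofNat (nat_lit 1271855928),Int.negSucc (nat_lit 58047796),Int.ofNat (nat_lit 295019192),Int.negSucc (nat_lit 466918481),Int.ofNat (nat_lit 4961543),Int.ofNat (nat_lit 27999155),Int.ofNat (nat_lit 76100964),Int.ofNat (nat_lit 37948392),Int.negSucc (nat_lit 146356014),Int.negSucc (nat_lit 104188963),Int.ofNat (nat_lit 81771741),Int.ofNat (nat_lit 225455332),Int.negSucc (nat_lit 14722945),Int.ofNat (nat_lit 56168026),Int.negSucc (nat_lit 34295515),Int.ofNat (nat_lit 28373346),Int.negSucc (nat_lit 20863380),Int.negSucc (nat_lit 402889469),Int.ofNat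 (nat_lit 15052008),Int.ofNat (nat_lit 14159629),Int.ofNat (nat_lit 697940),Int.negSucc (nat_lit 32647746),Int.ofNat (nat_lit 27914497),Int.ofNat (nat_lit 6220707),Int.negSucc (nat_lit 7255168),Int.ofNat (nat_lit 84532136)])

/-- A row. -/
noncomputable def sr6_c1_59 : List ℕ × List ℤ :=
  ([(nat_lit 3),(nat_lit 0),(nat_lit 0),(nat_lit 1),(nat_lit 0),(nat_lit 0),(nat_lit 0),(nat_lit 0),(nat_lit 0),(nat_lit 0),(nat_lit 0),(nat_lit 0)], [Int.ofNat (nat_lit 2031810233),Int.ofNat (nat_lit 715076409),Int.negSucc (nat_lit 1217283575),Int.ofNat (nat_lit 2056133230),Int.negSucc (nat_lit 336753713),Int.ofNat (nat_lit 965216467),Int.ofNat (nat_lit 624359659),Int.negSucc (nat_lit 1093062759),Int.negSucc (nat_lit 547939587),Int.ofNat (nat_lit 2498821571),Int.negSucc (nat_lit 783877681),Int.ofNat (nat_lit 66930592),Int.negSucc (nat_lit 1588730439),Int.negSucc (nat_lit 743051875),Int.ofNat (nat_lit 501865631),Int.negSucc (nat_lit 156241359),Int.negSucc (nat_lit 522875465),Int.negSucc (nat_lit 29057216),Int.ofNat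 (nat_lit 209259779),Int.negSucc (nat_lit 648706266),Int.ofNat (nat_lit 762792945),Int.negSucc (nat_lit 384458863),Int.negSucc (nat_lit 941137786),Int.ofNat (nat_lit 222207180),Int.negSucc (nat_lit 428413220),Int.ofNat (nat_lit 1516801012),Int.ofNat (nat_lit 613943721),Int.negSucc (nat_lit 479661567),Int.ofNat (nat_lit 248240346),Int.ofNat (nat_lit 412048188),Int.negSucc (nat_lit 239642360),Int.ofNat (nat_lit 796941761),Int.negSucc (nat_lit 1330184083),Int.ofNat (nat_lit 337012167),Int.negSucc (nat_lit 840815765),Int.negSucc (nat_lit 1702176890),Int.negSucc (nat_lit 115742524),Int.negSucc (nat_lit 266836439),Int.negSucc (nat_lit 1624135025),Int.negSucc (nat_lit 1889386336),Int.ofNat (nat_lit 497243042),Int.negSucc (nat_lit 1160571566),Int.ofNat (nat_lit 1237898715),Int.negSucc (nat_lit 1785598230),Int.ofNat (nat_lit 842106903),Int.negSucc (nat_lit 144174961),Int.negSucc (nat_lit 458190858),Int.negSucc (nat_lit 806013447),Int.ofNat (nat_lit 142778955),Int.negSucc (nat_lit 83290589),Int.ofNat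 (nat_lit 103535794),Int.negSucc (nat_lit 258747170),Int.ofNat (nat_lit 2241271307),Int.ofNat (nat_lit 572372235),Int.ofNat (nat_lit 289305427),Int.ofNat (nat_lit 130360718),Int.ofNat (nat_lit 508409271),Int.negSucc (nat_lit 1100741857),Int.negSucc (nat_lit 355994600),Int.ofNat (nat_lit 260228817),Int.negSucc (nat_lit 204300418),Int.negSucc (nat_lit 10507733),Int.ofNat (nat_lit 190935306),Int.negSucc (nat_lit 424485007),Int.negSucc (nat_lit 165141934),Int.ofNat (nat_lit 788842467),Int.negSucc (nat_lit 382081888),Int.negSucc (nat_lit 844571874),Int.ofNat (nat_lit 1581050551),Int.negSucc (nat_lit 1815917316),Int.ofNat (nat_lit 643787099),Int.negSucc (nat_lit 567174764),Int.ofNat (nat_lit 386578730),Int.negSucc (nat_lit 1470192251),Int.ofNat (nat_lit 747917640),Int.ofNat (nat_lit 476407616),Int.negSucc (nat_lit 770878110),Int.negSucc (nat_lit 745035759),Int.ofNat (nat_lit 2707095809),Int.negSucc (nat_lit 446182697),Int.ofNat (nat_lit 8119673),Int.ofNat (nat_lit 551374807),Int.negSucc (nat_lit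 800699742),Int.ofNat (nat_lit 286244872),Int.ofNat (nat_lit 1037966636),Int.negSucc (nat_lit 998522073),Int.ofNat (nat_lit 376021198),Int.negSucc (nat_lit 119926735),Int.negSucc (nat_lit 98154825),Int.negSucc (nat_lit 125363433),Int.negSucc (nat_lit 146513255),Int.ofNat (nat_lit 296132371),Int.ofNat (nat_lit 131268179),Int.negSucc (nat_lit 104572736),Int.negSucc (nat_lit 94659069),Int.ofNat (nat_lit 395408781),Int.negSucc (nat_lit 419164887),Int.ofNat (nat_lit 1378938624),Int.ofNat (nat_lit 239545073),Int.ofNat (nat_lit 278417654),Int.negSucc (nat_lit 302905837),Int.ofNat (nat_lit 81350098),Int.ofNat (nat_lit 484536073),Int.negSucc (nat_lit 20603508),Int.negSucc (nat_lit 263757219),Int.negSucc (nat_lit 920437820),Int.ofNat (nat_lit 616288854),Int.ofNat (nat_lit 2974005318),Int.ofNat (nat_lit 1258848057),Int.ofNat (nat_lit 576456949),Int.negSucc (nat_lit 1751604781),Int.negSucc (nat_lit 36250498),Int.negSucc (nat_lit 210862830),Int.negSucc (nat_lit 249531377),Int.negSucc (nat_lit 453170829),Int.ofNat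 (nat_lit 474068073),Int.ofNat (nat_lit 227140375),Int.negSucc (nat_lit 103708678),Int.ofNat (nat_lit 789484586),Int.negSucc (nat_lit 149223139),Int.ofNat (nat_lit 298705706),Int.negSucc (nat_lit 226981323),Int.ofNat (nat_lit 878409161),Int.negSucc (nat_lit 255809857),Int.negSucc (nat_lit 2277394920),Int.ofNat (nat_lit 90956168),Int.ofNat (nat_lit 5872920),Int.ofNat (nat_lit 29972567),Int.negSucc (nat_lit 29660957),Int.negSucc (nat_lit 126843654),Int.ofNat (nat_lit 47124129),Int.negSucc (nat_lit 80468250),Int.ofNat (nat_lit 262206768)])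

/-- A row. -/
noncomputable def sr6_c1_60 : List ℕ × List ℤ :=
  ([(nat_lit 3),(nat_lit 1),(nat_lit 0),(nat_lit 0),(nat_lit 0),(nat_lit 0),(nat_lit 0),(nat_lit 0),(nat_lit 0),(nat_lit 0),(nat_lit 0),(nat_lit 0)], [Int.negSucc (nat_lit 746979353),Int.negSucc (nat_lit 9500349395),Int.negSucc (nat_lit 1431446233),Int.negSucc (nat_lit 427476582),Int.negSucc (nat_lit 788499344),Int.ofNat (nat_lit 1586247231),Int.negSucc (nat_lit 51183259),Int.negSucc (nat_lit 1859485532),Int.ofNat (nat_lit 1761877402),Int.negSucc (nat_lit 81724319),Int.ofNat (nat_lit 1093264822),Int.ofNat (nat_lit 897411455),Int.negSucc (nat_lit 422800035),Int.ofNat (nat_lit 696578097),Int.ofNat (nat_lit 924788764),Int.ofNat (nat_lit 96422554),Int.negSucc (nat_lit 2181327818),Int.ofNat (nat_lit 520017896),Int.negSucc (nat_lit 2424702713),Int.ofNat (nat_lit 1303961361),Int.ofNat (nat_lit 1233943635),Int.negSucc (nat_lit 180882856),Int.negSucc (nat_lit 1026567373),Int.negSucc (nat_lit 1564057561),Int.negSucc (nat_lit 391721572),Int.ofNat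 (nat_lit 1402753131),Int.ofNat (nat_lit 818600891),Int.negSucc (nat_lit 1783850342),Int.ofNat (nat_lit 577513450),Int.negSucc (nat_lit 12930419),Int.negSucc (nat_lit 1181289352),Int.ofNat (nat_lit 342437867),Int.ofNat (nat_lit 864890463),Int.ofNat (nat_lit 292862925),Int.negSucc (nat_lit 1145277041),Int.negSucc (nat_lit 208399011),Int.ofNat (nat_lit 393747530),Int.ofNat (nat_lit 89200333),Int.ofNat (nat_lit 941517479),Int.ofNat (nat_lit 434237099),Int.negSucc (nat_lit 101945646),Int.negSucc (nat_lit 235729577),Int.negSucc (nat_lit 576611732),Int.ofNat (nat_lit 499067708),Int.ofNat (nat_lit 1468263892),Int.negSucc (nat_lit 2159124118),Int.ofNat (nat_lit 1408981949),Int.negSucc (nat_lit 244442602),Int.ofNat (nat_lit 366669779),Int.ofNat (nat_lit 1155289080),Int.negSucc (nat_lit 581862795),Int.ofNat (nat_lit 1536923467),Int.negSucc (nat_lit 640330617),Int.ofNat (nat_lit 580299987),Int.ofNat (nat_lit 113903567),Int.ofNat (nat_lit 546847494),Int.ofNat (nat_lit 1143947828),Int.ofNat (nat_lit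 1337678128),Int.ofNat (nat_lit 374705800),Int.ofNat (nat_lit 1792509488),Int.ofNat (nat_lit 333084106),Int.negSucc (nat_lit 621680604),Int.negSucc (nat_lit 992063059),Int.ofNat (nat_lit 1290886026),Int.negSucc (nat_lit 500954151),Int.negSucc (nat_lit 906058541),Int.ofNat (nat_lit 623361529),Int.negSucc (nat_lit 38955451),Int.negSucc (nat_lit 405911691),Int.ofNat (nat_lit 71762295),Int.negSucc (nat_lit 3885798),Int.negSucc (nat_lit 415257665),Int.negSucc (nat_lit 1037562856),Int.ofNat (nat_lit 2154955573),Int.ofNat (nat_lit 402602408),Int.ofNat (nat_lit 1704566951),Int.ofNat (nat_lit 1703870890),Int.ofNat (nat_lit 1906087892),Int.negSucc (nat_lit 2097300381),Int.ofNat (nat_lit 1938695947),Int.negSucc (nat_lit 2203744936),Int.negSucc (nat_lit 92430310),Int.ofNat (nat_lit 929713207),Int.ofNat (nat_lit 105680559),Int.negSucc (nat_lit 89275787),Int.ofNat (nat_lit 2472848420),Int.ofNat (nat_lit 3879840883),Int.ofNat (nat_lit 1184243546),Int.ofNat (nat_lit 1255262644),Int.negSucc (nat_lit 185204306),Int.negSucc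 (nat_lit 957688710),Int.ofNat (nat_lit 202260331),Int.ofNat (nat_lit 3991892883),Int.ofNat (nat_lit 578603330),Int.ofNat (nat_lit 219423149),Int.negSucc (nat_lit 867098556),Int.ofNat (nat_lit 905329680),Int.negSucc (nat_lit 948196866),Int.ofNat (nat_lit 130428240),Int.ofNat (nat_lit 228524541),Int.ofNat (nat_lit 90260629),Int.ofNat (nat_lit 510233844),Int.negSucc (nat_lit 377659530),Int.negSucc (nat_lit 553422324),Int.ofNat (nat_lit 1407142691),Int.negSucc (nat_lit 357381245),Int.negSucc (nat_lit 1910052271),Int.negSucc (nat_lit 365962473),Int.negSucc (nat_lit 362529887),Int.negSucc (nat_lit 2080140096),Int.ofNat (nat_lit 3176455365),Int.ofNat (nat_lit 5847588091),Int.negSucc (nat_lit 1999815695),Int.ofNat (nat_lit 2511363083),Int.ofNat (nat_lit 1068949216),Int.negSucc (nat_lit 2434882048),Int.negSucc (nat_lit 499950463),Int.ofNat (nat_lit 1042637730),Int.negSucc (nat_lit 779969045),Int.negSucc (nat_lit 1066967311),Int.ofNat (nat_lit 885528493),Int.negSucc (nat_lit 817197440),Int.negSucc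 (nat_lit 2023597380),Int.ofNat (nat_lit 1390966685),Int.ofNat (nat_lit 1023449662),Int.negSucc (nat_lit 763404403),Int.negSucc (nat_lit 5031364473),Int.negSucc (nat_lit 1008651927),Int.ofNat (nat_lit 485285361),Int.ofNat (nat_lit 355661075),Int.negSucc (nat_lit 1155646908),Int.negSucc (nat_lit 702007170),Int.ofNat (nat_lit 306808428),Int.ofNat (nat_lit 1206432238)])

/-- A row. -/
noncomputable def sr6_c1_61 : List ℕ × List ℤ :=
  ([(nat_lit 3),(nat_lit 1),(nat_lit 1),(nat_lit 0),(nat_lit 0),(nat_lit 0),(nat_lit 0),(nat_lit 0),(nat_lit 0),(nat_lit 0),(nat_lit 0),(nat_lit 0)], [Int.negSucc (nat_lit 2366833263),Int.negSucc (nat_lit 6709073333),Int.negSucc (nat_lit 4517033080),Int.ofNat (nat_lit 639212680),Int.negSucc (nat_lit 1846443203),Int.ofNat (nat_lit 1136027808),Int.negSucc (nat_lit 624258079),Int.negSucc (nat_lit 2872891876),Int.negSucc (nat_lit 209625180),Int.negSucc (nat_lit 2756777528),Int.ofNat (nat_lit 485714960),Int.ofNat (nat_lit 1973060068),Int.negSucc (nat_lit 2743675864),Int.ofNat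 (nat_lit 1046770923),Int.ofNat (nat_lit 256454236),Int.negSucc (nat_lit 519789394),Int.negSucc (nat_lit 1563147837),Int.negSucc (nat_lit 1314108441),Int.ofNat (nat_lit 61605682),Int.ofNat (nat_lit 509082648),Int.ofNat (nat_lit 2831286451),Int.negSucc (nat_lit 2483917035),Int.ofNat (nat_lit 1676316756),Int.negSucc (nat_lit 1496100469),Int.negSucc (nat_lit 305177058),Int.ofNat (nat_lit 1812395713),Int.ofNat (nat_lit 23551389),Int.negSucc (nat_lit 602393907),Int.negSucc (nat_lit 1666111260),Int.negSucc (nat_lit 4136812),Int.negSucc (nat_lit 1636730935),Int.ofNat (nat_lit 346579610),Int.ofNat (nat_lit 535783738),Int.ofNat (nat_lit 197578650),Int.ofNat (nat_lit 193882000),Int.negSucc (nat_lit 1047892324),Int.ofNat (nat_lit 967313184),Int.negSucc (nat_lit 581571306),Int.negSucc (nat_lit 852180953),Int.negSucc (nat_lit 836587082),Int.negSucc (nat_lit 1126498917),Int.negSucc (nat_lit 1084839955),Int.negSucc (nat_lit 655513066),Int.negSucc (nat_lit 1028239735),Int.ofNat (nat_lit 1670401001),Int.ofNat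 (nat_lit 478596108),Int.negSucc (nat_lit 1243535149),Int.negSucc (nat_lit 287229030),Int.ofNat (nat_lit 802162286),Int.ofNat (nat_lit 527234576),Int.ofNat (nat_lit 413572169),Int.negSucc (nat_lit 63254140),Int.ofNat (nat_lit 1414251266),Int.ofNat (nat_lit 264110586),Int.ofNat (nat_lit 569362728),Int.ofNat (nat_lit 118200612),Int.ofNat (nat_lit 723422960),Int.ofNat (nat_lit 315470004),Int.ofNat (nat_lit 85349285),Int.ofNat (nat_lit 142414958),Int.negSucc (nat_lit 595622295),Int.negSucc (nat_lit 119711589),Int.negSucc (nat_lit 710506215),Int.ofNat (nat_lit 1456543950),Int.ofNat (nat_lit 154968518),Int.negSucc (nat_lit 234651319),Int.ofNat (nat_lit 189549068),Int.ofNat (nat_lit 569005827),Int.negSucc (nat_lit 204149264),Int.negSucc (nat_lit 411848643),Int.ofNat (nat_lit 131267908),Int.negSucc (nat_lit 35021543),Int.negSucc (nat_lit 615953453),Int.ofNat (nat_lit 51875789),Int.ofNat (nat_lit 1116872320),Int.ofNat (nat_lit 1777149717),Int.ofNat (nat_lit 255514298),Int.negSucc (nat_lit 984411603),Int.ofNat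 (nat_lit 103641354),Int.ofNat (nat_lit 368678877),Int.negSucc (nat_lit 1383103780),Int.ofNat (nat_lit 767940661),Int.ofNat (nat_lit 75781319),Int.ofNat (nat_lit 424976744),Int.negSucc (nat_lit 519862493),Int.ofNat (nat_lit 3094825507),Int.ofNat (nat_lit 1402222850),Int.ofNat (nat_lit 1035725937),Int.ofNat (nat_lit 655238721),Int.ofNat (nat_lit 276975354),Int.negSucc (nat_lit 106613552),Int.ofNat (nat_lit 404655968),Int.ofNat (nat_lit 3508704996),Int.ofNat (nat_lit 541051213),Int.ofNat (nat_lit 3340013042),Int.negSucc (nat_lit 827852995),Int.ofNat (nat_lit 19912338),Int.ofNat (nat_lit 228429834),Int.ofNat (nat_lit 121735944),Int.ofNat (nat_lit 884737110),Int.ofNat (nat_lit 108633734),Int.ofNat (nat_lit 666882222),Int.ofNat (nat_lit 109643017),Int.ofNat (nat_lit 506888674),Int.ofNat (nat_lit 377518609),Int.negSucc (nat_lit 1359253404),Int.negSucc (nat_lit 561492738),Int.ofNat (nat_lit 1692763886),Int.ofNat (nat_lit 471036813),Int.negSucc (nat_lit 484201153),Int.ofNat (nat_lit 2043800500),Int.ofNat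 (nat_lit 3048042413),Int.negSucc (nat_lit 1493333455),Int.ofNat (nat_lit 372284150),Int.negSucc (nat_lit 30405665),Int.ofNat (nat_lit 2752327005),Int.negSucc (nat_lit 1606096920),Int.ofNat (nat_lit 186799982),Int.negSucc (nat_lit 67555141),Int.ofNat (nat_lit 107176336),Int.ofNat (nat_lit 866890187),Int.negSucc (nat_lit 96188293),Int.ofNat (nat_lit 99444390),Int.ofNat (nat_lit 369103812),Int.negSucc (nat_lit 655708060),Int.negSucc (nat_lit 825884393),Int.negSucc (nat_lit 357228235),Int.ofNat (nat_lit 519422394),Int.negSucc (nat_lit 1341458590),Int.ofNat (nat_lit 5087702),Int.negSucc (nat_lit 16092398),Int.negSucc (nat_lit 167184903),Int.ofNat (nat_lit 16755505),Int.negSucc (nat_lit 35263067),Int.ofNat (nat_lit 153429367)])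

/-- A row. -/
noncomputable def sr6_c1_62 : List ℕ × List ℤ :=
  ([(nat_lit 3),(nat_lit 3),(nat_lit 0),(nat_lit 0),(nat_lit 0),(nat_lit 0),(nat_lit 0),(nat_lit 0),(nat_lit 0),(nat_lit 0),(nat_lit 0),(nat_lit 0)], [Int.ofNat (nat_lit 3970948914),Int.ofNat (nat_lit 8945110628),Int.ofNat (nat_lit 5177868795),Int.negSucc (nat_lit 505965965),Int.negSucc (nat_lit 3571539638),Int.negSucc (nat_lit 4321681367),Int.ofNat (nat_lit 3037201889),Int.ofNat (nat_lit 1387708414),Int.negSucc (nat_lit 1539160855),Int.negSucc (nat_lit 6178038531),Int.ofNat (nat_lit 701720623),Int.ofNat (nat_lit 369163492),Int.negSucc (nat_lit 1031091593),Int.ofNat (nat_lit 692659419),Int.negSucc (nat_lit 400350294),Int.ofNat (nat_lit 1686171148),Int.negSucc (nat_lit 2784336886),Int.negSucc (nat_lit 1364952555),Int.ofNat (nat_lit 897674598),Int.ofNat (nat_lit 1000084313),Int.ofNat (nat_lit 30699906),Int.ofNat (nat_lit 494025906),Int.ofNat (nat_lit 1920117873),Int.ofNat (nat_lit 1057983636),Int.ofNat (nat_lit 239806859),Int.negSucc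 (nat_lit 2141706124),Int.negSucc (nat_lit 1571736564),Int.ofNat (nat_lit 3080918403),Int.negSucc (nat_lit 1823862885),Int.negSucc (nat_lit 1365815166),Int.ofNat (nat_lit 2686495292),Int.negSucc (nat_lit 2592195270),Int.ofNat (nat_lit 1140769444),Int.negSucc (nat_lit 176327099),Int.ofNat (nat_lit 968539061),Int.ofNat (nat_lit 1670782089),Int.ofNat (nat_lit 761744900),Int.ofNat (nat_lit 2123553165),Int.negSucc (nat_lit 886259872),Int.ofNat (nat_lit 313373015),Int.negSucc (nat_lit 1079134151),Int.negSucc (nat_lit 104619069),Int.ofNat (nat_lit 653732865),Int.ofNat (nat_lit 271800521),Int.negSucc (nat_lit 1138345065),Int.negSucc (nat_lit 505081413),Int.negSucc (nat_lit 2954721842),Int.negSucc (nat_lit 3670788690),Int.negSucc (nat_lit 1170627312),Int.negSucc (nat_lit 742944399),Int.negSucc (nat_lit 589884341),Int.negSucc (nat_lit 3313659953),Int.ofNat (nat_lit 196830017),Int.negSucc (nat_lit 730018581),Int.negSucc (nat_lit 754252609),Int.negSucc (nat_lit 2582267691),Int.negSucc (nat_lit 1238433374),Int.negSucc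 (nat_lit 1604825172),Int.ofNat (nat_lit 1537745675),Int.negSucc (nat_lit 2509895268),Int.ofNat (nat_lit 3406066434),Int.ofNat (nat_lit 35892004),Int.ofNat (nat_lit 3269171884),Int.ofNat (nat_lit 738838522),Int.ofNat (nat_lit 943383711),Int.ofNat (nat_lit 1555735861),Int.negSucc (nat_lit 683293722),Int.ofNat (nat_lit 1601523568),Int.negSucc (nat_lit 1576951637),Int.negSucc (nat_lit 698516877),Int.negSucc (nat_lit 809636268),Int.ofNat (nat_lit 279269126),Int.ofNat (nat_lit 381949453),Int.negSucc (nat_lit 720320509),Int.ofNat (nat_lit 1036152453),Int.negSucc (nat_lit 1816127695),Int.negSucc (nat_lit 1239899106),Int.negSucc (nat_lit 2888832455),Int.negSucc (nat_lit 862619849),Int.negSucc (nat_lit 902694110),Int.ofNat (nat_lit 2432358589),Int.ofNat (nat_lit 794336303),Int.ofNat (nat_lit 378814557),Int.negSucc (nat_lit 2268327570),Int.negSucc (nat_lit 2483048088),Int.ofNat (nat_lit 2562762651),Int.negSucc (nat_lit 1029531964),Int.negSucc (nat_lit 1132287940),Int.negSucc (nat_lit 538753346),Int.negSucc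 (nat_lit 2993820212),Int.ofNat (nat_lit 2403997892),Int.negSucc (nat_lit 1612941863),Int.negSucc (nat_lit 3593360591),Int.ofNat (nat_lit 953057433),Int.ofNat (nat_lit 2545201166),Int.negSucc (nat_lit 458135704),Int.negSucc (nat_lit 1580179917),Int.negSucc (nat_lit 1008381670),Int.ofNat (nat_lit 1980835146),Int.ofNat (nat_lit 5954749159),Int.ofNat (nat_lit 2821185200),Int.ofNat (nat_lit 594339216),Int.ofNat (nat_lit 169086782),Int.ofNat (nat_lit 4916161849),Int.negSucc (nat_lit 1994856475),Int.ofNat (nat_lit 397165486),Int.ofNat (nat_lit 536948887),Int.ofNat (nat_lit 37205713),Int.negSucc (nat_lit 1023379663),Int.ofNat (nat_lit 2092236492),Int.ofNat (nat_lit 174527649),Int.negSucc (nat_lit 7306340594),Int.ofNat (nat_lit 1894618323),Int.negSucc (nat_lit 2752943863),Int.negSucc (nat_lit 1885485204),Int.ofNat (nat_lit 4728699072),Int.negSucc (nat_lit 2481227639),Int.negSucc (nat_lit 1746457168),Int.ofNat (nat_lit 4284207466),Int.ofNat (nat_lit 3470186640),Int.negSucc (nat_lit 4771226223),Int.ofNat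 (nat_lit 1745710460),Int.ofNat (nat_lit 1863992778),Int.negSucc (nat_lit 945486782),Int.ofNat (nat_lit 419446658),Int.negSucc (nat_lit 1275768366),Int.ofNat (nat_lit 3573137520),Int.ofNat (nat_lit 1254611876),Int.negSucc (nat_lit 2275401243),Int.negSucc (nat_lit 1027283516),Int.negSucc (nat_lit 6131736071),Int.negSucc (nat_lit 127043717),Int.negSucc (nat_lit 368964218),Int.ofNat (nat_lit 69685564),Int.ofNat (nat_lit 244591312),Int.ofNat (nat_lit 1332783253)])

/-- A row. -/
noncomputable def sr6_c1_63 : List ℕ × List ℤ :=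
  ([(nat_lit 4),(nat_lit 0),(nat_lit 0),(nat_lit 1),(nat_lit 0),(nat_lit 0),(nat_lit 0),(nat_lit 0),(nat_lit 0),(nat_lit 0),(nat_lit 0),(nat_lit 0)], [Int.negSucc (nat_lit 601005904),Int.negSucc (nat_lit 483175414),Int.negSucc (nat_lit 248008544),Int.negSucc (nat_lit 1676884632),Int.ofNat (nat_lit 1439890497),Int.ofNat (nat_lit 57596611),Int.negSucc (nat_lit 645236572),Int.ofNat (nat_lit 862237018),Int.negSucc (nat_lit 547103029),Int.negSucc (nat_lit 1093649708),Int.ofNat (nat_lit 309271211),Int.ofNat (nat_lit 47838894),Int.ofNat (nat_lit 809408091),Int.ofNat (nat_lit 471584451),Int.negSucc (nat_lit 672677548),Int.ofNat (nat_lit 8990976),Int.ofNat (nat_lit 310162776),Int.negSucc (nat_lit 16635376),Int.negSucc (nat_lit 295234951),Int.ofNat (nat_lit 539835034),Int.negSucc (nat_lit 397584988),Int.negSucc (nat_lit 196455895),Int.ofNat (nat_lit 677424423),Int.negSucc (nat_lit 540976459),Int.ofNat (nat_lit 490225949),Int.negSucc (nat_lit 500024234),Int.negSucc (nat_lit 556731824),Int.ofNat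 (nat_lit 217501752),Int.negSucc (nat_lit 267908413),Int.negSucc (nat_lit 300946183),Int.negSucc (nat_lit 172991219),Int.negSucc (nat_lit 568988967),Int.ofNat (nat_lit 907043578),Int.negSucc (nat_lit 293976361),Int.ofNat (nat_lit 336259586),Int.ofNat (nat_lit 1264610920),Int.ofNat (nat_lit 533931342),Int.ofNat (nat_lit 202454597),Int.ofNat (nat_lit 855315756),Int.ofNat (nat_lit 852215598),Int.negSucc (nat_lit 628962625),Int.ofNat (nat_lit 440588031),Int.negSucc (nat_lit 796614970),Int.ofNat (nat_lit 833643084),Int.negSucc (nat_lit 288681600),Int.ofNat (nat_lit 261746660),Int.ofNat (nat_lit 531207800),Int.ofNat (nat_lit 560983854),Int.ofNat (nat_lit 28276),Int.negSucc (nat_lit 743823),Int.negSucc (nat_lit 164024521),Int.ofNat (nat_lit 221307218),Int.negSucc (nat_lit 879658637),Int.negSucc (nat_lit 414247127),Int.ofNat (nat_lit 7935115),Int.ofNat (nat_lit 34946942),Int.negSucc (nat_lit 92323171),Int.ofNat (nat_lit 842187201),Int.ofNat (nat_lit 165202561),Int.negSucc (nat_lit 20761015),Int.ofNat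 (nat_lit 117782029),Int.ofNat (nat_lit 86864921),Int.negSucc (nat_lit 158284689),Int.negSucc (nat_lit 66168186),Int.negSucc (nat_lit 190985709),Int.negSucc (nat_lit 587473794),Int.ofNat (nat_lit 590141907),Int.ofNat (nat_lit 314927289),Int.negSucc (nat_lit 715220997),Int.ofNat (nat_lit 1490455744),Int.negSucc (nat_lit 401055309),Int.ofNat (nat_lit 374318151),Int.negSucc (nat_lit 273312632),Int.ofNat (nat_lit 741761400),Int.negSucc (nat_lit 493117330),Int.ofNat (nat_lit 21555363),Int.ofNat (nat_lit 431842159),Int.ofNat (nat_lit 617610137),Int.negSucc (nat_lit 2416876569),Int.ofNat (nat_lit 376278766),Int.negSucc (nat_lit 738723828),Int.negSucc (nat_lit 404981240),Int.ofNat (nat_lit 426038255),Int.negSucc (nat_lit 777665033),Int.negSucc (nat_lit 264444942),Int.ofNat (nat_lit 1336117738),Int.negSucc (nat_lit 46607753),Int.negSucc (nat_lit 126603081),Int.negSucc (nat_lit 109353003),Int.ofNat (nat_lit 37906807),Int.ofNat (nat_lit 70922846),Int.negSucc (nat_lit 298034784),Int.negSucc (nat_lit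 95969896),Int.ofNat (nat_lit 18592052),Int.negSucc (nat_lit 51290379),Int.negSucc (nat_lit 292243609),Int.ofNat (nat_lit 384824730),Int.negSucc (nat_lit 792980691),Int.negSucc (nat_lit 210866135),Int.negSucc (nat_lit 50715318),Int.ofNat (nat_lit 196043508),Int.ofNat (nat_lit 50871277),Int.negSucc (nat_lit 250821959),Int.ofNat (nat_lit 59194332),Int.ofNat (nat_lit 506107735),Int.ofNat (nat_lit 211853753),Int.negSucc (nat_lit 527565046),Int.negSucc (nat_lit 766102622),Int.negSucc (nat_lit 677290481),Int.negSucc (nat_lit 138370732),Int.ofNat (nat_lit 1426927176),Int.ofNat (nat_lit 36914039),Int.ofNat (nat_lit 122296781),Int.ofNat (nat_lit 111408103),Int.ofNat (nat_lit 270294880),Int.negSucc (nat_lit 251796494),Int.negSucc (nat_lit 161676664),Int.negSucc (nat_lit 8296009),Int.negSucc (nat_lit 397157140),Int.ofNat (nat_lit 96278913),Int.negSucc (nat_lit 166980643),Int.ofNat (nat_lit 93487149),Int.negSucc (nat_lit 542356981),Int.ofNat (nat_lit 280740292),Int.ofNat (nat_lit 1408217220),Int.negSucc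 (nat_lit 259569012),Int.ofNat (nat_lit 1353422),Int.negSucc (nat_lit 19598387),Int.ofNat (nat_lit 28764878),Int.ofNat (nat_lit 127741965),Int.negSucc (nat_lit 66263046),Int.ofNat (nat_lit 42407801),Int.negSucc (nat_lit 328886237),Int.negSucc (nat_lit 4586603),Int.negSucc (nat_lit 4324011),Int.ofNat (nat_lit 4076104),Int.ofNat (nat_lit 55315825)])

/-- A row. -/
noncomputable def sr6_c1_64 : List ℕ × List ℤ :=
  ([(nat_lit 4),(nat_lit 1),(nat_lit 0),(nat_lit 0),(nat_lit 0),(nat_lit 0),(nat_lit 0),(nat_lit 0),(nat_lit 0),(nat_lit 0),(nat_lit 0),(nat_lit 0)], [Int.negSucc (nat_lit 1987204281),Int.negSucc (nat_lit 6316980253),Int.negSucc (nat_lit 482943856),Int.negSucc (nat_lit 2001738739),Int.ofNat (nat_lit 2732402953),Int.negSucc (nat_lit 353089349),Int.negSucc (nat_lit 674663225),Int.ofNat (nat_lit 1672733825),Int.ofNat (nat_lit 633973428),Int.ofNat (nat_lit 5200604247),Int.negSucc (nat_lit 1260827245),Int.negSucc (nat_lit 919629819),Int.ofNat (nat_lit 1970338142),Int.ofNat (nat_lit 17698386),Int.negSucc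 (nat_lit 714518170),Int.negSucc (nat_lit 1339193501),Int.ofNat (nat_lit 4838676391),Int.ofNat (nat_lit 2043692575),Int.ofNat (nat_lit 1487247625),Int.ofNat (nat_lit 44040561),Int.negSucc (nat_lit 1869651990),Int.ofNat (nat_lit 1243089880),Int.ofNat (nat_lit 61399218),Int.ofNat (nat_lit 2838497310),Int.negSucc (nat_lit 913297684),Int.negSucc (nat_lit 1760937305),Int.ofNat (nat_lit 1648484327),Int.negSucc (nat_lit 3561312586),Int.ofNat (nat_lit 1080796621),Int.ofNat (nat_lit 1769575416),Int.ofNat (nat_lit 2436435563),Int.ofNat (nat_lit 1171657959),Int.negSucc (nat_lit 1688104321),Int.negSucc (nat_lit 589048332),Int.ofNat (nat_lit 259811919),Int.ofNat (nat_lit 7694776),Int.negSucc (nat_lit 1053005742),Int.negSucc (nat_lit 1003445412),Int.ofNat (nat_lit 1674145319),Int.ofNat (nat_lit 272733312),Int.negSucc (nat_lit 989691211),Int.ofNat (nat_lit 1321762604),Int.negSucc (nat_lit 593631051),Int.ofNat (nat_lit 1087803744),Int.negSucc (nat_lit 283117457),Int.ofNat (nat_lit 1969075090),Int.negSucc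 (nat_lit 19636456),Int.negSucc (nat_lit 1024183672),Int.negSucc (nat_lit 584219010),Int.negSucc (nat_lit 762862735),Int.ofNat (nat_lit 70994097),Int.negSucc (nat_lit 1371692470),Int.negSucc (nat_lit 1835828234),Int.ofNat (nat_lit 641621707),Int.negSucc (nat_lit 372181584),Int.ofNat (nat_lit 1251502532),Int.ofNat (nat_lit 624789460),Int.ofNat (nat_lit 9855561),Int.negSucc (nat_lit 2111184400),Int.negSucc (nat_lit 962042111),Int.negSucc (nat_lit 1618465493),Int.ofNat (nat_lit 888767267),Int.negSucc (nat_lit 425572739),Int.negSucc (nat_lit 634143494),Int.ofNat (nat_lit 482184383),Int.negSucc (nat_lit 776092947),Int.ofNat (nat_lit 1527179056),Int.ofNat (nat_lit 1596082487),Int.ofNat (nat_lit 390409537),Int.ofNat (nat_lit 1554099883),Int.negSucc (nat_lit 703436525),Int.ofNat (nat_lit 753930459),Int.ofNat (nat_lit 346809499),Int.ofNat (nat_lit 1248998765),Int.negSucc (nat_lit 1122377249),Int.negSucc (nat_lit 125333759),Int.ofNat (nat_lit 511944847),Int.ofNat (nat_lit 1598207582),Int.ofNat (nat_lit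 1003229304),Int.ofNat (nat_lit 469499484),Int.negSucc (nat_lit 693679366),Int.negSucc (nat_lit 614395011),Int.negSucc (nat_lit 2300532882),Int.ofNat (nat_lit 2062710496),Int.ofNat (nat_lit 906051114),Int.negSucc (nat_lit 1452579154),Int.negSucc (nat_lit 4175968202),Int.ofNat (nat_lit 443569725),Int.ofNat (nat_lit 3355945204),Int.negSucc (nat_lit 606974286),Int.negSucc (nat_lit 1663069730),Int.negSucc (nat_lit 1843859518),Int.ofNat (nat_lit 3476643408),Int.negSucc (nat_lit 1591377291),Int.negSucc (nat_lit 651980087),Int.negSucc (nat_lit 718780426),Int.negSucc (nat_lit 180780484),Int.negSucc (nat_lit 1523289492),Int.ofNat (nat_lit 1848401736),Int.negSucc (nat_lit 3637251436),Int.ofNat (nat_lit 276902372),Int.ofNat (nat_lit 2839632473),Int.negSucc (nat_lit 408463306),Int.ofNat (nat_lit 253386216),Int.negSucc (nat_lit 495996662),Int.negSucc (nat_lit 123090153),Int.negSucc (nat_lit 449778922),Int.ofNat (nat_lit 193865742),Int.negSucc (nat_lit 626821188),Int.negSucc (nat_lit 2215591432),Int.ofNat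 (nat_lit 550572095),Int.ofNat (nat_lit 4496819227),Int.negSucc (nat_lit 946063464),Int.negSucc (nat_lit 1049776379),Int.ofNat (nat_lit 905301951),Int.ofNat (nat_lit 1427488626),Int.negSucc (nat_lit 921151231),Int.ofNat (nat_lit 155948131),Int.ofNat (nat_lit 711086145),Int.ofNat (nat_lit 3580894553),Int.negSucc (nat_lit 590006755),Int.ofNat (nat_lit 1398850209),Int.ofNat (nat_lit 152775386),Int.negSucc (nat_lit 1249118562),Int.ofNat (nat_lit 1291373637),Int.ofNat (nat_lit 437314047),Int.ofNat (nat_lit 4795194438),Int.ofNat (nat_lit 2091043308),Int.negSucc (nat_lit 1622331022),Int.negSucc (nat_lit 518204616),Int.ofNat (nat_lit 2481314384),Int.ofNat (nat_lit 2182388379),Int.negSucc (nat_lit 1461063932),Int.negSucc (nat_lit 3065182563),Int.ofNat (nat_lit 224315634),Int.negSucc (nat_lit 433614356),Int.ofNat (nat_lit 172588747),Int.ofNat (nat_lit 279900455)])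

/-- A row. -/
noncomputable def sr6_c1_65 : List ℕ × List ℤ :=
  ([(nat_lit 5),(nat_lit 1),(nat_lit 0),(nat_lit 0),(nat_lit 0),(nat_lit 0),(nat_lit 0),(nat_lit 0),(nat_lit 0),(nat_lit 0),(nat_lit 0),(nat_lit 0)], [Int.ofNat (nat_lit 1462090856),Int.ofNat (nat_lit 7383394909),Int.ofNat (nat_lit 2327543681),Int.ofNat (nat_lit 1130133048),Int.negSucc (nat_lit 690249725),Int.negSucc (nat_lit 833269299),Int.negSucc (nat_lit 104198289),Int.ofNat (nat_lit 433000856),Int.negSucc (nat_lit 99691014),Int.negSucc (nat_lit 1186483815),Int.ofNat (nat_lit 150066856),Int.negSucc (nat_lit 593006076),Int.negSucc (nat_lit 1256390),Int.negSucc (nat_lit 716509457),Int.ofNat (nat_lit 16912909),Int.ofNat (nat_lit 1017134169),Int.negSucc (nat_lit 1472336332),Int.negSucc (nat_lit 922260569),Int.ofNat (nat_lit 536687760),Int.negSucc (nat_lit 834191976),Int.ofNat (nat_lit 175780405),Int.negSucc (nat_lit 769872),Int.negSucc (nat_lit 246734690),Int.negSucc (nat_lit 639266341),Int.ofNat (nat_lit 601906519),Int.negSucc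 (nat_lit 373306164),Int.negSucc (nat_lit 1171142522),Int.ofNat (nat_lit 2900228873),Int.negSucc (nat_lit 449882123),Int.negSucc (nat_lit 381641028),Int.negSucc (nat_lit 105145121),Int.negSucc (nat_lit 984023657),Int.ofNat (nat_lit 473804050),Int.ofNat (nat_lit 281493924),Int.negSucc (nat_lit 175428289),Int.negSucc (nat_lit 201393287),Int.negSucc (nat_lit 277093157),Int.ofNat (nat_lit 516412415),Int.negSucc (nat_lit 744185046),Int.negSucc (nat_lit 325467475),Int.ofNat (nat_lit 735440342),Int.negSucc (nat_lit 15947406),Int.ofNat (nat_lit 760603364),Int.negSucc (nat_lit 682596632),Int.negSucc (nat_lit 1126679088),Int.negSucc (nat_lit 805825359),Int.ofNat (nat_lit 88578894),Int.ofNat (nat_lit 489730973),Int.negSucc (nat_lit 287024739),Int.negSucc (nat_lit 273886265),Int.ofNat (nat_lit 60735291),Int.ofNat (nat_lit 733165346),Int.ofNat (nat_lit 959611956),Int.negSucc (nat_lit 534077293),Int.ofNat (nat_lit 249197729),Int.negSucc (nat_lit 703591437),Int.negSucc (nat_lit 1068488137),Int.negSucc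 (nat_lit 418363727),Int.ofNat (nat_lit 940914895),Int.ofNat (nat_lit 28611114),Int.ofNat (nat_lit 981483304),Int.negSucc (nat_lit 153033629),Int.ofNat (nat_lit 599027706),Int.negSucc (nat_lit 767088012),Int.negSucc (nat_lit 269281553),Int.ofNat (nat_lit 982253397),Int.negSucc (nat_lit 970250526),Int.negSucc (nat_lit 1187161703),Int.ofNat (nat_lit 215268298),Int.negSucc (nat_lit 746608203),Int.ofNat (nat_lit 250921654),Int.negSucc (nat_lit 320802767),Int.ofNat (nat_lit 428562962),Int.negSucc (nat_lit 893437604),Int.ofNat (nat_lit 303167013),Int.negSucc (nat_lit 1602859894),Int.negSucc (nat_lit 880576644),Int.negSucc (nat_lit 990311296),Int.ofNat (nat_lit 376837074),Int.negSucc (nat_lit 689329290),Int.ofNat (nat_lit 2495976443),Int.ofNat (nat_lit 36948770),Int.ofNat (nat_lit 1277500730),Int.negSucc (nat_lit 289715293),Int.negSucc (nat_lit 697355866),Int.negSucc (nat_lit 1798106786),Int.ofNat (nat_lit 214114399),Int.negSucc (nat_lit 446569347),Int.negSucc (nat_lit 1957345380),Int.ofNat (nat_lit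 307123098),Int.ofNat (nat_lit 1204897395),Int.ofNat (nat_lit 974031517),Int.negSucc (nat_lit 4105649611),Int.negSucc (nat_lit 111183241),Int.negSucc (nat_lit 132969392),Int.ofNat (nat_lit 952411811),Int.negSucc (nat_lit 394366760),Int.ofNat (nat_lit 1487406599),Int.negSucc (nat_lit 1314682032),Int.ofNat (nat_lit 1889023560),Int.negSucc (nat_lit 121062943),Int.negSucc (nat_lit 2271758429),Int.ofNat (nat_lit 277205083),Int.negSucc (nat_lit 169625533),Int.negSucc (nat_lit 577865062),Int.ofNat (nat_lit 1177490135),Int.ofNat (nat_lit 1203445504),Int.negSucc (nat_lit 662072818),Int.negSucc (nat_lit 28793233),Int.ofNat (nat_lit 1738548365),Int.negSucc (nat_lit 2640523971),Int.negSucc (nat_lit 4650286800),Int.ofNat (nat_lit 1494310336),Int.negSucc (nat_lit 334500096),Int.negSucc (nat_lit 823740804),Int.negSucc (nat_lit 72428691),Int.ofNat (nat_lit 1652265826),Int.negSucc (nat_lit 460945411),Int.negSucc (nat_lit 259093946),Int.negSucc (nat_lit 2289640612),Int.ofNat (nat_lit 9886949),Int.negSucc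 (nat_lit 660867027),Int.ofNat (nat_lit 814773928),Int.ofNat (nat_lit 57918027),Int.negSucc (nat_lit 1538665341),Int.ofNat (nat_lit 678134955),Int.negSucc (nat_lit 1400293011),Int.negSucc (nat_lit 1049196579),Int.ofNat (nat_lit 1441130040),Int.ofNat (nat_lit 126058496),Int.negSucc (nat_lit 1211512753),Int.negSucc (nat_lit 1321390820),Int.ofNat (nat_lit 1386224097),Int.ofNat (nat_lit 1942770366),Int.negSucc (nat_lit 353747230),Int.ofNat (nat_lit 410812289),Int.negSucc (nat_lit 386852614),Int.negSucc (nat_lit 321354132),Int.ofNat (nat_lit 39346393)])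

/-- A part of a triangular factor. -/
noncomputable def sr6_c1 : Rows :=
  [sr6_c1_0,
   sr6_c1_1,
   sr6_c1_2,
   sr6_c1_3,
   sr6_c1_4,
   sr6_c1_5,
   sr6_c1_6,
   sr6_c1_7,
   sr6_c1_8,
   sr6_c1_9,
   sr6_c1_10,
   sr6_c1_11,
   sr6_c1_12,
   sr6_c1_13,
   sr6_c1_14,
   sr6_c1_15,
   sr6_c1_16,
   sr6_c1_17,
   sr6_c1_18,
   sr6_c1_19,
   sr6_c1_20,
   sr6_c1_21,
   sr6_c1_22,
   sr6_c1_23,
   sr6_c1_24,
   sr6_c1_25,
   sr6_c1_26,
   sr6_c1_27,
   sr6_c1_28,
   sr6_c1_29,
   sr6_c1_30,
   sr6_c1_31,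
   sr6_c1_32,
   sr6_c1_33,
   sr6_c1_34,
   sr6_c1_35,
   sr6_c1_36,
   sr6_c1_37,
   sr6_c1_38,
   sr6_c1_39,
   sr6_c1_40,
   sr6_c1_41,
   sr6_c1_42,
   sr6_c1_43,
   sr6_c1_44,
   sr6_c1_45,
   sr6_c1_46,
   sr6_c1_47,
   sr6_c1_48,
   sr6_c1_49,
   sr6_c1_50,
   sr6_c1_51,
   sr6_c1_52,
   sr6_c1_53,
   sr6_c1_54,
   sr6_c1_55,
   sr6_c1_56,
   sr6_c1_57,
   sr6_c1_58,
   sr6_c1_59,
   sr6_c1_60,
   sr6_c1_61,
   sr6_c1_62,
   sr6_c1_63,
   sr6_c1_64,
   sr6_c1_65]

/-- A row. -/
noncomputable def sr6_c2_0 : List ℕ × List ℤ :=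
  ([(nat_lit 0),(nat_lit 0),(nat_lit 0),(nat_lit 0),(nat_lit 0),(nat_lit 0),(nat_lit 0),(nat_lit 0),(nat_lit 0),(nat_lit 0),(nat_lit 0),(nat_lit 0)], [Int.ofNat (nat_lit 134443941),Int.ofNat (nat_lit 67397041),Int.ofNat (nat_lit 496923194),Int.ofNat (nat_lit 413206573),Int.negSucc (nat_lit 592556161),Int.ofNat (nat_lit 46938371),Int.ofNat (nat_lit 25451327),Int.ofNat (nat_lit 202496690),Int.negSucc (nat_lit 61640587),Int.negSucc (nat_lit 35232579),Int.ofNat (nat_lit 114488675),Int.negSucc (nat_lit 140087874),Int.ofNat (nat_lit 85036852),Int.ofNat (nat_lit 58459290),Int.negSucc (nat_lit 11037267),Int.ofNat (nat_lit 157117052),Int.negSucc (nat_lit 69943016),Int.negSucc (nat_lit 41728288),Int.negSucc (nat_lit 26509745),Int.ofNat (nat_lit 57521674),Int.negSucc (nat_lit 191733718),Int.ofNat (nat_lit 216453489),Int.negSucc (nat_lit 88277167),Int.ofNat (nat_lit 110064283),Int.ofNat (nat_lit 51409331),Int.negSucc (nat_lit 68340093),Int.negSucc (nat_lit 89744753),Int.ofNat (nat_lit 155130176),Int.negSucc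 (nat_lit 10836651),Int.ofNat (nat_lit 18354018),Int.ofNat (nat_lit 172253068),Int.negSucc (nat_lit 41178646),Int.negSucc (nat_lit 37533989),Int.ofNat (nat_lit 31886926),Int.negSucc (nat_lit 144771922),Int.negSucc (nat_lit 164431867),Int.negSucc (nat_lit 62397122),Int.ofNat (nat_lit 13919197),Int.ofNat (nat_lit 29711647),Int.ofNat (nat_lit 1815921),Int.ofNat (nat_lit 69025406),Int.ofNat (nat_lit 39363733),Int.ofNat (nat_lit 46682527),Int.ofNat (nat_lit 11567770),Int.negSucc (nat_lit 92807116),Int.negSucc (nat_lit 47575626),Int.negSucc (nat_lit 65944953),Int.ofNat (nat_lit 13740729),Int.negSucc (nat_lit 128660696),Int.negSucc (nat_lit 19205336),Int.ofNat (nat_lit 16391418),Int.ofNat (nat_lit 50583111),Int.negSucc (nat_lit 13930049),Int.ofNat (nat_lit 52827665),Int.negSucc (nat_lit 116210497),Int.negSucc (nat_lit 73795362),Int.negSucc (nat_lit 16328553),Int.negSucc (nat_lit 96137035),Int.ofNat (nat_lit 44207983),Int.negSucc (nat_lit 72086669),Int.negSucc (nat_lit 4642113),Int.ofNat (nat_lit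 36450363),Int.ofNat (nat_lit 14478333),Int.ofNat (nat_lit 12222023),Int.ofNat (nat_lit 15714933),Int.ofNat (nat_lit 54670882),Int.negSucc (nat_lit 99345702),Int.ofNat (nat_lit 2467541),Int.negSucc (nat_lit 130786908),Int.negSucc (nat_lit 80612361),Int.ofNat (nat_lit 34499398),Int.ofNat (nat_lit 8360953),Int.negSucc (nat_lit 30808333),Int.negSucc (nat_lit 18383640),Int.negSucc (nat_lit 82864111),Int.negSucc (nat_lit 66800722),Int.negSucc (nat_lit 87371135),Int.ofNat (nat_lit 31170595),Int.negSucc (nat_lit 98496529),Int.negSucc (nat_lit 9909418),Int.ofNat (nat_lit 10962532),Int.ofNat (nat_lit 27594683),Int.negSucc (nat_lit 20745798),Int.ofNat (nat_lit 16815117),Int.ofNat (nat_lit 12289562),Int.negSucc (nat_lit 13038392),Int.ofNat (nat_lit 88513345),Int.ofNat (nat_lit 1659956),Int.negSucc (nat_lit 9189117),Int.negSucc (nat_lit 29263080),Int.negSucc (nat_lit 25212941),Int.ofNat (nat_lit 6124309),Int.negSucc (nat_lit 16000420),Int.negSucc (nat_lit 22546307),Int.negSucc (nat_lit 12483617),Int.negSucc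 (nat_lit 14038949),Int.negSucc (nat_lit 27716229),Int.ofNat (nat_lit 2655756),Int.ofNat (nat_lit 15902962),Int.negSucc (nat_lit 7673705),Int.negSucc (nat_lit 24426347),Int.ofNat (nat_lit 3895975),Int.negSucc (nat_lit 1199467),Int.negSucc (nat_lit 32921733),Int.negSucc (nat_lit 44190421),Int.negSucc (nat_lit 6156006),Int.ofNat (nat_lit 33225475),Int.negSucc (nat_lit 22633911),Int.negSucc (nat_lit 19462049),Int.negSucc (nat_lit 16090456),Int.negSucc (nat_lit 14044219),Int.negSucc (nat_lit 13601602),Int.ofNat (nat_lit 22439139),Int.negSucc (nat_lit 1596149),Int.negSucc (nat_lit 42305964),Int.ofNat (nat_lit 1270266),Int.negSucc (nat_lit 10714163),Int.negSucc (nat_lit 4394803),Int.ofNat (nat_lit 24582716),Int.ofNat (nat_lit 14391380),Int.negSucc (nat_lit 8040533),Int.negSucc (nat_lit 15858566),Int.negSucc (nat_lit 17832701),Int.negSucc (nat_lit 30629886),Int.ofNat (nat_lit 6286346),Int.negSucc (nat_lit 7680051),Int.negSucc (nat_lit 53974374),Int.ofNat (nat_lit 1876681),Int.ofNat (nat_lit 22233647),Int.negSucc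 (nat_lit 38249611),Int.negSucc (nat_lit 11109186),Int.ofNat (nat_lit 26189063),Int.negSucc (nat_lit 11065584),Int.ofNat (nat_lit 30060717),Int.ofNat (nat_lit 8791033),Int.negSucc (nat_lit 23531900),Int.negSucc (nat_lit 3661831),Int.negSucc (nat_lit 10443680),Int.ofNat (nat_lit 5465230),Int.ofNat (nat_lit 472292431)])

/-- A row. -/
noncomputable def sr6_c2_1 : List ℕ × List ℤ :=
  ([(nat_lit 0),(nat_lit 0),(nat_lit 0),(nat_lit 0),(nat_lit 0),(nat_lit 0),(nat_lit 0),(nat_lit 0),(nat_lit 1),(nat_lit 0),(nat_lit 0),(nat_lit 0)], [Int.ofNat (nat_lit 110931424),Int.ofNat (nat_lit 63429039),Int.ofNat (nat_lit 64679871),Int.negSucc (nat_lit 395657),Int.ofNat (nat_lit 89820425),Int.negSucc (nat_lit 114706065),Int.ofNat (nat_lit 49992253),Int.ofNat (nat_lit 142559148),Int.negSucc (nat_lit 80205097),Int.ofNat (nat_lit 44954446),Int.negSucc (nat_lit 11998298),Int.negSucc (nat_lit 115342277),Int.ofNat (nat_lit 838825),Int.ofNat (nat_lit 22959340),Int.negSucc (nat_lit 51885654),Int.ofNat (nat_lit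 25730324),Int.ofNat (nat_lit 37549887),Int.negSucc (nat_lit 51277222),Int.negSucc (nat_lit 15434966),Int.ofNat (nat_lit 33576137),Int.negSucc (nat_lit 80689357),Int.ofNat (nat_lit 64612298),Int.negSucc (nat_lit 30769412),Int.ofNat (nat_lit 41345172),Int.ofNat (nat_lit 31340063),Int.negSucc (nat_lit 19060580),Int.negSucc (nat_lit 12779500),Int.ofNat (nat_lit 32180363),Int.ofNat (nat_lit 6559057),Int.ofNat (nat_lit 81297772),Int.ofNat (nat_lit 67674639),Int.negSucc (nat_lit 3598813),Int.negSucc (nat_lit 12035542),Int.ofNat (nat_lit 3607213),Int.negSucc (nat_lit 40121460),Int.negSucc (nat_lit 134362161),Int.negSucc (nat_lit 22193128),Int.negSucc (nat_lit 34232882),Int.negSucc (nat_lit 2060982),Int.ofNat (nat_lit 5884745),Int.negSucc (nat_lit 3240878),Int.ofNat (nat_lit 5659474),Int.negSucc (nat_lit 3051209),Int.negSucc (nat_lit 5905190),Int.negSucc (nat_lit 32893446),Int.ofNat (nat_lit 2350211),Int.ofNat (nat_lit 26622854),Int.ofNat (nat_lit 4153480),Int.negSucc (nat_lit 7678075),Int.negSucc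 (nat_lit 14829275),Int.negSucc (nat_lit 2274152),Int.ofNat (nat_lit 5821919),Int.negSucc (nat_lit 16760887),Int.ofNat (nat_lit 18549880),Int.negSucc (nat_lit 14462225),Int.ofNat (nat_lit 2683206),Int.ofNat (nat_lit 9405636),Int.ofNat (nat_lit 6192309),Int.negSucc (nat_lit 11828012),Int.negSucc (nat_lit 167237),Int.ofNat (nat_lit 3990694),Int.ofNat (nat_lit 8504477),Int.ofNat (nat_lit 3643604),Int.negSucc (nat_lit 29237865),Int.negSucc (nat_lit 9632853),Int.ofNat (nat_lit 2052875),Int.negSucc (nat_lit 6471656),Int.negSucc (nat_lit 4578688),Int.negSucc (nat_lit 11802921),Int.ofNat (nat_lit 3375941),Int.negSucc (nat_lit 5325046),Int.ofNat (nat_lit 7013828),Int.ofNat (nat_lit 19927891),Int.ofNat (nat_lit 6253914),Int.negSucc (nat_lit 3289885),Int.ofNat (nat_lit 2816853),Int.negSucc (nat_lit 4474785),Int.ofNat (nat_lit 4609590),Int.negSucc (nat_lit 788836),Int.ofNat (nat_lit 5007621),Int.ofNat (nat_lit 8131590),Int.ofNat (nat_lit 189694),Int.negSucc (nat_lit 2073755),Int.negSucc (nat_lit 1814316),Int.ofNat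 (nat_lit 4121957),Int.ofNat (nat_lit 1760689),Int.negSucc (nat_lit 4632124),Int.ofNat (nat_lit 13817239),Int.negSucc (nat_lit 54591),Int.negSucc (nat_lit 6479803),Int.ofNat (nat_lit 9630900),Int.ofNat (nat_lit 3856727),Int.ofNat (nat_lit 4848110),Int.ofNat (nat_lit 1904141),Int.ofNat (nat_lit 1571021),Int.negSucc (nat_lit 58545),Int.ofNat (nat_lit 71208),Int.ofNat (nat_lit 5901602),Int.negSucc (nat_lit 1982218),Int.negSucc (nat_lit 8136008),Int.ofNat (nat_lit 6799679),Int.ofNat (nat_lit 1589170),Int.negSucc (nat_lit 1617575),Int.negSucc (nat_lit 4522643),Int.negSucc (nat_lit 1195906),Int.ofNat (nat_lit 7313948),Int.negSucc (nat_lit 1535029),Int.negSucc (nat_lit 85655),Int.negSucc (nat_lit 8377097),Int.ofNat (nat_lit 3937105),Int.negSucc (nat_lit 2565650),Int.negSucc (nat_lit 1966168),Int.ofNat (nat_lit 19356364),Int.ofNat (nat_lit 1606786),Int.ofNat (nat_lit 1996797),Int.negSucc (nat_lit 7565359),Int.negSucc (nat_lit 6550653),Int.ofNat (nat_lit 61689),Int.ofNat (nat_lit 3081350),Int.ofNat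 (nat_lit 1898157),Int.ofNat (nat_lit 1440296),Int.ofNat (nat_lit 1392976),Int.negSucc (nat_lit 8671931),Int.ofNat (nat_lit 7495807),Int.negSucc (nat_lit 9162114),Int.negSucc (nat_lit 410056),Int.ofNat (nat_lit 3587793),Int.ofNat (nat_lit 1489693),Int.ofNat (nat_lit 5462544),Int.negSucc (nat_lit 2784628),Int.negSucc (nat_lit 4658770),Int.negSucc (nat_lit 3114985),Int.ofNat (nat_lit 6176026),Int.negSucc (nat_lit 2741501),Int.ofNat (nat_lit 1187486),Int.ofNat (nat_lit 1994840),Int.negSucc (nat_lit 1226784),Int.ofNat (nat_lit 1607994),Int.negSucc (nat_lit 964026),Int.ofNat (nat_lit 16241467),Int.ofNat (nat_lit 74083129)])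

/-- A row. -/
noncomputable def sr6_c2_2 : List ℕ × List ℤ :=
  ([(nat_lit 0),(nat_lit 0),(nat_lit 0),(nat_lit 0),(nat_lit 0),(nat_lit 0),(nat_lit 1),(nat_lit 0),(nat_lit 0),(nat_lit 0),(nat_lit 0),(nat_lit 0)], [Int.negSucc (nat_lit 18434707),Int.negSucc (nat_lit 314021301),Int.ofNat (nat_lit 345866799),Int.ofNat (nat_lit 320335977),Int.negSucc (nat_lit 350619358),Int.ofNat (nat_lit 123442185),Int.ofNat (nat_lit 34202513),Int.negSucc (nat_lit 18669023),Int.ofNat (nat_lit 47515311),Int.negSucc (nat_lit 34148922),Int.ofNat (nat_lit 112685665),Int.ofNat (nat_lit 79705603),Int.ofNat (nat_lit 21833615),Int.negSucc (nat_lit 33293755),Int.ofNat (nat_lit 37555835),Int.ofNat (nat_lit 40596348),Int.negSucc (nat_lit 3316448),Int.ofNat (nat_lit 95502638),Int.ofNat (nat_lit 33487767),Int.negSucc (nat_lit 65187580),Int.negSucc (nat_lit 203962),Int.ofNat (nat_lit 43907922),Int.negSucc (nat_lit 11038223),Int.negSucc (nat_lit 26777486),Int.negSucc (nat_lit 29735238),Int.ofNat (nat_lit 12571472),Int.negSucc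 (nat_lit 28152996),Int.ofNat (nat_lit 41574090),Int.negSucc (nat_lit 40188383),Int.negSucc (nat_lit 105812088),Int.negSucc (nat_lit 5597555),Int.negSucc (nat_lit 16152637),Int.ofNat (nat_lit 45328104),Int.ofNat (nat_lit 9412464),Int.negSucc (nat_lit 51794837),Int.ofNat (nat_lit 82493344),Int.ofNat (nat_lit 18251276),Int.ofNat (nat_lit 117724319),Int.ofNat (nat_lit 82080862),Int.negSucc (nat_lit 19308430),Int.ofNat (nat_lit 46431442),Int.ofNat (nat_lit 12841356),Int.ofNat (nat_lit 13967061),Int.ofNat (nat_lit 43547706),Int.negSucc (nat_lit 60066006),Int.negSucc (nat_lit 22600273),Int.negSucc (nat_lit 78085575),Int.negSucc (nat_lit 945268),Int.negSucc (nat_lit 72194799),Int.ofNat (nat_lit 3788592),Int.ofNat (nat_lit 62321762),Int.ofNat (nat_lit 19290486),Int.ofNat (nat_lit 15727229),Int.negSucc (nat_lit 28289425),Int.ofNat (nat_lit 15230048),Int.negSucc (nat_lit 83233118),Int.negSucc (nat_lit 50822815),Int.negSucc (nat_lit 86834526),Int.ofNat (nat_lit 45748524),Int.negSucc (nat_lit 76232678),Int.ofNat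 (nat_lit 3653407),Int.negSucc (nat_lit 12335831),Int.ofNat (nat_lit 17453388),Int.negSucc (nat_lit 12393423),Int.ofNat (nat_lit 89638134),Int.ofNat (nat_lit 7675837),Int.negSucc (nat_lit 54127513),Int.ofNat (nat_lit 2025911),Int.negSucc (nat_lit 19018053),Int.negSucc (nat_lit 38863190),Int.ofNat (nat_lit 39581967),Int.ofNat (nat_lit 7266480),Int.negSucc (nat_lit 32808270),Int.negSucc (nat_lit 5197718),Int.negSucc (nat_lit 94881500),Int.negSucc (nat_lit 94438338),Int.negSucc (nat_lit 47120664),Int.ofNat (nat_lit 32507010),Int.negSucc (nat_lit 12540894),Int.negSucc (nat_lit 25373978),Int.ofNat (nat_lit 9756931),Int.negSucc (nat_lit 90134),Int.negSucc (nat_lit 15602543),Int.negSucc (nat_lit 25580990),Int.ofNat (nat_lit 23610431),Int.ofNat (nat_lit 5586151),Int.ofNat (nat_lit 51657141),Int.negSucc (nat_lit 37468726),Int.ofNat (nat_lit 38552771),Int.ofNat (nat_lit 26377505),Int.negSucc (nat_lit 30916064),Int.ofNat (nat_lit 1261635),Int.negSucc (nat_lit 25029922),Int.negSucc (nat_lit 7727309),Int.negSucc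 (nat_lit 23818368),Int.negSucc (nat_lit 22163621),Int.negSucc (nat_lit 1965372),Int.negSucc (nat_lit 26167225),Int.ofNat (nat_lit 8661358),Int.ofNat (nat_lit 26421393),Int.ofNat (nat_lit 554923),Int.negSucc (nat_lit 3073499),Int.ofNat (nat_lit 1364984),Int.ofNat (nat_lit 4181376),Int.negSucc (nat_lit 50466606),Int.negSucc (nat_lit 44059997),Int.ofNat (nat_lit 19436763),Int.negSucc (nat_lit 4760674),Int.negSucc (nat_lit 15219397),Int.negSucc (nat_lit 465003),Int.ofNat (nat_lit 3706386),Int.ofNat (nat_lit 12909671),Int.negSucc (nat_lit 13126043),Int.ofNat (nat_lit 15691182),Int.negSucc (nat_lit 49927556),Int.ofNat (nat_lit 29327753),Int.negSucc (nat_lit 16551436),Int.ofNat (nat_lit 5917086),Int.ofNat (nat_lit 4252286),Int.negSucc (nat_lit 1517820),Int.negSucc (nat_lit 6346120),Int.negSucc (nat_lit 6205111),Int.ofNat (nat_lit 11623962),Int.negSucc (nat_lit 42109451),Int.ofNat (nat_lit 36204141),Int.ofNat (nat_lit 2392154),Int.negSucc (nat_lit 21871735),Int.negSucc (nat_lit 16189547),Int.ofNat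 (nat_lit 348205),Int.ofNat (nat_lit 6691349),Int.ofNat (nat_lit 3295764),Int.ofNat (nat_lit 15765601),Int.negSucc (nat_lit 15003950),Int.ofNat (nat_lit 15664015),Int.ofNat (nat_lit 3094472),Int.negSucc (nat_lit 22467067),Int.ofNat (nat_lit 11918247),Int.negSucc (nat_lit 5980146),Int.negSucc (nat_lit 10269402),Int.ofNat (nat_lit 94095054),Int.negSucc (nat_lit 106907897),Int.ofNat (nat_lit 277647942)])

/-- A row. -/
noncomputable def sr6_c2_3 : List ℕ × List ℤ :=
  ([(nat_lit 0),(nat_lit 0),(nat_lit 0),(nat_lit 0),(nat_lit 1),(nat_lit 0),(nat_lit 0),(nat_lit 0),(nat_lit 0),(nat_lit 0),(nat_lit 0),(nat_lit 0)], [Int.ofNat (nat_lit 550807493),Int.negSucc (nat_lit 641800382),Int.negSucc (nat_lit 476479533),Int.negSucc (nat_lit 712502904),Int.ofNat (nat_lit 917095798),Int.ofNat (nat_lit 633868063),Int.ofNat (nat_lit 239941817),Int.negSucc (nat_lit 481872104),Int.ofNat (nat_lit 177603736),Int.negSucc (nat_lit 15413197),Int.negSucc (nat_lit 204171407),Int.ofNat (nat_lit 393093302),Int.negSucc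 (nat_lit 235948456),Int.negSucc (nat_lit 54820083),Int.ofNat (nat_lit 156194786),Int.negSucc (nat_lit 229615606),Int.negSucc (nat_lit 75217324),Int.ofNat (nat_lit 68570600),Int.ofNat (nat_lit 182563738),Int.negSucc (nat_lit 92597210),Int.ofNat (nat_lit 223509661),Int.negSucc (nat_lit 311330131),Int.ofNat (nat_lit 138896691),Int.negSucc (nat_lit 99398285),Int.negSucc (nat_lit 109416037),Int.ofNat (nat_lit 189159118),Int.ofNat (nat_lit 203557195),Int.negSucc (nat_lit 186122465),Int.ofNat (nat_lit 16182723),Int.negSucc (nat_lit 156559763),Int.negSucc (nat_lit 307562954),Int.ofNat (nat_lit 147165992),Int.ofNat (nat_lit 62122546),Int.negSucc (nat_lit 28426037),Int.ofNat (nat_lit 335544750),Int.ofNat (nat_lit 274969988),Int.ofNat (nat_lit 93010798),Int.ofNat (nat_lit 93561211),Int.negSucc (nat_lit 135090464),Int.negSucc (nat_lit 96934327),Int.negSucc (nat_lit 52249187),Int.negSucc (nat_lit 75333807),Int.ofNat (nat_lit 1847314),Int.negSucc (nat_lit 8935306),Int.ofNat (nat_lit 88140104),Int.ofNat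 (nat_lit 18651288),Int.negSucc (nat_lit 12779694),Int.negSucc (nat_lit 70006043),Int.ofNat (nat_lit 105422366),Int.ofNat (nat_lit 32466577),Int.negSucc (nat_lit 5741578),Int.negSucc (nat_lit 76484957),Int.ofNat (nat_lit 201671785),Int.negSucc (nat_lit 153445211),Int.ofNat (nat_lit 241596152),Int.ofNat (nat_lit 49755211),Int.negSucc (nat_lit 31378482),Int.ofNat (nat_lit 45366477),Int.negSucc (nat_lit 31023717),Int.ofNat (nat_lit 50198443),Int.ofNat (nat_lit 18129056),Int.negSucc (nat_lit 74913162),Int.negSucc (nat_lit 15250711),Int.ofNat (nat_lit 18220650),Int.ofNat (nat_lit 18861543),Int.negSucc (nat_lit 33316319),Int.ofNat (nat_lit 43082765),Int.negSucc (nat_lit 7751121),Int.ofNat (nat_lit 94734482),Int.ofNat (nat_lit 14404902),Int.ofNat (nat_lit 1819548),Int.negSucc (nat_lit 42505248),Int.ofNat (nat_lit 59271063),Int.negSucc (nat_lit 22336324),Int.ofNat (nat_lit 86720029),Int.ofNat (nat_lit 63473916),Int.ofNat (nat_lit 85769033),Int.negSucc (nat_lit 81149645),Int.ofNat (nat_lit 120076519),Int.negSucc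 (nat_lit 25475899),Int.negSucc (nat_lit 28306188),Int.negSucc (nat_lit 53625206),Int.ofNat (nat_lit 50606809),Int.negSucc (nat_lit 41349361),Int.negSucc (nat_lit 19517640),Int.ofNat (nat_lit 19872597),Int.negSucc (nat_lit 106718699),Int.negSucc (nat_lit 9123121),Int.ofNat (nat_lit 40081854),Int.ofNat (nat_lit 100880496),Int.ofNat (nat_lit 25718251),Int.negSucc (nat_lit 23789262),Int.ofNat (nat_lit 19559869),Int.ofNat (nat_lit 22837395),Int.ofNat (nat_lit 17690593),Int.ofNat (nat_lit 10808498),Int.ofNat (nat_lit 15992864),Int.negSucc (nat_lit 16692280),Int.negSucc (nat_lit 20407991),Int.ofNat (nat_lit 23458623),Int.ofNat (nat_lit 38663557),Int.negSucc (nat_lit 21413406),Int.negSucc (nat_lit 126396),Int.ofNat (nat_lit 59814062),Int.ofNat (nat_lit 42248967),Int.negSucc (nat_lit 20580075),Int.negSucc (nat_lit 46666268),Int.ofNat (nat_lit 37230971),Int.ofNat (nat_lit 36546010),Int.ofNat (nat_lit 10769376),Int.ofNat (nat_lit 2158494),Int.ofNat (nat_lit 2465193),Int.negSucc (nat_lit 45723016),Int.ofNat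 (nat_lit 10754132),Int.ofNat (nat_lit 59147045),Int.ofNat (nat_lit 12505846),Int.ofNat (nat_lit 3445693),Int.ofNat (nat_lit 23812945),Int.negSucc (nat_lit 49243252),Int.negSucc (nat_lit 16661449),Int.negSucc (nat_lit 4783952),Int.ofNat (nat_lit 30600894),Int.ofNat (nat_lit 32660370),Int.ofNat (nat_lit 48210210),Int.ofNat (nat_lit 20170147),Int.ofNat (nat_lit 15670191),Int.ofNat (nat_lit 55974289),Int.negSucc (nat_lit 1609868),Int.negSucc (nat_lit 36336281),Int.ofNat (nat_lit 30111668),Int.ofNat (nat_lit 56091535),Int.negSucc (nat_lit 55906503),Int.ofNat (nat_lit 20878228),Int.negSucc (nat_lit 40091415),Int.ofNat (nat_lit 9068064),Int.ofNat (nat_lit 21974351),Int.negSucc (nat_lit 6828056),Int.ofNat (nat_lit 21460424),Int.negSucc (nat_lit 20600651),Int.negSucc (nat_lit 464702612),Int.negSucc (nat_lit 62655667),Int.negSucc (nat_lit 7008361),Int.ofNat (nat_lit 414008384)])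

/-- A row. -/
noncomputable def sr6_c2_4 : List ℕ × List ℤ :=
  ([(nat_lit 0),(nat_lit 0),(nat_lit 0),(nat_lit 1),(nat_lit 0),(nat_lit 1),(nat_lit 0),(nat_lit 0),(nat_lit 0),(nat_lit 0),(nat_lit 0),(nat_lit 0)], [Int.negSucc (nat_lit 294125098),Int.ofNat (nat_lit 51400657),Int.negSucc (nat_lit 21303107),Int.ofNat (nat_lit 30204274),Int.negSucc (nat_lit 373729416),Int.ofNat (nat_lit 128740973),Int.negSucc (nat_lit 51655905),Int.negSucc (nat_lit 275714506),Int.ofNat (nat_lit 201175505),Int.ofNat (nat_lit 53416870),Int.negSucc (nat_lit 3918235),Int.ofNat (nat_lit 128812298),Int.ofNat (nat_lit 18144120),Int.ofNat (nat_lit 965036),Int.ofNat (nat_lit 86924922),Int.negSucc (nat_lit 36098506),Int.negSucc (nat_lit 96629940),Int.ofNat (nat_lit 115201665),Int.ofNat (nat_lit 31375094),Int.negSucc (nat_lit 78714677),Int.ofNat (nat_lit 126971926),Int.negSucc (nat_lit 68079660),Int.ofNat (nat_lit 53615626),Int.negSucc (nat_lit 78712863),Int.negSucc (nat_lit 41126334),Int.negSucc (nat_lit 42324234),Int.ofNat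 (nat_lit 46771806),Int.negSucc (nat_lit 72812960),Int.negSucc (nat_lit 40786935),Int.negSucc (nat_lit 106441582),Int.negSucc (nat_lit 169480080),Int.ofNat (nat_lit 4007396),Int.ofNat (nat_lit 20766552),Int.negSucc (nat_lit 32452319),Int.ofNat (nat_lit 79193804),Int.ofNat (nat_lit 233734429),Int.negSucc (nat_lit 3981957),Int.ofNat (nat_lit 19337692),Int.negSucc (nat_lit 1176352),Int.ofNat (nat_lit 46896677),Int.ofNat (nat_lit 21208249),Int.negSucc (nat_lit 28988199),Int.ofNat (nat_lit 14217546),Int.ofNat (nat_lit 46675396),Int.ofNat (nat_lit 58412906),Int.negSucc (nat_lit 901261),Int.negSucc (nat_lit 33415492),Int.negSucc (nat_lit 21979019),Int.negSucc (nat_lit 11474936),Int.ofNat (nat_lit 35945099),Int.negSucc (nat_lit 1303258),Int.negSucc (nat_lit 27371562),Int.ofNat (nat_lit 11950773),Int.negSucc (nat_lit 83242100),Int.negSucc (nat_lit 5530133),Int.ofNat (nat_lit 36676647),Int.negSucc (nat_lit 18833143),Int.negSucc (nat_lit 48438009),Int.ofNat (nat_lit 3499144),Int.ofNat (nat_lit 10541386),Int.negSucc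 (nat_lit 13953469),Int.negSucc (nat_lit 19097906),Int.negSucc (nat_lit 31455709),Int.ofNat (nat_lit 65002872),Int.negSucc (nat_lit 68296417),Int.negSucc (nat_lit 23828789),Int.negSucc (nat_lit 10989684),Int.ofNat (nat_lit 1734834),Int.negSucc (nat_lit 19680789),Int.negSucc (nat_lit 57867945),Int.ofNat (nat_lit 19814511),Int.negSucc (nat_lit 40018623),Int.negSucc (nat_lit 42004886),Int.negSucc (nat_lit 27414594),Int.ofNat (nat_lit 24245716),Int.negSucc (nat_lit 13569286),Int.negSucc (nat_lit 5599898),Int.ofNat (nat_lit 6909015),Int.negSucc (nat_lit 3574334),Int.negSucc (nat_lit 7799815),Int.ofNat (nat_lit 2231485),Int.ofNat (nat_lit 12579932),Int.ofNat (nat_lit 4739968),Int.negSucc (nat_lit 18431659),Int.ofNat (nat_lit 14686792),Int.ofNat (nat_lit 9579336),Int.negSucc (nat_lit 9922519),Int.negSucc (nat_lit 28064261),Int.ofNat (nat_lit 7061571),Int.ofNat (nat_lit 24664595),Int.ofNat (nat_lit 11296446),Int.ofNat (nat_lit 4181689),Int.negSucc (nat_lit 13350499),Int.negSucc (nat_lit 3912531),Int.negSucc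 (nat_lit 5865997),Int.negSucc (nat_lit 9154963),Int.negSucc (nat_lit 14137295),Int.negSucc (nat_lit 11522196),Int.ofNat (nat_lit 6183137),Int.ofNat (nat_lit 17371037),Int.negSucc (nat_lit 3926162),Int.negSucc (nat_lit 9099428),Int.negSucc (nat_lit 10146731),Int.ofNat (nat_lit 22214716),Int.ofNat (nat_lit 21603759),Int.negSucc (nat_lit 17299939),Int.negSucc (nat_lit 5357469),Int.negSucc (nat_lit 2504142),Int.ofNat (nat_lit 27965664),Int.negSucc (nat_lit 11734327),Int.ofNat (nat_lit 9081253),Int.ofNat (nat_lit 4034178),Int.negSucc (nat_lit 13827292),Int.ofNat (nat_lit 6939437),Int.ofNat (nat_lit 12786344),Int.ofNat (nat_lit 15437158),Int.ofNat (nat_lit 14228678),Int.ofNat (nat_lit 18768576),Int.negSucc (nat_lit 41675),Int.negSucc (nat_lit 11380447),Int.negSucc (nat_lit 5285688),Int.ofNat (nat_lit 12062337),Int.ofNat (nat_lit 37551458),Int.negSucc (nat_lit 34399386),Int.ofNat (nat_lit 5385256),Int.ofNat (nat_lit 4763776),Int.negSucc (nat_lit 10121859),Int.negSucc (nat_lit 15593152),Int.negSucc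 (nat_lit 10986040),Int.ofNat (nat_lit 8983296),Int.ofNat (nat_lit 15593814),Int.ofNat (nat_lit 6869977),Int.negSucc (nat_lit 27211751),Int.negSucc (nat_lit 2301795),Int.negSucc (nat_lit 641018),Int.negSucc (nat_lit 7134916),Int.negSucc (nat_lit 11651),Int.negSucc (nat_lit 2047633),Int.negSucc (nat_lit 8546465),Int.negSucc (nat_lit 27377667),Int.negSucc (nat_lit 92521759),Int.ofNat (nat_lit 33198830),Int.ofNat (nat_lit 28196036),Int.ofNat (nat_lit 211200807)])

/-- A row. -/
noncomputable def sr6_c2_5 : List ℕ × List ℤ :=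
  ([(nat_lit 0),(nat_lit 0),(nat_lit 0),(nat_lit 2),(nat_lit 0),(nat_lit 0),(nat_lit 0),(nat_lit 0),(nat_lit 0),(nat_lit 0),(nat_lit 0),(nat_lit 0)], [Int.ofNat (nat_lit 497480628),Int.negSucc (nat_lit 135094324),Int.negSucc (nat_lit 405584842),Int.ofNat (nat_lit 20612958),Int.ofNat (nat_lit 866326535),Int.ofNat (nat_lit 112517264),Int.negSucc (nat_lit 53843339),Int.ofNat (nat_lit 339671480),Int.negSucc (nat_lit 378132418),Int.ofNat (nat_lit 212960107),Int.negSucc (nat_lit 6989485),Int.negSucc (nat_lit 71839808),Int.negSucc (nat_lit 172044761),Int.negSucc (nat_lit 47028907),Int.negSucc (nat_lit 61737589),Int.negSucc (nat_lit 57821306),Int.negSucc (nat_lit 14196367),Int.negSucc (nat_lit 20000781),Int.negSucc (nat_lit 35680638),Int.negSucc (nat_lit 13161436),Int.ofNat (nat_lit 88525677),Int.negSucc (nat_lit 111814255),Int.negSucc (nat_lit 97836499),Int.negSucc (nat_lit 9608208),Int.ofNat (nat_lit 96131674),Int.ofNat (nat_lit 212366171),Int.ofNat (nat_lit 58953563),Int.negSucc (nat_lit 46482349),Int.ofNat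 (nat_lit 23862326),Int.ofNat (nat_lit 87942026),Int.ofNat (nat_lit 90126758),Int.ofNat (nat_lit 23987654),Int.negSucc (nat_lit 36069128),Int.negSucc (nat_lit 12037210),Int.negSucc (nat_lit 35557340),Int.negSucc (nat_lit 198552864),Int.negSucc (nat_lit 34327899),Int.negSucc (nat_lit 67579989),Int.negSucc (nat_lit 89201609),Int.negSucc (nat_lit 62414892),Int.negSucc (nat_lit 63138811),Int.negSucc (nat_lit 42378382),Int.negSucc (nat_lit 21771921),Int.negSucc (nat_lit 212895508),Int.negSucc (nat_lit 9087841),Int.ofNat (nat_lit 95091499),Int.ofNat (nat_lit 136548086),Int.ofNat (nat_lit 31511688),Int.ofNat (nat_lit 19361011),Int.negSucc (nat_lit 42189686),Int.negSucc (nat_lit 27960848),Int.ofNat (nat_lit 5927934),Int.ofNat (nat_lit 132822090),Int.ofNat (nat_lit 143089946),Int.ofNat (nat_lit 52409321),Int.ofNat (nat_lit 9777816),Int.ofNat (nat_lit 33020322),Int.ofNat (nat_lit 128905127),Int.ofNat (nat_lit 36263244),Int.ofNat (nat_lit 104089047),Int.negSucc (nat_lit 33445703),Int.ofNat (nat_lit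 7431132),Int.ofNat (nat_lit 44512113),Int.negSucc (nat_lit 4084799),Int.ofNat (nat_lit 34242647),Int.negSucc (nat_lit 7583889),Int.ofNat (nat_lit 41261253),Int.negSucc (nat_lit 44623812),Int.ofNat (nat_lit 73738878),Int.ofNat (nat_lit 77245716),Int.negSucc (nat_lit 14977799),Int.ofNat (nat_lit 6923455),Int.ofNat (nat_lit 51123074),Int.negSucc (nat_lit 16990475),Int.ofNat (nat_lit 23393883),Int.ofNat (nat_lit 14893523),Int.negSucc (nat_lit 5202465),Int.negSucc (nat_lit 25498601),Int.ofNat (nat_lit 20291288),Int.ofNat (nat_lit 28243836),Int.negSucc (nat_lit 76395676),Int.negSucc (nat_lit 68402725),Int.negSucc (nat_lit 28366952),Int.ofNat (nat_lit 44041923),Int.ofNat (nat_lit 24804506),Int.negSucc (nat_lit 27808446),Int.negSucc (nat_lit 2514956),Int.ofNat (nat_lit 12661896),Int.negSucc (nat_lit 4597113),Int.ofNat (nat_lit 5846800),Int.negSucc (nat_lit 19083900),Int.ofNat (nat_lit 74079999),Int.ofNat (nat_lit 20396123),Int.negSucc (nat_lit 25590615),Int.ofNat (nat_lit 7223702),Int.ofNat (nat_lit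 12289576),Int.negSucc (nat_lit 7007558),Int.negSucc (nat_lit 24107885),Int.ofNat (nat_lit 31744963),Int.ofNat (nat_lit 13919370),Int.negSucc (nat_lit 9682392),Int.negSucc (nat_lit 12703589),Int.negSucc (nat_lit 4319320),Int.negSucc (nat_lit 9811181),Int.negSucc (nat_lit 14074332),Int.ofNat (nat_lit 11542121),Int.ofNat (nat_lit 43852015),Int.negSucc (nat_lit 2029394),Int.negSucc (nat_lit 43366407),Int.ofNat (nat_lit 30193497),Int.ofNat (nat_lit 9319474),Int.ofNat (nat_lit 3988477),Int.negSucc (nat_lit 6474582),Int.negSucc (nat_lit 47474493),Int.negSucc (nat_lit 25051828),Int.ofNat (nat_lit 7647475),Int.ofNat (nat_lit 17503037),Int.ofNat (nat_lit 5045953),Int.negSucc (nat_lit 32834151),Int.negSucc (nat_lit 4571603),Int.negSucc (nat_lit 738082),Int.ofNat (nat_lit 9958957),Int.negSucc (nat_lit 27923723),Int.ofNat (nat_lit 25789736),Int.negSucc (nat_lit 45332866),Int.ofNat (nat_lit 10815633),Int.ofNat (nat_lit 2496059),Int.ofNat (nat_lit 406857),Int.ofNat (nat_lit 1608518),Int.ofNat (nat_lit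 16735645),Int.negSucc (nat_lit 12310722),Int.ofNat (nat_lit 6076725),Int.ofNat (nat_lit 876405),Int.negSucc (nat_lit 7922117),Int.negSucc (nat_lit 28833896),Int.negSucc (nat_lit 20208928),Int.ofNat (nat_lit 32936509),Int.ofNat (nat_lit 8029939),Int.ofNat (nat_lit 10030678),Int.negSucc (nat_lit 70852424),Int.ofNat (nat_lit 9801657),Int.negSucc (nat_lit 74364970),Int.ofNat (nat_lit 86541168),Int.negSucc (nat_lit 168000717),Int.ofNat (nat_lit 417754020)])

/-- A row. -/
noncomputable def sr6_c2_6 : List ℕ × List ℤ :=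
  ([(nat_lit 0),(nat_lit 0),(nat_lit 1),(nat_lit 0),(nat_lit 0),(nat_lit 0),(nat_lit 0),(nat_lit 0),(nat_lit 0),(nat_lit 0),(nat_lit 0),(nat_lit 0)], [Int.ofNat (nat_lit 1129732896),Int.ofNat (nat_lit 100716547),Int.ofNat (nat_lit 871645674),Int.ofNat (nat_lit 549520763),Int.negSucc (nat_lit 569615685),Int.ofNat (nat_lit 453666432),Int.ofNat (nat_lit 411945785),Int.ofNat (nat_lit 246188401),Int.negSucc (nat_lit 1825030),Int.ofNat (nat_lit 35195407),Int.ofNat (nat_lit 213680224),Int.negSucc (nat_lit 111227165),Int.negSucc (nat_lit 40936152),Int.ofNat (nat_lit 206885387),Int.ofNat (nat_lit 21768528),Int.ofNat (nat_lit 172118520),Int.negSucc (nat_lit 264374787),Int.negSucc (nat_lit 166652103),Int.ofNat (nat_lit 102229913),Int.ofNat (nat_lit 113724235),Int.negSucc (nat_lit 369758537),Int.ofNat (nat_lit 340007914),Int.negSucc (nat_lit 178580441),Int.ofNat (nat_lit 293182618),Int.ofNat (nat_lit 30382584),Int.negSucc (nat_lit 9423029),Int.ofNat (nat_lit 7841272),Int.ofNat (nat_lit 274257499),Int.ofNat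 (nat_lit 56779149),Int.ofNat (nat_lit 28675803),Int.ofNat (nat_lit 217104823),Int.ofNat (nat_lit 80585436),Int.negSucc (nat_lit 106322892),Int.ofNat (nat_lit 47174199),Int.negSucc (nat_lit 82462762),Int.negSucc (nat_lit 382705905),Int.negSucc (nat_lit 155990536),Int.ofNat (nat_lit 29569202),Int.negSucc (nat_lit 152917251),Int.negSucc (nat_lit 77938834),Int.ofNat (nat_lit 86634073),Int.ofNat (nat_lit 45544733),Int.ofNat (nat_lit 163491937),Int.negSucc (nat_lit 25400603),Int.negSucc (nat_lit 146527633),Int.negSucc (nat_lit 112817530),Int.negSucc (nat_lit 203013058),Int.negSucc (nat_lit 4549406),Int.negSucc (nat_lit 244120503),Int.ofNat (nat_lit 32677910),Int.ofNat (nat_lit 19473971),Int.ofNat (nat_lit 31631500),Int.ofNat (nat_lit 140934738),Int.ofNat (nat_lit 44105607),Int.negSucc (nat_lit 94050744),Int.negSucc (nat_lit 52089633),Int.negSucc (nat_lit 107424699),Int.negSucc (nat_lit 305703629),Int.ofNat (nat_lit 31601468),Int.negSucc (nat_lit 111119796),Int.negSucc (nat_lit 5867586),Int.ofNat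 (nat_lit 25150205),Int.ofNat (nat_lit 32499262),Int.ofNat (nat_lit 60523657),Int.ofNat (nat_lit 4934009),Int.ofNat (nat_lit 136390314),Int.negSucc (nat_lit 242612663),Int.ofNat (nat_lit 4721072),Int.negSucc (nat_lit 298025134),Int.negSucc (nat_lit 299553751),Int.ofNat (nat_lit 69275505),Int.negSucc (nat_lit 1713050),Int.negSucc (nat_lit 1244935),Int.negSucc (nat_lit 129667567),Int.negSucc (nat_lit 78609553),Int.negSucc (nat_lit 65013449),Int.negSucc (nat_lit 99226306),Int.negSucc (nat_lit 21712804),Int.negSucc (nat_lit 77722540),Int.negSucc (nat_lit 25122971),Int.ofNat (nat_lit 7990435),Int.negSucc (nat_lit 287147),Int.negSucc (nat_lit 19912313),Int.ofNat (nat_lit 26565994),Int.ofNat (nat_lit 10091302),Int.negSucc (nat_lit 28974120),Int.ofNat (nat_lit 66921187),Int.ofNat (nat_lit 29102585),Int.ofNat (nat_lit 20023742),Int.ofNat (nat_lit 28502740),Int.negSucc (nat_lit 23107521),Int.ofNat (nat_lit 21300281),Int.ofNat (nat_lit 47501025),Int.negSucc (nat_lit 55455644),Int.negSucc (nat_lit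 8300739),Int.negSucc (nat_lit 16539227),Int.negSucc (nat_lit 79199235),Int.ofNat (nat_lit 1186071),Int.ofNat (nat_lit 26894315),Int.ofNat (nat_lit 13885410),Int.negSucc (nat_lit 12149670),Int.negSucc (nat_lit 409853),Int.negSucc (nat_lit 7951884),Int.negSucc (nat_lit 27905306),Int.negSucc (nat_lit 62477022),Int.negSucc (nat_lit 10765621),Int.ofNat (nat_lit 26125143),Int.negSucc (nat_lit 24359081),Int.ofNat (nat_lit 3562732),Int.negSucc (nat_lit 35856110),Int.negSucc (nat_lit 43390235),Int.negSucc (nat_lit 37128556),Int.ofNat (nat_lit 28704791),Int.negSucc (nat_lit 13770639),Int.negSucc (nat_lit 19357834),Int.negSucc (nat_lit 2418249),Int.negSucc (nat_lit 15027526),Int.ofNat (nat_lit 32782067),Int.ofNat (nat_lit 14069194),Int.ofNat (nat_lit 18717740),Int.negSucc (nat_lit 10480055),Int.negSucc (nat_lit 7605415),Int.negSucc (nat_lit 17749267),Int.negSucc (nat_lit 2246121),Int.ofNat (nat_lit 16507085),Int.negSucc (nat_lit 2819747),Int.negSucc (nat_lit 76216807),Int.ofNat (nat_lit 26323113),Int.ofNat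 (nat_lit 11058172),Int.negSucc (nat_lit 87527315),Int.ofNat (nat_lit 32513440),Int.negSucc (nat_lit 6678993),Int.negSucc (nat_lit 3394961),Int.ofNat (nat_lit 37307306),Int.ofNat (nat_lit 32480198),Int.negSucc (nat_lit 43466637),Int.negSucc (nat_lit 28971228),Int.ofNat (nat_lit 20710646),Int.negSucc (nat_lit 10799596),Int.ofNat (nat_lit 661747626),Int.ofNat (nat_lit 72544132),Int.negSucc (nat_lit 111821449),Int.ofNat (nat_lit 365752979),Int.negSucc (nat_lit 14459351),Int.ofNat (nat_lit 140104656),Int.ofNat (nat_lit 394410306)])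

/-- A row. -/
noncomputable def sr6_c2_7 : List ℕ × List ℤ :=
  ([(nat_lit 0),(nat_lit 0),(nat_lit 1),(nat_lit 0),(nat_lit 1),(nat_lit 0),(nat_lit 0),(nat_lit 0),(nat_lit 0),(nat_lit 0),(nat_lit 0),(nat_lit 0)], [Int.negSucc (nat_lit 205317001),Int.negSucc (nat_lit 402007441),Int.negSucc (nat_lit 182333291),Int.negSucc (nat_lit 120670940),Int.ofNat (nat_lit 54133776),Int.ofNat (nat_lit 162488847),Int.negSucc (nat_lit 109931590),Int.negSucc (nat_lit 200328142),Int.ofNat (nat_lit 6679083),Int.negSucc (nat_lit 103742553),Int.ofNat (nat_lit 4061150),Int.ofNat (nat_lit 103450953),Int.negSucc (nat_lit 23238671),Int.negSucc (nat_lit 58236214),Int.ofNat (nat_lit 85072395),Int.negSucc (nat_lit 32162682),Int.negSucc (nat_lit 86811280),Int.ofNat (nat_lit 70475907),Int.negSucc (nat_lit 11034811),Int.negSucc (nat_lit 29283039),Int.ofNat (nat_lit 166297753),Int.negSucc (nat_lit 115242980),Int.ofNat (nat_lit 65212676),Int.negSucc (nat_lit 98557236),Int.negSucc (nat_lit 8384078),Int.ofNat (nat_lit 64882258),Int.negSucc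 (nat_lit 178073),Int.negSucc (nat_lit 59258296),Int.negSucc (nat_lit 37262307),Int.negSucc (nat_lit 96999053),Int.negSucc (nat_lit 110517692),Int.ofNat (nat_lit 10768763),Int.ofNat (nat_lit 29148878),Int.negSucc (nat_lit 10958475),Int.ofNat (nat_lit 129472236),Int.ofNat (nat_lit 149115173),Int.ofNat (nat_lit 60034895),Int.ofNat (nat_lit 74613985),Int.negSucc (nat_lit 16482341),Int.ofNat (nat_lit 9762642),Int.ofNat (nat_lit 38002784),Int.negSucc (nat_lit 7513308),Int.negSucc (nat_lit 9144439),Int.negSucc (nat_lit 25977565),Int.ofNat (nat_lit 79881726),Int.ofNat (nat_lit 3504577),Int.ofNat (nat_lit 5130338),Int.negSucc (nat_lit 22466165),Int.ofNat (nat_lit 26251276),Int.negSucc (nat_lit 9944771),Int.negSucc (nat_lit 126647),Int.ofNat (nat_lit 6090551),Int.ofNat (nat_lit 61107323),Int.negSucc (nat_lit 55648608),Int.ofNat (nat_lit 19280852),Int.negSucc (nat_lit 10177235),Int.ofNat (nat_lit 69641251),Int.ofNat (nat_lit 130260811),Int.ofNat (nat_lit 53260567),Int.ofNat (nat_lit 28179207),Int.ofNat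 (nat_lit 1787313),Int.negSucc (nat_lit 2120262),Int.negSucc (nat_lit 17482521),Int.ofNat (nat_lit 73208600),Int.ofNat (nat_lit 56737329),Int.ofNat (nat_lit 24825620),Int.ofNat (nat_lit 4704453),Int.negSucc (nat_lit 7590015),Int.ofNat (nat_lit 22145943),Int.ofNat (nat_lit 42636545),Int.ofNat (nat_lit 6981234),Int.negSucc (nat_lit 34889930),Int.negSucc (nat_lit 19753652),Int.ofNat (nat_lit 18440326),Int.ofNat (nat_lit 751171),Int.negSucc (nat_lit 1256611),Int.negSucc (nat_lit 287679),Int.negSucc (nat_lit 2870398),Int.ofNat (nat_lit 108809),Int.negSucc (nat_lit 5872983),Int.negSucc (nat_lit 869776),Int.ofNat (nat_lit 6134504),Int.ofNat (nat_lit 10463400),Int.negSucc (nat_lit 13674410),Int.ofNat (nat_lit 5361438),Int.ofNat (nat_lit 10473507),Int.negSucc (nat_lit 3537600),Int.negSucc (nat_lit 16319220),Int.ofNat (nat_lit 9021581),Int.ofNat (nat_lit 8342857),Int.negSucc (nat_lit 2688211),Int.negSucc (nat_lit 7459820),Int.negSucc (nat_lit 19591964),Int.ofNat (nat_lit 11312154),Int.negSucc (nat_lit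 2357003),Int.negSucc (nat_lit 6842972),Int.negSucc (nat_lit 1705932),Int.negSucc (nat_lit 4227198),Int.negSucc (nat_lit 12094494),Int.ofNat (nat_lit 8803461),Int.ofNat (nat_lit 109250),Int.negSucc (nat_lit 14376996),Int.negSucc (nat_lit 5967821),Int.ofNat (nat_lit 11132125),Int.ofNat (nat_lit 17277044),Int.negSucc (nat_lit 4014008),Int.negSucc (nat_lit 418297),Int.ofNat (nat_lit 7839267),Int.negSucc (nat_lit 6673293),Int.negSucc (nat_lit 14763279),Int.ofNat (nat_lit 11265094),Int.negSucc (nat_lit 3866673),Int.negSucc (nat_lit 3366086),Int.ofNat (nat_lit 4570535),Int.ofNat (nat_lit 2315278),Int.negSucc (nat_lit 648189),Int.ofNat (nat_lit 3028079),Int.negSucc (nat_lit 1791085),Int.negSucc (nat_lit 13554),Int.negSucc (nat_lit 6287979),Int.negSucc (nat_lit 14588604),Int.ofNat (nat_lit 2434506),Int.ofNat (nat_lit 28325520),Int.negSucc (nat_lit 12256659),Int.ofNat (nat_lit 3524309),Int.negSucc (nat_lit 10804146),Int.ofNat (nat_lit 5520916),Int.negSucc (nat_lit 15513539),Int.ofNat (nat_lit 12202336),Int.ofNat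 (nat_lit 16648279),Int.ofNat (nat_lit 5157378),Int.ofNat (nat_lit 14752995),Int.ofNat (nat_lit 2361987),Int.negSucc (nat_lit 12385203),Int.negSucc (nat_lit 4172510),Int.ofNat (nat_lit 12047677),Int.ofNat (nat_lit 8417114),Int.negSucc (nat_lit 11777764),Int.ofNat (nat_lit 11334916),Int.negSucc (nat_lit 31462420),Int.negSucc (nat_lit 43525882),Int.ofNat (nat_lit 37280222),Int.ofNat (nat_lit 33317512),Int.ofNat (nat_lit 70835762),Int.negSucc (nat_lit 17811113),Int.negSucc (nat_lit 61168723),Int.ofNat (nat_lit 147412085)])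

/-- A row. -/
noncomputable def sr6_c2_8 : List ℕ × List ℤ :=
  ([(nat_lit 0),(nat_lit 0),(nat_lit 2),(nat_lit 0),(nat_lit 0),(nat_lit 0),(nat_lit 0),(nat_lit 0),(nat_lit 0),(nat_lit 0),(nat_lit 0),(nat_lit 0)], [Int.ofNat (nat_lit 965756480),Int.negSucc (nat_lit 23319594),Int.ofNat (nat_lit 288520207),Int.ofNat (nat_lit 212148939),Int.ofNat (nat_lit 90820685),Int.ofNat (nat_lit 376414213),Int.ofNat (nat_lit 355383770),Int.ofNat (nat_lit 105520370),Int.ofNat (nat_lit 40518343),Int.ofNat (nat_lit 13635840),Int.ofNat (nat_lit 106760727),Int.ofNat (nat_lit 73601117),Int.negSucc (nat_lit 189302469),Int.ofNat (nat_lit 180522788),Int.ofNat (nat_lit 49988735),Int.negSucc (nat_lit 32185150),Int.negSucc (nat_lit 201604165),Int.negSucc (nat_lit 112083495),Int.ofNat (nat_lit 115036045),Int.ofNat (nat_lit 49198924),Int.negSucc (nat_lit 186441957),Int.ofNat (nat_lit 169173350),Int.negSucc (nat_lit 125535954),Int.ofNat (nat_lit 205138995),Int.negSucc (nat_lit 36206827),Int.ofNat (nat_lit 78497842),Int.ofNat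 (nat_lit 89458472),Int.ofNat (nat_lit 94159872),Int.ofNat (nat_lit 118688720),Int.negSucc (nat_lit 2590997),Int.ofNat (nat_lit 70161456),Int.ofNat (nat_lit 132975299),Int.negSucc (nat_lit 90433303),Int.ofNat (nat_lit 17364915),Int.ofNat (nat_lit 48691126),Int.negSucc (nat_lit 250163231),Int.negSucc (nat_lit 158316377),Int.ofNat (nat_lit 9186774),Int.negSucc (nat_lit 214145886),Int.negSucc (nat_lit 73664275),Int.ofNat (nat_lit 42187436),Int.ofNat (nat_lit 8363197),Int.ofNat (nat_lit 80837205),Int.negSucc (nat_lit 79184891),Int.negSucc (nat_lit 44192515),Int.negSucc (nat_lit 74254255),Int.negSucc (nat_lit 157953765),Int.ofNat (nat_lit 2738646),Int.negSucc (nat_lit 129598769),Int.ofNat (nat_lit 58486999),Int.ofNat (nat_lit 22331033),Int.negSucc (nat_lit 7446519),Int.ofNat (nat_lit 159574906),Int.ofNat (nat_lit 21356107),Int.ofNat (nat_lit 3010798),Int.ofNat (nat_lit 36243573),Int.negSucc (nat_lit 124391519),Int.negSucc (nat_lit 250306620),Int.negSucc (nat_lit 10079421),Int.negSucc (nat_lit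 60127894),Int.negSucc (nat_lit 23359962),Int.negSucc (nat_lit 12664169),Int.ofNat (nat_lit 36101716),Int.ofNat (nat_lit 68236413),Int.ofNat (nat_lit 17280708),Int.ofNat (nat_lit 104752526),Int.negSucc (nat_lit 158809069),Int.negSucc (nat_lit 5520383),Int.negSucc (nat_lit 173635302),Int.negSucc (nat_lit 241481696),Int.ofNat (nat_lit 35550018),Int.negSucc (nat_lit 28158933),Int.ofNat (nat_lit 57028139),Int.negSucc (nat_lit 123890491),Int.ofNat (nat_lit 4281225),Int.negSucc (nat_lit 9169195),Int.negSucc (nat_lit 19114934),Int.negSucc (nat_lit 52892899),Int.ofNat (nat_lit 37282886),Int.negSucc (nat_lit 4105951),Int.negSucc (nat_lit 14254312),Int.negSucc (nat_lit 23244933),Int.negSucc (nat_lit 24622489),Int.ofNat (nat_lit 22330836),Int.ofNat (nat_lit 29640115),Int.negSucc (nat_lit 26257369),Int.negSucc (nat_lit 16568695),Int.ofNat (nat_lit 20489255),Int.ofNat (nat_lit 38042450),Int.ofNat (nat_lit 79625187),Int.ofNat (nat_lit 3989944),Int.ofNat (nat_lit 18452108),Int.ofNat (nat_lit 62929075),Int.negSucc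 (nat_lit 43487206),Int.negSucc (nat_lit 5615173),Int.negSucc (nat_lit 9655095),Int.negSucc (nat_lit 57151203),Int.negSucc (nat_lit 8783140),Int.ofNat (nat_lit 13549935),Int.ofNat (nat_lit 36766858),Int.ofNat (nat_lit 10599774),Int.ofNat (nat_lit 1529860),Int.negSucc (nat_lit 3517063),Int.ofNat (nat_lit 10135870),Int.negSucc (nat_lit 25247838),Int.negSucc (nat_lit 16893384),Int.negSucc (nat_lit 1331750),Int.negSucc (nat_lit 4190170),Int.ofNat (nat_lit 24233394),Int.negSucc (nat_lit 29839142),Int.negSucc (nat_lit 32628058),Int.negSucc (nat_lit 26203810),Int.ofNat (nat_lit 1055985),Int.negSucc (nat_lit 7299510),Int.ofNat (nat_lit 16893452),Int.ofNat (nat_lit 7281110),Int.negSucc (nat_lit 12182005),Int.ofNat (nat_lit 42245744),Int.negSucc (nat_lit 7499525),Int.ofNat (nat_lit 1747942),Int.negSucc (nat_lit 397115),Int.ofNat (nat_lit 3913063),Int.ofNat (nat_lit 4529099),Int.ofNat (nat_lit 19673137),Int.ofNat (nat_lit 24029945),Int.ofNat (nat_lit 5049133),Int.negSucc (nat_lit 28272822),Int.ofNat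 (nat_lit 16455369),Int.negSucc (nat_lit 13754282),Int.negSucc (nat_lit 45547485),Int.ofNat (nat_lit 39251282),Int.negSucc (nat_lit 26047668),Int.ofNat (nat_lit 3242162),Int.ofNat (nat_lit 9787171),Int.ofNat (nat_lit 18615101),Int.negSucc (nat_lit 26415026),Int.negSucc (nat_lit 28866076),Int.ofNat (nat_lit 42598840),Int.negSucc (nat_lit 28393521),Int.ofNat (nat_lit 171565245),Int.ofNat (nat_lit 73316505),Int.negSucc (nat_lit 51966446),Int.ofNat (nat_lit 320350022),Int.negSucc (nat_lit 18034132),Int.ofNat (nat_lit 148057538),Int.ofNat (nat_lit 432216764),Int.negSucc (nat_lit 13555493),Int.ofNat (nat_lit 184226390)])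

/-- A row. -/
noncomputable def sr6_c2_9 : List ℕ × List ℤ :=
  ([(nat_lit 0),(nat_lit 1),(nat_lit 0),(nat_lit 0),(nat_lit 0),(nat_lit 0),(nat_lit 0),(nat_lit 1),(nat_lit 0),(nat_lit 0),(nat_lit 0),(nat_lit 0)], [Int.ofNat (nat_lit 21055755),Int.ofNat (nat_lit 90665227),Int.negSucc (nat_lit 17275901),Int.negSucc (nat_lit 143501817),Int.ofNat (nat_lit 48441373),Int.negSucc (nat_lit 177431277),Int.negSucc (nat_lit 1272248),Int.ofNat (nat_lit 40958615),Int.negSucc (nat_lit 129776824),Int.negSucc (nat_lit 95576609),Int.negSucc (nat_lit 49792748),Int.negSucc (nat_lit 128904620),Int.negSucc (nat_lit 83196450),Int.negSucc (nat_lit 3086572),Int.negSucc (nat_lit 18550685),Int.negSucc (nat_lit 9165886),Int.negSucc (nat_lit 95748872),Int.negSucc (nat_lit 57151834),Int.negSucc (nat_lit 75299802),Int.ofNat (nat_lit 13715425),Int.ofNat (nat_lit 108232441),Int.ofNat (nat_lit 6511443),Int.negSucc (nat_lit 31441053),Int.ofNat (nat_lit 138957870),Int.ofNat (nat_lit 12651349),Int.negSucc (nat_lit 32356637),Int.negSucc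 (nat_lit 20804979),Int.ofNat (nat_lit 56772737),Int.ofNat (nat_lit 20336153),Int.ofNat (nat_lit 65523321),Int.ofNat (nat_lit 60115974),Int.ofNat (nat_lit 10027116),Int.negSucc (nat_lit 62987723),Int.ofNat (nat_lit 5087142),Int.negSucc (nat_lit 27692816),Int.negSucc (nat_lit 128533632),Int.negSucc (nat_lit 52134480),Int.negSucc (nat_lit 58986268),Int.negSucc (nat_lit 148213914),Int.ofNat (nat_lit 54372667),Int.negSucc (nat_lit 308347),Int.ofNat (nat_lit 10896551),Int.ofNat (nat_lit 1684407),Int.negSucc (nat_lit 119381638),Int.ofNat (nat_lit 79571671),Int.negSucc (nat_lit 20330455),Int.negSucc (nat_lit 30290301),Int.negSucc (nat_lit 1082330),Int.ofNat (nat_lit 47003712),Int.negSucc (nat_lit 13355869),Int.ofNat (nat_lit 28157534),Int.ofNat (nat_lit 28927426),Int.negSucc (nat_lit 12476826),Int.negSucc (nat_lit 15745090),Int.negSucc (nat_lit 28018553),Int.negSucc (nat_lit 4483304),Int.negSucc (nat_lit 22359142),Int.ofNat (nat_lit 19076567),Int.ofNat (nat_lit 79313306),Int.ofNat (nat_lit 36383719),Int.ofNat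 (nat_lit 30494964),Int.ofNat (nat_lit 46968012),Int.ofNat (nat_lit 2097912),Int.ofNat (nat_lit 31891038),Int.negSucc (nat_lit 19407909),Int.ofNat (nat_lit 8851286),Int.negSucc (nat_lit 38245645),Int.negSucc (nat_lit 8595293),Int.negSucc (nat_lit 54244194),Int.negSucc (nat_lit 51329951),Int.negSucc (nat_lit 28991464),Int.negSucc (nat_lit 2871697),Int.negSucc (nat_lit 1323258),Int.ofNat (nat_lit 6503811),Int.ofNat (nat_lit 45540146),Int.ofNat (nat_lit 29593420),Int.negSucc (nat_lit 6066339),Int.negSucc (nat_lit 7831806),Int.ofNat (nat_lit 11484023),Int.ofNat (nat_lit 12916621),Int.negSucc (nat_lit 667057),Int.negSucc (nat_lit 16043533),Int.ofNat (nat_lit 17823747),Int.ofNat (nat_lit 4578240),Int.ofNat (nat_lit 14787717),Int.negSucc (nat_lit 9754868),Int.negSucc (nat_lit 10712241),Int.negSucc (nat_lit 754698),Int.negSucc (nat_lit 10808331),Int.negSucc (nat_lit 21169041),Int.ofNat (nat_lit 26376337),Int.negSucc (nat_lit 9912209),Int.ofNat (nat_lit 5827023),Int.ofNat (nat_lit 33458556),Int.ofNat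 (nat_lit 10758002),Int.ofNat (nat_lit 21212126),Int.ofNat (nat_lit 5865322),Int.ofNat (nat_lit 10114254),Int.negSucc (nat_lit 22684173),Int.negSucc (nat_lit 828247),Int.ofNat (nat_lit 39334497),Int.negSucc (nat_lit 6372174),Int.negSucc (nat_lit 8995217),Int.negSucc (nat_lit 1657840),Int.ofNat (nat_lit 48225099),Int.ofNat (nat_lit 30394201),Int.negSucc (nat_lit 15553772),Int.negSucc (nat_lit 8248592),Int.negSucc (nat_lit 27649377),Int.negSucc (nat_lit 6448801),Int.negSucc (nat_lit 3298363),Int.negSucc (nat_lit 4415895),Int.ofNat (nat_lit 39960925),Int.ofNat (nat_lit 9616335),Int.ofNat (nat_lit 6697133),Int.negSucc (nat_lit 3654145),Int.negSucc (nat_lit 5340163),Int.ofNat (nat_lit 1942058),Int.ofNat (nat_lit 17647969),Int.ofNat (nat_lit 1719007),Int.ofNat (nat_lit 10036599),Int.ofNat (nat_lit 6247534),Int.ofNat (nat_lit 47990382),Int.negSucc (nat_lit 6077965),Int.negSucc (nat_lit 8196082),Int.negSucc (nat_lit 10860165),Int.negSucc (nat_lit 3502336),Int.negSucc (nat_lit 10915650),Int.ofNat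 (nat_lit 2426052),Int.ofNat (nat_lit 12393973),Int.negSucc (nat_lit 1956023),Int.ofNat (nat_lit 16599321),Int.ofNat (nat_lit 7352135),Int.negSucc (nat_lit 10198701),Int.ofNat (nat_lit 14450672),Int.negSucc (nat_lit 845423),Int.ofNat (nat_lit 7323754),Int.ofNat (nat_lit 11911725),Int.negSucc (nat_lit 7639746),Int.negSucc (nat_lit 22690997),Int.ofNat (nat_lit 63266934),Int.negSucc (nat_lit 64942945),Int.negSucc (nat_lit 18824772),Int.ofNat (nat_lit 69621491),Int.negSucc (nat_lit 10935171),Int.negSucc (nat_lit 22143557),Int.ofNat (nat_lit 12346247),Int.negSucc (nat_lit 29415207),Int.ofNat (nat_lit 230365702)])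

/-- A row. -/
noncomputable def sr6_c2_10 : List ℕ × List ℤ :=
  ([(nat_lit 0),(nat_lit 1),(nat_lit 0),(nat_lit 0),(nat_lit 0),(nat_lit 1),(nat_lit 0),(nat_lit 0),(nat_lit 0),(nat_lit 0),(nat_lit 0),(nat_lit 0)], [Int.ofNat (nat_lit 916586711),Int.negSucc (nat_lit 1690269791),Int.ofNat (nat_lit 386244481),Int.ofNat (nat_lit 352282660),Int.ofNat (nat_lit 670005378),Int.negSucc (nat_lit 375138917),Int.ofNat (nat_lit 201210400),Int.ofNat (nat_lit 879912936),Int.negSucc (nat_lit 578911412),Int.negSucc (nat_lit 420605813),Int.ofNat (nat_lit 279746161),Int.negSucc (nat_lit 157778217),Int.negSucc (nat_lit 58068119),Int.ofNat (nat_lit 61183262),Int.negSucc (nat_lit 89066687),Int.ofNat (nat_lit 224135660),Int.negSucc (nat_lit 59545428),Int.negSucc (nat_lit 339014749),Int.ofNat (nat_lit 57860120),Int.ofNat (nat_lit 186306902),Int.negSucc (nat_lit 198718306),Int.ofNat (nat_lit 181120346),Int.negSucc (nat_lit 180149706),Int.ofNat (nat_lit 298127636),Int.ofNat (nat_lit 5900429),Int.ofNat (nat_lit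 139317053),Int.negSucc (nat_lit 145181086),Int.ofNat (nat_lit 390712437),Int.ofNat (nat_lit 107287252),Int.ofNat (nat_lit 334566067),Int.ofNat (nat_lit 717228335),Int.negSucc (nat_lit 4050508),Int.negSucc (nat_lit 99693390),Int.ofNat (nat_lit 144828108),Int.negSucc (nat_lit 362984850),Int.negSucc (nat_lit 826706483),Int.ofNat (nat_lit 13496043),Int.ofNat (nat_lit 7685014),Int.ofNat (nat_lit 153552881),Int.negSucc (nat_lit 180018424),Int.ofNat (nat_lit 108319749),Int.ofNat (nat_lit 178032722),Int.ofNat (nat_lit 47337204),Int.negSucc (nat_lit 257720576),Int.negSucc (nat_lit 224708828),Int.negSucc (nat_lit 11795471),Int.negSucc (nat_lit 45957264),Int.ofNat (nat_lit 28692876),Int.ofNat (nat_lit 45303006),Int.negSucc (nat_lit 83926349),Int.ofNat (nat_lit 86814716),Int.ofNat (nat_lit 107633155),Int.negSucc (nat_lit 39590757),Int.ofNat (nat_lit 373539134),Int.ofNat (nat_lit 77969462),Int.negSucc (nat_lit 128898432),Int.negSucc (nat_lit 2329898),Int.negSucc (nat_lit 44668147),Int.ofNat (nat_lit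 251902935),Int.ofNat (nat_lit 35214990),Int.ofNat (nat_lit 78794446),Int.ofNat (nat_lit 29412555),Int.ofNat (nat_lit 151194292),Int.ofNat (nat_lit 30582165),Int.ofNat (nat_lit 193062546),Int.ofNat (nat_lit 151229185),Int.ofNat (nat_lit 4351807),Int.ofNat (nat_lit 134831612),Int.ofNat (nat_lit 68397378),Int.ofNat (nat_lit 57548473),Int.negSucc (nat_lit 186761904),Int.ofNat (nat_lit 57989826),Int.ofNat (nat_lit 10833876),Int.ofNat (nat_lit 161201824),Int.negSucc (nat_lit 138355120),Int.negSucc (nat_lit 53058460),Int.negSucc (nat_lit 86044000),Int.ofNat (nat_lit 584173),Int.negSucc (nat_lit 24864979),Int.ofNat (nat_lit 23082637),Int.negSucc (nat_lit 23045107),Int.ofNat (nat_lit 3391377),Int.ofNat (nat_lit 25734968),Int.ofNat (nat_lit 45816172),Int.negSucc (nat_lit 44392194),Int.negSucc (nat_lit 41879572),Int.ofNat (nat_lit 79953125),Int.ofNat (nat_lit 86447302),Int.negSucc (nat_lit 15762546),Int.negSucc (nat_lit 110480754),Int.negSucc (nat_lit 116056056),Int.ofNat (nat_lit 55173822),Int.negSucc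 (nat_lit 40062434),Int.negSucc (nat_lit 33344003),Int.negSucc (nat_lit 27104443),Int.ofNat (nat_lit 14625330),Int.ofNat (nat_lit 37615487),Int.ofNat (nat_lit 8458919),Int.ofNat (nat_lit 51747700),Int.negSucc (nat_lit 17018006),Int.ofNat (nat_lit 39657530),Int.ofNat (nat_lit 27226638),Int.ofNat (nat_lit 20738160),Int.negSucc (nat_lit 108376154),Int.negSucc (nat_lit 68848707),Int.ofNat (nat_lit 27479340),Int.ofNat (nat_lit 134344613),Int.ofNat (nat_lit 4280676),Int.negSucc (nat_lit 125559622),Int.ofNat (nat_lit 36483023),Int.negSucc (nat_lit 56567865),Int.negSucc (nat_lit 42269421),Int.ofNat (nat_lit 24576536),Int.negSucc (nat_lit 56798127),Int.negSucc (nat_lit 108576950),Int.ofNat (nat_lit 60405164),Int.negSucc (nat_lit 97255274),Int.negSucc (nat_lit 23347670),Int.negSucc (nat_lit 11621403),Int.ofNat (nat_lit 27616608),Int.ofNat (nat_lit 20538502),Int.negSucc (nat_lit 43327293),Int.negSucc (nat_lit 155613181),Int.ofNat (nat_lit 39419894),Int.ofNat (nat_lit 39435899),Int.ofNat (nat_lit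 33123106),Int.negSucc (nat_lit 73739061),Int.negSucc (nat_lit 37718843),Int.ofNat (nat_lit 100059376),Int.negSucc (nat_lit 75142865),Int.negSucc (nat_lit 100626103),Int.negSucc (nat_lit 6957926),Int.negSucc (nat_lit 18516580),Int.negSucc (nat_lit 39660560),Int.negSucc (nat_lit 28470258),Int.ofNat (nat_lit 7379873),Int.negSucc (nat_lit 64803733),Int.ofNat (nat_lit 8103054),Int.ofNat (nat_lit 56618750),Int.ofNat (nat_lit 252995815),Int.ofNat (nat_lit 159690356),Int.ofNat (nat_lit 119943363),Int.negSucc (nat_lit 182667876),Int.negSucc (nat_lit 378820357),Int.ofNat (nat_lit 18026525),Int.negSucc (nat_lit 84259638),Int.negSucc (nat_lit 100775974),Int.negSucc (nat_lit 64710815),Int.ofNat (nat_lit 120703643),Int.ofNat (nat_lit 669513192)])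

/-- A row. -/
noncomputable def sr6_c2_11 : List ℕ × List ℤ :=
  ([(nat_lit 0),(nat_lit 1),(nat_lit 0),(nat_lit 1),(nat_lit 0),(nat_lit 0),(nat_lit 0),(nat_lit 0),(nat_lit 0),(nat_lit 0),(nat_lit 0),(nat_lit 0)], [Int.negSucc (nat_lit 1442922284),Int.ofNat (nat_lit 1547718091),Int.ofNat (nat_lit 86935313),Int.negSucc (nat_lit 1292117950),Int.negSucc (nat_lit 1062382189),Int.negSucc (nat_lit 393902404),Int.negSucc (nat_lit 12214553),Int.negSucc (nat_lit 583359247),Int.ofNat (nat_lit 428566856),Int.negSucc (nat_lit 490667054),Int.negSucc (nat_lit 493435675),Int.negSucc (nat_lit 347935910),Int.ofNat (nat_lit 601614638),Int.ofNat (nat_lit 52745667),Int.ofNat (nat_lit 1034959),Int.ofNat (nat_lit 95658165),Int.ofNat (nat_lit 206850417),Int.ofNat (nat_lit 217075580),Int.negSucc (nat_lit 373678210),Int.ofNat (nat_lit 535108118),Int.negSucc (nat_lit 253235665),Int.ofNat (nat_lit 380993134),Int.ofNat (nat_lit 245637039),Int.ofNat (nat_lit 322361859),Int.negSucc (nat_lit 6573858),Int.negSucc (nat_lit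 509583050),Int.ofNat (nat_lit 47214265),Int.negSucc (nat_lit 296772391),Int.ofNat (nat_lit 301657581),Int.negSucc (nat_lit 254856664),Int.negSucc (nat_lit 35589410),Int.ofNat (nat_lit 60693618),Int.negSucc (nat_lit 40089895),Int.negSucc (nat_lit 11813286),Int.ofNat (nat_lit 119916270),Int.ofNat (nat_lit 831087753),Int.negSucc (nat_lit 32698307),Int.negSucc (nat_lit 124357066),Int.negSucc (nat_lit 175005631),Int.ofNat (nat_lit 384910346),Int.ofNat (nat_lit 126722075),Int.ofNat (nat_lit 89947800),Int.ofNat (nat_lit 65136355),Int.ofNat (nat_lit 462622879),Int.ofNat (nat_lit 78205388),Int.negSucc (nat_lit 271848030),Int.ofNat (nat_lit 53185939),Int.ofNat (nat_lit 27440589),Int.ofNat (nat_lit 21655251),Int.negSucc (nat_lit 34775134),Int.negSucc (nat_lit 94580070),Int.negSucc (nat_lit 52683665),Int.negSucc (nat_lit 389384828),Int.negSucc (nat_lit 363528026),Int.negSucc (nat_lit 218385037),Int.ofNat (nat_lit 56086986),Int.ofNat (nat_lit 13147061),Int.ofNat (nat_lit 5278234),Int.negSucc (nat_lit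 207957825),Int.ofNat (nat_lit 102720583),Int.ofNat (nat_lit 184329275),Int.ofNat (nat_lit 42741128),Int.negSucc (nat_lit 209255993),Int.negSucc (nat_lit 8672059),Int.negSucc (nat_lit 131034462),Int.ofNat (nat_lit 81504380),Int.ofNat (nat_lit 43049950),Int.ofNat (nat_lit 10293401),Int.negSucc (nat_lit 283187353),Int.negSucc (nat_lit 98158561),Int.ofNat (nat_lit 136847459),Int.negSucc (nat_lit 4109781),Int.negSucc (nat_lit 4591854),Int.ofNat (nat_lit 121510066),Int.ofNat (nat_lit 36807214),Int.ofNat (nat_lit 76312957),Int.negSucc (nat_lit 16993228),Int.ofNat (nat_lit 50969280),Int.negSucc (nat_lit 24095206),Int.negSucc (nat_lit 24800440),Int.ofNat (nat_lit 133870640),Int.ofNat (nat_lit 159909942),Int.ofNat (nat_lit 77364692),Int.negSucc (nat_lit 189373305),Int.negSucc (nat_lit 134696039),Int.ofNat (nat_lit 45973496),Int.negSucc (nat_lit 189745130),Int.ofNat (nat_lit 90161287),Int.negSucc (nat_lit 62637411),Int.negSucc (nat_lit 247061231),Int.ofNat (nat_lit 95203006),Int.negSucc (nat_lit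 347701664),Int.ofNat (nat_lit 106666230),Int.ofNat (nat_lit 170782857),Int.negSucc (nat_lit 70394612),Int.negSucc (nat_lit 34045245),Int.negSucc (nat_lit 27562701),Int.ofNat (nat_lit 286126914),Int.negSucc (nat_lit 104525497),Int.negSucc (nat_lit 213606664),Int.negSucc (nat_lit 106453031),Int.ofNat (nat_lit 94098426),Int.negSucc (nat_lit 53407467),Int.negSucc (nat_lit 51063432),Int.ofNat (nat_lit 28041558),Int.negSucc (nat_lit 2235304),Int.negSucc (nat_lit 88564070),Int.ofNat (nat_lit 66197405),Int.ofNat (nat_lit 143333061),Int.negSucc (nat_lit 50111972),Int.ofNat (nat_lit 1649887),Int.negSucc (nat_lit 127697410),Int.ofNat (nat_lit 65426133),Int.ofNat (nat_lit 52759054),Int.ofNat (nat_lit 118694440),Int.negSucc (nat_lit 16300357),Int.negSucc (nat_lit 12255516),Int.negSucc (nat_lit 52589763),Int.negSucc (nat_lit 34586154),Int.negSucc (nat_lit 11282431),Int.negSucc (nat_lit 50223568),Int.ofNat (nat_lit 83050207),Int.ofNat (nat_lit 11881213),Int.negSucc (nat_lit 13786115),Int.ofNat (nat_lit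 64394487),Int.negSucc (nat_lit 47026236),Int.negSucc (nat_lit 74849674),Int.ofNat (nat_lit 17427728),Int.negSucc (nat_lit 23908614),Int.negSucc (nat_lit 104626162),Int.ofNat (nat_lit 4942617),Int.negSucc (nat_lit 7074910),Int.ofNat (nat_lit 3256448),Int.ofNat (nat_lit 40365366),Int.ofNat (nat_lit 72833627),Int.ofNat (nat_lit 86311328),Int.negSucc (nat_lit 19491347),Int.negSucc (nat_lit 53517873),Int.negSucc (nat_lit 53367969),Int.ofNat (nat_lit 45468825),Int.ofNat (nat_lit 118485574),Int.negSucc (nat_lit 60937507),Int.negSucc (nat_lit 113380418),Int.ofNat (nat_lit 446695079),Int.negSucc (nat_lit 869656675),Int.negSucc (nat_lit 69885342),Int.ofNat (nat_lit 190176376),Int.ofNat (nat_lit 65357074),Int.negSucc (nat_lit 212540762),Int.negSucc (nat_lit 255284461),Int.ofNat (nat_lit 1251322941)])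

/-- A row. -/
noncomputable def sr6_c2_12 : List ℕ × List ℤ :=
  ([(nat_lit 0),(nat_lit 1),(nat_lit 1),(nat_lit 1),(nat_lit 0),(nat_lit 0),(nat_lit 0),(nat_lit 0),(nat_lit 0),(nat_lit 0),(nat_lit 0),(nat_lit 0)], [Int.negSucc (nat_lit 448718698),Int.negSucc (nat_lit 316361922),Int.negSucc (nat_lit 320040092),Int.negSucc (nat_lit 92273570),Int.ofNat (nat_lit 580206726),Int.negSucc (nat_lit 200304860),Int.negSucc (nat_lit 220304110),Int.ofNat (nat_lit 470204957),Int.negSucc (nat_lit 64651404),Int.ofNat (nat_lit 180053593),Int.negSucc (nat_lit 76501347),Int.ofNat (nat_lit 4887985),Int.ofNat (nat_lit 180075909),Int.negSucc (nat_lit 145708036),Int.negSucc (nat_lit 175530967),Int.negSucc (nat_lit 1602782),Int.ofNat (nat_lit 382654725),Int.ofNat (nat_lit 32989530),Int.ofNat (nat_lit 170514164),Int.ofNat (nat_lit 157945764),Int.negSucc (nat_lit 114658129),Int.negSucc (nat_lit 116017470),Int.ofNat (nat_lit 98021680),Int.negSucc (nat_lit 201875246),Int.ofNat (nat_lit 60420028),Int.negSucc (nat_lit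 152180777),Int.negSucc (nat_lit 137793296),Int.negSucc (nat_lit 131189139),Int.negSucc (nat_lit 80601382),Int.ofNat (nat_lit 106854312),Int.ofNat (nat_lit 24065432),Int.negSucc (nat_lit 93093689),Int.ofNat (nat_lit 97669645),Int.negSucc (nat_lit 96025690),Int.negSucc (nat_lit 65866988),Int.ofNat (nat_lit 71341702),Int.ofNat (nat_lit 116003574),Int.negSucc (nat_lit 68556605),Int.ofNat (nat_lit 158596067),Int.negSucc (nat_lit 68812724),Int.negSucc (nat_lit 77903234),Int.ofNat (nat_lit 107103587),Int.negSucc (nat_lit 20246679),Int.ofNat (nat_lit 91164319),Int.negSucc (nat_lit 181084767),Int.ofNat (nat_lit 135974501),Int.ofNat (nat_lit 383891867),Int.negSucc (nat_lit 14878944),Int.negSucc (nat_lit 32692096),Int.negSucc (nat_lit 48584504),Int.negSucc (nat_lit 66063931),Int.negSucc (nat_lit 55069949),Int.negSucc (nat_lit 105132179),Int.ofNat (nat_lit 6932288),Int.negSucc (nat_lit 62683219),Int.negSucc (nat_lit 7894109),Int.ofNat (nat_lit 47373927),Int.negSucc (nat_lit 69611329),Int.negSucc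 (nat_lit 176043488),Int.ofNat (nat_lit 82654158),Int.ofNat (nat_lit 52261599),Int.ofNat (nat_lit 21592644),Int.negSucc (nat_lit 17466273),Int.negSucc (nat_lit 104072331),Int.ofNat (nat_lit 50774302),Int.negSucc (nat_lit 8591790),Int.ofNat (nat_lit 423472143),Int.ofNat (nat_lit 56057833),Int.ofNat (nat_lit 49137843),Int.ofNat (nat_lit 102689263),Int.negSucc (nat_lit 51130616),Int.negSucc (nat_lit 5363224),Int.ofNat (nat_lit 32045499),Int.ofNat (nat_lit 145532827),Int.negSucc (nat_lit 30720576),Int.ofNat (nat_lit 3971825),Int.negSucc (nat_lit 54590139),Int.negSucc (nat_lit 3777148),Int.negSucc (nat_lit 22991583),Int.ofNat (nat_lit 30050521),Int.negSucc (nat_lit 51979003),Int.ofNat (nat_lit 8055415),Int.ofNat (nat_lit 21391503),Int.negSucc (nat_lit 57233981),Int.negSucc (nat_lit 17529030),Int.negSucc (nat_lit 8023684),Int.negSucc (nat_lit 81627727),Int.ofNat (nat_lit 51097179),Int.ofNat (nat_lit 21991357),Int.negSucc (nat_lit 58166585),Int.negSucc (nat_lit 22796093),Int.negSucc (nat_lit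 7643833),Int.negSucc (nat_lit 30141194),Int.ofNat (nat_lit 1195699),Int.ofNat (nat_lit 7014457),Int.negSucc (nat_lit 11983732),Int.ofNat (nat_lit 40501449),Int.ofNat (nat_lit 48805786),Int.ofNat (nat_lit 92785171),Int.negSucc (nat_lit 44519495),Int.negSucc (nat_lit 55407515),Int.negSucc (nat_lit 44044540),Int.negSucc (nat_lit 3363465),Int.negSucc (nat_lit 39184930),Int.negSucc (nat_lit 92115515),Int.ofNat (nat_lit 20401642),Int.ofNat (nat_lit 23860262),Int.ofNat (nat_lit 45570276),Int.negSucc (nat_lit 55152261),Int.ofNat (nat_lit 24959566),Int.ofNat (nat_lit 418261),Int.negSucc (nat_lit 40806038),Int.ofNat (nat_lit 23184759),Int.negSucc (nat_lit 53077435),Int.negSucc (nat_lit 35716069),Int.negSucc (nat_lit 45740714),Int.negSucc (nat_lit 34885064),Int.ofNat (nat_lit 14830882),Int.negSucc (nat_lit 1407985),Int.negSucc (nat_lit 7369353),Int.negSucc (nat_lit 62484553),Int.ofNat (nat_lit 3772434),Int.negSucc (nat_lit 90521328),Int.ofNat (nat_lit 95261970),Int.ofNat (nat_lit 50126761),Int.ofNat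 (nat_lit 72801332),Int.negSucc (nat_lit 5370353),Int.ofNat (nat_lit 22315457),Int.negSucc (nat_lit 38883124),Int.negSucc (nat_lit 62689459),Int.ofNat (nat_lit 280446),Int.ofNat (nat_lit 4456937),Int.ofNat (nat_lit 25913872),Int.negSucc (nat_lit 13736746),Int.negSucc (nat_lit 64744510),Int.ofNat (nat_lit 39608680),Int.negSucc (nat_lit 41813261),Int.negSucc (nat_lit 21648381),Int.ofNat (nat_lit 27058791),Int.negSucc (nat_lit 93527422),Int.ofNat (nat_lit 73222656),Int.ofNat (nat_lit 25361712),Int.negSucc (nat_lit 10549169),Int.negSucc (nat_lit 27708783),Int.ofNat (nat_lit 72362006),Int.negSucc (nat_lit 167634974),Int.ofNat (nat_lit 110540944),Int.negSucc (nat_lit 33759096),Int.negSucc (nat_lit 76365723),Int.ofNat (nat_lit 129584410),Int.ofNat (nat_lit 212800970),Int.ofNat (nat_lit 666950658)])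

/-- A row. -/
noncomputable def sr6_c2_13 : List ℕ × List ℤ :=
  ([(nat_lit 0),(nat_lit 2),(nat_lit 0),(nat_lit 0),(nat_lit 0),(nat_lit 0),(nat_lit 0),(nat_lit 0),(nat_lit 0),(nat_lit 0),(nat_lit 0),(nat_lit 0)], [Int.ofNat (nat_lit 1471061223),Int.ofNat (nat_lit 463508295),Int.ofNat (nat_lit 849882846),Int.ofNat (nat_lit 2089208652),Int.negSucc (nat_lit 496696039),Int.ofNat (nat_lit 407774266),Int.ofNat (nat_lit 253939475),Int.ofNat (nat_lit 473157732),Int.negSucc (nat_lit 338095865),Int.ofNat (nat_lit 314266656),Int.ofNat (nat_lit 1180465406),Int.ofNat (nat_lit 532827661),Int.negSucc (nat_lit 303948368),Int.ofNat (nat_lit 44836731),Int.negSucc (nat_lit 6863620),Int.negSucc (nat_lit 55406739),Int.negSucc (nat_lit 285809315),Int.negSucc (nat_lit 302642809),Int.ofNat (nat_lit 748395397),Int.negSucc (nat_lit 424699471),Int.ofNat (nat_lit 314581011),Int.negSucc (nat_lit 333599428),Int.negSucc (nat_lit 154780677),Int.ofNat (nat_lit 383819042),Int.negSucc (nat_lit 285035383),Int.ofNat (nat_lit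 509523120),Int.ofNat (nat_lit 85481501),Int.ofNat (nat_lit 883539858),Int.negSucc (nat_lit 329658199),Int.ofNat (nat_lit 313580433),Int.ofNat (nat_lit 67664630),Int.ofNat (nat_lit 45502871),Int.ofNat (nat_lit 383103006),Int.negSucc (nat_lit 92310522),Int.negSucc (nat_lit 538968449),Int.negSucc (nat_lit 269061172),Int.ofNat (nat_lit 238633196),Int.ofNat (nat_lit 37104549),Int.ofNat (nat_lit 247476303),Int.negSucc (nat_lit 413987133),Int.negSucc (nat_lit 46151793),Int.ofNat (nat_lit 66750642),Int.ofNat (nat_lit 72690445),Int.negSucc (nat_lit 288469910),Int.negSucc (nat_lit 163133015),Int.ofNat (nat_lit 289413270),Int.negSucc (nat_lit 418041816),Int.negSucc (nat_lit 309473516),Int.ofNat (nat_lit 38626309),Int.ofNat (nat_lit 271034218),Int.ofNat (nat_lit 380225991),Int.negSucc (nat_lit 62608777),Int.ofNat (nat_lit 104642442),Int.ofNat (nat_lit 255686930),Int.ofNat (nat_lit 293148072),Int.negSucc (nat_lit 239953577),Int.negSucc (nat_lit 295616023),Int.negSucc (nat_lit 339195755),Int.ofNat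 (nat_lit 114749150),Int.negSucc (nat_lit 125002959),Int.ofNat (nat_lit 59676283),Int.negSucc (nat_lit 266365006),Int.ofNat (nat_lit 36497188),Int.ofNat (nat_lit 198455044),Int.ofNat (nat_lit 234946861),Int.ofNat (nat_lit 144339763),Int.negSucc (nat_lit 35855917),Int.ofNat (nat_lit 238742139),Int.ofNat (nat_lit 206153559),Int.negSucc (nat_lit 98030334),Int.negSucc (nat_lit 504140218),Int.negSucc (nat_lit 97656377),Int.negSucc (nat_lit 94465502),Int.negSucc (nat_lit 350635025),Int.negSucc (nat_lit 42271122),Int.negSucc (nat_lit 55020846),Int.ofNat (nat_lit 6838693),Int.negSucc (nat_lit 98025155),Int.ofNat (nat_lit 2703664),Int.ofNat (nat_lit 108467468),Int.negSucc (nat_lit 117381350),Int.negSucc (nat_lit 190607492),Int.negSucc (nat_lit 77658297),Int.ofNat (nat_lit 95574168),Int.ofNat (nat_lit 79958180),Int.negSucc (nat_lit 449366),Int.ofNat (nat_lit 181434488),Int.negSucc (nat_lit 236310907),Int.ofNat (nat_lit 47993939),Int.ofNat (nat_lit 262336906),Int.negSucc (nat_lit 84398677),Int.ofNat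 (nat_lit 319940404),Int.negSucc (nat_lit 322233728),Int.negSucc (nat_lit 268539754),Int.ofNat (nat_lit 113050574),Int.ofNat (nat_lit 62505359),Int.negSucc (nat_lit 73202431),Int.negSucc (nat_lit 458565595),Int.ofNat (nat_lit 85941843),Int.ofNat (nat_lit 617403514),Int.ofNat (nat_lit 74555782),Int.ofNat (nat_lit 60481313),Int.negSucc (nat_lit 54358024),Int.negSucc (nat_lit 32021063),Int.negSucc (nat_lit 49062284),Int.negSucc (nat_lit 38631134),Int.ofNat (nat_lit 108575735),Int.negSucc (nat_lit 7821868),Int.negSucc (nat_lit 138863151),Int.negSucc (nat_lit 30809616),Int.negSucc (nat_lit 3522263),Int.ofNat (nat_lit 254066797),Int.negSucc (nat_lit 161871038),Int.negSucc (nat_lit 56959265),Int.negSucc (nat_lit 102612900),Int.negSucc (nat_lit 26840283),Int.ofNat (nat_lit 5731394),Int.ofNat (nat_lit 170483058),Int.ofNat (nat_lit 67519350),Int.negSucc (nat_lit 34744257),Int.ofNat (nat_lit 71513604),Int.negSucc (nat_lit 124402014),Int.ofNat (nat_lit 60395039),Int.negSucc (nat_lit 91610403),Int.ofNat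 (nat_lit 47338767),Int.ofNat (nat_lit 35385769),Int.ofNat (nat_lit 158574081),Int.negSucc (nat_lit 122847457),Int.ofNat (nat_lit 41162655),Int.ofNat (nat_lit 143081804),Int.negSucc (nat_lit 32087377),Int.ofNat (nat_lit 46614856),Int.negSucc (nat_lit 53310138),Int.negSucc (nat_lit 90149316),Int.negSucc (nat_lit 100758253),Int.negSucc (nat_lit 148098),Int.negSucc (nat_lit 45932124),Int.ofNat (nat_lit 26334100),Int.ofNat (nat_lit 140099149),Int.negSucc (nat_lit 531380849),Int.negSucc (nat_lit 254940590),Int.ofNat (nat_lit 546951642),Int.negSucc (nat_lit 287436860),Int.negSucc (nat_lit 151523169),Int.ofNat (nat_lit 829397239),Int.ofNat (nat_lit 744462330),Int.negSucc (nat_lit 68066469),Int.negSucc (nat_lit 66005988),Int.ofNat (nat_lit 58478033),Int.ofNat (nat_lit 506190295),Int.negSucc (nat_lit 961549315),Int.ofNat (nat_lit 134447658),Int.ofNat (nat_lit 2009420314)])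

/-- A row. -/
noncomputable def sr6_c2_14 : List ℕ × List ℤ :=
  ([(nat_lit 0),(nat_lit 2),(nat_lit 0),(nat_lit 0),(nat_lit 1),(nat_lit 0),(nat_lit 0),(nat_lit 0),(nat_lit 0),(nat_lit 0),(nat_lit 0),(nat_lit 0)], [Int.ofNat (nat_lit 976821156),Int.ofNat (nat_lit 676857633),Int.ofNat (nat_lit 575540716),Int.negSucc (nat_lit 369173522),Int.ofNat (nat_lit 390518436),Int.ofNat (nat_lit 127015101),Int.ofNat (nat_lit 229023408),Int.ofNat (nat_lit 72976098),Int.negSucc (nat_lit 246399075),Int.ofNat (nat_lit 57647878),Int.ofNat (nat_lit 76660842),Int.negSucc (nat_lit 261990644),Int.ofNat (nat_lit 176203876),Int.ofNat (nat_lit 242324220),Int.ofNat (nat_lit 96456491),Int.ofNat (nat_lit 203695935),Int.ofNat (nat_lit 217361456),Int.negSucc (nat_lit 272067855),Int.negSucc (nat_lit 41842585),Int.ofNat (nat_lit 61311714),Int.negSucc (nat_lit 278763680),Int.ofNat (nat_lit 107120569),Int.ofNat (nat_lit 21696626),Int.ofNat (nat_lit 348634844),Int.negSucc (nat_lit 112498498),Int.ofNat (nat_lit 230670045),Int.negSucc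 (nat_lit 75272905),Int.ofNat (nat_lit 328689758),Int.ofNat (nat_lit 78279348),Int.ofNat (nat_lit 270940091),Int.ofNat (nat_lit 234877679),Int.ofNat (nat_lit 132748847),Int.ofNat (nat_lit 101422961),Int.ofNat (nat_lit 218015005),Int.negSucc (nat_lit 237070068),Int.negSucc (nat_lit 276795656),Int.ofNat (nat_lit 103285931),Int.ofNat (nat_lit 96983111),Int.ofNat (nat_lit 57848179),Int.negSucc (nat_lit 91327541),Int.negSucc (nat_lit 49923427),Int.ofNat (nat_lit 91357722),Int.ofNat (nat_lit 22996718),Int.negSucc (nat_lit 17433348),Int.ofNat (nat_lit 18075518),Int.ofNat (nat_lit 40048453),Int.ofNat (nat_lit 573189),Int.ofNat (nat_lit 155438647),Int.ofNat (nat_lit 67090390),Int.ofNat (nat_lit 16718612),Int.negSucc (nat_lit 87548971),Int.ofNat (nat_lit 89543900),Int.negSucc (nat_lit 27411044),Int.negSucc (nat_lit 107348504),Int.ofNat (nat_lit 41702572),Int.ofNat (nat_lit 39733833),Int.ofNat (nat_lit 111684689),Int.ofNat (nat_lit 61202517),Int.ofNat (nat_lit 275364267),Int.ofNat (nat_lit 14563569),Int.ofNat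 (nat_lit 372449001),Int.ofNat (nat_lit 351153203),Int.ofNat (nat_lit 115129146),Int.negSucc (nat_lit 90187990),Int.ofNat (nat_lit 63689243),Int.negSucc (nat_lit 14591995),Int.negSucc (nat_lit 18205085),Int.ofNat (nat_lit 195412262),Int.ofNat (nat_lit 49903418),Int.negSucc (nat_lit 40829949),Int.ofNat (nat_lit 229859890),Int.ofNat (nat_lit 137851141),Int.ofNat (nat_lit 85926864),Int.negSucc (nat_lit 41906210),Int.negSucc (nat_lit 40829132),Int.ofNat (nat_lit 6563870),Int.ofNat (nat_lit 30118253),Int.ofNat (nat_lit 51654640),Int.ofNat (nat_lit 36536314),Int.negSucc (nat_lit 43125607),Int.ofNat (nat_lit 20442750),Int.ofNat (nat_lit 36565466),Int.ofNat (nat_lit 30230483),Int.ofNat (nat_lit 18795526),Int.negSucc (nat_lit 28302909),Int.ofNat (nat_lit 2764191),Int.ofNat (nat_lit 38494838),Int.ofNat (nat_lit 124729441),Int.ofNat (nat_lit 92466791),Int.ofNat (nat_lit 17919514),Int.negSucc (nat_lit 59614384),Int.negSucc (nat_lit 31476753),Int.ofNat (nat_lit 42090707),Int.negSucc (nat_lit 2341343),Int.ofNat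 (nat_lit 58225651),Int.negSucc (nat_lit 19510829),Int.ofNat (nat_lit 96180039),Int.ofNat (nat_lit 31703167),Int.negSucc (nat_lit 82928468),Int.negSucc (nat_lit 60989325),Int.ofNat (nat_lit 232634373),Int.negSucc (nat_lit 48183512),Int.ofNat (nat_lit 38171179),Int.ofNat (nat_lit 14504019),Int.negSucc (nat_lit 63978270),Int.ofNat (nat_lit 54788218),Int.ofNat (nat_lit 39349595),Int.negSucc (nat_lit 2962704),Int.ofNat (nat_lit 42276917),Int.ofNat (nat_lit 82301689),Int.ofNat (nat_lit 51705378),Int.negSucc (nat_lit 25205740),Int.ofNat (nat_lit 50792379),Int.ofNat (nat_lit 96411755),Int.negSucc (nat_lit 11826192),Int.negSucc (nat_lit 12863304),Int.negSucc (nat_lit 17882391),Int.negSucc (nat_lit 97712905),Int.negSucc (nat_lit 12525691),Int.ofNat (nat_lit 36380533),Int.ofNat (nat_lit 11569981),Int.negSucc (nat_lit 12519386),Int.negSucc (nat_lit 66807516),Int.ofNat (nat_lit 40334936),Int.negSucc (nat_lit 64744840),Int.ofNat (nat_lit 5388283),Int.ofNat (nat_lit 40901851),Int.negSucc (nat_lit 23065581),Int.negSucc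 (nat_lit 2382208),Int.negSucc (nat_lit 89932184),Int.ofNat (nat_lit 16073267),Int.negSucc (nat_lit 21217641),Int.negSucc (nat_lit 24154545),Int.ofNat (nat_lit 57387047),Int.ofNat (nat_lit 32755165),Int.negSucc (nat_lit 6482040),Int.ofNat (nat_lit 29920866),Int.ofNat (nat_lit 25557535),Int.negSucc (nat_lit 17942405),Int.ofNat (nat_lit 91372608),Int.ofNat (nat_lit 132865508),Int.negSucc (nat_lit 70860585),Int.ofNat (nat_lit 8957652),Int.negSucc (nat_lit 75138520),Int.negSucc (nat_lit 149881670),Int.negSucc (nat_lit 19387907),Int.negSucc (nat_lit 46388242),Int.negSucc (nat_lit 96064207),Int.ofNat (nat_lit 85235733),Int.negSucc (nat_lit 77784155),Int.negSucc (nat_lit 149312023),Int.negSucc (nat_lit 226803074),Int.negSucc (nat_lit 380623037),Int.ofNat (nat_lit 974015024)])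

/-- A row. -/
noncomputable def sr6_c2_15 : List ℕ × List ℤ :=
  ([(nat_lit 0),(nat_lit 2),(nat_lit 1),(nat_lit 0),(nat_lit 0),(nat_lit 0),(nat_lit 0),(nat_lit 0),(nat_lit 0),(nat_lit 0),(nat_lit 0),(nat_lit 0)], [Int.ofNat (nat_lit 1316353031),Int.ofNat (nat_lit 2181229172),Int.ofNat (nat_lit 376884524),Int.ofNat (nat_lit 133632437),Int.negSucc (nat_lit 544389136),Int.ofNat (nat_lit 414207018),Int.ofNat (nat_lit 603093859),Int.negSucc (nat_lit 453701127),Int.negSucc (nat_lit 75695040),Int.negSucc (nat_lit 480943223),Int.ofNat (nat_lit 316140828),Int.ofNat (nat_lit 174247178),Int.negSucc (nat_lit 255937976),Int.ofNat (nat_lit 200442070),Int.ofNat (nat_lit 28632750),Int.negSucc (nat_lit 227069207),Int.negSucc (nat_lit 237911944),Int.negSucc (nat_lit 401747765),Int.ofNat (nat_lit 74671438),Int.negSucc (nat_lit 2420010),Int.ofNat (nat_lit 101121193),Int.negSucc (nat_lit 31851404),Int.negSucc (nat_lit 55004982),Int.ofNat (nat_lit 943972359),Int.negSucc (nat_lit 271392187),Int.ofNat (nat_lit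 434774231),Int.ofNat (nat_lit 428968973),Int.ofNat (nat_lit 768749430),Int.ofNat (nat_lit 149413002),Int.ofNat (nat_lit 6675960),Int.negSucc (nat_lit 232476755),Int.ofNat (nat_lit 296222599),Int.ofNat (nat_lit 439631399),Int.ofNat (nat_lit 2663124),Int.negSucc (nat_lit 220307997),Int.ofNat (nat_lit 433260840),Int.ofNat (nat_lit 165630723),Int.ofNat (nat_lit 16446735),Int.negSucc (nat_lit 389401750),Int.negSucc (nat_lit 52530981),Int.ofNat (nat_lit 109656462),Int.negSucc (nat_lit 246483406),Int.negSucc (nat_lit 35936917),Int.negSucc (nat_lit 129980069),Int.ofNat (nat_lit 292721738),Int.negSucc (nat_lit 170637632),Int.negSucc (nat_lit 566809420),Int.negSucc (nat_lit 165874096),Int.ofNat (nat_lit 313468608),Int.ofNat (nat_lit 179517340),Int.ofNat (nat_lit 339642967),Int.negSucc (nat_lit 38051649),Int.negSucc (nat_lit 92898658),Int.negSucc (nat_lit 98756863),Int.ofNat (nat_lit 185792760),Int.negSucc (nat_lit 2208296),Int.negSucc (nat_lit 300181025),Int.negSucc (nat_lit 130245138),Int.negSucc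 (nat_lit 48940734),Int.negSucc (nat_lit 139666332),Int.ofNat (nat_lit 133444707),Int.negSucc (nat_lit 118308207),Int.negSucc (nat_lit 79346870),Int.ofNat (nat_lit 129601334),Int.ofNat (nat_lit 80054535),Int.ofNat (nat_lit 211979640),Int.negSucc (nat_lit 204769191),Int.ofNat (nat_lit 226039876),Int.ofNat (nat_lit 54123041),Int.negSucc (nat_lit 152514610),Int.negSucc (nat_lit 390956047),Int.ofNat (nat_lit 11825452),Int.ofNat (nat_lit 69036856),Int.negSucc (nat_lit 360236226),Int.ofNat (nat_lit 100922778),Int.ofNat (nat_lit 41680254),Int.ofNat (nat_lit 149072157),Int.ofNat (nat_lit 11694249),Int.negSucc (nat_lit 13645296),Int.ofNat (nat_lit 48576290),Int.ofNat (nat_lit 36272439),Int.negSucc (nat_lit 104701782),Int.negSucc (nat_lit 672769),Int.negSucc (nat_lit 108252672),Int.negSucc (nat_lit 31602531),Int.ofNat (nat_lit 37693989),Int.ofNat (nat_lit 14274191),Int.negSucc (nat_lit 310094973),Int.negSucc (nat_lit 61018978),Int.ofNat (nat_lit 68961257),Int.ofNat (nat_lit 153842895),Int.negSucc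 (nat_lit 3797410),Int.negSucc (nat_lit 170423941),Int.negSucc (nat_lit 64009376),Int.negSucc (nat_lit 33495484),Int.ofNat (nat_lit 143483726),Int.ofNat (nat_lit 19314881),Int.negSucc (nat_lit 117519167),Int.negSucc (nat_lit 181584806),Int.ofNat (nat_lit 184928687),Int.negSucc (nat_lit 14882931),Int.ofNat (nat_lit 426711003),Int.negSucc (nat_lit 119191116),Int.ofNat (nat_lit 35584072),Int.ofNat (nat_lit 93720984),Int.negSucc (nat_lit 126147407),Int.ofNat (nat_lit 8287618),Int.ofNat (nat_lit 3315352),Int.ofNat (nat_lit 71249795),Int.negSucc (nat_lit 90055249),Int.negSucc (nat_lit 17272080),Int.ofNat (nat_lit 176744339),Int.negSucc (nat_lit 87938509),Int.ofNat (nat_lit 109102808),Int.ofNat (nat_lit 83195134),Int.negSucc (nat_lit 34244529),Int.ofNat (nat_lit 12290334),Int.ofNat (nat_lit 43855366),Int.ofNat (nat_lit 36647178),Int.negSucc (nat_lit 20760873),Int.ofNat (nat_lit 82922692),Int.negSucc (nat_lit 27928948),Int.ofNat (nat_lit 115950749),Int.negSucc (nat_lit 145035527),Int.ofNat (nat_lit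 64770366),Int.negSucc (nat_lit 94441332),Int.ofNat (nat_lit 154554780),Int.negSucc (nat_lit 167875932),Int.ofNat (nat_lit 9335794),Int.ofNat (nat_lit 192545966),Int.negSucc (nat_lit 59482378),Int.ofNat (nat_lit 29129394),Int.negSucc (nat_lit 51796414),Int.ofNat (nat_lit 2492105),Int.ofNat (nat_lit 60297582),Int.ofNat (nat_lit 43585980),Int.negSucc (nat_lit 16437916),Int.negSucc (nat_lit 17821015),Int.ofNat (nat_lit 34871233),Int.negSucc (nat_lit 815753400),Int.negSucc (nat_lit 178621310),Int.ofNat (nat_lit 248756542),Int.negSucc (nat_lit 305290180),Int.ofNat (nat_lit 100445065),Int.ofNat (nat_lit 7280646),Int.ofNat (nat_lit 481437747),Int.negSucc (nat_lit 288176075),Int.ofNat (nat_lit 459243645),Int.negSucc (nat_lit 44488492),Int.negSucc (nat_lit 198364548),Int.ofNat (nat_lit 82621961),Int.negSucc (nat_lit 476996047),Int.ofNat (nat_lit 1944125793),Int.ofNat (nat_lit 33326539),Int.ofNat (nat_lit 1304331311)])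

/-- A row. -/
noncomputable def sr6_c2_16 : List ℕ × List ℤ :=
  ([(nat_lit 0),(nat_lit 3),(nat_lit 0),(nat_lit 1),(nat_lit 0),(nat_lit 0),(nat_lit 0),(nat_lit 0),(nat_lit 0),(nat_lit 0),(nat_lit 0),(nat_lit 0)], [Int.ofNat (nat_lit 373310342),Int.ofNat (nat_lit 168584408),Int.negSucc (nat_lit 42066369),Int.ofNat (nat_lit 224012648),Int.ofNat (nat_lit 187131792),Int.ofNat (nat_lit 208994493),Int.negSucc (nat_lit 231165285),Int.ofNat (nat_lit 237435191),Int.negSucc (nat_lit 391258945),Int.negSucc (nat_lit 1120434297),Int.ofNat (nat_lit 172744385),Int.ofNat (nat_lit 339866954),Int.negSucc (nat_lit 297327817),Int.negSucc (nat_lit 260053462),Int.ofNat (nat_lit 191774897),Int.negSucc (nat_lit 72438832),Int.ofNat (nat_lit 88094678),Int.ofNat (nat_lit 76451032),Int.negSucc (nat_lit 228630315),Int.negSucc (nat_lit 419727069),Int.ofNat (nat_lit 994611697),Int.negSucc (nat_lit 277230720),Int.ofNat (nat_lit 219608005),Int.ofNat (nat_lit 214118142),Int.negSucc (nat_lit 122967038),Int.ofNat (nat_lit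 322828307),Int.negSucc (nat_lit 794972192),Int.ofNat (nat_lit 159346482),Int.ofNat (nat_lit 275144196),Int.negSucc (nat_lit 929783125),Int.ofNat (nat_lit 889531203),Int.ofNat (nat_lit 172033028),Int.negSucc (nat_lit 260389313),Int.ofNat (nat_lit 614620967),Int.negSucc (nat_lit 249767393),Int.negSucc (nat_lit 138295012),Int.negSucc (nat_lit 40960479),Int.ofNat (nat_lit 252749187),Int.ofNat (nat_lit 165724293),Int.negSucc (nat_lit 282119195),Int.ofNat (nat_lit 19521542),Int.ofNat (nat_lit 68303035),Int.negSucc (nat_lit 114243494),Int.negSucc (nat_lit 317794946),Int.ofNat (nat_lit 21201631),Int.negSucc (nat_lit 32925414),Int.negSucc (nat_lit 379846675),Int.ofNat (nat_lit 64030582),Int.ofNat (nat_lit 86611930),Int.negSucc (nat_lit 125700539),Int.ofNat (nat_lit 144760095),Int.ofNat (nat_lit 562504907),Int.ofNat (nat_lit 223723374),Int.ofNat (nat_lit 253986078),Int.ofNat (nat_lit 153488897),Int.negSucc (nat_lit 663294323),Int.negSucc (nat_lit 295183609),Int.negSucc (nat_lit 281990517),Int.ofNat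 (nat_lit 341025752),Int.negSucc (nat_lit 253482158),Int.negSucc (nat_lit 353743337),Int.negSucc (nat_lit 262491836),Int.ofNat (nat_lit 678094572),Int.ofNat (nat_lit 92438604),Int.ofNat (nat_lit 327069498),Int.ofNat (nat_lit 172140859),Int.negSucc (nat_lit 405119180),Int.ofNat (nat_lit 130227880),Int.ofNat (nat_lit 145555642),Int.ofNat (nat_lit 18805384),Int.negSucc (nat_lit 156930405),Int.ofNat (nat_lit 74223131),Int.negSucc (nat_lit 296094),Int.negSucc (nat_lit 41787035),Int.negSucc (nat_lit 86904715),Int.negSucc (nat_lit 115969542),Int.ofNat (nat_lit 74422090),Int.negSucc (nat_lit 89915420),Int.negSucc (nat_lit 31753400),Int.negSucc (nat_lit 25488749),Int.negSucc (nat_lit 113172682),Int.ofNat (nat_lit 157928317),Int.negSucc (nat_lit 79384100),Int.ofNat (nat_lit 200828768),Int.negSucc (nat_lit 61336795),Int.negSucc (nat_lit 68734466),Int.ofNat (nat_lit 304049709),Int.ofNat (nat_lit 1633162),Int.ofNat (nat_lit 126521402),Int.negSucc (nat_lit 52232255),Int.negSucc (nat_lit 379390052),Int.negSucc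 (nat_lit 112633765),Int.negSucc (nat_lit 60669654),Int.negSucc (nat_lit 158491553),Int.ofNat (nat_lit 141505102),Int.ofNat (nat_lit 6824572),Int.ofNat (nat_lit 28884223),Int.negSucc (nat_lit 287027088),Int.negSucc (nat_lit 135061651),Int.ofNat (nat_lit 68390933),Int.negSucc (nat_lit 197700053),Int.ofNat (nat_lit 35259034),Int.ofNat (nat_lit 621650654),Int.negSucc (nat_lit 302343867),Int.negSucc (nat_lit 87160078),Int.ofNat (nat_lit 85863819),Int.ofNat (nat_lit 27374645),Int.ofNat (nat_lit 10221258),Int.negSucc (nat_lit 215106596),Int.ofNat (nat_lit 85549796),Int.ofNat (nat_lit 32086458),Int.ofNat (nat_lit 40431433),Int.ofNat (nat_lit 6134882),Int.negSucc (nat_lit 89545142),Int.negSucc (nat_lit 302710675),Int.ofNat (nat_lit 35001096),Int.negSucc (nat_lit 17149875),Int.ofNat (nat_lit 48224578),Int.ofNat (nat_lit 156165758),Int.negSucc (nat_lit 15393282),Int.ofNat (nat_lit 27940376),Int.negSucc (nat_lit 260257784),Int.ofNat (nat_lit 6069547),Int.negSucc (nat_lit 94404929),Int.ofNat (nat_lit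 117087299),Int.ofNat (nat_lit 122229867),Int.ofNat (nat_lit 19355694),Int.ofNat (nat_lit 78546080),Int.negSucc (nat_lit 120487045),Int.ofNat (nat_lit 309099274),Int.negSucc (nat_lit 162816837),Int.ofNat (nat_lit 50954813),Int.negSucc (nat_lit 34752080),Int.ofNat (nat_lit 81964240),Int.negSucc (nat_lit 52322071),Int.negSucc (nat_lit 230936796),Int.ofNat (nat_lit 10656644),Int.negSucc (nat_lit 33791955),Int.ofNat (nat_lit 57915539),Int.ofNat (nat_lit 142117287),Int.negSucc (nat_lit 402588336),Int.negSucc (nat_lit 22967279),Int.negSucc (nat_lit 98229643),Int.negSucc (nat_lit 789688960),Int.ofNat (nat_lit 104041354),Int.negSucc (nat_lit 84279124),Int.negSucc (nat_lit 120483550),Int.negSucc (nat_lit 19162223),Int.ofNat (nat_lit 220128577),Int.negSucc (nat_lit 34221164),Int.negSucc (nat_lit 666358979),Int.ofNat (nat_lit 300561832),Int.negSucc (nat_lit 534989529),Int.ofNat (nat_lit 392613478),Int.ofNat (nat_lit 9941594),Int.ofNat (nat_lit 1700797374)])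

/-- A row. -/
noncomputable def sr6_c2_17 : List ℕ × List ℤ :=
  ([(nat_lit 0),(nat_lit 4),(nat_lit 0),(nat_lit 0),(nat_lit 0),(nat_lit 0),(nat_lit 0),(nat_lit 0),(nat_lit 0),(nat_lit 0),(nat_lit 0),(nat_lit 0)], [Int.negSucc (nat_lit 847564609),Int.negSucc (nat_lit 1909735959),Int.negSucc (nat_lit 806057263),Int.negSucc (nat_lit 1546959321),Int.ofNat (nat_lit 665460310),Int.ofNat (nat_lit 148365339),Int.negSucc (nat_lit 12251549),Int.negSucc (nat_lit 705973398),Int.ofNat (nat_lit 751081845),Int.ofNat (nat_lit 222559200),Int.negSucc (nat_lit 976105909),Int.negSucc (nat_lit 87749213),Int.ofNat (nat_lit 78477491),Int.ofNat (nat_lit 150330718),Int.negSucc (nat_lit 83907621),Int.negSucc (nat_lit 152217342),Int.negSucc (nat_lit 121158124),Int.negSucc (nat_lit 156630612),Int.ofNat (nat_lit 19385137),Int.ofNat (nat_lit 491617507),Int.negSucc (nat_lit 850969385),Int.ofNat (nat_lit 130668623),Int.negSucc (nat_lit 60739202),Int.negSucc (nat_lit 572408700),Int.negSucc (nat_lit 8098194),Int.negSucc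 (nat_lit 50533460),Int.ofNat (nat_lit 692085950),Int.negSucc (nat_lit 402047521),Int.negSucc (nat_lit 94699540),Int.ofNat (nat_lit 508413933),Int.negSucc (nat_lit 1169350868),Int.ofNat (nat_lit 29353176),Int.ofNat (nat_lit 406613650),Int.negSucc (nat_lit 380151800),Int.ofNat (nat_lit 693230930),Int.ofNat (nat_lit 354324232),Int.negSucc (nat_lit 50219569),Int.negSucc (nat_lit 88785360),Int.negSucc (nat_lit 441489855),Int.ofNat (nat_lit 292063476),Int.ofNat (nat_lit 57227533),Int.negSucc (nat_lit 244876601),Int.negSucc (nat_lit 42813432),Int.ofNat (nat_lit 414566113),Int.ofNat (nat_lit 199822202),Int.negSucc (nat_lit 213494730),Int.ofNat (nat_lit 427193725),Int.ofNat (nat_lit 144856442),Int.negSucc (nat_lit 11506546),Int.negSucc (nat_lit 168951565),Int.negSucc (nat_lit 236913492),Int.negSucc (nat_lit 560194506),Int.negSucc (nat_lit 157588903),Int.negSucc (nat_lit 245583801),Int.negSucc (nat_lit 237146579),Int.ofNat (nat_lit 581203460),Int.ofNat (nat_lit 284430453),Int.ofNat (nat_lit 335673779),Int.negSucc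 (nat_lit 280834655),Int.ofNat (nat_lit 132416777),Int.ofNat (nat_lit 94921890),Int.ofNat (nat_lit 327278467),Int.negSucc (nat_lit 336365454),Int.negSucc (nat_lit 170346276),Int.negSucc (nat_lit 248746759),Int.negSucc (nat_lit 189725314),Int.ofNat (nat_lit 301841803),Int.negSucc (nat_lit 193761137),Int.negSucc (nat_lit 120591076),Int.ofNat (nat_lit 88061160),Int.ofNat (nat_lit 341381562),Int.ofNat (nat_lit 73395108),Int.ofNat (nat_lit 105482022),Int.ofNat (nat_lit 329877793),Int.negSucc (nat_lit 26654225),Int.ofNat (nat_lit 74700967),Int.ofNat (nat_lit 53509586),Int.ofNat (nat_lit 230874635),Int.ofNat (nat_lit 26864407),Int.negSucc (nat_lit 65777257),Int.ofNat (nat_lit 215722994),Int.negSucc (nat_lit 50283274),Int.ofNat (nat_lit 232676779),Int.negSucc (nat_lit 349703711),Int.negSucc (nat_lit 37017597),Int.ofNat (nat_lit 38870011),Int.negSucc (nat_lit 381854139),Int.ofNat (nat_lit 17055195),Int.negSucc (nat_lit 147030493),Int.ofNat (nat_lit 128539522),Int.ofNat (nat_lit 442289523),Int.negSucc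 (nat_lit 3798187),Int.ofNat (nat_lit 217762352),Int.ofNat (nat_lit 282114449),Int.negSucc (nat_lit 223474829),Int.ofNat (nat_lit 6815268),Int.negSucc (nat_lit 248990063),Int.ofNat (nat_lit 292282441),Int.ofNat (nat_lit 63706486),Int.negSucc (nat_lit 568725786),Int.ofNat (nat_lit 139947641),Int.negSucc (nat_lit 292588013),Int.negSucc (nat_lit 553730502),Int.ofNat (nat_lit 766061088),Int.ofNat (nat_lit 124850830),Int.negSucc (nat_lit 81749818),Int.negSucc (nat_lit 65261580),Int.negSucc (nat_lit 22305093),Int.ofNat (nat_lit 198831010),Int.negSucc (nat_lit 37367101),Int.negSucc (nat_lit 61636775),Int.negSucc (nat_lit 186419372),Int.ofNat (nat_lit 79873601),Int.ofNat (nat_lit 137937005),Int.ofNat (nat_lit 252198102),Int.negSucc (nat_lit 10036839),Int.ofNat (nat_lit 1383413),Int.negSucc (nat_lit 139935470),Int.negSucc (nat_lit 130709814),Int.ofNat (nat_lit 14662245),Int.negSucc (nat_lit 41814233),Int.ofNat (nat_lit 270950795),Int.negSucc (nat_lit 55360017),Int.ofNat (nat_lit 107148886),Int.negSucc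 (nat_lit 64312903),Int.negSucc (nat_lit 73380747),Int.negSucc (nat_lit 91057750),Int.negSucc (nat_lit 27531392),Int.ofNat (nat_lit 85665981),Int.negSucc (nat_lit 207598508),Int.ofNat (nat_lit 184023999),Int.negSucc (nat_lit 77719344),Int.ofNat (nat_lit 59522761),Int.ofNat (nat_lit 10040067),Int.ofNat (nat_lit 82751282),Int.ofNat (nat_lit 106841885),Int.ofNat (nat_lit 9441514),Int.negSucc (nat_lit 3101701),Int.negSucc (nat_lit 107120655),Int.negSucc (nat_lit 16997617),Int.ofNat (nat_lit 345871938),Int.negSucc (nat_lit 284236168),Int.ofNat (nat_lit 188341876),Int.ofNat (nat_lit 354799475),Int.negSucc (nat_lit 702280845),Int.negSucc (nat_lit 543080236),Int.negSucc (nat_lit 125796684),Int.ofNat (nat_lit 305934516),Int.negSucc (nat_lit 144930932),Int.negSucc (nat_lit 311237809),Int.ofNat (nat_lit 728770554),Int.negSucc (nat_lit 312534131),Int.negSucc (nat_lit 1120349891),Int.negSucc (nat_lit 508218645),Int.ofNat (nat_lit 969622087),Int.negSucc (nat_lit 979535687),Int.ofNat (nat_lit 1271167295)])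

/-- A row. -/
noncomputable def sr6_c2_18 : List ℕ × List ℤ :=
  ([(nat_lit 1),(nat_lit 0),(nat_lit 0),(nat_lit 0),(nat_lit 0),(nat_lit 0),(nat_lit 0),(nat_lit 0),(nat_lit 0),(nat_lit 0),(nat_lit 0),(nat_lit 0)], [Int.negSucc (nat_lit 923058719),Int.negSucc (nat_lit 1297631619),Int.negSucc (nat_lit 1307046700),Int.negSucc (nat_lit 1198905335),Int.ofNat (nat_lit 2415336674),Int.negSucc (nat_lit 178205776),Int.negSucc (nat_lit 109554376),Int.negSucc (nat_lit 697710466),Int.ofNat (nat_lit 587053832),Int.ofNat (nat_lit 83029015),Int.negSucc (nat_lit 208965918),Int.ofNat (nat_lit 934352481),Int.ofNat (nat_lit 40974474),Int.negSucc (nat_lit 286107613),Int.ofNat (nat_lit 142641875),Int.negSucc (nat_lit 571163408),Int.ofNat (nat_lit 522043474),Int.ofNat (nat_lit 368725656),Int.ofNat (nat_lit 14594669),Int.negSucc (nat_lit 422526344),Int.ofNat (nat_lit 759167420),Int.negSucc (nat_lit 849829745),Int.ofNat (nat_lit 442456997),Int.negSucc (nat_lit 871345308),Int.negSucc (nat_lit 167844715),Int.ofNat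 (nat_lit 108693856),Int.ofNat (nat_lit 250292281),Int.negSucc (nat_lit 674795583),Int.negSucc (nat_lit 36467447),Int.negSucc (nat_lit 355375495),Int.negSucc (nat_lit 689389043),Int.ofNat (nat_lit 89822928),Int.ofNat (nat_lit 281843361),Int.negSucc (nat_lit 107290858),Int.ofNat (nat_lit 951644420),Int.ofNat (nat_lit 780271401),Int.ofNat (nat_lit 169774209),Int.ofNat (nat_lit 326930567),Int.ofNat (nat_lit 459272251),Int.ofNat (nat_lit 221264675),Int.negSucc (nat_lit 195167213),Int.ofNat (nat_lit 9261600),Int.negSucc (nat_lit 236061271),Int.ofNat (nat_lit 254605467),Int.ofNat (nat_lit 103129499),Int.ofNat (nat_lit 242792282),Int.ofNat (nat_lit 321830445),Int.ofNat (nat_lit 64991747),Int.ofNat (nat_lit 386684627),Int.ofNat (nat_lit 113899155),Int.negSucc (nat_lit 4977875),Int.negSucc (nat_lit 174052426),Int.negSucc (nat_lit 147522034),Int.negSucc (nat_lit 274544669),Int.ofNat (nat_lit 554809689),Int.ofNat (nat_lit 188033904),Int.ofNat (nat_lit 98577990),Int.ofNat (nat_lit 267109475),Int.negSucc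 (nat_lit 128326112),Int.ofNat (nat_lit 177755331),Int.ofNat (nat_lit 30231094),Int.negSucc (nat_lit 91313648),Int.negSucc (nat_lit 15358079),Int.negSucc (nat_lit 40104399),Int.negSucc (nat_lit 61260385),Int.negSucc (nat_lit 348365494),Int.ofNat (nat_lit 401477038),Int.ofNat (nat_lit 15334432),Int.ofNat (nat_lit 560042694),Int.ofNat (nat_lit 349056502),Int.negSucc (nat_lit 44112413),Int.negSucc (nat_lit 133177558),Int.ofNat (nat_lit 156205563),Int.ofNat (nat_lit 113229612),Int.ofNat (nat_lit 118581931),Int.ofNat (nat_lit 99837841),Int.ofNat (nat_lit 258624935),Int.ofNat (nat_lit 62462140),Int.ofNat (nat_lit 229737668),Int.ofNat (nat_lit 42732378),Int.ofNat (nat_lit 12754050),Int.negSucc (nat_lit 62516255),Int.negSucc (nat_lit 19256603),Int.negSucc (nat_lit 167575717),Int.negSucc (nat_lit 44768027),Int.ofNat (nat_lit 57393900),Int.negSucc (nat_lit 216330920),Int.negSucc (nat_lit 56940796),Int.ofNat (nat_lit 102124085),Int.ofNat (nat_lit 132815646),Int.ofNat (nat_lit 87584076),Int.negSucc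 (nat_lit 33406742),Int.ofNat (nat_lit 108729750),Int.ofNat (nat_lit 64107482),Int.negSucc (nat_lit 1188261),Int.negSucc (nat_lit 24156519),Int.ofNat (nat_lit 182199121),Int.negSucc (nat_lit 14574851),Int.negSucc (nat_lit 23421966),Int.negSucc (nat_lit 27294662),Int.ofNat (nat_lit 90029723),Int.ofNat (nat_lit 25551276),Int.ofNat (nat_lit 35010692),Int.ofNat (nat_lit 98239596),Int.ofNat (nat_lit 62472165),Int.negSucc (nat_lit 23750447),Int.negSucc (nat_lit 223187101),Int.negSucc (nat_lit 3924014),Int.ofNat (nat_lit 73944185),Int.ofNat (nat_lit 75342342),Int.ofNat (nat_lit 67844417),Int.ofNat (nat_lit 141049903),Int.negSucc (nat_lit 45795200),Int.ofNat (nat_lit 27398123),Int.ofNat (nat_lit 91626150),Int.ofNat (nat_lit 22733694),Int.ofNat (nat_lit 53481763),Int.ofNat (nat_lit 19129320),Int.negSucc (nat_lit 68729952),Int.negSucc (nat_lit 58596909),Int.ofNat (nat_lit 57650427),Int.ofNat (nat_lit 56065432),Int.ofNat (nat_lit 64667380),Int.ofNat (nat_lit 91530489),Int.ofNat (nat_lit 3417695),Int.ofNat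 (nat_lit 46213469),Int.ofNat (nat_lit 219997971),Int.ofNat (nat_lit 14289931),Int.negSucc (nat_lit 56512639),Int.ofNat (nat_lit 175360035),Int.ofNat (nat_lit 2160955),Int.negSucc (nat_lit 90802601),Int.ofNat (nat_lit 36046381),Int.negSucc (nat_lit 130747294),Int.negSucc (nat_lit 113118595),Int.ofNat (nat_lit 81534724),Int.negSucc (nat_lit 13870978),Int.ofNat (nat_lit 36822318),Int.negSucc (nat_lit 20534188),Int.negSucc (nat_lit 1657512141),Int.negSucc (nat_lit 37998058),Int.ofNat (nat_lit 430460769),Int.negSucc (nat_lit 283482705),Int.negSucc (nat_lit 227413313),Int.negSucc (nat_lit 297655688),Int.ofNat (nat_lit 234770739),Int.negSucc (nat_lit 165318626),Int.ofNat (nat_lit 106686946),Int.negSucc (nat_lit 126841303),Int.negSucc (nat_lit 73046911),Int.ofNat (nat_lit 121777156),Int.negSucc (nat_lit 20132461),Int.negSucc (nat_lit 277050933),Int.ofNat (nat_lit 53694534),Int.negSucc (nat_lit 72960852),Int.negSucc (nat_lit 20499852),Int.negSucc (nat_lit 11848322),Int.ofNat (nat_lit 759336905)])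

/-- A row. -/
noncomputable def sr6_c2_19 : List ℕ × List ℤ :=
  ([(nat_lit 1),(nat_lit 0),(nat_lit 0),(nat_lit 0),(nat_lit 0),(nat_lit 0),(nat_lit 1),(nat_lit 0),(nat_lit 0),(nat_lit 0),(nat_lit 0),(nat_lit 0)], [Int.negSucc (nat_lit 459287646),Int.ofNat (nat_lit 700666888),Int.negSucc (nat_lit 283129916),Int.negSucc (nat_lit 331314958),Int.negSucc (nat_lit 86983301),Int.ofNat (nat_lit 66464922),Int.negSucc (nat_lit 183934418),Int.negSucc (nat_lit 334997467),Int.ofNat (nat_lit 222215745),Int.ofNat (nat_lit 173667253),Int.negSucc (nat_lit 101707150),Int.ofNat (nat_lit 110213405),Int.ofNat (nat_lit 158623878),Int.ofNat (nat_lit 528364),Int.ofNat (nat_lit 75688866),Int.negSucc (nat_lit 72515317),Int.ofNat (nat_lit 72700882),Int.negSucc (nat_lit 11486934),Int.ofNat (nat_lit 30049624),Int.ofNat (nat_lit 15777373),Int.ofNat (nat_lit 119969571),Int.negSucc (nat_lit 161427021),Int.ofNat (nat_lit 101288861),Int.negSucc (nat_lit 90060861),Int.negSucc (nat_lit 35922161),Int.negSucc (nat_lit 101268118),Int.ofNat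 (nat_lit 64641952),Int.negSucc (nat_lit 119553437),Int.negSucc (nat_lit 4482969),Int.ofNat (nat_lit 1197045),Int.negSucc (nat_lit 167144832),Int.negSucc (nat_lit 12062085),Int.ofNat (nat_lit 17255677),Int.negSucc (nat_lit 30850358),Int.ofNat (nat_lit 112087585),Int.ofNat (nat_lit 225395420),Int.ofNat (nat_lit 83977705),Int.negSucc (nat_lit 123753107),Int.ofNat (nat_lit 15677387),Int.ofNat (nat_lit 31919774),Int.negSucc (nat_lit 72942213),Int.ofNat (nat_lit 26065857),Int.negSucc (nat_lit 10048924),Int.ofNat (nat_lit 121584460),Int.ofNat (nat_lit 78152085),Int.ofNat (nat_lit 29583172),Int.ofNat (nat_lit 64967026),Int.negSucc (nat_lit 5835300),Int.ofNat (nat_lit 73902934),Int.ofNat (nat_lit 23933336),Int.negSucc (nat_lit 76137609),Int.negSucc (nat_lit 53353216),Int.negSucc (nat_lit 48249464),Int.negSucc (nat_lit 124623149),Int.negSucc (nat_lit 4473138),Int.ofNat (nat_lit 144584556),Int.ofNat (nat_lit 67500354),Int.ofNat (nat_lit 100550043),Int.negSucc (nat_lit 91268679),Int.ofNat (nat_lit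 88380623),Int.negSucc (nat_lit 17016749),Int.negSucc (nat_lit 12563149),Int.negSucc (nat_lit 45019224),Int.ofNat (nat_lit 19887123),Int.negSucc (nat_lit 112431149),Int.negSucc (nat_lit 32816531),Int.ofNat (nat_lit 91526730),Int.ofNat (nat_lit 5822160),Int.ofNat (nat_lit 48840000),Int.ofNat (nat_lit 55846104),Int.negSucc (nat_lit 43210085),Int.negSucc (nat_lit 34650449),Int.ofNat (nat_lit 10071888),Int.negSucc (nat_lit 423289),Int.ofNat (nat_lit 141698212),Int.ofNat (nat_lit 129561139),Int.ofNat (nat_lit 80998823),Int.negSucc (nat_lit 46423594),Int.ofNat (nat_lit 15889120),Int.ofNat (nat_lit 15651232),Int.negSucc (nat_lit 21130281),Int.ofNat (nat_lit 3440808),Int.ofNat (nat_lit 20597828),Int.ofNat (nat_lit 35451900),Int.negSucc (nat_lit 46142145),Int.negSucc (nat_lit 7205110),Int.negSucc (nat_lit 74019627),Int.ofNat (nat_lit 46161960),Int.negSucc (nat_lit 50882602),Int.negSucc (nat_lit 29086381),Int.ofNat (nat_lit 39195823),Int.negSucc (nat_lit 11881353),Int.ofNat (nat_lit 32187159),Int.ofNat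 (nat_lit 4525325),Int.ofNat (nat_lit 33719598),Int.ofNat (nat_lit 28770407),Int.negSucc (nat_lit 3264927),Int.ofNat (nat_lit 39406623),Int.negSucc (nat_lit 7117589),Int.negSucc (nat_lit 34529098),Int.negSucc (nat_lit 16442797),Int.ofNat (nat_lit 4672866),Int.negSucc (nat_lit 2959924),Int.ofNat (nat_lit 1002284),Int.ofNat (nat_lit 72677253),Int.ofNat (nat_lit 52423180),Int.negSucc (nat_lit 37862934),Int.ofNat (nat_lit 4437901),Int.ofNat (nat_lit 59908269),Int.negSucc (nat_lit 15723063),Int.ofNat (nat_lit 343793),Int.negSucc (nat_lit 14427974),Int.ofNat (nat_lit 9158172),Int.negSucc (nat_lit 24761422),Int.ofNat (nat_lit 83939542),Int.negSucc (nat_lit 35994127),Int.ofNat (nat_lit 37927330),Int.negSucc (nat_lit 3344066),Int.negSucc (nat_lit 9529881),Int.negSucc (nat_lit 968150),Int.ofNat (nat_lit 3119289),Int.ofNat (nat_lit 9082904),Int.negSucc (nat_lit 5718767),Int.ofNat (nat_lit 59935654),Int.negSucc (nat_lit 47050639),Int.negSucc (nat_lit 4066333),Int.ofNat (nat_lit 26230977),Int.ofNat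 (nat_lit 45217209),Int.negSucc (nat_lit 4974574),Int.negSucc (nat_lit 3867865),Int.ofNat (nat_lit 10303809),Int.negSucc (nat_lit 31578304),Int.ofNat (nat_lit 17858429),Int.negSucc (nat_lit 26670645),Int.negSucc (nat_lit 5287964),Int.ofNat (nat_lit 37051223),Int.negSucc (nat_lit 20883957),Int.ofNat (nat_lit 3181943),Int.ofNat (nat_lit 18081515),Int.negSucc (nat_lit 167105197),Int.ofNat (nat_lit 40993089),Int.negSucc (nat_lit 403953843),Int.ofNat (nat_lit 14714167),Int.ofNat (nat_lit 16855024),Int.negSucc (nat_lit 15036482),Int.ofNat (nat_lit 6707591),Int.ofNat (nat_lit 7118475),Int.ofNat (nat_lit 4085458),Int.negSucc (nat_lit 29460805),Int.negSucc (nat_lit 9173802),Int.ofNat (nat_lit 19738928),Int.ofNat (nat_lit 18438783),Int.ofNat (nat_lit 1215751),Int.negSucc (nat_lit 5675158),Int.negSucc (nat_lit 2905471),Int.negSucc (nat_lit 9242585),Int.negSucc (nat_lit 3341457),Int.negSucc (nat_lit 2502067),Int.ofNat (nat_lit 81939602)])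

/-- A row. -/
noncomputable def sr6_c2_20 : List ℕ × List ℤ :=
  ([(nat_lit 1),(nat_lit 0),(nat_lit 0),(nat_lit 0),(nat_lit 1),(nat_lit 0),(nat_lit 0),(nat_lit 0),(nat_lit 0),(nat_lit 0),(nat_lit 0),(nat_lit 0)], [Int.negSucc (nat_lit 628439892),Int.negSucc (nat_lit 110907997),Int.negSucc (nat_lit 557922005),Int.ofNat (nat_lit 1426214929),Int.negSucc (nat_lit 525211902),Int.negSucc (nat_lit 2159978627),Int.negSucc (nat_lit 516440625),Int.ofNat (nat_lit 1727290738),Int.negSucc (nat_lit 933811730),Int.negSucc (nat_lit 620136992),Int.ofNat (nat_lit 377264910),Int.negSucc (nat_lit 1148966721),Int.negSucc (nat_lit 93887381),Int.ofNat (nat_lit 169537037),Int.negSucc (nat_lit 557561220),Int.ofNat (nat_lit 419891905),Int.negSucc (nat_lit 330375267),Int.negSucc (nat_lit 431287016),Int.negSucc (nat_lit 756798477),Int.ofNat (nat_lit 436838529),Int.negSucc (nat_lit 463873926),Int.ofNat (nat_lit 736349125),Int.negSucc (nat_lit 451221306),Int.ofNat (nat_lit 250819946),Int.ofNat (nat_lit 479941103),Int.negSucc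 (nat_lit 72727371),Int.negSucc (nat_lit 483702099),Int.ofNat (nat_lit 397693246),Int.ofNat (nat_lit 89194757),Int.ofNat (nat_lit 634454489),Int.ofNat (nat_lit 913331601),Int.negSucc (nat_lit 260117436),Int.negSucc (nat_lit 450993276),Int.ofNat (nat_lit 34536965),Int.negSucc (nat_lit 503826710),Int.negSucc (nat_lit 1368132345),Int.negSucc (nat_lit 505513060),Int.negSucc (nat_lit 250723331),Int.negSucc (nat_lit 267039986),Int.ofNat (nat_lit 215302259),Int.ofNat (nat_lit 226427072),Int.negSucc (nat_lit 105603752),Int.negSucc (nat_lit 82136992),Int.negSucc (nat_lit 528854427),Int.ofNat (nat_lit 236608130),Int.negSucc (nat_lit 32264370),Int.ofNat (nat_lit 181586001),Int.ofNat (nat_lit 181231363),Int.negSucc (nat_lit 53456161),Int.negSucc (nat_lit 93383952),Int.negSucc (nat_lit 132845620),Int.ofNat (nat_lit 207438667),Int.negSucc (nat_lit 283029092),Int.ofNat (nat_lit 894871054),Int.negSucc (nat_lit 799428536),Int.negSucc (nat_lit 80509426),Int.ofNat (nat_lit 257026887),Int.ofNat (nat_lit 118608244),Int.ofNat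 (nat_lit 31071649),Int.ofNat (nat_lit 3887137),Int.negSucc (nat_lit 143577006),Int.ofNat (nat_lit 183395660),Int.negSucc (nat_lit 6660402),Int.ofNat (nat_lit 264164519),Int.negSucc (nat_lit 102253578),Int.ofNat (nat_lit 142798759),Int.negSucc (nat_lit 47321722),Int.ofNat (nat_lit 30703692),Int.negSucc (nat_lit 275537018),Int.negSucc (nat_lit 13817114),Int.negSucc (nat_lit 76607029),Int.ofNat (nat_lit 73381703),Int.negSucc (nat_lit 197306579),Int.ofNat (nat_lit 95837243),Int.negSucc (nat_lit 80729008),Int.negSucc (nat_lit 48054172),Int.negSucc (nat_lit 191865086),Int.ofNat (nat_lit 114371186),Int.negSucc (nat_lit 312190900),Int.ofNat (nat_lit 137018920),Int.ofNat (nat_lit 31918875),Int.ofNat (nat_lit 130247023),Int.negSucc (nat_lit 77575985),Int.ofNat (nat_lit 145474726),Int.ofNat (nat_lit 72589427),Int.negSucc (nat_lit 52609918),Int.ofNat (nat_lit 241490915),Int.ofNat (nat_lit 37228738),Int.negSucc (nat_lit 189661352),Int.negSucc (nat_lit 309275531),Int.negSucc (nat_lit 36681326),Int.ofNat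 (nat_lit 111159313),Int.negSucc (nat_lit 94520560),Int.negSucc (nat_lit 74749283),Int.negSucc (nat_lit 42147172),Int.ofNat (nat_lit 10958121),Int.negSucc (nat_lit 48364478),Int.ofNat (nat_lit 45225012),Int.ofNat (nat_lit 71539577),Int.negSucc (nat_lit 48583843),Int.negSucc (nat_lit 131797704),Int.ofNat (nat_lit 41819940),Int.negSucc (nat_lit 8960544),Int.negSucc (nat_lit 174690570),Int.ofNat (nat_lit 23964218),Int.ofNat (nat_lit 75960341),Int.ofNat (nat_lit 141859368),Int.negSucc (nat_lit 95668153),Int.negSucc (nat_lit 145915350),Int.negSucc (nat_lit 63447095),Int.negSucc (nat_lit 20375129),Int.negSucc (nat_lit 48247662),Int.ofNat (nat_lit 100593637),Int.negSucc (nat_lit 44518734),Int.negSucc (nat_lit 138223602),Int.negSucc (nat_lit 70558987),Int.ofNat (nat_lit 10665892),Int.negSucc (nat_lit 79365412),Int.ofNat (nat_lit 158920227),Int.ofNat (nat_lit 43790635),Int.ofNat (nat_lit 6346307),Int.negSucc (nat_lit 114641581),Int.negSucc (nat_lit 102913296),Int.negSucc (nat_lit 156691418),Int.negSucc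 (nat_lit 90118768),Int.negSucc (nat_lit 80167655),Int.negSucc (nat_lit 125679788),Int.negSucc (nat_lit 20300404),Int.ofNat (nat_lit 167867549),Int.negSucc (nat_lit 87851896),Int.negSucc (nat_lit 192623175),Int.ofNat (nat_lit 252348145),Int.negSucc (nat_lit 55574257),Int.ofNat (nat_lit 140098201),Int.negSucc (nat_lit 64486178),Int.negSucc (nat_lit 7151239),Int.ofNat (nat_lit 23923191),Int.negSucc (nat_lit 103102706),Int.ofNat (nat_lit 132552265),Int.ofNat (nat_lit 1237162151),Int.ofNat (nat_lit 417533096),Int.negSucc (nat_lit 307463408),Int.negSucc (nat_lit 1262942589),Int.ofNat (nat_lit 102904548),Int.ofNat (nat_lit 99958399),Int.negSucc (nat_lit 118151620),Int.ofNat (nat_lit 194719650),Int.ofNat (nat_lit 44886237),Int.ofNat (nat_lit 71946177),Int.ofNat (nat_lit 87073716),Int.negSucc (nat_lit 131825416),Int.ofNat (nat_lit 77127363),Int.ofNat (nat_lit 63559216),Int.negSucc (nat_lit 224729336),Int.ofNat (nat_lit 7862862),Int.ofNat (nat_lit 53132330),Int.negSucc (nat_lit 14395893),Int.negSucc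 (nat_lit 171110639),Int.negSucc (nat_lit 161831114),Int.ofNat (nat_lit 351896595)])

/-- A row. -/
noncomputable def sr6_c2_21 : List ℕ × List ℤ :=
  ([(nat_lit 1),(nat_lit 0),(nat_lit 0),(nat_lit 2),(nat_lit 0),(nat_lit 0),(nat_lit 0),(nat_lit 0),(nat_lit 0),(nat_lit 0),(nat_lit 0),(nat_lit 0)], [Int.negSucc (nat_lit 12526147),Int.ofNat (nat_lit 63361328),Int.ofNat (nat_lit 347214395),Int.negSucc (nat_lit 389236523),Int.negSucc (nat_lit 592391457),Int.negSucc (nat_lit 552393888),Int.ofNat (nat_lit 423149962),Int.negSucc (nat_lit 163713897),Int.ofNat (nat_lit 384616669),Int.negSucc (nat_lit 542042342),Int.negSucc (nat_lit 84959665),Int.negSucc (nat_lit 109957818),Int.ofNat (nat_lit 70032429),Int.ofNat (nat_lit 159302346),Int.negSucc (nat_lit 20596494),Int.ofNat (nat_lit 126084797),Int.negSucc (nat_lit 170238828),Int.negSucc (nat_lit 118051222),Int.negSucc (nat_lit 18499249),Int.ofNat (nat_lit 173208623),Int.negSucc (nat_lit 359494261),Int.ofNat (nat_lit 304591111),Int.ofNat (nat_lit 78186934),Int.ofNat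 (nat_lit 223730514),Int.negSucc (nat_lit 90699755),Int.negSucc (nat_lit 299848737),Int.negSucc (nat_lit 84305554),Int.ofNat (nat_lit 165627547),Int.ofNat (nat_lit 105003121),Int.ofNat (nat_lit 37834857),Int.ofNat (nat_lit 85960922),Int.ofNat (nat_lit 5743106),Int.negSucc (nat_lit 57538313),Int.ofNat (nat_lit 52767164),Int.ofNat (nat_lit 25317960),Int.negSucc (nat_lit 39361785),Int.negSucc (nat_lit 92866939),Int.ofNat (nat_lit 13004864),Int.negSucc (nat_lit 105485239),Int.ofNat (nat_lit 85237271),Int.ofNat (nat_lit 142457184),Int.negSucc (nat_lit 2586727),Int.ofNat (nat_lit 61361557),Int.ofNat (nat_lit 226621729),Int.ofNat (nat_lit 55437161),Int.negSucc (nat_lit 139031846),Int.negSucc (nat_lit 180465537),Int.negSucc (nat_lit 57332214),Int.ofNat (nat_lit 91165878),Int.ofNat (nat_lit 46533738),Int.negSucc (nat_lit 43283560),Int.ofNat (nat_lit 3061840),Int.negSucc (nat_lit 255876199),Int.ofNat (nat_lit 42376201),Int.negSucc (nat_lit 88264940),Int.negSucc (nat_lit 113075382),Int.negSucc (nat_lit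 61621352),Int.negSucc (nat_lit 179622290),Int.negSucc (nat_lit 80848600),Int.negSucc (nat_lit 120420987),Int.ofNat (nat_lit 93562964),Int.ofNat (nat_lit 10474858),Int.negSucc (nat_lit 83821996),Int.ofNat (nat_lit 8378946),Int.negSucc (nat_lit 123653156),Int.ofNat (nat_lit 46086574),Int.negSucc (nat_lit 61915558),Int.ofNat (nat_lit 106013289),Int.negSucc (nat_lit 150650375),Int.negSucc (nat_lit 115703154),Int.negSucc (nat_lit 912978),Int.ofNat (nat_lit 16507481),Int.negSucc (nat_lit 79304094),Int.ofNat (nat_lit 56349557),Int.negSucc (nat_lit 8157917),Int.ofNat (nat_lit 38694211),Int.ofNat (nat_lit 31480511),Int.negSucc (nat_lit 18067032),Int.negSucc (nat_lit 20398656),Int.negSucc (nat_lit 27205796),Int.ofNat (nat_lit 113625537),Int.ofNat (nat_lit 66520948),Int.ofNat (nat_lit 79481369),Int.negSucc (nat_lit 31011755),Int.negSucc (nat_lit 48499554),Int.ofNat (nat_lit 53791778),Int.negSucc (nat_lit 8111077),Int.negSucc (nat_lit 11278429),Int.negSucc (nat_lit 35278399),Int.negSucc (nat_lit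 41079235),Int.ofNat (nat_lit 38908408),Int.negSucc (nat_lit 114535639),Int.negSucc (nat_lit 25883559),Int.ofNat (nat_lit 38789003),Int.negSucc (nat_lit 4128258),Int.ofNat (nat_lit 6639290),Int.ofNat (nat_lit 30321979),Int.ofNat (nat_lit 39592407),Int.negSucc (nat_lit 54678741),Int.negSucc (nat_lit 33753702),Int.ofNat (nat_lit 34342804),Int.ofNat (nat_lit 20641831),Int.ofNat (nat_lit 9154813),Int.ofNat (nat_lit 2654064),Int.ofNat (nat_lit 58522716),Int.negSucc (nat_lit 12149986),Int.negSucc (nat_lit 63858341),Int.negSucc (nat_lit 9068527),Int.ofNat (nat_lit 36797026),Int.negSucc (nat_lit 45730732),Int.negSucc (nat_lit 50543122),Int.negSucc (nat_lit 25600201),Int.ofNat (nat_lit 3946132),Int.ofNat (nat_lit 77786360),Int.ofNat (nat_lit 76077404),Int.negSucc (nat_lit 26155610),Int.negSucc (nat_lit 39026237),Int.negSucc (nat_lit 44427051),Int.ofNat (nat_lit 63062107),Int.ofNat (nat_lit 20677095),Int.ofNat (nat_lit 884507),Int.negSucc (nat_lit 46369020),Int.ofNat (nat_lit 6280284),Int.negSucc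 (nat_lit 11575036),Int.ofNat (nat_lit 58161338),Int.negSucc (nat_lit 18659819),Int.ofNat (nat_lit 8246174),Int.negSucc (nat_lit 5448119),Int.ofNat (nat_lit 20723237),Int.negSucc (nat_lit 41972790),Int.negSucc (nat_lit 405695),Int.ofNat (nat_lit 23470494),Int.ofNat (nat_lit 10607536),Int.ofNat (nat_lit 25793951),Int.ofNat (nat_lit 47455855),Int.ofNat (nat_lit 67877458),Int.negSucc (nat_lit 66810145),Int.negSucc (nat_lit 12797640),Int.ofNat (nat_lit 7852866),Int.ofNat (nat_lit 124857317),Int.ofNat (nat_lit 118395283),Int.ofNat (nat_lit 4250377),Int.negSucc (nat_lit 187028980),Int.ofNat (nat_lit 85887314),Int.negSucc (nat_lit 668167147),Int.negSucc (nat_lit 33162423),Int.ofNat (nat_lit 22142919),Int.negSucc (nat_lit 839336),Int.ofNat (nat_lit 51608453),Int.ofNat (nat_lit 50876531),Int.negSucc (nat_lit 52941659),Int.ofNat (nat_lit 7133696),Int.ofNat (nat_lit 7120127),Int.negSucc (nat_lit 57684024),Int.ofNat (nat_lit 6820282),Int.ofNat (nat_lit 7074411),Int.ofNat (nat_lit 6003156),Int.negSucc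 (nat_lit 54347671),Int.negSucc (nat_lit 91026029),Int.ofNat (nat_lit 108441174),Int.ofNat (nat_lit 185746187)])

/-- A row. -/
noncomputable def sr6_c2_22 : List ℕ × List ℤ :=
  ([(nat_lit 1),(nat_lit 0),(nat_lit 1),(nat_lit 0),(nat_lit 0),(nat_lit 0),(nat_lit 0),(nat_lit 0),(nat_lit 0),(nat_lit 0),(nat_lit 0),(nat_lit 0)], [Int.negSucc (nat_lit 3240049032),Int.negSucc (nat_lit 1327763974),Int.negSucc (nat_lit 1895342492),Int.negSucc (nat_lit 747069238),Int.ofNat (nat_lit 1748914987),Int.negSucc (nat_lit 1805542557),Int.negSucc (nat_lit 895669493),Int.negSucc (nat_lit 375016271),Int.ofNat (nat_lit 539399654),Int.negSucc (nat_lit 127513363),Int.negSucc (nat_lit 162807869),Int.ofNat (nat_lit 724553754),Int.ofNat (nat_lit 398085426),Int.negSucc (nat_lit 416351792),Int.ofNat (nat_lit 212454700),Int.negSucc (nat_lit 426074985),Int.ofNat (nat_lit 530678311),Int.ofNat (nat_lit 697393113),Int.negSucc (nat_lit 510971598),Int.negSucc (nat_lit 532561361),Int.ofNat (nat_lit 1073964832),Int.negSucc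 (nat_lit 750898802),Int.ofNat (nat_lit 469962243),Int.negSucc (nat_lit 1252968575),Int.negSucc (nat_lit 40158126),Int.negSucc (nat_lit 205912017),Int.negSucc (nat_lit 85199697),Int.negSucc (nat_lit 861536993),Int.negSucc (nat_lit 63608906),Int.negSucc (nat_lit 251816780),Int.negSucc (nat_lit 484872188),Int.negSucc (nat_lit 264362464),Int.ofNat (nat_lit 238684239),Int.negSucc (nat_lit 108905880),Int.ofNat (nat_lit 648812687),Int.ofNat (nat_lit 917768227),Int.ofNat (nat_lit 22688473),Int.ofNat (nat_lit 170558924),Int.ofNat (nat_lit 934929727),Int.ofNat (nat_lit 589716229),Int.ofNat (nat_lit 2578724),Int.ofNat (nat_lit 6641532),Int.negSucc (nat_lit 499055286),Int.ofNat (nat_lit 254296106),Int.ofNat (nat_lit 240614439),Int.ofNat (nat_lit 379516752),Int.ofNat (nat_lit 631519220),Int.ofNat (nat_lit 162162870),Int.ofNat (nat_lit 594318252),Int.ofNat (nat_lit 108230303),Int.negSucc (nat_lit 84742008),Int.negSucc (nat_lit 81589860),Int.negSucc (nat_lit 600192175),Int.ofNat (nat_lit 71718122),Int.ofNat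 (nat_lit 305488318),Int.ofNat (nat_lit 34080240),Int.ofNat (nat_lit 269548962),Int.ofNat (nat_lit 641282010),Int.negSucc (nat_lit 74644350),Int.ofNat (nat_lit 242735962),Int.negSucc (nat_lit 54141783),Int.negSucc (nat_lit 17363406),Int.negSucc (nat_lit 98400164),Int.negSucc (nat_lit 45974256),Int.negSucc (nat_lit 253139470),Int.negSucc (nat_lit 476157807),Int.ofNat (nat_lit 600081497),Int.ofNat (nat_lit 28431824),Int.ofNat (nat_lit 771501055),Int.ofNat (nat_lit 660523947),Int.negSucc (nat_lit 35882508),Int.negSucc (nat_lit 219344743),Int.negSucc (nat_lit 40704313),Int.ofNat (nat_lit 328836823),Int.ofNat (nat_lit 93093368),Int.ofNat (nat_lit 49816446),Int.ofNat (nat_lit 175026993),Int.ofNat (nat_lit 189495418),Int.ofNat (nat_lit 102438426),Int.ofNat (nat_lit 163571355),Int.ofNat (nat_lit 17610901),Int.ofNat (nat_lit 52233775),Int.negSucc (nat_lit 119024384),Int.negSucc (nat_lit 91121737),Int.negSucc (nat_lit 5907703),Int.ofNat (nat_lit 67181285),Int.negSucc (nat_lit 9550108),Int.negSucc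 (nat_lit 115580730),Int.negSucc (nat_lit 30204087),Int.negSucc (nat_lit 40515097),Int.ofNat (nat_lit 43391430),Int.ofNat (nat_lit 7131599),Int.negSucc (nat_lit 39978153),Int.ofNat (nat_lit 74891939),Int.negSucc (nat_lit 19727884),Int.negSucc (nat_lit 40917134),Int.ofNat (nat_lit 250862690),Int.ofNat (nat_lit 5138322),Int.negSucc (nat_lit 20610485),Int.negSucc (nat_lit 48897427),Int.ofNat (nat_lit 41722812),Int.ofNat (nat_lit 61611708),Int.ofNat (nat_lit 55759266),Int.ofNat (nat_lit 38586810),Int.ofNat (nat_lit 107815754),Int.ofNat (nat_lit 17629028),Int.negSucc (nat_lit 117694410),Int.negSucc (nat_lit 52716490),Int.ofNat (nat_lit 30080630),Int.ofNat (nat_lit 97970269),Int.ofNat (nat_lit 83807282),Int.ofNat (nat_lit 179627113),Int.negSucc (nat_lit 65717924),Int.ofNat (nat_lit 63035075),Int.negSucc (nat_lit 8391735),Int.ofNat (nat_lit 64404334),Int.ofNat (nat_lit 103314206),Int.negSucc (nat_lit 114424050),Int.ofNat (nat_lit 6446484),Int.negSucc (nat_lit 29712511),Int.ofNat (nat_lit 75937396),Int.ofNat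 (nat_lit 1837274),Int.ofNat (nat_lit 37839151),Int.negSucc (nat_lit 56857699),Int.negSucc (nat_lit 71743679),Int.negSucc (nat_lit 18016478),Int.ofNat (nat_lit 183627108),Int.negSucc (nat_lit 65165571),Int.ofNat (nat_lit 309294),Int.ofNat (nat_lit 281642951),Int.negSucc (nat_lit 191654382),Int.ofNat (nat_lit 108118404),Int.negSucc (nat_lit 6020310),Int.negSucc (nat_lit 101355487),Int.negSucc (nat_lit 199385583),Int.ofNat (nat_lit 100704373),Int.ofNat (nat_lit 87635390),Int.negSucc (nat_lit 9256618),Int.negSucc (nat_lit 11975259),Int.negSucc (nat_lit 1480905575),Int.negSucc (nat_lit 105762266),Int.ofNat (nat_lit 733765909),Int.negSucc (nat_lit 1580488515),Int.negSucc (nat_lit 169562559),Int.negSucc (nat_lit 585563713),Int.negSucc (nat_lit 575431181),Int.negSucc (nat_lit 223986133),Int.ofNat (nat_lit 507360124),Int.negSucc (nat_lit 163295709),Int.ofNat (nat_lit 27765630),Int.ofNat (nat_lit 128295634),Int.negSucc (nat_lit 132715905),Int.negSucc (nat_lit 268889071),Int.ofNat (nat_lit 15397861),Int.negSucc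 (nat_lit 216063320),Int.ofNat (nat_lit 16309856),Int.ofNat (nat_lit 45293087),Int.ofNat (nat_lit 693691404),Int.negSucc (nat_lit 61294294),Int.ofNat (nat_lit 96182043),Int.ofNat (nat_lit 86829247),Int.ofNat (nat_lit 443294340)])

/-- A row. -/
noncomputable def sr6_c2_23 : List ℕ × List ℤ :=
  ([(nat_lit 1),(nat_lit 0),(nat_lit 2),(nat_lit 0),(nat_lit 0),(nat_lit 0),(nat_lit 0),(nat_lit 0),(nat_lit 0),(nat_lit 0),(nat_lit 0),(nat_lit 0)], [Int.negSucc (nat_lit 805856600),Int.ofNat (nat_lit 700453),Int.negSucc (nat_lit 586305627),Int.negSucc (nat_lit 431909904),Int.ofNat (nat_lit 303320316),Int.negSucc (nat_lit 889452488),Int.negSucc (nat_lit 142018544),Int.negSucc (nat_lit 94496),Int.ofNat (nat_lit 29122323),Int.ofNat (nat_lit 136203973),Int.negSucc (nat_lit 194658968),Int.negSucc (nat_lit 256665612),Int.ofNat (nat_lit 208655402),Int.negSucc (nat_lit 155203945),Int.negSucc (nat_lit 60657858),Int.ofNat (nat_lit 91597310),Int.ofNat (nat_lit 23141036),Int.ofNat (nat_lit 156396334),Int.negSucc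 (nat_lit 260722091),Int.negSucc (nat_lit 19508249),Int.ofNat (nat_lit 154557749),Int.negSucc (nat_lit 133456050),Int.ofNat (nat_lit 133200260),Int.negSucc (nat_lit 314789025),Int.ofNat (nat_lit 142939309),Int.negSucc (nat_lit 135564028),Int.negSucc (nat_lit 39494227),Int.negSucc (nat_lit 179762548),Int.negSucc (nat_lit 117310089),Int.ofNat (nat_lit 160095751),Int.negSucc (nat_lit 49036955),Int.negSucc (nat_lit 156983873),Int.ofNat (nat_lit 45649285),Int.negSucc (nat_lit 37473149),Int.negSucc (nat_lit 3931763),Int.ofNat (nat_lit 151513821),Int.ofNat (nat_lit 44232525),Int.negSucc (nat_lit 92082472),Int.ofNat (nat_lit 214817443),Int.ofNat (nat_lit 175709899),Int.negSucc (nat_lit 17763141),Int.negSucc (nat_lit 165217004),Int.negSucc (nat_lit 104936199),Int.ofNat (nat_lit 135809862),Int.ofNat (nat_lit 112782512),Int.ofNat (nat_lit 169731266),Int.ofNat (nat_lit 342962573),Int.negSucc (nat_lit 3118984),Int.ofNat (nat_lit 282873482),Int.negSucc (nat_lit 45617382),Int.negSucc (nat_lit 156385665),Int.negSucc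 (nat_lit 35466855),Int.negSucc (nat_lit 297627792),Int.ofNat (nat_lit 186599037),Int.ofNat (nat_lit 12090762),Int.negSucc (nat_lit 45872916),Int.ofNat (nat_lit 213790365),Int.ofNat (nat_lit 366929914),Int.negSucc (nat_lit 103574739),Int.ofNat (nat_lit 132041338),Int.negSucc (nat_lit 10386944),Int.negSucc (nat_lit 17194343),Int.negSucc (nat_lit 109793013),Int.negSucc (nat_lit 138394468),Int.negSucc (nat_lit 311213609),Int.negSucc (nat_lit 222070245),Int.ofNat (nat_lit 262386953),Int.ofNat (nat_lit 3849842),Int.ofNat (nat_lit 221462108),Int.ofNat (nat_lit 357712537),Int.negSucc (nat_lit 23583838),Int.ofNat (nat_lit 17549817),Int.negSucc (nat_lit 173659877),Int.ofNat (nat_lit 152659142),Int.ofNat (nat_lit 52378347),Int.ofNat (nat_lit 53888815),Int.ofNat (nat_lit 43412905),Int.ofNat (nat_lit 35237812),Int.negSucc (nat_lit 48964130),Int.ofNat (nat_lit 33108957),Int.ofNat (nat_lit 33905586),Int.ofNat (nat_lit 8273341),Int.ofNat (nat_lit 55670643),Int.negSucc (nat_lit 11065667),Int.negSucc (nat_lit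 58957846),Int.ofNat (nat_lit 35848767),Int.ofNat (nat_lit 21393324),Int.negSucc (nat_lit 27251089),Int.negSucc (nat_lit 105887425),Int.negSucc (nat_lit 129849724),Int.ofNat (nat_lit 16449691),Int.ofNat (nat_lit 1676569),Int.negSucc (nat_lit 68864328),Int.ofNat (nat_lit 52174296),Int.ofNat (nat_lit 8728807),Int.ofNat (nat_lit 31975789),Int.ofNat (nat_lit 89868235),Int.ofNat (nat_lit 20476062),Int.negSucc (nat_lit 1193585),Int.negSucc (nat_lit 57263254),Int.negSucc (nat_lit 6056551),Int.ofNat (nat_lit 11143905),Int.ofNat (nat_lit 1060108),Int.negSucc (nat_lit 21946029),Int.ofNat (nat_lit 78178009),Int.ofNat (nat_lit 19006917),Int.negSucc (nat_lit 7295141),Int.negSucc (nat_lit 19359982),Int.negSucc (nat_lit 7053335),Int.ofNat (nat_lit 54956918),Int.ofNat (nat_lit 18686796),Int.ofNat (nat_lit 36389842),Int.negSucc (nat_lit 21640575),Int.ofNat (nat_lit 31932066),Int.ofNat (nat_lit 884643),Int.ofNat (nat_lit 3265630),Int.ofNat (nat_lit 37204226),Int.negSucc (nat_lit 84349607),Int.ofNat (nat_lit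 17358408),Int.ofNat (nat_lit 16401545),Int.ofNat (nat_lit 11048773),Int.negSucc (nat_lit 21441685),Int.negSucc (nat_lit 39307370),Int.negSucc (nat_lit 26077397),Int.negSucc (nat_lit 60226952),Int.negSucc (nat_lit 16518890),Int.ofNat (nat_lit 26400680),Int.negSucc (nat_lit 11630270),Int.ofNat (nat_lit 24167945),Int.ofNat (nat_lit 50504051),Int.negSucc (nat_lit 67045503),Int.ofNat (nat_lit 74111395),Int.ofNat (nat_lit 345476),Int.ofNat (nat_lit 4070577),Int.negSucc (nat_lit 29680282),Int.ofNat (nat_lit 58194846),Int.ofNat (nat_lit 45062661),Int.negSucc (nat_lit 59327364),Int.ofNat (nat_lit 35565665),Int.negSucc (nat_lit 193306805),Int.ofNat (nat_lit 14347038),Int.negSucc (nat_lit 11907664),Int.negSucc (nat_lit 555130980),Int.ofNat (nat_lit 53891938),Int.negSucc (nat_lit 216155154),Int.negSucc (nat_lit 601172354),Int.negSucc (nat_lit 125171663),Int.negSucc (nat_lit 279898032),Int.ofNat (nat_lit 6186470),Int.ofNat (nat_lit 52528273),Int.negSucc (nat_lit 32572642),Int.ofNat (nat_lit 6053065),Int.negSucc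 (nat_lit 9033629),Int.negSucc (nat_lit 61675997),Int.negSucc (nat_lit 26697858),Int.ofNat (nat_lit 23342777),Int.ofNat (nat_lit 3867658),Int.negSucc (nat_lit 45390935),Int.negSucc (nat_lit 84152683),Int.ofNat (nat_lit 146554814),Int.ofNat (nat_lit 109810562),Int.ofNat (nat_lit 99443332),Int.ofNat (nat_lit 133504109)])

/-- A row. -/
noncomputable def sr6_c2_24 : List ℕ × List ℤ :=
  ([(nat_lit 1),(nat_lit 1),(nat_lit 0),(nat_lit 0),(nat_lit 0),(nat_lit 1),(nat_lit 0),(nat_lit 0),(nat_lit 0),(nat_lit 0),(nat_lit 0),(nat_lit 0)], [Int.negSucc (nat_lit 1571630506),Int.ofNat (nat_lit 2156323817),Int.negSucc (nat_lit 1022596736),Int.negSucc (nat_lit 474537422),Int.negSucc (nat_lit 331023307),Int.ofNat (nat_lit 1038847515),Int.negSucc (nat_lit 652313786),Int.negSucc (nat_lit 1407209527),Int.ofNat (nat_lit 847612596),Int.ofNat (nat_lit 693581611),Int.negSucc (nat_lit 393260506),Int.ofNat (nat_lit 516410372),Int.ofNat (nat_lit 187011369),Int.negSucc (nat_lit 252623342),Int.ofNat (nat_lit 46612816),Int.negSucc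 (nat_lit 436870395),Int.ofNat (nat_lit 570228686),Int.ofNat (nat_lit 592823614),Int.negSucc (nat_lit 48162409),Int.negSucc (nat_lit 254937159),Int.ofNat (nat_lit 245127481),Int.negSucc (nat_lit 466143467),Int.ofNat (nat_lit 345189108),Int.negSucc (nat_lit 791214437),Int.ofNat (nat_lit 59206741),Int.ofNat (nat_lit 79641352),Int.ofNat (nat_lit 209445764),Int.negSucc (nat_lit 776831332),Int.negSucc (nat_lit 199541952),Int.negSucc (nat_lit 679437212),Int.negSucc (nat_lit 1174590563),Int.negSucc (nat_lit 24387641),Int.ofNat (nat_lit 290462629),Int.negSucc (nat_lit 212019293),Int.ofNat (nat_lit 677208450),Int.ofNat (nat_lit 1546190382),Int.ofNat (nat_lit 206813129),Int.ofNat (nat_lit 160121359),Int.ofNat (nat_lit 19059886),Int.ofNat (nat_lit 114240139),Int.negSucc (nat_lit 267924637),Int.negSucc (nat_lit 284677924),Int.negSucc (nat_lit 173674378),Int.ofNat (nat_lit 546253709),Int.ofNat (nat_lit 300677605),Int.ofNat (nat_lit 94778270),Int.ofNat (nat_lit 232436732),Int.ofNat (nat_lit 29779495),Int.negSucc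 (nat_lit 111360084),Int.ofNat (nat_lit 100545503),Int.negSucc (nat_lit 183298781),Int.negSucc (nat_lit 185401481),Int.ofNat (nat_lit 93501572),Int.negSucc (nat_lit 547324274),Int.negSucc (nat_lit 54319866),Int.ofNat (nat_lit 235995113),Int.ofNat (nat_lit 128545048),Int.ofNat (nat_lit 280811986),Int.negSucc (nat_lit 609257671),Int.negSucc (nat_lit 59309850),Int.negSucc (nat_lit 175233412),Int.negSucc (nat_lit 74426857),Int.negSucc (nat_lit 194142962),Int.negSucc (nat_lit 220212495),Int.negSucc (nat_lit 59180180),Int.negSucc (nat_lit 248153355),Int.ofNat (nat_lit 258078338),Int.negSucc (nat_lit 260285923),Int.ofNat (nat_lit 115817531),Int.ofNat (nat_lit 250297728),Int.ofNat (nat_lit 371062674),Int.ofNat (nat_lit 10969384),Int.ofNat (nat_lit 36280480),Int.negSucc (nat_lit 206591654),Int.ofNat (nat_lit 98096323),Int.ofNat (nat_lit 42114788),Int.ofNat (nat_lit 167739105),Int.ofNat (nat_lit 9497161),Int.ofNat (nat_lit 9384093),Int.negSucc (nat_lit 71574161),Int.negSucc (nat_lit 4657885),Int.negSucc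 (nat_lit 23709862),Int.negSucc (nat_lit 101935272),Int.negSucc (nat_lit 20386279),Int.ofNat (nat_lit 4200754),Int.ofNat (nat_lit 48314665),Int.negSucc (nat_lit 59721052),Int.negSucc (nat_lit 108779770),Int.ofNat (nat_lit 28447871),Int.ofNat (nat_lit 153098450),Int.ofNat (nat_lit 100082509),Int.negSucc (nat_lit 109454979),Int.ofNat (nat_lit 82422858),Int.ofNat (nat_lit 19175645),Int.ofNat (nat_lit 46912414),Int.negSucc (nat_lit 36332479),Int.negSucc (nat_lit 44092063),Int.negSucc (nat_lit 23843344),Int.negSucc (nat_lit 44981272),Int.negSucc (nat_lit 3333278),Int.negSucc (nat_lit 159951072),Int.ofNat (nat_lit 1478558),Int.ofNat (nat_lit 10636304),Int.ofNat (nat_lit 127271718),Int.negSucc (nat_lit 2071873),Int.negSucc (nat_lit 74548014),Int.negSucc (nat_lit 191931750),Int.negSucc (nat_lit 1992974),Int.ofNat (nat_lit 213844605),Int.negSucc (nat_lit 45484846),Int.ofNat (nat_lit 84812405),Int.ofNat (nat_lit 88771223),Int.negSucc (nat_lit 83834518),Int.ofNat (nat_lit 59048342),Int.ofNat (nat_lit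 155160625),Int.negSucc (nat_lit 111575266),Int.ofNat (nat_lit 159940035),Int.ofNat (nat_lit 12110581),Int.negSucc (nat_lit 8008758),Int.negSucc (nat_lit 39223865),Int.negSucc (nat_lit 32484228),Int.ofNat (nat_lit 32216809),Int.ofNat (nat_lit 151002737),Int.ofNat (nat_lit 43763822),Int.negSucc (nat_lit 28836405),Int.negSucc (nat_lit 48343477),Int.ofNat (nat_lit 119359431),Int.ofNat (nat_lit 164619689),Int.negSucc (nat_lit 144994789),Int.ofNat (nat_lit 115282116),Int.ofNat (nat_lit 139958926),Int.ofNat (nat_lit 276120),Int.ofNat (nat_lit 77493458),Int.ofNat (nat_lit 50294300),Int.ofNat (nat_lit 19765550),Int.negSucc (nat_lit 7414448),Int.ofNat (nat_lit 88118905),Int.negSucc (nat_lit 74701146),Int.negSucc (nat_lit 65471064),Int.negSucc (nat_lit 388555841),Int.negSucc (nat_lit 399235740),Int.negSucc (nat_lit 149905663),Int.ofNat (nat_lit 259505923),Int.negSucc (nat_lit 120371724),Int.ofNat (nat_lit 6747759),Int.ofNat (nat_lit 185818005),Int.ofNat (nat_lit 136687575),Int.ofNat (nat_lit 178754689),Int.negSucc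 (nat_lit 517523922),Int.negSucc (nat_lit 1151051884),Int.ofNat (nat_lit 38245324),Int.ofNat (nat_lit 7593605),Int.ofNat (nat_lit 28483633),Int.negSucc (nat_lit 41496255),Int.ofNat (nat_lit 22691134),Int.negSucc (nat_lit 13274226),Int.negSucc (nat_lit 5773886),Int.ofNat (nat_lit 92504238),Int.ofNat (nat_lit 115807518),Int.negSucc (nat_lit 60190865),Int.ofNat (nat_lit 2211453),Int.negSucc (nat_lit 21346411),Int.negSucc (nat_lit 50087127),Int.ofNat (nat_lit 238996537)])

/-- A row. -/
noncomputable def sr6_c2_25 : List ℕ × List ℤ :=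
  ([(nat_lit 1),(nat_lit 1),(nat_lit 0),(nat_lit 1),(nat_lit 0),(nat_lit 0),(nat_lit 0),(nat_lit 0),(nat_lit 0),(nat_lit 0),(nat_lit 0),(nat_lit 0)], [Int.negSucc (nat_lit 2498622174),Int.negSucc (nat_lit 282418236),Int.ofNat (nat_lit 2097873732),Int.ofNat (nat_lit 4520048549),Int.negSucc (nat_lit 3730888247),Int.ofNat (nat_lit 1411477391),Int.negSucc (nat_lit 1715073771),Int.negSucc (nat_lit 1035469260),Int.ofNat (nat_lit 1465091264),Int.ofNat (nat_lit 3006347560),Int.ofNat (nat_lit 1256993136),Int.ofNat (nat_lit 1248089600),Int.ofNat (nat_lit 245487218),Int.ofNat (nat_lit 1694433),Int.ofNat (nat_lit 141305331),Int.negSucc (nat_lit 217852888),Int.ofNat (nat_lit 945567317),Int.negSucc (nat_lit 178863597),Int.ofNat (nat_lit 1803800656),Int.negSucc (nat_lit 1346191336),Int.ofNat (nat_lit 147572041),Int.negSucc (nat_lit 628837740),Int.ofNat (nat_lit 33899584),Int.negSucc (nat_lit 1742731039),Int.negSucc (nat_lit 534343601),Int.negSucc (nat_lit 438819644),Int.negSucc (nat_lit 284866746),Int.ofNat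 (nat_lit 434808327),Int.negSucc (nat_lit 1858439540),Int.ofNat (nat_lit 906491552),Int.negSucc (nat_lit 1415915734),Int.negSucc (nat_lit 707369421),Int.ofNat (nat_lit 787790477),Int.negSucc (nat_lit 425017403),Int.negSucc (nat_lit 209926853),Int.negSucc (nat_lit 574117235),Int.ofNat (nat_lit 590008570),Int.ofNat (nat_lit 218725168),Int.ofNat (nat_lit 1687285951),Int.negSucc (nat_lit 678294330),Int.negSucc (nat_lit 725783801),Int.ofNat (nat_lit 143092360),Int.negSucc (nat_lit 386351074),Int.ofNat (nat_lit 627875668),Int.negSucc (nat_lit 457142657),Int.ofNat (nat_lit 722548600),Int.negSucc (nat_lit 2709685),Int.negSucc (nat_lit 146041681),Int.negSucc (nat_lit 680171500),Int.ofNat (nat_lit 110425689),Int.ofNat (nat_lit 494618425),Int.negSucc (nat_lit 111730319),Int.ofNat (nat_lit 382370689),Int.negSucc (nat_lit 946266001),Int.negSucc (nat_lit 304626724),Int.ofNat (nat_lit 1121608246),Int.ofNat (nat_lit 42152456),Int.negSucc (nat_lit 439273223),Int.negSucc (nat_lit 268720133),Int.negSucc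 (nat_lit 1069807374),Int.negSucc (nat_lit 383075709),Int.negSucc (nat_lit 86709188),Int.ofNat (nat_lit 87717594),Int.negSucc (nat_lit 403790340),Int.negSucc (nat_lit 34149394),Int.negSucc (nat_lit 618489859),Int.ofNat (nat_lit 671168858),Int.negSucc (nat_lit 85615596),Int.ofNat (nat_lit 586581220),Int.ofNat (nat_lit 184598572),Int.negSucc (nat_lit 375444981),Int.negSucc (nat_lit 235732326),Int.negSucc (nat_lit 136622861),Int.negSucc (nat_lit 328254851),Int.ofNat (nat_lit 101416891),Int.negSucc (nat_lit 85700256),Int.ofNat (nat_lit 112722245),Int.ofNat (nat_lit 51152781),Int.ofNat (nat_lit 20049673),Int.negSucc (nat_lit 94831596),Int.ofNat (nat_lit 12659103),Int.negSucc (nat_lit 19632601),Int.negSucc (nat_lit 60930565),Int.ofNat (nat_lit 200162411),Int.ofNat (nat_lit 408463963),Int.negSucc (nat_lit 20205),Int.ofNat (nat_lit 124305988),Int.negSucc (nat_lit 217039543),Int.ofNat (nat_lit 395003921),Int.ofNat (nat_lit 846280894),Int.ofNat (nat_lit 68876363),Int.ofNat (nat_lit 431386026),Int.negSucc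 (nat_lit 331616465),Int.negSucc (nat_lit 193100781),Int.ofNat (nat_lit 309637832),Int.ofNat (nat_lit 77169484),Int.negSucc (nat_lit 35520876),Int.negSucc (nat_lit 562826229),Int.ofNat (nat_lit 197932444),Int.ofNat (nat_lit 456765703),Int.ofNat (nat_lit 363136648),Int.negSucc (nat_lit 408938243),Int.negSucc (nat_lit 23238214),Int.ofNat (nat_lit 418163317),Int.ofNat (nat_lit 61388712),Int.ofNat (nat_lit 134358005),Int.negSucc (nat_lit 265290590),Int.negSucc (nat_lit 109789172),Int.negSucc (nat_lit 74952338),Int.negSucc (nat_lit 149060483),Int.ofNat (nat_lit 81619892),Int.ofNat (nat_lit 180721382),Int.negSucc (nat_lit 31891207),Int.ofNat (nat_lit 22891851),Int.negSucc (nat_lit 14544520),Int.negSucc (nat_lit 235633630),Int.negSucc (nat_lit 31197759),Int.ofNat (nat_lit 303716319),Int.ofNat (nat_lit 412771315),Int.negSucc (nat_lit 73921780),Int.ofNat (nat_lit 157052744),Int.negSucc (nat_lit 134981750),Int.ofNat (nat_lit 333611612),Int.ofNat (nat_lit 184091074),Int.ofNat (nat_lit 61840567),Int.ofNat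 (nat_lit 190300168),Int.ofNat (nat_lit 287108727),Int.ofNat (nat_lit 48300781),Int.negSucc (nat_lit 122186929),Int.ofNat (nat_lit 57095796),Int.ofNat (nat_lit 267607028),Int.negSucc (nat_lit 238966253),Int.ofNat (nat_lit 173927072),Int.negSucc (nat_lit 315125615),Int.negSucc (nat_lit 148224923),Int.negSucc (nat_lit 91538986),Int.negSucc (nat_lit 209023454),Int.ofNat (nat_lit 246239701),Int.ofNat (nat_lit 49807616),Int.negSucc (nat_lit 249610397),Int.negSucc (nat_lit 69847219),Int.negSucc (nat_lit 178392664),Int.ofNat (nat_lit 380268196),Int.ofNat (nat_lit 726220462),Int.ofNat (nat_lit 500868688),Int.ofNat (nat_lit 326443777),Int.negSucc (nat_lit 130409053),Int.negSucc (nat_lit 197579671),Int.ofNat (nat_lit 645825616),Int.negSucc (nat_lit 50395243),Int.negSucc (nat_lit 3597531093),Int.ofNat (nat_lit 881381278),Int.negSucc (nat_lit 36506316),Int.negSucc (nat_lit 27452605),Int.negSucc (nat_lit 48161144),Int.negSucc (nat_lit 469316881),Int.ofNat (nat_lit 89362361),Int.negSucc (nat_lit 218969434),Int.ofNat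 (nat_lit 69804026),Int.negSucc (nat_lit 183885258),Int.negSucc (nat_lit 445616437),Int.negSucc (nat_lit 241522970),Int.negSucc (nat_lit 225642943),Int.negSucc (nat_lit 1158124),Int.ofNat (nat_lit 1033716996)])

/-- A row. -/
noncomputable def sr6_c2_26 : List ℕ × List ℤ :=
  ([(nat_lit 1),(nat_lit 2),(nat_lit 0),(nat_lit 0),(nat_lit 0),(nat_lit 0),(nat_lit 0),(nat_lit 0),(nat_lit 0),(nat_lit 0),(nat_lit 0),(nat_lit 0)], [Int.ofNat (nat_lit 1809588805),Int.negSucc (nat_lit 3841805538),Int.negSucc (nat_lit 3575996056),Int.negSucc (nat_lit 4767794009),Int.ofNat (nat_lit 4406134429),Int.negSucc (nat_lit 1204067465),Int.ofNat (nat_lit 996631383),Int.ofNat (nat_lit 421579296),Int.negSucc (nat_lit 757436734),Int.negSucc (nat_lit 2090130231),Int.negSucc (nat_lit 2506912274),Int.negSucc (nat_lit 1375343264),Int.negSucc (nat_lit 1013539347),Int.ofNat (nat_lit 81925167),Int.ofNat (nat_lit 26628053),Int.ofNat (nat_lit 285561951),Int.negSucc (nat_lit 1536487759),Int.ofNat (nat_lit 284956951),Int.negSucc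 (nat_lit 2022827690),Int.ofNat (nat_lit 1146439377),Int.negSucc (nat_lit 759491133),Int.ofNat (nat_lit 948864458),Int.negSucc (nat_lit 466321960),Int.ofNat (nat_lit 98475528),Int.ofNat (nat_lit 943176450),Int.ofNat (nat_lit 101883303),Int.ofNat (nat_lit 86992741),Int.negSucc (nat_lit 1285780390),Int.ofNat (nat_lit 1861619940),Int.negSucc (nat_lit 871045394),Int.ofNat (nat_lit 838282478),Int.negSucc (nat_lit 52485105),Int.negSucc (nat_lit 1543179872),Int.ofNat (nat_lit 459633483),Int.ofNat (nat_lit 625049949),Int.negSucc (nat_lit 665846338),Int.negSucc (nat_lit 1046578843),Int.negSucc (nat_lit 106732562),Int.negSucc (nat_lit 1838117265),Int.ofNat (nat_lit 580172508),Int.ofNat (nat_lit 876297703),Int.negSucc (nat_lit 733054279),Int.ofNat (nat_lit 157533083),Int.negSucc (nat_lit 723601274),Int.ofNat (nat_lit 792070019),Int.negSucc (nat_lit 945666923),Int.ofNat (nat_lit 330747133),Int.ofNat (nat_lit 1008451699),Int.ofNat (nat_lit 641275856),Int.negSucc (nat_lit 386049999),Int.negSucc (nat_lit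 1086844713),Int.ofNat (nat_lit 391088885),Int.ofNat (nat_lit 234840663),Int.ofNat (nat_lit 1225930107),Int.negSucc (nat_lit 9374502),Int.negSucc (nat_lit 464182161),Int.ofNat (nat_lit 327352292),Int.ofNat (nat_lit 1045008158),Int.ofNat (nat_lit 216439601),Int.ofNat (nat_lit 932073923),Int.negSucc (nat_lit 1052865682),Int.ofNat (nat_lit 547912112),Int.ofNat (nat_lit 117232787),Int.negSucc (nat_lit 127084456),Int.negSucc (nat_lit 331673426),Int.ofNat (nat_lit 269807815),Int.negSucc (nat_lit 680461921),Int.negSucc (nat_lit 402009759),Int.negSucc (nat_lit 275416345),Int.ofNat (nat_lit 380313475),Int.ofNat (nat_lit 1324945447),Int.ofNat (nat_lit 383531088),Int.ofNat (nat_lit 95247838),Int.ofNat (nat_lit 656429103),Int.negSucc (nat_lit 36734595),Int.ofNat (nat_lit 57356219),Int.ofNat (nat_lit 52618417),Int.negSucc (nat_lit 39214446),Int.ofNat (nat_lit 18676966),Int.negSucc (nat_lit 261294272),Int.ofNat (nat_lit 30750159),Int.ofNat (nat_lit 4988829),Int.ofNat (nat_lit 80340887),Int.ofNat (nat_lit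 110932929),Int.negSucc (nat_lit 214909239),Int.negSucc (nat_lit 149395460),Int.ofNat (nat_lit 92899237),Int.ofNat (nat_lit 448663682),Int.negSucc (nat_lit 469334767),Int.negSucc (nat_lit 732214453),Int.negSucc (nat_lit 102778890),Int.negSucc (nat_lit 231386544),Int.ofNat (nat_lit 700258532),Int.ofNat (nat_lit 339477048),Int.negSucc (nat_lit 462828021),Int.negSucc (nat_lit 5827488),Int.ofNat (nat_lit 238425136),Int.ofNat (nat_lit 717837140),Int.negSucc (nat_lit 159203433),Int.negSucc (nat_lit 1220448576),Int.negSucc (nat_lit 342712136),Int.ofNat (nat_lit 149892445),Int.ofNat (nat_lit 230360204),Int.ofNat (nat_lit 10640049),Int.ofNat (nat_lit 108902424),Int.negSucc (nat_lit 122809922),Int.ofNat (nat_lit 284209597),Int.negSucc (nat_lit 40247838),Int.ofNat (nat_lit 144332346),Int.ofNat (nat_lit 224733863),Int.negSucc (nat_lit 279117502),Int.negSucc (nat_lit 552032950),Int.ofNat (nat_lit 151880223),Int.negSucc (nat_lit 194404162),Int.ofNat (nat_lit 105094340),Int.ofNat (nat_lit 257335433),Int.ofNat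 (nat_lit 28852932),Int.negSucc (nat_lit 591460064),Int.negSucc (nat_lit 615342069),Int.ofNat (nat_lit 565786319),Int.negSucc (nat_lit 249927377),Int.ofNat (nat_lit 248939390),Int.negSucc (nat_lit 444295437),Int.ofNat (nat_lit 88343766),Int.negSucc (nat_lit 189960556),Int.negSucc (nat_lit 98599609),Int.negSucc (nat_lit 600288394),Int.ofNat (nat_lit 192995870),Int.ofNat (nat_lit 156656862),Int.negSucc (nat_lit 139105057),Int.negSucc (nat_lit 196622108),Int.negSucc (nat_lit 15766700),Int.ofNat (nat_lit 10489365),Int.ofNat (nat_lit 471128575),Int.ofNat (nat_lit 257785281),Int.negSucc (nat_lit 266264168),Int.ofNat (nat_lit 234872436),Int.negSucc (nat_lit 190646757),Int.negSucc (nat_lit 169846289),Int.ofNat (nat_lit 1672830460),Int.ofNat (nat_lit 133902563),Int.negSucc (nat_lit 943449713),Int.ofNat (nat_lit 663849546),Int.negSucc (nat_lit 1277473403),Int.negSucc (nat_lit 198831155),Int.negSucc (nat_lit 1842843687),Int.negSucc (nat_lit 306251610),Int.ofNat (nat_lit 651161873),Int.negSucc (nat_lit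 330471640),Int.ofNat (nat_lit 15149284),Int.ofNat (nat_lit 1691447810),Int.negSucc (nat_lit 1147011723),Int.negSucc (nat_lit 4148590843),Int.negSucc (nat_lit 1058616434),Int.ofNat (nat_lit 807972840),Int.ofNat (nat_lit 138823016),Int.ofNat (nat_lit 118414633),Int.negSucc (nat_lit 692248925),Int.ofNat (nat_lit 215816503),Int.negSucc (nat_lit 216029378),Int.ofNat (nat_lit 871268039),Int.ofNat (nat_lit 1051895566),Int.ofNat (nat_lit 129754982),Int.negSucc (nat_lit 44972763),Int.negSucc (nat_lit 777237516),Int.ofNat (nat_lit 1994689757)])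

/-- A row. -/
noncomputable def sr6_c2_27 : List ℕ × List ℤ :=
  ([(nat_lit 1),(nat_lit 2),(nat_lit 1),(nat_lit 0),(nat_lit 0),(nat_lit 0),(nat_lit 0),(nat_lit 0),(nat_lit 0),(nat_lit 0),(nat_lit 0),(nat_lit 0)], [Int.negSucc (nat_lit 2310620012),Int.negSucc (nat_lit 1676767056),Int.negSucc (nat_lit 68063948),Int.ofNat (nat_lit 67175065),Int.negSucc (nat_lit 1880795065),Int.negSucc (nat_lit 847252328),Int.negSucc (nat_lit 565831440),Int.negSucc (nat_lit 496234031),Int.ofNat (nat_lit 440767605),Int.ofNat (nat_lit 829565346),Int.negSucc (nat_lit 551730525),Int.negSucc (nat_lit 809952287),Int.ofNat (nat_lit 220900193),Int.ofNat (nat_lit 133867628),Int.ofNat (nat_lit 106177391),Int.ofNat (nat_lit 408829165),Int.negSucc (nat_lit 645275502),Int.ofNat (nat_lit 701412150),Int.negSucc (nat_lit 517643371),Int.negSucc (nat_lit 178009192),Int.negSucc (nat_lit 239176553),Int.ofNat (nat_lit 833963419),Int.negSucc (nat_lit 233922417),Int.negSucc (nat_lit 737950569),Int.ofNat (nat_lit 285369742),Int.negSucc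 (nat_lit 716452946),Int.negSucc (nat_lit 251480373),Int.negSucc (nat_lit 716508640),Int.ofNat (nat_lit 68374304),Int.ofNat (nat_lit 62626253),Int.ofNat (nat_lit 254887359),Int.negSucc (nat_lit 583145518),Int.negSucc (nat_lit 1107167171),Int.negSucc (nat_lit 39869054),Int.ofNat (nat_lit 371733627),Int.negSucc (nat_lit 762229406),Int.negSucc (nat_lit 754931407),Int.negSucc (nat_lit 237070054),Int.ofNat (nat_lit 182013806),Int.ofNat (nat_lit 560140522),Int.negSucc (nat_lit 16173688),Int.ofNat (nat_lit 43808535),Int.ofNat (nat_lit 53770198),Int.ofNat (nat_lit 321242432),Int.ofNat (nat_lit 36703888),Int.negSucc (nat_lit 12042706),Int.ofNat (nat_lit 17846938),Int.ofNat (nat_lit 446697905),Int.negSucc (nat_lit 299334711),Int.negSucc (nat_lit 270472587),Int.negSucc (nat_lit 410777125),Int.ofNat (nat_lit 100839337),Int.ofNat (nat_lit 82853627),Int.ofNat (nat_lit 47876587),Int.negSucc (nat_lit 273816234),Int.ofNat (nat_lit 27467862),Int.ofNat (nat_lit 322292802),Int.ofNat (nat_lit 496504318),Int.ofNat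 (nat_lit 150696798),Int.ofNat (nat_lit 48584039),Int.negSucc (nat_lit 653453725),Int.ofNat (nat_lit 36426261),Int.negSucc (nat_lit 135565219),Int.negSucc (nat_lit 73577495),Int.negSucc (nat_lit 496300220),Int.negSucc (nat_lit 672838421),Int.negSucc (nat_lit 670542911),Int.negSucc (nat_lit 835793092),Int.negSucc (nat_lit 63604861),Int.ofNat (nat_lit 432096332),Int.ofNat (nat_lit 1000549374),Int.negSucc (nat_lit 99672978),Int.negSucc (nat_lit 255224302),Int.ofNat (nat_lit 205159448),Int.ofNat (nat_lit 74313842),Int.ofNat (nat_lit 5530683),Int.negSucc (nat_lit 89618309),Int.negSucc (nat_lit 101797344),Int.ofNat (nat_lit 18831604),Int.negSucc (nat_lit 144659665),Int.ofNat (nat_lit 133208291),Int.ofNat (nat_lit 59089981),Int.ofNat (nat_lit 24443357),Int.ofNat (nat_lit 337271197),Int.ofNat (nat_lit 110920181),Int.negSucc (nat_lit 57583605),Int.ofNat (nat_lit 111099403),Int.ofNat (nat_lit 335618528),Int.negSucc (nat_lit 98205383),Int.negSucc (nat_lit 36844919),Int.negSucc (nat_lit 20284346),Int.ofNat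 (nat_lit 4180006),Int.ofNat (nat_lit 336574856),Int.ofNat (nat_lit 179301848),Int.ofNat (nat_lit 13962005),Int.negSucc (nat_lit 36897162),Int.negSucc (nat_lit 196333484),Int.ofNat (nat_lit 4471198),Int.negSucc (nat_lit 62000077),Int.negSucc (nat_lit 127197781),Int.ofNat (nat_lit 99425336),Int.negSucc (nat_lit 461847311),Int.ofNat (nat_lit 128529193),Int.ofNat (nat_lit 37724363),Int.ofNat (nat_lit 258934621),Int.ofNat (nat_lit 156473310),Int.negSucc (nat_lit 166692266),Int.negSucc (nat_lit 111728392),Int.ofNat (nat_lit 32160932),Int.negSucc (nat_lit 17990397),Int.negSucc (nat_lit 14752164),Int.negSucc (nat_lit 133828831),Int.ofNat (nat_lit 151289535),Int.negSucc (nat_lit 140121673),Int.ofNat (nat_lit 88257495),Int.ofNat (nat_lit 133520441),Int.ofNat (nat_lit 73640844),Int.negSucc (nat_lit 25425705),Int.negSucc (nat_lit 10927985),Int.ofNat (nat_lit 93679888),Int.ofNat (nat_lit 200390249),Int.ofNat (nat_lit 106160536),Int.ofNat (nat_lit 156514875),Int.ofNat (nat_lit 60722622),Int.negSucc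 (nat_lit 210617520),Int.ofNat (nat_lit 79532047),Int.negSucc (nat_lit 198439507),Int.ofNat (nat_lit 267178855),Int.ofNat (nat_lit 170424062),Int.negSucc (nat_lit 122303791),Int.ofNat (nat_lit 71130293),Int.negSucc (nat_lit 147276866),Int.ofNat (nat_lit 120278124),Int.negSucc (nat_lit 33950953),Int.ofNat (nat_lit 75504976),Int.negSucc (nat_lit 179024809),Int.ofNat (nat_lit 81212384),Int.ofNat (nat_lit 108656605),Int.negSucc (nat_lit 58191627),Int.ofNat (nat_lit 1329270329),Int.ofNat (nat_lit 255474862),Int.negSucc (nat_lit 737696179),Int.ofNat (nat_lit 224083706),Int.negSucc (nat_lit 16271947),Int.negSucc (nat_lit 212752924),Int.negSucc (nat_lit 435632589),Int.ofNat (nat_lit 80750246),Int.negSucc (nat_lit 752174814),Int.ofNat (nat_lit 572624463),Int.ofNat (nat_lit 173952138),Int.negSucc (nat_lit 629467481),Int.negSucc (nat_lit 963115116),Int.negSucc (nat_lit 2474822420),Int.negSucc (nat_lit 1066654435),Int.negSucc (nat_lit 2165910079),Int.negSucc (nat_lit 99370937),Int.ofNat (nat_lit 17633883),Int.negSucc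 (nat_lit 40636045),Int.ofNat (nat_lit 135692770),Int.ofNat (nat_lit 240395526),Int.ofNat (nat_lit 265503979),Int.ofNat (nat_lit 19801555),Int.ofNat (nat_lit 216590756),Int.negSucc (nat_lit 139169616),Int.ofNat (nat_lit 256763613),Int.ofNat (nat_lit 502790801),Int.ofNat (nat_lit 1022655843)])

/-- A row. -/
noncomputable def sr6_c2_28 : List ℕ × List ℤ :=
  ([(nat_lit 1),(nat_lit 4),(nat_lit 0),(nat_lit 0),(nat_lit 0),(nat_lit 0),(nat_lit 0),(nat_lit 0),(nat_lit 0),(nat_lit 0),(nat_lit 0),(nat_lit 0)], [Int.negSucc (nat_lit 1583274565),Int.ofNat (nat_lit 3157704528),Int.ofNat (nat_lit 1594619098),Int.ofNat (nat_lit 3684459641),Int.negSucc (nat_lit 3597936128),Int.negSucc (nat_lit 433348674),Int.negSucc (nat_lit 598727643),Int.ofNat (nat_lit 622494404),Int.negSucc (nat_lit 486300847),Int.ofNat (nat_lit 2291029922),Int.ofNat (nat_lit 1731347442),Int.negSucc (nat_lit 248883897),Int.ofNat (nat_lit 814034124),Int.ofNat (nat_lit 153771883),Int.negSucc (nat_lit 245260246),Int.ofNat (nat_lit 383831718),Int.ofNat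 (nat_lit 912333428),Int.ofNat (nat_lit 245947114),Int.ofNat (nat_lit 504672483),Int.negSucc (nat_lit 93607820),Int.negSucc (nat_lit 114449929),Int.ofNat (nat_lit 107485226),Int.negSucc (nat_lit 289855131),Int.ofNat (nat_lit 24860898),Int.ofNat (nat_lit 289912459),Int.negSucc (nat_lit 825361320),Int.ofNat (nat_lit 218268933),Int.ofNat (nat_lit 284147586),Int.negSucc (nat_lit 953335726),Int.ofNat (nat_lit 1144563981),Int.negSucc (nat_lit 172210538),Int.negSucc (nat_lit 408154745),Int.negSucc (nat_lit 242926252),Int.negSucc (nat_lit 932588556),Int.negSucc (nat_lit 805255121),Int.negSucc (nat_lit 224405577),Int.ofNat (nat_lit 646522685),Int.negSucc (nat_lit 102888610),Int.ofNat (nat_lit 961782430),Int.ofNat (nat_lit 97803584),Int.negSucc (nat_lit 353749518),Int.ofNat (nat_lit 650060873),Int.ofNat (nat_lit 265315813),Int.negSucc (nat_lit 88293866),Int.negSucc (nat_lit 488529802),Int.ofNat (nat_lit 485621296),Int.ofNat (nat_lit 125509287),Int.negSucc (nat_lit 191612935),Int.negSucc (nat_lit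 504635436),Int.ofNat (nat_lit 698320142),Int.ofNat (nat_lit 132207294),Int.negSucc (nat_lit 205451441),Int.negSucc (nat_lit 70438463),Int.negSucc (nat_lit 572212267),Int.ofNat (nat_lit 54560117),Int.ofNat (nat_lit 640702467),Int.ofNat (nat_lit 166151675),Int.negSucc (nat_lit 91162272),Int.negSucc (nat_lit 120400762),Int.ofNat (nat_lit 276412753),Int.ofNat (nat_lit 656373083),Int.negSucc (nat_lit 300311986),Int.negSucc (nat_lit 1330140109),Int.ofNat (nat_lit 98000100),Int.ofNat (nat_lit 9073615),Int.negSucc (nat_lit 128582115),Int.ofNat (nat_lit 371991479),Int.negSucc (nat_lit 52964843),Int.negSucc (nat_lit 28504212),Int.negSucc (nat_lit 218652304),Int.negSucc (nat_lit 417582721),Int.negSucc (nat_lit 211259082),Int.negSucc (nat_lit 210290654),Int.negSucc (nat_lit 550982556),Int.ofNat (nat_lit 173490452),Int.ofNat (nat_lit 63862108),Int.negSucc (nat_lit 336270685),Int.negSucc (nat_lit 92606867),Int.negSucc (nat_lit 88720955),Int.ofNat (nat_lit 281371016),Int.negSucc (nat_lit 227153191),Int.negSucc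 (nat_lit 104955759),Int.negSucc (nat_lit 241853809),Int.ofNat (nat_lit 104577554),Int.ofNat (nat_lit 250339307),Int.ofNat (nat_lit 35738799),Int.ofNat (nat_lit 76632376),Int.ofNat (nat_lit 90310611),Int.ofNat (nat_lit 186875645),Int.negSucc (nat_lit 67536667),Int.ofNat (nat_lit 49313720),Int.ofNat (nat_lit 205808370),Int.negSucc (nat_lit 197855221),Int.negSucc (nat_lit 47992796),Int.ofNat (nat_lit 145211406),Int.negSucc (nat_lit 79266501),Int.ofNat (nat_lit 436118499),Int.ofNat (nat_lit 293826350),Int.ofNat (nat_lit 107079903),Int.ofNat (nat_lit 912078483),Int.ofNat (nat_lit 279115658),Int.ofNat (nat_lit 293875483),Int.negSucc (nat_lit 493415760),Int.negSucc (nat_lit 707949195),Int.negSucc (nat_lit 147406232),Int.ofNat (nat_lit 46644685),Int.ofNat (nat_lit 65350908),Int.ofNat (nat_lit 53628160),Int.ofNat (nat_lit 121871618),Int.negSucc (nat_lit 51774990),Int.ofNat (nat_lit 211665898),Int.ofNat (nat_lit 218511162),Int.negSucc (nat_lit 108245227),Int.negSucc (nat_lit 35776882),Int.ofNat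 (nat_lit 20593492),Int.negSucc (nat_lit 81141685),Int.ofNat (nat_lit 30033392),Int.ofNat (nat_lit 205954718),Int.negSucc (nat_lit 105013518),Int.negSucc (nat_lit 122906878),Int.ofNat (nat_lit 6854804),Int.ofNat (nat_lit 596436461),Int.ofNat (nat_lit 251593018),Int.ofNat (nat_lit 6261428),Int.negSucc (nat_lit 193669236),Int.negSucc (nat_lit 95881120),Int.ofNat (nat_lit 64049555),Int.negSucc (nat_lit 43682979),Int.ofNat (nat_lit 44699549),Int.negSucc (nat_lit 250729516),Int.ofNat (nat_lit 119560925),Int.negSucc (nat_lit 75700847),Int.negSucc (nat_lit 85727878),Int.negSucc (nat_lit 221307727),Int.ofNat (nat_lit 21718792),Int.ofNat (nat_lit 430852450),Int.ofNat (nat_lit 2464303),Int.ofNat (nat_lit 134960670),Int.ofNat (nat_lit 25224632),Int.negSucc (nat_lit 202705651),Int.ofNat (nat_lit 90525321),Int.ofNat (nat_lit 420981525),Int.negSucc (nat_lit 372812615),Int.ofNat (nat_lit 1355596968),Int.ofNat (nat_lit 1038973179),Int.ofNat (nat_lit 1046045033),Int.ofNat (nat_lit 416814062),Int.negSucc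 (nat_lit 813070638),Int.ofNat (nat_lit 398390396),Int.ofNat (nat_lit 402936203),Int.ofNat (nat_lit 167304919),Int.negSucc (nat_lit 105151063),Int.ofNat (nat_lit 2935413599),Int.ofNat (nat_lit 485186686),Int.negSucc (nat_lit 2137677186),Int.negSucc (nat_lit 1384921206),Int.negSucc (nat_lit 2275845124),Int.ofNat (nat_lit 266416426),Int.ofNat (nat_lit 42207416),Int.negSucc (nat_lit 75713154),Int.negSucc (nat_lit 1052787654),Int.ofNat (nat_lit 722832),Int.ofNat (nat_lit 147152005),Int.negSucc (nat_lit 97691791),Int.ofNat (nat_lit 152084302),Int.negSucc (nat_lit 381392455),Int.ofNat (nat_lit 635546997),Int.ofNat (nat_lit 1998941011)])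

/-- A row. -/
noncomputable def sr6_c2_29 : List ℕ × List ℤ :=
  ([(nat_lit 2),(nat_lit 0),(nat_lit 0),(nat_lit 0),(nat_lit 0),(nat_lit 0),(nat_lit 0),(nat_lit 0),(nat_lit 0),(nat_lit 0),(nat_lit 0),(nat_lit 0)], [Int.ofNat (nat_lit 363382217),Int.ofNat (nat_lit 2666592450),Int.ofNat (nat_lit 582557115),Int.ofNat (nat_lit 713233755),Int.negSucc (nat_lit 3996262555),Int.ofNat (nat_lit 1067531632),Int.negSucc (nat_lit 473019996),Int.negSucc (nat_lit 928136798),Int.negSucc (nat_lit 477694874),Int.ofNat (nat_lit 46020212),Int.negSucc (nat_lit 113060461),Int.negSucc (nat_lit 915607436),Int.negSucc (nat_lit 600237492),Int.ofNat (nat_lit 30830883),Int.negSucc (nat_lit 109118842),Int.ofNat (nat_lit 359007601),Int.negSucc (nat_lit 526692226),Int.negSucc (nat_lit 662707637),Int.ofNat (nat_lit 405322048),Int.ofNat (nat_lit 539391368),Int.ofNat (nat_lit 103119301),Int.ofNat (nat_lit 159468000),Int.negSucc (nat_lit 386547381),Int.ofNat (nat_lit 1226185400),Int.negSucc (nat_lit 189581485),Int.ofNat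 (nat_lit 366508313),Int.negSucc (nat_lit 56007214),Int.ofNat (nat_lit 607034472),Int.negSucc (nat_lit 199417976),Int.ofNat (nat_lit 494402285),Int.ofNat (nat_lit 64222930),Int.negSucc (nat_lit 36618832),Int.negSucc (nat_lit 255826696),Int.ofNat (nat_lit 80315479),Int.negSucc (nat_lit 1605717020),Int.negSucc (nat_lit 18961933),Int.ofNat (nat_lit 778482247),Int.negSucc (nat_lit 720780180),Int.negSucc (nat_lit 1180049380),Int.negSucc (nat_lit 901242040),Int.negSucc (nat_lit 28197846),Int.negSucc (nat_lit 229688571),Int.ofNat (nat_lit 395655551),Int.negSucc (nat_lit 584727671),Int.ofNat (nat_lit 611094300),Int.negSucc (nat_lit 535289613),Int.negSucc (nat_lit 749897322),Int.negSucc (nat_lit 429084391),Int.negSucc (nat_lit 270424613),Int.negSucc (nat_lit 102372662),Int.ofNat (nat_lit 120764200),Int.ofNat (nat_lit 44916359),Int.ofNat (nat_lit 862546594),Int.negSucc (nat_lit 237030721),Int.negSucc (nat_lit 559515465),Int.ofNat (nat_lit 278757299),Int.negSucc (nat_lit 92499698),Int.negSucc (nat_lit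 69739201),Int.negSucc (nat_lit 34891665),Int.negSucc (nat_lit 108900840),Int.negSucc (nat_lit 62752030),Int.negSucc (nat_lit 88437393),Int.negSucc (nat_lit 12410281),Int.negSucc (nat_lit 317167798),Int.ofNat (nat_lit 368689306),Int.ofNat (nat_lit 687085608),Int.negSucc (nat_lit 291936987),Int.negSucc (nat_lit 142556754),Int.negSucc (nat_lit 301704236),Int.negSucc (nat_lit 326713400),Int.negSucc (nat_lit 189966409),Int.ofNat (nat_lit 652350792),Int.negSucc (nat_lit 449581642),Int.negSucc (nat_lit 140971361),Int.ofNat (nat_lit 202018920),Int.ofNat (nat_lit 117039655),Int.negSucc (nat_lit 168830003),Int.negSucc (nat_lit 369157287),Int.ofNat (nat_lit 128529262),Int.negSucc (nat_lit 162088547),Int.negSucc (nat_lit 70864069),Int.ofNat (nat_lit 43711813),Int.ofNat (nat_lit 207769337),Int.ofNat (nat_lit 405413148),Int.negSucc (nat_lit 66310963),Int.negSucc (nat_lit 97047953),Int.negSucc (nat_lit 37088173),Int.ofNat (nat_lit 165283113),Int.negSucc (nat_lit 199946392),Int.negSucc (nat_lit 191680210),Int.negSucc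 (nat_lit 134632524),Int.negSucc (nat_lit 36104376),Int.negSucc (nat_lit 214066927),Int.ofNat (nat_lit 68184194),Int.ofNat (nat_lit 119731147),Int.ofNat (nat_lit 204291154),Int.negSucc (nat_lit 334124695),Int.ofNat (nat_lit 112401184),Int.negSucc (nat_lit 68320484),Int.ofNat (nat_lit 75797984),Int.negSucc (nat_lit 69100204),Int.negSucc (nat_lit 91065642),Int.negSucc (nat_lit 85242095),Int.negSucc (nat_lit 18435915),Int.ofNat (nat_lit 58766359),Int.ofNat (nat_lit 127970949),Int.ofNat (nat_lit 407926446),Int.ofNat (nat_lit 206693309),Int.ofNat (nat_lit 49749827),Int.negSucc (nat_lit 58801472),Int.negSucc (nat_lit 101398803),Int.negSucc (nat_lit 259994917),Int.negSucc (nat_lit 31822491),Int.negSucc (nat_lit 21405037),Int.ofNat (nat_lit 12946963),Int.negSucc (nat_lit 10756361),Int.negSucc (nat_lit 93199232),Int.negSucc (nat_lit 38712812),Int.ofNat (nat_lit 25213107),Int.ofNat (nat_lit 77543739),Int.negSucc (nat_lit 133196462),Int.negSucc (nat_lit 15678262),Int.negSucc (nat_lit 1070512),Int.negSucc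 (nat_lit 60730144),Int.negSucc (nat_lit 80127141),Int.negSucc (nat_lit 88656040),Int.negSucc (nat_lit 251632079),Int.negSucc (nat_lit 21328145),Int.negSucc (nat_lit 127294453),Int.negSucc (nat_lit 217290968),Int.ofNat (nat_lit 153292771),Int.negSucc (nat_lit 88972211),Int.negSucc (nat_lit 32565556),Int.ofNat (nat_lit 142932507),Int.ofNat (nat_lit 421231137),Int.negSucc (nat_lit 111552088),Int.ofNat (nat_lit 103469900),Int.negSucc (nat_lit 32475894),Int.negSucc (nat_lit 84783453),Int.ofNat (nat_lit 1197269091),Int.negSucc (nat_lit 299212033),Int.negSucc (nat_lit 1182387664),Int.ofNat (nat_lit 886295091),Int.ofNat (nat_lit 748863316),Int.ofNat (nat_lit 601049469),Int.negSucc (nat_lit 957503342),Int.ofNat (nat_lit 292407384),Int.negSucc (nat_lit 657251986),Int.ofNat (nat_lit 435580259),Int.ofNat (nat_lit 145856565),Int.negSucc (nat_lit 289197325),Int.ofNat (nat_lit 124796073),Int.ofNat (nat_lit 713793108),Int.ofNat (nat_lit 35832863),Int.ofNat (nat_lit 365044733),Int.negSucc (nat_lit 27232432),Int.ofNat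 (nat_lit 13395834),Int.negSucc (nat_lit 2522437999),Int.ofNat (nat_lit 312754260),Int.negSucc (nat_lit 370905871),Int.negSucc (nat_lit 253668670),Int.ofNat (nat_lit 175282204),Int.ofNat (nat_lit 45590957),Int.negSucc (nat_lit 70212669),Int.ofNat (nat_lit 41380544),Int.negSucc (nat_lit 118857724),Int.negSucc (nat_lit 162731667),Int.negSucc (nat_lit 9472814),Int.ofNat (nat_lit 449177168)])

/-- A row. -/
noncomputable def sr6_c2_30 : List ℕ × List ℤ :=
  ([(nat_lit 2),(nat_lit 0),(nat_lit 0),(nat_lit 0),(nat_lit 1),(nat_lit 0),(nat_lit 0),(nat_lit 0),(nat_lit 0),(nat_lit 0),(nat_lit 0),(nat_lit 0)], [Int.ofNat (nat_lit 891756318),Int.ofNat (nat_lit 839971598),Int.ofNat (nat_lit 816520073),Int.negSucc (nat_lit 1173816705),Int.ofNat (nat_lit 584698670),Int.ofNat (nat_lit 1129850740),Int.ofNat (nat_lit 580992822),Int.negSucc (nat_lit 667653120),Int.ofNat (nat_lit 330885738),Int.ofNat (nat_lit 529196475),Int.negSucc (nat_lit 391036566),Int.ofNat (nat_lit 384025376),Int.ofNat (nat_lit 74311905),Int.negSucc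 (nat_lit 66660332),Int.ofNat (nat_lit 121144065),Int.negSucc (nat_lit 177918728),Int.ofNat (nat_lit 396144911),Int.ofNat (nat_lit 236233585),Int.ofNat (nat_lit 524979935),Int.negSucc (nat_lit 257131283),Int.ofNat (nat_lit 22059306),Int.negSucc (nat_lit 292603181),Int.ofNat (nat_lit 188157478),Int.ofNat (nat_lit 94873242),Int.negSucc (nat_lit 253419621),Int.negSucc (nat_lit 100092051),Int.ofNat (nat_lit 245276877),Int.negSucc (nat_lit 165057510),Int.ofNat (nat_lit 19635689),Int.negSucc (nat_lit 326245093),Int.negSucc (nat_lit 344284704),Int.ofNat (nat_lit 162976526),Int.ofNat (nat_lit 278092865),Int.ofNat (nat_lit 6788371),Int.ofNat (nat_lit 52669001),Int.ofNat (nat_lit 742177311),Int.ofNat (nat_lit 225154378),Int.ofNat (nat_lit 6907134),Int.ofNat (nat_lit 193058124),Int.negSucc (nat_lit 66757751),Int.negSucc (nat_lit 202758371),Int.ofNat (nat_lit 154493155),Int.ofNat (nat_lit 93072208),Int.ofNat (nat_lit 308733655),Int.negSucc (nat_lit 425771509),Int.ofNat (nat_lit 22140252),Int.negSucc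 (nat_lit 90331131),Int.negSucc (nat_lit 125621198),Int.negSucc (nat_lit 14361092),Int.ofNat (nat_lit 20727120),Int.ofNat (nat_lit 117813038),Int.negSucc (nat_lit 105629031),Int.ofNat (nat_lit 48528346),Int.negSucc (nat_lit 504855499),Int.ofNat (nat_lit 661819106),Int.negSucc (nat_lit 92444545),Int.negSucc (nat_lit 305294548),Int.negSucc (nat_lit 202888679),Int.ofNat (nat_lit 26995218),Int.negSucc (nat_lit 4283812),Int.ofNat (nat_lit 136170229),Int.negSucc (nat_lit 92182087),Int.ofNat (nat_lit 53203774),Int.negSucc (nat_lit 344388034),Int.negSucc (nat_lit 36980709),Int.negSucc (nat_lit 80814283),Int.negSucc (nat_lit 14382246),Int.negSucc (nat_lit 77242822),Int.ofNat (nat_lit 172991156),Int.ofNat (nat_lit 30333220),Int.ofNat (nat_lit 32643993),Int.ofNat (nat_lit 27559954),Int.ofNat (nat_lit 232467325),Int.negSucc (nat_lit 74464175),Int.negSucc (nat_lit 53012995),Int.negSucc (nat_lit 33822951),Int.ofNat (nat_lit 74816604),Int.negSucc (nat_lit 23863598),Int.ofNat (nat_lit 194421963),Int.negSucc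 (nat_lit 97970007),Int.ofNat (nat_lit 24449483),Int.negSucc (nat_lit 93882169),Int.ofNat (nat_lit 13762023),Int.negSucc (nat_lit 110970746),Int.negSucc (nat_lit 42347554),Int.ofNat (nat_lit 33176261),Int.negSucc (nat_lit 141796850),Int.negSucc (nat_lit 21543380),Int.ofNat (nat_lit 154099996),Int.ofNat (nat_lit 203594497),Int.ofNat (nat_lit 21646778),Int.negSucc (nat_lit 84094324),Int.ofNat (nat_lit 105831192),Int.ofNat (nat_lit 62729832),Int.ofNat (nat_lit 23292850),Int.negSucc (nat_lit 23575850),Int.ofNat (nat_lit 40644457),Int.negSucc (nat_lit 28581259),Int.negSucc (nat_lit 55826585),Int.ofNat (nat_lit 14681786),Int.ofNat (nat_lit 110532803),Int.negSucc (nat_lit 14046553),Int.ofNat (nat_lit 9263391),Int.ofNat (nat_lit 107863415),Int.negSucc (nat_lit 112746148),Int.negSucc (nat_lit 46825028),Int.negSucc (nat_lit 99824442),Int.ofNat (nat_lit 64000541),Int.ofNat (nat_lit 58189646),Int.ofNat (nat_lit 82928280),Int.ofNat (nat_lit 2171362),Int.ofNat (nat_lit 52064420),Int.negSucc (nat_lit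 21376597),Int.ofNat (nat_lit 36513047),Int.ofNat (nat_lit 69832945),Int.ofNat (nat_lit 56851077),Int.negSucc (nat_lit 46406802),Int.ofNat (nat_lit 64277550),Int.negSucc (nat_lit 118731519),Int.negSucc (nat_lit 20675238),Int.ofNat (nat_lit 8049533),Int.ofNat (nat_lit 100262739),Int.ofNat (nat_lit 50569356),Int.ofNat (nat_lit 132905487),Int.ofNat (nat_lit 71288325),Int.ofNat (nat_lit 88133276),Int.ofNat (nat_lit 64159545),Int.ofNat (nat_lit 26673569),Int.negSucc (nat_lit 158930194),Int.ofNat (nat_lit 50812085),Int.ofNat (nat_lit 130932860),Int.negSucc (nat_lit 228896590),Int.ofNat (nat_lit 49415291),Int.negSucc (nat_lit 114750129),Int.ofNat (nat_lit 74509040),Int.negSucc (nat_lit 37067805),Int.negSucc (nat_lit 22384536),Int.ofNat (nat_lit 124375258),Int.negSucc (nat_lit 149780210),Int.negSucc (nat_lit 757473083),Int.negSucc (nat_lit 258950771),Int.ofNat (nat_lit 416094559),Int.ofNat (nat_lit 903878064),Int.negSucc (nat_lit 167988382),Int.negSucc (nat_lit 93175618),Int.ofNat (nat_lit 160295719),Int.negSucc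 (nat_lit 321755171),Int.negSucc (nat_lit 80674701),Int.negSucc (nat_lit 56175794),Int.negSucc (nat_lit 84278492),Int.ofNat (nat_lit 166999273),Int.negSucc (nat_lit 72333430),Int.negSucc (nat_lit 51653037),Int.ofNat (nat_lit 212671920),Int.negSucc (nat_lit 19131080),Int.negSucc (nat_lit 43328089),Int.ofNat (nat_lit 28296471),Int.ofNat (nat_lit 223934066),Int.ofNat (nat_lit 102272381),Int.negSucc (nat_lit 472151947),Int.ofNat (nat_lit 56226544),Int.negSucc (nat_lit 2684661),Int.ofNat (nat_lit 13020586),Int.negSucc (nat_lit 18585838),Int.negSucc (nat_lit 15518657),Int.ofNat (nat_lit 7900727),Int.ofNat (nat_lit 14145134),Int.ofNat (nat_lit 20745123),Int.negSucc (nat_lit 7208046),Int.ofNat (nat_lit 80046646)])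

/-- A row. -/
noncomputable def sr6_c2_31 : List ℕ × List ℤ :=
  ([(nat_lit 2),(nat_lit 0),(nat_lit 1),(nat_lit 0),(nat_lit 0),(nat_lit 0),(nat_lit 0),(nat_lit 0),(nat_lit 0),(nat_lit 0),(nat_lit 0),(nat_lit 0)], [Int.ofNat (nat_lit 966911934),Int.ofNat (nat_lit 1988827716),Int.ofNat (nat_lit 542595341),Int.negSucc (nat_lit 786853486),Int.negSucc (nat_lit 2104525664),Int.ofNat (nat_lit 2806283024),Int.negSucc (nat_lit 485068061),Int.negSucc (nat_lit 1804106936),Int.negSucc (nat_lit 441377578),Int.ofNat (nat_lit 730477746),Int.negSucc (nat_lit 580251883),Int.negSucc (nat_lit 552583070),Int.negSucc (nat_lit 349230547),Int.negSucc (nat_lit 347930037),Int.negSucc (nat_lit 406595340),Int.ofNat (nat_lit 62192453),Int.ofNat (nat_lit 455020289),Int.negSucc (nat_lit 489177416),Int.ofNat (nat_lit 735516712),Int.ofNat (nat_lit 456059183),Int.ofNat (nat_lit 74625278),Int.negSucc (nat_lit 561882184),Int.ofNat (nat_lit 33890637),Int.ofNat (nat_lit 697323054),Int.negSucc (nat_lit 106211529),Int.ofNat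 (nat_lit 779320578),Int.ofNat (nat_lit 301498703),Int.ofNat (nat_lit 203511938),Int.negSucc (nat_lit 600633410),Int.ofNat (nat_lit 128266092),Int.negSucc (nat_lit 643762383),Int.ofNat (nat_lit 143673361),Int.ofNat (nat_lit 317153231),Int.negSucc (nat_lit 8678585),Int.negSucc (nat_lit 842318845),Int.ofNat (nat_lit 765963682),Int.ofNat (nat_lit 1383705112),Int.negSucc (nat_lit 104996248),Int.negSucc (nat_lit 910550514),Int.negSucc (nat_lit 1079329126),Int.negSucc (nat_lit 534513435),Int.negSucc (nat_lit 343841420),Int.ofNat (nat_lit 320337420),Int.ofNat (nat_lit 41657423),Int.ofNat (nat_lit 365710509),Int.negSucc (nat_lit 336313680),Int.negSucc (nat_lit 456290659),Int.negSucc (nat_lit 364003196),Int.negSucc (nat_lit 186152192),Int.negSucc (nat_lit 366180413),Int.ofNat (nat_lit 168092592),Int.negSucc (nat_lit 118281702),Int.ofNat (nat_lit 784870996),Int.negSucc (nat_lit 851424945),Int.negSucc (nat_lit 91270422),Int.ofNat (nat_lit 650681125),Int.ofNat (nat_lit 159360796),Int.ofNat (nat_lit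 237344722),Int.negSucc (nat_lit 251717707),Int.negSucc (nat_lit 74734974),Int.ofNat (nat_lit 34518194),Int.negSucc (nat_lit 211428564),Int.ofNat (nat_lit 72191190),Int.negSucc (nat_lit 634671004),Int.ofNat (nat_lit 548796647),Int.ofNat (nat_lit 215003466),Int.ofNat (nat_lit 103857980),Int.negSucc (nat_lit 239802287),Int.ofNat (nat_lit 28375616),Int.ofNat (nat_lit 388330211),Int.negSucc (nat_lit 252006282),Int.ofNat (nat_lit 870246789),Int.negSucc (nat_lit 284468695),Int.negSucc (nat_lit 97980976),Int.ofNat (nat_lit 74238579),Int.ofNat (nat_lit 124484656),Int.ofNat (nat_lit 67176533),Int.negSucc (nat_lit 240221632),Int.ofNat (nat_lit 122707166),Int.negSucc (nat_lit 378536114),Int.negSucc (nat_lit 25823270),Int.negSucc (nat_lit 102247852),Int.ofNat (nat_lit 369637250),Int.ofNat (nat_lit 48725430),Int.negSucc (nat_lit 145073667),Int.negSucc (nat_lit 34116079),Int.negSucc (nat_lit 268557524),Int.ofNat (nat_lit 112114784),Int.negSucc (nat_lit 27293685),Int.negSucc (nat_lit 108709930),Int.negSucc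 (nat_lit 22295045),Int.negSucc (nat_lit 175383403),Int.negSucc (nat_lit 112843498),Int.ofNat (nat_lit 161769199),Int.ofNat (nat_lit 90868627),Int.ofNat (nat_lit 180591227),Int.negSucc (nat_lit 179646752),Int.ofNat (nat_lit 43506411),Int.negSucc (nat_lit 41120551),Int.negSucc (nat_lit 32887217),Int.negSucc (nat_lit 42780590),Int.negSucc (nat_lit 111286754),Int.negSucc (nat_lit 90703615),Int.ofNat (nat_lit 32860317),Int.negSucc (nat_lit 41272941),Int.negSucc (nat_lit 25302530),Int.ofNat (nat_lit 124105595),Int.ofNat (nat_lit 190454059),Int.ofNat (nat_lit 50979659),Int.negSucc (nat_lit 10550917),Int.negSucc (nat_lit 15420773),Int.negSucc (nat_lit 171445083),Int.ofNat (nat_lit 826043),Int.negSucc (nat_lit 12904618),Int.ofNat (nat_lit 104746196),Int.negSucc (nat_lit 64422898),Int.negSucc (nat_lit 165376721),Int.ofNat (nat_lit 61122355),Int.negSucc (nat_lit 107789369),Int.negSucc (nat_lit 11177151),Int.negSucc (nat_lit 149731599),Int.ofNat (nat_lit 42173158),Int.negSucc (nat_lit 17811962),Int.ofNat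 (nat_lit 205259926),Int.ofNat (nat_lit 75539051),Int.ofNat (nat_lit 65115753),Int.negSucc (nat_lit 118671041),Int.ofNat (nat_lit 101608698),Int.negSucc (nat_lit 178054284),Int.negSucc (nat_lit 241509022),Int.ofNat (nat_lit 368384283),Int.negSucc (nat_lit 349083223),Int.ofNat (nat_lit 16946815),Int.ofNat (nat_lit 52997560),Int.ofNat (nat_lit 442347336),Int.negSucc (nat_lit 54768476),Int.negSucc (nat_lit 64219499),Int.negSucc (nat_lit 116331093),Int.ofNat (nat_lit 6156548),Int.ofNat (nat_lit 267058301),Int.negSucc (nat_lit 495717242),Int.negSucc (nat_lit 1056921104),Int.ofNat (nat_lit 1912161949),Int.ofNat (nat_lit 469872527),Int.ofNat (nat_lit 536624331),Int.negSucc (nat_lit 866405745),Int.ofNat (nat_lit 144189380),Int.negSucc (nat_lit 1589709928),Int.ofNat (nat_lit 346505769),Int.negSucc (nat_lit 129908694),Int.negSucc (nat_lit 170742063),Int.ofNat (nat_lit 418714548),Int.ofNat (nat_lit 500052668),Int.ofNat (nat_lit 150917347),Int.ofNat (nat_lit 531864980),Int.negSucc (nat_lit 132989101),Int.negSucc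 (nat_lit 151197929),Int.negSucc (nat_lit 1729825327),Int.ofNat (nat_lit 423326335),Int.negSucc (nat_lit 483683644),Int.negSucc (nat_lit 264953159),Int.negSucc (nat_lit 1019313753),Int.ofNat (nat_lit 280335627),Int.ofNat (nat_lit 38181265),Int.ofNat (nat_lit 6658492),Int.negSucc (nat_lit 118219754),Int.negSucc (nat_lit 168715179),Int.negSucc (nat_lit 47437522),Int.ofNat (nat_lit 133219600),Int.negSucc (nat_lit 109837442),Int.ofNat (nat_lit 259266851)])

/-- A row. -/
noncomputable def sr6_c2_32 : List ℕ × List ℤ :=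
  ([(nat_lit 2),(nat_lit 1),(nat_lit 0),(nat_lit 1),(nat_lit 0),(nat_lit 0),(nat_lit 0),(nat_lit 0),(nat_lit 0),(nat_lit 0),(nat_lit 0),(nat_lit 0)], [Int.ofNat (nat_lit 4202991500),Int.negSucc (nat_lit 462499941),Int.negSucc (nat_lit 598454167),Int.negSucc (nat_lit 2023302024),Int.ofNat (nat_lit 2922033865),Int.negSucc (nat_lit 887930900),Int.ofNat (nat_lit 1975054302),Int.ofNat (nat_lit 1953751865),Int.negSucc (nat_lit 2459088888),Int.negSucc (nat_lit 2224583310),Int.negSucc (nat_lit 238195593),Int.negSucc (nat_lit 1046816410),Int.negSucc (nat_lit 861656407),Int.negSucc (nat_lit 271972022),Int.ofNat (nat_lit 481191430),Int.ofNat (nat_lit 377427245),Int.negSucc (nat_lit 2020521739),Int.ofNat (nat_lit 293512286),Int.negSucc (nat_lit 1670175748),Int.ofNat (nat_lit 37106531),Int.ofNat (nat_lit 1228434738),Int.ofNat (nat_lit 115908634),Int.negSucc (nat_lit 528989154),Int.ofNat (nat_lit 1683385953),Int.ofNat (nat_lit 541938217),Int.ofNat (nat_lit 896853453),Int.ofNat (nat_lit 196659099),Int.ofNat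 (nat_lit 164467206),Int.ofNat (nat_lit 1539117716),Int.negSucc (nat_lit 1059544674),Int.ofNat (nat_lit 1549292356),Int.ofNat (nat_lit 670008226),Int.negSucc (nat_lit 841832725),Int.ofNat (nat_lit 471519782),Int.negSucc (nat_lit 384346072),Int.negSucc (nat_lit 350744624),Int.negSucc (nat_lit 555382234),Int.negSucc (nat_lit 72435977),Int.negSucc (nat_lit 1322308725),Int.ofNat (nat_lit 591937109),Int.ofNat (nat_lit 729466897),Int.ofNat (nat_lit 64927189),Int.ofNat (nat_lit 571019655),Int.negSucc (nat_lit 1848429946),Int.ofNat (nat_lit 178778014),Int.negSucc (nat_lit 520234905),Int.negSucc (nat_lit 393093377),Int.ofNat (nat_lit 63932634),Int.ofNat (nat_lit 498087036),Int.ofNat (nat_lit 62219265),Int.negSucc (nat_lit 97191337),Int.ofNat (nat_lit 288814160),Int.ofNat (nat_lit 363888180),Int.ofNat (nat_lit 1116149663),Int.ofNat (nat_lit 881857586),Int.negSucc (nat_lit 1850646984),Int.negSucc (nat_lit 282744350),Int.ofNat (nat_lit 251281398),Int.ofNat (nat_lit 1564887397),Int.ofNat (nat_lit 1343954683),Int.ofNat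 (nat_lit 166568849),Int.ofNat (nat_lit 84367770),Int.ofNat (nat_lit 273610817),Int.ofNat (nat_lit 839196398),Int.ofNat (nat_lit 197348299),Int.ofNat (nat_lit 586573199),Int.negSucc (nat_lit 1780306131),Int.ofNat (nat_lit 83622555),Int.negSucc (nat_lit 566011636),Int.negSucc (nat_lit 772384961),Int.ofNat (nat_lit 314349606),Int.ofNat (nat_lit 63127624),Int.ofNat (nat_lit 120460819),Int.negSucc (nat_lit 2691444),Int.negSucc (nat_lit 148249558),Int.negSucc (nat_lit 219625081),Int.negSucc (nat_lit 279798284),Int.ofNat (nat_lit 12730692),Int.ofNat (nat_lit 26191584),Int.ofNat (nat_lit 254941974),Int.negSucc (nat_lit 246836682),Int.negSucc (nat_lit 201072000),Int.negSucc (nat_lit 156296283),Int.negSucc (nat_lit 72987710),Int.negSucc (nat_lit 134559977),Int.negSucc (nat_lit 144138965),Int.ofNat (nat_lit 244491968),Int.ofNat (nat_lit 16537103),Int.negSucc (nat_lit 326971447),Int.negSucc (nat_lit 544154527),Int.negSucc (nat_lit 261798354),Int.ofNat (nat_lit 244425431),Int.ofNat (nat_lit 220210028),Int.ofNat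 (nat_lit 777792),Int.negSucc (nat_lit 336985055),Int.negSucc (nat_lit 118181244),Int.ofNat (nat_lit 26049425),Int.ofNat (nat_lit 212386121),Int.negSucc (nat_lit 114912857),Int.negSucc (nat_lit 69346090),Int.negSucc (nat_lit 200132209),Int.ofNat (nat_lit 310936355),Int.ofNat (nat_lit 4013789),Int.negSucc (nat_lit 376605465),Int.negSucc (nat_lit 105280895),Int.negSucc (nat_lit 132158436),Int.ofNat (nat_lit 561795136),Int.ofNat (nat_lit 61262438),Int.negSucc (nat_lit 210994123),Int.ofNat (nat_lit 343634477),Int.ofNat (nat_lit 73552060),Int.ofNat (nat_lit 68346309),Int.negSucc (nat_lit 2884659),Int.negSucc (nat_lit 96408798),Int.negSucc (nat_lit 459962751),Int.ofNat (nat_lit 478647593),Int.ofNat (nat_lit 164055920),Int.negSucc (nat_lit 190210000),Int.negSucc (nat_lit 580051280),Int.ofNat (nat_lit 82917721),Int.negSucc (nat_lit 99228458),Int.ofNat (nat_lit 230945958),Int.negSucc (nat_lit 178299598),Int.negSucc (nat_lit 561978334),Int.negSucc (nat_lit 292604988),Int.negSucc (nat_lit 270178533),Int.negSucc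 (nat_lit 359192391),Int.negSucc (nat_lit 225930206),Int.ofNat (nat_lit 145743428),Int.ofNat (nat_lit 286757324),Int.negSucc (nat_lit 325917019),Int.ofNat (nat_lit 367889523),Int.negSucc (nat_lit 319312760),Int.ofNat (nat_lit 291422985),Int.ofNat (nat_lit 67456273),Int.negSucc (nat_lit 198772578),Int.ofNat (nat_lit 565634493),Int.negSucc (nat_lit 190967154),Int.negSucc (nat_lit 104019684),Int.ofNat (nat_lit 233558520),Int.negSucc (nat_lit 384754094),Int.ofNat (nat_lit 809947590),Int.negSucc (nat_lit 108551247),Int.negSucc (nat_lit 375504870),Int.ofNat (nat_lit 1443243817),Int.negSucc (nat_lit 283483338),Int.negSucc (nat_lit 256773398),Int.negSucc (nat_lit 1788611),Int.negSucc (nat_lit 123718783),Int.ofNat (nat_lit 528162752),Int.ofNat (nat_lit 2674600647),Int.negSucc (nat_lit 1602505012),Int.ofNat (nat_lit 54826478),Int.ofNat (nat_lit 291544986),Int.negSucc (nat_lit 46985166),Int.ofNat (nat_lit 563293704),Int.negSucc (nat_lit 144959995),Int.ofNat (nat_lit 442756229),Int.negSucc (nat_lit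 83260886),Int.negSucc (nat_lit 134813921),Int.negSucc (nat_lit 251014886),Int.ofNat (nat_lit 512118971),Int.ofNat (nat_lit 468878287),Int.negSucc (nat_lit 317903129),Int.negSucc (nat_lit 1582850923),Int.negSucc (nat_lit 66094680),Int.ofNat (nat_lit 4062743),Int.ofNat (nat_lit 77524711),Int.negSucc (nat_lit 83935432),Int.ofNat (nat_lit 169761443),Int.negSucc (nat_lit 69960062),Int.ofNat (nat_lit 275441789)])

/-- A row. -/
noncomputable def sr6_c2_33 : List ℕ × List ℤ :=
  ([(nat_lit 2),(nat_lit 2),(nat_lit 0),(nat_lit 0),(nat_lit 0),(nat_lit 0),(nat_lit 0),(nat_lit 0),(nat_lit 0),(nat_lit 0),(nat_lit 0),(nat_lit 0)], [Int.negSucc (nat_lit 1548943925),Int.negSucc (nat_lit 3147063860),Int.negSucc (nat_lit 2061899562),Int.negSucc (nat_lit 2135186664),Int.ofNat (nat_lit 4974737367),Int.ofNat (nat_lit 1358013575),Int.negSucc (nat_lit 580008026),Int.negSucc (nat_lit 725114208),Int.ofNat (nat_lit 521361090),Int.ofNat (nat_lit 2379273025),Int.negSucc (nat_lit 610661966),Int.ofNat (nat_lit 392578125),Int.ofNat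 (nat_lit 1295799576),Int.negSucc (nat_lit 207503916),Int.negSucc (nat_lit 704867524),Int.negSucc (nat_lit 925751041),Int.ofNat (nat_lit 2971048889),Int.ofNat (nat_lit 1065748637),Int.negSucc (nat_lit 191702128),Int.negSucc (nat_lit 355107424),Int.negSucc (nat_lit 497590975),Int.negSucc (nat_lit 799402456),Int.ofNat (nat_lit 972521804),Int.negSucc (nat_lit 2060188149),Int.ofNat (nat_lit 670272556),Int.ofNat (nat_lit 1142390098),Int.ofNat (nat_lit 608466088),Int.negSucc (nat_lit 2020747130),Int.negSucc (nat_lit 880980453),Int.ofNat (nat_lit 436043591),Int.negSucc (nat_lit 582684806),Int.ofNat (nat_lit 677285176),Int.ofNat (nat_lit 761318647),Int.negSucc (nat_lit 149650445),Int.ofNat (nat_lit 2484206799),Int.ofNat (nat_lit 1174738973),Int.negSucc (nat_lit 79871910),Int.ofNat (nat_lit 120755524),Int.ofNat (nat_lit 1430512323),Int.ofNat (nat_lit 65626231),Int.negSucc (nat_lit 1157650866),Int.negSucc (nat_lit 266288955),Int.negSucc (nat_lit 806090182),Int.ofNat (nat_lit 1862390723),Int.negSucc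 (nat_lit 42272714),Int.ofNat (nat_lit 1237885162),Int.ofNat (nat_lit 1777414381),Int.negSucc (nat_lit 331434771),Int.negSucc (nat_lit 191762641),Int.negSucc (nat_lit 966127055),Int.negSucc (nat_lit 564181690),Int.negSucc (nat_lit 858909042),Int.negSucc (nat_lit 536191182),Int.negSucc (nat_lit 842307593),Int.ofNat (nat_lit 124550575),Int.ofNat (nat_lit 1516233539),Int.ofNat (nat_lit 1364041146),Int.ofNat (nat_lit 494406894),Int.negSucc (nat_lit 1541087518),Int.negSucc (nat_lit 372215970),Int.ofNat (nat_lit 1426042487),Int.negSucc (nat_lit 316308041),Int.ofNat (nat_lit 314062),Int.negSucc (nat_lit 807343508),Int.negSucc (nat_lit 424668880),Int.negSucc (nat_lit 2138690516),Int.ofNat (nat_lit 1513824033),Int.negSucc (nat_lit 1375979363),Int.ofNat (nat_lit 650521562),Int.ofNat (nat_lit 1471087044),Int.ofNat (nat_lit 644524687),Int.negSucc (nat_lit 166989940),Int.ofNat (nat_lit 355428817),Int.ofNat (nat_lit 487146726),Int.ofNat (nat_lit 2999417),Int.negSucc (nat_lit 59451038),Int.negSucc (nat_lit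 59216589),Int.ofNat (nat_lit 36225375),Int.negSucc (nat_lit 106207964),Int.ofNat (nat_lit 35397624),Int.negSucc (nat_lit 67722418),Int.ofNat (nat_lit 146144097),Int.negSucc (nat_lit 43772199),Int.negSucc (nat_lit 50705928),Int.negSucc (nat_lit 87148455),Int.ofNat (nat_lit 238939675),Int.negSucc (nat_lit 681782422),Int.ofNat (nat_lit 95162889),Int.ofNat (nat_lit 272888798),Int.ofNat (nat_lit 52417591),Int.ofNat (nat_lit 309424608),Int.negSucc (nat_lit 198145306),Int.ofNat (nat_lit 65486845),Int.negSucc (nat_lit 112701760),Int.ofNat (nat_lit 123822220),Int.negSucc (nat_lit 278902076),Int.negSucc (nat_lit 338068323),Int.ofNat (nat_lit 71896296),Int.ofNat (nat_lit 287112253),Int.negSucc (nat_lit 110890135),Int.negSucc (nat_lit 44544415),Int.negSucc (nat_lit 138819308),Int.ofNat (nat_lit 30549847),Int.negSucc (nat_lit 502685810),Int.negSucc (nat_lit 157035366),Int.negSucc (nat_lit 250661546),Int.negSucc (nat_lit 435267495),Int.ofNat (nat_lit 8404592),Int.ofNat (nat_lit 364974493),Int.negSucc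 (nat_lit 248183048),Int.ofNat (nat_lit 205575979),Int.ofNat (nat_lit 393123095),Int.negSucc (nat_lit 45686942),Int.ofNat (nat_lit 450420179),Int.ofNat (nat_lit 380359700),Int.ofNat (nat_lit 56530669),Int.negSucc (nat_lit 68558544),Int.ofNat (nat_lit 116786683),Int.ofNat (nat_lit 294624898),Int.negSucc (nat_lit 961817225),Int.ofNat (nat_lit 361137072),Int.negSucc (nat_lit 482020125),Int.negSucc (nat_lit 199764590),Int.ofNat (nat_lit 502186551),Int.negSucc (nat_lit 55587553),Int.ofNat (nat_lit 192689995),Int.ofNat (nat_lit 558524507),Int.ofNat (nat_lit 244044906),Int.negSucc (nat_lit 65203365),Int.negSucc (nat_lit 352626021),Int.ofNat (nat_lit 458330520),Int.ofNat (nat_lit 59030206),Int.ofNat (nat_lit 69463310),Int.negSucc (nat_lit 322523574),Int.negSucc (nat_lit 180688896),Int.ofNat (nat_lit 727200303),Int.negSucc (nat_lit 406251243),Int.ofNat (nat_lit 126024889),Int.negSucc (nat_lit 8296840),Int.negSucc (nat_lit 1066514087),Int.ofNat (nat_lit 617665369),Int.negSucc (nat_lit 190259220),Int.negSucc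 (nat_lit 223405837),Int.negSucc (nat_lit 467739098),Int.negSucc (nat_lit 1260002978),Int.ofNat (nat_lit 431654343),Int.ofNat (nat_lit 246435473),Int.negSucc (nat_lit 955826648),Int.negSucc (nat_lit 792158541),Int.negSucc (nat_lit 693011331),Int.ofNat (nat_lit 1146318198),Int.ofNat (nat_lit 459143439),Int.negSucc (nat_lit 254213892),Int.ofNat (nat_lit 896900278),Int.negSucc (nat_lit 2232599921),Int.negSucc (nat_lit 351118691),Int.negSucc (nat_lit 1195411690),Int.ofNat (nat_lit 2387123884),Int.negSucc (nat_lit 190634086),Int.ofNat (nat_lit 1720404323),Int.ofNat (nat_lit 186906489),Int.negSucc (nat_lit 3238677375),Int.ofNat (nat_lit 533758311),Int.ofNat (nat_lit 816380615),Int.negSucc (nat_lit 340746547),Int.negSucc (nat_lit 4622709195),Int.ofNat (nat_lit 1206289478),Int.negSucc (nat_lit 1121741683),Int.negSucc (nat_lit 192338593),Int.negSucc (nat_lit 738382903),Int.ofNat (nat_lit 710234367),Int.negSucc (nat_lit 157670610),Int.ofNat (nat_lit 1657826192)])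

/-- A row. -/
noncomputable def sr6_c2_34 : List ℕ × List ℤ :=
  ([(nat_lit 3),(nat_lit 0),(nat_lit 0),(nat_lit 0),(nat_lit 0),(nat_lit 0),(nat_lit 0),(nat_lit 0),(nat_lit 0),(nat_lit 0),(nat_lit 0),(nat_lit 0)], [Int.ofNat (nat_lit 982183131),Int.negSucc (nat_lit 321095289),Int.ofNat (nat_lit 762099811),Int.ofNat (nat_lit 498262646),Int.ofNat (nat_lit 1314266558),Int.negSucc (nat_lit 1451004270),Int.ofNat (nat_lit 666963120),Int.ofNat (nat_lit 2518912824),Int.negSucc (nat_lit 679095420),Int.negSucc (nat_lit 613107740),Int.ofNat (nat_lit 322684943),Int.negSucc (nat_lit 425990643),Int.ofNat (nat_lit 721201276),Int.ofNat (nat_lit 585717111),Int.negSucc (nat_lit 8797582),Int.ofNat (nat_lit 332340513),Int.negSucc (nat_lit 522761684),Int.ofNat (nat_lit 281142115),Int.negSucc (nat_lit 697718317),Int.ofNat (nat_lit 19825248),Int.negSucc (nat_lit 1577104562),Int.ofNat (nat_lit 1429154160),Int.negSucc (nat_lit 233089486),Int.ofNat (nat_lit 230232831),Int.ofNat (nat_lit 467573357),Int.negSucc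 (nat_lit 736484924),Int.negSucc (nat_lit 330070959),Int.ofNat (nat_lit 315851436),Int.ofNat (nat_lit 581960693),Int.negSucc (nat_lit 110717111),Int.ofNat (nat_lit 1170879634),Int.ofNat (nat_lit 35308268),Int.negSucc (nat_lit 276355265),Int.ofNat (nat_lit 83895288),Int.ofNat (nat_lit 452305912),Int.negSucc (nat_lit 1457415334),Int.negSucc (nat_lit 1605864269),Int.ofNat (nat_lit 437751152),Int.ofNat (nat_lit 385547606),Int.ofNat (nat_lit 906237989),Int.ofNat (nat_lit 277889252),Int.ofNat (nat_lit 251527490),Int.negSucc (nat_lit 327501070),Int.ofNat (nat_lit 63810021),Int.negSucc (nat_lit 841496457),Int.ofNat (nat_lit 260842383),Int.ofNat (nat_lit 421144552),Int.ofNat (nat_lit 541278772),Int.negSucc (nat_lit 146407818),Int.negSucc (nat_lit 27872724),Int.negSucc (nat_lit 167768590),Int.ofNat (nat_lit 295321605),Int.negSucc (nat_lit 1111440929),Int.ofNat (nat_lit 896153895),Int.negSucc (nat_lit 410809864),Int.negSucc (nat_lit 800005325),Int.negSucc (nat_lit 213961526),Int.negSucc (nat_lit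 246403834),Int.ofNat (nat_lit 443895476),Int.negSucc (nat_lit 90168234),Int.ofNat (nat_lit 32612692),Int.ofNat (nat_lit 225338772),Int.ofNat (nat_lit 10567357),Int.ofNat (nat_lit 1029947691),Int.negSucc (nat_lit 210039847),Int.negSucc (nat_lit 382209977),Int.negSucc (nat_lit 520175874),Int.ofNat (nat_lit 336042846),Int.negSucc (nat_lit 1090667994),Int.negSucc (nat_lit 156044051),Int.ofNat (nat_lit 258247706),Int.negSucc (nat_lit 777572514),Int.ofNat (nat_lit 520383473),Int.negSucc (nat_lit 75069093),Int.negSucc (nat_lit 272786455),Int.negSucc (nat_lit 103972198),Int.ofNat (nat_lit 115404239),Int.ofNat (nat_lit 342830337),Int.negSucc (nat_lit 445725304),Int.ofNat (nat_lit 216173673),Int.ofNat (nat_lit 16338303),Int.ofNat (nat_lit 19197360),Int.negSucc (nat_lit 188436121),Int.negSucc (nat_lit 394779417),Int.ofNat (nat_lit 206256689),Int.ofNat (nat_lit 70130001),Int.ofNat (nat_lit 388441330),Int.negSucc (nat_lit 131234160),Int.ofNat (nat_lit 84718170),Int.ofNat (nat_lit 78951383),Int.ofNat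 (nat_lit 70205460),Int.ofNat (nat_lit 161270259),Int.ofNat (nat_lit 78248179),Int.negSucc (nat_lit 232751094),Int.negSucc (nat_lit 135724427),Int.negSucc (nat_lit 250705872),Int.ofNat (nat_lit 184722371),Int.negSucc (nat_lit 166786885),Int.ofNat (nat_lit 67893919),Int.ofNat (nat_lit 73308224),Int.negSucc (nat_lit 37213153),Int.ofNat (nat_lit 56440549),Int.ofNat (nat_lit 44369271),Int.negSucc (nat_lit 134833646),Int.negSucc (nat_lit 24280891),Int.negSucc (nat_lit 63932559),Int.negSucc (nat_lit 207433084),Int.negSucc (nat_lit 264811627),Int.negSucc (nat_lit 237465291),Int.negSucc (nat_lit 78784249),Int.ofNat (nat_lit 91174989),Int.ofNat (nat_lit 42783266),Int.ofNat (nat_lit 68321072),Int.negSucc (nat_lit 36397188),Int.negSucc (nat_lit 133233591),Int.negSucc (nat_lit 81826954),Int.ofNat (nat_lit 74186233),Int.ofNat (nat_lit 36169058),Int.ofNat (nat_lit 38543519),Int.negSucc (nat_lit 81934468),Int.ofNat (nat_lit 92212145),Int.negSucc (nat_lit 79671274),Int.negSucc (nat_lit 105680843),Int.negSucc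 (nat_lit 72143137),Int.ofNat (nat_lit 106705149),Int.negSucc (nat_lit 10599870),Int.negSucc (nat_lit 42660539),Int.negSucc (nat_lit 52729584),Int.ofNat (nat_lit 303217361),Int.ofNat (nat_lit 53069421),Int.negSucc (nat_lit 281423165),Int.ofNat (nat_lit 350008409),Int.negSucc (nat_lit 31468011),Int.ofNat (nat_lit 27626441),Int.negSucc (nat_lit 421806494),Int.ofNat (nat_lit 36231236),Int.negSucc (nat_lit 68581158),Int.ofNat (nat_lit 31755265),Int.ofNat (nat_lit 152051952),Int.ofNat (nat_lit 1005959534),Int.ofNat (nat_lit 488992081),Int.ofNat (nat_lit 620855836),Int.negSucc (nat_lit 608296942),Int.negSucc (nat_lit 516593649),Int.ofNat (nat_lit 39609941),Int.ofNat (nat_lit 942018119),Int.ofNat (nat_lit 230458269),Int.ofNat (nat_lit 1096532919),Int.negSucc (nat_lit 416179603),Int.ofNat (nat_lit 25764765),Int.ofNat (nat_lit 187156577),Int.negSucc (nat_lit 358966143),Int.negSucc (nat_lit 115739611),Int.negSucc (nat_lit 104100127),Int.negSucc (nat_lit 664985839),Int.ofNat (nat_lit 153804606),Int.ofNat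 (nat_lit 88972391),Int.ofNat (nat_lit 1874233680),Int.negSucc (nat_lit 371715038),Int.ofNat (nat_lit 730650206),Int.ofNat (nat_lit 189433172),Int.negSucc (nat_lit 441714693),Int.negSucc (nat_lit 106344601),Int.ofNat (nat_lit 122063946),Int.negSucc (nat_lit 159749235),Int.negSucc (nat_lit 18716772),Int.ofNat (nat_lit 279566915),Int.negSucc (nat_lit 31201899),Int.negSucc (nat_lit 1485909549),Int.negSucc (nat_lit 147673834),Int.ofNat (nat_lit 243872336),Int.ofNat (nat_lit 113049913),Int.negSucc (nat_lit 363853149),Int.ofNat (nat_lit 365153209)])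

/-- A row. -/
noncomputable def sr6_c2_35 : List ℕ × List ℤ :=
  ([(nat_lit 3),(nat_lit 0),(nat_lit 1),(nat_lit 0),(nat_lit 0),(nat_lit 0),(nat_lit 0),(nat_lit 0),(nat_lit 0),(nat_lit 0),(nat_lit 0),(nat_lit 0)], [Int.ofNat (nat_lit 669260469),Int.negSucc (nat_lit 556608994),Int.ofNat (nat_lit 882432662),Int.ofNat (nat_lit 1299476285),Int.ofNat (nat_lit 68643699),Int.negSucc (nat_lit 507005793),Int.ofNat (nat_lit 588792675),Int.ofNat (nat_lit 1593052817),Int.negSucc (nat_lit 94178220),Int.negSucc (nat_lit 1006843074),Int.ofNat (nat_lit 706947594),Int.ofNat (nat_lit 378857857),Int.ofNat (nat_lit 76465288),Int.ofNat (nat_lit 516591552),Int.ofNat (nat_lit 404323436),Int.ofNat (nat_lit 115745214),Int.negSucc (nat_lit 614062292),Int.negSucc (nat_lit 31981603),Int.negSucc (nat_lit 124611694),Int.negSucc (nat_lit 137399953),Int.negSucc (nat_lit 647459816),Int.ofNat (nat_lit 878273710),Int.negSucc (nat_lit 264837321),Int.ofNat (nat_lit 422739184),Int.negSucc (nat_lit 97412221),Int.negSucc (nat_lit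 542786834),Int.negSucc (nat_lit 277311609),Int.ofNat (nat_lit 522375787),Int.ofNat (nat_lit 632391655),Int.negSucc (nat_lit 283541576),Int.ofNat (nat_lit 827904293),Int.ofNat (nat_lit 101758017),Int.negSucc (nat_lit 368990561),Int.ofNat (nat_lit 121876810),Int.ofNat (nat_lit 271173551),Int.negSucc (nat_lit 962396451),Int.negSucc (nat_lit 1143810006),Int.ofNat (nat_lit 4218543),Int.ofNat (nat_lit 110815122),Int.ofNat (nat_lit 436901963),Int.ofNat (nat_lit 455245699),Int.ofNat (nat_lit 515739372),Int.ofNat (nat_lit 46922238),Int.negSucc (nat_lit 354564353),Int.negSucc (nat_lit 531711741),Int.negSucc (nat_lit 75821276),Int.negSucc (nat_lit 299504410),Int.ofNat (nat_lit 179930641),Int.negSucc (nat_lit 368454388),Int.ofNat (nat_lit 228910628),Int.ofNat (nat_lit 76668194),Int.ofNat (nat_lit 259777624),Int.negSucc (nat_lit 141583970),Int.ofNat (nat_lit 411183850),Int.negSucc (nat_lit 148003493),Int.negSucc (nat_lit 688048487),Int.negSucc (nat_lit 453499441),Int.negSucc (nat_lit 702331519),Int.ofNat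 (nat_lit 564978169),Int.negSucc (nat_lit 170760470),Int.ofNat (nat_lit 108186081),Int.ofNat (nat_lit 242942195),Int.ofNat (nat_lit 88376385),Int.ofNat (nat_lit 891094362),Int.ofNat (nat_lit 131938160),Int.ofNat (nat_lit 360601031),Int.negSucc (nat_lit 672275335),Int.ofNat (nat_lit 283384973),Int.negSucc (nat_lit 672782242),Int.negSucc (nat_lit 1047990616),Int.ofNat (nat_lit 189812628),Int.negSucc (nat_lit 771566001),Int.ofNat (nat_lit 560244934),Int.negSucc (nat_lit 155004656),Int.negSucc (nat_lit 130350096),Int.negSucc (nat_lit 155806448),Int.negSucc (nat_lit 151622713),Int.ofNat (nat_lit 85736930),Int.negSucc (nat_lit 141986509),Int.ofNat (nat_lit 202518447),Int.negSucc (nat_lit 56413609),Int.ofNat (nat_lit 79156250),Int.negSucc (nat_lit 259499909),Int.ofNat (nat_lit 8126881),Int.ofNat (nat_lit 169396693),Int.negSucc (nat_lit 10786573),Int.ofNat (nat_lit 225491232),Int.negSucc (nat_lit 27496584),Int.ofNat (nat_lit 121778280),Int.ofNat (nat_lit 196998778),Int.negSucc (nat_lit 40293933),Int.ofNat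 (nat_lit 121291898),Int.ofNat (nat_lit 77643680),Int.negSucc (nat_lit 219202673),Int.negSucc (nat_lit 68225297),Int.negSucc (nat_lit 159292756),Int.negSucc (nat_lit 38008048),Int.negSucc (nat_lit 70801711),Int.ofNat (nat_lit 16086689),Int.ofNat (nat_lit 115546851),Int.negSucc (nat_lit 6990542),Int.ofNat (nat_lit 25664115),Int.ofNat (nat_lit 46186066),Int.negSucc (nat_lit 21186519),Int.negSucc (nat_lit 37694555),Int.ofNat (nat_lit 17024339),Int.negSucc (nat_lit 8247668),Int.negSucc (nat_lit 80151858),Int.negSucc (nat_lit 79674031),Int.negSucc (nat_lit 112973923),Int.ofNat (nat_lit 16537682),Int.ofNat (nat_lit 3851414),Int.ofNat (nat_lit 37917250),Int.negSucc (nat_lit 81633448),Int.negSucc (nat_lit 103472727),Int.negSucc (nat_lit 14035005),Int.ofNat (nat_lit 75866741),Int.ofNat (nat_lit 73578132),Int.ofNat (nat_lit 81764484),Int.negSucc (nat_lit 4347211),Int.ofNat (nat_lit 59030299),Int.negSucc (nat_lit 32709289),Int.ofNat (nat_lit 55848645),Int.negSucc (nat_lit 186736516),Int.ofNat (nat_lit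 30277968),Int.negSucc (nat_lit 67245725),Int.ofNat (nat_lit 21444173),Int.negSucc (nat_lit 83709579),Int.ofNat (nat_lit 203212517),Int.ofNat (nat_lit 55772467),Int.negSucc (nat_lit 183508921),Int.ofNat (nat_lit 233719180),Int.negSucc (nat_lit 33182380),Int.ofNat (nat_lit 7230098),Int.negSucc (nat_lit 302854804),Int.negSucc (nat_lit 22637437),Int.negSucc (nat_lit 10501219),Int.ofNat (nat_lit 105134918),Int.ofNat (nat_lit 33786728),Int.ofNat (nat_lit 588514869),Int.ofNat (nat_lit 323835907),Int.ofNat (nat_lit 449720047),Int.negSucc (nat_lit 407633357),Int.negSucc (nat_lit 284805908),Int.negSucc (nat_lit 18482461),Int.ofNat (nat_lit 1292539241),Int.ofNat (nat_lit 380746115),Int.ofNat (nat_lit 1273005605),Int.negSucc (nat_lit 197029147),Int.ofNat (nat_lit 56295538),Int.ofNat (nat_lit 73583110),Int.negSucc (nat_lit 339125066),Int.negSucc (nat_lit 200643347),Int.negSucc (nat_lit 52342145),Int.negSucc (nat_lit 256974645),Int.ofNat (nat_lit 93247071),Int.ofNat (nat_lit 109771163),Int.ofNat (nat_lit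 1105843656),Int.negSucc (nat_lit 217839344),Int.ofNat (nat_lit 283814832),Int.negSucc (nat_lit 3701374),Int.ofNat (nat_lit 459148414),Int.negSucc (nat_lit 532548293),Int.negSucc (nat_lit 58630391),Int.negSucc (nat_lit 28812080),Int.ofNat (nat_lit 113267039),Int.ofNat (nat_lit 121246931),Int.ofNat (nat_lit 29941909),Int.negSucc (nat_lit 164341792),Int.ofNat (nat_lit 77568460),Int.negSucc (nat_lit 350606444),Int.negSucc (nat_lit 4941727),Int.negSucc (nat_lit 19338016),Int.negSucc (nat_lit 6157716),Int.ofNat (nat_lit 55524635)])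

/-- A row. -/
noncomputable def sr6_c2_36 : List ℕ × List ℤ :=
  ([(nat_lit 3),(nat_lit 2),(nat_lit 0),(nat_lit 0),(nat_lit 0),(nat_lit 0),(nat_lit 0),(nat_lit 0),(nat_lit 0),(nat_lit 0),(nat_lit 0),(nat_lit 0)], [Int.negSucc (nat_lit 626103455),Int.ofNat (nat_lit 5549111212),Int.ofNat (nat_lit 2258311463),Int.ofNat (nat_lit 2237899702),Int.negSucc (nat_lit 4514326892),Int.negSucc (nat_lit 10809246),Int.negSucc (nat_lit 884320601),Int.negSucc (nat_lit 904212035),Int.ofNat (nat_lit 1365356570),Int.negSucc (nat_lit 2377993580),Int.ofNat (nat_lit 1351279160),Int.ofNat (nat_lit 1431444102),Int.negSucc (nat_lit 414739759),Int.ofNat (nat_lit 309721905),Int.negSucc (nat_lit 17688420),Int.ofNat (nat_lit 161880333),Int.ofNat (nat_lit 155808726),Int.negSucc (nat_lit 2068116669),Int.ofNat (nat_lit 2149147874),Int.ofNat (nat_lit 814661006),Int.negSucc (nat_lit 372237195),Int.negSucc (nat_lit 419101273),Int.ofNat (nat_lit 248727735),Int.ofNat (nat_lit 1562760458),Int.negSucc (nat_lit 1806375727),Int.negSucc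 (nat_lit 1344052109),Int.negSucc (nat_lit 709211018),Int.ofNat (nat_lit 2255512547),Int.negSucc (nat_lit 625953396),Int.ofNat (nat_lit 318120936),Int.negSucc (nat_lit 699609040),Int.negSucc (nat_lit 315719050),Int.ofNat (nat_lit 974188737),Int.negSucc (nat_lit 36665263),Int.negSucc (nat_lit 1820796966),Int.ofNat (nat_lit 545792976),Int.ofNat (nat_lit 1382863580),Int.ofNat (nat_lit 339971449),Int.negSucc (nat_lit 561437478),Int.negSucc (nat_lit 1065582765),Int.ofNat (nat_lit 120522282),Int.ofNat (nat_lit 606319679),Int.ofNat (nat_lit 331817097),Int.negSucc (nat_lit 231325282),Int.negSucc (nat_lit 235409053),Int.negSucc (nat_lit 614843949),Int.negSucc (nat_lit 1454889058),Int.negSucc (nat_lit 703038575),Int.negSucc (nat_lit 206744775),Int.ofNat (nat_lit 1225579272),Int.ofNat (nat_lit 956648571),Int.ofNat (nat_lit 415623796),Int.negSucc (nat_lit 71220803),Int.negSucc (nat_lit 357412312),Int.negSucc (nat_lit 920988076),Int.ofNat (nat_lit 45945294),Int.negSucc (nat_lit 1267972821),Int.negSucc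 (nat_lit 1079605585),Int.negSucc (nat_lit 67841605),Int.negSucc (nat_lit 1035397416),Int.ofNat (nat_lit 340395757),Int.ofNat (nat_lit 265179499),Int.negSucc (nat_lit 181926450),Int.ofNat (nat_lit 466691945),Int.ofNat (nat_lit 916132396),Int.ofNat (nat_lit 2546193732),Int.ofNat (nat_lit 1135123553),Int.ofNat (nat_lit 2372694593),Int.negSucc (nat_lit 347381519),Int.negSucc (nat_lit 1374279851),Int.negSucc (nat_lit 2283740761),Int.ofNat (nat_lit 310625725),Int.negSucc (nat_lit 186274992),Int.negSucc (nat_lit 589296876),Int.negSucc (nat_lit 39560541),Int.ofNat (nat_lit 408154555),Int.ofNat (nat_lit 279659987),Int.ofNat (nat_lit 55894161),Int.ofNat (nat_lit 157328842),Int.negSucc (nat_lit 83567174),Int.ofNat (nat_lit 307798759),Int.ofNat (nat_lit 170532611),Int.ofNat (nat_lit 246095079),Int.negSucc (nat_lit 174550210),Int.negSucc (nat_lit 54348383),Int.ofNat (nat_lit 115651072),Int.ofNat (nat_lit 129984722),Int.negSucc (nat_lit 224726275),Int.ofNat (nat_lit 270267004),Int.ofNat (nat_lit 459718376),Int.negSucc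 (nat_lit 38153019),Int.negSucc (nat_lit 458573188),Int.negSucc (nat_lit 530682719),Int.ofNat (nat_lit 30585020),Int.ofNat (nat_lit 471670509),Int.ofNat (nat_lit 283639621),Int.ofNat (nat_lit 368768645),Int.negSucc (nat_lit 211050789),Int.negSucc (nat_lit 123747339),Int.ofNat (nat_lit 452185201),Int.ofNat (nat_lit 339222429),Int.negSucc (nat_lit 130134705),Int.negSucc (nat_lit 97154276),Int.ofNat (nat_lit 711271982),Int.negSucc (nat_lit 37622961),Int.ofNat (nat_lit 491135854),Int.negSucc (nat_lit 229369615),Int.ofNat (nat_lit 10986057),Int.negSucc (nat_lit 191596844),Int.negSucc (nat_lit 56563821),Int.negSucc (nat_lit 87588730),Int.negSucc (nat_lit 291408494),Int.negSucc (nat_lit 46877127),Int.negSucc (nat_lit 67486388),Int.ofNat (nat_lit 117974706),Int.negSucc (nat_lit 691494492),Int.negSucc (nat_lit 140891481),Int.ofNat (nat_lit 179414740),Int.ofNat (nat_lit 690829959),Int.ofNat (nat_lit 403140051),Int.negSucc (nat_lit 371274360),Int.negSucc (nat_lit 16180452),Int.ofNat (nat_lit 271305418),Int.negSucc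 (nat_lit 19013025),Int.ofNat (nat_lit 479522117),Int.negSucc (nat_lit 75545491),Int.ofNat (nat_lit 184091238),Int.negSucc (nat_lit 256750622),Int.negSucc (nat_lit 214052018),Int.negSucc (nat_lit 100798644),Int.negSucc (nat_lit 208733049),Int.negSucc (nat_lit 168872266),Int.ofNat (nat_lit 83249188),Int.negSucc (nat_lit 28164629),Int.ofNat (nat_lit 18296185),Int.negSucc (nat_lit 214480279),Int.negSucc (nat_lit 139893501),Int.negSucc (nat_lit 2733897),Int.ofNat (nat_lit 151230809),Int.negSucc (nat_lit 400391220),Int.negSucc (nat_lit 306141892),Int.ofNat (nat_lit 90206148),Int.negSucc (nat_lit 207067112),Int.ofNat (nat_lit 834847148),Int.negSucc (nat_lit 1020952411),Int.ofNat (nat_lit 952932586),Int.ofNat (nat_lit 565356033),Int.ofNat (nat_lit 765146494),Int.ofNat (nat_lit 277770957),Int.negSucc (nat_lit 616848125),Int.negSucc (nat_lit 2271056955),Int.ofNat (nat_lit 1919867864),Int.ofNat (nat_lit 2661047144),Int.ofNat (nat_lit 1009214880),Int.ofNat (nat_lit 2203547974),Int.ofNat (nat_lit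 85698633),Int.ofNat (nat_lit 1594351582),Int.negSucc (nat_lit 2184182767),Int.negSucc (nat_lit 130360504),Int.negSucc (nat_lit 1426110164),Int.negSucc (nat_lit 143951132),Int.ofNat (nat_lit 2064236215),Int.negSucc (nat_lit 1512686510),Int.negSucc (nat_lit 132941822),Int.ofNat (nat_lit 2089934270),Int.ofNat (nat_lit 2475653369),Int.negSucc (nat_lit 2375720942),Int.ofNat (nat_lit 755868830),Int.ofNat (nat_lit 516378403),Int.ofNat (nat_lit 655767781),Int.negSucc (nat_lit 926270927),Int.negSucc (nat_lit 620957111),Int.negSucc (nat_lit 2410187773),Int.ofNat (nat_lit 125179890),Int.ofNat (nat_lit 223921377),Int.ofNat (nat_lit 424169147)])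

/-- A row. -/
noncomputable def sr6_c2_37 : List ℕ × List ℤ :=
  ([(nat_lit 4),(nat_lit 0),(nat_lit 0),(nat_lit 0),(nat_lit 0),(nat_lit 0),(nat_lit 0),(nat_lit 0),(nat_lit 0),(nat_lit 0),(nat_lit 0),(nat_lit 0)], [Int.ofNat (nat_lit 511657775),Int.negSucc (nat_lit 2067481148),Int.negSucc (nat_lit 594543854),Int.ofNat (nat_lit 427490945),Int.ofNat (nat_lit 3081711029),Int.ofNat (nat_lit 351599502),Int.ofNat (nat_lit 302882880),Int.ofNat (nat_lit 1038144982),Int.negSucc (nat_lit 270213342),Int.ofNat (nat_lit 781378194),Int.ofNat (nat_lit 145042764),Int.ofNat (nat_lit 72126277),Int.negSucc (nat_lit 242830001),Int.negSucc (nat_lit 191345916),Int.negSucc (nat_lit 305570743),Int.negSucc (nat_lit 55826000),Int.ofNat (nat_lit 855872341),Int.ofNat (nat_lit 53494042),Int.ofNat (nat_lit 116034376),Int.negSucc (nat_lit 82490802),Int.ofNat (nat_lit 27193949),Int.negSucc (nat_lit 384798839),Int.ofNat (nat_lit 42077363),Int.negSucc (nat_lit 807923758),Int.ofNat (nat_lit 338633329),Int.ofNat (nat_lit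 245814402),Int.ofNat (nat_lit 101856622),Int.negSucc (nat_lit 168864309),Int.negSucc (nat_lit 124079448),Int.ofNat (nat_lit 155661916),Int.ofNat (nat_lit 68467913),Int.negSucc (nat_lit 93029250),Int.ofNat (nat_lit 181024022),Int.negSucc (nat_lit 116035378),Int.ofNat (nat_lit 665343282),Int.negSucc (nat_lit 196386406),Int.negSucc (nat_lit 167241790),Int.negSucc (nat_lit 427838891),Int.ofNat (nat_lit 701966459),Int.ofNat (nat_lit 94482418),Int.ofNat (nat_lit 75178837),Int.ofNat (nat_lit 66360537),Int.ofNat (nat_lit 152340188),Int.ofNat (nat_lit 206998926),Int.negSucc (nat_lit 533794176),Int.ofNat (nat_lit 452182136),Int.ofNat (nat_lit 573312483),Int.ofNat (nat_lit 40457967),Int.negSucc (nat_lit 95252817),Int.negSucc (nat_lit 147134503),Int.negSucc (nat_lit 119925678),Int.negSucc (nat_lit 56182961),Int.ofNat (nat_lit 275323369),Int.ofNat (nat_lit 138826316),Int.ofNat (nat_lit 642053213),Int.ofNat (nat_lit 78278433),Int.ofNat (nat_lit 359227448),Int.ofNat (nat_lit 83006861),Int.negSucc (nat_lit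 208314045),Int.ofNat (nat_lit 123234215),Int.negSucc (nat_lit 34059725),Int.ofNat (nat_lit 110182961),Int.ofNat (nat_lit 86198083),Int.negSucc (nat_lit 529120604),Int.negSucc (nat_lit 448598064),Int.negSucc (nat_lit 3339164),Int.ofNat (nat_lit 561661458),Int.negSucc (nat_lit 303926770),Int.ofNat (nat_lit 1241041700),Int.ofNat (nat_lit 4348797),Int.ofNat (nat_lit 162993256),Int.negSucc (nat_lit 421268475),Int.ofNat (nat_lit 270232269),Int.ofNat (nat_lit 111303596),Int.negSucc (nat_lit 224236113),Int.negSucc (nat_lit 329882335),Int.negSucc (nat_lit 460676531),Int.ofNat (nat_lit 52218616),Int.negSucc (nat_lit 131743485),Int.ofNat (nat_lit 4540662),Int.negSucc (nat_lit 26853008),Int.negSucc (nat_lit 36867548),Int.negSucc (nat_lit 156941752),Int.ofNat (nat_lit 188853730),Int.ofNat (nat_lit 31091125),Int.negSucc (nat_lit 30450654),Int.negSucc (nat_lit 124080092),Int.ofNat (nat_lit 19992194),Int.ofNat (nat_lit 112664425),Int.ofNat (nat_lit 66051405),Int.ofNat (nat_lit 14468515),Int.negSucc (nat_lit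 53614206),Int.ofNat (nat_lit 97600851),Int.negSucc (nat_lit 25675201),Int.negSucc (nat_lit 55645534),Int.negSucc (nat_lit 17434341),Int.negSucc (nat_lit 39598058),Int.negSucc (nat_lit 67334795),Int.ofNat (nat_lit 123180372),Int.negSucc (nat_lit 161648251),Int.negSucc (nat_lit 84284965),Int.ofNat (nat_lit 21614459),Int.ofNat (nat_lit 49723572),Int.ofNat (nat_lit 44985532),Int.negSucc (nat_lit 212827541),Int.negSucc (nat_lit 150741051),Int.ofNat (nat_lit 290033),Int.ofNat (nat_lit 61403802),Int.ofNat (nat_lit 14146316),Int.ofNat (nat_lit 28830061),Int.negSucc (nat_lit 9938424),Int.ofNat (nat_lit 149302854),Int.ofNat (nat_lit 68625328),Int.negSucc (nat_lit 99099906),Int.negSucc (nat_lit 23999562),Int.ofNat (nat_lit 8802372),Int.negSucc (nat_lit 5880097),Int.ofNat (nat_lit 99581508),Int.ofNat (nat_lit 20676075),Int.ofNat (nat_lit 89145733),Int.ofNat (nat_lit 43606629),Int.ofNat (nat_lit 61881919),Int.ofNat (nat_lit 16066482),Int.ofNat (nat_lit 54299433),Int.ofNat (nat_lit 62329405),Int.ofNat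 (nat_lit 152271851),Int.ofNat (nat_lit 236951633),Int.ofNat (nat_lit 126378245),Int.ofNat (nat_lit 89393494),Int.ofNat (nat_lit 28450727),Int.ofNat (nat_lit 77510901),Int.negSucc (nat_lit 60845329),Int.ofNat (nat_lit 38606870),Int.negSucc (nat_lit 61332177),Int.negSucc (nat_lit 244761350),Int.ofNat (nat_lit 25395074),Int.negSucc (nat_lit 173032816),Int.negSucc (nat_lit 145417195),Int.ofNat (nat_lit 220109849),Int.negSucc (nat_lit 847645435),Int.ofNat (nat_lit 323911765),Int.ofNat (nat_lit 580386010),Int.negSucc (nat_lit 284886497),Int.negSucc (nat_lit 500406347),Int.negSucc (nat_lit 411409144),Int.ofNat (nat_lit 525334895),Int.negSucc (nat_lit 367735609),Int.negSucc (nat_lit 293793966),Int.negSucc (nat_lit 133715182),Int.negSucc (nat_lit 288525348),Int.negSucc (nat_lit 37732999),Int.ofNat (nat_lit 385873540),Int.negSucc (nat_lit 743212761),Int.negSucc (nat_lit 297705073),Int.ofNat (nat_lit 512310982),Int.negSucc (nat_lit 36025536),Int.negSucc (nat_lit 180104566),Int.ofNat (nat_lit 1258657958),Int.negSucc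 (nat_lit 367358028),Int.negSucc (nat_lit 137356368),Int.ofNat (nat_lit 298495277),Int.ofNat (nat_lit 189592697),Int.negSucc (nat_lit 247522067),Int.ofNat (nat_lit 57877715),Int.ofNat (nat_lit 196734595),Int.ofNat (nat_lit 671624911),Int.ofNat (nat_lit 125821973),Int.ofNat (nat_lit 205102223),Int.ofNat (nat_lit 1499158845),Int.ofNat (nat_lit 355107339),Int.negSucc (nat_lit 782338799),Int.negSucc (nat_lit 238220504),Int.ofNat (nat_lit 854319754),Int.negSucc (nat_lit 964469636),Int.ofNat (nat_lit 44351903),Int.negSucc (nat_lit 105192124),Int.ofNat (nat_lit 87468420)])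

/-- A row. -/
noncomputable def sr6_c2_38 : List ℕ × List ℤ :=
  ([(nat_lit 5),(nat_lit 0),(nat_lit 0),(nat_lit 0),(nat_lit 0),(nat_lit 0),(nat_lit 0),(nat_lit 0),(nat_lit 0),(nat_lit 0),(nat_lit 0),(nat_lit 0)], [Int.negSucc (nat_lit 682484865),Int.ofNat (nat_lit 644308529),Int.negSucc (nat_lit 225702118),Int.negSucc (nat_lit 1084234373),Int.negSucc (nat_lit 1465489319),Int.negSucc (nat_lit 295309082),Int.negSucc (nat_lit 256369611),Int.negSucc (nat_lit 1859322411),Int.ofNat (nat_lit 757741574),Int.negSucc (nat_lit 66117191),Int.negSucc (nat_lit 400026997),Int.ofNat (nat_lit 198870924),Int.negSucc (nat_lit 162269683),Int.negSucc (nat_lit 187636274),Int.ofNat (nat_lit 35027623),Int.negSucc (nat_lit 235745550),Int.negSucc (nat_lit 186157218),Int.negSucc (nat_lit 59640093),Int.ofNat (nat_lit 113774613),Int.negSucc (nat_lit 34807141),Int.ofNat (nat_lit 798787242),Int.negSucc (nat_lit 539738944),Int.ofNat (nat_lit 149246166),Int.ofNat (nat_lit 52972622),Int.negSucc (nat_lit 369040462),Int.ofNat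 (nat_lit 162549377),Int.ofNat (nat_lit 133805825),Int.negSucc (nat_lit 322435506),Int.negSucc (nat_lit 224794462),Int.ofNat (nat_lit 35115225),Int.negSucc (nat_lit 716083436),Int.ofNat (nat_lit 22463398),Int.ofNat (nat_lit 55274574),Int.negSucc (nat_lit 6977186),Int.negSucc (nat_lit 327304693),Int.ofNat (nat_lit 794372893),Int.ofNat (nat_lit 869064733),Int.ofNat (nat_lit 339832649),Int.negSucc (nat_lit 423172614),Int.negSucc (nat_lit 287682066),Int.negSucc (nat_lit 247710946),Int.negSucc (nat_lit 229287922),Int.negSucc (nat_lit 61054729),Int.ofNat (nat_lit 19077609),Int.ofNat (nat_lit 777565111),Int.negSucc (nat_lit 314714578),Int.negSucc (nat_lit 326642343),Int.negSucc (nat_lit 204361713),Int.ofNat (nat_lit 323387138),Int.ofNat (nat_lit 154134010),Int.ofNat (nat_lit 103701265),Int.negSucc (nat_lit 207482973),Int.ofNat (nat_lit 107757875),Int.negSucc (nat_lit 423147660),Int.negSucc (nat_lit 74252288),Int.ofNat (nat_lit 406882828),Int.negSucc (nat_lit 78463733),Int.ofNat (nat_lit 122694202),Int.negSucc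 (nat_lit 280682714),Int.ofNat (nat_lit 25681121),Int.negSucc (nat_lit 22165624),Int.negSucc (nat_lit 208893126),Int.negSucc (nat_lit 100311348),Int.negSucc (nat_lit 367728991),Int.ofNat (nat_lit 181903102),Int.negSucc (nat_lit 125969863),Int.ofNat (nat_lit 75118212),Int.negSucc (nat_lit 7153191),Int.negSucc (nat_lit 135876454),Int.ofNat (nat_lit 437220556),Int.negSucc (nat_lit 217174834),Int.ofNat (nat_lit 810689125),Int.negSucc (nat_lit 563376682),Int.ofNat (nat_lit 38783414),Int.ofNat (nat_lit 246590277),Int.ofNat (nat_lit 289895380),Int.ofNat (nat_lit 330213168),Int.negSucc (nat_lit 115183610),Int.ofNat (nat_lit 327885740),Int.negSucc (nat_lit 80122202),Int.ofNat (nat_lit 97260197),Int.negSucc (nat_lit 5888576),Int.ofNat (nat_lit 171643260),Int.negSucc (nat_lit 50945331),Int.negSucc (nat_lit 139484724),Int.ofNat (nat_lit 10100431),Int.negSucc (nat_lit 121394184),Int.ofNat (nat_lit 11864946),Int.negSucc (nat_lit 104037378),Int.negSucc (nat_lit 80581789),Int.ofNat (nat_lit 10587257),Int.negSucc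 (nat_lit 37846924),Int.negSucc (nat_lit 17371378),Int.ofNat (nat_lit 178944053),Int.ofNat (nat_lit 88972086),Int.ofNat (nat_lit 117072982),Int.ofNat (nat_lit 47907795),Int.ofNat (nat_lit 145696112),Int.negSucc (nat_lit 111236689),Int.ofNat (nat_lit 17895784),Int.ofNat (nat_lit 143890158),Int.negSucc (nat_lit 2418634),Int.negSucc (nat_lit 43633308),Int.ofNat (nat_lit 31681672),Int.ofNat (nat_lit 138966314),Int.ofNat (nat_lit 120693359),Int.negSucc (nat_lit 31540309),Int.ofNat (nat_lit 15028597),Int.ofNat (nat_lit 95640161),Int.ofNat (nat_lit 87562032),Int.negSucc (nat_lit 62673577),Int.negSucc (nat_lit 43202433),Int.negSucc (nat_lit 59592547),Int.ofNat (nat_lit 150650926),Int.ofNat (nat_lit 106407743),Int.ofNat (nat_lit 64349774),Int.negSucc (nat_lit 44249359),Int.negSucc (nat_lit 123944282),Int.negSucc (nat_lit 45677347),Int.negSucc (nat_lit 32562073),Int.negSucc (nat_lit 34977805),Int.ofNat (nat_lit 8189405),Int.ofNat (nat_lit 20663908),Int.ofNat (nat_lit 71990083),Int.negSucc (nat_lit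 119608693),Int.negSucc (nat_lit 55709578),Int.negSucc (nat_lit 113177794),Int.negSucc (nat_lit 52796935),Int.negSucc (nat_lit 281744968),Int.negSucc (nat_lit 13343986),Int.ofNat (nat_lit 60524405),Int.negSucc (nat_lit 178950669),Int.ofNat (nat_lit 30898340),Int.negSucc (nat_lit 29178913),Int.ofNat (nat_lit 388929527),Int.negSucc (nat_lit 17820319),Int.ofNat (nat_lit 152627223),Int.ofNat (nat_lit 158776520),Int.negSucc (nat_lit 323703320),Int.negSucc (nat_lit 193914249),Int.negSucc (nat_lit 350818873),Int.negSucc (nat_lit 402948684),Int.ofNat (nat_lit 237173719),Int.ofNat (nat_lit 454027392),Int.ofNat (nat_lit 63605609),Int.negSucc (nat_lit 823644888),Int.negSucc (nat_lit 150153472),Int.negSucc (nat_lit 345507807),Int.ofNat (nat_lit 246729726),Int.ofNat (nat_lit 188259282),Int.ofNat (nat_lit 15626984),Int.negSucc (nat_lit 88069370),Int.ofNat (nat_lit 402628265),Int.ofNat (nat_lit 258963237),Int.negSucc (nat_lit 172496721),Int.negSucc (nat_lit 70782125),Int.ofNat (nat_lit 81839940),Int.negSucc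 (nat_lit 1387441998),Int.ofNat (nat_lit 371334931),Int.negSucc (nat_lit 274339857),Int.negSucc (nat_lit 160876500),Int.ofNat (nat_lit 101546480),Int.ofNat (nat_lit 428551837),Int.negSucc (nat_lit 96667081),Int.negSucc (nat_lit 45671892),Int.negSucc (nat_lit 537123657),Int.negSucc (nat_lit 196090344),Int.negSucc (nat_lit 146813014),Int.negSucc (nat_lit 438119830),Int.negSucc (nat_lit 169066429),Int.ofNat (nat_lit 626846972),Int.ofNat (nat_lit 121572150),Int.negSucc (nat_lit 462828785),Int.ofNat (nat_lit 618685310),Int.negSucc (nat_lit 95125255),Int.ofNat (nat_lit 97296740),Int.negSucc (nat_lit 101198371),Int.ofNat (nat_lit 10562506)])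

/-- A part of a triangular factor. -/
noncomputable def sr6_c2 : Rows :=
  [sr6_c2_0,
   sr6_c2_1,
   sr6_c2_2,
   sr6_c2_3,
   sr6_c2_4,
   sr6_c2_5,
   sr6_c2_6,
   sr6_c2_7,
   sr6_c2_8,
   sr6_c2_9,
   sr6_c2_10,
   sr6_c2_11,
   sr6_c2_12,
   sr6_c2_13,
   sr6_c2_14,
   sr6_c2_15,
   sr6_c2_16,
   sr6_c2_17,
   sr6_c2_18,
   sr6_c2_19,
   sr6_c2_20,
   sr6_c2_21,
   sr6_c2_22,
   sr6_c2_23,
   sr6_c2_24,
   sr6_c2_25,
   sr6_c2_26,
   sr6_c2_27,
   sr6_c2_28,
   sr6_c2_29,
   sr6_c2_30,
   sr6_c2_31,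
   sr6_c2_32,
   sr6_c2_33,
   sr6_c2_34,
   sr6_c2_35,
   sr6_c2_36,
   sr6_c2_37,
   sr6_c2_38]

/-- A row. -/
noncomputable def sr6_c3_0 : List ℕ × List ℤ :=
  ([(nat_lit 0),(nat_lit 0),(nat_lit 0),(nat_lit 0),(nat_lit 0),(nat_lit 0),(nat_lit 0),(nat_lit 0),(nat_lit 0),(nat_lit 1),(nat_lit 0),(nat_lit 0)], [Int.negSucc (nat_lit 14743557),Int.negSucc (nat_lit 99685334),Int.negSucc (nat_lit 55015173),Int.ofNat (nat_lit 32435667),Int.negSucc (nat_lit 72965600),Int.ofNat (nat_lit 51347983),Int.negSucc (nat_lit 5939138),Int.negSucc (nat_lit 116794440),Int.ofNat (nat_lit 56184762),Int.negSucc (nat_lit 30937550),Int.ofNat (nat_lit 14486349),Int.ofNat (nat_lit 79389965),Int.negSucc (nat_lit 29942259),Int.negSucc (nat_lit 13500289),Int.ofNat (nat_lit 32673723),Int.negSucc (nat_lit 20727946),Int.negSucc (nat_lit 61971157),Int.ofNat (nat_lit 13972340),Int.negSucc (nat_lit 5524873),Int.negSucc (nat_lit 11800069),Int.ofNat (nat_lit 59271686),Int.negSucc (nat_lit 41610443),Int.ofNat (nat_lit 18260350),Int.negSucc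 (nat_lit 32435759),Int.negSucc (nat_lit 18452495),Int.ofNat (nat_lit 20151140),Int.ofNat (nat_lit 31523758),Int.negSucc (nat_lit 17749110),Int.negSucc (nat_lit 9677140),Int.negSucc (nat_lit 30644604),Int.negSucc (nat_lit 46373682),Int.ofNat (nat_lit 3190866),Int.negSucc (nat_lit 4287986),Int.negSucc (nat_lit 1670970),Int.ofNat (nat_lit 40831994),Int.ofNat (nat_lit 35240689),Int.ofNat (nat_lit 4737455),Int.ofNat (nat_lit 24809670),Int.ofNat (nat_lit 2808569),Int.negSucc (nat_lit 6251734),Int.negSucc (nat_lit 884541),Int.negSucc (nat_lit 6112531),Int.ofNat (nat_lit 2736570),Int.negSucc (nat_lit 3143284),Int.ofNat (nat_lit 44066724),Int.ofNat (nat_lit 616268),Int.negSucc (nat_lit 24434071),Int.negSucc (nat_lit 414419),Int.ofNat (nat_lit 12649985),Int.ofNat (nat_lit 23619011),Int.negSucc (nat_lit 7464604),Int.negSucc (nat_lit 13655079),Int.ofNat (nat_lit 22203899),Int.ofNat (nat_lit 3058830),Int.ofNat (nat_lit 22143793),Int.ofNat (nat_lit 13397839),Int.ofNat (nat_lit 3622125),Int.ofNat (nat_lit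 931419),Int.ofNat (nat_lit 5827460),Int.ofNat (nat_lit 5580917),Int.negSucc (nat_lit 8363997),Int.negSucc (nat_lit 8302365),Int.negSucc (nat_lit 14964645),Int.ofNat (nat_lit 27575781),Int.negSucc (nat_lit 19096856),Int.negSucc (nat_lit 9379741),Int.ofNat (nat_lit 11131479),Int.negSucc (nat_lit 1866519),Int.ofNat (nat_lit 10537043),Int.ofNat (nat_lit 1167171),Int.ofNat (nat_lit 1576976),Int.negSucc (nat_lit 6920105),Int.negSucc (nat_lit 26494250),Int.negSucc (nat_lit 10274398),Int.ofNat (nat_lit 23512701),Int.ofNat (nat_lit 12045550),Int.ofNat (nat_lit 12680149),Int.negSucc (nat_lit 15288168),Int.negSucc (nat_lit 2622954),Int.negSucc (nat_lit 728063),Int.negSucc (nat_lit 5332837),Int.negSucc (nat_lit 5117900),Int.ofNat (nat_lit 1892209),Int.negSucc (nat_lit 38934),Int.negSucc (nat_lit 5934323),Int.negSucc (nat_lit 3780950),Int.ofNat (nat_lit 3496049),Int.negSucc (nat_lit 3624849),Int.negSucc (nat_lit 4506174),Int.ofNat (nat_lit 6190409),Int.negSucc (nat_lit 2837597),Int.ofNat (nat_lit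 2701720),Int.ofNat (nat_lit 5356809),Int.negSucc (nat_lit 903208),Int.ofNat (nat_lit 1709767),Int.ofNat (nat_lit 271263),Int.ofNat (nat_lit 2934149),Int.negSucc (nat_lit 583680),Int.ofNat (nat_lit 8061329),Int.ofNat (nat_lit 4991063),Int.negSucc (nat_lit 1948386),Int.ofNat (nat_lit 99865),Int.ofNat (nat_lit 133502),Int.ofNat (nat_lit 460475),Int.ofNat (nat_lit 18273711),Int.negSucc (nat_lit 1112268),Int.ofNat (nat_lit 451626),Int.negSucc (nat_lit 3805170),Int.ofNat (nat_lit 9769870),Int.ofNat (nat_lit 1628563),Int.ofNat (nat_lit 1934143),Int.ofNat (nat_lit 1091153),Int.negSucc (nat_lit 14180336),Int.ofNat (nat_lit 469699),Int.ofNat (nat_lit 4536337),Int.ofNat (nat_lit 3569431),Int.ofNat (nat_lit 7545545),Int.negSucc (nat_lit 1973968),Int.negSucc (nat_lit 1226711),Int.ofNat (nat_lit 2435840),Int.ofNat (nat_lit 2658417),Int.negSucc (nat_lit 1753757),Int.ofNat (nat_lit 6767874),Int.ofNat (nat_lit 694610),Int.ofNat (nat_lit 2119593),Int.negSucc (nat_lit 123026),Int.negSucc (nat_lit 3743101),Int.negSucc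 (nat_lit 683498),Int.negSucc (nat_lit 5528978),Int.ofNat (nat_lit 2230847),Int.ofNat (nat_lit 4235931),Int.ofNat (nat_lit 2633544),Int.negSucc (nat_lit 2407421),Int.ofNat (nat_lit 2077194),Int.negSucc (nat_lit 816398),Int.negSucc (nat_lit 156828),Int.negSucc (nat_lit 1237937),Int.negSucc (nat_lit 99174),Int.ofNat (nat_lit 107259),Int.negSucc (nat_lit 3118943),Int.negSucc (nat_lit 11005858),Int.negSucc (nat_lit 8051468),Int.negSucc (nat_lit 192247),Int.ofNat (nat_lit 111399),Int.negSucc (nat_lit 2588285),Int.ofNat (nat_lit 2491829),Int.negSucc (nat_lit 4429593),Int.negSucc (nat_lit 851608),Int.negSucc (nat_lit 4085135),Int.ofNat (nat_lit 2258853),Int.ofNat (nat_lit 696469),Int.negSucc (nat_lit 3182397),Int.negSucc (nat_lit 198229),Int.negSucc (nat_lit 1972828),Int.negSucc (nat_lit 303876),Int.ofNat (nat_lit 1646204),Int.negSucc (nat_lit 1326779),Int.negSucc (nat_lit 381147),Int.ofNat (nat_lit 1131701),Int.ofNat (nat_lit 3821950),Int.negSucc (nat_lit 809460),Int.ofNat (nat_lit 5912616),Int.ofNat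 (nat_lit 1410737),Int.ofNat (nat_lit 3802270),Int.negSucc (nat_lit 1773929),Int.negSucc (nat_lit 638141),Int.negSucc (nat_lit 1100701),Int.negSucc (nat_lit 1599593),Int.ofNat (nat_lit 858531),Int.negSucc (nat_lit 2082715),Int.negSucc (nat_lit 134374),Int.ofNat (nat_lit 5679354),Int.negSucc (nat_lit 1999816),Int.negSucc (nat_lit 187914),Int.negSucc (nat_lit 826187),Int.negSucc (nat_lit 226380),Int.negSucc (nat_lit 53381),Int.ofNat (nat_lit 475302),Int.ofNat (nat_lit 60538310)])

/-- A row. -/
noncomputable def sr6_c3_1 : List ℕ × List ℤ :=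
  ([(nat_lit 0),(nat_lit 0),(nat_lit 0),(nat_lit 0),(nat_lit 0),(nat_lit 0),(nat_lit 0),(nat_lit 1),(nat_lit 0),(nat_lit 0),(nat_lit 0),(nat_lit 0)], [Int.negSucc (nat_lit 216748746),Int.ofNat (nat_lit 108369509),Int.negSucc (nat_lit 307791282),Int.negSucc (nat_lit 260595696),Int.ofNat (nat_lit 274367304),Int.negSucc (nat_lit 116467144),Int.negSucc (nat_lit 133589397),Int.ofNat (nat_lit 23149013),Int.negSucc (nat_lit 50100130),Int.ofNat (nat_lit 18578250),Int.negSucc (nat_lit 103918107),Int.negSucc (nat_lit 50523319),Int.ofNat (nat_lit 4213597),Int.negSucc (nat_lit 4040995),Int.negSucc (nat_lit 58700298),Int.negSucc (nat_lit 46495801),Int.ofNat (nat_lit 70352370),Int.ofNat (nat_lit 24643009),Int.ofNat (nat_lit 3967385),Int.ofNat (nat_lit 15261558),Int.ofNat (nat_lit 34700453),Int.negSucc (nat_lit 40021096),Int.ofNat (nat_lit 16445850),Int.negSucc (nat_lit 20521725),Int.ofNat (nat_lit 9597470),Int.negSucc (nat_lit 15200027),Int.negSucc (nat_lit 32452480),Int.negSucc (nat_lit 89054615),Int.ofNat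 (nat_lit 25422461),Int.ofNat (nat_lit 57202318),Int.negSucc (nat_lit 1415383),Int.negSucc (nat_lit 18013310),Int.negSucc (nat_lit 20823201),Int.negSucc (nat_lit 20662877),Int.ofNat (nat_lit 32985377),Int.ofNat (nat_lit 41790069),Int.negSucc (nat_lit 36667476),Int.negSucc (nat_lit 52966493),Int.negSucc (nat_lit 27426070),Int.ofNat (nat_lit 26917757),Int.negSucc (nat_lit 45627613),Int.ofNat (nat_lit 668672),Int.negSucc (nat_lit 28948250),Int.negSucc (nat_lit 43498811),Int.ofNat (nat_lit 36177059),Int.ofNat (nat_lit 17436498),Int.ofNat (nat_lit 82636852),Int.ofNat (nat_lit 10657700),Int.ofNat (nat_lit 32747384),Int.negSucc (nat_lit 26528185),Int.negSucc (nat_lit 15909676),Int.ofNat (nat_lit 1930101),Int.ofNat (nat_lit 6825407),Int.ofNat (nat_lit 22794941),Int.negSucc (nat_lit 38137263),Int.ofNat (nat_lit 32933177),Int.ofNat (nat_lit 43816126),Int.ofNat (nat_lit 61105965),Int.negSucc (nat_lit 45141116),Int.ofNat (nat_lit 47139222),Int.negSucc (nat_lit 17880151),Int.negSucc (nat_lit 5041205),Int.negSucc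 (nat_lit 16679662),Int.negSucc (nat_lit 10857586),Int.negSucc (nat_lit 8715735),Int.negSucc (nat_lit 26179204),Int.ofNat (nat_lit 51389518),Int.negSucc (nat_lit 9059822),Int.ofNat (nat_lit 32237484),Int.ofNat (nat_lit 46262864),Int.negSucc (nat_lit 7877544),Int.ofNat (nat_lit 16018588),Int.ofNat (nat_lit 22765509),Int.ofNat (nat_lit 18472955),Int.ofNat (nat_lit 17765245),Int.ofNat (nat_lit 19092161),Int.negSucc (nat_lit 512769),Int.negSucc (nat_lit 7999874),Int.ofNat (nat_lit 15360438),Int.ofNat (nat_lit 15776706),Int.negSucc (nat_lit 2174852),Int.ofNat (nat_lit 13708541),Int.negSucc (nat_lit 10404168),Int.ofNat (nat_lit 9240925),Int.negSucc (nat_lit 9464862),Int.ofNat (nat_lit 5078244),Int.negSucc (nat_lit 15124050),Int.ofNat (nat_lit 13858269),Int.ofNat (nat_lit 6613294),Int.negSucc (nat_lit 10088879),Int.ofNat (nat_lit 13315693),Int.negSucc (nat_lit 2044248),Int.ofNat (nat_lit 15418265),Int.ofNat (nat_lit 2420222),Int.ofNat (nat_lit 3461146),Int.ofNat (nat_lit 181535),Int.negSucc (nat_lit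 10697178),Int.ofNat (nat_lit 4509921),Int.negSucc (nat_lit 19201873),Int.negSucc (nat_lit 11589637),Int.ofNat (nat_lit 8252996),Int.negSucc (nat_lit 3575796),Int.negSucc (nat_lit 3181105),Int.ofNat (nat_lit 2626656),Int.negSucc (nat_lit 256428),Int.ofNat (nat_lit 44050456),Int.negSucc (nat_lit 6937890),Int.ofNat (nat_lit 6631622),Int.negSucc (nat_lit 1454003),Int.ofNat (nat_lit 3030122),Int.ofNat (nat_lit 2797592),Int.negSucc (nat_lit 6178316),Int.ofNat (nat_lit 9954535),Int.negSucc (nat_lit 12745126),Int.ofNat (nat_lit 13757029),Int.negSucc (nat_lit 16972701),Int.ofNat (nat_lit 519031),Int.negSucc (nat_lit 9751417),Int.negSucc (nat_lit 4013963),Int.negSucc (nat_lit 8073509),Int.negSucc (nat_lit 2579221),Int.ofNat (nat_lit 1291197),Int.negSucc (nat_lit 12215032),Int.ofNat (nat_lit 15297864),Int.negSucc (nat_lit 22476673),Int.negSucc (nat_lit 1717853),Int.ofNat (nat_lit 11937479),Int.ofNat (nat_lit 13311173),Int.negSucc (nat_lit 9767389),Int.ofNat (nat_lit 5447195),Int.negSucc (nat_lit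 1796519),Int.negSucc (nat_lit 9119721),Int.ofNat (nat_lit 6567800),Int.negSucc (nat_lit 14737201),Int.ofNat (nat_lit 3914629),Int.ofNat (nat_lit 3476825),Int.ofNat (nat_lit 3944544),Int.ofNat (nat_lit 2756859),Int.negSucc (nat_lit 4264540),Int.negSucc (nat_lit 21825624),Int.ofNat (nat_lit 6196825),Int.negSucc (nat_lit 21859667),Int.negSucc (nat_lit 4152351),Int.ofNat (nat_lit 6471125),Int.negSucc (nat_lit 5726556),Int.negSucc (nat_lit 19304377),Int.ofNat (nat_lit 14304027),Int.negSucc (nat_lit 18681586),Int.negSucc (nat_lit 1706208),Int.negSucc (nat_lit 17007551),Int.ofNat (nat_lit 8519431),Int.negSucc (nat_lit 403371),Int.negSucc (nat_lit 8044953),Int.ofNat (nat_lit 5721115),Int.negSucc (nat_lit 10764554),Int.ofNat (nat_lit 7857800),Int.ofNat (nat_lit 2052499),Int.ofNat (nat_lit 3032132),Int.ofNat (nat_lit 6480931),Int.negSucc (nat_lit 20742299),Int.ofNat (nat_lit 6542415),Int.ofNat (nat_lit 12286498),Int.negSucc (nat_lit 8252160),Int.negSucc (nat_lit 492828),Int.ofNat (nat_lit 19696265),Int.ofNat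 (nat_lit 1029729),Int.ofNat (nat_lit 11145739),Int.ofNat (nat_lit 6686867),Int.negSucc (nat_lit 29049021),Int.ofNat (nat_lit 9661001),Int.ofNat (nat_lit 22936287),Int.negSucc (nat_lit 13373069),Int.ofNat (nat_lit 3757960),Int.negSucc (nat_lit 2605493),Int.negSucc (nat_lit 9697035),Int.ofNat (nat_lit 249532),Int.negSucc (nat_lit 6207099),Int.ofNat (nat_lit 3479982),Int.negSucc (nat_lit 10309576),Int.ofNat (nat_lit 190075729)])

/-- A row. -/
noncomputable def sr6_c3_2 : List ℕ × List ℤ :=
  ([(nat_lit 0),(nat_lit 0),(nat_lit 0),(nat_lit 0),(nat_lit 0),(nat_lit 1),(nat_lit 0),(nat_lit 0),(nat_lit 0),(nat_lit 0),(nat_lit 0),(nat_lit 0)], [Int.negSucc (nat_lit 857201316),Int.ofNat (nat_lit 261690685),Int.ofNat (nat_lit 215477546),Int.ofNat (nat_lit 155363616),Int.negSucc (nat_lit 583451386),Int.negSucc (nat_lit 408086351),Int.negSucc (nat_lit 216868534),Int.ofNat (nat_lit 396242408),Int.negSucc (nat_lit 356121584),Int.ofNat (nat_lit 6607946),Int.negSucc (nat_lit 3432349),Int.negSucc (nat_lit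 422968353),Int.ofNat (nat_lit 167667236),Int.ofNat (nat_lit 21022148),Int.negSucc (nat_lit 156712171),Int.ofNat (nat_lit 125045437),Int.ofNat (nat_lit 115021447),Int.ofNat (nat_lit 19501942),Int.negSucc (nat_lit 4957820),Int.ofNat (nat_lit 67123762),Int.negSucc (nat_lit 95665583),Int.ofNat (nat_lit 166346603),Int.negSucc (nat_lit 101591117),Int.ofNat (nat_lit 164897675),Int.ofNat (nat_lit 104161533),Int.negSucc (nat_lit 132078194),Int.negSucc (nat_lit 159474101),Int.ofNat (nat_lit 105812083),Int.negSucc (nat_lit 19001776),Int.ofNat (nat_lit 89692743),Int.ofNat (nat_lit 186869764),Int.negSucc (nat_lit 67193510),Int.negSucc (nat_lit 21209875),Int.ofNat (nat_lit 5527311),Int.negSucc (nat_lit 287806737),Int.negSucc (nat_lit 40105356),Int.ofNat (nat_lit 20887028),Int.negSucc (nat_lit 182185633),Int.negSucc (nat_lit 9674142),Int.ofNat (nat_lit 116587168),Int.ofNat (nat_lit 24853414),Int.ofNat (nat_lit 87768294),Int.ofNat (nat_lit 2516731),Int.negSucc (nat_lit 25627518),Int.negSucc (nat_lit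 74066282),Int.negSucc (nat_lit 23183354),Int.ofNat (nat_lit 50208558),Int.ofNat (nat_lit 23531800),Int.negSucc (nat_lit 41213511),Int.negSucc (nat_lit 59997520),Int.ofNat (nat_lit 68187932),Int.ofNat (nat_lit 90515809),Int.negSucc (nat_lit 214013640),Int.negSucc (nat_lit 8118934),Int.negSucc (nat_lit 120494225),Int.negSucc (nat_lit 87748065),Int.ofNat (nat_lit 11808313),Int.negSucc (nat_lit 5961558),Int.ofNat (nat_lit 39098180),Int.negSucc (nat_lit 35565759),Int.negSucc (nat_lit 18531998),Int.ofNat (nat_lit 95766531),Int.ofNat (nat_lit 38211994),Int.ofNat (nat_lit 2707951),Int.ofNat (nat_lit 51208062),Int.ofNat (nat_lit 99071893),Int.negSucc (nat_lit 21406287),Int.negSucc (nat_lit 56763703),Int.negSucc (nat_lit 45666532),Int.ofNat (nat_lit 65635014),Int.negSucc (nat_lit 26665810),Int.ofNat (nat_lit 64366593),Int.ofNat (nat_lit 39185317),Int.ofNat (nat_lit 85638308),Int.negSucc (nat_lit 80809090),Int.negSucc (nat_lit 98083692),Int.negSucc (nat_lit 201859264),Int.negSucc (nat_lit 9649129),Int.negSucc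 (nat_lit 6337875),Int.ofNat (nat_lit 24888330),Int.negSucc (nat_lit 25836936),Int.ofNat (nat_lit 15134464),Int.negSucc (nat_lit 15410453),Int.ofNat (nat_lit 31360168),Int.ofNat (nat_lit 59027350),Int.negSucc (nat_lit 16490644),Int.ofNat (nat_lit 9372039),Int.negSucc (nat_lit 4156002),Int.negSucc (nat_lit 13427547),Int.negSucc (nat_lit 120666306),Int.negSucc (nat_lit 3477042),Int.negSucc (nat_lit 8448493),Int.negSucc (nat_lit 9774626),Int.ofNat (nat_lit 5358285),Int.ofNat (nat_lit 16163699),Int.negSucc (nat_lit 12274570),Int.negSucc (nat_lit 45024314),Int.ofNat (nat_lit 6794667),Int.negSucc (nat_lit 20893036),Int.negSucc (nat_lit 50391171),Int.negSucc (nat_lit 15513716),Int.ofNat (nat_lit 11022497),Int.negSucc (nat_lit 9488252),Int.negSucc (nat_lit 34011576),Int.negSucc (nat_lit 36552993),Int.negSucc (nat_lit 12668225),Int.ofNat (nat_lit 18442765),Int.ofNat (nat_lit 6479358),Int.negSucc (nat_lit 73233717),Int.negSucc (nat_lit 6487667),Int.negSucc (nat_lit 12470136),Int.ofNat (nat_lit 717366),Int.ofNat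 (nat_lit 42354666),Int.negSucc (nat_lit 31983311),Int.negSucc (nat_lit 38000151),Int.negSucc (nat_lit 23310901),Int.negSucc (nat_lit 30090416),Int.ofNat (nat_lit 1399254),Int.ofNat (nat_lit 12705818),Int.negSucc (nat_lit 8676309),Int.negSucc (nat_lit 440674),Int.ofNat (nat_lit 1033119),Int.ofNat (nat_lit 10809184),Int.negSucc (nat_lit 53101874),Int.ofNat (nat_lit 25146078),Int.negSucc (nat_lit 3891003),Int.negSucc (nat_lit 32866834),Int.negSucc (nat_lit 21401434),Int.ofNat (nat_lit 3043576),Int.negSucc (nat_lit 28339484),Int.negSucc (nat_lit 29997898),Int.ofNat (nat_lit 19838146),Int.negSucc (nat_lit 20081578),Int.negSucc (nat_lit 8044010),Int.ofNat (nat_lit 7333401),Int.negSucc (nat_lit 34319377),Int.negSucc (nat_lit 2855623),Int.negSucc (nat_lit 473313),Int.negSucc (nat_lit 4981470),Int.ofNat (nat_lit 82697154),Int.ofNat (nat_lit 46084387),Int.ofNat (nat_lit 13550486),Int.negSucc (nat_lit 73120318),Int.ofNat (nat_lit 11526263),Int.ofNat (nat_lit 30050815),Int.negSucc (nat_lit 10665012),Int.ofNat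 (nat_lit 23164956),Int.ofNat (nat_lit 5177645),Int.ofNat (nat_lit 48531173),Int.ofNat (nat_lit 55432477),Int.ofNat (nat_lit 24244037),Int.ofNat (nat_lit 10537476),Int.ofNat (nat_lit 2853578),Int.negSucc (nat_lit 11278095),Int.ofNat (nat_lit 7662940),Int.ofNat (nat_lit 282873),Int.negSucc (nat_lit 6293991),Int.negSucc (nat_lit 19910557),Int.negSucc (nat_lit 13078613),Int.negSucc (nat_lit 45240452),Int.ofNat (nat_lit 8327798),Int.negSucc (nat_lit 46318420),Int.negSucc (nat_lit 16662906),Int.ofNat (nat_lit 32921164),Int.negSucc (nat_lit 26252940),Int.ofNat (nat_lit 28809131),Int.ofNat (nat_lit 15439112),Int.negSucc (nat_lit 36631),Int.negSucc (nat_lit 11561353),Int.ofNat (nat_lit 4868640),Int.negSucc (nat_lit 2886592),Int.negSucc (nat_lit 14032615),Int.negSucc (nat_lit 15239059),Int.negSucc (nat_lit 20597592),Int.ofNat (nat_lit 3868516),Int.ofNat (nat_lit 3610632),Int.ofNat (nat_lit 12968500),Int.ofNat (nat_lit 11479255),Int.negSucc (nat_lit 122135052),Int.ofNat (nat_lit 30685759),Int.ofNat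 (nat_lit 384157805)])

/-- A row. -/
noncomputable def sr6_c3_3 : List ℕ × List ℤ :=
  ([(nat_lit 0),(nat_lit 0),(nat_lit 0),(nat_lit 1),(nat_lit 0),(nat_lit 0),(nat_lit 0),(nat_lit 0),(nat_lit 0),(nat_lit 0),(nat_lit 0),(nat_lit 0)], [Int.negSucc (nat_lit 40602693),Int.ofNat (nat_lit 597659948),Int.negSucc (nat_lit 1048743861),Int.ofNat (nat_lit 107585199),Int.ofNat (nat_lit 545295622),Int.ofNat (nat_lit 164161446),Int.negSucc (nat_lit 393562179),Int.negSucc (nat_lit 122519561),Int.negSucc (nat_lit 487844998),Int.negSucc (nat_lit 232464029),Int.ofNat (nat_lit 189233010),Int.ofNat (nat_lit 182767712),Int.negSucc (nat_lit 185984726),Int.negSucc (nat_lit 255716496),Int.ofNat (nat_lit 38683859),Int.negSucc (nat_lit 162357021),Int.negSucc (nat_lit 118153507),Int.ofNat (nat_lit 112091290),Int.negSucc (nat_lit 163403436),Int.ofNat (nat_lit 124490324),Int.ofNat (nat_lit 483933084),Int.negSucc (nat_lit 485430112),Int.ofNat (nat_lit 51891770),Int.negSucc (nat_lit 259549437),Int.ofNat (nat_lit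 39810715),Int.ofNat (nat_lit 223920518),Int.ofNat (nat_lit 15801968),Int.negSucc (nat_lit 163586265),Int.negSucc (nat_lit 130643786),Int.negSucc (nat_lit 15814047),Int.negSucc (nat_lit 128329196),Int.negSucc (nat_lit 90893925),Int.negSucc (nat_lit 14141954),Int.negSucc (nat_lit 92771571),Int.negSucc (nat_lit 10874456),Int.ofNat (nat_lit 178704970),Int.ofNat (nat_lit 95158480),Int.ofNat (nat_lit 21113991),Int.negSucc (nat_lit 72189763),Int.negSucc (nat_lit 24745270),Int.negSucc (nat_lit 227060151),Int.ofNat (nat_lit 126519264),Int.negSucc (nat_lit 121370415),Int.negSucc (nat_lit 284183921),Int.ofNat (nat_lit 216654466),Int.ofNat (nat_lit 198197026),Int.ofNat (nat_lit 94213750),Int.ofNat (nat_lit 89978398),Int.ofNat (nat_lit 112802498),Int.ofNat (nat_lit 20575674),Int.negSucc (nat_lit 22902496),Int.negSucc (nat_lit 19711597),Int.ofNat (nat_lit 186335885),Int.ofNat (nat_lit 119383498),Int.ofNat (nat_lit 112249033),Int.negSucc (nat_lit 67872008),Int.ofNat (nat_lit 103828711),Int.ofNat (nat_lit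 251291407),Int.ofNat (nat_lit 31005904),Int.ofNat (nat_lit 158847736),Int.negSucc (nat_lit 17012330),Int.negSucc (nat_lit 32736637),Int.negSucc (nat_lit 47324688),Int.ofNat (nat_lit 47706144),Int.negSucc (nat_lit 45509099),Int.negSucc (nat_lit 107619774),Int.ofNat (nat_lit 219801625),Int.negSucc (nat_lit 26664039),Int.ofNat (nat_lit 243781696),Int.ofNat (nat_lit 153739074),Int.negSucc (nat_lit 93373467),Int.negSucc (nat_lit 13951761),Int.negSucc (nat_lit 41982168),Int.negSucc (nat_lit 119594887),Int.ofNat (nat_lit 145751999),Int.ofNat (nat_lit 46948855),Int.negSucc (nat_lit 9151799),Int.negSucc (nat_lit 69940429),Int.negSucc (nat_lit 98359113),Int.ofNat (nat_lit 95240155),Int.negSucc (nat_lit 245702436),Int.negSucc (nat_lit 64016069),Int.negSucc (nat_lit 13175046),Int.ofNat (nat_lit 14719664),Int.negSucc (nat_lit 12347893),Int.negSucc (nat_lit 32549355),Int.ofNat (nat_lit 31822229),Int.negSucc (nat_lit 19518508),Int.negSucc (nat_lit 32365188),Int.ofNat (nat_lit 63286861),Int.negSucc (nat_lit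 8892401),Int.ofNat (nat_lit 75513581),Int.ofNat (nat_lit 33244980),Int.negSucc (nat_lit 37284444),Int.ofNat (nat_lit 22869199),Int.negSucc (nat_lit 21075903),Int.ofNat (nat_lit 48478768),Int.negSucc (nat_lit 55179542),Int.ofNat (nat_lit 46241205),Int.ofNat (nat_lit 27731611),Int.ofNat (nat_lit 1430877),Int.negSucc (nat_lit 2348906),Int.negSucc (nat_lit 9295333),Int.ofNat (nat_lit 6233560),Int.ofNat (nat_lit 54659708),Int.ofNat (nat_lit 26414295),Int.ofNat (nat_lit 13599189),Int.ofNat (nat_lit 7461792),Int.negSucc (nat_lit 20762950),Int.ofNat (nat_lit 20797408),Int.ofNat (nat_lit 58437443),Int.ofNat (nat_lit 49386952),Int.negSucc (nat_lit 74137350),Int.negSucc (nat_lit 10373532),Int.negSucc (nat_lit 13262540),Int.ofNat (nat_lit 58149247),Int.ofNat (nat_lit 24507563),Int.ofNat (nat_lit 17236913),Int.negSucc (nat_lit 19492525),Int.negSucc (nat_lit 3369283),Int.ofNat (nat_lit 57691955),Int.negSucc (nat_lit 7472206),Int.ofNat (nat_lit 98529623),Int.ofNat (nat_lit 3629224),Int.negSucc (nat_lit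 92100922),Int.negSucc (nat_lit 3795250),Int.ofNat (nat_lit 19496447),Int.negSucc (nat_lit 7679117),Int.ofNat (nat_lit 15331361),Int.ofNat (nat_lit 79458738),Int.negSucc (nat_lit 22112430),Int.ofNat (nat_lit 65491740),Int.negSucc (nat_lit 39746599),Int.ofNat (nat_lit 20051063),Int.negSucc (nat_lit 74877988),Int.ofNat (nat_lit 18885785),Int.ofNat (nat_lit 23434740),Int.ofNat (nat_lit 2829351),Int.ofNat (nat_lit 24207264),Int.negSucc (nat_lit 67129129),Int.negSucc (nat_lit 46397889),Int.negSucc (nat_lit 43136899),Int.negSucc (nat_lit 90381602),Int.negSucc (nat_lit 32799167),Int.ofNat (nat_lit 35383518),Int.negSucc (nat_lit 16301781),Int.negSucc (nat_lit 37292695),Int.ofNat (nat_lit 43982016),Int.negSucc (nat_lit 15160059),Int.ofNat (nat_lit 6373673),Int.negSucc (nat_lit 13605638),Int.negSucc (nat_lit 20325700),Int.ofNat (nat_lit 30107250),Int.negSucc (nat_lit 13227299),Int.negSucc (nat_lit 12320248),Int.ofNat (nat_lit 22843906),Int.negSucc (nat_lit 7170160),Int.ofNat (nat_lit 78752554),Int.negSucc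 (nat_lit 45135948),Int.ofNat (nat_lit 69749859),Int.negSucc (nat_lit 13298152),Int.ofNat (nat_lit 12749490),Int.negSucc (nat_lit 33757087),Int.negSucc (nat_lit 4149224),Int.ofNat (nat_lit 23335805),Int.negSucc (nat_lit 17586881),Int.negSucc (nat_lit 10058125),Int.ofNat (nat_lit 7606802),Int.ofNat (nat_lit 26224008),Int.ofNat (nat_lit 50942834),Int.negSucc (nat_lit 39027893),Int.ofNat (nat_lit 11728629),Int.ofNat (nat_lit 46577202),Int.negSucc (nat_lit 15665354),Int.ofNat (nat_lit 15413962),Int.negSucc (nat_lit 27895345),Int.negSucc (nat_lit 27281218),Int.negSucc (nat_lit 12441578),Int.ofNat (nat_lit 254112727),Int.negSucc (nat_lit 98960152),Int.negSucc (nat_lit 108924054),Int.ofNat (nat_lit 617298014)])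

/-- A row. -/
noncomputable def sr6_c3_4 : List ℕ × List ℤ :=
  ([(nat_lit 0),(nat_lit 0),(nat_lit 0),(nat_lit 1),(nat_lit 1),(nat_lit 0),(nat_lit 0),(nat_lit 0),(nat_lit 0),(nat_lit 0),(nat_lit 0),(nat_lit 0)], [Int.ofNat (nat_lit 365946843),Int.negSucc (nat_lit 20913279),Int.ofNat (nat_lit 462640590),Int.ofNat (nat_lit 318102213),Int.negSucc (nat_lit 162952053),Int.negSucc (nat_lit 6924798),Int.ofNat (nat_lit 245566090),Int.negSucc (nat_lit 140306175),Int.ofNat (nat_lit 287621953),Int.ofNat (nat_lit 265134750),Int.ofNat (nat_lit 47222862),Int.ofNat (nat_lit 63674421),Int.ofNat (nat_lit 32379158),Int.ofNat (nat_lit 83616195),Int.ofNat (nat_lit 72496573),Int.ofNat (nat_lit 24126967),Int.negSucc (nat_lit 58557437),Int.ofNat (nat_lit 30368181),Int.negSucc (nat_lit 52513701),Int.negSucc (nat_lit 46334339),Int.ofNat (nat_lit 16592359),Int.ofNat (nat_lit 102327401),Int.negSucc (nat_lit 25299897),Int.negSucc (nat_lit 45150405),Int.ofNat (nat_lit 19360116),Int.negSucc (nat_lit 16306676),Int.ofNat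 (nat_lit 121156796),Int.ofNat (nat_lit 9303454),Int.negSucc (nat_lit 4989634),Int.ofNat (nat_lit 1457075),Int.negSucc (nat_lit 30102392),Int.ofNat (nat_lit 63167219),Int.ofNat (nat_lit 1788243),Int.ofNat (nat_lit 21803758),Int.ofNat (nat_lit 80379674),Int.negSucc (nat_lit 63122720),Int.negSucc (nat_lit 80209800),Int.ofNat (nat_lit 1202485),Int.ofNat (nat_lit 107676396),Int.ofNat (nat_lit 31268873),Int.ofNat (nat_lit 76264545),Int.negSucc (nat_lit 135745241),Int.ofNat (nat_lit 30628153),Int.ofNat (nat_lit 172575790),Int.negSucc (nat_lit 22153826),Int.negSucc (nat_lit 350923),Int.negSucc (nat_lit 37675646),Int.negSucc (nat_lit 19111160),Int.ofNat (nat_lit 8973902),Int.ofNat (nat_lit 56445472),Int.negSucc (nat_lit 42032657),Int.negSucc (nat_lit 40776652),Int.negSucc (nat_lit 29056518),Int.ofNat (nat_lit 9698070),Int.ofNat (nat_lit 12113910),Int.ofNat (nat_lit 144177053),Int.ofNat (nat_lit 16159863),Int.negSucc (nat_lit 70254055),Int.negSucc (nat_lit 78839030),Int.negSucc (nat_lit 57838932),Int.negSucc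 (nat_lit 35400134),Int.negSucc (nat_lit 26080783),Int.negSucc (nat_lit 19844335),Int.negSucc (nat_lit 66052812),Int.negSucc (nat_lit 148579194),Int.negSucc (nat_lit 53606180),Int.negSucc (nat_lit 26681962),Int.negSucc (nat_lit 5853260),Int.negSucc (nat_lit 46185818),Int.negSucc (nat_lit 59197860),Int.ofNat (nat_lit 43404313),Int.negSucc (nat_lit 33597443),Int.negSucc (nat_lit 62962945),Int.negSucc (nat_lit 39559075),Int.negSucc (nat_lit 14551380),Int.negSucc (nat_lit 20496010),Int.ofNat (nat_lit 43550002),Int.negSucc (nat_lit 11382967),Int.negSucc (nat_lit 9661483),Int.negSucc (nat_lit 29403109),Int.ofNat (nat_lit 12581379),Int.ofNat (nat_lit 32267169),Int.negSucc (nat_lit 16311353),Int.ofNat (nat_lit 31265027),Int.negSucc (nat_lit 2777879),Int.negSucc (nat_lit 1269721),Int.ofNat (nat_lit 7646208),Int.negSucc (nat_lit 7177362),Int.negSucc (nat_lit 3747474),Int.ofNat (nat_lit 2065561),Int.ofNat (nat_lit 439996),Int.negSucc (nat_lit 11960561),Int.negSucc (nat_lit 1331669),Int.ofNat (nat_lit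 9409397),Int.negSucc (nat_lit 9940918),Int.ofNat (nat_lit 139636),Int.negSucc (nat_lit 23949104),Int.ofNat (nat_lit 15437934),Int.ofNat (nat_lit 24617523),Int.negSucc (nat_lit 2832621),Int.negSucc (nat_lit 18308886),Int.ofNat (nat_lit 19499062),Int.negSucc (nat_lit 3802974),Int.negSucc (nat_lit 4560402),Int.ofNat (nat_lit 19213581),Int.negSucc (nat_lit 35543605),Int.ofNat (nat_lit 488826),Int.negSucc (nat_lit 24226000),Int.ofNat (nat_lit 58963176),Int.negSucc (nat_lit 24642065),Int.negSucc (nat_lit 11405285),Int.ofNat (nat_lit 11518946),Int.ofNat (nat_lit 2142756),Int.negSucc (nat_lit 8591550),Int.ofNat (nat_lit 10133514),Int.negSucc (nat_lit 1233222),Int.ofNat (nat_lit 19472798),Int.ofNat (nat_lit 381040),Int.ofNat (nat_lit 23630919),Int.ofNat (nat_lit 3172636),Int.ofNat (nat_lit 1999676),Int.negSucc (nat_lit 4124665),Int.negSucc (nat_lit 40266215),Int.ofNat (nat_lit 2826804),Int.negSucc (nat_lit 3284973),Int.negSucc (nat_lit 557686),Int.negSucc (nat_lit 9385134),Int.ofNat (nat_lit 24406573),Int.ofNat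 (nat_lit 3772351),Int.negSucc (nat_lit 10624294),Int.ofNat (nat_lit 10333952),Int.negSucc (nat_lit 17967156),Int.negSucc (nat_lit 11456412),Int.ofNat (nat_lit 3678111),Int.ofNat (nat_lit 5554879),Int.negSucc (nat_lit 873556),Int.negSucc (nat_lit 29270384),Int.negSucc (nat_lit 11403474),Int.negSucc (nat_lit 5918735),Int.ofNat (nat_lit 27483705),Int.ofNat (nat_lit 901765),Int.ofNat (nat_lit 14546579),Int.ofNat (nat_lit 10228575),Int.ofNat (nat_lit 8529521),Int.negSucc (nat_lit 18030865),Int.ofNat (nat_lit 32972371),Int.negSucc (nat_lit 17459470),Int.ofNat (nat_lit 20002240),Int.negSucc (nat_lit 10754898),Int.negSucc (nat_lit 6419444),Int.ofNat (nat_lit 5764011),Int.ofNat (nat_lit 271359),Int.ofNat (nat_lit 3416021),Int.negSucc (nat_lit 11613659),Int.ofNat (nat_lit 6229421),Int.negSucc (nat_lit 9961189),Int.negSucc (nat_lit 7628296),Int.negSucc (nat_lit 10046156),Int.ofNat (nat_lit 26195904),Int.ofNat (nat_lit 19898158),Int.negSucc (nat_lit 1785377),Int.ofNat (nat_lit 2440142),Int.ofNat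 (nat_lit 15072787),Int.ofNat (nat_lit 17962430),Int.negSucc (nat_lit 3065529),Int.ofNat (nat_lit 2375862),Int.negSucc (nat_lit 5995133),Int.negSucc (nat_lit 4967920),Int.ofNat (nat_lit 4941702),Int.negSucc (nat_lit 40694754),Int.ofNat (nat_lit 2846860),Int.ofNat (nat_lit 3090528),Int.ofNat (nat_lit 9778871),Int.negSucc (nat_lit 22568213),Int.ofNat (nat_lit 6188799),Int.ofNat (nat_lit 852212),Int.ofNat (nat_lit 5219071),Int.ofNat (nat_lit 7920000),Int.ofNat (nat_lit 8963509),Int.negSucc (nat_lit 55164326),Int.negSucc (nat_lit 12750353),Int.negSucc (nat_lit 106486173),Int.ofNat (nat_lit 223342215)])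

/-- A row. -/
noncomputable def sr6_c3_5 : List ℕ × List ℤ :=
  ([(nat_lit 0),(nat_lit 0),(nat_lit 1),(nat_lit 0),(nat_lit 0),(nat_lit 1),(nat_lit 0),(nat_lit 0),(nat_lit 0),(nat_lit 0),(nat_lit 0),(nat_lit 0)], [Int.negSucc (nat_lit 510688912),Int.ofNat (nat_lit 168941648),Int.negSucc (nat_lit 54947350),Int.negSucc (nat_lit 163709538),Int.negSucc (nat_lit 304193503),Int.negSucc (nat_lit 175887409),Int.negSucc (nat_lit 102157279),Int.ofNat (nat_lit 141727599),Int.negSucc (nat_lit 63433404),Int.negSucc (nat_lit 32090583),Int.negSucc (nat_lit 56527016),Int.negSucc (nat_lit 99072537),Int.ofNat (nat_lit 74310549),Int.ofNat (nat_lit 847128),Int.negSucc (nat_lit 75674679),Int.ofNat (nat_lit 24303743),Int.ofNat (nat_lit 110491245),Int.negSucc (nat_lit 6287001),Int.ofNat (nat_lit 124533703),Int.negSucc (nat_lit 30260615),Int.negSucc (nat_lit 103380936),Int.ofNat (nat_lit 44592640),Int.ofNat (nat_lit 5389831),Int.ofNat (nat_lit 59547217),Int.negSucc (nat_lit 34369288),Int.negSucc (nat_lit 153794427),Int.negSucc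 (nat_lit 102835428),Int.ofNat (nat_lit 32479450),Int.ofNat (nat_lit 7680316),Int.ofNat (nat_lit 25107496),Int.ofNat (nat_lit 31610358),Int.negSucc (nat_lit 82742930),Int.ofNat (nat_lit 15128408),Int.negSucc (nat_lit 14928106),Int.negSucc (nat_lit 154244766),Int.ofNat (nat_lit 66464431),Int.ofNat (nat_lit 33149160),Int.negSucc (nat_lit 64325558),Int.negSucc (nat_lit 2095023),Int.ofNat (nat_lit 36109923),Int.negSucc (nat_lit 70621145),Int.ofNat (nat_lit 87504825),Int.negSucc (nat_lit 4841489),Int.negSucc (nat_lit 41893109),Int.negSucc (nat_lit 60674016),Int.negSucc (nat_lit 12626200),Int.ofNat (nat_lit 7047819),Int.negSucc (nat_lit 15068608),Int.negSucc (nat_lit 19395858),Int.negSucc (nat_lit 38762242),Int.ofNat (nat_lit 42226631),Int.ofNat (nat_lit 19194997),Int.negSucc (nat_lit 52659600),Int.negSucc (nat_lit 72078721),Int.negSucc (nat_lit 64883548),Int.negSucc (nat_lit 93188887),Int.negSucc (nat_lit 78371150),Int.negSucc (nat_lit 77370399),Int.ofNat (nat_lit 45503311),Int.ofNat (nat_lit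 5655031),Int.ofNat (nat_lit 33286973),Int.ofNat (nat_lit 38023218),Int.ofNat (nat_lit 15989042),Int.ofNat (nat_lit 24054105),Int.ofNat (nat_lit 55192285),Int.negSucc (nat_lit 6310986),Int.negSucc (nat_lit 9112813),Int.ofNat (nat_lit 17699192),Int.ofNat (nat_lit 142153),Int.negSucc (nat_lit 36165331),Int.negSucc (nat_lit 15768448),Int.ofNat (nat_lit 24571987),Int.ofNat (nat_lit 36867957),Int.ofNat (nat_lit 46563705),Int.ofNat (nat_lit 1584102),Int.ofNat (nat_lit 12400072),Int.negSucc (nat_lit 46274517),Int.negSucc (nat_lit 3560725),Int.ofNat (nat_lit 7327415),Int.ofNat (nat_lit 34702516),Int.ofNat (nat_lit 16125070),Int.negSucc (nat_lit 6270288),Int.negSucc (nat_lit 2496330),Int.negSucc (nat_lit 31445854),Int.ofNat (nat_lit 17617606),Int.ofNat (nat_lit 10075180),Int.negSucc (nat_lit 1704664),Int.negSucc (nat_lit 3798119),Int.negSucc (nat_lit 3821233),Int.ofNat (nat_lit 8869092),Int.ofNat (nat_lit 3445700),Int.ofNat (nat_lit 12381997),Int.negSucc (nat_lit 7440229),Int.ofNat (nat_lit 3292515),Int.ofNat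 (nat_lit 5496685),Int.ofNat (nat_lit 2673252),Int.ofNat (nat_lit 21077943),Int.negSucc (nat_lit 9203994),Int.negSucc (nat_lit 21563588),Int.ofNat (nat_lit 12792899),Int.ofNat (nat_lit 18013555),Int.negSucc (nat_lit 7680799),Int.ofNat (nat_lit 8019690),Int.ofNat (nat_lit 1495621),Int.negSucc (nat_lit 6071845),Int.ofNat (nat_lit 24973216),Int.negSucc (nat_lit 12444945),Int.ofNat (nat_lit 17901153),Int.negSucc (nat_lit 34658057),Int.ofNat (nat_lit 5259276),Int.ofNat (nat_lit 14366031),Int.negSucc (nat_lit 781648),Int.ofNat (nat_lit 2476504),Int.negSucc (nat_lit 10796690),Int.negSucc (nat_lit 6255959),Int.negSucc (nat_lit 397164),Int.negSucc (nat_lit 14415992),Int.ofNat (nat_lit 3216834),Int.negSucc (nat_lit 8019095),Int.negSucc (nat_lit 2967356),Int.ofNat (nat_lit 4665519),Int.ofNat (nat_lit 1682399),Int.ofNat (nat_lit 37032260),Int.negSucc (nat_lit 16723664),Int.ofNat (nat_lit 2668064),Int.ofNat (nat_lit 7961414),Int.ofNat (nat_lit 1373218),Int.negSucc (nat_lit 17437233),Int.negSucc (nat_lit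 16375872),Int.negSucc (nat_lit 6664349),Int.negSucc (nat_lit 8601759),Int.negSucc (nat_lit 8343220),Int.negSucc (nat_lit 5290662),Int.negSucc (nat_lit 3508731),Int.negSucc (nat_lit 4812346),Int.negSucc (nat_lit 22770481),Int.ofNat (nat_lit 18344606),Int.ofNat (nat_lit 14812135),Int.negSucc (nat_lit 5007134),Int.negSucc (nat_lit 19544401),Int.negSucc (nat_lit 333364),Int.negSucc (nat_lit 2362563),Int.negSucc (nat_lit 8170062),Int.ofNat (nat_lit 1758090),Int.ofNat (nat_lit 10199352),Int.negSucc (nat_lit 15647002),Int.ofNat (nat_lit 2120872),Int.negSucc (nat_lit 6044481),Int.ofNat (nat_lit 21326479),Int.negSucc (nat_lit 5050586),Int.negSucc (nat_lit 1622579),Int.ofNat (nat_lit 6301732),Int.ofNat (nat_lit 6054851),Int.negSucc (nat_lit 5698273),Int.negSucc (nat_lit 9309993),Int.ofNat (nat_lit 8275978),Int.ofNat (nat_lit 1575926),Int.negSucc (nat_lit 15207001),Int.negSucc (nat_lit 26417131),Int.negSucc (nat_lit 3484385),Int.ofNat (nat_lit 7118738),Int.negSucc (nat_lit 8156789),Int.negSucc (nat_lit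 14607238),Int.negSucc (nat_lit 7246379),Int.ofNat (nat_lit 5223612),Int.negSucc (nat_lit 904392),Int.ofNat (nat_lit 16016338),Int.negSucc (nat_lit 268061),Int.negSucc (nat_lit 6225274),Int.ofNat (nat_lit 32951439),Int.negSucc (nat_lit 4381082),Int.ofNat (nat_lit 2496148),Int.negSucc (nat_lit 10511216),Int.ofNat (nat_lit 11443164),Int.negSucc (nat_lit 21899985),Int.ofNat (nat_lit 11022534),Int.negSucc (nat_lit 3427479),Int.ofNat (nat_lit 2287609),Int.negSucc (nat_lit 14089876),Int.ofNat (nat_lit 44461170),Int.ofNat (nat_lit 58802489),Int.ofNat (nat_lit 46556669),Int.negSucc (nat_lit 115848675),Int.ofNat (nat_lit 167136625)])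

/-- A row. -/
noncomputable def sr6_c3_6 : List ℕ × List ℤ :=
  ([(nat_lit 0),(nat_lit 0),(nat_lit 1),(nat_lit 1),(nat_lit 0),(nat_lit 0),(nat_lit 0),(nat_lit 0),(nat_lit 0),(nat_lit 0),(nat_lit 0),(nat_lit 0)], [Int.negSucc (nat_lit 375847303),Int.ofNat (nat_lit 697226584),Int.negSucc (nat_lit 1025298002),Int.negSucc (nat_lit 120688502),Int.ofNat (nat_lit 420511180),Int.ofNat (nat_lit 68184265),Int.negSucc (nat_lit 496530971),Int.negSucc (nat_lit 156145321),Int.negSucc (nat_lit 556213269),Int.negSucc (nat_lit 193313018),Int.ofNat (nat_lit 102429703),Int.ofNat (nat_lit 13300148),Int.negSucc (nat_lit 87313055),Int.negSucc (nat_lit 310008763),Int.ofNat (nat_lit 12971986),Int.negSucc (nat_lit 107262907),Int.negSucc (nat_lit 103299965),Int.ofNat (nat_lit 161534644),Int.negSucc (nat_lit 202294456),Int.ofNat (nat_lit 149141667),Int.ofNat (nat_lit 452844165),Int.negSucc (nat_lit 463186644),Int.ofNat (nat_lit 67660531),Int.negSucc (nat_lit 228766219),Int.ofNat (nat_lit 68259624),Int.ofNat (nat_lit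 183282009),Int.negSucc (nat_lit 37181042),Int.negSucc (nat_lit 189689017),Int.negSucc (nat_lit 134222037),Int.ofNat (nat_lit 27541660),Int.negSucc (nat_lit 102321436),Int.negSucc (nat_lit 111876986),Int.ofNat (nat_lit 1366850),Int.negSucc (nat_lit 97493564),Int.negSucc (nat_lit 52155402),Int.ofNat (nat_lit 219030291),Int.ofNat (nat_lit 146065062),Int.negSucc (nat_lit 6275052),Int.negSucc (nat_lit 70111425),Int.ofNat (nat_lit 12188726),Int.negSucc (nat_lit 231589150),Int.ofNat (nat_lit 142422890),Int.negSucc (nat_lit 117335708),Int.negSucc (nat_lit 246262792),Int.ofNat (nat_lit 203535973),Int.ofNat (nat_lit 198119534),Int.ofNat (nat_lit 172127724),Int.ofNat (nat_lit 96225395),Int.ofNat (nat_lit 144637475),Int.negSucc (nat_lit 13987812),Int.negSucc (nat_lit 22017463),Int.ofNat (nat_lit 2315277),Int.ofNat (nat_lit 98633332),Int.ofNat (nat_lit 109082653),Int.ofNat (nat_lit 85233934),Int.negSucc (nat_lit 129404705),Int.ofNat (nat_lit 132861326),Int.ofNat (nat_lit 388161644),Int.ofNat (nat_lit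 24566763),Int.ofNat (nat_lit 186816174),Int.negSucc (nat_lit 20375380),Int.negSucc (nat_lit 10882022),Int.negSucc (nat_lit 49669736),Int.ofNat (nat_lit 23786008),Int.negSucc (nat_lit 31173885),Int.negSucc (nat_lit 93447705),Int.ofNat (nat_lit 235982095),Int.negSucc (nat_lit 49810379),Int.ofNat (nat_lit 222297180),Int.ofNat (nat_lit 251742415),Int.negSucc (nat_lit 96814199),Int.ofNat (nat_lit 48789067),Int.negSucc (nat_lit 59958487),Int.negSucc (nat_lit 60857716),Int.ofNat (nat_lit 125203091),Int.ofNat (nat_lit 49808910),Int.negSucc (nat_lit 14361368),Int.negSucc (nat_lit 58654267),Int.negSucc (nat_lit 84368935),Int.ofNat (nat_lit 74753311),Int.negSucc (nat_lit 197788229),Int.negSucc (nat_lit 54420244),Int.ofNat (nat_lit 845646),Int.negSucc (nat_lit 4547266),Int.negSucc (nat_lit 35165035),Int.negSucc (nat_lit 34267023),Int.ofNat (nat_lit 31491273),Int.negSucc (nat_lit 20757388),Int.negSucc (nat_lit 21808239),Int.ofNat (nat_lit 621611),Int.negSucc (nat_lit 8233193),Int.ofNat (nat_lit 75817776),Int.ofNat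 (nat_lit 51397945),Int.negSucc (nat_lit 22382539),Int.ofNat (nat_lit 32174327),Int.negSucc (nat_lit 15044023),Int.ofNat (nat_lit 40081273),Int.negSucc (nat_lit 35791577),Int.ofNat (nat_lit 19178107),Int.negSucc (nat_lit 11883757),Int.ofNat (nat_lit 1656816),Int.negSucc (nat_lit 2271169),Int.negSucc (nat_lit 17614469),Int.ofNat (nat_lit 1027946),Int.ofNat (nat_lit 49845395),Int.ofNat (nat_lit 43027871),Int.ofNat (nat_lit 19174708),Int.negSucc (nat_lit 26196124),Int.negSucc (nat_lit 56847488),Int.ofNat (nat_lit 32528655),Int.ofNat (nat_lit 65072134),Int.ofNat (nat_lit 32888466),Int.negSucc (nat_lit 53079757),Int.negSucc (nat_lit 22835381),Int.negSucc (nat_lit 25281645),Int.ofNat (nat_lit 27523326),Int.ofNat (nat_lit 21776157),Int.negSucc (nat_lit 375054),Int.negSucc (nat_lit 29666512),Int.negSucc (nat_lit 6637439),Int.ofNat (nat_lit 43961287),Int.negSucc (nat_lit 5945742),Int.ofNat (nat_lit 86900494),Int.negSucc (nat_lit 1998715),Int.negSucc (nat_lit 87558330),Int.negSucc (nat_lit 7968962),Int.ofNat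 (nat_lit 22057831),Int.negSucc (nat_lit 6018383),Int.ofNat (nat_lit 15019586),Int.ofNat (nat_lit 74025371),Int.negSucc (nat_lit 32738092),Int.ofNat (nat_lit 64326980),Int.negSucc (nat_lit 39100859),Int.ofNat (nat_lit 17709741),Int.negSucc (nat_lit 62292961),Int.ofNat (nat_lit 19401523),Int.ofNat (nat_lit 28262850),Int.negSucc (nat_lit 11770414),Int.ofNat (nat_lit 29893739),Int.negSucc (nat_lit 50998056),Int.negSucc (nat_lit 36913272),Int.negSucc (nat_lit 63084229),Int.negSucc (nat_lit 72503263),Int.negSucc (nat_lit 32790326),Int.ofNat (nat_lit 13143372),Int.negSucc (nat_lit 49307746),Int.negSucc (nat_lit 9977341),Int.negSucc (nat_lit 47447963),Int.negSucc (nat_lit 17161668),Int.ofNat (nat_lit 15484920),Int.negSucc (nat_lit 12422378),Int.negSucc (nat_lit 13737685),Int.ofNat (nat_lit 29176839),Int.ofNat (nat_lit 3010778),Int.negSucc (nat_lit 9809555),Int.ofNat (nat_lit 28741902),Int.negSucc (nat_lit 62954),Int.ofNat (nat_lit 59946555),Int.negSucc (nat_lit 35746362),Int.ofNat (nat_lit 31245465),Int.negSucc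 (nat_lit 3690963),Int.ofNat (nat_lit 25037028),Int.negSucc (nat_lit 42757437),Int.ofNat (nat_lit 6664187),Int.ofNat (nat_lit 18110183),Int.negSucc (nat_lit 13661),Int.negSucc (nat_lit 16788304),Int.ofNat (nat_lit 15790278),Int.negSucc (nat_lit 30537525),Int.ofNat (nat_lit 45741450),Int.negSucc (nat_lit 9179866),Int.ofNat (nat_lit 18894680),Int.ofNat (nat_lit 15888549),Int.negSucc (nat_lit 17441590),Int.ofNat (nat_lit 24931331),Int.negSucc (nat_lit 35431022),Int.negSucc (nat_lit 14061233),Int.negSucc (nat_lit 6670117),Int.ofNat (nat_lit 223807602),Int.ofNat (nat_lit 34768431),Int.negSucc (nat_lit 9696123),Int.ofNat (nat_lit 476768652),Int.negSucc (nat_lit 71399563),Int.negSucc (nat_lit 48346029),Int.ofNat (nat_lit 282021365)])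

/-- A row. -/
noncomputable def sr6_c3_7 : List ℕ × List ℤ :=
  ([(nat_lit 0),(nat_lit 1),(nat_lit 0),(nat_lit 0),(nat_lit 0),(nat_lit 0),(nat_lit 0),(nat_lit 0),(nat_lit 0),(nat_lit 0),(nat_lit 0),(nat_lit 0)], [Int.negSucc (nat_lit 405195692),Int.negSucc (nat_lit 379765439),Int.ofNat (nat_lit 455056688),Int.negSucc (nat_lit 265678766),Int.negSucc (nat_lit 688874024),Int.negSucc (nat_lit 125422431),Int.ofNat (nat_lit 184596309),Int.ofNat (nat_lit 222723506),Int.negSucc (nat_lit 261005111),Int.ofNat (nat_lit 296489296),Int.negSucc (nat_lit 315391733),Int.negSucc (nat_lit 712512042),Int.ofNat (nat_lit 286194146),Int.ofNat (nat_lit 80614438),Int.negSucc (nat_lit 173444728),Int.ofNat (nat_lit 177140127),Int.ofNat (nat_lit 484141971),Int.ofNat (nat_lit 153546082),Int.negSucc (nat_lit 293630564),Int.negSucc (nat_lit 653658),Int.negSucc (nat_lit 641503335),Int.ofNat (nat_lit 571783646),Int.negSucc (nat_lit 181120534),Int.ofNat (nat_lit 815414305),Int.ofNat (nat_lit 32427542),Int.negSucc (nat_lit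 14927961),Int.ofNat (nat_lit 129716839),Int.negSucc (nat_lit 242799519),Int.ofNat (nat_lit 183975834),Int.ofNat (nat_lit 146075549),Int.ofNat (nat_lit 119854709),Int.ofNat (nat_lit 81410307),Int.negSucc (nat_lit 114058385),Int.ofNat (nat_lit 21591760),Int.negSucc (nat_lit 49569644),Int.negSucc (nat_lit 62863424),Int.negSucc (nat_lit 12955976),Int.negSucc (nat_lit 123539396),Int.ofNat (nat_lit 13938273),Int.ofNat (nat_lit 102291292),Int.ofNat (nat_lit 162138315),Int.negSucc (nat_lit 34127912),Int.ofNat (nat_lit 111559814),Int.ofNat (nat_lit 373267291),Int.negSucc (nat_lit 133305101),Int.negSucc (nat_lit 210030524),Int.ofNat (nat_lit 197945597),Int.ofNat (nat_lit 77776827),Int.negSucc (nat_lit 171233948),Int.negSucc (nat_lit 97506433),Int.negSucc (nat_lit 84735534),Int.ofNat (nat_lit 96794963),Int.negSucc (nat_lit 152250015),Int.negSucc (nat_lit 39083239),Int.negSucc (nat_lit 262008054),Int.negSucc (nat_lit 3508783),Int.negSucc (nat_lit 10578769),Int.negSucc (nat_lit 90487500),Int.negSucc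 (nat_lit 79461171),Int.negSucc (nat_lit 139241176),Int.ofNat (nat_lit 89148728),Int.ofNat (nat_lit 57382316),Int.negSucc (nat_lit 82646159),Int.negSucc (nat_lit 41812068),Int.ofNat (nat_lit 57532253),Int.ofNat (nat_lit 152623549),Int.ofNat (nat_lit 23647465),Int.negSucc (nat_lit 68291178),Int.negSucc (nat_lit 202174515),Int.negSucc (nat_lit 53022185),Int.ofNat (nat_lit 48192002),Int.ofNat (nat_lit 122073317),Int.negSucc (nat_lit 6293246),Int.ofNat (nat_lit 280801139),Int.negSucc (nat_lit 117542325),Int.negSucc (nat_lit 103561173),Int.negSucc (nat_lit 197985972),Int.negSucc (nat_lit 15156646),Int.ofNat (nat_lit 138934041),Int.negSucc (nat_lit 141418660),Int.ofNat (nat_lit 61301672),Int.negSucc (nat_lit 2887550),Int.ofNat (nat_lit 55435118),Int.ofNat (nat_lit 12178395),Int.negSucc (nat_lit 8660277),Int.ofNat (nat_lit 1301992),Int.negSucc (nat_lit 411332961),Int.ofNat (nat_lit 47753522),Int.ofNat (nat_lit 129678351),Int.negSucc (nat_lit 572293647),Int.ofNat (nat_lit 115053),Int.negSucc (nat_lit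 63400400),Int.ofNat (nat_lit 272425753),Int.ofNat (nat_lit 133069431),Int.negSucc (nat_lit 88362805),Int.negSucc (nat_lit 34259195),Int.negSucc (nat_lit 18331304),Int.ofNat (nat_lit 87602224),Int.negSucc (nat_lit 25320450),Int.negSucc (nat_lit 341657688),Int.negSucc (nat_lit 129563572),Int.ofNat (nat_lit 32160123),Int.negSucc (nat_lit 32155922),Int.negSucc (nat_lit 26049891),Int.negSucc (nat_lit 15924768),Int.negSucc (nat_lit 57814449),Int.ofNat (nat_lit 50872682),Int.ofNat (nat_lit 1059605),Int.ofNat (nat_lit 30501118),Int.negSucc (nat_lit 2975584),Int.negSucc (nat_lit 28714528),Int.negSucc (nat_lit 18401982),Int.ofNat (nat_lit 109894620),Int.ofNat (nat_lit 57450608),Int.ofNat (nat_lit 74672485),Int.negSucc (nat_lit 40217304),Int.ofNat (nat_lit 36577613),Int.negSucc (nat_lit 7988663),Int.ofNat (nat_lit 15355773),Int.ofNat (nat_lit 5196520),Int.negSucc (nat_lit 33154610),Int.ofNat (nat_lit 26180627),Int.negSucc (nat_lit 51060699),Int.negSucc (nat_lit 20381540),Int.ofNat (nat_lit 32396149),Int.negSucc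 (nat_lit 15671231),Int.negSucc (nat_lit 143854919),Int.ofNat (nat_lit 59769964),Int.negSucc (nat_lit 24357041),Int.negSucc (nat_lit 94286877),Int.ofNat (nat_lit 8706461),Int.ofNat (nat_lit 27960943),Int.ofNat (nat_lit 3068498),Int.ofNat (nat_lit 25663969),Int.ofNat (nat_lit 51244144),Int.ofNat (nat_lit 47206973),Int.ofNat (nat_lit 24280141),Int.negSucc (nat_lit 24533341),Int.negSucc (nat_lit 26949154),Int.ofNat (nat_lit 116386095),Int.ofNat (nat_lit 41279294),Int.negSucc (nat_lit 67624683),Int.negSucc (nat_lit 37089189),Int.ofNat (nat_lit 77723251),Int.negSucc (nat_lit 57586011),Int.negSucc (nat_lit 49419967),Int.ofNat (nat_lit 11002508),Int.negSucc (nat_lit 117065026),Int.negSucc (nat_lit 15345095),Int.negSucc (nat_lit 71513134),Int.ofNat (nat_lit 130889855),Int.ofNat (nat_lit 22082183),Int.negSucc (nat_lit 34188202),Int.negSucc (nat_lit 27110010),Int.ofNat (nat_lit 92948667),Int.negSucc (nat_lit 2375804),Int.negSucc (nat_lit 63066952),Int.negSucc (nat_lit 91360770),Int.negSucc (nat_lit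 5829823),Int.negSucc (nat_lit 4118901),Int.ofNat (nat_lit 19579420),Int.negSucc (nat_lit 27944601),Int.negSucc (nat_lit 14249897),Int.ofNat (nat_lit 47106872),Int.negSucc (nat_lit 17152316),Int.ofNat (nat_lit 42532932),Int.ofNat (nat_lit 66974775),Int.ofNat (nat_lit 39509005),Int.ofNat (nat_lit 5746266),Int.ofNat (nat_lit 1969232),Int.ofNat (nat_lit 33541096),Int.ofNat (nat_lit 24846537),Int.negSucc (nat_lit 64205898),Int.negSucc (nat_lit 26269764),Int.negSucc (nat_lit 27183570),Int.ofNat (nat_lit 26498583),Int.ofNat (nat_lit 45209664),Int.ofNat (nat_lit 30006226),Int.negSucc (nat_lit 96658665),Int.ofNat (nat_lit 21332905),Int.ofNat (nat_lit 196165298),Int.negSucc (nat_lit 145995102),Int.negSucc (nat_lit 116786388),Int.negSucc (nat_lit 170774551),Int.ofNat (nat_lit 31952147),Int.ofNat (nat_lit 1124003285)])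

/-- A row. -/
noncomputable def sr6_c3_8 : List ℕ × List ℤ :=
  ([(nat_lit 0),(nat_lit 1),(nat_lit 0),(nat_lit 0),(nat_lit 0),(nat_lit 0),(nat_lit 1),(nat_lit 0),(nat_lit 0),(nat_lit 0),(nat_lit 0),(nat_lit 0)], [Int.negSucc (nat_lit 84776529),Int.negSucc (nat_lit 232031491),Int.negSucc (nat_lit 148230987),Int.negSucc (nat_lit 101430321),Int.ofNat (nat_lit 84395040),Int.negSucc (nat_lit 304052383),Int.ofNat (nat_lit 20379475),Int.ofNat (nat_lit 62909568),Int.negSucc (nat_lit 47541828),Int.negSucc (nat_lit 96004775),Int.negSucc (nat_lit 39706295),Int.negSucc (nat_lit 28632429),Int.negSucc (nat_lit 128480792),Int.negSucc (nat_lit 66104484),Int.negSucc (nat_lit 69698937),Int.negSucc (nat_lit 40051833),Int.negSucc (nat_lit 11033297),Int.ofNat (nat_lit 3944619),Int.negSucc (nat_lit 32248120),Int.negSucc (nat_lit 50379938),Int.ofNat (nat_lit 128879149),Int.negSucc (nat_lit 79010372),Int.ofNat (nat_lit 1364023),Int.ofNat (nat_lit 4137053),Int.ofNat (nat_lit 19599200),Int.negSucc (nat_lit 68949657),Int.negSucc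 (nat_lit 24396636),Int.negSucc (nat_lit 6735242),Int.negSucc (nat_lit 48061278),Int.ofNat (nat_lit 54429041),Int.negSucc (nat_lit 50457562),Int.negSucc (nat_lit 61021508),Int.negSucc (nat_lit 15869167),Int.negSucc (nat_lit 37962730),Int.ofNat (nat_lit 59071271),Int.ofNat (nat_lit 43384146),Int.ofNat (nat_lit 25665256),Int.ofNat (nat_lit 19108271),Int.negSucc (nat_lit 42258470),Int.ofNat (nat_lit 44486191),Int.ofNat (nat_lit 298694),Int.negSucc (nat_lit 6311022),Int.negSucc (nat_lit 4763473),Int.negSucc (nat_lit 30123486),Int.ofNat (nat_lit 72957661),Int.negSucc (nat_lit 14394717),Int.ofNat (nat_lit 10147591),Int.negSucc (nat_lit 5422794),Int.ofNat (nat_lit 34935243),Int.ofNat (nat_lit 27312748),Int.ofNat (nat_lit 37076974),Int.negSucc (nat_lit 413196),Int.ofNat (nat_lit 36072616),Int.ofNat (nat_lit 46321133),Int.negSucc (nat_lit 46607996),Int.negSucc (nat_lit 30277363),Int.negSucc (nat_lit 29415412),Int.negSucc (nat_lit 18596435),Int.ofNat (nat_lit 52205016),Int.ofNat (nat_lit 19734060),Int.ofNat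 (nat_lit 29228224),Int.ofNat (nat_lit 24286508),Int.negSucc (nat_lit 40229966),Int.ofNat (nat_lit 32634572),Int.negSucc (nat_lit 1085196),Int.negSucc (nat_lit 21775607),Int.ofNat (nat_lit 24839908),Int.ofNat (nat_lit 5039391),Int.ofNat (nat_lit 3993420),Int.negSucc (nat_lit 12896545),Int.negSucc (nat_lit 11141710),Int.ofNat (nat_lit 36802651),Int.negSucc (nat_lit 52067781),Int.ofNat (nat_lit 10664901),Int.negSucc (nat_lit 20873060),Int.ofNat (nat_lit 5377411),Int.negSucc (nat_lit 9502974),Int.negSucc (nat_lit 11870248),Int.negSucc (nat_lit 13580735),Int.ofNat (nat_lit 3044435),Int.negSucc (nat_lit 11440618),Int.negSucc (nat_lit 17309968),Int.negSucc (nat_lit 9370919),Int.negSucc (nat_lit 3598770),Int.ofNat (nat_lit 14185991),Int.ofNat (nat_lit 10573535),Int.negSucc (nat_lit 15590842),Int.negSucc (nat_lit 27400368),Int.ofNat (nat_lit 1882991),Int.ofNat (nat_lit 25363415),Int.ofNat (nat_lit 35868167),Int.ofNat (nat_lit 13939259),Int.ofNat (nat_lit 14977505),Int.ofNat (nat_lit 41716051),Int.ofNat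 (nat_lit 14262431),Int.negSucc (nat_lit 9843887),Int.ofNat (nat_lit 14075063),Int.negSucc (nat_lit 3030685),Int.negSucc (nat_lit 2128231),Int.negSucc (nat_lit 4969567),Int.ofNat (nat_lit 36842108),Int.negSucc (nat_lit 1380776),Int.negSucc (nat_lit 6446941),Int.ofNat (nat_lit 505839),Int.ofNat (nat_lit 1826886),Int.ofNat (nat_lit 9709026),Int.negSucc (nat_lit 17013362),Int.negSucc (nat_lit 15385043),Int.negSucc (nat_lit 18209215),Int.ofNat (nat_lit 9079022),Int.negSucc (nat_lit 5136972),Int.ofNat (nat_lit 12705426),Int.ofNat (nat_lit 75488321),Int.ofNat (nat_lit 24171297),Int.ofNat (nat_lit 15893107),Int.negSucc (nat_lit 3168983),Int.ofNat (nat_lit 9117853),Int.negSucc (nat_lit 8934601),Int.ofNat (nat_lit 34093767),Int.negSucc (nat_lit 5983804),Int.ofNat (nat_lit 13753599),Int.ofNat (nat_lit 496402),Int.ofNat (nat_lit 36208241),Int.ofNat (nat_lit 1445834),Int.ofNat (nat_lit 1918142),Int.ofNat (nat_lit 7868757),Int.negSucc (nat_lit 2617624),Int.ofNat (nat_lit 7256166),Int.negSucc (nat_lit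 6350710),Int.ofNat (nat_lit 21572624),Int.ofNat (nat_lit 6101834),Int.ofNat (nat_lit 24058268),Int.ofNat (nat_lit 7330506),Int.negSucc (nat_lit 16108587),Int.ofNat (nat_lit 8855882),Int.negSucc (nat_lit 12572400),Int.ofNat (nat_lit 10111976),Int.ofNat (nat_lit 12603333),Int.negSucc (nat_lit 3751946),Int.ofNat (nat_lit 13878901),Int.ofNat (nat_lit 19069972),Int.ofNat (nat_lit 19272638),Int.negSucc (nat_lit 18544556),Int.ofNat (nat_lit 15781946),Int.negSucc (nat_lit 639280),Int.negSucc (nat_lit 9370157),Int.negSucc (nat_lit 130464),Int.negSucc (nat_lit 14796590),Int.ofNat (nat_lit 24735402),Int.negSucc (nat_lit 28062938),Int.ofNat (nat_lit 7193444),Int.ofNat (nat_lit 7622033),Int.ofNat (nat_lit 7007085),Int.negSucc (nat_lit 17330347),Int.negSucc (nat_lit 1214136),Int.ofNat (nat_lit 10320455),Int.ofNat (nat_lit 1544631),Int.ofNat (nat_lit 30089),Int.negSucc (nat_lit 37400202),Int.negSucc (nat_lit 5503718),Int.ofNat (nat_lit 24884465),Int.ofNat (nat_lit 17431247),Int.negSucc (nat_lit 1529057),Int.ofNat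 (nat_lit 18261720),Int.ofNat (nat_lit 1106529),Int.negSucc (nat_lit 15961989),Int.ofNat (nat_lit 25139055),Int.negSucc (nat_lit 11223406),Int.negSucc (nat_lit 2829271),Int.ofNat (nat_lit 34991258),Int.ofNat (nat_lit 17306365),Int.ofNat (nat_lit 25121557),Int.negSucc (nat_lit 19688714),Int.ofNat (nat_lit 5234879),Int.negSucc (nat_lit 13529072),Int.negSucc (nat_lit 1755519),Int.ofNat (nat_lit 1949549),Int.ofNat (nat_lit 4820011),Int.ofNat (nat_lit 91178758),Int.ofNat (nat_lit 16480695),Int.negSucc (nat_lit 3891203),Int.ofNat (nat_lit 42415076),Int.negSucc (nat_lit 10601890),Int.ofNat (nat_lit 39403618),Int.ofNat (nat_lit 27879632),Int.ofNat (nat_lit 54224309),Int.ofNat (nat_lit 246858894)])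

/-- A row. -/
noncomputable def sr6_c3_9 : List ℕ × List ℤ :=
  ([(nat_lit 0),(nat_lit 1),(nat_lit 0),(nat_lit 0),(nat_lit 1),(nat_lit 0),(nat_lit 0),(nat_lit 0),(nat_lit 0),(nat_lit 0),(nat_lit 0),(nat_lit 0)], [Int.ofNat (nat_lit 1301632725),Int.ofNat (nat_lit 47360861),Int.negSucc (nat_lit 668094123),Int.negSucc (nat_lit 381455956),Int.ofNat (nat_lit 1546610198),Int.ofNat (nat_lit 596565189),Int.ofNat (nat_lit 50435781),Int.negSucc (nat_lit 80703555),Int.negSucc (nat_lit 446600377),Int.negSucc (nat_lit 743580506),Int.ofNat (nat_lit 19638946),Int.ofNat (nat_lit 53194605),Int.negSucc (nat_lit 437310489),Int.ofNat (nat_lit 126741585),Int.ofNat (nat_lit 8600405),Int.negSucc (nat_lit 53236145),Int.negSucc (nat_lit 318767096),Int.negSucc (nat_lit 458231860),Int.negSucc (nat_lit 240802047),Int.ofNat (nat_lit 429292735),Int.ofNat (nat_lit 149900240),Int.negSucc (nat_lit 282395119),Int.negSucc (nat_lit 47444042),Int.negSucc (nat_lit 20194561),Int.ofNat (nat_lit 168702391),Int.ofNat (nat_lit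 868843616),Int.negSucc (nat_lit 53170681),Int.ofNat (nat_lit 62438153),Int.ofNat (nat_lit 212960974),Int.negSucc (nat_lit 193306968),Int.ofNat (nat_lit 129733683),Int.ofNat (nat_lit 290644201),Int.negSucc (nat_lit 4774673),Int.ofNat (nat_lit 155910235),Int.ofNat (nat_lit 72889005),Int.negSucc (nat_lit 203920253),Int.ofNat (nat_lit 212814278),Int.ofNat (nat_lit 223660780),Int.negSucc (nat_lit 436552987),Int.negSucc (nat_lit 178479833),Int.ofNat (nat_lit 73703804),Int.negSucc (nat_lit 55986748),Int.ofNat (nat_lit 28458008),Int.negSucc (nat_lit 501914911),Int.ofNat (nat_lit 132901662),Int.negSucc (nat_lit 44433076),Int.negSucc (nat_lit 83226449),Int.negSucc (nat_lit 39681534),Int.ofNat (nat_lit 178645690),Int.ofNat (nat_lit 4395101),Int.negSucc (nat_lit 49110716),Int.ofNat (nat_lit 26239344),Int.ofNat (nat_lit 77006779),Int.ofNat (nat_lit 36163738),Int.ofNat (nat_lit 169126370),Int.ofNat (nat_lit 32308490),Int.ofNat (nat_lit 139815083),Int.ofNat (nat_lit 195803033),Int.ofNat (nat_lit 25835351),Int.ofNat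 (nat_lit 187813677),Int.negSucc (nat_lit 46835908),Int.ofNat (nat_lit 41095996),Int.ofNat (nat_lit 263088047),Int.ofNat (nat_lit 113382615),Int.ofNat (nat_lit 172366968),Int.ofNat (nat_lit 241782073),Int.ofNat (nat_lit 25139863),Int.negSucc (nat_lit 12525013),Int.ofNat (nat_lit 77123811),Int.ofNat (nat_lit 117662822),Int.negSucc (nat_lit 39187174),Int.ofNat (nat_lit 94836519),Int.ofNat (nat_lit 169005018),Int.negSucc (nat_lit 109807503),Int.negSucc (nat_lit 66383494),Int.ofNat (nat_lit 52668600),Int.negSucc (nat_lit 107723434),Int.ofNat (nat_lit 80863071),Int.ofNat (nat_lit 52808270),Int.ofNat (nat_lit 9116767),Int.ofNat (nat_lit 44739671),Int.ofNat (nat_lit 42229481),Int.negSucc (nat_lit 27387153),Int.ofNat (nat_lit 43350067),Int.negSucc (nat_lit 41916991),Int.negSucc (nat_lit 39561420),Int.ofNat (nat_lit 110429693),Int.ofNat (nat_lit 27949873),Int.negSucc (nat_lit 131318575),Int.negSucc (nat_lit 223085095),Int.negSucc (nat_lit 30437865),Int.negSucc (nat_lit 74597574),Int.negSucc (nat_lit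 1194399),Int.negSucc (nat_lit 15795726),Int.ofNat (nat_lit 15590768),Int.ofNat (nat_lit 63303176),Int.negSucc (nat_lit 47313460),Int.ofNat (nat_lit 68470238),Int.negSucc (nat_lit 79886346),Int.negSucc (nat_lit 3346974),Int.negSucc (nat_lit 84038288),Int.negSucc (nat_lit 13823623),Int.ofNat (nat_lit 32729203),Int.negSucc (nat_lit 53952632),Int.negSucc (nat_lit 70600536),Int.negSucc (nat_lit 7332445),Int.ofNat (nat_lit 11952978),Int.ofNat (nat_lit 28331567),Int.negSucc (nat_lit 132047613),Int.ofNat (nat_lit 11338919),Int.negSucc (nat_lit 71813084),Int.negSucc (nat_lit 65571563),Int.negSucc (nat_lit 82576075),Int.negSucc (nat_lit 85910800),Int.negSucc (nat_lit 81971794),Int.negSucc (nat_lit 38296786),Int.negSucc (nat_lit 139214685),Int.ofNat (nat_lit 41840963),Int.negSucc (nat_lit 79208563),Int.ofNat (nat_lit 16398653),Int.negSucc (nat_lit 57023814),Int.ofNat (nat_lit 15452383),Int.negSucc (nat_lit 95742118),Int.ofNat (nat_lit 74558463),Int.ofNat (nat_lit 65832475),Int.ofNat (nat_lit 19907887),Int.negSucc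 (nat_lit 79947309),Int.negSucc (nat_lit 101569646),Int.negSucc (nat_lit 26398974),Int.negSucc (nat_lit 64144407),Int.negSucc (nat_lit 104205678),Int.negSucc (nat_lit 84561644),Int.ofNat (nat_lit 18297345),Int.negSucc (nat_lit 77400519),Int.ofNat (nat_lit 68012357),Int.negSucc (nat_lit 71635510),Int.negSucc (nat_lit 41449364),Int.ofNat (nat_lit 43524843),Int.negSucc (nat_lit 50324172),Int.negSucc (nat_lit 79021573),Int.ofNat (nat_lit 11355438),Int.negSucc (nat_lit 2249532),Int.ofNat (nat_lit 108868032),Int.negSucc (nat_lit 91365753),Int.ofNat (nat_lit 30134292),Int.negSucc (nat_lit 13120909),Int.negSucc (nat_lit 23701884),Int.negSucc (nat_lit 15816276),Int.ofNat (nat_lit 32114966),Int.ofNat (nat_lit 74245442),Int.negSucc (nat_lit 8815165),Int.negSucc (nat_lit 6811919),Int.ofNat (nat_lit 2250668),Int.ofNat (nat_lit 98523838),Int.ofNat (nat_lit 14272606),Int.negSucc (nat_lit 44100901),Int.negSucc (nat_lit 11748935),Int.ofNat (nat_lit 9783669),Int.ofNat (nat_lit 27683130),Int.negSucc (nat_lit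 210056313),Int.negSucc (nat_lit 41773648),Int.negSucc (nat_lit 46080159),Int.ofNat (nat_lit 62010992),Int.negSucc (nat_lit 15310214),Int.negSucc (nat_lit 24047434),Int.ofNat (nat_lit 31745617),Int.negSucc (nat_lit 80114398),Int.negSucc (nat_lit 1223806),Int.ofNat (nat_lit 24819746),Int.negSucc (nat_lit 16818311),Int.ofNat (nat_lit 38581692),Int.negSucc (nat_lit 100015442),Int.ofNat (nat_lit 8597865),Int.ofNat (nat_lit 66186679),Int.ofNat (nat_lit 40197693),Int.ofNat (nat_lit 4621039),Int.negSucc (nat_lit 25362051),Int.negSucc (nat_lit 6842163),Int.negSucc (nat_lit 261017912),Int.negSucc (nat_lit 22991030),Int.ofNat (nat_lit 194865732),Int.negSucc (nat_lit 208309612),Int.negSucc (nat_lit 53127177),Int.negSucc (nat_lit 50812990),Int.ofNat (nat_lit 27020751),Int.negSucc (nat_lit 476277437),Int.negSucc (nat_lit 411837343),Int.ofNat (nat_lit 697530921)])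

/-- A row. -/
noncomputable def sr6_c3_10 : List ℕ × List ℤ :=
  ([(nat_lit 0),(nat_lit 1),(nat_lit 0),(nat_lit 2),(nat_lit 0),(nat_lit 0),(nat_lit 0),(nat_lit 0),(nat_lit 0),(nat_lit 0),(nat_lit 0),(nat_lit 0)], [Int.ofNat (nat_lit 173211166),Int.negSucc (nat_lit 780115422),Int.ofNat (nat_lit 151981413),Int.negSucc (nat_lit 224838534),Int.ofNat (nat_lit 138335440),Int.ofNat (nat_lit 615811036),Int.negSucc (nat_lit 5866560),Int.negSucc (nat_lit 491992123),Int.ofNat (nat_lit 147830993),Int.ofNat (nat_lit 8088498),Int.negSucc (nat_lit 77886130),Int.ofNat (nat_lit 124799849),Int.negSucc (nat_lit 23773569),Int.ofNat (nat_lit 101266259),Int.ofNat (nat_lit 232845050),Int.negSucc (nat_lit 65158435),Int.negSucc (nat_lit 154355754),Int.ofNat (nat_lit 15631906),Int.negSucc (nat_lit 60331331),Int.negSucc (nat_lit 147470178),Int.ofNat (nat_lit 174328883),Int.ofNat (nat_lit 79846260),Int.ofNat (nat_lit 33998550),Int.ofNat (nat_lit 62655980),Int.negSucc (nat_lit 18443123),Int.ofNat (nat_lit 304781299),Int.ofNat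 (nat_lit 346241842),Int.ofNat (nat_lit 7437230),Int.ofNat (nat_lit 162294136),Int.negSucc (nat_lit 267920037),Int.ofNat (nat_lit 4031620),Int.ofNat (nat_lit 241517874),Int.negSucc (nat_lit 35657952),Int.ofNat (nat_lit 131297602),Int.ofNat (nat_lit 58159429),Int.negSucc (nat_lit 5227605),Int.negSucc (nat_lit 186951553),Int.ofNat (nat_lit 44216691),Int.negSucc (nat_lit 23013018),Int.ofNat (nat_lit 43233379),Int.ofNat (nat_lit 58830814),Int.negSucc (nat_lit 192727839),Int.ofNat (nat_lit 2156868),Int.negSucc (nat_lit 145598017),Int.ofNat (nat_lit 111371357),Int.negSucc (nat_lit 140514653),Int.negSucc (nat_lit 266277210),Int.negSucc (nat_lit 26997888),Int.ofNat (nat_lit 37636854),Int.negSucc (nat_lit 46610862),Int.ofNat (nat_lit 11507409),Int.ofNat (nat_lit 54736084),Int.ofNat (nat_lit 87189018),Int.negSucc (nat_lit 72800355),Int.ofNat (nat_lit 56203026),Int.ofNat (nat_lit 155980159),Int.ofNat (nat_lit 2429159),Int.ofNat (nat_lit 69643075),Int.ofNat (nat_lit 201613975),Int.negSucc (nat_lit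 54186710),Int.negSucc (nat_lit 68437485),Int.ofNat (nat_lit 46202754),Int.ofNat (nat_lit 160302947),Int.ofNat (nat_lit 81666532),Int.negSucc (nat_lit 8180879),Int.negSucc (nat_lit 22220352),Int.negSucc (nat_lit 239477746),Int.negSucc (nat_lit 24975136),Int.ofNat (nat_lit 11248337),Int.negSucc (nat_lit 45297388),Int.ofNat (nat_lit 74792272),Int.negSucc (nat_lit 59665075),Int.ofNat (nat_lit 83642905),Int.ofNat (nat_lit 19311433),Int.ofNat (nat_lit 88089349),Int.ofNat (nat_lit 56897513),Int.ofNat (nat_lit 19320053),Int.ofNat (nat_lit 41937894),Int.ofNat (nat_lit 53228446),Int.ofNat (nat_lit 41099916),Int.ofNat (nat_lit 65572205),Int.ofNat (nat_lit 75019495),Int.negSucc (nat_lit 24091065),Int.negSucc (nat_lit 5566243),Int.negSucc (nat_lit 25870210),Int.negSucc (nat_lit 42581105),Int.ofNat (nat_lit 73488905),Int.ofNat (nat_lit 10459763),Int.negSucc (nat_lit 26455616),Int.negSucc (nat_lit 52346371),Int.negSucc (nat_lit 49263522),Int.negSucc (nat_lit 103288605),Int.negSucc (nat_lit 56467253),Int.negSucc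 (nat_lit 9036490),Int.ofNat (nat_lit 3007939),Int.ofNat (nat_lit 22104024),Int.negSucc (nat_lit 15881394),Int.ofNat (nat_lit 23707846),Int.negSucc (nat_lit 26571198),Int.negSucc (nat_lit 6044929),Int.negSucc (nat_lit 63356342),Int.negSucc (nat_lit 2051564),Int.ofNat (nat_lit 25914068),Int.negSucc (nat_lit 2793853),Int.ofNat (nat_lit 35621360),Int.negSucc (nat_lit 1051624),Int.negSucc (nat_lit 31417839),Int.ofNat (nat_lit 4829427),Int.ofNat (nat_lit 18950429),Int.negSucc (nat_lit 29942276),Int.ofNat (nat_lit 16333941),Int.negSucc (nat_lit 5896561),Int.negSucc (nat_lit 41429462),Int.negSucc (nat_lit 46842367),Int.ofNat (nat_lit 17372587),Int.ofNat (nat_lit 7782872),Int.ofNat (nat_lit 16124329),Int.negSucc (nat_lit 7417880),Int.negSucc (nat_lit 47309047),Int.negSucc (nat_lit 10972643),Int.negSucc (nat_lit 28229797),Int.ofNat (nat_lit 2110091),Int.negSucc (nat_lit 37395233),Int.negSucc (nat_lit 48175182),Int.negSucc (nat_lit 39448216),Int.negSucc (nat_lit 8519038),Int.negSucc (nat_lit 29375820),Int.ofNat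 (nat_lit 35106618),Int.negSucc (nat_lit 1255463),Int.negSucc (nat_lit 4163570),Int.negSucc (nat_lit 43960144),Int.negSucc (nat_lit 32438478),Int.ofNat (nat_lit 4720585),Int.negSucc (nat_lit 8171067),Int.ofNat (nat_lit 6519719),Int.negSucc (nat_lit 41381928),Int.ofNat (nat_lit 53690847),Int.negSucc (nat_lit 9066253),Int.negSucc (nat_lit 16904240),Int.negSucc (nat_lit 52584402),Int.negSucc (nat_lit 106567235),Int.negSucc (nat_lit 9149057),Int.ofNat (nat_lit 56614432),Int.ofNat (nat_lit 4524654),Int.ofNat (nat_lit 35770971),Int.ofNat (nat_lit 6352652),Int.ofNat (nat_lit 13220282),Int.ofNat (nat_lit 12120063),Int.ofNat (nat_lit 21053759),Int.negSucc (nat_lit 22471499),Int.ofNat (nat_lit 29171327),Int.negSucc (nat_lit 67555396),Int.negSucc (nat_lit 2516468),Int.ofNat (nat_lit 18849241),Int.negSucc (nat_lit 4569448),Int.negSucc (nat_lit 31078611),Int.negSucc (nat_lit 26884686),Int.negSucc (nat_lit 29424808),Int.ofNat (nat_lit 81535083),Int.negSucc (nat_lit 31254871),Int.negSucc (nat_lit 56383670),Int.negSucc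 (nat_lit 14975886),Int.negSucc (nat_lit 25576538),Int.negSucc (nat_lit 3958074),Int.ofNat (nat_lit 64150217),Int.ofNat (nat_lit 24225305),Int.negSucc (nat_lit 60206372),Int.negSucc (nat_lit 39454153),Int.ofNat (nat_lit 4177787),Int.negSucc (nat_lit 54008455),Int.negSucc (nat_lit 13815126),Int.negSucc (nat_lit 1262631),Int.ofNat (nat_lit 16615419),Int.ofNat (nat_lit 15163160),Int.ofNat (nat_lit 30355582),Int.ofNat (nat_lit 36109752),Int.ofNat (nat_lit 2501528),Int.negSucc (nat_lit 4060504),Int.negSucc (nat_lit 160360040),Int.negSucc (nat_lit 48664726),Int.ofNat (nat_lit 84694171),Int.negSucc (nat_lit 200131668),Int.negSucc (nat_lit 21863421),Int.ofNat (nat_lit 140241876),Int.negSucc (nat_lit 48894054),Int.negSucc (nat_lit 164983717),Int.negSucc (nat_lit 320180280),Int.ofNat (nat_lit 106637685),Int.ofNat (nat_lit 615343778)])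

/-- A row. -/
noncomputable def sr6_c3_11 : List ℕ × List ℤ :=
  ([(nat_lit 0),(nat_lit 1),(nat_lit 1),(nat_lit 0),(nat_lit 0),(nat_lit 0),(nat_lit 0),(nat_lit 0),(nat_lit 0),(nat_lit 0),(nat_lit 0),(nat_lit 0)], [Int.ofNat (nat_lit 298824606),Int.ofNat (nat_lit 361533101),Int.ofNat (nat_lit 246522632),Int.ofNat (nat_lit 53579718),Int.negSucc (nat_lit 101672934),Int.ofNat (nat_lit 568685425),Int.ofNat (nat_lit 64974145),Int.ofNat (nat_lit 118165015),Int.negSucc (nat_lit 363210840),Int.ofNat (nat_lit 292561180),Int.negSucc (nat_lit 108045112),Int.negSucc (nat_lit 519121972),Int.ofNat (nat_lit 212309071),Int.ofNat (nat_lit 113832559),Int.negSucc (nat_lit 65765738),Int.ofNat (nat_lit 138179456),Int.ofNat (nat_lit 353326342),Int.negSucc (nat_lit 9227304),Int.negSucc (nat_lit 364030489),Int.ofNat (nat_lit 63558806),Int.negSucc (nat_lit 536256410),Int.ofNat (nat_lit 294396639),Int.negSucc (nat_lit 92213921),Int.ofNat (nat_lit 612581154),Int.ofNat (nat_lit 144565115),Int.ofNat (nat_lit 332124033),Int.ofNat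 (nat_lit 212669188),Int.negSucc (nat_lit 66005891),Int.ofNat (nat_lit 38985827),Int.ofNat (nat_lit 6770008),Int.ofNat (nat_lit 26744278),Int.ofNat (nat_lit 190267046),Int.negSucc (nat_lit 68754246),Int.ofNat (nat_lit 38009026),Int.ofNat (nat_lit 44666155),Int.negSucc (nat_lit 142781257),Int.negSucc (nat_lit 67381746),Int.negSucc (nat_lit 23553163),Int.negSucc (nat_lit 18759253),Int.negSucc (nat_lit 16358764),Int.ofNat (nat_lit 140033895),Int.negSucc (nat_lit 56221197),Int.ofNat (nat_lit 120319182),Int.ofNat (nat_lit 252696178),Int.negSucc (nat_lit 64213897),Int.negSucc (nat_lit 85933085),Int.ofNat (nat_lit 239170129),Int.ofNat (nat_lit 119349937),Int.negSucc (nat_lit 149472013),Int.negSucc (nat_lit 105046378),Int.negSucc (nat_lit 239088905),Int.ofNat (nat_lit 19627504),Int.ofNat (nat_lit 7204964),Int.ofNat (nat_lit 3631556),Int.negSucc (nat_lit 148840147),Int.ofNat (nat_lit 43365344),Int.ofNat (nat_lit 106089724),Int.negSucc (nat_lit 23031164),Int.ofNat (nat_lit 5721938),Int.negSucc (nat_lit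 44540856),Int.ofNat (nat_lit 154960464),Int.ofNat (nat_lit 96323603),Int.negSucc (nat_lit 70399602),Int.ofNat (nat_lit 82925867),Int.negSucc (nat_lit 42351712),Int.ofNat (nat_lit 116479813),Int.ofNat (nat_lit 152378220),Int.negSucc (nat_lit 6873807),Int.negSucc (nat_lit 190958399),Int.negSucc (nat_lit 173457949),Int.ofNat (nat_lit 103237873),Int.ofNat (nat_lit 10823197),Int.ofNat (nat_lit 63722098),Int.ofNat (nat_lit 138385353),Int.ofNat (nat_lit 8109163),Int.negSucc (nat_lit 22726771),Int.negSucc (nat_lit 225126224),Int.ofNat (nat_lit 74990783),Int.ofNat (nat_lit 98385762),Int.negSucc (nat_lit 89681155),Int.negSucc (nat_lit 3338199),Int.ofNat (nat_lit 23217962),Int.ofNat (nat_lit 65974735),Int.ofNat (nat_lit 29232180),Int.ofNat (nat_lit 5885783),Int.negSucc (nat_lit 10214208),Int.negSucc (nat_lit 351629598),Int.ofNat (nat_lit 61417479),Int.ofNat (nat_lit 82951991),Int.negSucc (nat_lit 605467452),Int.negSucc (nat_lit 51204293),Int.negSucc (nat_lit 94816510),Int.ofNat (nat_lit 99439452),Int.ofNat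 (nat_lit 19065158),Int.ofNat (nat_lit 23514009),Int.negSucc (nat_lit 54159391),Int.negSucc (nat_lit 17679457),Int.ofNat (nat_lit 120397608),Int.negSucc (nat_lit 21518068),Int.negSucc (nat_lit 303396887),Int.negSucc (nat_lit 213937815),Int.negSucc (nat_lit 44533606),Int.negSucc (nat_lit 13393790),Int.negSucc (nat_lit 40853666),Int.ofNat (nat_lit 9382212),Int.negSucc (nat_lit 65921203),Int.ofNat (nat_lit 36025672),Int.ofNat (nat_lit 70439929),Int.ofNat (nat_lit 33053489),Int.negSucc (nat_lit 28753793),Int.negSucc (nat_lit 35768385),Int.negSucc (nat_lit 70344771),Int.ofNat (nat_lit 57965413),Int.negSucc (nat_lit 20358039),Int.ofNat (nat_lit 80728961),Int.negSucc (nat_lit 17384724),Int.negSucc (nat_lit 1422884),Int.ofNat (nat_lit 53409981),Int.negSucc (nat_lit 15375309),Int.ofNat (nat_lit 18301694),Int.negSucc (nat_lit 62808641),Int.ofNat (nat_lit 67062010),Int.negSucc (nat_lit 92461899),Int.ofNat (nat_lit 10002249),Int.ofNat (nat_lit 10822392),Int.negSucc (nat_lit 7258299),Int.negSucc (nat_lit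 183661037),Int.ofNat (nat_lit 152345430),Int.negSucc (nat_lit 55112807),Int.negSucc (nat_lit 121472727),Int.negSucc (nat_lit 41516327),Int.ofNat (nat_lit 82147258),Int.negSucc (nat_lit 4923012),Int.ofNat (nat_lit 28061685),Int.negSucc (nat_lit 30426879),Int.ofNat (nat_lit 39122234),Int.ofNat (nat_lit 41135012),Int.negSucc (nat_lit 44853050),Int.negSucc (nat_lit 14014835),Int.ofNat (nat_lit 86297239),Int.negSucc (nat_lit 77677432),Int.negSucc (nat_lit 117712568),Int.negSucc (nat_lit 19936833),Int.ofNat (nat_lit 36324913),Int.negSucc (nat_lit 18675042),Int.negSucc (nat_lit 49441704),Int.negSucc (nat_lit 2551101),Int.negSucc (nat_lit 172403760),Int.negSucc (nat_lit 45683618),Int.negSucc (nat_lit 124934832),Int.ofNat (nat_lit 90472741),Int.ofNat (nat_lit 6742015),Int.negSucc (nat_lit 54326270),Int.negSucc (nat_lit 31407750),Int.ofNat (nat_lit 128918016),Int.negSucc (nat_lit 8938445),Int.negSucc (nat_lit 77848741),Int.negSucc (nat_lit 60402300),Int.ofNat (nat_lit 18017526),Int.ofNat (nat_lit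 6583333),Int.negSucc (nat_lit 46139408),Int.negSucc (nat_lit 48034494),Int.negSucc (nat_lit 88525451),Int.ofNat (nat_lit 58915793),Int.ofNat (nat_lit 7914606),Int.ofNat (nat_lit 33236992),Int.ofNat (nat_lit 37834346),Int.ofNat (nat_lit 47929075),Int.ofNat (nat_lit 42014557),Int.ofNat (nat_lit 27422236),Int.negSucc (nat_lit 8521299),Int.ofNat (nat_lit 8600950),Int.negSucc (nat_lit 6732833),Int.negSucc (nat_lit 13686893),Int.negSucc (nat_lit 69233632),Int.ofNat (nat_lit 44390634),Int.ofNat (nat_lit 41340668),Int.ofNat (nat_lit 15777614),Int.negSucc (nat_lit 210574007),Int.negSucc (nat_lit 45892356),Int.ofNat (nat_lit 1937861),Int.ofNat (nat_lit 105680866),Int.negSucc (nat_lit 146332667),Int.negSucc (nat_lit 185776674),Int.negSucc (nat_lit 306198143),Int.ofNat (nat_lit 1042282304),Int.negSucc (nat_lit 245945267),Int.ofNat (nat_lit 274921020),Int.ofNat (nat_lit 192228923),Int.ofNat (nat_lit 649522812)])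

/-- A row. -/
noncomputable def sr6_c3_12 : List ℕ × List ℤ :=
  ([(nat_lit 0),(nat_lit 1),(nat_lit 2),(nat_lit 0),(nat_lit 0),(nat_lit 0),(nat_lit 0),(nat_lit 0),(nat_lit 0),(nat_lit 0),(nat_lit 0),(nat_lit 0)], [Int.ofNat (nat_lit 230141344),Int.ofNat (nat_lit 671777174),Int.negSucc (nat_lit 442945087),Int.negSucc (nat_lit 87113440),Int.ofNat (nat_lit 655056954),Int.ofNat (nat_lit 473211190),Int.negSucc (nat_lit 274810743),Int.negSucc (nat_lit 11793907),Int.negSucc (nat_lit 270454710),Int.negSucc (nat_lit 41121161),Int.ofNat (nat_lit 20800841),Int.ofNat (nat_lit 5152260),Int.negSucc (nat_lit 43702683),Int.ofNat (nat_lit 25568677),Int.ofNat (nat_lit 58902576),Int.negSucc (nat_lit 61613512),Int.negSucc (nat_lit 62208291),Int.negSucc (nat_lit 34420608),Int.negSucc (nat_lit 114322199),Int.ofNat (nat_lit 93256505),Int.ofNat (nat_lit 11804795),Int.negSucc (nat_lit 150322315),Int.ofNat (nat_lit 25327840),Int.negSucc (nat_lit 52805706),Int.ofNat (nat_lit 101698384),Int.ofNat (nat_lit 302639061),Int.ofNat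 (nat_lit 31037791),Int.ofNat (nat_lit 16422693),Int.ofNat (nat_lit 57538308),Int.negSucc (nat_lit 69470180),Int.ofNat (nat_lit 7774241),Int.ofNat (nat_lit 104731043),Int.negSucc (nat_lit 7654046),Int.ofNat (nat_lit 10466590),Int.ofNat (nat_lit 18829079),Int.negSucc (nat_lit 56579599),Int.negSucc (nat_lit 112930479),Int.ofNat (nat_lit 13087807),Int.negSucc (nat_lit 106240302),Int.negSucc (nat_lit 44492422),Int.negSucc (nat_lit 44764048),Int.ofNat (nat_lit 11870032),Int.negSucc (nat_lit 27242632),Int.negSucc (nat_lit 133834949),Int.ofNat (nat_lit 54429454),Int.ofNat (nat_lit 88700002),Int.ofNat (nat_lit 99624211),Int.ofNat (nat_lit 64825839),Int.ofNat (nat_lit 39394710),Int.negSucc (nat_lit 27939045),Int.negSucc (nat_lit 110367847),Int.ofNat (nat_lit 29099737),Int.ofNat (nat_lit 79337944),Int.ofNat (nat_lit 66960606),Int.ofNat (nat_lit 48008904),Int.negSucc (nat_lit 15354727),Int.ofNat (nat_lit 86602051),Int.ofNat (nat_lit 130231209),Int.ofNat (nat_lit 61466620),Int.ofNat (nat_lit 124059970),Int.ofNat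 (nat_lit 20324943),Int.ofNat (nat_lit 47241114),Int.ofNat (nat_lit 43141911),Int.ofNat (nat_lit 87653397),Int.negSucc (nat_lit 37546742),Int.negSucc (nat_lit 470056),Int.ofNat (nat_lit 144663459),Int.ofNat (nat_lit 17692683),Int.negSucc (nat_lit 3458617),Int.negSucc (nat_lit 23659633),Int.ofNat (nat_lit 15348231),Int.negSucc (nat_lit 48864585),Int.ofNat (nat_lit 96186079),Int.negSucc (nat_lit 65578293),Int.ofNat (nat_lit 104989999),Int.ofNat (nat_lit 53985376),Int.negSucc (nat_lit 38313279),Int.ofNat (nat_lit 77130344),Int.ofNat (nat_lit 1437596),Int.ofNat (nat_lit 42088725),Int.negSucc (nat_lit 19863730),Int.ofNat (nat_lit 21692552),Int.ofNat (nat_lit 5179313),Int.negSucc (nat_lit 1770728),Int.ofNat (nat_lit 7275346),Int.negSucc (nat_lit 20135913),Int.ofNat (nat_lit 36516042),Int.ofNat (nat_lit 7480689),Int.ofNat (nat_lit 5490570),Int.negSucc (nat_lit 89557490),Int.negSucc (nat_lit 38974707),Int.negSucc (nat_lit 30186579),Int.negSucc (nat_lit 70868152),Int.negSucc (nat_lit 92742399),Int.ofNat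 (nat_lit 22923346),Int.negSucc (nat_lit 11511546),Int.negSucc (nat_lit 19156863),Int.ofNat (nat_lit 24177472),Int.negSucc (nat_lit 11928986),Int.negSucc (nat_lit 2244644),Int.negSucc (nat_lit 82606281),Int.negSucc (nat_lit 67191574),Int.ofNat (nat_lit 18646594),Int.negSucc (nat_lit 12150298),Int.ofNat (nat_lit 5424602),Int.ofNat (nat_lit 15279704),Int.negSucc (nat_lit 595491),Int.ofNat (nat_lit 19529936),Int.negSucc (nat_lit 48564765),Int.negSucc (nat_lit 20584769),Int.ofNat (nat_lit 14627651),Int.negSucc (nat_lit 53003902),Int.negSucc (nat_lit 17768694),Int.negSucc (nat_lit 73643981),Int.negSucc (nat_lit 5645247),Int.negSucc (nat_lit 48216552),Int.negSucc (nat_lit 40744820),Int.ofNat (nat_lit 46885744),Int.negSucc (nat_lit 33240368),Int.negSucc (nat_lit 29720514),Int.negSucc (nat_lit 39152217),Int.ofNat (nat_lit 10837801),Int.negSucc (nat_lit 38402497),Int.ofNat (nat_lit 13994625),Int.negSucc (nat_lit 3134502),Int.ofNat (nat_lit 8758012),Int.negSucc (nat_lit 51811750),Int.ofNat (nat_lit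 71659444),Int.negSucc (nat_lit 29863562),Int.negSucc (nat_lit 14382877),Int.negSucc (nat_lit 51572855),Int.ofNat (nat_lit 58097352),Int.negSucc (nat_lit 10015847),Int.ofNat (nat_lit 7449634),Int.negSucc (nat_lit 78524455),Int.negSucc (nat_lit 16234478),Int.ofNat (nat_lit 13651725),Int.negSucc (nat_lit 20956186),Int.ofNat (nat_lit 763571),Int.negSucc (nat_lit 53650128),Int.negSucc (nat_lit 99261514),Int.negSucc (nat_lit 31539444),Int.ofNat (nat_lit 30022554),Int.negSucc (nat_lit 39361243),Int.ofNat (nat_lit 41151441),Int.ofNat (nat_lit 15560494),Int.ofNat (nat_lit 9187211),Int.ofNat (nat_lit 12324034),Int.negSucc (nat_lit 18980167),Int.negSucc (nat_lit 20767626),Int.negSucc (nat_lit 20132980),Int.negSucc (nat_lit 3465683),Int.negSucc (nat_lit 17670849),Int.ofNat (nat_lit 6361876),Int.negSucc (nat_lit 27517805),Int.ofNat (nat_lit 5366017),Int.negSucc (nat_lit 22889861),Int.ofNat (nat_lit 9132910),Int.ofNat (nat_lit 21633150),Int.negSucc (nat_lit 23735958),Int.negSucc (nat_lit 53730121),Int.negSucc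 (nat_lit 43538634),Int.negSucc (nat_lit 86963878),Int.ofNat (nat_lit 24097914),Int.ofNat (nat_lit 14408526),Int.ofNat (nat_lit 29691266),Int.negSucc (nat_lit 49721477),Int.ofNat (nat_lit 22796742),Int.negSucc (nat_lit 28395437),Int.ofNat (nat_lit 29671628),Int.negSucc (nat_lit 22640836),Int.negSucc (nat_lit 8958600),Int.ofNat (nat_lit 21423804),Int.ofNat (nat_lit 12660995),Int.negSucc (nat_lit 40045446),Int.ofNat (nat_lit 3583928),Int.negSucc (nat_lit 21847),Int.negSucc (nat_lit 4051358),Int.negSucc (nat_lit 138032328),Int.ofNat (nat_lit 137124765),Int.negSucc (nat_lit 39051555),Int.ofNat (nat_lit 75476137),Int.negSucc (nat_lit 123325208),Int.negSucc (nat_lit 65314717),Int.negSucc (nat_lit 10461839),Int.negSucc (nat_lit 85287355),Int.negSucc (nat_lit 185517247),Int.ofNat (nat_lit 227880302),Int.ofNat (nat_lit 151851817),Int.ofNat (nat_lit 402481317),Int.ofNat (nat_lit 309118085)])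

/-- A row. -/
noncomputable def sr6_c3_13 : List ℕ × List ℤ :=
  ([(nat_lit 0),(nat_lit 2),(nat_lit 0),(nat_lit 0),(nat_lit 0),(nat_lit 1),(nat_lit 0),(nat_lit 0),(nat_lit 0),(nat_lit 0),(nat_lit 0),(nat_lit 0)], [Int.negSucc (nat_lit 892696167),Int.negSucc (nat_lit 223901224),Int.negSucc (nat_lit 921127447),Int.ofNat (nat_lit 810678924),Int.negSucc (nat_lit 645799140),Int.negSucc (nat_lit 483576827),Int.negSucc (nat_lit 238730517),Int.ofNat (nat_lit 314562283),Int.negSucc (nat_lit 261071864),Int.ofNat (nat_lit 6422726),Int.negSucc (nat_lit 53045586),Int.negSucc (nat_lit 30323001),Int.negSucc (nat_lit 190665576),Int.negSucc (nat_lit 195019162),Int.negSucc (nat_lit 229475608),Int.negSucc (nat_lit 107898156),Int.ofNat (nat_lit 152201049),Int.ofNat (nat_lit 242102286),Int.negSucc (nat_lit 14170908),Int.negSucc (nat_lit 71978579),Int.ofNat (nat_lit 64804500),Int.negSucc (nat_lit 7416767),Int.negSucc (nat_lit 28481213),Int.negSucc (nat_lit 260447761),Int.ofNat (nat_lit 167984288),Int.negSucc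 (nat_lit 235776430),Int.negSucc (nat_lit 43195558),Int.negSucc (nat_lit 236473710),Int.negSucc (nat_lit 140889509),Int.ofNat (nat_lit 167956706),Int.negSucc (nat_lit 158235334),Int.negSucc (nat_lit 209125213),Int.negSucc (nat_lit 160000761),Int.negSucc (nat_lit 236924069),Int.ofNat (nat_lit 75366746),Int.negSucc (nat_lit 35668369),Int.negSucc (nat_lit 138365092),Int.negSucc (nat_lit 105605322),Int.ofNat (nat_lit 118330923),Int.ofNat (nat_lit 80116020),Int.negSucc (nat_lit 70863263),Int.negSucc (nat_lit 108643920),Int.negSucc (nat_lit 89850209),Int.ofNat (nat_lit 8421674),Int.ofNat (nat_lit 40150729),Int.ofNat (nat_lit 10444569),Int.ofNat (nat_lit 17458161),Int.ofNat (nat_lit 36711863),Int.negSucc (nat_lit 96888495),Int.ofNat (nat_lit 43820552),Int.ofNat (nat_lit 105818771),Int.ofNat (nat_lit 31793019),Int.ofNat (nat_lit 134813769),Int.ofNat (nat_lit 312747867),Int.negSucc (nat_lit 92428257),Int.negSucc (nat_lit 254952205),Int.negSucc (nat_lit 76897988),Int.negSucc (nat_lit 174487417),Int.negSucc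 (nat_lit 66939231),Int.negSucc (nat_lit 32921234),Int.negSucc (nat_lit 270692724),Int.negSucc (nat_lit 221198943),Int.negSucc (nat_lit 149955384),Int.ofNat (nat_lit 57664242),Int.negSucc (nat_lit 169857565),Int.negSucc (nat_lit 14348876),Int.negSucc (nat_lit 37860069),Int.negSucc (nat_lit 158103825),Int.ofNat (nat_lit 12660809),Int.ofNat (nat_lit 29497474),Int.negSucc (nat_lit 348576228),Int.negSucc (nat_lit 76983531),Int.negSucc (nat_lit 140397407),Int.negSucc (nat_lit 87129186),Int.ofNat (nat_lit 10191875),Int.negSucc (nat_lit 143619750),Int.negSucc (nat_lit 17329585),Int.negSucc (nat_lit 50695589),Int.negSucc (nat_lit 76771239),Int.negSucc (nat_lit 60277625),Int.negSucc (nat_lit 113248531),Int.negSucc (nat_lit 2760942),Int.ofNat (nat_lit 20123901),Int.ofNat (nat_lit 60716499),Int.ofNat (nat_lit 21318065),Int.ofNat (nat_lit 16875053),Int.negSucc (nat_lit 40404752),Int.ofNat (nat_lit 32603542),Int.ofNat (nat_lit 83630008),Int.ofNat (nat_lit 94407412),Int.negSucc (nat_lit 24428196),Int.ofNat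 (nat_lit 122180156),Int.ofNat (nat_lit 73455845),Int.ofNat (nat_lit 15718246),Int.ofNat (nat_lit 14158897),Int.negSucc (nat_lit 114982950),Int.ofNat (nat_lit 2161002),Int.negSucc (nat_lit 27836810),Int.ofNat (nat_lit 102698159),Int.negSucc (nat_lit 48073295),Int.negSucc (nat_lit 119874880),Int.ofNat (nat_lit 20878629),Int.ofNat (nat_lit 19038168),Int.negSucc (nat_lit 46874381),Int.negSucc (nat_lit 15116851),Int.ofNat (nat_lit 6481481),Int.negSucc (nat_lit 82832722),Int.ofNat (nat_lit 12481916),Int.ofNat (nat_lit 22303766),Int.ofNat (nat_lit 17988222),Int.ofNat (nat_lit 41234638),Int.ofNat (nat_lit 46648568),Int.ofNat (nat_lit 62902071),Int.ofNat (nat_lit 42415425),Int.negSucc (nat_lit 14258853),Int.ofNat (nat_lit 47172816),Int.ofNat (nat_lit 37716247),Int.ofNat (nat_lit 90951444),Int.ofNat (nat_lit 43933292),Int.negSucc (nat_lit 48966932),Int.ofNat (nat_lit 16918064),Int.negSucc (nat_lit 37964741),Int.ofNat (nat_lit 67150034),Int.negSucc (nat_lit 12525818),Int.negSucc (nat_lit 2092546),Int.negSucc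 (nat_lit 7420125),Int.ofNat (nat_lit 28202077),Int.ofNat (nat_lit 41111487),Int.ofNat (nat_lit 32632135),Int.ofNat (nat_lit 76638065),Int.negSucc (nat_lit 48133313),Int.ofNat (nat_lit 90679000),Int.ofNat (nat_lit 6080693),Int.negSucc (nat_lit 54156347),Int.negSucc (nat_lit 55329428),Int.negSucc (nat_lit 6805016),Int.negSucc (nat_lit 37032324),Int.negSucc (nat_lit 7343883),Int.ofNat (nat_lit 53302688),Int.ofNat (nat_lit 98530951),Int.ofNat (nat_lit 15638612),Int.ofNat (nat_lit 42153074),Int.negSucc (nat_lit 58387303),Int.ofNat (nat_lit 4045959),Int.ofNat (nat_lit 38291969),Int.ofNat (nat_lit 39470162),Int.ofNat (nat_lit 1918103),Int.ofNat (nat_lit 17882609),Int.negSucc (nat_lit 122887798),Int.ofNat (nat_lit 69266447),Int.negSucc (nat_lit 84880297),Int.ofNat (nat_lit 16253599),Int.negSucc (nat_lit 15595677),Int.negSucc (nat_lit 163832697),Int.negSucc (nat_lit 38284318),Int.ofNat (nat_lit 162057481),Int.negSucc (nat_lit 59542253),Int.negSucc (nat_lit 13743071),Int.negSucc (nat_lit 53811378),Int.ofNat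 (nat_lit 89045612),Int.ofNat (nat_lit 13361227),Int.ofNat (nat_lit 79635348),Int.ofNat (nat_lit 47608375),Int.ofNat (nat_lit 15788186),Int.ofNat (nat_lit 34033467),Int.negSucc (nat_lit 75884354),Int.ofNat (nat_lit 62331322),Int.ofNat (nat_lit 264058),Int.negSucc (nat_lit 51515336),Int.ofNat (nat_lit 141605025),Int.negSucc (nat_lit 52602718),Int.ofNat (nat_lit 113152038),Int.negSucc (nat_lit 49499412),Int.negSucc (nat_lit 7230892),Int.negSucc (nat_lit 89863297),Int.negSucc (nat_lit 144909540),Int.negSucc (nat_lit 18847857),Int.negSucc (nat_lit 18860832),Int.ofNat (nat_lit 249944491),Int.ofNat (nat_lit 11923538),Int.negSucc (nat_lit 132837423),Int.ofNat (nat_lit 254574242),Int.ofNat (nat_lit 49985942),Int.ofNat (nat_lit 18378498),Int.ofNat (nat_lit 132729076),Int.ofNat (nat_lit 244935567),Int.ofNat (nat_lit 441417204),Int.negSucc (nat_lit 159187917),Int.negSucc (nat_lit 324687081),Int.ofNat (nat_lit 142786416),Int.ofNat (nat_lit 80228697),Int.ofNat (nat_lit 909490425)])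

/-- A row. -/
noncomputable def sr6_c3_14 : List ℕ × List ℤ :=
  ([(nat_lit 0),(nat_lit 2),(nat_lit 0),(nat_lit 1),(nat_lit 0),(nat_lit 0),(nat_lit 0),(nat_lit 0),(nat_lit 0),(nat_lit 0),(nat_lit 0),(nat_lit 0)], [Int.ofNat (nat_lit 884826431),Int.ofNat (nat_lit 719653202),Int.negSucc (nat_lit 1103076953),Int.negSucc (nat_lit 1338883472),Int.ofNat (nat_lit 2625528052),Int.negSucc (nat_lit 1495629802),Int.ofNat (nat_lit 466277416),Int.ofNat (nat_lit 1986696190),Int.negSucc (nat_lit 690130328),Int.ofNat (nat_lit 286832099),Int.negSucc (nat_lit 610267715),Int.negSucc (nat_lit 614230607),Int.negSucc (nat_lit 97154461),Int.negSucc (nat_lit 115375361),Int.negSucc (nat_lit 681853359),Int.ofNat (nat_lit 90686548),Int.ofNat (nat_lit 61726610),Int.ofNat (nat_lit 118058388),Int.ofNat (nat_lit 121549509),Int.ofNat (nat_lit 566637043),Int.negSucc (nat_lit 581148218),Int.ofNat (nat_lit 87467064),Int.negSucc (nat_lit 50832279),Int.ofNat (nat_lit 30168925),Int.ofNat (nat_lit 59059453),Int.negSucc (nat_lit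 594592376),Int.negSucc (nat_lit 783140758),Int.negSucc (nat_lit 130909041),Int.ofNat (nat_lit 209318275),Int.ofNat (nat_lit 345952805),Int.ofNat (nat_lit 715199126),Int.negSucc (nat_lit 461088051),Int.ofNat (nat_lit 229216768),Int.negSucc (nat_lit 339774562),Int.ofNat (nat_lit 197332530),Int.ofNat (nat_lit 11700697),Int.negSucc (nat_lit 118911907),Int.negSucc (nat_lit 217318261),Int.negSucc (nat_lit 344753084),Int.negSucc (nat_lit 36177208),Int.ofNat (nat_lit 58870981),Int.ofNat (nat_lit 286794640),Int.ofNat (nat_lit 98403641),Int.ofNat (nat_lit 107347238),Int.negSucc (nat_lit 368408273),Int.ofNat (nat_lit 468771567),Int.ofNat (nat_lit 847531891),Int.negSucc (nat_lit 107848959),Int.ofNat (nat_lit 63071328),Int.negSucc (nat_lit 240741299),Int.negSucc (nat_lit 269486839),Int.negSucc (nat_lit 300834567),Int.negSucc (nat_lit 129043103),Int.ofNat (nat_lit 362429288),Int.negSucc (nat_lit 46667578),Int.negSucc (nat_lit 458677824),Int.negSucc (nat_lit 40175595),Int.ofNat (nat_lit 21504390),Int.negSucc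 (nat_lit 366418610),Int.ofNat (nat_lit 658333781),Int.ofNat (nat_lit 137258144),Int.ofNat (nat_lit 162676463),Int.negSucc (nat_lit 42067787),Int.negSucc (nat_lit 154905894),Int.ofNat (nat_lit 296710362),Int.negSucc (nat_lit 89307487),Int.ofNat (nat_lit 54951893),Int.negSucc (nat_lit 199923882),Int.negSucc (nat_lit 128503760),Int.ofNat (nat_lit 167669849),Int.ofNat (nat_lit 416453837),Int.ofNat (nat_lit 169274386),Int.ofNat (nat_lit 106422490),Int.ofNat (nat_lit 124088201),Int.negSucc (nat_lit 386701937),Int.negSucc (nat_lit 91255375),Int.ofNat (nat_lit 24810907),Int.ofNat (nat_lit 18671130),Int.ofNat (nat_lit 137915387),Int.negSucc (nat_lit 71937938),Int.ofNat (nat_lit 9364246),Int.negSucc (nat_lit 137002770),Int.ofNat (nat_lit 92918029),Int.negSucc (nat_lit 121146981),Int.ofNat (nat_lit 87961833),Int.ofNat (nat_lit 86120777),Int.negSucc (nat_lit 155457287),Int.ofNat (nat_lit 60721887),Int.ofNat (nat_lit 13129422),Int.ofNat (nat_lit 314781565),Int.ofNat (nat_lit 181855079),Int.ofNat (nat_lit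 87179808),Int.ofNat (nat_lit 36288557),Int.ofNat (nat_lit 24908789),Int.negSucc (nat_lit 28941223),Int.negSucc (nat_lit 66128021),Int.negSucc (nat_lit 356212092),Int.negSucc (nat_lit 389165298),Int.ofNat (nat_lit 59541022),Int.ofNat (nat_lit 210851849),Int.ofNat (nat_lit 198463729),Int.negSucc (nat_lit 244967700),Int.negSucc (nat_lit 143274919),Int.ofNat (nat_lit 115933648),Int.negSucc (nat_lit 279804280),Int.ofNat (nat_lit 110361632),Int.ofNat (nat_lit 87831655),Int.negSucc (nat_lit 12390017),Int.negSucc (nat_lit 127789247),Int.ofNat (nat_lit 158342132),Int.negSucc (nat_lit 58844608),Int.negSucc (nat_lit 180216877),Int.ofNat (nat_lit 182598286),Int.negSucc (nat_lit 9718890),Int.negSucc (nat_lit 186795202),Int.ofNat (nat_lit 93427442),Int.negSucc (nat_lit 88204347),Int.negSucc (nat_lit 132681470),Int.negSucc (nat_lit 18599595),Int.ofNat (nat_lit 7302543),Int.negSucc (nat_lit 69987480),Int.ofNat (nat_lit 3995809),Int.negSucc (nat_lit 110273358),Int.ofNat (nat_lit 79347093),Int.ofNat (nat_lit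 71431429),Int.ofNat (nat_lit 108358525),Int.ofNat (nat_lit 55450201),Int.negSucc (nat_lit 196227731),Int.ofNat (nat_lit 39051402),Int.negSucc (nat_lit 220735801),Int.ofNat (nat_lit 127922913),Int.negSucc (nat_lit 18373400),Int.ofNat (nat_lit 70281061),Int.ofNat (nat_lit 8386867),Int.ofNat (nat_lit 801755),Int.ofNat (nat_lit 29900044),Int.ofNat (nat_lit 33273079),Int.ofNat (nat_lit 61444089),Int.negSucc (nat_lit 50561217),Int.ofNat (nat_lit 102761510),Int.ofNat (nat_lit 264606273),Int.ofNat (nat_lit 140465012),Int.ofNat (nat_lit 10842106),Int.negSucc (nat_lit 101711044),Int.negSucc (nat_lit 15166289),Int.negSucc (nat_lit 122585260),Int.ofNat (nat_lit 57043930),Int.negSucc (nat_lit 170463897),Int.negSucc (nat_lit 86073179),Int.negSucc (nat_lit 9936499),Int.ofNat (nat_lit 143571582),Int.ofNat (nat_lit 121769727),Int.negSucc (nat_lit 122053233),Int.ofNat (nat_lit 26355958),Int.negSucc (nat_lit 422227309),Int.ofNat (nat_lit 167259007),Int.ofNat (nat_lit 425577583),Int.ofNat (nat_lit 129248170),Int.negSucc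 (nat_lit 247090629),Int.negSucc (nat_lit 56586337),Int.ofNat (nat_lit 212191791),Int.ofNat (nat_lit 23656191),Int.ofNat (nat_lit 77517829),Int.negSucc (nat_lit 17913931),Int.negSucc (nat_lit 125375370),Int.negSucc (nat_lit 24952980),Int.ofNat (nat_lit 126468937),Int.ofNat (nat_lit 4558379),Int.ofNat (nat_lit 32904423),Int.ofNat (nat_lit 74701890),Int.ofNat (nat_lit 136501521),Int.negSucc (nat_lit 21720090),Int.ofNat (nat_lit 38343828),Int.ofNat (nat_lit 68556386),Int.negSucc (nat_lit 84421566),Int.ofNat (nat_lit 78780161),Int.ofNat (nat_lit 48770970),Int.ofNat (nat_lit 48947434),Int.negSucc (nat_lit 169270562),Int.ofNat (nat_lit 834362414),Int.negSucc (nat_lit 550114684),Int.negSucc (nat_lit 364223992),Int.negSucc (nat_lit 190695204),Int.negSucc (nat_lit 373299127),Int.ofNat (nat_lit 278417716),Int.negSucc (nat_lit 178012765),Int.ofNat (nat_lit 518844115),Int.negSucc (nat_lit 225961288),Int.negSucc (nat_lit 1193519621),Int.negSucc (nat_lit 296237139),Int.negSucc (nat_lit 427937014),Int.negSucc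 (nat_lit 426551074),Int.ofNat (nat_lit 2053822096)])

/-- A row. -/
noncomputable def sr6_c3_15 : List ℕ × List ℤ :=
  ([(nat_lit 0),(nat_lit 3),(nat_lit 0),(nat_lit 0),(nat_lit 0),(nat_lit 0),(nat_lit 0),(nat_lit 0),(nat_lit 0),(nat_lit 0),(nat_lit 0),(nat_lit 0)], [Int.negSucc (nat_lit 42093662),Int.ofNat (nat_lit 1236067957),Int.ofNat (nat_lit 2189395350),Int.ofNat (nat_lit 2098553972),Int.negSucc (nat_lit 3149798958),Int.ofNat (nat_lit 1362323328),Int.ofNat (nat_lit 379072500),Int.negSucc (nat_lit 1867635136),Int.ofNat (nat_lit 808922000),Int.negSucc (nat_lit 16393086),Int.ofNat (nat_lit 1030514652),Int.ofNat (nat_lit 682584671),Int.ofNat (nat_lit 824780102),Int.ofNat (nat_lit 264736971),Int.ofNat (nat_lit 1149896890),Int.ofNat (nat_lit 82604526),Int.negSucc (nat_lit 373941544),Int.ofNat (nat_lit 309831656),Int.negSucc (nat_lit 648797286),Int.negSucc (nat_lit 496541757),Int.ofNat (nat_lit 1001682434),Int.negSucc (nat_lit 164115339),Int.ofNat (nat_lit 294071041),Int.negSucc (nat_lit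 229243089),Int.ofNat (nat_lit 55082083),Int.ofNat (nat_lit 383730553),Int.ofNat (nat_lit 703007493),Int.ofNat (nat_lit 785500034),Int.ofNat (nat_lit 97416857),Int.negSucc (nat_lit 747253028),Int.ofNat (nat_lit 20869554),Int.ofNat (nat_lit 1399609271),Int.negSucc (nat_lit 269043181),Int.ofNat (nat_lit 613116104),Int.negSucc (nat_lit 523566597),Int.ofNat (nat_lit 353448241),Int.negSucc (nat_lit 278548964),Int.negSucc (nat_lit 85966980),Int.ofNat (nat_lit 826847382),Int.ofNat (nat_lit 120713039),Int.ofNat (nat_lit 91718286),Int.negSucc (nat_lit 280053707),Int.negSucc (nat_lit 159790743),Int.ofNat (nat_lit 351489004),Int.ofNat (nat_lit 216411205),Int.negSucc (nat_lit 302927480),Int.negSucc (nat_lit 881098208),Int.ofNat (nat_lit 230144784),Int.negSucc (nat_lit 34501480),Int.negSucc (nat_lit 94107200),Int.ofNat (nat_lit 464779437),Int.ofNat (nat_lit 58078001),Int.negSucc (nat_lit 157921451),Int.negSucc (nat_lit 181947500),Int.ofNat (nat_lit 227430961),Int.negSucc (nat_lit 154612435),Int.ofNat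 (nat_lit 33785339),Int.negSucc (nat_lit 48237594),Int.ofNat (nat_lit 414555625),Int.negSucc (nat_lit 623441799),Int.ofNat (nat_lit 18140125),Int.negSucc (nat_lit 238624763),Int.ofNat (nat_lit 63504982),Int.negSucc (nat_lit 56881072),Int.negSucc (nat_lit 577744279),Int.negSucc (nat_lit 141398539),Int.negSucc (nat_lit 479532950),Int.ofNat (nat_lit 107037858),Int.ofNat (nat_lit 74732038),Int.negSucc (nat_lit 90691659),Int.negSucc (nat_lit 326923168),Int.negSucc (nat_lit 513289206),Int.negSucc (nat_lit 151324438),Int.negSucc (nat_lit 399749260),Int.ofNat (nat_lit 442726548),Int.ofNat (nat_lit 16628964),Int.ofNat (nat_lit 134593170),Int.negSucc (nat_lit 47470558),Int.negSucc (nat_lit 252620124),Int.ofNat (nat_lit 115142741),Int.negSucc (nat_lit 164908614),Int.ofNat (nat_lit 295071585),Int.negSucc (nat_lit 197809058),Int.ofNat (nat_lit 313392743),Int.negSucc (nat_lit 112784255),Int.negSucc (nat_lit 42235057),Int.ofNat (nat_lit 812600070),Int.negSucc (nat_lit 37276436),Int.negSucc (nat_lit 159265826),Int.ofNat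 (nat_lit 128989265),Int.negSucc (nat_lit 201096833),Int.negSucc (nat_lit 12414951),Int.negSucc (nat_lit 418310332),Int.negSucc (nat_lit 226794542),Int.ofNat (nat_lit 200278298),Int.negSucc (nat_lit 37382138),Int.ofNat (nat_lit 178601492),Int.ofNat (nat_lit 333083875),Int.ofNat (nat_lit 134835284),Int.negSucc (nat_lit 296129359),Int.negSucc (nat_lit 701972217),Int.ofNat (nat_lit 323377675),Int.ofNat (nat_lit 329196156),Int.negSucc (nat_lit 584606899),Int.ofNat (nat_lit 304311442),Int.negSucc (nat_lit 106699289),Int.negSucc (nat_lit 218429674),Int.ofNat (nat_lit 63176878),Int.ofNat (nat_lit 125120896),Int.negSucc (nat_lit 99938279),Int.negSucc (nat_lit 11234335),Int.ofNat (nat_lit 158401637),Int.negSucc (nat_lit 117068464),Int.negSucc (nat_lit 105219284),Int.negSucc (nat_lit 94384071),Int.ofNat (nat_lit 175715490),Int.negSucc (nat_lit 20974487),Int.ofNat (nat_lit 151614101),Int.ofNat (nat_lit 87820853),Int.ofNat (nat_lit 119915957),Int.ofNat (nat_lit 87877312),Int.negSucc (nat_lit 59296560),Int.ofNat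 (nat_lit 122706387),Int.negSucc (nat_lit 135572711),Int.ofNat (nat_lit 41213761),Int.negSucc (nat_lit 105883449),Int.ofNat (nat_lit 194172292),Int.ofNat (nat_lit 173690987),Int.negSucc (nat_lit 692882),Int.ofNat (nat_lit 420937662),Int.negSucc (nat_lit 267501298),Int.ofNat (nat_lit 182646704),Int.negSucc (nat_lit 44255529),Int.negSucc (nat_lit 34349635),Int.negSucc (nat_lit 167560116),Int.negSucc (nat_lit 306427150),Int.negSucc (nat_lit 80367839),Int.negSucc (nat_lit 103602796),Int.ofNat (nat_lit 144562367),Int.ofNat (nat_lit 14246656),Int.negSucc (nat_lit 255469106),Int.negSucc (nat_lit 18593901),Int.negSucc (nat_lit 61618906),Int.ofNat (nat_lit 66130583),Int.ofNat (nat_lit 44881663),Int.ofNat (nat_lit 241469362),Int.negSucc (nat_lit 43625061),Int.ofNat (nat_lit 205798597),Int.negSucc (nat_lit 81370048),Int.ofNat (nat_lit 186555765),Int.negSucc (nat_lit 323938878),Int.negSucc (nat_lit 70486408),Int.ofNat (nat_lit 167092502),Int.negSucc (nat_lit 116121230),Int.ofNat (nat_lit 147325264),Int.ofNat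 (nat_lit 214603679),Int.negSucc (nat_lit 332669867),Int.negSucc (nat_lit 58290),Int.ofNat (nat_lit 242366649),Int.ofNat (nat_lit 165235059),Int.negSucc (nat_lit 167491343),Int.ofNat (nat_lit 32310612),Int.negSucc (nat_lit 48836321),Int.ofNat (nat_lit 31115773),Int.ofNat (nat_lit 92470611),Int.negSucc (nat_lit 161501627),Int.negSucc (nat_lit 138240880),Int.negSucc (nat_lit 371476434),Int.negSucc (nat_lit 62701703),Int.ofNat (nat_lit 15896411),Int.negSucc (nat_lit 248070434),Int.ofNat (nat_lit 124346833),Int.negSucc (nat_lit 26819840),Int.negSucc (nat_lit 71280855),Int.ofNat (nat_lit 37298862),Int.negSucc (nat_lit 210913296),Int.negSucc (nat_lit 50372918),Int.negSucc (nat_lit 107922630),Int.ofNat (nat_lit 452265884),Int.negSucc (nat_lit 950505027),Int.ofNat (nat_lit 112628900),Int.ofNat (nat_lit 370145067),Int.ofNat (nat_lit 464336870),Int.ofNat (nat_lit 212558686),Int.negSucc (nat_lit 399078930),Int.negSucc (nat_lit 1051248969),Int.ofNat (nat_lit 98599053),Int.negSucc (nat_lit 388267669),Int.ofNat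 (nat_lit 1004507594),Int.ofNat (nat_lit 927632866),Int.ofNat (nat_lit 64979704),Int.ofNat (nat_lit 1111284645),Int.negSucc (nat_lit 1480060828),Int.ofNat (nat_lit 2108938881)])

/-- A row. -/
noncomputable def sr6_c3_16 : List ℕ × List ℤ :=
  ([(nat_lit 0),(nat_lit 3),(nat_lit 1),(nat_lit 0),(nat_lit 0),(nat_lit 0),(nat_lit 0),(nat_lit 0),(nat_lit 0),(nat_lit 0),(nat_lit 0),(nat_lit 0)], [Int.ofNat (nat_lit 564794668),Int.negSucc (nat_lit 195846281),Int.ofNat (nat_lit 608497262),Int.negSucc (nat_lit 206390131),Int.ofNat (nat_lit 165776950),Int.ofNat (nat_lit 607025375),Int.ofNat (nat_lit 512751674),Int.negSucc (nat_lit 718452646),Int.ofNat (nat_lit 32390075),Int.negSucc (nat_lit 116999127),Int.negSucc (nat_lit 27352162),Int.ofNat (nat_lit 225203056),Int.ofNat (nat_lit 190123738),Int.negSucc (nat_lit 48005137),Int.ofNat (nat_lit 634356536),Int.negSucc (nat_lit 115612175),Int.negSucc (nat_lit 362306271),Int.negSucc (nat_lit 45838041),Int.negSucc (nat_lit 499028521),Int.negSucc (nat_lit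 131238197),Int.ofNat (nat_lit 864961380),Int.negSucc (nat_lit 507024498),Int.ofNat (nat_lit 376815921),Int.ofNat (nat_lit 15673593),Int.ofNat (nat_lit 13529903),Int.ofNat (nat_lit 350072268),Int.ofNat (nat_lit 324023045),Int.ofNat (nat_lit 684189346),Int.ofNat (nat_lit 601906327),Int.negSucc (nat_lit 764358059),Int.ofNat (nat_lit 220453019),Int.ofNat (nat_lit 724721948),Int.ofNat (nat_lit 798089619),Int.ofNat (nat_lit 556781977),Int.negSucc (nat_lit 104221947),Int.ofNat (nat_lit 258900331),Int.negSucc (nat_lit 318844477),Int.negSucc (nat_lit 109936479),Int.ofNat (nat_lit 127012249),Int.ofNat (nat_lit 11288901),Int.ofNat (nat_lit 82391040),Int.negSucc (nat_lit 200326638),Int.negSucc (nat_lit 128572663),Int.ofNat (nat_lit 95969717),Int.ofNat (nat_lit 107701724),Int.negSucc (nat_lit 35621615),Int.negSucc (nat_lit 505149904),Int.ofNat (nat_lit 77813868),Int.ofNat (nat_lit 303329325),Int.ofNat (nat_lit 29107657),Int.ofNat (nat_lit 211918273),Int.ofNat (nat_lit 267301997),Int.negSucc (nat_lit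 49554610),Int.negSucc (nat_lit 125828390),Int.ofNat (nat_lit 153520599),Int.negSucc (nat_lit 444889317),Int.negSucc (nat_lit 54243019),Int.ofNat (nat_lit 45051989),Int.ofNat (nat_lit 183020002),Int.ofNat (nat_lit 1549138),Int.negSucc (nat_lit 92289026),Int.ofNat (nat_lit 161811172),Int.ofNat (nat_lit 449606173),Int.negSucc (nat_lit 128589732),Int.ofNat (nat_lit 3124544),Int.negSucc (nat_lit 99372762),Int.negSucc (nat_lit 358106232),Int.ofNat (nat_lit 15462399),Int.ofNat (nat_lit 103432230),Int.ofNat (nat_lit 73139624),Int.negSucc (nat_lit 24453353),Int.negSucc (nat_lit 188322462),Int.ofNat (nat_lit 49465515),Int.negSucc (nat_lit 10553992),Int.ofNat (nat_lit 133075195),Int.negSucc (nat_lit 20109857),Int.ofNat (nat_lit 148388668),Int.negSucc (nat_lit 11197309),Int.negSucc (nat_lit 16408803),Int.ofNat (nat_lit 87963644),Int.ofNat (nat_lit 69135331),Int.ofNat (nat_lit 66693278),Int.negSucc (nat_lit 102998517),Int.ofNat (nat_lit 37109679),Int.negSucc (nat_lit 10929662),Int.ofNat (nat_lit 25340936),Int.ofNat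 (nat_lit 370347777),Int.negSucc (nat_lit 53551539),Int.negSucc (nat_lit 40483168),Int.ofNat (nat_lit 127864770),Int.negSucc (nat_lit 9356521),Int.ofNat (nat_lit 21956488),Int.negSucc (nat_lit 38698597),Int.negSucc (nat_lit 100216773),Int.ofNat (nat_lit 6212898),Int.negSucc (nat_lit 33738388),Int.negSucc (nat_lit 5844964),Int.negSucc (nat_lit 70644349),Int.ofNat (nat_lit 130786107),Int.negSucc (nat_lit 29043167),Int.negSucc (nat_lit 652193830),Int.negSucc (nat_lit 160411544),Int.ofNat (nat_lit 310635679),Int.negSucc (nat_lit 481721923),Int.ofNat (nat_lit 75665634),Int.ofNat (nat_lit 42665912),Int.negSucc (nat_lit 79494800),Int.ofNat (nat_lit 25493839),Int.negSucc (nat_lit 47757664),Int.negSucc (nat_lit 8164858),Int.ofNat (nat_lit 97186084),Int.ofNat (nat_lit 104949970),Int.ofNat (nat_lit 398816),Int.negSucc (nat_lit 143513216),Int.negSucc (nat_lit 219713257),Int.ofNat (nat_lit 28901),Int.negSucc (nat_lit 71018660),Int.negSucc (nat_lit 50017094),Int.ofNat (nat_lit 41637020),Int.negSucc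 (nat_lit 77231169),Int.ofNat (nat_lit 12241021),Int.negSucc (nat_lit 217389524),Int.ofNat (nat_lit 27192485),Int.negSucc (nat_lit 45321831),Int.ofNat (nat_lit 70470100),Int.negSucc (nat_lit 64554756),Int.ofNat (nat_lit 113333353),Int.negSucc (nat_lit 67964888),Int.negSucc (nat_lit 34009147),Int.ofNat (nat_lit 302813894),Int.negSucc (nat_lit 179352792),Int.ofNat (nat_lit 18720867),Int.ofNat (nat_lit 51856028),Int.negSucc (nat_lit 7541238),Int.negSucc (nat_lit 90299422),Int.negSucc (nat_lit 294648850),Int.ofNat (nat_lit 4298492),Int.negSucc (nat_lit 49135403),Int.ofNat (nat_lit 71372639),Int.negSucc (nat_lit 123324138),Int.ofNat (nat_lit 16738244),Int.ofNat (nat_lit 162026050),Int.negSucc (nat_lit 29361593),Int.negSucc (nat_lit 30355404),Int.ofNat (nat_lit 28483060),Int.negSucc (nat_lit 46654451),Int.negSucc (nat_lit 24483475),Int.ofNat (nat_lit 138809341),Int.negSucc (nat_lit 58984885),Int.ofNat (nat_lit 44932470),Int.negSucc (nat_lit 52916384),Int.ofNat (nat_lit 70797932),Int.ofNat (nat_lit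 142412109),Int.negSucc (nat_lit 41302626),Int.ofNat (nat_lit 22239576),Int.ofNat (nat_lit 129820730),Int.negSucc (nat_lit 191234689),Int.ofNat (nat_lit 97831945),Int.ofNat (nat_lit 42448093),Int.ofNat (nat_lit 1907186),Int.negSucc (nat_lit 41658502),Int.ofNat (nat_lit 46230057),Int.ofNat (nat_lit 2063207),Int.negSucc (nat_lit 42006095),Int.ofNat (nat_lit 33288183),Int.negSucc (nat_lit 76527020),Int.negSucc (nat_lit 157469868),Int.negSucc (nat_lit 293884490),Int.negSucc (nat_lit 50730911),Int.ofNat (nat_lit 53052037),Int.negSucc (nat_lit 75338857),Int.ofNat (nat_lit 75570166),Int.negSucc (nat_lit 52611664),Int.negSucc (nat_lit 55524491),Int.negSucc (nat_lit 3375837),Int.negSucc (nat_lit 122185699),Int.negSucc (nat_lit 8662790),Int.negSucc (nat_lit 57291466),Int.ofNat (nat_lit 253686880),Int.ofNat (nat_lit 47875504),Int.negSucc (nat_lit 168221768),Int.negSucc (nat_lit 213823429),Int.negSucc (nat_lit 102671396),Int.ofNat (nat_lit 213988681),Int.ofNat (nat_lit 57302648),Int.negSucc (nat_lit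 773070596),Int.ofNat (nat_lit 84610128),Int.negSucc (nat_lit 145612229),Int.ofNat (nat_lit 86597988),Int.negSucc (nat_lit 268548122),Int.ofNat (nat_lit 454239182),Int.ofNat (nat_lit 227016562),Int.ofNat (nat_lit 367139398),Int.ofNat (nat_lit 1459876933),Int.ofNat (nat_lit 1540725541)])

/-- A row. -/
noncomputable def sr6_c3_17 : List ℕ × List ℤ :=
  ([(nat_lit 0),(nat_lit 5),(nat_lit 0),(nat_lit 0),(nat_lit 0),(nat_lit 0),(nat_lit 0),(nat_lit 0),(nat_lit 0),(nat_lit 0),(nat_lit 0),(nat_lit 0)], [Int.ofNat (nat_lit 473192246),Int.negSucc (nat_lit 1387790159),Int.negSucc (nat_lit 1066255721),Int.negSucc (nat_lit 1473522858),Int.ofNat (nat_lit 1781275325),Int.ofNat (nat_lit 114213134),Int.ofNat (nat_lit 47678190),Int.ofNat (nat_lit 203352252),Int.negSucc (nat_lit 536836954),Int.negSucc (nat_lit 424459721),Int.negSucc (nat_lit 636927788),Int.negSucc (nat_lit 70078765),Int.negSucc (nat_lit 378591046),Int.negSucc (nat_lit 116807237),Int.negSucc (nat_lit 17457108),Int.negSucc (nat_lit 98791541),Int.negSucc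 (nat_lit 107367633),Int.negSucc (nat_lit 52652330),Int.ofNat (nat_lit 181184550),Int.negSucc (nat_lit 137500220),Int.negSucc (nat_lit 268359600),Int.negSucc (nat_lit 366600753),Int.ofNat (nat_lit 249084212),Int.negSucc (nat_lit 43043386),Int.negSucc (nat_lit 145544225),Int.ofNat (nat_lit 297634061),Int.negSucc (nat_lit 2938612),Int.ofNat (nat_lit 48427010),Int.ofNat (nat_lit 415253961),Int.negSucc (nat_lit 766792036),Int.ofNat (nat_lit 581102321),Int.negSucc (nat_lit 212077471),Int.ofNat (nat_lit 875174258),Int.ofNat (nat_lit 1166846507),Int.ofNat (nat_lit 313917601),Int.negSucc (nat_lit 31426746),Int.negSucc (nat_lit 19826880),Int.ofNat (nat_lit 54125727),Int.negSucc (nat_lit 355715036),Int.negSucc (nat_lit 51048584),Int.negSucc (nat_lit 144641001),Int.ofNat (nat_lit 76896654),Int.negSucc (nat_lit 34974292),Int.negSucc (nat_lit 75615491),Int.negSucc (nat_lit 62646798),Int.ofNat (nat_lit 244435370),Int.ofNat (nat_lit 64491787),Int.negSucc (nat_lit 282528709),Int.ofNat (nat_lit 241715964),Int.ofNat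 (nat_lit 156633483),Int.negSucc (nat_lit 270027066),Int.ofNat (nat_lit 421700759),Int.ofNat (nat_lit 207491346),Int.ofNat (nat_lit 2202276),Int.negSucc (nat_lit 145311833),Int.negSucc (nat_lit 211268197),Int.negSucc (nat_lit 80042969),Int.negSucc (nat_lit 107895545),Int.negSucc (nat_lit 124387992),Int.ofNat (nat_lit 212886303),Int.negSucc (nat_lit 254836399),Int.ofNat (nat_lit 150323442),Int.ofNat (nat_lit 577766681),Int.ofNat (nat_lit 55627397),Int.ofNat (nat_lit 359991130),Int.ofNat (nat_lit 59164205),Int.ofNat (nat_lit 230111378),Int.negSucc (nat_lit 19354449),Int.ofNat (nat_lit 13772507),Int.ofNat (nat_lit 24624892),Int.negSucc (nat_lit 16936799),Int.ofNat (nat_lit 197331388),Int.ofNat (nat_lit 16889053),Int.ofNat (nat_lit 258577861),Int.negSucc (nat_lit 235683907),Int.negSucc (nat_lit 9891090),Int.negSucc (nat_lit 33491568),Int.negSucc (nat_lit 14853481),Int.ofNat (nat_lit 82350594),Int.negSucc (nat_lit 30081076),Int.ofNat (nat_lit 128325900),Int.negSucc (nat_lit 291870006),Int.ofNat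 (nat_lit 128213638),Int.negSucc (nat_lit 242679788),Int.ofNat (nat_lit 77511064),Int.ofNat (nat_lit 76495539),Int.negSucc (nat_lit 273579782),Int.negSucc (nat_lit 35697567),Int.ofNat (nat_lit 98465795),Int.ofNat (nat_lit 63829067),Int.ofNat (nat_lit 120109176),Int.ofNat (nat_lit 117380831),Int.ofNat (nat_lit 202595846),Int.ofNat (nat_lit 126808303),Int.negSucc (nat_lit 50334903),Int.negSucc (nat_lit 28747974),Int.negSucc (nat_lit 82450809),Int.negSucc (nat_lit 193273156),Int.ofNat (nat_lit 77342775),Int.ofNat (nat_lit 383418823),Int.negSucc (nat_lit 66836690),Int.negSucc (nat_lit 295328157),Int.ofNat (nat_lit 16848832),Int.negSucc (nat_lit 74011699),Int.negSucc (nat_lit 150373015),Int.ofNat (nat_lit 84460114),Int.ofNat (nat_lit 124839334),Int.negSucc (nat_lit 14758873),Int.negSucc (nat_lit 69554182),Int.ofNat (nat_lit 63691798),Int.ofNat (nat_lit 120506901),Int.negSucc (nat_lit 74806316),Int.ofNat (nat_lit 60920871),Int.negSucc (nat_lit 29784386),Int.ofNat (nat_lit 9045050),Int.negSucc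 (nat_lit 82395773),Int.ofNat (nat_lit 26985674),Int.negSucc (nat_lit 149494984),Int.negSucc (nat_lit 644154),Int.negSucc (nat_lit 74735852),Int.negSucc (nat_lit 63441236),Int.negSucc (nat_lit 32059231),Int.ofNat (nat_lit 14932567),Int.ofNat (nat_lit 40888487),Int.negSucc (nat_lit 13589498),Int.ofNat (nat_lit 6701168),Int.negSucc (nat_lit 31086188),Int.negSucc (nat_lit 98270644),Int.negSucc (nat_lit 73315294),Int.negSucc (nat_lit 82914239),Int.ofNat (nat_lit 123913953),Int.negSucc (nat_lit 133794829),Int.ofNat (nat_lit 41068528),Int.negSucc (nat_lit 5930707),Int.ofNat (nat_lit 40728509),Int.ofNat (nat_lit 96604702),Int.ofNat (nat_lit 63163265),Int.ofNat (nat_lit 40958220),Int.negSucc (nat_lit 62038445),Int.negSucc (nat_lit 20548873),Int.ofNat (nat_lit 154382659),Int.ofNat (nat_lit 112565181),Int.ofNat (nat_lit 7402666),Int.negSucc (nat_lit 73614890),Int.negSucc (nat_lit 56829794),Int.negSucc (nat_lit 274759516),Int.ofNat (nat_lit 38315834),Int.negSucc (nat_lit 57750210),Int.negSucc (nat_lit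 3290870),Int.negSucc (nat_lit 171745538),Int.ofNat (nat_lit 128846796),Int.ofNat (nat_lit 101995369),Int.negSucc (nat_lit 324763820),Int.negSucc (nat_lit 10630211),Int.negSucc (nat_lit 60430795),Int.negSucc (nat_lit 161695636),Int.ofNat (nat_lit 440497231),Int.ofNat (nat_lit 58452818),Int.negSucc (nat_lit 170311916),Int.negSucc (nat_lit 52883833),Int.ofNat (nat_lit 51238151),Int.ofNat (nat_lit 15177974),Int.ofNat (nat_lit 40671690),Int.negSucc (nat_lit 53639148),Int.negSucc (nat_lit 61430398),Int.negSucc (nat_lit 1327865),Int.ofNat (nat_lit 5499473),Int.ofNat (nat_lit 225556933),Int.negSucc (nat_lit 1522194),Int.ofNat (nat_lit 5677795),Int.ofNat (nat_lit 108210080),Int.negSucc (nat_lit 30252068),Int.negSucc (nat_lit 1647279),Int.ofNat (nat_lit 5210663),Int.negSucc (nat_lit 37070036),Int.ofNat (nat_lit 62984311),Int.ofNat (nat_lit 9016404),Int.ofNat (nat_lit 47933083),Int.negSucc (nat_lit 13337985),Int.ofNat (nat_lit 604899137),Int.negSucc (nat_lit 86067607),Int.negSucc (nat_lit 179932002),Int.negSucc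 (nat_lit 351096572),Int.ofNat (nat_lit 120091962),Int.ofNat (nat_lit 142883365),Int.ofNat (nat_lit 325134362),Int.ofNat (nat_lit 40624329),Int.ofNat (nat_lit 92716731),Int.negSucc (nat_lit 850833286),Int.negSucc (nat_lit 708424504),Int.ofNat (nat_lit 213823608),Int.negSucc (nat_lit 728213085),Int.ofNat (nat_lit 803039518),Int.negSucc (nat_lit 1255267091),Int.ofNat (nat_lit 1126792729),Int.ofNat (nat_lit 1252830466)])

/-- A row. -/
noncomputable def sr6_c3_18 : List ℕ × List ℤ :=
  ([(nat_lit 1),(nat_lit 0),(nat_lit 0),(nat_lit 0),(nat_lit 0),(nat_lit 0),(nat_lit 0),(nat_lit 1),(nat_lit 0),(nat_lit 0),(nat_lit 0),(nat_lit 0)], [Int.ofNat (nat_lit 312782053),Int.negSucc (nat_lit 116825966),Int.ofNat (nat_lit 508008356),Int.ofNat (nat_lit 373397711),Int.negSucc (nat_lit 319120840),Int.ofNat (nat_lit 158108323),Int.ofNat (nat_lit 157687335),Int.ofNat (nat_lit 98603821),Int.negSucc (nat_lit 44037840),Int.negSucc (nat_lit 36115196),Int.ofNat (nat_lit 164663148),Int.negSucc (nat_lit 12677925),Int.ofNat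 (nat_lit 12108899),Int.ofNat (nat_lit 25875397),Int.ofNat (nat_lit 57456160),Int.ofNat (nat_lit 97904594),Int.negSucc (nat_lit 55097512),Int.negSucc (nat_lit 64797028),Int.negSucc (nat_lit 10851660),Int.negSucc (nat_lit 8277840),Int.negSucc (nat_lit 97962276),Int.ofNat (nat_lit 95925605),Int.negSucc (nat_lit 42229191),Int.ofNat (nat_lit 78517785),Int.ofNat (nat_lit 2877902),Int.ofNat (nat_lit 28782694),Int.negSucc (nat_lit 2637976),Int.ofNat (nat_lit 177196665),Int.negSucc (nat_lit 22986329),Int.negSucc (nat_lit 48365773),Int.ofNat (nat_lit 79701657),Int.ofNat (nat_lit 22166510),Int.ofNat (nat_lit 34048084),Int.ofNat (nat_lit 42213015),Int.negSucc (nat_lit 115695879),Int.negSucc (nat_lit 137509839),Int.ofNat (nat_lit 55242974),Int.ofNat (nat_lit 54982695),Int.ofNat (nat_lit 32523492),Int.negSucc (nat_lit 38672230),Int.ofNat (nat_lit 70676815),Int.ofNat (nat_lit 24644093),Int.ofNat (nat_lit 40100006),Int.ofNat (nat_lit 20036485),Int.negSucc (nat_lit 104829820),Int.negSucc (nat_lit 24878663),Int.negSucc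 (nat_lit 101222544),Int.negSucc (nat_lit 12819283),Int.negSucc (nat_lit 63426346),Int.ofNat (nat_lit 1390456),Int.ofNat (nat_lit 37643348),Int.ofNat (nat_lit 24266570),Int.negSucc (nat_lit 19979346),Int.negSucc (nat_lit 26905774),Int.ofNat (nat_lit 24471999),Int.negSucc (nat_lit 75186944),Int.negSucc (nat_lit 74784565),Int.negSucc (nat_lit 77512000),Int.ofNat (nat_lit 94005673),Int.negSucc (nat_lit 60028402),Int.ofNat (nat_lit 41362427),Int.ofNat (nat_lit 25747376),Int.ofNat (nat_lit 58263887),Int.ofNat (nat_lit 9688321),Int.ofNat (nat_lit 47690680),Int.ofNat (nat_lit 63971657),Int.negSucc (nat_lit 86365049),Int.ofNat (nat_lit 17534599),Int.negSucc (nat_lit 59082537),Int.negSucc (nat_lit 72167703),Int.ofNat (nat_lit 2346468),Int.negSucc (nat_lit 18894953),Int.ofNat (nat_lit 5313125),Int.negSucc (nat_lit 7838211),Int.negSucc (nat_lit 51916633),Int.negSucc (nat_lit 42469745),Int.negSucc (nat_lit 22722906),Int.ofNat (nat_lit 31624908),Int.negSucc (nat_lit 17991583),Int.negSucc (nat_lit 17627174),Int.ofNat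 (nat_lit 3853740),Int.negSucc (nat_lit 15321088),Int.ofNat (nat_lit 5381502),Int.negSucc (nat_lit 19813438),Int.ofNat (nat_lit 22348805),Int.negSucc (nat_lit 7608426),Int.ofNat (nat_lit 25473965),Int.negSucc (nat_lit 16244167),Int.negSucc (nat_lit 9272240),Int.ofNat (nat_lit 2527426),Int.negSucc (nat_lit 20498116),Int.ofNat (nat_lit 574728),Int.negSucc (nat_lit 36796276),Int.negSucc (nat_lit 4859316),Int.negSucc (nat_lit 3081845),Int.ofNat (nat_lit 1022992),Int.ofNat (nat_lit 15283344),Int.negSucc (nat_lit 9492911),Int.ofNat (nat_lit 16226032),Int.ofNat (nat_lit 19226980),Int.negSucc (nat_lit 11035061),Int.ofNat (nat_lit 1277991),Int.ofNat (nat_lit 7226870),Int.negSucc (nat_lit 5370218),Int.negSucc (nat_lit 19257973),Int.negSucc (nat_lit 64613193),Int.ofNat (nat_lit 18931574),Int.ofNat (nat_lit 261604),Int.negSucc (nat_lit 26496956),Int.negSucc (nat_lit 764494),Int.ofNat (nat_lit 524657),Int.ofNat (nat_lit 5410877),Int.negSucc (nat_lit 7880676),Int.ofNat (nat_lit 10110424),Int.negSucc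 (nat_lit 36854938),Int.ofNat (nat_lit 24956462),Int.negSucc (nat_lit 15594456),Int.ofNat (nat_lit 19722226),Int.negSucc (nat_lit 667970),Int.ofNat (nat_lit 7495043),Int.negSucc (nat_lit 186972),Int.negSucc (nat_lit 366405),Int.ofNat (nat_lit 26464450),Int.negSucc (nat_lit 29644897),Int.ofNat (nat_lit 34329006),Int.ofNat (nat_lit 3902272),Int.negSucc (nat_lit 15797028),Int.negSucc (nat_lit 29095569),Int.ofNat (nat_lit 20664804),Int.negSucc (nat_lit 10205197),Int.negSucc (nat_lit 7066470),Int.ofNat (nat_lit 13600303),Int.negSucc (nat_lit 10368020),Int.ofNat (nat_lit 23050215),Int.negSucc (nat_lit 7408023),Int.negSucc (nat_lit 8565681),Int.ofNat (nat_lit 325688),Int.negSucc (nat_lit 5333337),Int.ofNat (nat_lit 8018936),Int.ofNat (nat_lit 30365031),Int.negSucc (nat_lit 2669201),Int.ofNat (nat_lit 40016974),Int.ofNat (nat_lit 4171312),Int.negSucc (nat_lit 10112321),Int.ofNat (nat_lit 17967650),Int.ofNat (nat_lit 20494310),Int.negSucc (nat_lit 10882685),Int.ofNat (nat_lit 29614577),Int.ofNat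 (nat_lit 14990885),Int.ofNat (nat_lit 31440389),Int.negSucc (nat_lit 12107871),Int.ofNat (nat_lit 3735588),Int.ofNat (nat_lit 14531204),Int.negSucc (nat_lit 1739975),Int.ofNat (nat_lit 17270380),Int.negSucc (nat_lit 10017778),Int.negSucc (nat_lit 350053),Int.ofNat (nat_lit 615426),Int.negSucc (nat_lit 19451663),Int.ofNat (nat_lit 24349473),Int.negSucc (nat_lit 15906012),Int.negSucc (nat_lit 29735302),Int.ofNat (nat_lit 7001674),Int.negSucc (nat_lit 7867106),Int.negSucc (nat_lit 28172930),Int.ofNat (nat_lit 4598860),Int.negSucc (nat_lit 17060925),Int.negSucc (nat_lit 10583915),Int.ofNat (nat_lit 46652625),Int.negSucc (nat_lit 16630552),Int.negSucc (nat_lit 35539845),Int.ofNat (nat_lit 12836643),Int.negSucc (nat_lit 5143901),Int.negSucc (nat_lit 3819652),Int.ofNat (nat_lit 19220310),Int.ofNat (nat_lit 1685835),Int.ofNat (nat_lit 2443354),Int.negSucc (nat_lit 9738055),Int.negSucc (nat_lit 63340632),Int.negSucc (nat_lit 286969604),Int.ofNat (nat_lit 13479421),Int.ofNat (nat_lit 8935722),Int.negSucc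 (nat_lit 14089415),Int.ofNat (nat_lit 10535702),Int.ofNat (nat_lit 4828601),Int.negSucc (nat_lit 18310208),Int.negSucc (nat_lit 27274444),Int.ofNat (nat_lit 5906645),Int.ofNat (nat_lit 13571197),Int.negSucc (nat_lit 5200951),Int.negSucc (nat_lit 283438),Int.negSucc (nat_lit 3594465),Int.negSucc (nat_lit 6177574),Int.negSucc (nat_lit 7057722),Int.ofNat (nat_lit 7373939),Int.ofNat (nat_lit 711021),Int.ofNat (nat_lit 65940067)])

/-- A row. -/
noncomputable def sr6_c3_19 : List ℕ × List ℤ :=
  ([(nat_lit 1),(nat_lit 0),(nat_lit 0),(nat_lit 0),(nat_lit 0),(nat_lit 1),(nat_lit 0),(nat_lit 0),(nat_lit 0),(nat_lit 0),(nat_lit 0),(nat_lit 0)], [Int.ofNat (nat_lit 1690384721),Int.ofNat (nat_lit 237671981),Int.ofNat (nat_lit 510642554),Int.negSucc (nat_lit 382175934),Int.ofNat (nat_lit 34017975),Int.ofNat (nat_lit 1115818970),Int.ofNat (nat_lit 717886523),Int.negSucc (nat_lit 1086958171),Int.ofNat (nat_lit 1214337378),Int.ofNat (nat_lit 298980433),Int.ofNat (nat_lit 74065507),Int.ofNat (nat_lit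 1022625732),Int.ofNat (nat_lit 19077688),Int.ofNat (nat_lit 22702203),Int.ofNat (nat_lit 511709321),Int.negSucc (nat_lit 109373611),Int.negSucc (nat_lit 154108927),Int.negSucc (nat_lit 69114880),Int.ofNat (nat_lit 302919165),Int.negSucc (nat_lit 256660229),Int.negSucc (nat_lit 164051587),Int.negSucc (nat_lit 143752350),Int.ofNat (nat_lit 306603801),Int.negSucc (nat_lit 234622163),Int.negSucc (nat_lit 474642728),Int.negSucc (nat_lit 105952081),Int.ofNat (nat_lit 343904875),Int.negSucc (nat_lit 77313346),Int.ofNat (nat_lit 43704438),Int.negSucc (nat_lit 249029361),Int.negSucc (nat_lit 438211324),Int.ofNat (nat_lit 66701520),Int.ofNat (nat_lit 188417998),Int.ofNat (nat_lit 22478268),Int.ofNat (nat_lit 318382805),Int.ofNat (nat_lit 264339581),Int.ofNat (nat_lit 74543789),Int.ofNat (nat_lit 396498667),Int.ofNat (nat_lit 243233993),Int.negSucc (nat_lit 306759493),Int.negSucc (nat_lit 140157851),Int.ofNat (nat_lit 13721085),Int.ofNat (nat_lit 74640779),Int.ofNat (nat_lit 311122730),Int.negSucc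 (nat_lit 88533321),Int.ofNat (nat_lit 33642501),Int.negSucc (nat_lit 204896179),Int.negSucc (nat_lit 136141413),Int.negSucc (nat_lit 13655242),Int.ofNat (nat_lit 115457106),Int.negSucc (nat_lit 145870632),Int.negSucc (nat_lit 250401758),Int.ofNat (nat_lit 357013117),Int.negSucc (nat_lit 273483775),Int.ofNat (nat_lit 246852288),Int.ofNat (nat_lit 121132497),Int.negSucc (nat_lit 211850833),Int.negSucc (nat_lit 175485713),Int.ofNat (nat_lit 35230528),Int.ofNat (nat_lit 44305771),Int.ofNat (nat_lit 212834785),Int.negSucc (nat_lit 167878051),Int.negSucc (nat_lit 53327626),Int.negSucc (nat_lit 136487188),Int.negSucc (nat_lit 71217859),Int.negSucc (nat_lit 292612105),Int.negSucc (nat_lit 70542635),Int.ofNat (nat_lit 236729018),Int.ofNat (nat_lit 45338712),Int.negSucc (nat_lit 335609453),Int.ofNat (nat_lit 137894685),Int.negSucc (nat_lit 218050905),Int.negSucc (nat_lit 54974125),Int.negSucc (nat_lit 174624005),Int.ofNat (nat_lit 244639836),Int.ofNat (nat_lit 350697514),Int.ofNat (nat_lit 545484857),Int.ofNat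 (nat_lit 20591595),Int.ofNat (nat_lit 29268216),Int.negSucc (nat_lit 40625201),Int.ofNat (nat_lit 142142556),Int.negSucc (nat_lit 73989544),Int.ofNat (nat_lit 55192397),Int.negSucc (nat_lit 201997438),Int.negSucc (nat_lit 157016234),Int.ofNat (nat_lit 65198850),Int.negSucc (nat_lit 24161771),Int.ofNat (nat_lit 1848893),Int.ofNat (nat_lit 18552423),Int.ofNat (nat_lit 379113997),Int.ofNat (nat_lit 14812389),Int.ofNat (nat_lit 29451693),Int.ofNat (nat_lit 14392982),Int.ofNat (nat_lit 810944),Int.negSucc (nat_lit 41339102),Int.ofNat (nat_lit 59094774),Int.ofNat (nat_lit 185648217),Int.negSucc (nat_lit 22371909),Int.ofNat (nat_lit 49025786),Int.ofNat (nat_lit 171097987),Int.ofNat (nat_lit 97736338),Int.negSucc (nat_lit 34147001),Int.ofNat (nat_lit 39567487),Int.ofNat (nat_lit 111126141),Int.ofNat (nat_lit 127928182),Int.ofNat (nat_lit 24517602),Int.negSucc (nat_lit 77645825),Int.negSucc (nat_lit 13120668),Int.ofNat (nat_lit 183127985),Int.ofNat (nat_lit 16927895),Int.ofNat (nat_lit 40485842),Int.ofNat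 (nat_lit 4980210),Int.negSucc (nat_lit 135990005),Int.ofNat (nat_lit 102592582),Int.ofNat (nat_lit 111311700),Int.ofNat (nat_lit 74036262),Int.ofNat (nat_lit 81909053),Int.negSucc (nat_lit 17481345),Int.negSucc (nat_lit 47397074),Int.ofNat (nat_lit 43923591),Int.ofNat (nat_lit 17043420),Int.ofNat (nat_lit 6129244),Int.ofNat (nat_lit 10601882),Int.ofNat (nat_lit 154835950),Int.negSucc (nat_lit 59745849),Int.ofNat (nat_lit 37340276),Int.ofNat (nat_lit 76416925),Int.ofNat (nat_lit 17834004),Int.negSucc (nat_lit 46237855),Int.ofNat (nat_lit 51217239),Int.ofNat (nat_lit 90908285),Int.negSucc (nat_lit 123685967),Int.ofNat (nat_lit 56429812),Int.ofNat (nat_lit 16226136),Int.negSucc (nat_lit 25775156),Int.ofNat (nat_lit 69253950),Int.ofNat (nat_lit 35915780),Int.ofNat (nat_lit 32639444),Int.negSucc (nat_lit 21348150),Int.negSucc (nat_lit 267642200),Int.negSucc (nat_lit 120055770),Int.negSucc (nat_lit 49359429),Int.ofNat (nat_lit 233889878),Int.ofNat (nat_lit 774620),Int.negSucc (nat_lit 77145684),Int.ofNat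 (nat_lit 15483992),Int.negSucc (nat_lit 87752484),Int.negSucc (nat_lit 19057593),Int.negSucc (nat_lit 92106829),Int.negSucc (nat_lit 172194626),Int.negSucc (nat_lit 63546526),Int.negSucc (nat_lit 26584761),Int.ofNat (nat_lit 478455),Int.ofNat (nat_lit 56370610),Int.negSucc (nat_lit 17267221),Int.negSucc (nat_lit 14943585),Int.ofNat (nat_lit 29990532),Int.ofNat (nat_lit 33534883),Int.ofNat (nat_lit 1046363),Int.ofNat (nat_lit 109760335),Int.negSucc (nat_lit 3278422),Int.ofNat (nat_lit 117541697),Int.ofNat (nat_lit 39903140),Int.negSucc (nat_lit 114384802),Int.ofNat (nat_lit 78824735),Int.negSucc (nat_lit 95609423),Int.negSucc (nat_lit 41376408),Int.negSucc (nat_lit 14812164),Int.ofNat (nat_lit 61450051),Int.negSucc (nat_lit 3070167),Int.negSucc (nat_lit 1340596),Int.ofNat (nat_lit 22346818),Int.ofNat (nat_lit 29490059),Int.ofNat (nat_lit 81021415),Int.negSucc (nat_lit 23611394),Int.ofNat (nat_lit 49733626),Int.negSucc (nat_lit 55798850),Int.negSucc (nat_lit 24427606),Int.ofNat (nat_lit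 383245491),Int.negSucc (nat_lit 254383295),Int.negSucc (nat_lit 1086022603),Int.ofNat (nat_lit 17636295),Int.negSucc (nat_lit 198319182),Int.ofNat (nat_lit 297180539),Int.negSucc (nat_lit 30854080),Int.ofNat (nat_lit 13250553),Int.negSucc (nat_lit 47587980),Int.ofNat (nat_lit 15149076),Int.ofNat (nat_lit 84501483),Int.negSucc (nat_lit 14116904),Int.negSucc (nat_lit 58914785),Int.negSucc (nat_lit 162438827),Int.ofNat (nat_lit 13634457),Int.ofNat (nat_lit 16426016),Int.negSucc (nat_lit 14576559),Int.negSucc (nat_lit 15674554),Int.negSucc (nat_lit 27605540),Int.ofNat (nat_lit 221243141)])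

/-- A row. -/
noncomputable def sr6_c3_20 : List ℕ × List ℤ :=
  ([(nat_lit 1),(nat_lit 0),(nat_lit 0),(nat_lit 1),(nat_lit 0),(nat_lit 0),(nat_lit 0),(nat_lit 0),(nat_lit 0),(nat_lit 0),(nat_lit 0),(nat_lit 0)], [Int.ofNat (nat_lit 118351913),Int.negSucc (nat_lit 715114715),Int.ofNat (nat_lit 2244199933),Int.negSucc (nat_lit 1315319822),Int.negSucc (nat_lit 1226271031),Int.negSucc (nat_lit 90135219),Int.ofNat (nat_lit 726627742),Int.ofNat (nat_lit 89834619),Int.ofNat (nat_lit 858940194),Int.negSucc (nat_lit 294752691),Int.negSucc (nat_lit 697853499),Int.negSucc (nat_lit 556228274),Int.ofNat (nat_lit 442060908),Int.ofNat (nat_lit 393860472),Int.negSucc (nat_lit 117524844),Int.ofNat (nat_lit 436055055),Int.ofNat (nat_lit 235990125),Int.negSucc (nat_lit 362849232),Int.ofNat (nat_lit 348095652),Int.negSucc (nat_lit 100886271),Int.negSucc (nat_lit 1307938273),Int.ofNat (nat_lit 1116066497),Int.negSucc (nat_lit 42010630),Int.ofNat (nat_lit 1004086583),Int.negSucc (nat_lit 173546453),Int.negSucc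 (nat_lit 479721020),Int.negSucc (nat_lit 204044860),Int.ofNat (nat_lit 355729970),Int.ofNat (nat_lit 439440057),Int.negSucc (nat_lit 76068330),Int.ofNat (nat_lit 326984424),Int.ofNat (nat_lit 265088765),Int.ofNat (nat_lit 49551622),Int.ofNat (nat_lit 236658045),Int.negSucc (nat_lit 60587497),Int.negSucc (nat_lit 203632783),Int.ofNat (nat_lit 17992370),Int.ofNat (nat_lit 75392999),Int.negSucc (nat_lit 243805786),Int.negSucc (nat_lit 172049441),Int.ofNat (nat_lit 594622862),Int.negSucc (nat_lit 191684228),Int.ofNat (nat_lit 295269663),Int.ofNat (nat_lit 656180778),Int.negSucc (nat_lit 440978960),Int.negSucc (nat_lit 574871536),Int.negSucc (nat_lit 183562397),Int.negSucc (nat_lit 188808864),Int.negSucc (nat_lit 181546087),Int.negSucc (nat_lit 142164815),Int.ofNat (nat_lit 153266698),Int.ofNat (nat_lit 122925751),Int.negSucc (nat_lit 620884440),Int.negSucc (nat_lit 286678837),Int.negSucc (nat_lit 241189132),Int.negSucc (nat_lit 131047198),Int.negSucc (nat_lit 369570613),Int.negSucc (nat_lit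 415405120),Int.ofNat (nat_lit 19201829),Int.negSucc (nat_lit 374697580),Int.ofNat (nat_lit 148222463),Int.ofNat (nat_lit 51995751),Int.ofNat (nat_lit 121122241),Int.negSucc (nat_lit 68288583),Int.ofNat (nat_lit 364769334),Int.ofNat (nat_lit 516946151),Int.negSucc (nat_lit 533482016),Int.ofNat (nat_lit 83395942),Int.negSucc (nat_lit 707495891),Int.negSucc (nat_lit 153433185),Int.ofNat (nat_lit 72842874),Int.ofNat (nat_lit 329310813),Int.ofNat (nat_lit 82522680),Int.ofNat (nat_lit 320807601),Int.negSucc (nat_lit 410673125),Int.negSucc (nat_lit 32106151),Int.ofNat (nat_lit 142113527),Int.ofNat (nat_lit 241609404),Int.ofNat (nat_lit 267502693),Int.negSucc (nat_lit 375587259),Int.ofNat (nat_lit 655288437),Int.ofNat (nat_lit 117156749),Int.ofNat (nat_lit 144633003),Int.negSucc (nat_lit 150981167),Int.negSucc (nat_lit 172306193),Int.ofNat (nat_lit 103446343),Int.negSucc (nat_lit 94754580),Int.ofNat (nat_lit 25872588),Int.ofNat (nat_lit 139440328),Int.negSucc (nat_lit 221411445),Int.ofNat (nat_lit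 5904672),Int.negSucc (nat_lit 236510229),Int.negSucc (nat_lit 25785123),Int.ofNat (nat_lit 110232324),Int.negSucc (nat_lit 105495134),Int.ofNat (nat_lit 81837602),Int.negSucc (nat_lit 28277479),Int.ofNat (nat_lit 169285482),Int.negSucc (nat_lit 187109616),Int.negSucc (nat_lit 128373207),Int.ofNat (nat_lit 56418949),Int.negSucc (nat_lit 5010772),Int.ofNat (nat_lit 23868083),Int.ofNat (nat_lit 2355647),Int.negSucc (nat_lit 144373132),Int.negSucc (nat_lit 37013160),Int.negSucc (nat_lit 36696846),Int.negSucc (nat_lit 118724611),Int.negSucc (nat_lit 78324205),Int.ofNat (nat_lit 2571408),Int.negSucc (nat_lit 225472333),Int.negSucc (nat_lit 208958162),Int.ofNat (nat_lit 225060278),Int.ofNat (nat_lit 100109884),Int.ofNat (nat_lit 25745938),Int.negSucc (nat_lit 183263389),Int.negSucc (nat_lit 99567296),Int.negSucc (nat_lit 82912619),Int.negSucc (nat_lit 23963709),Int.ofNat (nat_lit 23648903),Int.negSucc (nat_lit 190884507),Int.ofNat (nat_lit 24817916),Int.negSucc (nat_lit 289022811),Int.ofNat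 (nat_lit 3437447),Int.ofNat (nat_lit 341761224),Int.ofNat (nat_lit 29177549),Int.negSucc (nat_lit 24101624),Int.negSucc (nat_lit 29527493),Int.negSucc (nat_lit 21887643),Int.negSucc (nat_lit 200549104),Int.ofNat (nat_lit 69657018),Int.negSucc (nat_lit 132816425),Int.ofNat (nat_lit 67838460),Int.negSucc (nat_lit 22485307),Int.ofNat (nat_lit 237252059),Int.ofNat (nat_lit 9828378),Int.negSucc (nat_lit 80267171),Int.negSucc (nat_lit 69138534),Int.negSucc (nat_lit 10232032),Int.ofNat (nat_lit 148646275),Int.ofNat (nat_lit 82063591),Int.ofNat (nat_lit 83989120),Int.ofNat (nat_lit 347205565),Int.ofNat (nat_lit 8786489),Int.negSucc (nat_lit 134957994),Int.negSucc (nat_lit 68782275),Int.ofNat (nat_lit 121244572),Int.negSucc (nat_lit 344289937),Int.ofNat (nat_lit 45537032),Int.negSucc (nat_lit 16776046),Int.ofNat (nat_lit 31078469),Int.ofNat (nat_lit 60973431),Int.negSucc (nat_lit 63819294),Int.ofNat (nat_lit 142191491),Int.ofNat (nat_lit 99866730),Int.negSucc (nat_lit 71339643),Int.ofNat (nat_lit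 32895522),Int.negSucc (nat_lit 243356441),Int.ofNat (nat_lit 150068079),Int.negSucc (nat_lit 261354938),Int.ofNat (nat_lit 71251706),Int.negSucc (nat_lit 72322731),Int.ofNat (nat_lit 92193561),Int.negSucc (nat_lit 24925956),Int.negSucc (nat_lit 64418979),Int.ofNat (nat_lit 76595282),Int.negSucc (nat_lit 58153667),Int.ofNat (nat_lit 23506112),Int.negSucc (nat_lit 186206126),Int.negSucc (nat_lit 111153399),Int.ofNat (nat_lit 155984871),Int.ofNat (nat_lit 9148324),Int.negSucc (nat_lit 259143442),Int.ofNat (nat_lit 88899215),Int.negSucc (nat_lit 1977192),Int.ofNat (nat_lit 56409216),Int.ofNat (nat_lit 107650013),Int.ofNat (nat_lit 9797174),Int.negSucc (nat_lit 543665086),Int.ofNat (nat_lit 540419278),Int.ofNat (nat_lit 161715733),Int.negSucc (nat_lit 1794557156),Int.negSucc (nat_lit 360866490),Int.negSucc (nat_lit 220553020),Int.ofNat (nat_lit 638139361),Int.ofNat (nat_lit 61781960),Int.ofNat (nat_lit 126352127),Int.ofNat (nat_lit 13403934),Int.negSucc (nat_lit 34708709),Int.negSucc (nat_lit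 18864443),Int.ofNat (nat_lit 34028442),Int.negSucc (nat_lit 2874842),Int.negSucc (nat_lit 230116677),Int.ofNat (nat_lit 12624147),Int.negSucc (nat_lit 72189339),Int.ofNat (nat_lit 17900904),Int.negSucc (nat_lit 182814361),Int.ofNat (nat_lit 75967602),Int.ofNat (nat_lit 563596579)])

/-- A row. -/
noncomputable def sr6_c3_21 : List ℕ × List ℤ :=
  ([(nat_lit 1),(nat_lit 0),(nat_lit 1),(nat_lit 1),(nat_lit 0),(nat_lit 0),(nat_lit 0),(nat_lit 0),(nat_lit 0),(nat_lit 0),(nat_lit 0),(nat_lit 0)], [Int.ofNat (nat_lit 629592807),Int.negSucc (nat_lit 869401973),Int.ofNat (nat_lit 1149505985),Int.ofNat (nat_lit 50299784),Int.negSucc (nat_lit 518368350),Int.ofNat (nat_lit 90126294),Int.ofNat (nat_lit 555139737),Int.ofNat (nat_lit 185393093),Int.ofNat (nat_lit 596698963),Int.negSucc (nat_lit 245986599),Int.negSucc (nat_lit 100287634),Int.ofNat (nat_lit 106897263),Int.negSucc (nat_lit 20916097),Int.ofNat (nat_lit 313213267),Int.negSucc (nat_lit 3356401),Int.ofNat (nat_lit 94018682),Int.ofNat (nat_lit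 72156296),Int.negSucc (nat_lit 337482814),Int.ofNat (nat_lit 292243351),Int.negSucc (nat_lit 112072902),Int.negSucc (nat_lit 603596481),Int.ofNat (nat_lit 536738882),Int.negSucc (nat_lit 88813324),Int.ofNat (nat_lit 479301647),Int.negSucc (nat_lit 179333328),Int.negSucc (nat_lit 163590499),Int.negSucc (nat_lit 4602817),Int.ofNat (nat_lit 321943598),Int.ofNat (nat_lit 235771921),Int.negSucc (nat_lit 94134034),Int.ofNat (nat_lit 160806527),Int.ofNat (nat_lit 155978203),Int.negSucc (nat_lit 60488903),Int.ofNat (nat_lit 141197804),Int.ofNat (nat_lit 59989631),Int.negSucc (nat_lit 302310960),Int.negSucc (nat_lit 124013451),Int.ofNat (nat_lit 79424407),Int.negSucc (nat_lit 99681527),Int.negSucc (nat_lit 138856495),Int.ofNat (nat_lit 308131111),Int.negSucc (nat_lit 56178382),Int.ofNat (nat_lit 177007695),Int.ofNat (nat_lit 177074065),Int.negSucc (nat_lit 184723850),Int.negSucc (nat_lit 323911889),Int.negSucc (nat_lit 333835824),Int.negSucc (nat_lit 108287306),Int.negSucc (nat_lit 200559038),Int.ofNat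 (nat_lit 43918570),Int.ofNat (nat_lit 73496868),Int.ofNat (nat_lit 22304044),Int.negSucc (nat_lit 77093405),Int.negSucc (nat_lit 117798401),Int.negSucc (nat_lit 116160906),Int.ofNat (nat_lit 100760177),Int.negSucc (nat_lit 276581750),Int.negSucc (nat_lit 607775955),Int.ofNat (nat_lit 45319831),Int.negSucc (nat_lit 225401558),Int.ofNat (nat_lit 95873545),Int.ofNat (nat_lit 42573758),Int.ofNat (nat_lit 70664642),Int.ofNat (nat_lit 85933133),Int.ofNat (nat_lit 212042835),Int.ofNat (nat_lit 235456468),Int.negSucc (nat_lit 341334614),Int.ofNat (nat_lit 112663402),Int.negSucc (nat_lit 314183349),Int.negSucc (nat_lit 382971291),Int.ofNat (nat_lit 52764881),Int.negSucc (nat_lit 10946080),Int.ofNat (nat_lit 123968041),Int.ofNat (nat_lit 65696002),Int.negSucc (nat_lit 146211651),Int.negSucc (nat_lit 29205622),Int.ofNat (nat_lit 27249522),Int.ofNat (nat_lit 78814435),Int.ofNat (nat_lit 122733578),Int.negSucc (nat_lit 115347327),Int.ofNat (nat_lit 231691900),Int.ofNat (nat_lit 44728512),Int.ofNat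 (nat_lit 31884991),Int.negSucc (nat_lit 83287),Int.ofNat (nat_lit 9882456),Int.ofNat (nat_lit 2902920),Int.negSucc (nat_lit 55835242),Int.ofNat (nat_lit 27517788),Int.ofNat (nat_lit 39414231),Int.negSucc (nat_lit 12383585),Int.negSucc (nat_lit 3898049),Int.negSucc (nat_lit 120895707),Int.negSucc (nat_lit 61575089),Int.ofNat (nat_lit 15270259),Int.negSucc (nat_lit 42852177),Int.ofNat (nat_lit 27904970),Int.negSucc (nat_lit 37508691),Int.ofNat (nat_lit 41761923),Int.negSucc (nat_lit 39743077),Int.ofNat (nat_lit 13870747),Int.ofNat (nat_lit 19531273),Int.negSucc (nat_lit 14602620),Int.ofNat (nat_lit 20669865),Int.ofNat (nat_lit 7109477),Int.negSucc (nat_lit 65845473),Int.negSucc (nat_lit 48420662),Int.negSucc (nat_lit 15226396),Int.ofNat (nat_lit 36078008),Int.ofNat (nat_lit 33600346),Int.negSucc (nat_lit 30996452),Int.negSucc (nat_lit 112803242),Int.negSucc (nat_lit 72883068),Int.ofNat (nat_lit 62623896),Int.ofNat (nat_lit 57246210),Int.ofNat (nat_lit 54721184),Int.negSucc (nat_lit 37410917),Int.negSucc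 (nat_lit 43297737),Int.negSucc (nat_lit 11474626),Int.ofNat (nat_lit 22904677),Int.ofNat (nat_lit 5495449),Int.negSucc (nat_lit 74372472),Int.ofNat (nat_lit 12677638),Int.negSucc (nat_lit 103962298),Int.ofNat (nat_lit 24914561),Int.ofNat (nat_lit 141272972),Int.ofNat (nat_lit 22269368),Int.negSucc (nat_lit 28598735),Int.negSucc (nat_lit 31023008),Int.negSucc (nat_lit 27324834),Int.negSucc (nat_lit 94435428),Int.ofNat (nat_lit 52875664),Int.negSucc (nat_lit 65019263),Int.ofNat (nat_lit 47331565),Int.negSucc (nat_lit 23589251),Int.ofNat (nat_lit 110689689),Int.negSucc (nat_lit 6838990),Int.negSucc (nat_lit 58098780),Int.ofNat (nat_lit 20832798),Int.negSucc (nat_lit 30610384),Int.ofNat (nat_lit 57578448),Int.ofNat (nat_lit 36771232),Int.ofNat (nat_lit 51609325),Int.ofNat (nat_lit 105341216),Int.ofNat (nat_lit 27450871),Int.negSucc (nat_lit 14163468),Int.ofNat (nat_lit 58514254),Int.ofNat (nat_lit 22010449),Int.ofNat (nat_lit 55610687),Int.ofNat (nat_lit 42485897),Int.ofNat (nat_lit 4043395),Int.ofNat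 (nat_lit 17818259),Int.ofNat (nat_lit 7507782),Int.negSucc (nat_lit 48677671),Int.ofNat (nat_lit 22767432),Int.ofNat (nat_lit 25542735),Int.negSucc (nat_lit 47533701),Int.ofNat (nat_lit 7157982),Int.negSucc (nat_lit 64900097),Int.ofNat (nat_lit 47458720),Int.negSucc (nat_lit 78797372),Int.negSucc (nat_lit 375115),Int.negSucc (nat_lit 42183760),Int.ofNat (nat_lit 38197798),Int.negSucc (nat_lit 29767613),Int.negSucc (nat_lit 33742413),Int.negSucc (nat_lit 1637801),Int.ofNat (nat_lit 615986),Int.negSucc (nat_lit 18849589),Int.ofNat (nat_lit 48202316),Int.negSucc (nat_lit 47564476),Int.ofNat (nat_lit 32052637),Int.negSucc (nat_lit 30486745),Int.negSucc (nat_lit 29329859),Int.ofNat (nat_lit 42019903),Int.negSucc (nat_lit 31848990),Int.ofNat (nat_lit 56646083),Int.ofNat (nat_lit 8006458),Int.negSucc (nat_lit 8726430),Int.negSucc (nat_lit 241904743),Int.negSucc (nat_lit 31537671),Int.negSucc (nat_lit 24482360),Int.negSucc (nat_lit 604549642),Int.negSucc (nat_lit 56203978),Int.negSucc (nat_lit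 104571726),Int.negSucc (nat_lit 415460966),Int.ofNat (nat_lit 1765629),Int.ofNat (nat_lit 13680452),Int.ofNat (nat_lit 10844526),Int.ofNat (nat_lit 17902041),Int.negSucc (nat_lit 3014361),Int.ofNat (nat_lit 14235704),Int.negSucc (nat_lit 13915356),Int.negSucc (nat_lit 38182330),Int.negSucc (nat_lit 14884597),Int.negSucc (nat_lit 22633202),Int.ofNat (nat_lit 11510020),Int.negSucc (nat_lit 17253072),Int.ofNat (nat_lit 12070553),Int.ofNat (nat_lit 62082425),Int.ofNat (nat_lit 140051825)])

/-- A row. -/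
noncomputable def sr6_c3_22 : List ℕ × List ℤ :=
  ([(nat_lit 1),(nat_lit 1),(nat_lit 0),(nat_lit 0),(nat_lit 0),(nat_lit 0),(nat_lit 0),(nat_lit 0),(nat_lit 0),(nat_lit 0),(nat_lit 0),(nat_lit 0)], [Int.negSucc (nat_lit 985450205),Int.ofNat (nat_lit 375024894),Int.ofNat (nat_lit 916444579),Int.ofNat (nat_lit 1360230573),Int.ofNat (nat_lit 920887954),Int.negSucc (nat_lit 2162847637),Int.negSucc (nat_lit 534738742),Int.ofNat (nat_lit 2182189419),Int.ofNat (nat_lit 1077388535),Int.ofNat (nat_lit 565590947),Int.ofNat (nat_lit 740897482),Int.ofNat (nat_lit 1193167504),Int.negSucc (nat_lit 215445469),Int.ofNat (nat_lit 204386595),Int.negSucc (nat_lit 316323111),Int.negSucc (nat_lit 203167407),Int.negSucc (nat_lit 340355275),Int.negSucc (nat_lit 623275119),Int.ofNat (nat_lit 2086375018),Int.negSucc (nat_lit 1133811632),Int.ofNat (nat_lit 741049614),Int.negSucc (nat_lit 835518627),Int.ofNat (nat_lit 479673997),Int.negSucc (nat_lit 2212914480),Int.negSucc (nat_lit 6616941),Int.negSucc (nat_lit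 1979708827),Int.negSucc (nat_lit 1128027383),Int.ofNat (nat_lit 1881479983),Int.negSucc (nat_lit 1069738243),Int.ofNat (nat_lit 442390577),Int.ofNat (nat_lit 244571271),Int.negSucc (nat_lit 1153609671),Int.ofNat (nat_lit 503348249),Int.negSucc (nat_lit 217666695),Int.negSucc (nat_lit 252945653),Int.negSucc (nat_lit 562995514),Int.negSucc (nat_lit 517929425),Int.negSucc (nat_lit 249158231),Int.ofNat (nat_lit 565244886),Int.ofNat (nat_lit 129255919),Int.negSucc (nat_lit 528015916),Int.ofNat (nat_lit 357139094),Int.negSucc (nat_lit 394867597),Int.negSucc (nat_lit 532362552),Int.negSucc (nat_lit 794974301),Int.ofNat (nat_lit 689378544),Int.negSucc (nat_lit 413164709),Int.negSucc (nat_lit 123625757),Int.ofNat (nat_lit 37349808),Int.ofNat (nat_lit 68422258),Int.ofNat (nat_lit 532851686),Int.negSucc (nat_lit 267999670),Int.ofNat (nat_lit 113807651),Int.negSucc (nat_lit 24066449),Int.ofNat (nat_lit 301574569),Int.negSucc (nat_lit 35434809),Int.negSucc (nat_lit 465199472),Int.negSucc (nat_lit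 627055645),Int.ofNat (nat_lit 278945885),Int.negSucc (nat_lit 47851939),Int.negSucc (nat_lit 8971321),Int.ofNat (nat_lit 189900460),Int.ofNat (nat_lit 105582187),Int.ofNat (nat_lit 55020240),Int.negSucc (nat_lit 352855443),Int.negSucc (nat_lit 636359133),Int.negSucc (nat_lit 452526197),Int.ofNat (nat_lit 489503871),Int.ofNat (nat_lit 140492374),Int.negSucc (nat_lit 254456226),Int.negSucc (nat_lit 142122284),Int.negSucc (nat_lit 676955611),Int.ofNat (nat_lit 247023098),Int.negSucc (nat_lit 455287723),Int.negSucc (nat_lit 189117893),Int.negSucc (nat_lit 16954692),Int.ofNat (nat_lit 305879769),Int.ofNat (nat_lit 263858608),Int.negSucc (nat_lit 501303250),Int.ofNat (nat_lit 459602499),Int.ofNat (nat_lit 202508801),Int.negSucc (nat_lit 28863),Int.negSucc (nat_lit 189636312),Int.negSucc (nat_lit 127203611),Int.ofNat (nat_lit 564433119),Int.ofNat (nat_lit 86568206),Int.ofNat (nat_lit 1055283542),Int.negSucc (nat_lit 197403281),Int.negSucc (nat_lit 221467830),Int.ofNat (nat_lit 2149580654),Int.ofNat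 (nat_lit 150529185),Int.ofNat (nat_lit 223388876),Int.negSucc (nat_lit 1466019991),Int.negSucc (nat_lit 482175271),Int.ofNat (nat_lit 521849384),Int.negSucc (nat_lit 5262900),Int.negSucc (nat_lit 44129892),Int.negSucc (nat_lit 350268726),Int.ofNat (nat_lit 25633448),Int.ofNat (nat_lit 1357877156),Int.ofNat (nat_lit 850681738),Int.negSucc (nat_lit 237973414),Int.ofNat (nat_lit 23472045),Int.ofNat (nat_lit 181449262),Int.negSucc (nat_lit 275739041),Int.ofNat (nat_lit 158135839),Int.negSucc (nat_lit 177528806),Int.ofNat (nat_lit 192824411),Int.negSucc (nat_lit 209796028),Int.negSucc (nat_lit 127964065),Int.ofNat (nat_lit 101260812),Int.negSucc (nat_lit 172122927),Int.ofNat (nat_lit 186051343),Int.negSucc (nat_lit 457673009),Int.negSucc (nat_lit 146283906),Int.ofNat (nat_lit 70211655),Int.negSucc (nat_lit 191373061),Int.ofNat (nat_lit 90937990),Int.ofNat (nat_lit 274727499),Int.negSucc (nat_lit 108725604),Int.ofNat (nat_lit 78559140),Int.negSucc (nat_lit 6833803),Int.ofNat (nat_lit 252037193),Int.negSucc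 (nat_lit 91816292),Int.ofNat (nat_lit 128463103),Int.ofNat (nat_lit 145756087),Int.ofNat (nat_lit 722813919),Int.negSucc (nat_lit 176078031),Int.ofNat (nat_lit 70910020),Int.ofNat (nat_lit 119641667),Int.ofNat (nat_lit 211381830),Int.ofNat (nat_lit 79266435),Int.negSucc (nat_lit 6902313),Int.negSucc (nat_lit 327778267),Int.negSucc (nat_lit 379891167),Int.negSucc (nat_lit 73931317),Int.negSucc (nat_lit 202194189),Int.ofNat (nat_lit 105391549),Int.ofNat (nat_lit 194808182),Int.negSucc (nat_lit 77362793),Int.ofNat (nat_lit 175711074),Int.ofNat (nat_lit 444240378),Int.ofNat (nat_lit 11186010),Int.negSucc (nat_lit 40198201),Int.ofNat (nat_lit 225353792),Int.ofNat (nat_lit 233061511),Int.ofNat (nat_lit 147412483),Int.ofNat (nat_lit 537276397),Int.ofNat (nat_lit 236121788),Int.ofNat (nat_lit 112846281),Int.negSucc (nat_lit 407112883),Int.ofNat (nat_lit 63421717),Int.ofNat (nat_lit 102178598),Int.negSucc (nat_lit 115994322),Int.negSucc (nat_lit 381190946),Int.ofNat (nat_lit 13074807),Int.ofNat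 (nat_lit 363089019),Int.ofNat (nat_lit 282332638),Int.negSucc (nat_lit 186588610),Int.ofNat (nat_lit 165161807),Int.ofNat (nat_lit 59567061),Int.negSucc (nat_lit 120535039),Int.negSucc (nat_lit 187657837),Int.negSucc (nat_lit 204060485),Int.ofNat (nat_lit 23139680),Int.negSucc (nat_lit 110576109),Int.ofNat (nat_lit 40500174),Int.negSucc (nat_lit 110703721),Int.negSucc (nat_lit 130890902),Int.ofNat (nat_lit 86313282),Int.negSucc (nat_lit 244359718),Int.negSucc (nat_lit 55135883),Int.ofNat (nat_lit 219238772),Int.ofNat (nat_lit 10835056),Int.negSucc (nat_lit 23664145),Int.negSucc (nat_lit 27149354),Int.negSucc (nat_lit 132889069),Int.negSucc (nat_lit 54962456),Int.negSucc (nat_lit 373281465),Int.ofNat (nat_lit 36223766),Int.negSucc (nat_lit 127121722),Int.negSucc (nat_lit 114919910),Int.ofNat (nat_lit 344202563),Int.ofNat (nat_lit 1061798461),Int.negSucc (nat_lit 814908465),Int.negSucc (nat_lit 3377968037),Int.ofNat (nat_lit 989247524),Int.negSucc (nat_lit 665681189),Int.negSucc (nat_lit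 479066987),Int.ofNat (nat_lit 444076000),Int.ofNat (nat_lit 11734834),Int.negSucc (nat_lit 370532806),Int.ofNat (nat_lit 158041820),Int.negSucc (nat_lit 471192179),Int.negSucc (nat_lit 194206491),Int.ofNat (nat_lit 101940310),Int.ofNat (nat_lit 452237809),Int.negSucc (nat_lit 327277019),Int.negSucc (nat_lit 375694924),Int.ofNat (nat_lit 277670667),Int.ofNat (nat_lit 1127414369)])

/-- A row. -/
noncomputable def sr6_c3_23 : List ℕ × List ℤ :=
  ([(nat_lit 1),(nat_lit 1),(nat_lit 0),(nat_lit 0),(nat_lit 1),(nat_lit 0),(nat_lit 0),(nat_lit 0),(nat_lit 0),(nat_lit 0),(nat_lit 0),(nat_lit 0)], [Int.negSucc (nat_lit 2705125848),Int.negSucc (nat_lit 129892313),Int.negSucc (nat_lit 610861959),Int.negSucc (nat_lit 234531185),Int.negSucc (nat_lit 1558575780),Int.ofNat (nat_lit 65918342),Int.negSucc (nat_lit 903918063),Int.negSucc (nat_lit 126359600),Int.ofNat (nat_lit 70048370),Int.ofNat (nat_lit 518382699),Int.negSucc (nat_lit 135017719),Int.ofNat (nat_lit 73595552),Int.ofNat (nat_lit 583475827),Int.negSucc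 (nat_lit 325835388),Int.ofNat (nat_lit 40612337),Int.negSucc (nat_lit 67824030),Int.ofNat (nat_lit 403326042),Int.ofNat (nat_lit 685055900),Int.ofNat (nat_lit 436314393),Int.negSucc (nat_lit 441125034),Int.negSucc (nat_lit 248512669),Int.ofNat (nat_lit 82779732),Int.ofNat (nat_lit 213986774),Int.negSucc (nat_lit 55974037),Int.negSucc (nat_lit 304900352),Int.negSucc (nat_lit 843541952),Int.negSucc (nat_lit 19352660),Int.negSucc (nat_lit 286314671),Int.negSucc (nat_lit 228157259),Int.ofNat (nat_lit 81708510),Int.negSucc (nat_lit 233888857),Int.negSucc (nat_lit 382405865),Int.ofNat (nat_lit 1766835),Int.negSucc (nat_lit 219913771),Int.negSucc (nat_lit 149154432),Int.ofNat (nat_lit 508194980),Int.negSucc (nat_lit 298595255),Int.negSucc (nat_lit 302163654),Int.ofNat (nat_lit 353449182),Int.ofNat (nat_lit 103103694),Int.negSucc (nat_lit 326961727),Int.ofNat (nat_lit 274558520),Int.negSucc (nat_lit 155127330),Int.ofNat (nat_lit 200968555),Int.negSucc (nat_lit 5430304),Int.ofNat (nat_lit 149052812),Int.ofNat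 (nat_lit 226545760),Int.ofNat (nat_lit 115057074),Int.negSucc (nat_lit 250526394),Int.negSucc (nat_lit 153699171),Int.ofNat (nat_lit 20759646),Int.ofNat (nat_lit 14144246),Int.ofNat (nat_lit 36763679),Int.negSucc (nat_lit 49296846),Int.negSucc (nat_lit 130705255),Int.negSucc (nat_lit 202387852),Int.negSucc (nat_lit 122138690),Int.ofNat (nat_lit 78837335),Int.ofNat (nat_lit 111481913),Int.negSucc (nat_lit 95494859),Int.ofNat (nat_lit 55997131),Int.negSucc (nat_lit 42921220),Int.negSucc (nat_lit 315559468),Int.ofNat (nat_lit 30791799),Int.ofNat (nat_lit 70850604),Int.negSucc (nat_lit 262805627),Int.ofNat (nat_lit 155564768),Int.negSucc (nat_lit 16624537),Int.ofNat (nat_lit 29092992),Int.ofNat (nat_lit 25924469),Int.ofNat (nat_lit 42341857),Int.negSucc (nat_lit 172712960),Int.negSucc (nat_lit 42621526),Int.ofNat (nat_lit 187582363),Int.ofNat (nat_lit 306222374),Int.ofNat (nat_lit 54082889),Int.ofNat (nat_lit 117810178),Int.negSucc (nat_lit 114731731),Int.negSucc (nat_lit 22992716),Int.ofNat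 (nat_lit 89978614),Int.negSucc (nat_lit 103712081),Int.negSucc (nat_lit 125949381),Int.ofNat (nat_lit 82385370),Int.negSucc (nat_lit 134830419),Int.ofNat (nat_lit 30351024),Int.ofNat (nat_lit 20087115),Int.negSucc (nat_lit 114663681),Int.ofNat (nat_lit 10174184),Int.ofNat (nat_lit 163606244),Int.ofNat (nat_lit 280517005),Int.negSucc (nat_lit 7855897),Int.ofNat (nat_lit 101607415),Int.negSucc (nat_lit 14439019),Int.negSucc (nat_lit 100625899),Int.ofNat (nat_lit 646608),Int.negSucc (nat_lit 65826490),Int.ofNat (nat_lit 107417487),Int.negSucc (nat_lit 131807653),Int.ofNat (nat_lit 66114794),Int.ofNat (nat_lit 46946417),Int.ofNat (nat_lit 63105644),Int.negSucc (nat_lit 39376421),Int.negSucc (nat_lit 24670648),Int.ofNat (nat_lit 87790242),Int.ofNat (nat_lit 143684353),Int.ofNat (nat_lit 93370169),Int.ofNat (nat_lit 12086769),Int.ofNat (nat_lit 33987444),Int.ofNat (nat_lit 133416117),Int.ofNat (nat_lit 20120369),Int.ofNat (nat_lit 165072109),Int.ofNat (nat_lit 50818232),Int.negSucc (nat_lit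 83520869),Int.ofNat (nat_lit 80411462),Int.ofNat (nat_lit 109668665),Int.ofNat (nat_lit 85882574),Int.ofNat (nat_lit 202856111),Int.negSucc (nat_lit 49396435),Int.negSucc (nat_lit 10440740),Int.negSucc (nat_lit 18258135),Int.ofNat (nat_lit 47007137),Int.negSucc (nat_lit 20691939),Int.ofNat (nat_lit 197729113),Int.negSucc (nat_lit 133908989),Int.negSucc (nat_lit 108167387),Int.negSucc (nat_lit 70103233),Int.ofNat (nat_lit 104606934),Int.ofNat (nat_lit 151749124),Int.ofNat (nat_lit 21180775),Int.ofNat (nat_lit 116025292),Int.ofNat (nat_lit 123971330),Int.ofNat (nat_lit 147518406),Int.negSucc (nat_lit 22740015),Int.ofNat (nat_lit 115252984),Int.negSucc (nat_lit 139748302),Int.ofNat (nat_lit 124392676),Int.ofNat (nat_lit 128582759),Int.negSucc (nat_lit 109611186),Int.ofNat (nat_lit 79378227),Int.negSucc (nat_lit 31872805),Int.negSucc (nat_lit 143906983),Int.negSucc (nat_lit 117373368),Int.negSucc (nat_lit 140837435),Int.ofNat (nat_lit 91702134),Int.ofNat (nat_lit 3898611),Int.negSucc (nat_lit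 38798247),Int.ofNat (nat_lit 68011319),Int.ofNat (nat_lit 7731317),Int.negSucc (nat_lit 56654196),Int.negSucc (nat_lit 56569257),Int.ofNat (nat_lit 3540434),Int.negSucc (nat_lit 19281883),Int.negSucc (nat_lit 25753995),Int.negSucc (nat_lit 107849588),Int.negSucc (nat_lit 43701664),Int.ofNat (nat_lit 65908998),Int.ofNat (nat_lit 12381831),Int.ofNat (nat_lit 13973346),Int.negSucc (nat_lit 25105065),Int.ofNat (nat_lit 288739851),Int.negSucc (nat_lit 12782071),Int.ofNat (nat_lit 56528692),Int.negSucc (nat_lit 125676013),Int.ofNat (nat_lit 667795),Int.ofNat (nat_lit 51688643),Int.negSucc (nat_lit 5822966),Int.ofNat (nat_lit 63507095),Int.ofNat (nat_lit 4239844),Int.negSucc (nat_lit 49028042),Int.ofNat (nat_lit 12134128),Int.negSucc (nat_lit 106087940),Int.ofNat (nat_lit 107817494),Int.negSucc (nat_lit 3206477),Int.negSucc (nat_lit 65710093),Int.negSucc (nat_lit 53507477),Int.negSucc (nat_lit 5641712),Int.ofNat (nat_lit 33911235),Int.negSucc (nat_lit 12669016),Int.ofNat (nat_lit 365714550),Int.ofNat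 (nat_lit 201832745),Int.negSucc (nat_lit 257026267),Int.ofNat (nat_lit 540740210),Int.negSucc (nat_lit 486448020),Int.ofNat (nat_lit 58582782),Int.negSucc (nat_lit 86380363),Int.ofNat (nat_lit 557779180),Int.ofNat (nat_lit 131080460),Int.negSucc (nat_lit 960101692),Int.ofNat (nat_lit 165722334),Int.ofNat (nat_lit 60546884),Int.ofNat (nat_lit 79102663),Int.ofNat (nat_lit 10384876),Int.negSucc (nat_lit 46490903),Int.negSucc (nat_lit 10241254),Int.ofNat (nat_lit 35537287),Int.ofNat (nat_lit 14728956),Int.ofNat (nat_lit 45799211),Int.ofNat (nat_lit 2378712),Int.negSucc (nat_lit 56708770),Int.ofNat (nat_lit 20058608),Int.negSucc (nat_lit 53146521),Int.ofNat (nat_lit 217115307)])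

/-- A row. -/
noncomputable def sr6_c3_24 : List ℕ × List ℤ :=
  ([(nat_lit 1),(nat_lit 1),(nat_lit 1),(nat_lit 0),(nat_lit 0),(nat_lit 0),(nat_lit 0),(nat_lit 0),(nat_lit 0),(nat_lit 0),(nat_lit 0),(nat_lit 0)], [Int.negSucc (nat_lit 2608608747),Int.ofNat (nat_lit 300640135),Int.ofNat (nat_lit 2196850201),Int.negSucc (nat_lit 205789146),Int.negSucc (nat_lit 991761650),Int.negSucc (nat_lit 3618418739),Int.ofNat (nat_lit 2583385),Int.ofNat (nat_lit 2508441217),Int.ofNat (nat_lit 1180282901),Int.ofNat (nat_lit 720087432),Int.negSucc (nat_lit 105637739),Int.ofNat (nat_lit 24018926),Int.ofNat (nat_lit 656891193),Int.ofNat (nat_lit 293747326),Int.negSucc (nat_lit 543620125),Int.ofNat (nat_lit 105771503),Int.ofNat (nat_lit 594391335),Int.ofNat (nat_lit 162071044),Int.ofNat (nat_lit 1796235732),Int.negSucc (nat_lit 1169832220),Int.negSucc (nat_lit 299320954),Int.ofNat (nat_lit 484796261),Int.negSucc (nat_lit 131377226),Int.negSucc (nat_lit 651221705),Int.negSucc (nat_lit 246005841),Int.negSucc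 (nat_lit 2891549887),Int.negSucc (nat_lit 1142414412),Int.ofNat (nat_lit 988642487),Int.ofNat (nat_lit 6687569),Int.ofNat (nat_lit 640806411),Int.ofNat (nat_lit 667625619),Int.negSucc (nat_lit 1104775742),Int.ofNat (nat_lit 150167157),Int.negSucc (nat_lit 240864246),Int.negSucc (nat_lit 712172874),Int.ofNat (nat_lit 26103962),Int.negSucc (nat_lit 527418265),Int.negSucc (nat_lit 692254439),Int.ofNat (nat_lit 652246841),Int.ofNat (nat_lit 488116082),Int.negSucc (nat_lit 145094716),Int.ofNat (nat_lit 427468138),Int.negSucc (nat_lit 268091180),Int.ofNat (nat_lit 475460738),Int.negSucc (nat_lit 1087742205),Int.ofNat (nat_lit 38917194),Int.negSucc (nat_lit 212048825),Int.negSucc (nat_lit 202069638),Int.negSucc (nat_lit 288448990),Int.negSucc (nat_lit 58726731),Int.ofNat (nat_lit 758466533),Int.ofNat (nat_lit 253163517),Int.negSucc (nat_lit 663333879),Int.negSucc (nat_lit 179631926),Int.negSucc (nat_lit 134558078),Int.negSucc (nat_lit 259597749),Int.negSucc (nat_lit 772107449),Int.negSucc (nat_lit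 819942057),Int.ofNat (nat_lit 7446738),Int.negSucc (nat_lit 353994828),Int.ofNat (nat_lit 59307008),Int.ofNat (nat_lit 22135961),Int.ofNat (nat_lit 16658752),Int.negSucc (nat_lit 528463045),Int.negSucc (nat_lit 173209110),Int.negSucc (nat_lit 298520592),Int.negSucc (nat_lit 775745173),Int.ofNat (nat_lit 199199209),Int.negSucc (nat_lit 195549796),Int.negSucc (nat_lit 58643659),Int.negSucc (nat_lit 272902124),Int.negSucc (nat_lit 269251854),Int.ofNat (nat_lit 119985862),Int.ofNat (nat_lit 45780604),Int.negSucc (nat_lit 648532553),Int.negSucc (nat_lit 311932331),Int.ofNat (nat_lit 279622892),Int.ofNat (nat_lit 174642200),Int.negSucc (nat_lit 255696175),Int.ofNat (nat_lit 100281618),Int.ofNat (nat_lit 347901919),Int.ofNat (nat_lit 26132029),Int.negSucc (nat_lit 131584016),Int.negSucc (nat_lit 137285364),Int.ofNat (nat_lit 267623591),Int.ofNat (nat_lit 193967798),Int.ofNat (nat_lit 600577885),Int.negSucc (nat_lit 171532345),Int.ofNat (nat_lit 110958612),Int.ofNat (nat_lit 1652854863),Int.ofNat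 (nat_lit 221801205),Int.ofNat (nat_lit 142268254),Int.negSucc (nat_lit 732210112),Int.negSucc (nat_lit 189056010),Int.negSucc (nat_lit 203811005),Int.ofNat (nat_lit 7676785),Int.negSucc (nat_lit 24737219),Int.negSucc (nat_lit 328078457),Int.negSucc (nat_lit 14472906),Int.ofNat (nat_lit 816850179),Int.ofNat (nat_lit 844615879),Int.negSucc (nat_lit 37256925),Int.negSucc (nat_lit 25163441),Int.ofNat (nat_lit 231356558),Int.negSucc (nat_lit 385570321),Int.ofNat (nat_lit 175845541),Int.negSucc (nat_lit 205505106),Int.negSucc (nat_lit 87732012),Int.negSucc (nat_lit 230136314),Int.negSucc (nat_lit 69240325),Int.negSucc (nat_lit 2738323),Int.negSucc (nat_lit 102188917),Int.ofNat (nat_lit 522889673),Int.negSucc (nat_lit 55190706),Int.negSucc (nat_lit 60241589),Int.negSucc (nat_lit 295410947),Int.negSucc (nat_lit 61144814),Int.ofNat (nat_lit 6792998),Int.ofNat (nat_lit 355545851),Int.negSucc (nat_lit 214678010),Int.ofNat (nat_lit 45211916),Int.negSucc (nat_lit 155449015),Int.ofNat (nat_lit 128337088),Int.negSucc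 (nat_lit 181646156),Int.ofNat (nat_lit 305593104),Int.ofNat (nat_lit 136853822),Int.ofNat (nat_lit 448961411),Int.negSucc (nat_lit 397988863),Int.ofNat (nat_lit 232573748),Int.ofNat (nat_lit 103088920),Int.ofNat (nat_lit 283342422),Int.ofNat (nat_lit 49040699),Int.ofNat (nat_lit 38908063),Int.negSucc (nat_lit 152427146),Int.negSucc (nat_lit 287997310),Int.negSucc (nat_lit 774591),Int.negSucc (nat_lit 207879889),Int.ofNat (nat_lit 61546755),Int.ofNat (nat_lit 140895877),Int.ofNat (nat_lit 92283412),Int.ofNat (nat_lit 327293714),Int.ofNat (nat_lit 549141526),Int.ofNat (nat_lit 11652252),Int.ofNat (nat_lit 43133256),Int.ofNat (nat_lit 116126392),Int.ofNat (nat_lit 244129207),Int.ofNat (nat_lit 221094597),Int.ofNat (nat_lit 589315363),Int.ofNat (nat_lit 288852893),Int.ofNat (nat_lit 149117184),Int.negSucc (nat_lit 204057512),Int.ofNat (nat_lit 114206047),Int.ofNat (nat_lit 77985230),Int.negSucc (nat_lit 59948916),Int.negSucc (nat_lit 428318373),Int.ofNat (nat_lit 68269954),Int.ofNat (nat_lit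 325986405),Int.ofNat (nat_lit 92576064),Int.negSucc (nat_lit 112189611),Int.ofNat (nat_lit 79939696),Int.ofNat (nat_lit 249765035),Int.negSucc (nat_lit 111383102),Int.negSucc (nat_lit 140282837),Int.negSucc (nat_lit 167354960),Int.negSucc (nat_lit 102897715),Int.negSucc (nat_lit 45841846),Int.ofNat (nat_lit 101725627),Int.negSucc (nat_lit 25430165),Int.negSucc (nat_lit 275678645),Int.ofNat (nat_lit 36330689),Int.negSucc (nat_lit 215480940),Int.negSucc (nat_lit 13079376),Int.negSucc (nat_lit 37778137),Int.negSucc (nat_lit 13339906),Int.ofNat (nat_lit 28602580),Int.negSucc (nat_lit 16123003),Int.negSucc (nat_lit 76396622),Int.negSucc (nat_lit 540611),Int.negSucc (nat_lit 307220563),Int.ofNat (nat_lit 612614947),Int.ofNat (nat_lit 128388766),Int.negSucc (nat_lit 1078758872),Int.ofNat (nat_lit 303638884),Int.ofNat (nat_lit 624979148),Int.ofNat (nat_lit 66806893),Int.negSucc (nat_lit 2121529466),Int.ofNat (nat_lit 1696957775),Int.negSucc (nat_lit 1309155907),Int.negSucc (nat_lit 710478763),Int.negSucc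 (nat_lit 982975572),Int.ofNat (nat_lit 618229370),Int.negSucc (nat_lit 296294426),Int.ofNat (nat_lit 108468252),Int.negSucc (nat_lit 332939263),Int.negSucc (nat_lit 495814389),Int.ofNat (nat_lit 19773512),Int.ofNat (nat_lit 27525202),Int.negSucc (nat_lit 170449928),Int.ofNat (nat_lit 359290138),Int.ofNat (nat_lit 191267681),Int.ofNat (nat_lit 701190409),Int.negSucc (nat_lit 342299589),Int.ofNat (nat_lit 763027186)])

/-- A row. -/
noncomputable def sr6_c3_25 : List ℕ × List ℤ :=
  ([(nat_lit 1),(nat_lit 2),(nat_lit 0),(nat_lit 1),(nat_lit 0),(nat_lit 0),(nat_lit 0),(nat_lit 0),(nat_lit 0),(nat_lit 0),(nat_lit 0),(nat_lit 0)], [Int.negSucc (nat_lit 1704711823),Int.ofNat (nat_lit 2544258797),Int.ofNat (nat_lit 84216795),Int.ofNat (nat_lit 1709733481),Int.negSucc (nat_lit 2473740019),Int.ofNat (nat_lit 1879642829),Int.negSucc (nat_lit 2014661533),Int.negSucc (nat_lit 1874768805),Int.ofNat (nat_lit 90125513),Int.negSucc (nat_lit 1550410931),Int.ofNat (nat_lit 1459851944),Int.ofNat (nat_lit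 963156343),Int.negSucc (nat_lit 79007010),Int.negSucc (nat_lit 41366567),Int.ofNat (nat_lit 293164233),Int.negSucc (nat_lit 127253300),Int.ofNat (nat_lit 280361780),Int.negSucc (nat_lit 960909783),Int.ofNat (nat_lit 75577518),Int.ofNat (nat_lit 474389866),Int.ofNat (nat_lit 192461082),Int.negSucc (nat_lit 869329930),Int.ofNat (nat_lit 1878584),Int.negSucc (nat_lit 134290831),Int.negSucc (nat_lit 151940074),Int.ofNat (nat_lit 706601690),Int.negSucc (nat_lit 486202043),Int.ofNat (nat_lit 95010898),Int.negSucc (nat_lit 895020147),Int.ofNat (nat_lit 407804917),Int.negSucc (nat_lit 1078776113),Int.negSucc (nat_lit 56513054),Int.negSucc (nat_lit 151983805),Int.ofNat (nat_lit 295927554),Int.negSucc (nat_lit 405264547),Int.negSucc (nat_lit 385409410),Int.ofNat (nat_lit 1111858435),Int.ofNat (nat_lit 372249141),Int.negSucc (nat_lit 158462040),Int.negSucc (nat_lit 485445196),Int.negSucc (nat_lit 492890916),Int.ofNat (nat_lit 620143250),Int.negSucc (nat_lit 141018806),Int.negSucc (nat_lit 234099523),Int.ofNat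 (nat_lit 415360648),Int.negSucc (nat_lit 115439366),Int.negSucc (nat_lit 132700130),Int.ofNat (nat_lit 199031032),Int.negSucc (nat_lit 78284525),Int.ofNat (nat_lit 575301307),Int.ofNat (nat_lit 372864165),Int.ofNat (nat_lit 172337790),Int.ofNat (nat_lit 196288090),Int.negSucc (nat_lit 275382106),Int.negSucc (nat_lit 164022201),Int.ofNat (nat_lit 926232556),Int.ofNat (nat_lit 251327355),Int.ofNat (nat_lit 86249077),Int.negSucc (nat_lit 164569846),Int.negSucc (nat_lit 425499467),Int.ofNat (nat_lit 76260894),Int.negSucc (nat_lit 634529862),Int.negSucc (nat_lit 503258744),Int.ofNat (nat_lit 347504873),Int.ofNat (nat_lit 114626585),Int.ofNat (nat_lit 640824385),Int.ofNat (nat_lit 1630227992),Int.ofNat (nat_lit 535662512),Int.ofNat (nat_lit 67443322),Int.negSucc (nat_lit 216317845),Int.negSucc (nat_lit 1248904400),Int.ofNat (nat_lit 46400996),Int.negSucc (nat_lit 256356244),Int.negSucc (nat_lit 290337907),Int.ofNat (nat_lit 571125627),Int.ofNat (nat_lit 342372015),Int.negSucc (nat_lit 54261626),Int.negSucc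 (nat_lit 114264736),Int.negSucc (nat_lit 218815741),Int.ofNat (nat_lit 74355121),Int.negSucc (nat_lit 206979577),Int.negSucc (nat_lit 206417275),Int.ofNat (nat_lit 46261413),Int.ofNat (nat_lit 68136206),Int.negSucc (nat_lit 116245171),Int.negSucc (nat_lit 74106979),Int.ofNat (nat_lit 44061839),Int.negSucc (nat_lit 44276774),Int.negSucc (nat_lit 59813846),Int.negSucc (nat_lit 528303256),Int.negSucc (nat_lit 96157095),Int.ofNat (nat_lit 17396303),Int.ofNat (nat_lit 106790086),Int.negSucc (nat_lit 114179960),Int.ofNat (nat_lit 74587307),Int.ofNat (nat_lit 206176016),Int.ofNat (nat_lit 562863410),Int.ofNat (nat_lit 436800711),Int.negSucc (nat_lit 379734373),Int.negSucc (nat_lit 109250124),Int.ofNat (nat_lit 46264692),Int.ofNat (nat_lit 181134599),Int.ofNat (nat_lit 61935424),Int.negSucc (nat_lit 74995131),Int.ofNat (nat_lit 493183423),Int.negSucc (nat_lit 140682317),Int.ofNat (nat_lit 158993934),Int.ofNat (nat_lit 53117852),Int.ofNat (nat_lit 10897865),Int.negSucc (nat_lit 182856022),Int.ofNat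 (nat_lit 41312369),Int.ofNat (nat_lit 81191382),Int.negSucc (nat_lit 412245702),Int.ofNat (nat_lit 103304835),Int.ofNat (nat_lit 338592193),Int.negSucc (nat_lit 257658417),Int.ofNat (nat_lit 15012268),Int.ofNat (nat_lit 108432154),Int.negSucc (nat_lit 106671997),Int.ofNat (nat_lit 93820428),Int.ofNat (nat_lit 127152318),Int.ofNat (nat_lit 52658685),Int.ofNat (nat_lit 280273718),Int.ofNat (nat_lit 33123276),Int.negSucc (nat_lit 13195024),Int.negSucc (nat_lit 202163743),Int.negSucc (nat_lit 170698867),Int.ofNat (nat_lit 259404058),Int.negSucc (nat_lit 126838697),Int.ofNat (nat_lit 318922043),Int.ofNat (nat_lit 63945115),Int.negSucc (nat_lit 9535069),Int.negSucc (nat_lit 143464312),Int.ofNat (nat_lit 8125505),Int.ofNat (nat_lit 81017624),Int.ofNat (nat_lit 277825065),Int.negSucc (nat_lit 212303370),Int.negSucc (nat_lit 56075927),Int.ofNat (nat_lit 101350883),Int.negSucc (nat_lit 261079315),Int.negSucc (nat_lit 130694726),Int.negSucc (nat_lit 503070379),Int.negSucc (nat_lit 86778421),Int.ofNat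 (nat_lit 14067126),Int.negSucc (nat_lit 165257373),Int.ofNat (nat_lit 64662474),Int.negSucc (nat_lit 78669841),Int.ofNat (nat_lit 174228608),Int.ofNat (nat_lit 317043444),Int.ofNat (nat_lit 106344195),Int.negSucc (nat_lit 206160193),Int.ofNat (nat_lit 54055604),Int.ofNat (nat_lit 183535800),Int.ofNat (nat_lit 9063405),Int.ofNat (nat_lit 671237478),Int.negSucc (nat_lit 409003166),Int.negSucc (nat_lit 423020108),Int.negSucc (nat_lit 62101694),Int.ofNat (nat_lit 122644716),Int.ofNat (nat_lit 41842549),Int.negSucc (nat_lit 252133360),Int.negSucc (nat_lit 140728076),Int.negSucc (nat_lit 39416401),Int.ofNat (nat_lit 57810052),Int.negSucc (nat_lit 39800635),Int.ofNat (nat_lit 178618037),Int.negSucc (nat_lit 269553154),Int.ofNat (nat_lit 226401301),Int.negSucc (nat_lit 38597707),Int.negSucc (nat_lit 119385609),Int.negSucc (nat_lit 86541839),Int.negSucc (nat_lit 202844778),Int.ofNat (nat_lit 60668605),Int.negSucc (nat_lit 125914443),Int.ofNat (nat_lit 31058896),Int.negSucc (nat_lit 160127753),Int.negSucc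 (nat_lit 91735226),Int.negSucc (nat_lit 70200949),Int.ofNat (nat_lit 497696731),Int.negSucc (nat_lit 664559446),Int.ofNat (nat_lit 679249226),Int.ofNat (nat_lit 1263017981),Int.negSucc (nat_lit 234106754),Int.negSucc (nat_lit 170128523),Int.negSucc (nat_lit 464510266),Int.ofNat (nat_lit 542586349),Int.negSucc (nat_lit 713286051),Int.ofNat (nat_lit 277386851),Int.negSucc (nat_lit 404888488),Int.ofNat (nat_lit 627643217),Int.ofNat (nat_lit 910631506),Int.negSucc (nat_lit 314449055),Int.negSucc (nat_lit 3395009824),Int.negSucc (nat_lit 395761819),Int.ofNat (nat_lit 176437946),Int.ofNat (nat_lit 235274202),Int.ofNat (nat_lit 218813392),Int.negSucc (nat_lit 166896970),Int.ofNat (nat_lit 174468165),Int.ofNat (nat_lit 288248297),Int.negSucc (nat_lit 530083074),Int.ofNat (nat_lit 521131352),Int.negSucc (nat_lit 171782856),Int.ofNat (nat_lit 984958013)])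

/-- A row. -/
noncomputable def sr6_c3_26 : List ℕ × List ℤ :=
  ([(nat_lit 1),(nat_lit 3),(nat_lit 0),(nat_lit 0),(nat_lit 0),(nat_lit 0),(nat_lit 0),(nat_lit 0),(nat_lit 0),(nat_lit 0),(nat_lit 0),(nat_lit 0)], [Int.negSucc (nat_lit 576997675),Int.negSucc (nat_lit 2132717260),Int.negSucc (nat_lit 1329864559),Int.negSucc (nat_lit 1052133163),Int.negSucc (nat_lit 386907630),Int.negSucc (nat_lit 483413979),Int.ofNat (nat_lit 158031478),Int.negSucc (nat_lit 181109267),Int.negSucc (nat_lit 72674428),Int.ofNat (nat_lit 257222118),Int.negSucc (nat_lit 1594350282),Int.negSucc (nat_lit 862628347),Int.negSucc (nat_lit 511280553),Int.negSucc (nat_lit 301941815),Int.negSucc (nat_lit 342481909),Int.ofNat (nat_lit 76989086),Int.ofNat (nat_lit 250467291),Int.ofNat (nat_lit 539555369),Int.ofNat (nat_lit 450211611),Int.ofNat (nat_lit 160342591),Int.negSucc (nat_lit 751709347),Int.ofNat (nat_lit 995828875),Int.negSucc (nat_lit 697306905),Int.ofNat (nat_lit 1316165233),Int.ofNat (nat_lit 17025956),Int.negSucc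 (nat_lit 627416783),Int.ofNat (nat_lit 589789535),Int.negSucc (nat_lit 1400240246),Int.ofNat (nat_lit 1212649334),Int.ofNat (nat_lit 177274884),Int.negSucc (nat_lit 1098050543),Int.negSucc (nat_lit 759511492),Int.negSucc (nat_lit 32830340),Int.negSucc (nat_lit 757729955),Int.ofNat (nat_lit 45398607),Int.ofNat (nat_lit 197811415),Int.negSucc (nat_lit 566532181),Int.negSucc (nat_lit 447688645),Int.negSucc (nat_lit 601501453),Int.ofNat (nat_lit 239508494),Int.ofNat (nat_lit 617252554),Int.negSucc (nat_lit 832263781),Int.ofNat (nat_lit 259144254),Int.ofNat (nat_lit 176585944),Int.ofNat (nat_lit 81565754),Int.negSucc (nat_lit 399945094),Int.negSucc (nat_lit 189078670),Int.negSucc (nat_lit 229861450),Int.negSucc (nat_lit 92350162),Int.ofNat (nat_lit 640795811),Int.negSucc (nat_lit 386095982),Int.ofNat (nat_lit 2300595479),Int.negSucc (nat_lit 150702255),Int.ofNat (nat_lit 312479568),Int.negSucc (nat_lit 136658279),Int.negSucc (nat_lit 153949562),Int.negSucc (nat_lit 329713169),Int.ofNat (nat_lit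 155785514),Int.negSucc (nat_lit 310375174),Int.negSucc (nat_lit 197459014),Int.negSucc (nat_lit 782991610),Int.ofNat (nat_lit 213459647),Int.negSucc (nat_lit 93931633),Int.negSucc (nat_lit 426914648),Int.negSucc (nat_lit 119118602),Int.ofNat (nat_lit 537578070),Int.negSucc (nat_lit 419676513),Int.negSucc (nat_lit 123415636),Int.ofNat (nat_lit 12746525),Int.ofNat (nat_lit 112276770),Int.ofNat (nat_lit 208964298),Int.ofNat (nat_lit 332474427),Int.negSucc (nat_lit 14448901),Int.ofNat (nat_lit 303053879),Int.negSucc (nat_lit 176489353),Int.negSucc (nat_lit 500473135),Int.ofNat (nat_lit 11276343),Int.negSucc (nat_lit 73135808),Int.ofNat (nat_lit 251770128),Int.negSucc (nat_lit 522074084),Int.ofNat (nat_lit 23114709),Int.ofNat (nat_lit 36561133),Int.ofNat (nat_lit 60793788),Int.ofNat (nat_lit 175296137),Int.negSucc (nat_lit 304033762),Int.ofNat (nat_lit 12355081),Int.negSucc (nat_lit 1225294243),Int.ofNat (nat_lit 112861222),Int.ofNat (nat_lit 593653252),Int.negSucc (nat_lit 392315347),Int.negSucc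 (nat_lit 92882830),Int.negSucc (nat_lit 277939495),Int.ofNat (nat_lit 1428266456),Int.ofNat (nat_lit 341783062),Int.negSucc (nat_lit 951681822),Int.ofNat (nat_lit 8201226),Int.ofNat (nat_lit 13794335),Int.negSucc (nat_lit 133536890),Int.ofNat (nat_lit 145472619),Int.negSucc (nat_lit 610194447),Int.negSucc (nat_lit 76417381),Int.negSucc (nat_lit 385195740),Int.negSucc (nat_lit 80615939),Int.ofNat (nat_lit 554928658),Int.negSucc (nat_lit 67955825),Int.ofNat (nat_lit 56776749),Int.negSucc (nat_lit 241636858),Int.negSucc (nat_lit 178594717),Int.ofNat (nat_lit 149364860),Int.ofNat (nat_lit 50792012),Int.ofNat (nat_lit 14681832),Int.ofNat (nat_lit 674043281),Int.ofNat (nat_lit 61330595),Int.ofNat (nat_lit 608314737),Int.ofNat (nat_lit 87986090),Int.negSucc (nat_lit 699562976),Int.ofNat (nat_lit 287672903),Int.ofNat (nat_lit 124270018),Int.ofNat (nat_lit 157239061),Int.negSucc (nat_lit 923189807),Int.ofNat (nat_lit 238622048),Int.negSucc (nat_lit 704158594),Int.negSucc (nat_lit 330130123),Int.ofNat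 (nat_lit 145387822),Int.negSucc (nat_lit 170661637),Int.ofNat (nat_lit 40639643),Int.negSucc (nat_lit 614103758),Int.negSucc (nat_lit 307851834),Int.ofNat (nat_lit 312333123),Int.negSucc (nat_lit 177637360),Int.ofNat (nat_lit 397607070),Int.negSucc (nat_lit 180107304),Int.ofNat (nat_lit 93043941),Int.ofNat (nat_lit 315352417),Int.ofNat (nat_lit 165313067),Int.negSucc (nat_lit 237670949),Int.ofNat (nat_lit 154369394),Int.negSucc (nat_lit 18520238),Int.negSucc (nat_lit 152638571),Int.ofNat (nat_lit 189806213),Int.negSucc (nat_lit 1554750),Int.negSucc (nat_lit 35677234),Int.ofNat (nat_lit 177965138),Int.ofNat (nat_lit 143523436),Int.ofNat (nat_lit 98803391),Int.ofNat (nat_lit 57462697),Int.negSucc (nat_lit 116280366),Int.ofNat (nat_lit 94735536),Int.negSucc (nat_lit 173837152),Int.negSucc (nat_lit 65721202),Int.ofNat (nat_lit 124271407),Int.negSucc (nat_lit 17864998),Int.negSucc (nat_lit 159064583),Int.ofNat (nat_lit 103740377),Int.ofNat (nat_lit 287588464),Int.negSucc (nat_lit 868183),Int.negSucc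 (nat_lit 578761165),Int.negSucc (nat_lit 421580782),Int.ofNat (nat_lit 110665817),Int.negSucc (nat_lit 361614932),Int.ofNat (nat_lit 24775483),Int.ofNat (nat_lit 458849544),Int.ofNat (nat_lit 95919121),Int.ofNat (nat_lit 88688167),Int.negSucc (nat_lit 9528270),Int.ofNat (nat_lit 448653932),Int.negSucc (nat_lit 49463669),Int.ofNat (nat_lit 529118305),Int.ofNat (nat_lit 94962949),Int.ofNat (nat_lit 13602447),Int.ofNat (nat_lit 9076248),Int.ofNat (nat_lit 22389582),Int.negSucc (nat_lit 385826061),Int.negSucc (nat_lit 11905502),Int.ofNat (nat_lit 171357862),Int.ofNat (nat_lit 119306374),Int.ofNat (nat_lit 118612359),Int.ofNat (nat_lit 64541047),Int.ofNat (nat_lit 159635925),Int.ofNat (nat_lit 169033107),Int.negSucc (nat_lit 178671675),Int.negSucc (nat_lit 487311160),Int.ofNat (nat_lit 379478558),Int.negSucc (nat_lit 577044675),Int.ofNat (nat_lit 646433984),Int.ofNat (nat_lit 2306604230),Int.negSucc (nat_lit 105611200),Int.ofNat (nat_lit 583109140),Int.ofNat (nat_lit 428773787),Int.negSucc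 (nat_lit 2221552323),Int.ofNat (nat_lit 1119020505),Int.ofNat (nat_lit 788352822),Int.ofNat (nat_lit 525697529),Int.negSucc (nat_lit 1528945246),Int.ofNat (nat_lit 733037149),Int.negSucc (nat_lit 1081705218),Int.negSucc (nat_lit 939101234),Int.ofNat (nat_lit 897136230),Int.negSucc (nat_lit 37780232),Int.negSucc (nat_lit 184781884),Int.negSucc (nat_lit 1304403421),Int.negSucc (nat_lit 1314012421),Int.ofNat (nat_lit 1734565158),Int.negSucc (nat_lit 568753935),Int.ofNat (nat_lit 2458025717)])

/-- A row. -/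
noncomputable def sr6_c3_27 : List ℕ × List ℤ :=
  ([(nat_lit 2),(nat_lit 0),(nat_lit 0),(nat_lit 0),(nat_lit 0),(nat_lit 1),(nat_lit 0),(nat_lit 0),(nat_lit 0),(nat_lit 0),(nat_lit 0),(nat_lit 0)], [Int.negSucc (nat_lit 782022153),Int.negSucc (nat_lit 392853476),Int.negSucc (nat_lit 450246107),Int.ofNat (nat_lit 505766850),Int.ofNat (nat_lit 217030167),Int.negSucc (nat_lit 643773427),Int.negSucc (nat_lit 439098873),Int.ofNat (nat_lit 393231788),Int.negSucc (nat_lit 572779255),Int.negSucc (nat_lit 171274106),Int.ofNat (nat_lit 39700069),Int.negSucc (nat_lit 442289656),Int.negSucc (nat_lit 108200746),Int.negSucc (nat_lit 68044558),Int.negSucc (nat_lit 211465772),Int.negSucc (nat_lit 23460245),Int.negSucc (nat_lit 48783637),Int.ofNat (nat_lit 130952772),Int.negSucc (nat_lit 339974678),Int.ofNat (nat_lit 172560306),Int.ofNat (nat_lit 415692800),Int.negSucc (nat_lit 96414997),Int.negSucc (nat_lit 184425665),Int.negSucc (nat_lit 43892354),Int.ofNat (nat_lit 362371177),Int.ofNat (nat_lit 236609272),Int.negSucc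 (nat_lit 81697370),Int.negSucc (nat_lit 69595908),Int.negSucc (nat_lit 75111163),Int.ofNat (nat_lit 96516485),Int.ofNat (nat_lit 138842345),Int.ofNat (nat_lit 10649143),Int.negSucc (nat_lit 146034673),Int.negSucc (nat_lit 29406231),Int.ofNat (nat_lit 105707994),Int.negSucc (nat_lit 93016851),Int.negSucc (nat_lit 56122186),Int.negSucc (nat_lit 147038988),Int.negSucc (nat_lit 100258942),Int.ofNat (nat_lit 174028365),Int.ofNat (nat_lit 158980673),Int.negSucc (nat_lit 107049304),Int.negSucc (nat_lit 55865286),Int.negSucc (nat_lit 92943467),Int.ofNat (nat_lit 212882117),Int.negSucc (nat_lit 1760992),Int.ofNat (nat_lit 108093473),Int.ofNat (nat_lit 136322063),Int.ofNat (nat_lit 66164043),Int.ofNat (nat_lit 21745661),Int.ofNat (nat_lit 56117758),Int.ofNat (nat_lit 122398388),Int.negSucc (nat_lit 150790233),Int.ofNat (nat_lit 247045922),Int.negSucc (nat_lit 62922137),Int.ofNat (nat_lit 63967611),Int.ofNat (nat_lit 277146927),Int.ofNat (nat_lit 193283963),Int.negSucc (nat_lit 148770104),Int.negSucc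 (nat_lit 54433736),Int.negSucc (nat_lit 238112052),Int.ofNat (nat_lit 29127851),Int.negSucc (nat_lit 52376610),Int.ofNat (nat_lit 119792660),Int.negSucc (nat_lit 48770518),Int.ofNat (nat_lit 161829103),Int.ofNat (nat_lit 120126406),Int.negSucc (nat_lit 176380710),Int.negSucc (nat_lit 1949634),Int.ofNat (nat_lit 282251114),Int.negSucc (nat_lit 86355501),Int.ofNat (nat_lit 150736822),Int.negSucc (nat_lit 76783623),Int.ofNat (nat_lit 52058463),Int.negSucc (nat_lit 155008126),Int.negSucc (nat_lit 268254100),Int.negSucc (nat_lit 314129546),Int.negSucc (nat_lit 41540121),Int.negSucc (nat_lit 29496823),Int.negSucc (nat_lit 5688304),Int.negSucc (nat_lit 141709540),Int.ofNat (nat_lit 63896039),Int.negSucc (nat_lit 30863102),Int.ofNat (nat_lit 229356948),Int.ofNat (nat_lit 81062754),Int.negSucc (nat_lit 63101304),Int.ofNat (nat_lit 8454608),Int.negSucc (nat_lit 4757057),Int.negSucc (nat_lit 5864863),Int.negSucc (nat_lit 276323872),Int.negSucc (nat_lit 9669970),Int.negSucc (nat_lit 36587570),Int.ofNat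 (nat_lit 10526447),Int.negSucc (nat_lit 12768892),Int.ofNat (nat_lit 9652616),Int.negSucc (nat_lit 51365414),Int.negSucc (nat_lit 171349178),Int.ofNat (nat_lit 21277227),Int.negSucc (nat_lit 14652718),Int.negSucc (nat_lit 141557337),Int.negSucc (nat_lit 96565484),Int.ofNat (nat_lit 34631312),Int.negSucc (nat_lit 43526648),Int.negSucc (nat_lit 80897636),Int.negSucc (nat_lit 78514123),Int.negSucc (nat_lit 19636324),Int.ofNat (nat_lit 70180724),Int.negSucc (nat_lit 7605488),Int.negSucc (nat_lit 74550689),Int.negSucc (nat_lit 26874339),Int.negSucc (nat_lit 50463031),Int.negSucc (nat_lit 7825340),Int.ofNat (nat_lit 100697506),Int.negSucc (nat_lit 61216902),Int.negSucc (nat_lit 51628896),Int.negSucc (nat_lit 57816148),Int.negSucc (nat_lit 28883996),Int.ofNat (nat_lit 5219101),Int.ofNat (nat_lit 50263780),Int.negSucc (nat_lit 31544264),Int.negSucc (nat_lit 22582934),Int.negSucc (nat_lit 11560587),Int.negSucc (nat_lit 59423734),Int.negSucc (nat_lit 110524319),Int.ofNat (nat_lit 38952119),Int.negSucc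 (nat_lit 47995117),Int.negSucc (nat_lit 39202793),Int.ofNat (nat_lit 13453353),Int.ofNat (nat_lit 60074566),Int.negSucc (nat_lit 13784852),Int.negSucc (nat_lit 44629672),Int.ofNat (nat_lit 143824184),Int.negSucc (nat_lit 41469986),Int.negSucc (nat_lit 2575518),Int.ofNat (nat_lit 25062209),Int.negSucc (nat_lit 11665834),Int.negSucc (nat_lit 53057178),Int.negSucc (nat_lit 56457923),Int.ofNat (nat_lit 42070051),Int.ofNat (nat_lit 211283206),Int.ofNat (nat_lit 66757595),Int.ofNat (nat_lit 31244227),Int.negSucc (nat_lit 173548085),Int.negSucc (nat_lit 11849408),Int.ofNat (nat_lit 29376033),Int.ofNat (nat_lit 7188578),Int.ofNat (nat_lit 71394867),Int.ofNat (nat_lit 18050245),Int.ofNat (nat_lit 19971466),Int.ofNat (nat_lit 125343527),Int.ofNat (nat_lit 48211425),Int.ofNat (nat_lit 4653762),Int.negSucc (nat_lit 8833603),Int.negSucc (nat_lit 44594051),Int.ofNat (nat_lit 17025656),Int.ofNat (nat_lit 6210947),Int.negSucc (nat_lit 26208081),Int.negSucc (nat_lit 3477374),Int.ofNat (nat_lit 44019846),Int.negSucc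 (nat_lit 59362873),Int.negSucc (nat_lit 2879412),Int.negSucc (nat_lit 64071544),Int.negSucc (nat_lit 18340189),Int.ofNat (nat_lit 93452477),Int.negSucc (nat_lit 71805087),Int.ofNat (nat_lit 73616408),Int.ofNat (nat_lit 20450393),Int.ofNat (nat_lit 20528096),Int.negSucc (nat_lit 62539254),Int.negSucc (nat_lit 31142630),Int.ofNat (nat_lit 12217111),Int.ofNat (nat_lit 375050),Int.negSucc (nat_lit 8429327),Int.negSucc (nat_lit 74656750),Int.ofNat (nat_lit 39352983),Int.negSucc (nat_lit 66863618),Int.ofNat (nat_lit 55151450),Int.ofNat (nat_lit 11029489),Int.negSucc (nat_lit 198707982),Int.ofNat (nat_lit 277299945),Int.ofNat (nat_lit 730276207),Int.negSucc (nat_lit 77487127),Int.ofNat (nat_lit 297973716),Int.negSucc (nat_lit 475247808),Int.ofNat (nat_lit 9070031),Int.negSucc (nat_lit 3307522),Int.ofNat (nat_lit 79983475),Int.negSucc (nat_lit 33275060),Int.negSucc (nat_lit 93829163),Int.negSucc (nat_lit 20302470),Int.ofNat (nat_lit 62054829),Int.ofNat (nat_lit 145440457),Int.negSucc (nat_lit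 3724765),Int.negSucc (nat_lit 7532012),Int.negSucc (nat_lit 3895766),Int.ofNat (nat_lit 24786839),Int.negSucc (nat_lit 50910205),Int.negSucc (nat_lit 319115823),Int.ofNat (nat_lit 13577978),Int.ofNat (nat_lit 4491076),Int.ofNat (nat_lit 16292516),Int.negSucc (nat_lit 15570168),Int.ofNat (nat_lit 25467878),Int.ofNat (nat_lit 1326497),Int.negSucc (nat_lit 6632056),Int.ofNat (nat_lit 68398067)])

/-- A row. -/
noncomputable def sr6_c3_28 : List ℕ × List ℤ :=
  ([(nat_lit 2),(nat_lit 0),(nat_lit 0),(nat_lit 1),(nat_lit 0),(nat_lit 0),(nat_lit 0),(nat_lit 0),(nat_lit 0),(nat_lit 0),(nat_lit 0),(nat_lit 0)], [Int.negSucc (nat_lit 497823106),Int.ofNat (nat_lit 124321977),Int.ofNat (nat_lit 911282203),Int.ofNat (nat_lit 3409624342),Int.negSucc (nat_lit 676488010),Int.negSucc (nat_lit 783920948),Int.ofNat (nat_lit 127192700),Int.ofNat (nat_lit 949936219),Int.ofNat (nat_lit 364093304),Int.ofNat (nat_lit 2161839560),Int.ofNat (nat_lit 962168060),Int.ofNat (nat_lit 204136015),Int.ofNat (nat_lit 278228789),Int.ofNat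 (nat_lit 329332335),Int.ofNat (nat_lit 95358488),Int.negSucc (nat_lit 45532180),Int.ofNat (nat_lit 332325731),Int.ofNat (nat_lit 303306933),Int.ofNat (nat_lit 121829878),Int.negSucc (nat_lit 357005239),Int.ofNat (nat_lit 344402910),Int.ofNat (nat_lit 76845329),Int.negSucc (nat_lit 244082565),Int.negSucc (nat_lit 919843338),Int.ofNat (nat_lit 141386673),Int.negSucc (nat_lit 337266340),Int.ofNat (nat_lit 203581524),Int.ofNat (nat_lit 287475639),Int.negSucc (nat_lit 370859852),Int.ofNat (nat_lit 475277672),Int.ofNat (nat_lit 146680230),Int.negSucc (nat_lit 350793625),Int.negSucc (nat_lit 38234088),Int.negSucc (nat_lit 84576879),Int.negSucc (nat_lit 157443212),Int.negSucc (nat_lit 623743340),Int.negSucc (nat_lit 559636512),Int.negSucc (nat_lit 463858205),Int.ofNat (nat_lit 1242676420),Int.ofNat (nat_lit 467398105),Int.negSucc (nat_lit 285501297),Int.ofNat (nat_lit 114393857),Int.negSucc (nat_lit 37934976),Int.ofNat (nat_lit 23053325),Int.negSucc (nat_lit 415636878),Int.ofNat (nat_lit 386743533),Int.negSucc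 (nat_lit 37884412),Int.ofNat (nat_lit 65470468),Int.negSucc (nat_lit 355389665),Int.ofNat (nat_lit 182506871),Int.negSucc (nat_lit 177776311),Int.negSucc (nat_lit 92344760),Int.ofNat (nat_lit 421238004),Int.negSucc (nat_lit 5347941),Int.negSucc (nat_lit 130760890),Int.ofNat (nat_lit 381866572),Int.ofNat (nat_lit 230228129),Int.negSucc (nat_lit 542817181),Int.negSucc (nat_lit 250351533),Int.ofNat (nat_lit 50208785),Int.negSucc (nat_lit 172356743),Int.ofNat (nat_lit 83506186),Int.negSucc (nat_lit 58421260),Int.negSucc (nat_lit 208043167),Int.negSucc (nat_lit 448308702),Int.negSucc (nat_lit 637277523),Int.ofNat (nat_lit 39838448),Int.ofNat (nat_lit 33427568),Int.ofNat (nat_lit 386469841),Int.negSucc (nat_lit 573367415),Int.ofNat (nat_lit 303022019),Int.negSucc (nat_lit 817673989),Int.ofNat (nat_lit 199069689),Int.negSucc (nat_lit 159121134),Int.ofNat (nat_lit 197991665),Int.negSucc (nat_lit 250626671),Int.negSucc (nat_lit 372358032),Int.negSucc (nat_lit 192820104),Int.negSucc (nat_lit 115664566),Int.ofNat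 (nat_lit 440242622),Int.negSucc (nat_lit 400065461),Int.ofNat (nat_lit 91435113),Int.negSucc (nat_lit 319522289),Int.ofNat (nat_lit 405367343),Int.ofNat (nat_lit 543564157),Int.negSucc (nat_lit 135688367),Int.ofNat (nat_lit 46256987),Int.ofNat (nat_lit 72050755),Int.negSucc (nat_lit 144765268),Int.ofNat (nat_lit 166932797),Int.ofNat (nat_lit 14337628),Int.ofNat (nat_lit 179771975),Int.negSucc (nat_lit 139910701),Int.negSucc (nat_lit 111015690),Int.ofNat (nat_lit 163832234),Int.negSucc (nat_lit 101312895),Int.negSucc (nat_lit 239786084),Int.negSucc (nat_lit 123517385),Int.ofNat (nat_lit 205381730),Int.ofNat (nat_lit 162235174),Int.negSucc (nat_lit 168278507),Int.negSucc (nat_lit 2142679),Int.negSucc (nat_lit 9599893),Int.negSucc (nat_lit 55004130),Int.negSucc (nat_lit 8933951),Int.negSucc (nat_lit 10140096),Int.ofNat (nat_lit 37908644),Int.ofNat (nat_lit 298580201),Int.ofNat (nat_lit 252299324),Int.negSucc (nat_lit 110792993),Int.ofNat (nat_lit 209236174),Int.ofNat (nat_lit 235056165),Int.negSucc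 (nat_lit 150518067),Int.negSucc (nat_lit 208070003),Int.negSucc (nat_lit 4993766),Int.ofNat (nat_lit 137877540),Int.ofNat (nat_lit 66413974),Int.ofNat (nat_lit 152627097),Int.ofNat (nat_lit 169916409),Int.negSucc (nat_lit 87566631),Int.ofNat (nat_lit 144061192),Int.negSucc (nat_lit 28493173),Int.ofNat (nat_lit 202244535),Int.negSucc (nat_lit 15612442),Int.negSucc (nat_lit 378660792),Int.negSucc (nat_lit 68685954),Int.negSucc (nat_lit 24014795),Int.ofNat (nat_lit 101033852),Int.negSucc (nat_lit 15747461),Int.ofNat (nat_lit 83975419),Int.negSucc (nat_lit 82122968),Int.negSucc (nat_lit 6513593),Int.ofNat (nat_lit 81388454),Int.negSucc (nat_lit 70090686),Int.negSucc (nat_lit 152855110),Int.negSucc (nat_lit 123963324),Int.ofNat (nat_lit 35024025),Int.ofNat (nat_lit 196970304),Int.negSucc (nat_lit 111555641),Int.ofNat (nat_lit 9070355),Int.ofNat (nat_lit 66108352),Int.ofNat (nat_lit 31364516),Int.negSucc (nat_lit 426438517),Int.ofNat (nat_lit 117764996),Int.ofNat (nat_lit 178288081),Int.ofNat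 (nat_lit 277573888),Int.negSucc (nat_lit 44065920),Int.ofNat (nat_lit 687048658),Int.negSucc (nat_lit 31174494),Int.ofNat (nat_lit 48867039),Int.negSucc (nat_lit 21414144),Int.negSucc (nat_lit 53647527),Int.negSucc (nat_lit 25300421),Int.negSucc (nat_lit 308372202),Int.negSucc (nat_lit 191022902),Int.ofNat (nat_lit 62657900),Int.negSucc (nat_lit 60041808),Int.ofNat (nat_lit 215776336),Int.negSucc (nat_lit 126086226),Int.ofNat (nat_lit 255720478),Int.negSucc (nat_lit 113669176),Int.ofNat (nat_lit 119883422),Int.negSucc (nat_lit 83877097),Int.ofNat (nat_lit 37533367),Int.ofNat (nat_lit 56633389),Int.negSucc (nat_lit 116501260),Int.ofNat (nat_lit 230159570),Int.negSucc (nat_lit 83896766),Int.ofNat (nat_lit 350572020),Int.ofNat (nat_lit 38017907),Int.negSucc (nat_lit 184529264),Int.negSucc (nat_lit 81214803),Int.ofNat (nat_lit 435810030),Int.negSucc (nat_lit 112453490),Int.negSucc (nat_lit 116728933),Int.negSucc (nat_lit 44287986),Int.negSucc (nat_lit 144760859),Int.ofNat (nat_lit 28945057),Int.negSucc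 (nat_lit 207042281),Int.negSucc (nat_lit 685368856),Int.ofNat (nat_lit 214481830),Int.ofNat (nat_lit 1269416675),Int.ofNat (nat_lit 951829909),Int.ofNat (nat_lit 275918596),Int.negSucc (nat_lit 1822941554),Int.negSucc (nat_lit 225331509),Int.negSucc (nat_lit 350230207),Int.negSucc (nat_lit 35885081),Int.ofNat (nat_lit 37887892),Int.ofNat (nat_lit 70787206),Int.negSucc (nat_lit 51137787),Int.ofNat (nat_lit 189852747),Int.ofNat (nat_lit 518455043),Int.negSucc (nat_lit 70283837),Int.ofNat (nat_lit 230379099),Int.negSucc (nat_lit 29501935),Int.ofNat (nat_lit 608417238),Int.negSucc (nat_lit 401830142),Int.negSucc (nat_lit 1560829832),Int.ofNat (nat_lit 202618953),Int.ofNat (nat_lit 457160),Int.negSucc (nat_lit 18043084),Int.negSucc (nat_lit 28282659),Int.negSucc (nat_lit 113654738),Int.ofNat (nat_lit 51479319),Int.negSucc (nat_lit 33581986),Int.ofNat (nat_lit 236412464)])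

/-- A row. -/
noncomputable def sr6_c3_29 : List ℕ × List ℤ :=
  ([(nat_lit 2),(nat_lit 1),(nat_lit 0),(nat_lit 0),(nat_lit 0),(nat_lit 0),(nat_lit 0),(nat_lit 0),(nat_lit 0),(nat_lit 0),(nat_lit 0),(nat_lit 0)], [Int.ofNat (nat_lit 4382662336),Int.negSucc (nat_lit 633711255),Int.negSucc (nat_lit 3102981904),Int.negSucc (nat_lit 959154511),Int.negSucc (nat_lit 51557543),Int.ofNat (nat_lit 3575907473),Int.ofNat (nat_lit 1549972691),Int.negSucc (nat_lit 5659984621),Int.negSucc (nat_lit 393799116),Int.negSucc (nat_lit 2494315232),Int.ofNat (nat_lit 138604710),Int.ofNat (nat_lit 604429408),Int.negSucc (nat_lit 1343187907),Int.negSucc (nat_lit 806789577),Int.ofNat (nat_lit 1167735606),Int.negSucc (nat_lit 158200624),Int.negSucc (nat_lit 1840164494),Int.ofNat (nat_lit 427143640),Int.negSucc (nat_lit 3620356249),Int.ofNat (nat_lit 2301433403),Int.ofNat (nat_lit 1685271071),Int.negSucc (nat_lit 657216278),Int.negSucc (nat_lit 635877506),Int.ofNat (nat_lit 771460837),Int.negSucc (nat_lit 145107411),Int.ofNat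 (nat_lit 4088727943),Int.ofNat (nat_lit 1849806962),Int.negSucc (nat_lit 2987687873),Int.ofNat (nat_lit 1222505287),Int.negSucc (nat_lit 1503261339),Int.negSucc (nat_lit 1452155765),Int.ofNat (nat_lit 1633864381),Int.negSucc (nat_lit 451754480),Int.ofNat (nat_lit 247517230),Int.ofNat (nat_lit 845502566),Int.ofNat (nat_lit 1450703236),Int.ofNat (nat_lit 1649102616),Int.ofNat (nat_lit 1320531257),Int.negSucc (nat_lit 1086931876),Int.negSucc (nat_lit 223530726),Int.ofNat (nat_lit 694733604),Int.negSucc (nat_lit 792387358),Int.ofNat (nat_lit 663905070),Int.negSucc (nat_lit 341743801),Int.ofNat (nat_lit 2470007636),Int.negSucc (nat_lit 1053071113),Int.negSucc (nat_lit 92876902),Int.negSucc (nat_lit 492607959),Int.ofNat (nat_lit 691773474),Int.ofNat (nat_lit 781369162),Int.negSucc (nat_lit 805612969),Int.negSucc (nat_lit 5417809),Int.ofNat (nat_lit 559036228),Int.ofNat (nat_lit 181599841),Int.ofNat (nat_lit 377997082),Int.ofNat (nat_lit 132866533),Int.ofNat (nat_lit 1106228752),Int.ofNat (nat_lit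 1512523923),Int.negSucc (nat_lit 145386269),Int.ofNat (nat_lit 802993410),Int.negSucc (nat_lit 67393347),Int.negSucc (nat_lit 752416621),Int.ofNat (nat_lit 182363816),Int.ofNat (nat_lit 140021751),Int.ofNat (nat_lit 117687498),Int.ofNat (nat_lit 622565033),Int.ofNat (nat_lit 642424319),Int.negSucc (nat_lit 906557886),Int.ofNat (nat_lit 785426258),Int.ofNat (nat_lit 367295341),Int.ofNat (nat_lit 192241492),Int.ofNat (nat_lit 983441873),Int.negSucc (nat_lit 1093236626),Int.negSucc (nat_lit 203682539),Int.ofNat (nat_lit 770363632),Int.ofNat (nat_lit 538973687),Int.ofNat (nat_lit 191230946),Int.negSucc (nat_lit 572895166),Int.ofNat (nat_lit 230101569),Int.negSucc (nat_lit 304575546),Int.negSucc (nat_lit 610681271),Int.negSucc (nat_lit 10547463),Int.ofNat (nat_lit 128934838),Int.ofNat (nat_lit 40751820),Int.negSucc (nat_lit 1105755922),Int.ofNat (nat_lit 6673400),Int.negSucc (nat_lit 225782758),Int.ofNat (nat_lit 119303264),Int.negSucc (nat_lit 266238314),Int.negSucc (nat_lit 2083430311),Int.negSucc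 (nat_lit 189083857),Int.ofNat (nat_lit 78901212),Int.ofNat (nat_lit 2107247155),Int.ofNat (nat_lit 817718485),Int.negSucc (nat_lit 898836132),Int.ofNat (nat_lit 188717394),Int.ofNat (nat_lit 337009477),Int.ofNat (nat_lit 343322481),Int.ofNat (nat_lit 84076604),Int.negSucc (nat_lit 1280210946),Int.negSucc (nat_lit 1052325392),Int.ofNat (nat_lit 403345477),Int.ofNat (nat_lit 64610379),Int.negSucc (nat_lit 158897528),Int.ofNat (nat_lit 732089422),Int.negSucc (nat_lit 126389160),Int.ofNat (nat_lit 70258103),Int.negSucc (nat_lit 666644719),Int.ofNat (nat_lit 420930389),Int.ofNat (nat_lit 318032743),Int.ofNat (nat_lit 71414456),Int.ofNat (nat_lit 573431277),Int.negSucc (nat_lit 776461634),Int.ofNat (nat_lit 914089054),Int.ofNat (nat_lit 19700774),Int.negSucc (nat_lit 411953149),Int.ofNat (nat_lit 462721671),Int.negSucc (nat_lit 212994223),Int.negSucc (nat_lit 537074056),Int.ofNat (nat_lit 249653687),Int.ofNat (nat_lit 55639051),Int.negSucc (nat_lit 135881337),Int.negSucc (nat_lit 220372101),Int.ofNat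 (nat_lit 359993740),Int.negSucc (nat_lit 508136816),Int.negSucc (nat_lit 258811311),Int.negSucc (nat_lit 1417365143),Int.negSucc (nat_lit 132343557),Int.ofNat (nat_lit 44530938),Int.ofNat (nat_lit 233987041),Int.negSucc (nat_lit 732999364),Int.negSucc (nat_lit 598685923),Int.ofNat (nat_lit 169381429),Int.ofNat (nat_lit 836459528),Int.ofNat (nat_lit 563049282),Int.negSucc (nat_lit 68581882),Int.ofNat (nat_lit 420560055),Int.negSucc (nat_lit 101144070),Int.negSucc (nat_lit 285096341),Int.negSucc (nat_lit 202155582),Int.negSucc (nat_lit 323714438),Int.negSucc (nat_lit 525873209),Int.negSucc (nat_lit 39044775),Int.negSucc (nat_lit 127659068),Int.negSucc (nat_lit 283878678),Int.negSucc (nat_lit 281052744),Int.negSucc (nat_lit 423802289),Int.negSucc (nat_lit 667448929),Int.negSucc (nat_lit 424810725),Int.negSucc (nat_lit 127862725),Int.ofNat (nat_lit 344579364),Int.negSucc (nat_lit 253416548),Int.negSucc (nat_lit 18701396),Int.ofNat (nat_lit 278451869),Int.ofNat (nat_lit 410574414),Int.negSucc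 (nat_lit 54799994),Int.negSucc (nat_lit 489358844),Int.negSucc (nat_lit 229355591),Int.ofNat (nat_lit 228968422),Int.negSucc (nat_lit 258081332),Int.negSucc (nat_lit 41238114),Int.ofNat (nat_lit 554523440),Int.ofNat (nat_lit 511024109),Int.ofNat (nat_lit 230527314),Int.negSucc (nat_lit 20447562),Int.negSucc (nat_lit 130291574),Int.negSucc (nat_lit 199043368),Int.ofNat (nat_lit 77400914),Int.ofNat (nat_lit 495235638),Int.negSucc (nat_lit 93826770),Int.ofNat (nat_lit 321719499),Int.ofNat (nat_lit 53979313),Int.negSucc (nat_lit 100118692),Int.negSucc (nat_lit 49985889),Int.ofNat (nat_lit 146113331),Int.ofNat (nat_lit 19417227),Int.ofNat (nat_lit 119621368),Int.ofNat (nat_lit 11180679),Int.ofNat (nat_lit 1703952347),Int.negSucc (nat_lit 673954832),Int.negSucc (nat_lit 565458601),Int.ofNat (nat_lit 1041491190),Int.ofNat (nat_lit 61867911),Int.negSucc (nat_lit 767175230),Int.ofNat (nat_lit 1536194779),Int.ofNat (nat_lit 2363658351),Int.negSucc (nat_lit 1502074281),Int.ofNat (nat_lit 1470229369),Int.ofNat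 (nat_lit 645295717),Int.negSucc (nat_lit 1248183740),Int.negSucc (nat_lit 136673021),Int.ofNat (nat_lit 405179627),Int.negSucc (nat_lit 298935726),Int.ofNat (nat_lit 488340746),Int.ofNat (nat_lit 699416471),Int.negSucc (nat_lit 465985437),Int.negSucc (nat_lit 1074421277),Int.ofNat (nat_lit 1105818023),Int.ofNat (nat_lit 439170020),Int.negSucc (nat_lit 894054280),Int.negSucc (nat_lit 2973914432),Int.negSucc (nat_lit 550188385),Int.ofNat (nat_lit 522355870),Int.ofNat (nat_lit 243127150),Int.negSucc (nat_lit 412779066),Int.negSucc (nat_lit 428236315),Int.ofNat (nat_lit 191502420),Int.ofNat (nat_lit 835091576)])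

/-- A row. -/
noncomputable def sr6_c3_30 : List ℕ × List ℤ :=
  ([(nat_lit 2),(nat_lit 1),(nat_lit 1),(nat_lit 0),(nat_lit 0),(nat_lit 0),(nat_lit 0),(nat_lit 0),(nat_lit 0),(nat_lit 0),(nat_lit 0),(nat_lit 0)], [Int.ofNat (nat_lit 2036321621),Int.negSucc (nat_lit 1192842239),Int.negSucc (nat_lit 1202845803),Int.ofNat (nat_lit 1078806386),Int.negSucc (nat_lit 519340082),Int.ofNat (nat_lit 1690179659),Int.ofNat (nat_lit 601692467),Int.negSucc (nat_lit 2731083562),Int.negSucc (nat_lit 340892958),Int.negSucc (nat_lit 382701988),Int.ofNat (nat_lit 439178615),Int.ofNat (nat_lit 239705269),Int.negSucc (nat_lit 889479925),Int.negSucc (nat_lit 404161695),Int.ofNat (nat_lit 414852564),Int.negSucc (nat_lit 15465721),Int.negSucc (nat_lit 907610168),Int.negSucc (nat_lit 92201625),Int.negSucc (nat_lit 1545553823),Int.ofNat (nat_lit 1130131896),Int.ofNat (nat_lit 1197092776),Int.negSucc (nat_lit 587074302),Int.ofNat (nat_lit 162593222),Int.negSucc (nat_lit 214667357),Int.ofNat (nat_lit 68932475),Int.ofNat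 (nat_lit 2140461133),Int.ofNat (nat_lit 858129228),Int.negSucc (nat_lit 1004823045),Int.negSucc (nat_lit 426618196),Int.negSucc (nat_lit 271690571),Int.negSucc (nat_lit 775388134),Int.ofNat (nat_lit 647645679),Int.ofNat (nat_lit 7209463),Int.ofNat (nat_lit 117296424),Int.ofNat (nat_lit 432018897),Int.ofNat (nat_lit 13967518),Int.ofNat (nat_lit 1106385669),Int.ofNat (nat_lit 772040243),Int.negSucc (nat_lit 208974618),Int.negSucc (nat_lit 207531310),Int.ofNat (nat_lit 64010390),Int.negSucc (nat_lit 455633901),Int.ofNat (nat_lit 287956433),Int.negSucc (nat_lit 451802427),Int.ofNat (nat_lit 1070513348),Int.negSucc (nat_lit 1757213),Int.negSucc (nat_lit 155874994),Int.negSucc (nat_lit 99971809),Int.ofNat (nat_lit 527847374),Int.ofNat (nat_lit 258995347),Int.negSucc (nat_lit 344599810),Int.negSucc (nat_lit 439139745),Int.ofNat (nat_lit 521073574),Int.negSucc (nat_lit 3041415),Int.ofNat (nat_lit 41802226),Int.ofNat (nat_lit 181646842),Int.ofNat (nat_lit 679657437),Int.ofNat (nat_lit 725290775),Int.negSucc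 (nat_lit 186053387),Int.ofNat (nat_lit 331630970),Int.negSucc (nat_lit 340038137),Int.negSucc (nat_lit 225569892),Int.ofNat (nat_lit 39021844),Int.ofNat (nat_lit 206961140),Int.ofNat (nat_lit 150520017),Int.ofNat (nat_lit 4804192),Int.ofNat (nat_lit 508344727),Int.negSucc (nat_lit 217178379),Int.ofNat (nat_lit 529557247),Int.ofNat (nat_lit 234206694),Int.ofNat (nat_lit 260144738),Int.ofNat (nat_lit 443507138),Int.negSucc (nat_lit 590092921),Int.negSucc (nat_lit 109238531),Int.ofNat (nat_lit 499692493),Int.ofNat (nat_lit 258356779),Int.negSucc (nat_lit 78250268),Int.negSucc (nat_lit 401899747),Int.ofNat (nat_lit 110852279),Int.ofNat (nat_lit 19372759),Int.negSucc (nat_lit 368371590),Int.negSucc (nat_lit 42176013),Int.negSucc (nat_lit 71573765),Int.ofNat (nat_lit 108916496),Int.negSucc (nat_lit 208315161),Int.negSucc (nat_lit 76707106),Int.negSucc (nat_lit 259433846),Int.ofNat (nat_lit 67623167),Int.negSucc (nat_lit 302316880),Int.negSucc (nat_lit 981477185),Int.negSucc (nat_lit 50052108),Int.ofNat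 (nat_lit 106302556),Int.ofNat (nat_lit 875466738),Int.ofNat (nat_lit 464939507),Int.ofNat (nat_lit 251765311),Int.ofNat (nat_lit 64404882),Int.ofNat (nat_lit 83383056),Int.ofNat (nat_lit 228061952),Int.ofNat (nat_lit 58581373),Int.negSucc (nat_lit 547619837),Int.negSucc (nat_lit 514976259),Int.ofNat (nat_lit 257366851),Int.ofNat (nat_lit 720808),Int.negSucc (nat_lit 195816222),Int.ofNat (nat_lit 398777352),Int.negSucc (nat_lit 146181007),Int.ofNat (nat_lit 158935320),Int.negSucc (nat_lit 57062894),Int.ofNat (nat_lit 263039802),Int.ofNat (nat_lit 184155906),Int.ofNat (nat_lit 92794098),Int.ofNat (nat_lit 394712815),Int.negSucc (nat_lit 550250597),Int.ofNat (nat_lit 164762497),Int.negSucc (nat_lit 113976342),Int.ofNat (nat_lit 443388227),Int.ofNat (nat_lit 70888519),Int.negSucc (nat_lit 124027650),Int.negSucc (nat_lit 316609811),Int.ofNat (nat_lit 272942561),Int.ofNat (nat_lit 165479777),Int.ofNat (nat_lit 105893457),Int.ofNat (nat_lit 109005046),Int.ofNat (nat_lit 179467181),Int.negSucc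 (nat_lit 494763338),Int.negSucc (nat_lit 130939339),Int.negSucc (nat_lit 230982602),Int.ofNat (nat_lit 234129272),Int.negSucc (nat_lit 248474147),Int.ofNat (nat_lit 71520948),Int.negSucc (nat_lit 267818377),Int.negSucc (nat_lit 345864705),Int.ofNat (nat_lit 9165036),Int.ofNat (nat_lit 102343132),Int.ofNat (nat_lit 512971391),Int.negSucc (nat_lit 85029695),Int.ofNat (nat_lit 285718346),Int.ofNat (nat_lit 96057777),Int.negSucc (nat_lit 210459318),Int.negSucc (nat_lit 137176816),Int.negSucc (nat_lit 26009079),Int.negSucc (nat_lit 337551189),Int.negSucc (nat_lit 79293568),Int.negSucc (nat_lit 19707505),Int.negSucc (nat_lit 163946017),Int.negSucc (nat_lit 252765114),Int.negSucc (nat_lit 309932042),Int.negSucc (nat_lit 512793555),Int.negSucc (nat_lit 217224088),Int.negSucc (nat_lit 69601487),Int.ofNat (nat_lit 135822069),Int.negSucc (nat_lit 80970001),Int.ofNat (nat_lit 61465433),Int.ofNat (nat_lit 46516544),Int.ofNat (nat_lit 336771673),Int.negSucc (nat_lit 45339589),Int.negSucc (nat_lit 252790169),Int.negSucc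 (nat_lit 88505604),Int.negSucc (nat_lit 31652952),Int.negSucc (nat_lit 69095449),Int.negSucc (nat_lit 89544332),Int.ofNat (nat_lit 300153548),Int.ofNat (nat_lit 459249569),Int.ofNat (nat_lit 135138021),Int.ofNat (nat_lit 133728267),Int.negSucc (nat_lit 78210499),Int.negSucc (nat_lit 16523150),Int.negSucc (nat_lit 40426720),Int.ofNat (nat_lit 326676704),Int.negSucc (nat_lit 29446278),Int.ofNat (nat_lit 370795606),Int.ofNat (nat_lit 53094559),Int.ofNat (nat_lit 44036087),Int.ofNat (nat_lit 35712276),Int.ofNat (nat_lit 755940),Int.negSucc (nat_lit 59412817),Int.ofNat (nat_lit 25211089),Int.ofNat (nat_lit 17249246),Int.ofNat (nat_lit 707234370),Int.negSucc (nat_lit 944166496),Int.ofNat (nat_lit 30203318),Int.ofNat (nat_lit 1226490078),Int.ofNat (nat_lit 401191879),Int.ofNat (nat_lit 110859127),Int.ofNat (nat_lit 682386903),Int.ofNat (nat_lit 1185718628),Int.negSucc (nat_lit 1178451432),Int.ofNat (nat_lit 1037278436),Int.ofNat (nat_lit 253111994),Int.negSucc (nat_lit 239442206),Int.negSucc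 (nat_lit 1255189398),Int.ofNat (nat_lit 367626316),Int.negSucc (nat_lit 97078667),Int.ofNat (nat_lit 316983373),Int.ofNat (nat_lit 573517332),Int.negSucc (nat_lit 80542659),Int.ofNat (nat_lit 160329469),Int.ofNat (nat_lit 250670885),Int.negSucc (nat_lit 629051989),Int.negSucc (nat_lit 618329345),Int.negSucc (nat_lit 920642148),Int.ofNat (nat_lit 275989418),Int.negSucc (nat_lit 1089173758),Int.ofNat (nat_lit 18658126),Int.negSucc (nat_lit 28525317),Int.negSucc (nat_lit 113255481),Int.ofNat (nat_lit 31069403),Int.negSucc (nat_lit 38871480),Int.ofNat (nat_lit 176336325)])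

/-- A row. -/
noncomputable def sr6_c3_31 : List ℕ × List ℤ :=
  ([(nat_lit 2),(nat_lit 3),(nat_lit 0),(nat_lit 0),(nat_lit 0),(nat_lit 0),(nat_lit 0),(nat_lit 0),(nat_lit 0),(nat_lit 0),(nat_lit 0),(nat_lit 0)], [Int.negSucc (nat_lit 183535543),Int.negSucc (nat_lit 1786637452),Int.negSucc (nat_lit 1241746385),Int.ofNat (nat_lit 641257271),Int.ofNat (nat_lit 2554694988),Int.negSucc (nat_lit 2281046752),Int.ofNat (nat_lit 460706378),Int.ofNat (nat_lit 4057429901),Int.negSucc (nat_lit 883956059),Int.ofNat (nat_lit 2821325984),Int.negSucc (nat_lit 187599321),Int.negSucc (nat_lit 744731005),Int.negSucc (nat_lit 168890096),Int.negSucc (nat_lit 26951908),Int.negSucc (nat_lit 1255351547),Int.negSucc (nat_lit 75254296),Int.ofNat (nat_lit 627299790),Int.ofNat (nat_lit 433180745),Int.ofNat (nat_lit 532293458),Int.negSucc (nat_lit 851929041),Int.negSucc (nat_lit 494986886),Int.ofNat (nat_lit 182605608),Int.ofNat (nat_lit 414860856),Int.negSucc (nat_lit 2195988289),Int.ofNat (nat_lit 651558584),Int.negSucc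 (nat_lit 283144595),Int.negSucc (nat_lit 479682657),Int.ofNat (nat_lit 83300553),Int.negSucc (nat_lit 1657599423),Int.ofNat (nat_lit 501798303),Int.ofNat (nat_lit 1237204677),Int.negSucc (nat_lit 969058486),Int.ofNat (nat_lit 85954262),Int.negSucc (nat_lit 1213588869),Int.ofNat (nat_lit 653452673),Int.negSucc (nat_lit 485489935),Int.ofNat (nat_lit 169006145),Int.ofNat (nat_lit 488342665),Int.ofNat (nat_lit 901958809),Int.negSucc (nat_lit 196039585),Int.negSucc (nat_lit 550576282),Int.ofNat (nat_lit 472538710),Int.negSucc (nat_lit 197686629),Int.negSucc (nat_lit 433062077),Int.negSucc (nat_lit 702838144),Int.ofNat (nat_lit 740972438),Int.ofNat (nat_lit 1082291827),Int.ofNat (nat_lit 185911536),Int.negSucc (nat_lit 6373973),Int.negSucc (nat_lit 1306221338),Int.negSucc (nat_lit 915685292),Int.negSucc (nat_lit 3341508200),Int.ofNat (nat_lit 107571344),Int.negSucc (nat_lit 172774911),Int.ofNat (nat_lit 104253680),Int.negSucc (nat_lit 324895289),Int.ofNat (nat_lit 87400193),Int.negSucc (nat_lit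 478970707),Int.ofNat (nat_lit 81157965),Int.ofNat (nat_lit 629540085),Int.ofNat (nat_lit 370515062),Int.ofNat (nat_lit 443182393),Int.ofNat (nat_lit 887811756),Int.ofNat (nat_lit 53966550),Int.ofNat (nat_lit 205798881),Int.negSucc (nat_lit 1399796816),Int.negSucc (nat_lit 734810290),Int.negSucc (nat_lit 434545264),Int.ofNat (nat_lit 54307800),Int.ofNat (nat_lit 262287110),Int.ofNat (nat_lit 1192002160),Int.negSucc (nat_lit 95135461),Int.ofNat (nat_lit 434641260),Int.ofNat (nat_lit 334667381),Int.negSucc (nat_lit 849867091),Int.negSucc (nat_lit 99418611),Int.negSucc (nat_lit 520737454),Int.ofNat (nat_lit 319215539),Int.negSucc (nat_lit 96584122),Int.ofNat (nat_lit 516386735),Int.ofNat (nat_lit 178245292),Int.ofNat (nat_lit 96776068),Int.negSucc (nat_lit 16356869),Int.negSucc (nat_lit 580246263),Int.ofNat (nat_lit 733265896),Int.negSucc (nat_lit 29308675),Int.ofNat (nat_lit 236444824),Int.negSucc (nat_lit 65376079),Int.negSucc (nat_lit 286233912),Int.ofNat (nat_lit 469421458),Int.ofNat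 (nat_lit 175101960),Int.ofNat (nat_lit 539032373),Int.negSucc (nat_lit 1463276296),Int.negSucc (nat_lit 166326084),Int.ofNat (nat_lit 970178101),Int.negSucc (nat_lit 392973385),Int.negSucc (nat_lit 370120600),Int.negSucc (nat_lit 243144022),Int.ofNat (nat_lit 177535950),Int.ofNat (nat_lit 1047850026),Int.ofNat (nat_lit 738893844),Int.ofNat (nat_lit 411319141),Int.negSucc (nat_lit 377867778),Int.ofNat (nat_lit 384434850),Int.negSucc (nat_lit 982650317),Int.ofNat (nat_lit 98102593),Int.ofNat (nat_lit 360101161),Int.ofNat (nat_lit 243019864),Int.negSucc (nat_lit 252918793),Int.ofNat (nat_lit 54985473),Int.ofNat (nat_lit 53704679),Int.negSucc (nat_lit 944358749),Int.ofNat (nat_lit 316093379),Int.negSucc (nat_lit 770594300),Int.negSucc (nat_lit 325157136),Int.ofNat (nat_lit 1010212568),Int.negSucc (nat_lit 462169707),Int.negSucc (nat_lit 159734405),Int.negSucc (nat_lit 252853648),Int.ofNat (nat_lit 843978563),Int.negSucc (nat_lit 810041606),Int.ofNat (nat_lit 1078550319),Int.ofNat (nat_lit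 80075217),Int.negSucc (nat_lit 79475219),Int.ofNat (nat_lit 133169766),Int.ofNat (nat_lit 245934869),Int.ofNat (nat_lit 796544216),Int.ofNat (nat_lit 290889383),Int.negSucc (nat_lit 290051455),Int.negSucc (nat_lit 639503469),Int.negSucc (nat_lit 666204074),Int.ofNat (nat_lit 238421620),Int.negSucc (nat_lit 169068316),Int.negSucc (nat_lit 359814492),Int.negSucc (nat_lit 64547082),Int.ofNat (nat_lit 845761387),Int.negSucc (nat_lit 98686949),Int.ofNat (nat_lit 228348783),Int.ofNat (nat_lit 39362919),Int.ofNat (nat_lit 31791851),Int.ofNat (nat_lit 141674897),Int.ofNat (nat_lit 577092555),Int.negSucc (nat_lit 199424385),Int.negSucc (nat_lit 151584853),Int.ofNat (nat_lit 218903106),Int.negSucc (nat_lit 240379787),Int.ofNat (nat_lit 245793884),Int.negSucc (nat_lit 362689127),Int.negSucc (nat_lit 241558694),Int.negSucc (nat_lit 89241586),Int.ofNat (nat_lit 267576976),Int.negSucc (nat_lit 8008390),Int.negSucc (nat_lit 31890345),Int.negSucc (nat_lit 91422666),Int.negSucc (nat_lit 785659933),Int.ofNat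 (nat_lit 261231627),Int.ofNat (nat_lit 856487469),Int.ofNat (nat_lit 434078035),Int.negSucc (nat_lit 379484442),Int.ofNat (nat_lit 484148938),Int.ofNat (nat_lit 81619551),Int.negSucc (nat_lit 609156154),Int.negSucc (nat_lit 44877705),Int.negSucc (nat_lit 190314203),Int.negSucc (nat_lit 8226510),Int.negSucc (nat_lit 634293527),Int.ofNat (nat_lit 693979774),Int.negSucc (nat_lit 259087557),Int.negSucc (nat_lit 143984579),Int.ofNat (nat_lit 183771907),Int.ofNat (nat_lit 248563819),Int.ofNat (nat_lit 143896147),Int.ofNat (nat_lit 562645231),Int.ofNat (nat_lit 141200018),Int.negSucc (nat_lit 328684226),Int.negSucc (nat_lit 50100858),Int.negSucc (nat_lit 68104739),Int.ofNat (nat_lit 110444969),Int.negSucc (nat_lit 1668197147),Int.ofNat (nat_lit 671963645),Int.ofNat (nat_lit 28842513),Int.negSucc (nat_lit 81216131),Int.negSucc (nat_lit 577659328),Int.ofNat (nat_lit 1239337316),Int.ofNat (nat_lit 337845146),Int.negSucc (nat_lit 1128882018),Int.ofNat (nat_lit 352796637),Int.negSucc (nat_lit 161438865),Int.negSucc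 (nat_lit 356199240),Int.ofNat (nat_lit 1708298743),Int.negSucc (nat_lit 2207648798),Int.negSucc (nat_lit 118945506),Int.ofNat (nat_lit 2511322337),Int.negSucc (nat_lit 1318801572),Int.negSucc (nat_lit 2234170553),Int.ofNat (nat_lit 208762440),Int.ofNat (nat_lit 1386986495),Int.negSucc (nat_lit 951768576),Int.negSucc (nat_lit 268444285),Int.negSucc (nat_lit 447389379),Int.ofNat (nat_lit 2986963538),Int.ofNat (nat_lit 1238049750),Int.negSucc (nat_lit 2578039969),Int.negSucc (nat_lit 1561094405),Int.negSucc (nat_lit 3753457309),Int.ofNat (nat_lit 98337928),Int.negSucc (nat_lit 509606202),Int.ofNat (nat_lit 89797765),Int.ofNat (nat_lit 361336822),Int.ofNat (nat_lit 1378791172)])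

/-- A row. -/
noncomputable def sr6_c3_32 : List ℕ × List ℤ :=
  ([(nat_lit 3),(nat_lit 0),(nat_lit 0),(nat_lit 1),(nat_lit 0),(nat_lit 0),(nat_lit 0),(nat_lit 0),(nat_lit 0),(nat_lit 0),(nat_lit 0),(nat_lit 0)], [Int.ofNat (nat_lit 327430574),Int.ofNat (nat_lit 111806971),Int.negSucc (nat_lit 2066428064),Int.negSucc (nat_lit 2013091154),Int.ofNat (nat_lit 1373977965),Int.ofNat (nat_lit 602277685),Int.negSucc (nat_lit 462067810),Int.negSucc (nat_lit 896972676),Int.negSucc (nat_lit 796845281),Int.negSucc (nat_lit 1240470459),Int.negSucc (nat_lit 407267737),Int.ofNat (nat_lit 36626624),Int.negSucc (nat_lit 441595360),Int.negSucc (nat_lit 429477613),Int.negSucc (nat_lit 40533257),Int.negSucc (nat_lit 180061872),Int.negSucc (nat_lit 401509756),Int.ofNat (nat_lit 70508876),Int.negSucc (nat_lit 404366133),Int.ofNat (nat_lit 310666305),Int.ofNat (nat_lit 568700558),Int.negSucc (nat_lit 739388188),Int.ofNat (nat_lit 246351414),Int.negSucc (nat_lit 28059933),Int.ofNat (nat_lit 97607561),Int.ofNat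 (nat_lit 592683807),Int.ofNat (nat_lit 13720567),Int.negSucc (nat_lit 545169579),Int.negSucc (nat_lit 37844283),Int.negSucc (nat_lit 316663011),Int.negSucc (nat_lit 363657270),Int.ofNat (nat_lit 145969680),Int.ofNat (nat_lit 66020278),Int.negSucc (nat_lit 95011707),Int.ofNat (nat_lit 173738552),Int.ofNat (nat_lit 644925007),Int.ofNat (nat_lit 454850219),Int.ofNat (nat_lit 328354571),Int.negSucc (nat_lit 763145482),Int.negSucc (nat_lit 137340723),Int.negSucc (nat_lit 125723889),Int.negSucc (nat_lit 143344458),Int.negSucc (nat_lit 176298070),Int.negSucc (nat_lit 327448166),Int.ofNat (nat_lit 583211235),Int.ofNat (nat_lit 102491390),Int.ofNat (nat_lit 242022384),Int.ofNat (nat_lit 32336566),Int.ofNat (nat_lit 464034383),Int.negSucc (nat_lit 100211426),Int.ofNat (nat_lit 1578171),Int.negSucc (nat_lit 37051779),Int.negSucc (nat_lit 203422),Int.ofNat (nat_lit 177361294),Int.ofNat (nat_lit 261684374),Int.negSucc (nat_lit 184954738),Int.ofNat (nat_lit 160402370),Int.ofNat (nat_lit 880120913),Int.ofNat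 (nat_lit 157349528),Int.ofNat (nat_lit 190416006),Int.negSucc (nat_lit 7733622),Int.negSucc (nat_lit 106080651),Int.negSucc (nat_lit 10471274),Int.ofNat (nat_lit 124217308),Int.negSucc (nat_lit 23105032),Int.ofNat (nat_lit 95171577),Int.ofNat (nat_lit 343407213),Int.negSucc (nat_lit 141364574),Int.ofNat (nat_lit 146706980),Int.ofNat (nat_lit 659522398),Int.negSucc (nat_lit 218160583),Int.ofNat (nat_lit 479401818),Int.negSucc (nat_lit 327026426),Int.negSucc (nat_lit 51598676),Int.ofNat (nat_lit 62201067),Int.ofNat (nat_lit 204814474),Int.ofNat (nat_lit 225038125),Int.ofNat (nat_lit 30193908),Int.negSucc (nat_lit 98546342),Int.negSucc (nat_lit 133232433),Int.negSucc (nat_lit 30472770),Int.negSucc (nat_lit 140709379),Int.ofNat (nat_lit 151309643),Int.negSucc (nat_lit 290797843),Int.negSucc (nat_lit 333953289),Int.ofNat (nat_lit 107442376),Int.ofNat (nat_lit 47131979),Int.negSucc (nat_lit 85615779),Int.ofNat (nat_lit 23760960),Int.ofNat (nat_lit 17119601),Int.negSucc (nat_lit 1301536),Int.ofNat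 (nat_lit 28500403),Int.ofNat (nat_lit 132470239),Int.ofNat (nat_lit 45419919),Int.negSucc (nat_lit 71504432),Int.ofNat (nat_lit 24621661),Int.ofNat (nat_lit 228926603),Int.ofNat (nat_lit 1532770),Int.negSucc (nat_lit 35231126),Int.negSucc (nat_lit 55167590),Int.ofNat (nat_lit 87775089),Int.ofNat (nat_lit 27652357),Int.negSucc (nat_lit 2792750),Int.ofNat (nat_lit 42740587),Int.ofNat (nat_lit 102558427),Int.ofNat (nat_lit 6963589),Int.negSucc (nat_lit 15835084),Int.negSucc (nat_lit 197501977),Int.negSucc (nat_lit 140324255),Int.ofNat (nat_lit 95259554),Int.ofNat (nat_lit 18660112),Int.negSucc (nat_lit 33667611),Int.negSucc (nat_lit 12734428),Int.ofNat (nat_lit 81179029),Int.negSucc (nat_lit 48677081),Int.ofNat (nat_lit 5356744),Int.ofNat (nat_lit 22473249),Int.negSucc (nat_lit 68600468),Int.negSucc (nat_lit 119780921),Int.ofNat (nat_lit 71205242),Int.ofNat (nat_lit 18882499),Int.ofNat (nat_lit 9876763),Int.ofNat (nat_lit 13443063),Int.negSucc (nat_lit 9436873),Int.ofNat (nat_lit 83910888),Int.ofNat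 (nat_lit 28289393),Int.ofNat (nat_lit 29687139),Int.negSucc (nat_lit 26037091),Int.ofNat (nat_lit 35614465),Int.ofNat (nat_lit 52939400),Int.ofNat (nat_lit 12965978),Int.ofNat (nat_lit 66772775),Int.negSucc (nat_lit 126408638),Int.ofNat (nat_lit 82442523),Int.negSucc (nat_lit 63288938),Int.ofNat (nat_lit 74586176),Int.ofNat (nat_lit 61952771),Int.negSucc (nat_lit 147579694),Int.ofNat (nat_lit 110191255),Int.negSucc (nat_lit 95833261),Int.negSucc (nat_lit 103855009),Int.negSucc (nat_lit 43100526),Int.ofNat (nat_lit 149890673),Int.negSucc (nat_lit 91132442),Int.negSucc (nat_lit 66416701),Int.negSucc (nat_lit 197272057),Int.negSucc (nat_lit 63298210),Int.negSucc (nat_lit 391285835),Int.negSucc (nat_lit 21890194),Int.negSucc (nat_lit 68221096),Int.negSucc (nat_lit 5683617),Int.ofNat (nat_lit 23252130),Int.ofNat (nat_lit 80235259),Int.ofNat (nat_lit 159390905),Int.ofNat (nat_lit 86785865),Int.ofNat (nat_lit 7071447),Int.ofNat (nat_lit 34474286),Int.negSucc (nat_lit 45432051),Int.ofNat (nat_lit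 134543),Int.negSucc (nat_lit 14202503),Int.ofNat (nat_lit 54031039),Int.negSucc (nat_lit 54965939),Int.ofNat (nat_lit 34808960),Int.ofNat (nat_lit 20500972),Int.ofNat (nat_lit 1878717),Int.ofNat (nat_lit 62125251),Int.negSucc (nat_lit 149590556),Int.ofNat (nat_lit 48359521),Int.negSucc (nat_lit 193178608),Int.ofNat (nat_lit 20881026),Int.ofNat (nat_lit 40658122),Int.ofNat (nat_lit 63448485),Int.negSucc (nat_lit 226026984),Int.ofNat (nat_lit 11188478),Int.ofNat (nat_lit 111316913),Int.ofNat (nat_lit 12890638),Int.ofNat (nat_lit 72250272),Int.negSucc (nat_lit 19083770),Int.ofNat (nat_lit 476361043),Int.ofNat (nat_lit 152632390),Int.negSucc (nat_lit 287901415),Int.ofNat (nat_lit 37337006),Int.negSucc (nat_lit 459868982),Int.ofNat (nat_lit 126468340),Int.ofNat (nat_lit 1345259714),Int.ofNat (nat_lit 166283526),Int.ofNat (nat_lit 206826617),Int.ofNat (nat_lit 15926492),Int.negSucc (nat_lit 24824702),Int.negSucc (nat_lit 26753693),Int.ofNat (nat_lit 15222082),Int.negSucc (nat_lit 171930526),Int.negSucc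 (nat_lit 245697609),Int.ofNat (nat_lit 70229486),Int.negSucc (nat_lit 140730195),Int.negSucc (nat_lit 8327815),Int.negSucc (nat_lit 357299734),Int.ofNat (nat_lit 399516232),Int.ofNat (nat_lit 981307374),Int.negSucc (nat_lit 375696437),Int.ofNat (nat_lit 2908456),Int.ofNat (nat_lit 27722101),Int.ofNat (nat_lit 25738104),Int.ofNat (nat_lit 109682985),Int.negSucc (nat_lit 74544775),Int.negSucc (nat_lit 22210229),Int.negSucc (nat_lit 315305111),Int.negSucc (nat_lit 9484505),Int.negSucc (nat_lit 1463996),Int.negSucc (nat_lit 3156741),Int.ofNat (nat_lit 63211256)])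

/-- A row. -/
noncomputable def sr6_c3_33 : List ℕ × List ℤ :=
  ([(nat_lit 3),(nat_lit 1),(nat_lit 0),(nat_lit 0),(nat_lit 0),(nat_lit 0),(nat_lit 0),(nat_lit 0),(nat_lit 0),(nat_lit 0),(nat_lit 0),(nat_lit 0)], [Int.negSucc (nat_lit 1323365406),Int.negSucc (nat_lit 306521133),Int.negSucc (nat_lit 379568483),Int.negSucc (nat_lit 1956714005),Int.negSucc (nat_lit 620845143),Int.ofNat (nat_lit 1311007190),Int.negSucc (nat_lit 983590615),Int.negSucc (nat_lit 765076869),Int.negSucc (nat_lit 98526047),Int.ofNat (nat_lit 299950703),Int.negSucc (nat_lit 1135095738),Int.ofNat (nat_lit 120335173),Int.ofNat (nat_lit 881057046),Int.ofNat (nat_lit 156259371),Int.ofNat (nat_lit 189841405),Int.negSucc (nat_lit 486653373),Int.ofNat (nat_lit 1129205416),Int.ofNat (nat_lit 485013448),Int.ofNat (nat_lit 1364235916),Int.negSucc (nat_lit 333938062),Int.negSucc (nat_lit 911301497),Int.negSucc (nat_lit 1742123),Int.ofNat (nat_lit 962372535),Int.ofNat (nat_lit 1335317252),Int.negSucc (nat_lit 402425752),Int.negSucc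 (nat_lit 601974602),Int.ofNat (nat_lit 511503728),Int.negSucc (nat_lit 257996080),Int.ofNat (nat_lit 9156746),Int.ofNat (nat_lit 2572039),Int.ofNat (nat_lit 243411153),Int.ofNat (nat_lit 663459132),Int.negSucc (nat_lit 313522712),Int.ofNat (nat_lit 209731152),Int.ofNat (nat_lit 331415009),Int.ofNat (nat_lit 589942846),Int.negSucc (nat_lit 370716616),Int.negSucc (nat_lit 182912955),Int.negSucc (nat_lit 206886040),Int.negSucc (nat_lit 674175397),Int.negSucc (nat_lit 575580183),Int.ofNat (nat_lit 267154662),Int.negSucc (nat_lit 448596144),Int.ofNat (nat_lit 709458875),Int.negSucc (nat_lit 227196156),Int.ofNat (nat_lit 827943718),Int.negSucc (nat_lit 407474450),Int.ofNat (nat_lit 736197069),Int.ofNat (nat_lit 70390626),Int.negSucc (nat_lit 685625029),Int.ofNat (nat_lit 376347570),Int.negSucc (nat_lit 220469347),Int.negSucc (nat_lit 314425638),Int.negSucc (nat_lit 284332005),Int.ofNat (nat_lit 152195310),Int.ofNat (nat_lit 426882486),Int.negSucc (nat_lit 344765087),Int.negSucc (nat_lit 427183941),Int.negSucc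 (nat_lit 559917676),Int.negSucc (nat_lit 800570266),Int.negSucc (nat_lit 776503629),Int.ofNat (nat_lit 201823004),Int.negSucc (nat_lit 652062615),Int.negSucc (nat_lit 105758451),Int.ofNat (nat_lit 519335824),Int.negSucc (nat_lit 181808545),Int.ofNat (nat_lit 352516518),Int.ofNat (nat_lit 380786983),Int.negSucc (nat_lit 464015739),Int.ofNat (nat_lit 804518140),Int.negSucc (nat_lit 203345602),Int.ofNat (nat_lit 334885910),Int.ofNat (nat_lit 498920934),Int.ofNat (nat_lit 154775149),Int.ofNat (nat_lit 132517837),Int.negSucc (nat_lit 90316596),Int.ofNat (nat_lit 49125742),Int.negSucc (nat_lit 230309200),Int.ofNat (nat_lit 544604485),Int.negSucc (nat_lit 350969856),Int.ofNat (nat_lit 48228247),Int.negSucc (nat_lit 242682761),Int.ofNat (nat_lit 169312874),Int.ofNat (nat_lit 241421181),Int.negSucc (nat_lit 58791440),Int.negSucc (nat_lit 277838135),Int.negSucc (nat_lit 1182376297),Int.ofNat (nat_lit 31628451),Int.ofNat (nat_lit 446838779),Int.ofNat (nat_lit 29176796),Int.negSucc (nat_lit 64561870),Int.negSucc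 (nat_lit 534260040),Int.ofNat (nat_lit 79340963),Int.negSucc (nat_lit 374396986),Int.ofNat (nat_lit 435041147),Int.negSucc (nat_lit 94278961),Int.negSucc (nat_lit 252671164),Int.ofNat (nat_lit 103079009),Int.ofNat (nat_lit 75768490),Int.negSucc (nat_lit 494178321),Int.negSucc (nat_lit 21603889),Int.ofNat (nat_lit 162601685),Int.negSucc (nat_lit 79273691),Int.negSucc (nat_lit 211704426),Int.negSucc (nat_lit 15713012),Int.negSucc (nat_lit 146585871),Int.ofNat (nat_lit 151107865),Int.ofNat (nat_lit 494309658),Int.ofNat (nat_lit 2645640),Int.negSucc (nat_lit 35490139),Int.negSucc (nat_lit 406105713),Int.negSucc (nat_lit 118968817),Int.ofNat (nat_lit 71100570),Int.negSucc (nat_lit 257038717),Int.ofNat (nat_lit 200988240),Int.ofNat (nat_lit 1269706895),Int.negSucc (nat_lit 318434454),Int.negSucc (nat_lit 65383753),Int.negSucc (nat_lit 12450772),Int.ofNat (nat_lit 141891996),Int.ofNat (nat_lit 98829616),Int.ofNat (nat_lit 226963057),Int.negSucc (nat_lit 40759241),Int.negSucc (nat_lit 185686024),Int.ofNat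 (nat_lit 236825294),Int.ofNat (nat_lit 176174649),Int.ofNat (nat_lit 1274603460),Int.ofNat (nat_lit 468856253),Int.negSucc (nat_lit 567222319),Int.negSucc (nat_lit 292701424),Int.ofNat (nat_lit 953874443),Int.ofNat (nat_lit 643438050),Int.negSucc (nat_lit 431867629),Int.negSucc (nat_lit 770068255),Int.ofNat (nat_lit 217136116),Int.ofNat (nat_lit 100890044),Int.negSucc (nat_lit 80744439),Int.ofNat (nat_lit 143197446),Int.negSucc (nat_lit 251537398),Int.negSucc (nat_lit 109662545),Int.negSucc (nat_lit 171981746),Int.negSucc (nat_lit 231366450),Int.ofNat (nat_lit 351319485),Int.negSucc (nat_lit 4435091),Int.negSucc (nat_lit 123337829),Int.negSucc (nat_lit 44580967),Int.negSucc (nat_lit 115983112),Int.negSucc (nat_lit 111242610),Int.negSucc (nat_lit 8068414),Int.ofNat (nat_lit 206474368),Int.ofNat (nat_lit 43973934),Int.ofNat (nat_lit 119536684),Int.negSucc (nat_lit 48673497),Int.ofNat (nat_lit 133684069),Int.ofNat (nat_lit 116240655),Int.ofNat (nat_lit 15966013),Int.ofNat (nat_lit 118151387),Int.negSucc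 (nat_lit 91205108),Int.ofNat (nat_lit 204832067),Int.negSucc (nat_lit 122623003),Int.negSucc (nat_lit 48177292),Int.negSucc (nat_lit 341875595),Int.ofNat (nat_lit 97276278),Int.ofNat (nat_lit 31396866),Int.ofNat (nat_lit 60430500),Int.ofNat (nat_lit 290607826),Int.negSucc (nat_lit 195658263),Int.negSucc (nat_lit 16861658),Int.negSucc (nat_lit 497052450),Int.negSucc (nat_lit 138570293),Int.ofNat (nat_lit 381554009),Int.ofNat (nat_lit 2461483),Int.negSucc (nat_lit 402819365),Int.ofNat (nat_lit 406998509),Int.negSucc (nat_lit 54826932),Int.ofNat (nat_lit 21094015),Int.negSucc (nat_lit 140749343),Int.ofNat (nat_lit 55185303),Int.ofNat (nat_lit 26534936),Int.ofNat (nat_lit 320381013),Int.ofNat (nat_lit 119527624),Int.negSucc (nat_lit 529004098),Int.negSucc (nat_lit 375398944),Int.negSucc (nat_lit 1073948832),Int.ofNat (nat_lit 418299785),Int.ofNat (nat_lit 1462520175),Int.negSucc (nat_lit 243285365),Int.negSucc (nat_lit 386709306),Int.ofNat (nat_lit 201853201),Int.ofNat (nat_lit 43082909),Int.negSucc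 (nat_lit 584200693),Int.ofNat (nat_lit 139309506),Int.ofNat (nat_lit 268168261),Int.ofNat (nat_lit 1126765117),Int.negSucc (nat_lit 927507657),Int.ofNat (nat_lit 783409453),Int.negSucc (nat_lit 297228117),Int.negSucc (nat_lit 577021978),Int.ofNat (nat_lit 995875654),Int.ofNat (nat_lit 183163927),Int.ofNat (nat_lit 1837210920),Int.ofNat (nat_lit 1053685106),Int.negSucc (nat_lit 1566260837),Int.negSucc (nat_lit 271615545),Int.ofNat (nat_lit 715058122),Int.ofNat (nat_lit 1219533566),Int.negSucc (nat_lit 1051231609),Int.negSucc (nat_lit 2277170787),Int.ofNat (nat_lit 271805924),Int.negSucc (nat_lit 409620028),Int.ofNat (nat_lit 211494541),Int.ofNat (nat_lit 229186863)])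

/-- A row. -/
noncomputable def sr6_c3_34 : List ℕ × List ℤ :=
  ([(nat_lit 4),(nat_lit 1),(nat_lit 0),(nat_lit 0),(nat_lit 0),(nat_lit 0),(nat_lit 0),(nat_lit 0),(nat_lit 0),(nat_lit 0),(nat_lit 0),(nat_lit 0)], [Int.negSucc (nat_lit 1795932802),Int.ofNat (nat_lit 1269091644),Int.ofNat (nat_lit 1593754889),Int.ofNat (nat_lit 1227406394),Int.ofNat (nat_lit 867729421),Int.negSucc (nat_lit 1629859659),Int.negSucc (nat_lit 613017696),Int.ofNat (nat_lit 3952193794),Int.negSucc (nat_lit 294284109),Int.ofNat (nat_lit 834459502),Int.ofNat (nat_lit 403936590),Int.negSucc (nat_lit 847077460),Int.ofNat (nat_lit 566368157),Int.ofNat (nat_lit 258298842),Int.negSucc (nat_lit 584301792),Int.ofNat (nat_lit 548314741),Int.ofNat (nat_lit 465077300),Int.negSucc (nat_lit 397902942),Int.ofNat (nat_lit 705813994),Int.negSucc (nat_lit 939685405),Int.negSucc (nat_lit 1234535276),Int.ofNat (nat_lit 961241584),Int.negSucc (nat_lit 565092856),Int.negSucc (nat_lit 401033460),Int.ofNat (nat_lit 361785713),Int.negSucc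 (nat_lit 1466125156),Int.negSucc (nat_lit 1329635524),Int.ofNat (nat_lit 1691131302),Int.negSucc (nat_lit 43643847),Int.ofNat (nat_lit 593817172),Int.ofNat (nat_lit 871824079),Int.negSucc (nat_lit 1084793623),Int.ofNat (nat_lit 307720688),Int.negSucc (nat_lit 165102702),Int.negSucc (nat_lit 655078879),Int.negSucc (nat_lit 1180681366),Int.negSucc (nat_lit 1181829565),Int.negSucc (nat_lit 852867697),Int.ofNat (nat_lit 460286176),Int.ofNat (nat_lit 342038938),Int.ofNat (nat_lit 270037100),Int.ofNat (nat_lit 354343159),Int.ofNat (nat_lit 20023593),Int.negSucc (nat_lit 246368805),Int.negSucc (nat_lit 1260767634),Int.negSucc (nat_lit 313467662),Int.ofNat (nat_lit 753163583),Int.negSucc (nat_lit 62114972),Int.negSucc (nat_lit 796748655),Int.negSucc (nat_lit 76372751),Int.negSucc (nat_lit 88038312),Int.ofNat (nat_lit 552130552),Int.negSucc (nat_lit 206690534),Int.ofNat (nat_lit 240581213),Int.negSucc (nat_lit 413838694),Int.negSucc (nat_lit 447031796),Int.negSucc (nat_lit 455860892),Int.negSucc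 (nat_lit 432440412),Int.ofNat (nat_lit 618186732),Int.ofNat (nat_lit 151527004),Int.ofNat (nat_lit 881084538),Int.ofNat (nat_lit 313780976),Int.ofNat (nat_lit 378629293),Int.ofNat (nat_lit 148286436),Int.negSucc (nat_lit 213762027),Int.ofNat (nat_lit 269552362),Int.negSucc (nat_lit 606086047),Int.ofNat (nat_lit 173059827),Int.negSucc (nat_lit 463824839),Int.negSucc (nat_lit 947597705),Int.negSucc (nat_lit 3372054),Int.negSucc (nat_lit 942331281),Int.ofNat (nat_lit 649416940),Int.ofNat (nat_lit 208735043),Int.negSucc (nat_lit 485803816),Int.negSucc (nat_lit 268020417),Int.negSucc (nat_lit 252049386),Int.ofNat (nat_lit 574337221),Int.negSucc (nat_lit 356055987),Int.ofNat (nat_lit 281983827),Int.ofNat (nat_lit 303028616),Int.ofNat (nat_lit 254205999),Int.negSucc (nat_lit 15065110),Int.negSucc (nat_lit 120027846),Int.ofNat (nat_lit 536683756),Int.ofNat (nat_lit 60586598),Int.ofNat (nat_lit 738183478),Int.ofNat (nat_lit 43584697),Int.negSucc (nat_lit 2244927),Int.ofNat (nat_lit 448945100),Int.ofNat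 (nat_lit 18266133),Int.ofNat (nat_lit 165648071),Int.negSucc (nat_lit 1153709619),Int.negSucc (nat_lit 294408484),Int.negSucc (nat_lit 40324428),Int.negSucc (nat_lit 46783068),Int.negSucc (nat_lit 72626507),Int.negSucc (nat_lit 223190051),Int.negSucc (nat_lit 179575358),Int.ofNat (nat_lit 785178979),Int.ofNat (nat_lit 307113251),Int.negSucc (nat_lit 490134556),Int.ofNat (nat_lit 32353500),Int.ofNat (nat_lit 220922349),Int.negSucc (nat_lit 404607711),Int.ofNat (nat_lit 221940946),Int.negSucc (nat_lit 72586737),Int.ofNat (nat_lit 20084746),Int.negSucc (nat_lit 218547198),Int.negSucc (nat_lit 239622483),Int.ofNat (nat_lit 161686636),Int.negSucc (nat_lit 441736164),Int.ofNat (nat_lit 377239801),Int.negSucc (nat_lit 255329242),Int.negSucc (nat_lit 42109095),Int.negSucc (nat_lit 984415804),Int.ofNat (nat_lit 68023299),Int.ofNat (nat_lit 204166312),Int.ofNat (nat_lit 259233558),Int.negSucc (nat_lit 345266452),Int.negSucc (nat_lit 311047238),Int.negSucc (nat_lit 160738676),Int.negSucc (nat_lit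 81800806),Int.negSucc (nat_lit 78800903),Int.ofNat (nat_lit 269759343),Int.negSucc (nat_lit 43620653),Int.negSucc (nat_lit 424815963),Int.negSucc (nat_lit 265719168),Int.ofNat (nat_lit 587964558),Int.ofNat (nat_lit 1698978),Int.negSucc (nat_lit 369596719),Int.ofNat (nat_lit 5133063),Int.ofNat (nat_lit 258226897),Int.ofNat (nat_lit 267391898),Int.negSucc (nat_lit 554157199),Int.ofNat (nat_lit 82431763),Int.negSucc (nat_lit 322480014),Int.negSucc (nat_lit 249432541),Int.ofNat (nat_lit 489710595),Int.ofNat (nat_lit 289465732),Int.ofNat (nat_lit 155862964),Int.ofNat (nat_lit 265587785),Int.negSucc (nat_lit 246390541),Int.ofNat (nat_lit 83002855),Int.ofNat (nat_lit 233149000),Int.ofNat (nat_lit 178133800),Int.ofNat (nat_lit 488795597),Int.ofNat (nat_lit 424074930),Int.ofNat (nat_lit 200245176),Int.negSucc (nat_lit 21096173),Int.negSucc (nat_lit 103543202),Int.ofNat (nat_lit 10276353),Int.negSucc (nat_lit 77133564),Int.negSucc (nat_lit 243350455),Int.negSucc (nat_lit 235506351),Int.ofNat (nat_lit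 2275814),Int.ofNat (nat_lit 72819562),Int.ofNat (nat_lit 168107800),Int.negSucc (nat_lit 121205247),Int.ofNat (nat_lit 238849228),Int.negSucc (nat_lit 51578193),Int.negSucc (nat_lit 129835454),Int.negSucc (nat_lit 554820365),Int.negSucc (nat_lit 168127381),Int.negSucc (nat_lit 107200517),Int.negSucc (nat_lit 34850600),Int.ofNat (nat_lit 210008866),Int.ofNat (nat_lit 22149180),Int.ofNat (nat_lit 58506003),Int.ofNat (nat_lit 65184191),Int.negSucc (nat_lit 599090597),Int.negSucc (nat_lit 26051859),Int.ofNat (nat_lit 372687422),Int.negSucc (nat_lit 382801758),Int.ofNat (nat_lit 21137049),Int.negSucc (nat_lit 46260090),Int.ofNat (nat_lit 145772843),Int.negSucc (nat_lit 82659930),Int.negSucc (nat_lit 1240106197),Int.ofNat (nat_lit 684842579),Int.ofNat (nat_lit 317507491),Int.negSucc (nat_lit 579367593),Int.negSucc (nat_lit 325152898),Int.ofNat (nat_lit 380914749),Int.negSucc (nat_lit 1665215125),Int.negSucc (nat_lit 1609728071),Int.ofNat (nat_lit 628263976),Int.negSucc (nat_lit 640619922),Int.negSucc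 (nat_lit 227119461),Int.ofNat (nat_lit 930691973),Int.ofNat (nat_lit 988110225),Int.negSucc (nat_lit 233170548),Int.negSucc (nat_lit 165176375),Int.negSucc (nat_lit 1139082947),Int.ofNat (nat_lit 402402526),Int.negSucc (nat_lit 346778328),Int.ofNat (nat_lit 692556946),Int.negSucc (nat_lit 439310549),Int.negSucc (nat_lit 978421788),Int.ofNat (nat_lit 982061744),Int.ofNat (nat_lit 158506245),Int.negSucc (nat_lit 427684709),Int.ofNat (nat_lit 1320101405),Int.negSucc (nat_lit 748931),Int.negSucc (nat_lit 156527166),Int.negSucc (nat_lit 583311272),Int.ofNat (nat_lit 1124079997),Int.ofNat (nat_lit 1550132534),Int.negSucc (nat_lit 428305145),Int.ofNat (nat_lit 404991526),Int.negSucc (nat_lit 456449049),Int.negSucc (nat_lit 270686289),Int.ofNat (nat_lit 34719511)])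

/-- A part of a triangular factor. -/
noncomputable def sr6_c3 : Rows :=
  [sr6_c3_0,
   sr6_c3_1,
   sr6_c3_2,
   sr6_c3_3,
   sr6_c3_4,
   sr6_c3_5,
   sr6_c3_6,
   sr6_c3_7,
   sr6_c3_8,
   sr6_c3_9,
   sr6_c3_10,
   sr6_c3_11,
   sr6_c3_12,
   sr6_c3_13,
   sr6_c3_14,
   sr6_c3_15,
   sr6_c3_16,
   sr6_c3_17,
   sr6_c3_18,
   sr6_c3_19,
   sr6_c3_20,
   sr6_c3_21,
   sr6_c3_22,
   sr6_c3_23,
   sr6_c3_24,
   sr6_c3_25,
   sr6_c3_26,
   sr6_c3_27,
   sr6_c3_28,
   sr6_c3_29,
   sr6_c3_30,
   sr6_c3_31,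
   sr6_c3_32,
   sr6_c3_33,
   sr6_c3_34]

/-- A row. -/
noncomputable def sr6_c4_0 : List ℕ × List ℤ :=
  ([(nat_lit 0),(nat_lit 0),(nat_lit 0),(nat_lit 0),(nat_lit 0),(nat_lit 0),(nat_lit 0),(nat_lit 0),(nat_lit 0),(nat_lit 0),(nat_lit 0),(nat_lit 0)], [Int.negSucc (nat_lit 306357686),Int.ofNat (nat_lit 252538568),Int.negSucc (nat_lit 55277949),Int.ofNat (nat_lit 284609192),Int.negSucc (nat_lit 1137391),Int.negSucc (nat_lit 296566030),Int.negSucc (nat_lit 85871420),Int.ofNat (nat_lit 241796468),Int.negSucc (nat_lit 45985361),Int.ofNat (nat_lit 194379936),Int.ofNat (nat_lit 61290367),Int.negSucc (nat_lit 124181314),Int.ofNat (nat_lit 25535514),Int.ofNat (nat_lit 24146223),Int.negSucc (nat_lit 122931949),Int.ofNat (nat_lit 10308650),Int.ofNat (nat_lit 40267992),Int.ofNat (nat_lit 57713588),Int.negSucc (nat_lit 25092833),Int.ofNat (nat_lit 30811237),Int.negSucc (nat_lit 339650),Int.ofNat (nat_lit 40057764),Int.negSucc (nat_lit 65347921),Int.negSucc (nat_lit 57579386),Int.ofNat (nat_lit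 49985611),Int.negSucc (nat_lit 50250556),Int.negSucc (nat_lit 43360840),Int.negSucc (nat_lit 33756771),Int.negSucc (nat_lit 5024666),Int.ofNat (nat_lit 86105660),Int.ofNat (nat_lit 39737426),Int.negSucc (nat_lit 42450591),Int.negSucc (nat_lit 24958778),Int.negSucc (nat_lit 22289118),Int.negSucc (nat_lit 105087273),Int.negSucc (nat_lit 66204479),Int.negSucc (nat_lit 43122687),Int.negSucc (nat_lit 36866144),Int.ofNat (nat_lit 41573258),Int.ofNat (nat_lit 49152607),Int.negSucc (nat_lit 29951215),Int.ofNat (nat_lit 13921213),Int.ofNat (nat_lit 3180681),Int.negSucc (nat_lit 15831297),Int.negSucc (nat_lit 11493819),Int.ofNat (nat_lit 19484018),Int.ofNat (nat_lit 40957182),Int.ofNat (nat_lit 7655527),Int.negSucc (nat_lit 25282513),Int.negSucc (nat_lit 7695411),Int.negSucc (nat_lit 9560370),Int.negSucc (nat_lit 7386460),Int.negSucc (nat_lit 33859017),Int.ofNat (nat_lit 48319936),Int.negSucc (nat_lit 69642771),Int.ofNat (nat_lit 37329720),Int.ofNat (nat_lit 26395401),Int.negSucc (nat_lit 3802535),Int.negSucc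 (nat_lit 39334528),Int.ofNat (nat_lit 47774306),Int.negSucc (nat_lit 44907839),Int.ofNat (nat_lit 1351814),Int.ofNat (nat_lit 8947096),Int.negSucc (nat_lit 63406775),Int.negSucc (nat_lit 30418144),Int.negSucc (nat_lit 1528167),Int.ofNat (nat_lit 20775068),Int.negSucc (nat_lit 28737877),Int.negSucc (nat_lit 13559071),Int.negSucc (nat_lit 4589113),Int.ofNat (nat_lit 7115951),Int.ofNat (nat_lit 24155472),Int.negSucc (nat_lit 1077566),Int.negSucc (nat_lit 18255251),Int.ofNat (nat_lit 12459245),Int.negSucc (nat_lit 56817750),Int.negSucc (nat_lit 67661502),Int.ofNat (nat_lit 28119046),Int.negSucc (nat_lit 6495724),Int.ofNat (nat_lit 54098804),Int.negSucc (nat_lit 3652852),Int.ofNat (nat_lit 20664170),Int.negSucc (nat_lit 57313035),Int.ofNat (nat_lit 1634442),Int.ofNat (nat_lit 36236185),Int.ofNat (nat_lit 143758),Int.negSucc (nat_lit 8951155),Int.ofNat (nat_lit 4911662),Int.ofNat (nat_lit 2283760),Int.ofNat (nat_lit 1775719),Int.ofNat (nat_lit 7343255),Int.ofNat (nat_lit 25213052),Int.ofNat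 (nat_lit 35323727),Int.negSucc (nat_lit 849723),Int.negSucc (nat_lit 11243414),Int.negSucc (nat_lit 22056661),Int.negSucc (nat_lit 13335813),Int.ofNat (nat_lit 6799433),Int.ofNat (nat_lit 6519699),Int.negSucc (nat_lit 6090957),Int.negSucc (nat_lit 755373),Int.ofNat (nat_lit 8049903),Int.negSucc (nat_lit 5456802),Int.ofNat (nat_lit 3238852),Int.ofNat (nat_lit 2812430),Int.ofNat (nat_lit 1446537),Int.negSucc (nat_lit 19653708),Int.negSucc (nat_lit 8660287),Int.ofNat (nat_lit 12982303),Int.negSucc (nat_lit 11633410),Int.ofNat (nat_lit 5576796),Int.ofNat (nat_lit 7680102),Int.ofNat (nat_lit 6844664),Int.negSucc (nat_lit 11463757),Int.ofNat (nat_lit 3581590),Int.negSucc (nat_lit 4473703),Int.ofNat (nat_lit 6678188),Int.negSucc (nat_lit 821669),Int.ofNat (nat_lit 13688908),Int.negSucc (nat_lit 6132617),Int.ofNat (nat_lit 8354416),Int.negSucc (nat_lit 2445713),Int.ofNat (nat_lit 15191495),Int.negSucc (nat_lit 10758936),Int.negSucc (nat_lit 8826543),Int.negSucc (nat_lit 2252819),Int.negSucc (nat_lit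 5480173),Int.ofNat (nat_lit 20821980),Int.negSucc (nat_lit 9070414),Int.negSucc (nat_lit 4855045),Int.negSucc (nat_lit 4900546),Int.ofNat (nat_lit 462807),Int.ofNat (nat_lit 3832522),Int.negSucc (nat_lit 2893476),Int.negSucc (nat_lit 2138956),Int.negSucc (nat_lit 9729612),Int.ofNat (nat_lit 3815913),Int.ofNat (nat_lit 21244476),Int.negSucc (nat_lit 34652279),Int.ofNat (nat_lit 4183872),Int.ofNat (nat_lit 544522),Int.ofNat (nat_lit 31390453),Int.negSucc (nat_lit 61994564),Int.ofNat (nat_lit 18927614),Int.ofNat (nat_lit 17576254),Int.ofNat (nat_lit 29619697),Int.ofNat (nat_lit 13927630),Int.ofNat (nat_lit 40527342),Int.negSucc (nat_lit 915457),Int.negSucc (nat_lit 10284226),Int.negSucc (nat_lit 5174931),Int.ofNat (nat_lit 5699876),Int.negSucc (nat_lit 1058179),Int.negSucc (nat_lit 32407648),Int.negSucc (nat_lit 21752908),Int.negSucc (nat_lit 9768957),Int.ofNat (nat_lit 5532766),Int.negSucc (nat_lit 16700778),Int.negSucc (nat_lit 3607044),Int.ofNat (nat_lit 10953336),Int.ofNat (nat_lit 7432718),Int.negSucc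 (nat_lit 1448371),Int.ofNat (nat_lit 982126),Int.ofNat (nat_lit 11773917),Int.ofNat (nat_lit 724207),Int.ofNat (nat_lit 1128498),Int.ofNat (nat_lit 13546499),Int.ofNat (nat_lit 10284021),Int.negSucc (nat_lit 1604679),Int.ofNat (nat_lit 3638310),Int.negSucc (nat_lit 1312765),Int.negSucc (nat_lit 323416),Int.negSucc (nat_lit 2959011),Int.ofNat (nat_lit 11685829),Int.negSucc (nat_lit 24088258),Int.negSucc (nat_lit 6171143),Int.negSucc (nat_lit 3237131),Int.ofNat (nat_lit 30212806),Int.negSucc (nat_lit 16745322),Int.ofNat (nat_lit 17758880),Int.ofNat (nat_lit 13863053),Int.ofNat (nat_lit 16598347),Int.ofNat (nat_lit 2217458),Int.ofNat (nat_lit 12931584),Int.negSucc (nat_lit 6055341),Int.negSucc (nat_lit 16942082),Int.ofNat (nat_lit 12199737),Int.negSucc (nat_lit 18630960),Int.ofNat (nat_lit 5095098),Int.ofNat (nat_lit 9575669),Int.ofNat (nat_lit 16258596),Int.ofNat (nat_lit 5788131),Int.ofNat (nat_lit 8604142),Int.negSucc (nat_lit 12386942),Int.negSucc (nat_lit 7830929),Int.ofNat (nat_lit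 5306528),Int.negSucc (nat_lit 20783),Int.negSucc (nat_lit 1064821),Int.negSucc (nat_lit 3441727),Int.negSucc (nat_lit 7999985),Int.negSucc (nat_lit 2255031),Int.negSucc (nat_lit 8845488),Int.ofNat (nat_lit 10928402),Int.ofNat (nat_lit 9090089),Int.negSucc (nat_lit 7566663),Int.negSucc (nat_lit 1672712),Int.ofNat (nat_lit 3893548),Int.negSucc (nat_lit 10407803),Int.negSucc (nat_lit 3944794),Int.ofNat (nat_lit 10162656),Int.ofNat (nat_lit 7437318),Int.ofNat (nat_lit 5368062),Int.negSucc (nat_lit 13239326),Int.ofNat (nat_lit 281641160)])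

/-- A row. -/
noncomputable def sr6_c4_1 : List ℕ × List ℤ :=
  ([(nat_lit 0),(nat_lit 0),(nat_lit 0),(nat_lit 0),(nat_lit 0),(nat_lit 0),(nat_lit 1),(nat_lit 0),(nat_lit 0),(nat_lit 0),(nat_lit 0),(nat_lit 0)], [Int.ofNat (nat_lit 172867502),Int.negSucc (nat_lit 409485057),Int.negSucc (nat_lit 313256291),Int.negSucc (nat_lit 122439492),Int.ofNat (nat_lit 397589801),Int.ofNat (nat_lit 8098049),Int.ofNat (nat_lit 3071539),Int.ofNat (nat_lit 44019308),Int.negSucc (nat_lit 66130768),Int.negSucc (nat_lit 109345202),Int.negSucc (nat_lit 43604533),Int.ofNat (nat_lit 32804362),Int.negSucc (nat_lit 133437842),Int.ofNat (nat_lit 8117601),Int.negSucc (nat_lit 39302839),Int.negSucc (nat_lit 48466363),Int.negSucc (nat_lit 56381459),Int.negSucc (nat_lit 14217769),Int.negSucc (nat_lit 24454911),Int.ofNat (nat_lit 8785375),Int.ofNat (nat_lit 23363428),Int.negSucc (nat_lit 36197149),Int.negSucc (nat_lit 9984157),Int.ofNat (nat_lit 1280307),Int.ofNat (nat_lit 8109595),Int.ofNat (nat_lit 104336619),Int.ofNat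 (nat_lit 12465332),Int.negSucc (nat_lit 37300760),Int.ofNat (nat_lit 35000131),Int.ofNat (nat_lit 4143450),Int.ofNat (nat_lit 7779944),Int.ofNat (nat_lit 37460326),Int.negSucc (nat_lit 37999602),Int.ofNat (nat_lit 762449),Int.ofNat (nat_lit 53529348),Int.negSucc (nat_lit 50565163),Int.negSucc (nat_lit 40665191),Int.ofNat (nat_lit 17957709),Int.negSucc (nat_lit 90012293),Int.negSucc (nat_lit 12867685),Int.ofNat (nat_lit 2027010),Int.negSucc (nat_lit 46351057),Int.negSucc (nat_lit 10856001),Int.negSucc (nat_lit 101672895),Int.ofNat (nat_lit 66499420),Int.negSucc (nat_lit 2190703),Int.ofNat (nat_lit 13835713),Int.ofNat (nat_lit 2928330),Int.ofNat (nat_lit 28447579),Int.negSucc (nat_lit 1828824),Int.negSucc (nat_lit 18032095),Int.negSucc (nat_lit 1172278),Int.ofNat (nat_lit 46834151),Int.ofNat (nat_lit 77635380),Int.ofNat (nat_lit 16109308),Int.ofNat (nat_lit 19263164),Int.ofNat (nat_lit 4568767),Int.ofNat (nat_lit 25468636),Int.ofNat (nat_lit 3888969),Int.ofNat (nat_lit 21473597),Int.negSucc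 (nat_lit 8756521),Int.negSucc (nat_lit 1697623),Int.ofNat (nat_lit 6680694),Int.ofNat (nat_lit 26410046),Int.ofNat (nat_lit 4468863),Int.ofNat (nat_lit 5319036),Int.ofNat (nat_lit 19567286),Int.negSucc (nat_lit 5825948),Int.ofNat (nat_lit 21383405),Int.ofNat (nat_lit 23807094),Int.negSucc (nat_lit 444244),Int.ofNat (nat_lit 9509289),Int.ofNat (nat_lit 3121245),Int.ofNat (nat_lit 5643233),Int.ofNat (nat_lit 8392676),Int.ofNat (nat_lit 2632528),Int.ofNat (nat_lit 3336672),Int.negSucc (nat_lit 1224284),Int.ofNat (nat_lit 1967541),Int.ofNat (nat_lit 8114117),Int.ofNat (nat_lit 1003747),Int.negSucc (nat_lit 1641945),Int.negSucc (nat_lit 4959603),Int.negSucc (nat_lit 4640742),Int.ofNat (nat_lit 1309262),Int.negSucc (nat_lit 1726089),Int.negSucc (nat_lit 2299312),Int.ofNat (nat_lit 2079532),Int.negSucc (nat_lit 1645542),Int.ofNat (nat_lit 6138820),Int.ofNat (nat_lit 1726674),Int.ofNat (nat_lit 179337),Int.ofNat (nat_lit 1143870),Int.ofNat (nat_lit 171642),Int.negSucc (nat_lit 2052868),Int.negSucc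 (nat_lit 2829611),Int.negSucc (nat_lit 951062),Int.negSucc (nat_lit 2272188),Int.ofNat (nat_lit 1208786),Int.ofNat (nat_lit 4200043),Int.negSucc (nat_lit 738830),Int.negSucc (nat_lit 557951),Int.ofNat (nat_lit 409236),Int.ofNat (nat_lit 2721353),Int.ofNat (nat_lit 5555877),Int.negSucc (nat_lit 1595180),Int.negSucc (nat_lit 3757713),Int.ofNat (nat_lit 1320864),Int.ofNat (nat_lit 7217086),Int.negSucc (nat_lit 209431),Int.negSucc (nat_lit 804670),Int.negSucc (nat_lit 300918),Int.negSucc (nat_lit 15791019),Int.negSucc (nat_lit 4473668),Int.ofNat (nat_lit 3401481),Int.ofNat (nat_lit 2601615),Int.ofNat (nat_lit 485098),Int.ofNat (nat_lit 532142),Int.negSucc (nat_lit 2365238),Int.negSucc (nat_lit 1043942),Int.ofNat (nat_lit 1543130),Int.ofNat (nat_lit 480467),Int.ofNat (nat_lit 2416631),Int.negSucc (nat_lit 2176815),Int.ofNat (nat_lit 4072119),Int.ofNat (nat_lit 3543541),Int.negSucc (nat_lit 1810897),Int.negSucc (nat_lit 897508),Int.negSucc (nat_lit 4931177),Int.negSucc (nat_lit 1784020),Int.ofNat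 (nat_lit 2449059),Int.negSucc (nat_lit 4058811),Int.negSucc (nat_lit 1289266),Int.negSucc (nat_lit 742898),Int.negSucc (nat_lit 1687121),Int.ofNat (nat_lit 92367),Int.negSucc (nat_lit 1140675),Int.ofNat (nat_lit 5329935),Int.negSucc (nat_lit 1483433),Int.negSucc (nat_lit 6737452),Int.negSucc (nat_lit 9736397),Int.negSucc (nat_lit 2342381),Int.negSucc (nat_lit 1047599),Int.ofNat (nat_lit 2575442),Int.ofNat (nat_lit 18700),Int.ofNat (nat_lit 1240642),Int.negSucc (nat_lit 3284161),Int.ofNat (nat_lit 6421931),Int.negSucc (nat_lit 1474919),Int.negSucc (nat_lit 4155307),Int.negSucc (nat_lit 1792063),Int.negSucc (nat_lit 207017),Int.ofNat (nat_lit 1027289),Int.negSucc (nat_lit 4308174),Int.negSucc (nat_lit 7046245),Int.negSucc (nat_lit 41491),Int.ofNat (nat_lit 1920080),Int.negSucc (nat_lit 2150643),Int.negSucc (nat_lit 9931359),Int.ofNat (nat_lit 2516948),Int.ofNat (nat_lit 4424546),Int.negSucc (nat_lit 810805),Int.ofNat (nat_lit 2126093),Int.ofNat (nat_lit 127736),Int.ofNat (nat_lit 3369632),Int.ofNat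 (nat_lit 2537835),Int.ofNat (nat_lit 1962218),Int.ofNat (nat_lit 2835791),Int.ofNat (nat_lit 455310),Int.ofNat (nat_lit 1705292),Int.negSucc (nat_lit 510095),Int.negSucc (nat_lit 1663355),Int.ofNat (nat_lit 4240878),Int.ofNat (nat_lit 5051682),Int.negSucc (nat_lit 6154755),Int.negSucc (nat_lit 435643),Int.ofNat (nat_lit 5489248),Int.ofNat (nat_lit 5228034),Int.ofNat (nat_lit 5087226),Int.ofNat (nat_lit 2371859),Int.negSucc (nat_lit 1822222),Int.ofNat (nat_lit 3831002),Int.negSucc (nat_lit 2815481),Int.ofNat (nat_lit 3511354),Int.ofNat (nat_lit 309469),Int.ofNat (nat_lit 884227),Int.negSucc (nat_lit 601654),Int.negSucc (nat_lit 1529520),Int.ofNat (nat_lit 2449781),Int.ofNat (nat_lit 1156583),Int.ofNat (nat_lit 2396899),Int.negSucc (nat_lit 1385708),Int.ofNat (nat_lit 1252742),Int.negSucc (nat_lit 192818),Int.negSucc (nat_lit 1942400),Int.ofNat (nat_lit 1512452),Int.ofNat (nat_lit 4078812),Int.negSucc (nat_lit 325792),Int.negSucc (nat_lit 1554514),Int.negSucc (nat_lit 63027),Int.negSucc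 (nat_lit 343708),Int.negSucc (nat_lit 1728390),Int.ofNat (nat_lit 649641),Int.ofNat (nat_lit 979314),Int.ofNat (nat_lit 299207),Int.negSucc (nat_lit 1818807),Int.ofNat (nat_lit 215772),Int.negSucc (nat_lit 1313508),Int.ofNat (nat_lit 555254),Int.ofNat (nat_lit 182458),Int.ofNat (nat_lit 1246207),Int.ofNat (nat_lit 2022609),Int.ofNat (nat_lit 1193035),Int.ofNat (nat_lit 6401449),Int.ofNat (nat_lit 52396450)])

/-- A row. -/
noncomputable def sr6_c4_2 : List ℕ × List ℤ :=
  ([(nat_lit 0),(nat_lit 0),(nat_lit 0),(nat_lit 0),(nat_lit 1),(nat_lit 0),(nat_lit 0),(nat_lit 0),(nat_lit 0),(nat_lit 0),(nat_lit 0),(nat_lit 0)], [Int.ofNat (nat_lit 127751336),Int.negSucc (nat_lit 125160206),Int.ofNat (nat_lit 289660297),Int.ofNat (nat_lit 105914341),Int.negSucc (nat_lit 266992459),Int.negSucc (nat_lit 79155868),Int.ofNat (nat_lit 167806038),Int.negSucc (nat_lit 326564582),Int.ofNat (nat_lit 241479209),Int.ofNat (nat_lit 108547026),Int.ofNat (nat_lit 114580833),Int.ofNat (nat_lit 101025336),Int.ofNat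 (nat_lit 4280434),Int.negSucc (nat_lit 57060357),Int.ofNat (nat_lit 90013575),Int.ofNat (nat_lit 13590416),Int.negSucc (nat_lit 9222447),Int.negSucc (nat_lit 19787973),Int.negSucc (nat_lit 13646170),Int.negSucc (nat_lit 24087322),Int.ofNat (nat_lit 221833428),Int.negSucc (nat_lit 189019965),Int.ofNat (nat_lit 49662718),Int.negSucc (nat_lit 183538116),Int.ofNat (nat_lit 22075732),Int.ofNat (nat_lit 20785398),Int.ofNat (nat_lit 41514336),Int.ofNat (nat_lit 9196293),Int.negSucc (nat_lit 126925316),Int.negSucc (nat_lit 45048405),Int.negSucc (nat_lit 158916536),Int.negSucc (nat_lit 28637972),Int.ofNat (nat_lit 65687563),Int.negSucc (nat_lit 11421044),Int.ofNat (nat_lit 137557856),Int.ofNat (nat_lit 107263408),Int.ofNat (nat_lit 210701281),Int.ofNat (nat_lit 148220480),Int.ofNat (nat_lit 123446549),Int.ofNat (nat_lit 11610748),Int.ofNat (nat_lit 12956833),Int.ofNat (nat_lit 20064040),Int.ofNat (nat_lit 47070343),Int.ofNat (nat_lit 107150844),Int.ofNat (nat_lit 43557556),Int.negSucc (nat_lit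 3066610),Int.negSucc (nat_lit 36494302),Int.negSucc (nat_lit 21941411),Int.ofNat (nat_lit 36600659),Int.ofNat (nat_lit 91391101),Int.negSucc (nat_lit 3919480),Int.negSucc (nat_lit 49068907),Int.ofNat (nat_lit 30083016),Int.negSucc (nat_lit 134717880),Int.ofNat (nat_lit 71167740),Int.ofNat (nat_lit 57831670),Int.ofNat (nat_lit 54596589),Int.ofNat (nat_lit 19042357),Int.negSucc (nat_lit 29278155),Int.ofNat (nat_lit 3711247),Int.ofNat (nat_lit 15174650),Int.ofNat (nat_lit 15614339),Int.negSucc (nat_lit 32192939),Int.ofNat (nat_lit 26306193),Int.negSucc (nat_lit 34673521),Int.negSucc (nat_lit 50421433),Int.ofNat (nat_lit 46508933),Int.ofNat (nat_lit 30274634),Int.ofNat (nat_lit 17138080),Int.negSucc (nat_lit 46503592),Int.ofNat (nat_lit 5520307),Int.ofNat (nat_lit 56587235),Int.negSucc (nat_lit 110936905),Int.ofNat (nat_lit 2722060),Int.negSucc (nat_lit 23217799),Int.ofNat (nat_lit 19273152),Int.ofNat (nat_lit 9964784),Int.negSucc (nat_lit 17263661),Int.negSucc (nat_lit 8179796),Int.negSucc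 (nat_lit 8593764),Int.ofNat (nat_lit 14316659),Int.ofNat (nat_lit 10852458),Int.ofNat (nat_lit 18167945),Int.ofNat (nat_lit 36897440),Int.negSucc (nat_lit 13313117),Int.ofNat (nat_lit 2405294),Int.ofNat (nat_lit 18337227),Int.negSucc (nat_lit 11346983),Int.negSucc (nat_lit 14499928),Int.negSucc (nat_lit 26782393),Int.ofNat (nat_lit 176936),Int.ofNat (nat_lit 5096417),Int.ofNat (nat_lit 7614645),Int.ofNat (nat_lit 4174428),Int.ofNat (nat_lit 13737134),Int.ofNat (nat_lit 19260818),Int.ofNat (nat_lit 9814938),Int.ofNat (nat_lit 19188609),Int.negSucc (nat_lit 6642812),Int.negSucc (nat_lit 24764004),Int.ofNat (nat_lit 10540613),Int.ofNat (nat_lit 14278846),Int.negSucc (nat_lit 3033115),Int.negSucc (nat_lit 5146171),Int.negSucc (nat_lit 9710737),Int.ofNat (nat_lit 14303064),Int.negSucc (nat_lit 5714158),Int.negSucc (nat_lit 6656214),Int.negSucc (nat_lit 8519910),Int.ofNat (nat_lit 6600774),Int.ofNat (nat_lit 3582060),Int.ofNat (nat_lit 21853370),Int.ofNat (nat_lit 32341051),Int.ofNat (nat_lit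 4703352),Int.negSucc (nat_lit 812859),Int.negSucc (nat_lit 21894052),Int.ofNat (nat_lit 7007808),Int.negSucc (nat_lit 11197636),Int.negSucc (nat_lit 727942),Int.ofNat (nat_lit 3953370),Int.negSucc (nat_lit 5995370),Int.ofNat (nat_lit 3136353),Int.negSucc (nat_lit 8274331),Int.ofNat (nat_lit 23415052),Int.negSucc (nat_lit 29237334),Int.negSucc (nat_lit 12201813),Int.ofNat (nat_lit 13711199),Int.ofNat (nat_lit 6180467),Int.negSucc (nat_lit 436778),Int.ofNat (nat_lit 11147943),Int.negSucc (nat_lit 6727873),Int.ofNat (nat_lit 8446019),Int.ofNat (nat_lit 5146830),Int.ofNat (nat_lit 1646249),Int.ofNat (nat_lit 16332138),Int.negSucc (nat_lit 1528511),Int.ofNat (nat_lit 5201989),Int.negSucc (nat_lit 17132425),Int.ofNat (nat_lit 21063334),Int.ofNat (nat_lit 7771772),Int.ofNat (nat_lit 13783647),Int.negSucc (nat_lit 12133078),Int.ofNat (nat_lit 9516193),Int.negSucc (nat_lit 11543331),Int.negSucc (nat_lit 3952003),Int.negSucc (nat_lit 6012304),Int.ofNat (nat_lit 7855589),Int.negSucc (nat_lit 65561205),Int.negSucc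 (nat_lit 2070120),Int.negSucc (nat_lit 6920346),Int.negSucc (nat_lit 201205),Int.negSucc (nat_lit 9933253),Int.negSucc (nat_lit 8270430),Int.ofNat (nat_lit 22022019),Int.ofNat (nat_lit 28718089),Int.negSucc (nat_lit 11159763),Int.negSucc (nat_lit 9839314),Int.ofNat (nat_lit 6849801),Int.ofNat (nat_lit 33171760),Int.negSucc (nat_lit 29304208),Int.negSucc (nat_lit 10096965),Int.ofNat (nat_lit 32774040),Int.ofNat (nat_lit 97770),Int.ofNat (nat_lit 12420504),Int.negSucc (nat_lit 10492193),Int.negSucc (nat_lit 18972874),Int.negSucc (nat_lit 7866),Int.negSucc (nat_lit 7510995),Int.negSucc (nat_lit 9119225),Int.negSucc (nat_lit 56998),Int.ofNat (nat_lit 25995787),Int.ofNat (nat_lit 6076980),Int.negSucc (nat_lit 10544818),Int.negSucc (nat_lit 4839065),Int.ofNat (nat_lit 8037428),Int.ofNat (nat_lit 2053320),Int.negSucc (nat_lit 7517873),Int.negSucc (nat_lit 20703114),Int.ofNat (nat_lit 8566566),Int.negSucc (nat_lit 5955478),Int.negSucc (nat_lit 7349325),Int.negSucc (nat_lit 11885306),Int.negSucc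 (nat_lit 6039971),Int.negSucc (nat_lit 12192112),Int.negSucc (nat_lit 407714),Int.negSucc (nat_lit 9067081),Int.ofNat (nat_lit 1917791),Int.ofNat (nat_lit 14220981),Int.negSucc (nat_lit 3979083),Int.negSucc (nat_lit 5720218),Int.negSucc (nat_lit 10838143),Int.negSucc (nat_lit 4642321),Int.negSucc (nat_lit 9735487),Int.ofNat (nat_lit 1529340),Int.ofNat (nat_lit 1385343),Int.negSucc (nat_lit 9062456),Int.negSucc (nat_lit 20180597),Int.negSucc (nat_lit 13434740),Int.negSucc (nat_lit 11360584),Int.negSucc (nat_lit 1329558),Int.negSucc (nat_lit 7532308),Int.ofNat (nat_lit 361017),Int.ofNat (nat_lit 9108658),Int.negSucc (nat_lit 17257718),Int.negSucc (nat_lit 6862904),Int.ofNat (nat_lit 15246345),Int.negSucc (nat_lit 21117079),Int.negSucc (nat_lit 5742937),Int.negSucc (nat_lit 2724997),Int.ofNat (nat_lit 2716754),Int.negSucc (nat_lit 1766954),Int.negSucc (nat_lit 16034121),Int.ofNat (nat_lit 3508123),Int.negSucc (nat_lit 80909991),Int.negSucc (nat_lit 84981783),Int.ofNat (nat_lit 184515870)])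

/-- A row. -/
noncomputable def sr6_c4_3 : List ℕ × List ℤ :=
  ([(nat_lit 0),(nat_lit 0),(nat_lit 0),(nat_lit 2),(nat_lit 0),(nat_lit 0),(nat_lit 0),(nat_lit 0),(nat_lit 0),(nat_lit 0),(nat_lit 0),(nat_lit 0)], [Int.ofNat (nat_lit 39643355),Int.ofNat (nat_lit 226337460),Int.ofNat (nat_lit 81407317),Int.negSucc (nat_lit 74831709),Int.ofNat (nat_lit 2330240),Int.negSucc (nat_lit 97777838),Int.ofNat (nat_lit 80149073),Int.negSucc (nat_lit 22758334),Int.ofNat (nat_lit 27333523),Int.ofNat (nat_lit 74518967),Int.negSucc (nat_lit 29437578),Int.negSucc (nat_lit 45488256),Int.ofNat (nat_lit 25524656),Int.negSucc (nat_lit 49387281),Int.negSucc (nat_lit 4516092),Int.ofNat (nat_lit 4286885),Int.ofNat (nat_lit 72607765),Int.ofNat (nat_lit 14344255),Int.ofNat (nat_lit 7605561),Int.ofNat (nat_lit 10875018),Int.negSucc (nat_lit 2687611),Int.negSucc (nat_lit 40111393),Int.negSucc (nat_lit 9069950),Int.negSucc (nat_lit 24559735),Int.ofNat (nat_lit 30247147),Int.negSucc (nat_lit 52337378),Int.ofNat (nat_lit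 2238200),Int.negSucc (nat_lit 6053823),Int.negSucc (nat_lit 21951280),Int.negSucc (nat_lit 5952280),Int.negSucc (nat_lit 27403937),Int.negSucc (nat_lit 9195850),Int.ofNat (nat_lit 23749713),Int.negSucc (nat_lit 12962707),Int.ofNat (nat_lit 13517477),Int.ofNat (nat_lit 63117118),Int.ofNat (nat_lit 37286338),Int.ofNat (nat_lit 7495031),Int.ofNat (nat_lit 21984852),Int.ofNat (nat_lit 22202581),Int.negSucc (nat_lit 7917735),Int.negSucc (nat_lit 8358531),Int.ofNat (nat_lit 8882067),Int.ofNat (nat_lit 30982370),Int.negSucc (nat_lit 23120110),Int.ofNat (nat_lit 117865),Int.ofNat (nat_lit 17335204),Int.negSucc (nat_lit 20869899),Int.ofNat (nat_lit 18615560),Int.negSucc (nat_lit 2523664),Int.negSucc (nat_lit 4652369),Int.negSucc (nat_lit 3707534),Int.negSucc (nat_lit 23258606),Int.negSucc (nat_lit 52430957),Int.ofNat (nat_lit 12659457),Int.ofNat (nat_lit 13261726),Int.negSucc (nat_lit 1792262),Int.ofNat (nat_lit 3185294),Int.negSucc (nat_lit 26980959),Int.negSucc (nat_lit 1077629),Int.ofNat (nat_lit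 19881399),Int.ofNat (nat_lit 12478628),Int.negSucc (nat_lit 2915137),Int.negSucc (nat_lit 21660068),Int.ofNat (nat_lit 6467805),Int.negSucc (nat_lit 18012947),Int.ofNat (nat_lit 8026006),Int.ofNat (nat_lit 13216542),Int.negSucc (nat_lit 18942246),Int.negSucc (nat_lit 33085198),Int.ofNat (nat_lit 14815182),Int.ofNat (nat_lit 26492708),Int.ofNat (nat_lit 14769378),Int.ofNat (nat_lit 8023267),Int.negSucc (nat_lit 24168923),Int.negSucc (nat_lit 5888585),Int.ofNat (nat_lit 4091678),Int.ofNat (nat_lit 6926896),Int.ofNat (nat_lit 411562),Int.negSucc (nat_lit 1308946),Int.ofNat (nat_lit 7558140),Int.ofNat (nat_lit 16251942),Int.ofNat (nat_lit 7450068),Int.ofNat (nat_lit 11754477),Int.ofNat (nat_lit 4580848),Int.negSucc (nat_lit 5522569),Int.negSucc (nat_lit 3027780),Int.negSucc (nat_lit 14193604),Int.ofNat (nat_lit 1394121),Int.negSucc (nat_lit 5444776),Int.ofNat (nat_lit 9961161),Int.negSucc (nat_lit 6234866),Int.ofNat (nat_lit 3581730),Int.negSucc (nat_lit 2237499),Int.ofNat (nat_lit 348653),Int.ofNat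 (nat_lit 6243540),Int.ofNat (nat_lit 8269595),Int.ofNat (nat_lit 7865076),Int.negSucc (nat_lit 8911659),Int.negSucc (nat_lit 18913743),Int.ofNat (nat_lit 9278096),Int.ofNat (nat_lit 2798696),Int.ofNat (nat_lit 1150629),Int.ofNat (nat_lit 4625776),Int.negSucc (nat_lit 16089294),Int.ofNat (nat_lit 14037266),Int.negSucc (nat_lit 4901277),Int.ofNat (nat_lit 2245037),Int.negSucc (nat_lit 10353912),Int.negSucc (nat_lit 1259060),Int.ofNat (nat_lit 5080088),Int.ofNat (nat_lit 5331818),Int.ofNat (nat_lit 25340764),Int.negSucc (nat_lit 569022),Int.ofNat (nat_lit 881733),Int.negSucc (nat_lit 9880354),Int.negSucc (nat_lit 6228833),Int.negSucc (nat_lit 6574629),Int.ofNat (nat_lit 1579221),Int.negSucc (nat_lit 4554324),Int.negSucc (nat_lit 3374374),Int.ofNat (nat_lit 5513216),Int.negSucc (nat_lit 9026724),Int.ofNat (nat_lit 10824174),Int.negSucc (nat_lit 6771114),Int.negSucc (nat_lit 7289369),Int.ofNat (nat_lit 10216816),Int.negSucc (nat_lit 6926300),Int.negSucc (nat_lit 696112),Int.negSucc (nat_lit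 10048829),Int.negSucc (nat_lit 3048641),Int.ofNat (nat_lit 8740981),Int.ofNat (nat_lit 17144846),Int.ofNat (nat_lit 7418965),Int.ofNat (nat_lit 12999298),Int.negSucc (nat_lit 3298561),Int.ofNat (nat_lit 19457539),Int.ofNat (nat_lit 6856899),Int.ofNat (nat_lit 2405128),Int.negSucc (nat_lit 3679192),Int.ofNat (nat_lit 8733853),Int.negSucc (nat_lit 10255381),Int.ofNat (nat_lit 7012248),Int.negSucc (nat_lit 12671432),Int.ofNat (nat_lit 2734874),Int.negSucc (nat_lit 381062),Int.negSucc (nat_lit 2292209),Int.negSucc (nat_lit 24788047),Int.ofNat (nat_lit 6319716),Int.negSucc (nat_lit 8899417),Int.negSucc (nat_lit 1750386),Int.negSucc (nat_lit 864879),Int.negSucc (nat_lit 2102944),Int.ofNat (nat_lit 6855191),Int.ofNat (nat_lit 13724678),Int.negSucc (nat_lit 11610636),Int.ofNat (nat_lit 1631864),Int.negSucc (nat_lit 4074486),Int.ofNat (nat_lit 19911491),Int.negSucc (nat_lit 7967556),Int.negSucc (nat_lit 10049090),Int.ofNat (nat_lit 6273033),Int.negSucc (nat_lit 17289019),Int.negSucc (nat_lit 546789),Int.negSucc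 (nat_lit 760053),Int.negSucc (nat_lit 3905680),Int.ofNat (nat_lit 5369921),Int.negSucc (nat_lit 8986738),Int.negSucc (nat_lit 2051454),Int.ofNat (nat_lit 7263568),Int.ofNat (nat_lit 1899375),Int.ofNat (nat_lit 1311599),Int.negSucc (nat_lit 6716691),Int.ofNat (nat_lit 16056885),Int.negSucc (nat_lit 9879642),Int.ofNat (nat_lit 4944624),Int.ofNat (nat_lit 619608),Int.negSucc (nat_lit 6435611),Int.negSucc (nat_lit 12950300),Int.ofNat (nat_lit 2542161),Int.negSucc (nat_lit 6247272),Int.negSucc (nat_lit 7772820),Int.negSucc (nat_lit 8100062),Int.negSucc (nat_lit 3495350),Int.negSucc (nat_lit 4611586),Int.negSucc (nat_lit 1491162),Int.ofNat (nat_lit 3570136),Int.ofNat (nat_lit 8242126),Int.ofNat (nat_lit 2337993),Int.negSucc (nat_lit 1106836),Int.negSucc (nat_lit 5820281),Int.negSucc (nat_lit 1870430),Int.ofNat (nat_lit 45859),Int.ofNat (nat_lit 912489),Int.negSucc (nat_lit 1165360),Int.negSucc (nat_lit 5132957),Int.negSucc (nat_lit 13271941),Int.negSucc (nat_lit 13987271),Int.negSucc (nat_lit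 3462307),Int.ofNat (nat_lit 6886857),Int.negSucc (nat_lit 4695105),Int.negSucc (nat_lit 962278),Int.ofNat (nat_lit 12049343),Int.negSucc (nat_lit 5902682),Int.negSucc (nat_lit 1211661),Int.ofNat (nat_lit 6268641),Int.negSucc (nat_lit 8365523),Int.negSucc (nat_lit 6202687),Int.ofNat (nat_lit 2958738),Int.ofNat (nat_lit 8677615),Int.ofNat (nat_lit 1040114),Int.ofNat (nat_lit 1682507),Int.negSucc (nat_lit 1976013),Int.negSucc (nat_lit 17321556),Int.negSucc (nat_lit 50265666),Int.ofNat (nat_lit 57355118),Int.ofNat (nat_lit 134531320)])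

/-- A row. -/
noncomputable def sr6_c4_4 : List ℕ × List ℤ :=
  ([(nat_lit 0),(nat_lit 0),(nat_lit 1),(nat_lit 0),(nat_lit 0),(nat_lit 0),(nat_lit 0),(nat_lit 0),(nat_lit 0),(nat_lit 0),(nat_lit 0),(nat_lit 0)], [Int.negSucc (nat_lit 244294248),Int.ofNat (nat_lit 658177248),Int.ofNat (nat_lit 222866999),Int.ofNat (nat_lit 397192981),Int.negSucc (nat_lit 144228886),Int.negSucc (nat_lit 411912861),Int.ofNat (nat_lit 31440611),Int.ofNat (nat_lit 196012671),Int.ofNat (nat_lit 79627449),Int.ofNat (nat_lit 409486567),Int.ofNat (nat_lit 77819197),Int.negSucc (nat_lit 148341050),Int.ofNat (nat_lit 84009903),Int.ofNat (nat_lit 24938515),Int.negSucc (nat_lit 110750618),Int.ofNat (nat_lit 32101466),Int.ofNat (nat_lit 118714644),Int.ofNat (nat_lit 67723930),Int.negSucc (nat_lit 12617689),Int.ofNat (nat_lit 20586584),Int.ofNat (nat_lit 3765469),Int.negSucc (nat_lit 3233900),Int.negSucc (nat_lit 66033926),Int.negSucc (nat_lit 146472085),Int.ofNat (nat_lit 86083816),Int.negSucc (nat_lit 125149697),Int.negSucc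 (nat_lit 26406475),Int.negSucc (nat_lit 18445311),Int.negSucc (nat_lit 64407283),Int.ofNat (nat_lit 94387574),Int.negSucc (nat_lit 19770150),Int.negSucc (nat_lit 68351800),Int.ofNat (nat_lit 18991781),Int.negSucc (nat_lit 37103578),Int.negSucc (nat_lit 105311579),Int.negSucc (nat_lit 23297061),Int.ofNat (nat_lit 27721556),Int.negSucc (nat_lit 5160914),Int.ofNat (nat_lit 169642301),Int.ofNat (nat_lit 59760784),Int.negSucc (nat_lit 41650840),Int.ofNat (nat_lit 30156614),Int.ofNat (nat_lit 17285394),Int.ofNat (nat_lit 86378039),Int.negSucc (nat_lit 67322481),Int.ofNat (nat_lit 33930107),Int.ofNat (nat_lit 50727649),Int.negSucc (nat_lit 6804108),Int.negSucc (nat_lit 41999720),Int.ofNat (nat_lit 17654258),Int.negSucc (nat_lit 10137554),Int.negSucc (nat_lit 31955792),Int.negSucc (nat_lit 60843290),Int.negSucc (nat_lit 44017618),Int.negSucc (nat_lit 42113708),Int.ofNat (nat_lit 90969472),Int.ofNat (nat_lit 41213572),Int.negSucc (nat_lit 30702087),Int.negSucc (nat_lit 85173816),Int.ofNat (nat_lit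 42093790),Int.negSucc (nat_lit 36891012),Int.ofNat (nat_lit 12768429),Int.ofNat (nat_lit 749698),Int.negSucc (nat_lit 106856170),Int.negSucc (nat_lit 73335904),Int.negSucc (nat_lit 39957923),Int.ofNat (nat_lit 34446461),Int.negSucc (nat_lit 12573844),Int.negSucc (nat_lit 50986183),Int.negSucc (nat_lit 72599655),Int.ofNat (nat_lit 27088678),Int.ofNat (nat_lit 30776269),Int.ofNat (nat_lit 14168927),Int.negSucc (nat_lit 40973153),Int.negSucc (nat_lit 6571391),Int.negSucc (nat_lit 66471250),Int.negSucc (nat_lit 67583248),Int.ofNat (nat_lit 43458286),Int.negSucc (nat_lit 3442798),Int.ofNat (nat_lit 63428184),Int.ofNat (nat_lit 11015634),Int.ofNat (nat_lit 32523604),Int.negSucc (nat_lit 50099975),Int.ofNat (nat_lit 17543045),Int.ofNat (nat_lit 42672437),Int.ofNat (nat_lit 10079625),Int.negSucc (nat_lit 2659050),Int.negSucc (nat_lit 7029114),Int.negSucc (nat_lit 4940013),Int.negSucc (nat_lit 1964877),Int.ofNat (nat_lit 16110249),Int.ofNat (nat_lit 26440711),Int.ofNat (nat_lit 36611375),Int.negSucc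 (nat_lit 5449391),Int.negSucc (nat_lit 7064270),Int.negSucc (nat_lit 19600353),Int.negSucc (nat_lit 8317856),Int.ofNat (nat_lit 20628869),Int.ofNat (nat_lit 4336285),Int.negSucc (nat_lit 21903777),Int.ofNat (nat_lit 1671779),Int.ofNat (nat_lit 16093695),Int.negSucc (nat_lit 8488376),Int.ofNat (nat_lit 4212902),Int.negSucc (nat_lit 3797157),Int.ofNat (nat_lit 10718891),Int.negSucc (nat_lit 34194173),Int.negSucc (nat_lit 12619373),Int.ofNat (nat_lit 20996856),Int.negSucc (nat_lit 14075743),Int.ofNat (nat_lit 9317812),Int.ofNat (nat_lit 20072138),Int.ofNat (nat_lit 34635796),Int.negSucc (nat_lit 8807224),Int.ofNat (nat_lit 471507),Int.negSucc (nat_lit 13643168),Int.ofNat (nat_lit 3176415),Int.ofNat (nat_lit 5855003),Int.ofNat (nat_lit 18020487),Int.negSucc (nat_lit 9880609),Int.ofNat (nat_lit 8193587),Int.ofNat (nat_lit 3980493),Int.ofNat (nat_lit 6096276),Int.ofNat (nat_lit 8186139),Int.negSucc (nat_lit 18673124),Int.negSucc (nat_lit 11442073),Int.ofNat (nat_lit 6757550),Int.ofNat (nat_lit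 40708845),Int.negSucc (nat_lit 660810),Int.negSucc (nat_lit 2929586),Int.negSucc (nat_lit 6120998),Int.ofNat (nat_lit 7816800),Int.ofNat (nat_lit 14648961),Int.ofNat (nat_lit 7530489),Int.ofNat (nat_lit 1484063),Int.negSucc (nat_lit 14550136),Int.ofNat (nat_lit 9017042),Int.ofNat (nat_lit 24538106),Int.negSucc (nat_lit 37003246),Int.negSucc (nat_lit 15818100),Int.ofNat (nat_lit 15912433),Int.ofNat (nat_lit 30715052),Int.negSucc (nat_lit 49638290),Int.ofNat (nat_lit 13464734),Int.ofNat (nat_lit 19908339),Int.ofNat (nat_lit 30983580),Int.ofNat (nat_lit 7367329),Int.ofNat (nat_lit 25280787),Int.negSucc (nat_lit 7256536),Int.negSucc (nat_lit 22318611),Int.negSucc (nat_lit 8299240),Int.ofNat (nat_lit 6776971),Int.negSucc (nat_lit 2503703),Int.negSucc (nat_lit 32423500),Int.negSucc (nat_lit 7335008),Int.negSucc (nat_lit 18849884),Int.ofNat (nat_lit 2124972),Int.negSucc (nat_lit 19410529),Int.ofNat (nat_lit 22078180),Int.ofNat (nat_lit 11980156),Int.negSucc (nat_lit 8237625),Int.ofNat (nat_lit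 7471953),Int.ofNat (nat_lit 1348219),Int.ofNat (nat_lit 28016792),Int.negSucc (nat_lit 2296782),Int.negSucc (nat_lit 869009),Int.ofNat (nat_lit 11197662),Int.ofNat (nat_lit 5608705),Int.negSucc (nat_lit 5235903),Int.ofNat (nat_lit 2399902),Int.ofNat (nat_lit 1886486),Int.negSucc (nat_lit 1013267),Int.negSucc (nat_lit 10379937),Int.ofNat (nat_lit 12283037),Int.negSucc (nat_lit 13035553),Int.negSucc (nat_lit 19403575),Int.ofNat (nat_lit 4549262),Int.ofNat (nat_lit 31574362),Int.negSucc (nat_lit 29551691),Int.ofNat (nat_lit 14025128),Int.negSucc (nat_lit 4360609),Int.ofNat (nat_lit 6504301),Int.ofNat (nat_lit 3240152),Int.ofNat (nat_lit 8379993),Int.negSucc (nat_lit 7109672),Int.negSucc (nat_lit 21399230),Int.ofNat (nat_lit 20765918),Int.negSucc (nat_lit 8369899),Int.ofNat (nat_lit 7617731),Int.ofNat (nat_lit 10806595),Int.ofNat (nat_lit 18411408),Int.ofNat (nat_lit 3773126),Int.ofNat (nat_lit 9056124),Int.negSucc (nat_lit 12084811),Int.negSucc (nat_lit 6701880),Int.ofNat (nat_lit 572765),Int.negSucc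 (nat_lit 16827926),Int.negSucc (nat_lit 10299746),Int.negSucc (nat_lit 13799880),Int.negSucc (nat_lit 12071867),Int.negSucc (nat_lit 6151384),Int.negSucc (nat_lit 13733231),Int.ofNat (nat_lit 21178161),Int.ofNat (nat_lit 3247977),Int.negSucc (nat_lit 13124712),Int.ofNat (nat_lit 9318046),Int.negSucc (nat_lit 8261845),Int.negSucc (nat_lit 22630843),Int.negSucc (nat_lit 9228179),Int.ofNat (nat_lit 13232072),Int.ofNat (nat_lit 5339516),Int.ofNat (nat_lit 2084276),Int.negSucc (nat_lit 18458191),Int.ofNat (nat_lit 285094588),Int.negSucc (nat_lit 58872173),Int.ofNat (nat_lit 85968273),Int.ofNat (nat_lit 83621664),Int.ofNat (nat_lit 137024908)])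

/-- A row. -/
noncomputable def sr6_c4_5 : List ℕ × List ℤ :=
  ([(nat_lit 0),(nat_lit 0),(nat_lit 2),(nat_lit 0),(nat_lit 0),(nat_lit 0),(nat_lit 0),(nat_lit 0),(nat_lit 0),(nat_lit 0),(nat_lit 0),(nat_lit 0)], [Int.ofNat (nat_lit 21281059),Int.ofNat (nat_lit 397385304),Int.ofNat (nat_lit 291546998),Int.ofNat (nat_lit 130359016),Int.negSucc (nat_lit 173180130),Int.negSucc (nat_lit 125148933),Int.ofNat (nat_lit 92842754),Int.negSucc (nat_lit 8769540),Int.ofNat (nat_lit 85927515),Int.ofNat (nat_lit 216643755),Int.ofNat (nat_lit 22372670),Int.negSucc (nat_lit 61442060),Int.ofNat (nat_lit 82750352),Int.ofNat (nat_lit 606506),Int.ofNat (nat_lit 1246570),Int.ofNat (nat_lit 39203941),Int.ofNat (nat_lit 87448699),Int.ofNat (nat_lit 17131891),Int.ofNat (nat_lit 4727077),Int.negSucc (nat_lit 5475146),Int.negSucc (nat_lit 17803420),Int.negSucc (nat_lit 22170722),Int.negSucc (nat_lit 7810867),Int.negSucc (nat_lit 68313678),Int.ofNat (nat_lit 41560070),Int.negSucc (nat_lit 82751421),Int.ofNat (nat_lit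 5740986),Int.ofNat (nat_lit 29275940),Int.negSucc (nat_lit 58359019),Int.ofNat (nat_lit 19632051),Int.negSucc (nat_lit 31287659),Int.negSucc (nat_lit 29111009),Int.ofNat (nat_lit 39218122),Int.negSucc (nat_lit 10736043),Int.negSucc (nat_lit 21901359),Int.ofNat (nat_lit 25653263),Int.ofNat (nat_lit 57395151),Int.ofNat (nat_lit 15858286),Int.ofNat (nat_lit 132235760),Int.ofNat (nat_lit 15440537),Int.negSucc (nat_lit 13807340),Int.ofNat (nat_lit 20711658),Int.ofNat (nat_lit 15630679),Int.ofNat (nat_lit 97627279),Int.negSucc (nat_lit 67453312),Int.ofNat (nat_lit 14923845),Int.ofNat (nat_lit 17035833),Int.negSucc (nat_lit 11332010),Int.negSucc (nat_lit 20669624),Int.ofNat (nat_lit 14200683),Int.negSucc (nat_lit 3241671),Int.negSucc (nat_lit 14289947),Int.negSucc (nat_lit 39377316),Int.negSucc (nat_lit 77927560),Int.ofNat (nat_lit 16245838),Int.ofNat (nat_lit 40122094),Int.ofNat (nat_lit 19880872),Int.negSucc (nat_lit 18524761),Int.negSucc (nat_lit 35549937),Int.negSucc (nat_lit 8516270),Int.ofNat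 (nat_lit 14100414),Int.ofNat (nat_lit 17486251),Int.negSucc (nat_lit 7035769),Int.negSucc (nat_lit 41976568),Int.negSucc (nat_lit 42157268),Int.negSucc (nat_lit 34333345),Int.ofNat (nat_lit 13040192),Int.ofNat (nat_lit 17076941),Int.negSucc (nat_lit 39777468),Int.negSucc (nat_lit 59348230),Int.ofNat (nat_lit 16650708),Int.negSucc (nat_lit 781962),Int.ofNat (nat_lit 18297544),Int.negSucc (nat_lit 11326890),Int.negSucc (nat_lit 21145326),Int.negSucc (nat_lit 19371529),Int.negSucc (nat_lit 4993316),Int.ofNat (nat_lit 18234579),Int.negSucc (nat_lit 5756539),Int.ofNat (nat_lit 8119672),Int.ofNat (nat_lit 11115722),Int.ofNat (nat_lit 9707584),Int.ofNat (nat_lit 10964401),Int.ofNat (nat_lit 15248875),Int.ofNat (nat_lit 7412980),Int.ofNat (nat_lit 7844825),Int.ofNat (nat_lit 7521002),Int.negSucc (nat_lit 7330366),Int.negSucc (nat_lit 7298422),Int.negSucc (nat_lit 12043341),Int.ofNat (nat_lit 6661641),Int.ofNat (nat_lit 1290609),Int.ofNat (nat_lit 573060),Int.negSucc (nat_lit 6236627),Int.ofNat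 (nat_lit 4209192),Int.ofNat (nat_lit 1497297),Int.ofNat (nat_lit 3993653),Int.ofNat (nat_lit 13549562),Int.negSucc (nat_lit 1867680),Int.negSucc (nat_lit 19302220),Int.negSucc (nat_lit 1012709),Int.ofNat (nat_lit 7744859),Int.negSucc (nat_lit 2794890),Int.negSucc (nat_lit 2025193),Int.negSucc (nat_lit 7488545),Int.ofNat (nat_lit 12408704),Int.negSucc (nat_lit 8180121),Int.negSucc (nat_lit 4947194),Int.ofNat (nat_lit 6455877),Int.negSucc (nat_lit 3301663),Int.ofNat (nat_lit 6705483),Int.ofNat (nat_lit 11670110),Int.ofNat (nat_lit 26766765),Int.ofNat (nat_lit 52794),Int.negSucc (nat_lit 6148675),Int.negSucc (nat_lit 10751670),Int.negSucc (nat_lit 1290272),Int.ofNat (nat_lit 5214289),Int.ofNat (nat_lit 7511778),Int.negSucc (nat_lit 2837164),Int.ofNat (nat_lit 501091),Int.ofNat (nat_lit 3175237),Int.negSucc (nat_lit 11177815),Int.ofNat (nat_lit 16336496),Int.negSucc (nat_lit 14356663),Int.negSucc (nat_lit 9586933),Int.ofNat (nat_lit 9170729),Int.ofNat (nat_lit 20576163),Int.ofNat (nat_lit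 13848794),Int.ofNat (nat_lit 2840471),Int.negSucc (nat_lit 4036204),Int.ofNat (nat_lit 11247434),Int.ofNat (nat_lit 7668324),Int.ofNat (nat_lit 10215370),Int.negSucc (nat_lit 1711310),Int.negSucc (nat_lit 2060801),Int.ofNat (nat_lit 5042993),Int.negSucc (nat_lit 144319),Int.ofNat (nat_lit 3154818),Int.negSucc (nat_lit 507015),Int.ofNat (nat_lit 17466255),Int.negSucc (nat_lit 3137756),Int.negSucc (nat_lit 3198598),Int.negSucc (nat_lit 4224506),Int.ofNat (nat_lit 955166),Int.negSucc (nat_lit 5447824),Int.negSucc (nat_lit 809530),Int.negSucc (nat_lit 27957711),Int.negSucc (nat_lit 5904322),Int.negSucc (nat_lit 8174704),Int.negSucc (nat_lit 1943052),Int.ofNat (nat_lit 1809105),Int.ofNat (nat_lit 712915),Int.ofNat (nat_lit 2519861),Int.ofNat (nat_lit 13452802),Int.negSucc (nat_lit 5716564),Int.negSucc (nat_lit 1585449),Int.ofNat (nat_lit 816974),Int.ofNat (nat_lit 24796689),Int.ofNat (nat_lit 3562133),Int.negSucc (nat_lit 16022539),Int.ofNat (nat_lit 9945584),Int.ofNat (nat_lit 748210),Int.ofNat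 (nat_lit 16361780),Int.negSucc (nat_lit 2747497),Int.negSucc (nat_lit 673257),Int.negSucc (nat_lit 4623846),Int.negSucc (nat_lit 3810432),Int.negSucc (nat_lit 4283969),Int.negSucc (nat_lit 2218918),Int.negSucc (nat_lit 420537),Int.negSucc (nat_lit 2827583),Int.negSucc (nat_lit 4138210),Int.negSucc (nat_lit 2547247),Int.ofNat (nat_lit 15108351),Int.negSucc (nat_lit 14461933),Int.ofNat (nat_lit 9404955),Int.ofNat (nat_lit 1165490),Int.negSucc (nat_lit 14345792),Int.negSucc (nat_lit 5585563),Int.negSucc (nat_lit 10138711),Int.negSucc (nat_lit 4220592),Int.ofNat (nat_lit 3677259),Int.negSucc (nat_lit 6139739),Int.negSucc (nat_lit 641795),Int.negSucc (nat_lit 1583139),Int.ofNat (nat_lit 9182912),Int.ofNat (nat_lit 7970118),Int.ofNat (nat_lit 2771130),Int.ofNat (nat_lit 4471588),Int.ofNat (nat_lit 1424076),Int.negSucc (nat_lit 3417495),Int.negSucc (nat_lit 1154237),Int.ofNat (nat_lit 401081),Int.ofNat (nat_lit 2393973),Int.negSucc (nat_lit 4963498),Int.negSucc (nat_lit 13560044),Int.negSucc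 (nat_lit 9043827),Int.negSucc (nat_lit 9985812),Int.negSucc (nat_lit 4671128),Int.negSucc (nat_lit 3424503),Int.negSucc (nat_lit 2929109),Int.ofNat (nat_lit 9439344),Int.negSucc (nat_lit 3080158),Int.negSucc (nat_lit 3693775),Int.ofNat (nat_lit 8969509),Int.negSucc (nat_lit 10570867),Int.negSucc (nat_lit 9890094),Int.negSucc (nat_lit 4088500),Int.ofNat (nat_lit 3212436),Int.negSucc (nat_lit 3640474),Int.negSucc (nat_lit 3659304),Int.negSucc (nat_lit 3351101),Int.negSucc (nat_lit 2898969),Int.negSucc (nat_lit 48967910),Int.ofNat (nat_lit 77147487),Int.ofNat (nat_lit 76278826),Int.ofNat (nat_lit 85200474),Int.ofNat (nat_lit 62614860)])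

/-- A row. -/
noncomputable def sr6_c4_6 : List ℕ × List ℤ :=
  ([(nat_lit 0),(nat_lit 1),(nat_lit 0),(nat_lit 0),(nat_lit 0),(nat_lit 1),(nat_lit 0),(nat_lit 0),(nat_lit 0),(nat_lit 0),(nat_lit 0),(nat_lit 0)], [Int.negSucc (nat_lit 47224772),Int.ofNat (nat_lit 239036442),Int.ofNat (nat_lit 108922587),Int.negSucc (nat_lit 30321461),Int.negSucc (nat_lit 70205207),Int.ofNat (nat_lit 25041512),Int.negSucc (nat_lit 8471626),Int.ofNat (nat_lit 148492071),Int.negSucc (nat_lit 55880759),Int.ofNat (nat_lit 123711589),Int.negSucc (nat_lit 8134832),Int.negSucc (nat_lit 91236150),Int.ofNat (nat_lit 130966523),Int.ofNat (nat_lit 49235504),Int.ofNat (nat_lit 1732335),Int.ofNat (nat_lit 49062401),Int.ofNat (nat_lit 63164953),Int.ofNat (nat_lit 31581920),Int.ofNat (nat_lit 24292705),Int.ofNat (nat_lit 32231684),Int.negSucc (nat_lit 221581601),Int.ofNat (nat_lit 144372727),Int.negSucc (nat_lit 10529701),Int.ofNat (nat_lit 104445090),Int.negSucc (nat_lit 20355592),Int.negSucc (nat_lit 74999168),Int.negSucc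 (nat_lit 5419679),Int.ofNat (nat_lit 7791230),Int.ofNat (nat_lit 62044789),Int.ofNat (nat_lit 66134143),Int.ofNat (nat_lit 111117351),Int.ofNat (nat_lit 6411757),Int.negSucc (nat_lit 1543265),Int.ofNat (nat_lit 24952815),Int.negSucc (nat_lit 122998486),Int.negSucc (nat_lit 57440060),Int.negSucc (nat_lit 93420180),Int.negSucc (nat_lit 91398436),Int.ofNat (nat_lit 43650236),Int.negSucc (nat_lit 18546261),Int.negSucc (nat_lit 14193035),Int.ofNat (nat_lit 36104313),Int.ofNat (nat_lit 11744963),Int.ofNat (nat_lit 80391930),Int.negSucc (nat_lit 82490515),Int.ofNat (nat_lit 7601105),Int.ofNat (nat_lit 40249775),Int.ofNat (nat_lit 11547048),Int.negSucc (nat_lit 15246870),Int.negSucc (nat_lit 44112883),Int.negSucc (nat_lit 23616987),Int.ofNat (nat_lit 20117582),Int.negSucc (nat_lit 43350614),Int.ofNat (nat_lit 64370797),Int.negSucc (nat_lit 28216146),Int.negSucc (nat_lit 35906571),Int.negSucc (nat_lit 9569331),Int.negSucc (nat_lit 12106487),Int.ofNat (nat_lit 42345521),Int.negSucc (nat_lit 19515033),Int.ofNat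 (nat_lit 7000409),Int.negSucc (nat_lit 37482175),Int.ofNat (nat_lit 9096716),Int.negSucc (nat_lit 52963279),Int.ofNat (nat_lit 11297877),Int.ofNat (nat_lit 8867278),Int.ofNat (nat_lit 61834),Int.ofNat (nat_lit 33134510),Int.negSucc (nat_lit 13704605),Int.negSucc (nat_lit 13314721),Int.negSucc (nat_lit 3387001),Int.negSucc (nat_lit 20153635),Int.ofNat (nat_lit 33268945),Int.ofNat (nat_lit 12924135),Int.ofNat (nat_lit 43415194),Int.ofNat (nat_lit 19309264),Int.ofNat (nat_lit 19579002),Int.ofNat (nat_lit 6854257),Int.ofNat (nat_lit 1674790),Int.ofNat (nat_lit 6515421),Int.negSucc (nat_lit 1443759),Int.negSucc (nat_lit 8415422),Int.ofNat (nat_lit 696708),Int.negSucc (nat_lit 18392793),Int.negSucc (nat_lit 4563216),Int.negSucc (nat_lit 1615257),Int.negSucc (nat_lit 17348054),Int.ofNat (nat_lit 30325934),Int.ofNat (nat_lit 6680393),Int.negSucc (nat_lit 4396699),Int.ofNat (nat_lit 35196275),Int.negSucc (nat_lit 6500045),Int.ofNat (nat_lit 6550190),Int.ofNat (nat_lit 9599801),Int.negSucc (nat_lit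 4071814),Int.negSucc (nat_lit 25159637),Int.negSucc (nat_lit 14726451),Int.negSucc (nat_lit 6532760),Int.negSucc (nat_lit 4032390),Int.negSucc (nat_lit 931333),Int.negSucc (nat_lit 8000981),Int.negSucc (nat_lit 8110021),Int.ofNat (nat_lit 539730),Int.ofNat (nat_lit 3163676),Int.ofNat (nat_lit 2861910),Int.negSucc (nat_lit 4824518),Int.negSucc (nat_lit 1001372),Int.ofNat (nat_lit 7774663),Int.ofNat (nat_lit 12669752),Int.negSucc (nat_lit 3340102),Int.ofNat (nat_lit 119866),Int.negSucc (nat_lit 15660697),Int.negSucc (nat_lit 15622548),Int.negSucc (nat_lit 7506622),Int.ofNat (nat_lit 7632816),Int.negSucc (nat_lit 4412976),Int.ofNat (nat_lit 10571387),Int.ofNat (nat_lit 291916),Int.negSucc (nat_lit 711668),Int.ofNat (nat_lit 5567588),Int.negSucc (nat_lit 7461219),Int.negSucc (nat_lit 6414912),Int.negSucc (nat_lit 32698961),Int.negSucc (nat_lit 25536963),Int.ofNat (nat_lit 271288),Int.negSucc (nat_lit 854166),Int.negSucc (nat_lit 12369519),Int.ofNat (nat_lit 16474089),Int.ofNat (nat_lit 15289774),Int.negSucc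 (nat_lit 2015324),Int.ofNat (nat_lit 3337111),Int.negSucc (nat_lit 25039861),Int.ofNat (nat_lit 2105301),Int.negSucc (nat_lit 39534080),Int.negSucc (nat_lit 14957408),Int.ofNat (nat_lit 25768511),Int.negSucc (nat_lit 302150),Int.negSucc (nat_lit 20873647),Int.ofNat (nat_lit 9250041),Int.negSucc (nat_lit 10216165),Int.ofNat (nat_lit 10331942),Int.negSucc (nat_lit 14112012),Int.negSucc (nat_lit 4367196),Int.ofNat (nat_lit 7956893),Int.ofNat (nat_lit 4777734),Int.negSucc (nat_lit 3605306),Int.ofNat (nat_lit 8783619),Int.ofNat (nat_lit 24171374),Int.negSucc (nat_lit 20361922),Int.negSucc (nat_lit 13480980),Int.ofNat (nat_lit 5997569),Int.ofNat (nat_lit 8481046),Int.negSucc (nat_lit 2577710),Int.negSucc (nat_lit 8884314),Int.negSucc (nat_lit 22643723),Int.negSucc (nat_lit 3091437),Int.ofNat (nat_lit 8731726),Int.ofNat (nat_lit 2773772),Int.negSucc (nat_lit 13999313),Int.ofNat (nat_lit 12635094),Int.ofNat (nat_lit 12698055),Int.negSucc (nat_lit 4651738),Int.ofNat (nat_lit 4972345),Int.negSucc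 (nat_lit 30499394),Int.ofNat (nat_lit 14813409),Int.ofNat (nat_lit 5536315),Int.ofNat (nat_lit 2441739),Int.ofNat (nat_lit 6784177),Int.negSucc (nat_lit 10147239),Int.ofNat (nat_lit 3276625),Int.negSucc (nat_lit 12002032),Int.negSucc (nat_lit 14930511),Int.ofNat (nat_lit 11732460),Int.negSucc (nat_lit 6165179),Int.negSucc (nat_lit 17117948),Int.negSucc (nat_lit 6425457),Int.ofNat (nat_lit 10426139),Int.ofNat (nat_lit 613709),Int.negSucc (nat_lit 11541882),Int.ofNat (nat_lit 24853242),Int.negSucc (nat_lit 12633856),Int.ofNat (nat_lit 2506508),Int.negSucc (nat_lit 5881765),Int.ofNat (nat_lit 3964275),Int.negSucc (nat_lit 2785550),Int.ofNat (nat_lit 9267322),Int.negSucc (nat_lit 5370228),Int.negSucc (nat_lit 12320020),Int.ofNat (nat_lit 8748295),Int.ofNat (nat_lit 6672066),Int.ofNat (nat_lit 2743488),Int.negSucc (nat_lit 1649207),Int.ofNat (nat_lit 8204615),Int.negSucc (nat_lit 5117662),Int.negSucc (nat_lit 3348329),Int.ofNat (nat_lit 6701082),Int.ofNat (nat_lit 7356897),Int.ofNat (nat_lit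 6151497),Int.ofNat (nat_lit 2470244),Int.negSucc (nat_lit 3591558),Int.ofNat (nat_lit 8643904),Int.negSucc (nat_lit 6916686),Int.negSucc (nat_lit 6918634),Int.ofNat (nat_lit 21909536),Int.ofNat (nat_lit 1457613),Int.ofNat (nat_lit 1916784),Int.ofNat (nat_lit 11719992),Int.ofNat (nat_lit 16652404),Int.ofNat (nat_lit 5733481),Int.ofNat (nat_lit 6644346),Int.ofNat (nat_lit 11788460),Int.ofNat (nat_lit 4683491),Int.ofNat (nat_lit 5891425),Int.ofNat (nat_lit 45852360),Int.ofNat (nat_lit 62057619),Int.negSucc (nat_lit 43577998),Int.ofNat (nat_lit 15238506),Int.negSucc (nat_lit 40061002),Int.negSucc (nat_lit 16999209),Int.ofNat (nat_lit 156139268)])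

/-- A row. -/
noncomputable def sr6_c4_7 : List ℕ × List ℤ :=
  ([(nat_lit 0),(nat_lit 1),(nat_lit 0),(nat_lit 1),(nat_lit 0),(nat_lit 0),(nat_lit 0),(nat_lit 0),(nat_lit 0),(nat_lit 0),(nat_lit 0),(nat_lit 0)], [Int.negSucc (nat_lit 698932420),Int.ofNat (nat_lit 112009722),Int.ofNat (nat_lit 1115816387),Int.ofNat (nat_lit 992980390),Int.negSucc (nat_lit 1432178312),Int.negSucc (nat_lit 408165298),Int.ofNat (nat_lit 93785536),Int.ofNat (nat_lit 204098078),Int.ofNat (nat_lit 413528627),Int.ofNat (nat_lit 1371150743),Int.ofNat (nat_lit 163574737),Int.negSucc (nat_lit 216519265),Int.ofNat (nat_lit 426118671),Int.ofNat (nat_lit 80494518),Int.ofNat (nat_lit 86757940),Int.ofNat (nat_lit 203625937),Int.ofNat (nat_lit 116671859),Int.ofNat (nat_lit 242361444),Int.ofNat (nat_lit 64584720),Int.negSucc (nat_lit 335613711),Int.negSucc (nat_lit 86047887),Int.ofNat (nat_lit 365640765),Int.negSucc (nat_lit 91311943),Int.negSucc (nat_lit 144128318),Int.negSucc (nat_lit 118725477),Int.negSucc (nat_lit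 467323605),Int.ofNat (nat_lit 67412427),Int.negSucc (nat_lit 11828433),Int.negSucc (nat_lit 121488278),Int.ofNat (nat_lit 311162116),Int.ofNat (nat_lit 52765133),Int.negSucc (nat_lit 229045888),Int.negSucc (nat_lit 4077098),Int.negSucc (nat_lit 26982046),Int.negSucc (nat_lit 275332741),Int.negSucc (nat_lit 215137318),Int.negSucc (nat_lit 30516026),Int.negSucc (nat_lit 90770464),Int.ofNat (nat_lit 594173993),Int.ofNat (nat_lit 134134161),Int.negSucc (nat_lit 104578279),Int.ofNat (nat_lit 179830090),Int.ofNat (nat_lit 82173804),Int.ofNat (nat_lit 339811444),Int.negSucc (nat_lit 233861493),Int.ofNat (nat_lit 113718045),Int.ofNat (nat_lit 107131107),Int.ofNat (nat_lit 19494390),Int.negSucc (nat_lit 207913039),Int.ofNat (nat_lit 65067630),Int.negSucc (nat_lit 68460875),Int.negSucc (nat_lit 101543030),Int.negSucc (nat_lit 78618203),Int.negSucc (nat_lit 160312854),Int.negSucc (nat_lit 171842397),Int.ofNat (nat_lit 72140913),Int.negSucc (nat_lit 11671023),Int.negSucc (nat_lit 21104447),Int.negSucc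 (nat_lit 75766139),Int.ofNat (nat_lit 119154135),Int.negSucc (nat_lit 43295722),Int.negSucc (nat_lit 49844869),Int.negSucc (nat_lit 66959844),Int.negSucc (nat_lit 229321566),Int.negSucc (nat_lit 263759067),Int.negSucc (nat_lit 93583514),Int.negSucc (nat_lit 120687916),Int.negSucc (nat_lit 33169123),Int.negSucc (nat_lit 57110617),Int.negSucc (nat_lit 64522304),Int.negSucc (nat_lit 31767003),Int.negSucc (nat_lit 159082376),Int.negSucc (nat_lit 97888013),Int.ofNat (nat_lit 51836557),Int.ofNat (nat_lit 105760482),Int.ofNat (nat_lit 34268972),Int.negSucc (nat_lit 28374259),Int.negSucc (nat_lit 13594769),Int.ofNat (nat_lit 42141803),Int.ofNat (nat_lit 51225374),Int.ofNat (nat_lit 49325547),Int.negSucc (nat_lit 34720948),Int.negSucc (nat_lit 95629245),Int.negSucc (nat_lit 3181705),Int.ofNat (nat_lit 93931026),Int.ofNat (nat_lit 25817932),Int.ofNat (nat_lit 11068954),Int.ofNat (nat_lit 83815793),Int.ofNat (nat_lit 50395997),Int.ofNat (nat_lit 49671805),Int.negSucc (nat_lit 30725413),Int.ofNat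 (nat_lit 123781029),Int.ofNat (nat_lit 48193391),Int.ofNat (nat_lit 48594984),Int.negSucc (nat_lit 29783288),Int.ofNat (nat_lit 1785183),Int.ofNat (nat_lit 4279425),Int.ofNat (nat_lit 1186949),Int.ofNat (nat_lit 74829913),Int.ofNat (nat_lit 15846652),Int.ofNat (nat_lit 28345737),Int.ofNat (nat_lit 54793096),Int.negSucc (nat_lit 26583079),Int.negSucc (nat_lit 2721914),Int.ofNat (nat_lit 49809598),Int.ofNat (nat_lit 56702849),Int.negSucc (nat_lit 88733644),Int.negSucc (nat_lit 40357840),Int.ofNat (nat_lit 128901716),Int.negSucc (nat_lit 4306815),Int.ofNat (nat_lit 54437266),Int.ofNat (nat_lit 74591808),Int.ofNat (nat_lit 56676796),Int.negSucc (nat_lit 13539087),Int.ofNat (nat_lit 62484859),Int.negSucc (nat_lit 3157304),Int.ofNat (nat_lit 92933248),Int.negSucc (nat_lit 41601440),Int.negSucc (nat_lit 16568028),Int.ofNat (nat_lit 10656673),Int.ofNat (nat_lit 11671044),Int.ofNat (nat_lit 10513816),Int.ofNat (nat_lit 45564554),Int.ofNat (nat_lit 23359916),Int.negSucc (nat_lit 90170054),Int.negSucc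 (nat_lit 31599330),Int.ofNat (nat_lit 25209446),Int.ofNat (nat_lit 110665967),Int.negSucc (nat_lit 44518396),Int.ofNat (nat_lit 32494859),Int.negSucc (nat_lit 17905671),Int.negSucc (nat_lit 49719256),Int.ofNat (nat_lit 40006433),Int.ofNat (nat_lit 10781968),Int.ofNat (nat_lit 11671858),Int.ofNat (nat_lit 25914376),Int.ofNat (nat_lit 13118524),Int.ofNat (nat_lit 11363794),Int.negSucc (nat_lit 73478450),Int.negSucc (nat_lit 6018449),Int.ofNat (nat_lit 80684251),Int.ofNat (nat_lit 7277688),Int.negSucc (nat_lit 17306524),Int.ofNat (nat_lit 102884381),Int.negSucc (nat_lit 8134561),Int.ofNat (nat_lit 7375232),Int.ofNat (nat_lit 55820390),Int.ofNat (nat_lit 39508863),Int.negSucc (nat_lit 18580153),Int.negSucc (nat_lit 117430249),Int.negSucc (nat_lit 25658191),Int.negSucc (nat_lit 19185076),Int.negSucc (nat_lit 53175270),Int.negSucc (nat_lit 102072578),Int.negSucc (nat_lit 52740427),Int.ofNat (nat_lit 7221239),Int.negSucc (nat_lit 33411060),Int.negSucc (nat_lit 25614502),Int.ofNat (nat_lit 21759640),Int.ofNat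 (nat_lit 42215463),Int.ofNat (nat_lit 52542860),Int.ofNat (nat_lit 75535825),Int.ofNat (nat_lit 48142890),Int.ofNat (nat_lit 18474530),Int.negSucc (nat_lit 42602000),Int.negSucc (nat_lit 54223396),Int.ofNat (nat_lit 78240345),Int.ofNat (nat_lit 25194582),Int.negSucc (nat_lit 35440226),Int.ofNat (nat_lit 25409302),Int.negSucc (nat_lit 5332899),Int.ofNat (nat_lit 58743432),Int.negSucc (nat_lit 29813048),Int.negSucc (nat_lit 30674358),Int.negSucc (nat_lit 28199683),Int.negSucc (nat_lit 16579418),Int.negSucc (nat_lit 21485941),Int.ofNat (nat_lit 39711422),Int.ofNat (nat_lit 6989987),Int.ofNat (nat_lit 10560342),Int.negSucc (nat_lit 4428648),Int.negSucc (nat_lit 4068197),Int.ofNat (nat_lit 8610446),Int.ofNat (nat_lit 48044122),Int.ofNat (nat_lit 14168472),Int.ofNat (nat_lit 46007676),Int.ofNat (nat_lit 48108648),Int.negSucc (nat_lit 85528987),Int.negSucc (nat_lit 16066660),Int.ofNat (nat_lit 4117637),Int.negSucc (nat_lit 8639462),Int.ofNat (nat_lit 49360232),Int.ofNat (nat_lit 23290409),Int.negSucc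 (nat_lit 39449632),Int.ofNat (nat_lit 4682904),Int.ofNat (nat_lit 27275643),Int.ofNat (nat_lit 571719),Int.ofNat (nat_lit 49009017),Int.negSucc (nat_lit 83523052),Int.negSucc (nat_lit 34971283),Int.negSucc (nat_lit 2469088),Int.negSucc (nat_lit 9490491),Int.negSucc (nat_lit 26349283),Int.negSucc (nat_lit 35450947),Int.negSucc (nat_lit 56705749),Int.negSucc (nat_lit 25131031),Int.ofNat (nat_lit 30712375),Int.negSucc (nat_lit 22946433),Int.ofNat (nat_lit 1707299),Int.negSucc (nat_lit 2765658),Int.ofNat (nat_lit 6362133),Int.negSucc (nat_lit 16439680),Int.negSucc (nat_lit 37062749),Int.ofNat (nat_lit 18947505),Int.ofNat (nat_lit 108882204),Int.negSucc (nat_lit 73010090),Int.negSucc (nat_lit 361394079),Int.negSucc (nat_lit 77341849),Int.negSucc (nat_lit 106592044),Int.ofNat (nat_lit 58553587),Int.ofNat (nat_lit 661537934)])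

/-- A row. -/
noncomputable def sr6_c4_8 : List ℕ × List ℤ :=
  ([(nat_lit 0),(nat_lit 2),(nat_lit 0),(nat_lit 0),(nat_lit 0),(nat_lit 0),(nat_lit 0),(nat_lit 0),(nat_lit 0),(nat_lit 0),(nat_lit 0),(nat_lit 0)], [Int.ofNat (nat_lit 1348684132),Int.negSucc (nat_lit 625016912),Int.negSucc (nat_lit 1256584879),Int.negSucc (nat_lit 614311596),Int.ofNat (nat_lit 2016219951),Int.negSucc (nat_lit 260969722),Int.ofNat (nat_lit 229724328),Int.ofNat (nat_lit 56858304),Int.negSucc (nat_lit 442244572),Int.negSucc (nat_lit 895615777),Int.negSucc (nat_lit 311445363),Int.ofNat (nat_lit 119863570),Int.negSucc (nat_lit 665162379),Int.negSucc (nat_lit 139558907),Int.negSucc (nat_lit 197029871),Int.negSucc (nat_lit 323242357),Int.ofNat (nat_lit 167756098),Int.negSucc (nat_lit 108662039),Int.negSucc (nat_lit 153535720),Int.ofNat (nat_lit 101400326),Int.ofNat (nat_lit 358846416),Int.negSucc (nat_lit 602623777),Int.negSucc (nat_lit 134752406),Int.negSucc (nat_lit 105038535),Int.ofNat (nat_lit 157501227),Int.ofNat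 (nat_lit 499606661),Int.ofNat (nat_lit 52682641),Int.negSucc (nat_lit 142618034),Int.ofNat (nat_lit 40789096),Int.negSucc (nat_lit 184680504),Int.ofNat (nat_lit 124288594),Int.ofNat (nat_lit 340901578),Int.negSucc (nat_lit 148807143),Int.ofNat (nat_lit 68768969),Int.ofNat (nat_lit 233541709),Int.ofNat (nat_lit 12209887),Int.negSucc (nat_lit 18462719),Int.ofNat (nat_lit 95404900),Int.negSucc (nat_lit 487094638),Int.negSucc (nat_lit 19247797),Int.ofNat (nat_lit 120149003),Int.negSucc (nat_lit 213650025),Int.negSucc (nat_lit 102083341),Int.negSucc (nat_lit 500845425),Int.ofNat (nat_lit 213728754),Int.negSucc (nat_lit 155986119),Int.negSucc (nat_lit 95431310),Int.negSucc (nat_lit 51087610),Int.ofNat (nat_lit 190482066),Int.negSucc (nat_lit 86867560),Int.ofNat (nat_lit 193572665),Int.ofNat (nat_lit 133106303),Int.ofNat (nat_lit 86139162),Int.ofNat (nat_lit 154634649),Int.ofNat (nat_lit 190099695),Int.ofNat (nat_lit 25810836),Int.ofNat (nat_lit 2298290),Int.ofNat (nat_lit 63177861),Int.negSucc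 (nat_lit 26178356),Int.negSucc (nat_lit 69741618),Int.negSucc (nat_lit 2531418),Int.negSucc (nat_lit 29512922),Int.ofNat (nat_lit 62844988),Int.ofNat (nat_lit 216751635),Int.ofNat (nat_lit 242995338),Int.ofNat (nat_lit 97153073),Int.ofNat (nat_lit 71018532),Int.ofNat (nat_lit 57964986),Int.ofNat (nat_lit 68173208),Int.negSucc (nat_lit 34158123),Int.negSucc (nat_lit 139895724),Int.ofNat (nat_lit 101961740),Int.ofNat (nat_lit 91811220),Int.ofNat (nat_lit 7975769),Int.negSucc (nat_lit 156534349),Int.negSucc (nat_lit 182614656),Int.negSucc (nat_lit 11645987),Int.ofNat (nat_lit 36529694),Int.ofNat (nat_lit 4757930),Int.ofNat (nat_lit 60227755),Int.ofNat (nat_lit 45956212),Int.ofNat (nat_lit 19262936),Int.ofNat (nat_lit 18299622),Int.ofNat (nat_lit 66477774),Int.negSucc (nat_lit 29192004),Int.negSucc (nat_lit 1808264),Int.ofNat (nat_lit 31126564),Int.negSucc (nat_lit 5594603),Int.negSucc (nat_lit 58916123),Int.ofNat (nat_lit 16675468),Int.ofNat (nat_lit 66165254),Int.ofNat (nat_lit 14470061),Int.ofNat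 (nat_lit 18213930),Int.negSucc (nat_lit 89112954),Int.ofNat (nat_lit 35499181),Int.ofNat (nat_lit 7256908),Int.negSucc (nat_lit 54128416),Int.ofNat (nat_lit 102245677),Int.negSucc (nat_lit 2178920),Int.negSucc (nat_lit 216040508),Int.negSucc (nat_lit 66976518),Int.ofNat (nat_lit 118687648),Int.negSucc (nat_lit 18924697),Int.negSucc (nat_lit 73445250),Int.negSucc (nat_lit 78899279),Int.ofNat (nat_lit 70033703),Int.ofNat (nat_lit 209959),Int.ofNat (nat_lit 37257723),Int.negSucc (nat_lit 56807367),Int.ofNat (nat_lit 16841057),Int.negSucc (nat_lit 37000935),Int.ofNat (nat_lit 32319226),Int.negSucc (nat_lit 12233133),Int.negSucc (nat_lit 6975143),Int.negSucc (nat_lit 77522901),Int.ofNat (nat_lit 1607067),Int.negSucc (nat_lit 62996047),Int.ofNat (nat_lit 81689985),Int.ofNat (nat_lit 92296064),Int.negSucc (nat_lit 70984300),Int.ofNat (nat_lit 43951706),Int.ofNat (nat_lit 27316091),Int.negSucc (nat_lit 7158815),Int.ofNat (nat_lit 19521199),Int.ofNat (nat_lit 44336279),Int.negSucc (nat_lit 36392015),Int.ofNat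 (nat_lit 10658133),Int.negSucc (nat_lit 87439648),Int.ofNat (nat_lit 44549335),Int.ofNat (nat_lit 34333748),Int.negSucc (nat_lit 18558035),Int.ofNat (nat_lit 63503936),Int.negSucc (nat_lit 6947423),Int.negSucc (nat_lit 4655347),Int.negSucc (nat_lit 34566247),Int.negSucc (nat_lit 95826140),Int.ofNat (nat_lit 41920687),Int.negSucc (nat_lit 11841574),Int.ofNat (nat_lit 97886166),Int.negSucc (nat_lit 15017191),Int.negSucc (nat_lit 58924062),Int.ofNat (nat_lit 53809544),Int.negSucc (nat_lit 33241192),Int.negSucc (nat_lit 103506651),Int.ofNat (nat_lit 18413611),Int.negSucc (nat_lit 5142216),Int.negSucc (nat_lit 82771532),Int.negSucc (nat_lit 6573898),Int.negSucc (nat_lit 52443434),Int.negSucc (nat_lit 9639311),Int.negSucc (nat_lit 127101490),Int.negSucc (nat_lit 13715484),Int.ofNat (nat_lit 97583933),Int.ofNat (nat_lit 16833001),Int.ofNat (nat_lit 33105956),Int.negSucc (nat_lit 58092722),Int.ofNat (nat_lit 25544778),Int.ofNat (nat_lit 32610171),Int.ofNat (nat_lit 27976878),Int.negSucc (nat_lit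 64918155),Int.negSucc (nat_lit 31836236),Int.ofNat (nat_lit 19305602),Int.negSucc (nat_lit 77398684),Int.negSucc (nat_lit 20594955),Int.ofNat (nat_lit 37183507),Int.ofNat (nat_lit 31767696),Int.negSucc (nat_lit 7622546),Int.negSucc (nat_lit 68889682),Int.negSucc (nat_lit 8417417),Int.ofNat (nat_lit 9174528),Int.negSucc (nat_lit 12555825),Int.negSucc (nat_lit 64349385),Int.negSucc (nat_lit 64374695),Int.ofNat (nat_lit 60201141),Int.ofNat (nat_lit 4412767),Int.ofNat (nat_lit 42642692),Int.ofNat (nat_lit 36911638),Int.negSucc (nat_lit 55811094),Int.ofNat (nat_lit 2152716),Int.negSucc (nat_lit 15227395),Int.negSucc (nat_lit 1925769),Int.ofNat (nat_lit 45292687),Int.negSucc (nat_lit 32731499),Int.ofNat (nat_lit 4804177),Int.negSucc (nat_lit 37535291),Int.negSucc (nat_lit 20833688),Int.ofNat (nat_lit 38146290),Int.ofNat (nat_lit 30049304),Int.ofNat (nat_lit 1814702),Int.negSucc (nat_lit 13230906),Int.ofNat (nat_lit 1688114),Int.negSucc (nat_lit 8349909),Int.negSucc (nat_lit 9295425),Int.ofNat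 (nat_lit 17154240),Int.ofNat (nat_lit 78538753),Int.negSucc (nat_lit 198804),Int.negSucc (nat_lit 63474791),Int.negSucc (nat_lit 57928149),Int.negSucc (nat_lit 12172851),Int.ofNat (nat_lit 48814814),Int.negSucc (nat_lit 1703877),Int.negSucc (nat_lit 25937793),Int.ofNat (nat_lit 58624171),Int.negSucc (nat_lit 66500809),Int.negSucc (nat_lit 7361870),Int.ofNat (nat_lit 42713957),Int.negSucc (nat_lit 73221017),Int.negSucc (nat_lit 57983332),Int.negSucc (nat_lit 43917592),Int.negSucc (nat_lit 77160668),Int.ofNat (nat_lit 13694134),Int.negSucc (nat_lit 16140248),Int.ofNat (nat_lit 44054161),Int.negSucc (nat_lit 215166956),Int.ofNat (nat_lit 84819114),Int.ofNat (nat_lit 107119557),Int.ofNat (nat_lit 571283517),Int.ofNat (nat_lit 395979322),Int.negSucc (nat_lit 1369424),Int.negSucc (nat_lit 62495723),Int.negSucc (nat_lit 358474369),Int.ofNat (nat_lit 999003080)])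

/-- A row. -/
noncomputable def sr6_c4_9 : List ℕ × List ℤ :=
  ([(nat_lit 0),(nat_lit 2),(nat_lit 1),(nat_lit 0),(nat_lit 0),(nat_lit 0),(nat_lit 0),(nat_lit 0),(nat_lit 0),(nat_lit 0),(nat_lit 0),(nat_lit 0)], [Int.ofNat (nat_lit 492645196),Int.negSucc (nat_lit 310779921),Int.negSucc (nat_lit 589249203),Int.ofNat (nat_lit 230799594),Int.ofNat (nat_lit 772065537),Int.negSucc (nat_lit 458205328),Int.ofNat (nat_lit 122831567),Int.negSucc (nat_lit 75955816),Int.ofNat (nat_lit 81862403),Int.ofNat (nat_lit 115842736),Int.negSucc (nat_lit 1595204),Int.ofNat (nat_lit 288447547),Int.negSucc (nat_lit 361511644),Int.negSucc (nat_lit 129683518),Int.negSucc (nat_lit 35010380),Int.negSucc (nat_lit 197467116),Int.ofNat (nat_lit 110931698),Int.negSucc (nat_lit 17607337),Int.negSucc (nat_lit 63113731),Int.negSucc (nat_lit 219028840),Int.ofNat (nat_lit 580947096),Int.negSucc (nat_lit 548804395),Int.negSucc (nat_lit 74587810),Int.negSucc (nat_lit 380353598),Int.negSucc (nat_lit 79499257),Int.ofNat (nat_lit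 126365089),Int.ofNat (nat_lit 109159955),Int.negSucc (nat_lit 219606375),Int.negSucc (nat_lit 121633123),Int.negSucc (nat_lit 88046620),Int.ofNat (nat_lit 9148120),Int.ofNat (nat_lit 80553839),Int.negSucc (nat_lit 84213595),Int.ofNat (nat_lit 59305744),Int.ofNat (nat_lit 101033597),Int.negSucc (nat_lit 128821606),Int.ofNat (nat_lit 24998822),Int.ofNat (nat_lit 89274319),Int.negSucc (nat_lit 40464746),Int.ofNat (nat_lit 68096916),Int.negSucc (nat_lit 62626129),Int.negSucc (nat_lit 60998850),Int.negSucc (nat_lit 3047053),Int.negSucc (nat_lit 273396334),Int.ofNat (nat_lit 84115298),Int.ofNat (nat_lit 5567629),Int.negSucc (nat_lit 111800949),Int.negSucc (nat_lit 69413267),Int.ofNat (nat_lit 133297571),Int.ofNat (nat_lit 73128397),Int.ofNat (nat_lit 80909304),Int.negSucc (nat_lit 17092400),Int.ofNat (nat_lit 119467966),Int.negSucc (nat_lit 5798151),Int.ofNat (nat_lit 149250993),Int.ofNat (nat_lit 53852478),Int.ofNat (nat_lit 14551042),Int.ofNat (nat_lit 84567544),Int.negSucc (nat_lit 43589112),Int.ofNat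 (nat_lit 86386585),Int.negSucc (nat_lit 23309680),Int.negSucc (nat_lit 101825295),Int.ofNat (nat_lit 59396496),Int.ofNat (nat_lit 89064303),Int.negSucc (nat_lit 26814765),Int.negSucc (nat_lit 9700496),Int.negSucc (nat_lit 26092758),Int.ofNat (nat_lit 79214312),Int.ofNat (nat_lit 77372237),Int.negSucc (nat_lit 142502426),Int.negSucc (nat_lit 230992899),Int.negSucc (nat_lit 58566668),Int.negSucc (nat_lit 74531778),Int.negSucc (nat_lit 40970312),Int.ofNat (nat_lit 24897393),Int.negSucc (nat_lit 16656640),Int.negSucc (nat_lit 16151304),Int.ofNat (nat_lit 14681751),Int.ofNat (nat_lit 41171717),Int.ofNat (nat_lit 129391388),Int.ofNat (nat_lit 61959804),Int.ofNat (nat_lit 8605750),Int.negSucc (nat_lit 93567357),Int.ofNat (nat_lit 55390970),Int.ofNat (nat_lit 57167498),Int.ofNat (nat_lit 21284710),Int.ofNat (nat_lit 29312221),Int.ofNat (nat_lit 64613211),Int.negSucc (nat_lit 22564702),Int.ofNat (nat_lit 59316345),Int.negSucc (nat_lit 4346408),Int.ofNat (nat_lit 112905393),Int.ofNat (nat_lit 53266260),Int.negSucc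 (nat_lit 52383073),Int.ofNat (nat_lit 39631080),Int.ofNat (nat_lit 51789027),Int.ofNat (nat_lit 3605792),Int.ofNat (nat_lit 81306565),Int.ofNat (nat_lit 95449825),Int.negSucc (nat_lit 40125809),Int.negSucc (nat_lit 20647120),Int.ofNat (nat_lit 77057248),Int.ofNat (nat_lit 12445975),Int.negSucc (nat_lit 52386417),Int.negSucc (nat_lit 2580925),Int.ofNat (nat_lit 148844129),Int.negSucc (nat_lit 61769287),Int.negSucc (nat_lit 19517575),Int.ofNat (nat_lit 59035088),Int.ofNat (nat_lit 15098255),Int.ofNat (nat_lit 50254183),Int.ofNat (nat_lit 103542277),Int.negSucc (nat_lit 12232883),Int.negSucc (nat_lit 70450518),Int.ofNat (nat_lit 20345955),Int.negSucc (nat_lit 3935410),Int.ofNat (nat_lit 56465647),Int.ofNat (nat_lit 26294767),Int.ofNat (nat_lit 41484368),Int.negSucc (nat_lit 20305867),Int.ofNat (nat_lit 45355192),Int.negSucc (nat_lit 9018317),Int.ofNat (nat_lit 68066365),Int.ofNat (nat_lit 40503827),Int.negSucc (nat_lit 79355215),Int.negSucc (nat_lit 73518432),Int.ofNat (nat_lit 61646968),Int.ofNat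 (nat_lit 4072204),Int.negSucc (nat_lit 34178674),Int.ofNat (nat_lit 51179781),Int.negSucc (nat_lit 13934466),Int.ofNat (nat_lit 26572056),Int.ofNat (nat_lit 8712589),Int.ofNat (nat_lit 49014919),Int.ofNat (nat_lit 13133301),Int.negSucc (nat_lit 43862040),Int.ofNat (nat_lit 68629306),Int.ofNat (nat_lit 21668084),Int.ofNat (nat_lit 34861258),Int.negSucc (nat_lit 68585320),Int.negSucc (nat_lit 56685357),Int.negSucc (nat_lit 28079878),Int.negSucc (nat_lit 58424155),Int.negSucc (nat_lit 17101507),Int.negSucc (nat_lit 6776168),Int.ofNat (nat_lit 9659609),Int.negSucc (nat_lit 15387181),Int.negSucc (nat_lit 24125439),Int.negSucc (nat_lit 61680821),Int.negSucc (nat_lit 45786478),Int.negSucc (nat_lit 90594247),Int.negSucc (nat_lit 41560632),Int.ofNat (nat_lit 27943877),Int.negSucc (nat_lit 2093655),Int.negSucc (nat_lit 10994727),Int.negSucc (nat_lit 20727766),Int.negSucc (nat_lit 25239707),Int.ofNat (nat_lit 5574516),Int.ofNat (nat_lit 49304395),Int.negSucc (nat_lit 1697804),Int.ofNat (nat_lit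 22310703),Int.ofNat (nat_lit 69913016),Int.negSucc (nat_lit 55428269),Int.negSucc (nat_lit 1496069),Int.ofNat (nat_lit 14548360),Int.negSucc (nat_lit 48011383),Int.ofNat (nat_lit 83211918),Int.negSucc (nat_lit 27326231),Int.negSucc (nat_lit 7317672),Int.ofNat (nat_lit 31100064),Int.negSucc (nat_lit 25419727),Int.ofNat (nat_lit 14534565),Int.negSucc (nat_lit 75039655),Int.ofNat (nat_lit 66649617),Int.negSucc (nat_lit 56884910),Int.ofNat (nat_lit 88266207),Int.ofNat (nat_lit 9664415),Int.negSucc (nat_lit 19054451),Int.ofNat (nat_lit 45614717),Int.ofNat (nat_lit 20085767),Int.negSucc (nat_lit 48968797),Int.ofNat (nat_lit 53422153),Int.negSucc (nat_lit 43510506),Int.ofNat (nat_lit 73605111),Int.negSucc (nat_lit 9536901),Int.negSucc (nat_lit 27145899),Int.ofNat (nat_lit 27210200),Int.negSucc (nat_lit 42622522),Int.ofNat (nat_lit 7202588),Int.negSucc (nat_lit 8588531),Int.ofNat (nat_lit 42754247),Int.ofNat (nat_lit 692090),Int.negSucc (nat_lit 9657065),Int.ofNat (nat_lit 27248896),Int.ofNat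 (nat_lit 15629758),Int.ofNat (nat_lit 36102744),Int.negSucc (nat_lit 57491774),Int.negSucc (nat_lit 30698450),Int.negSucc (nat_lit 77390344),Int.ofNat (nat_lit 31564680),Int.negSucc (nat_lit 19953125),Int.negSucc (nat_lit 29541503),Int.ofNat (nat_lit 19896098),Int.negSucc (nat_lit 80489514),Int.negSucc (nat_lit 52750220),Int.negSucc (nat_lit 7386686),Int.negSucc (nat_lit 57533795),Int.negSucc (nat_lit 58924670),Int.negSucc (nat_lit 27823232),Int.negSucc (nat_lit 41944597),Int.ofNat (nat_lit 34287533),Int.negSucc (nat_lit 18540213),Int.negSucc (nat_lit 12012463),Int.ofNat (nat_lit 47504143),Int.ofNat (nat_lit 132685681),Int.ofNat (nat_lit 162572787),Int.ofNat (nat_lit 96290735),Int.ofNat (nat_lit 95487130),Int.ofNat (nat_lit 133182252),Int.negSucc (nat_lit 84789383),Int.ofNat (nat_lit 218438112),Int.ofNat (nat_lit 513283820),Int.ofNat (nat_lit 618099310)])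

/-- A row. -/
noncomputable def sr6_c4_10 : List ℕ × List ℤ :=
  ([(nat_lit 0),(nat_lit 4),(nat_lit 0),(nat_lit 0),(nat_lit 0),(nat_lit 0),(nat_lit 0),(nat_lit 0),(nat_lit 0),(nat_lit 0),(nat_lit 0),(nat_lit 0)], [Int.negSucc (nat_lit 366263720),Int.ofNat (nat_lit 176297868),Int.ofNat (nat_lit 132851931),Int.negSucc (nat_lit 190947998),Int.ofNat (nat_lit 156893249),Int.negSucc (nat_lit 257922047),Int.negSucc (nat_lit 71581931),Int.ofNat (nat_lit 387936746),Int.negSucc (nat_lit 655431219),Int.ofNat (nat_lit 476189528),Int.negSucc (nat_lit 3037075),Int.negSucc (nat_lit 578445148),Int.ofNat (nat_lit 293752556),Int.ofNat (nat_lit 208473178),Int.ofNat (nat_lit 51951607),Int.ofNat (nat_lit 119053433),Int.ofNat (nat_lit 118534514),Int.ofNat (nat_lit 175526907),Int.negSucc (nat_lit 191304578),Int.negSucc (nat_lit 157601141),Int.negSucc (nat_lit 122048351),Int.ofNat (nat_lit 222809585),Int.ofNat (nat_lit 42603232),Int.ofNat (nat_lit 201976117),Int.ofNat (nat_lit 337101346),Int.negSucc (nat_lit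 140137290),Int.ofNat (nat_lit 54302826),Int.ofNat (nat_lit 20264873),Int.ofNat (nat_lit 168851247),Int.ofNat (nat_lit 127250060),Int.ofNat (nat_lit 485378394),Int.ofNat (nat_lit 3724633),Int.ofNat (nat_lit 62135084),Int.ofNat (nat_lit 222219733),Int.negSucc (nat_lit 157210970),Int.negSucc (nat_lit 219772383),Int.negSucc (nat_lit 282266430),Int.negSucc (nat_lit 286769055),Int.ofNat (nat_lit 91855087),Int.ofNat (nat_lit 169455634),Int.negSucc (nat_lit 86359366),Int.ofNat (nat_lit 65167224),Int.negSucc (nat_lit 108233808),Int.ofNat (nat_lit 159209117),Int.negSucc (nat_lit 124422098),Int.ofNat (nat_lit 87538218),Int.ofNat (nat_lit 86210869),Int.ofNat (nat_lit 6301408),Int.ofNat (nat_lit 77554761),Int.negSucc (nat_lit 104895377),Int.ofNat (nat_lit 60315467),Int.ofNat (nat_lit 214210943),Int.ofNat (nat_lit 11252779),Int.ofNat (nat_lit 34137415),Int.negSucc (nat_lit 111546901),Int.negSucc (nat_lit 214993168),Int.ofNat (nat_lit 46076453),Int.ofNat (nat_lit 58917221),Int.ofNat (nat_lit 102637684),Int.negSucc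 (nat_lit 17947457),Int.negSucc (nat_lit 84188151),Int.ofNat (nat_lit 105569186),Int.ofNat (nat_lit 264269127),Int.negSucc (nat_lit 69686163),Int.negSucc (nat_lit 109712511),Int.negSucc (nat_lit 58050905),Int.negSucc (nat_lit 127842217),Int.negSucc (nat_lit 129430764),Int.negSucc (nat_lit 4818064),Int.ofNat (nat_lit 89502303),Int.negSucc (nat_lit 80949612),Int.negSucc (nat_lit 197303730),Int.ofNat (nat_lit 42398264),Int.ofNat (nat_lit 11236741),Int.ofNat (nat_lit 110072338),Int.negSucc (nat_lit 25740100),Int.negSucc (nat_lit 6875167),Int.negSucc (nat_lit 56702121),Int.ofNat (nat_lit 67719179),Int.ofNat (nat_lit 43605265),Int.negSucc (nat_lit 86149015),Int.ofNat (nat_lit 11289115),Int.negSucc (nat_lit 99014690),Int.ofNat (nat_lit 5382192),Int.ofNat (nat_lit 52388458),Int.ofNat (nat_lit 6831792),Int.negSucc (nat_lit 3241394),Int.negSucc (nat_lit 11681859),Int.ofNat (nat_lit 59693409),Int.negSucc (nat_lit 31458474),Int.ofNat (nat_lit 25301056),Int.ofNat (nat_lit 107212578),Int.negSucc (nat_lit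 5160771),Int.ofNat (nat_lit 73333721),Int.negSucc (nat_lit 14851305),Int.negSucc (nat_lit 340146650),Int.negSucc (nat_lit 44192032),Int.negSucc (nat_lit 43649735),Int.ofNat (nat_lit 61263869),Int.ofNat (nat_lit 92473073),Int.negSucc (nat_lit 28442771),Int.ofNat (nat_lit 13940663),Int.ofNat (nat_lit 43846224),Int.negSucc (nat_lit 171654289),Int.negSucc (nat_lit 1923070),Int.ofNat (nat_lit 38497052),Int.ofNat (nat_lit 1095249),Int.negSucc (nat_lit 15700191),Int.negSucc (nat_lit 59540581),Int.ofNat (nat_lit 34030881),Int.ofNat (nat_lit 66954994),Int.ofNat (nat_lit 2438512),Int.ofNat (nat_lit 80041075),Int.negSucc (nat_lit 46827689),Int.negSucc (nat_lit 675472),Int.ofNat (nat_lit 26932992),Int.ofNat (nat_lit 21074329),Int.negSucc (nat_lit 42352543),Int.ofNat (nat_lit 8588081),Int.ofNat (nat_lit 40939731),Int.ofNat (nat_lit 26440280),Int.negSucc (nat_lit 149495229),Int.ofNat (nat_lit 51015219),Int.negSucc (nat_lit 17414950),Int.negSucc (nat_lit 70867492),Int.negSucc (nat_lit 6693832),Int.ofNat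 (nat_lit 54729895),Int.negSucc (nat_lit 15533590),Int.negSucc (nat_lit 31732999),Int.negSucc (nat_lit 13231133),Int.negSucc (nat_lit 80152652),Int.ofNat (nat_lit 4655255),Int.ofNat (nat_lit 98054),Int.ofNat (nat_lit 25504273),Int.negSucc (nat_lit 25960633),Int.ofNat (nat_lit 35096129),Int.negSucc (nat_lit 3339834),Int.ofNat (nat_lit 66213894),Int.negSucc (nat_lit 18708822),Int.ofNat (nat_lit 88167996),Int.ofNat (nat_lit 217545085),Int.ofNat (nat_lit 23340774),Int.negSucc (nat_lit 27172342),Int.ofNat (nat_lit 83074730),Int.ofNat (nat_lit 43001003),Int.negSucc (nat_lit 5283492),Int.ofNat (nat_lit 81939890),Int.ofNat (nat_lit 41588022),Int.ofNat (nat_lit 19638082),Int.ofNat (nat_lit 51168573),Int.ofNat (nat_lit 63150232),Int.ofNat (nat_lit 36219468),Int.negSucc (nat_lit 35945747),Int.negSucc (nat_lit 17535554),Int.negSucc (nat_lit 97488192),Int.ofNat (nat_lit 4279466),Int.negSucc (nat_lit 57847429),Int.ofNat (nat_lit 22292737),Int.negSucc (nat_lit 30298416),Int.ofNat (nat_lit 39682298),Int.negSucc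 (nat_lit 80134),Int.negSucc (nat_lit 19713980),Int.ofNat (nat_lit 62496772),Int.negSucc (nat_lit 4004191),Int.negSucc (nat_lit 13385130),Int.negSucc (nat_lit 53150869),Int.negSucc (nat_lit 15418407),Int.ofNat (nat_lit 58560078),Int.ofNat (nat_lit 8319356),Int.negSucc (nat_lit 26984971),Int.negSucc (nat_lit 17049928),Int.ofNat (nat_lit 22889312),Int.ofNat (nat_lit 40472122),Int.negSucc (nat_lit 15407403),Int.ofNat (nat_lit 15812621),Int.negSucc (nat_lit 4718476),Int.negSucc (nat_lit 31514499),Int.ofNat (nat_lit 21082353),Int.negSucc (nat_lit 23596704),Int.ofNat (nat_lit 7710747),Int.negSucc (nat_lit 18236680),Int.ofNat (nat_lit 48459659),Int.ofNat (nat_lit 17689977),Int.ofNat (nat_lit 21929288),Int.ofNat (nat_lit 56784711),Int.ofNat (nat_lit 40872435),Int.ofNat (nat_lit 74968660),Int.negSucc (nat_lit 61469050),Int.negSucc (nat_lit 54129638),Int.negSucc (nat_lit 14600009),Int.ofNat (nat_lit 15265006),Int.ofNat (nat_lit 48949947),Int.ofNat (nat_lit 95836831),Int.ofNat (nat_lit 60106851),Int.ofNat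 (nat_lit 52080997),Int.ofNat (nat_lit 17073845),Int.ofNat (nat_lit 28663410),Int.ofNat (nat_lit 12594992),Int.ofNat (nat_lit 14300079),Int.negSucc (nat_lit 37826763),Int.ofNat (nat_lit 30829355),Int.negSucc (nat_lit 8187243),Int.negSucc (nat_lit 74110306),Int.ofNat (nat_lit 12616138),Int.negSucc (nat_lit 51954798),Int.negSucc (nat_lit 13858512),Int.ofNat (nat_lit 7286065),Int.ofNat (nat_lit 18205806),Int.ofNat (nat_lit 13397892),Int.ofNat (nat_lit 19076196),Int.negSucc (nat_lit 22357835),Int.ofNat (nat_lit 15011230),Int.negSucc (nat_lit 5794655),Int.ofNat (nat_lit 140050621),Int.negSucc (nat_lit 63830845),Int.negSucc (nat_lit 129449958),Int.negSucc (nat_lit 591923469),Int.negSucc (nat_lit 148008764),Int.ofNat (nat_lit 18705314),Int.ofNat (nat_lit 3503829),Int.ofNat (nat_lit 138470602),Int.negSucc (nat_lit 482624664),Int.ofNat (nat_lit 410358743),Int.ofNat (nat_lit 1044223901)])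

/-- A row. -/
noncomputable def sr6_c4_11 : List ℕ × List ℤ :=
  ([(nat_lit 1),(nat_lit 0),(nat_lit 0),(nat_lit 0),(nat_lit 0),(nat_lit 0),(nat_lit 0),(nat_lit 0),(nat_lit 0),(nat_lit 0),(nat_lit 0),(nat_lit 0)], [Int.ofNat (nat_lit 880944222),Int.negSucc (nat_lit 1214743861),Int.ofNat (nat_lit 12664094),Int.negSucc (nat_lit 754163334),Int.ofNat (nat_lit 56933840),Int.ofNat (nat_lit 1423438976),Int.ofNat (nat_lit 68811911),Int.negSucc (nat_lit 639783313),Int.ofNat (nat_lit 90806597),Int.negSucc (nat_lit 647158035),Int.negSucc (nat_lit 175914929),Int.ofNat (nat_lit 592972656),Int.negSucc (nat_lit 39187835),Int.ofNat (nat_lit 37018373),Int.ofNat (nat_lit 491402284),Int.negSucc (nat_lit 21812021),Int.negSucc (nat_lit 324125292),Int.negSucc (nat_lit 115105344),Int.ofNat (nat_lit 106824974),Int.negSucc (nat_lit 190802165),Int.negSucc (nat_lit 122715049),Int.negSucc (nat_lit 30869747),Int.ofNat (nat_lit 250794692),Int.ofNat (nat_lit 221737802),Int.negSucc (nat_lit 243129879),Int.ofNat (nat_lit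 189415973),Int.ofNat (nat_lit 130393979),Int.ofNat (nat_lit 129766449),Int.ofNat (nat_lit 65307964),Int.negSucc (nat_lit 301885246),Int.negSucc (nat_lit 82734695),Int.ofNat (nat_lit 153803647),Int.ofNat (nat_lit 74171179),Int.ofNat (nat_lit 74078960),Int.ofNat (nat_lit 240787197),Int.ofNat (nat_lit 168483521),Int.negSucc (nat_lit 5489716),Int.ofNat (nat_lit 55444587),Int.negSucc (nat_lit 104515913),Int.negSucc (nat_lit 212649445),Int.ofNat (nat_lit 97913553),Int.negSucc (nat_lit 6031387),Int.negSucc (nat_lit 76151367),Int.ofNat (nat_lit 7518706),Int.ofNat (nat_lit 8782213),Int.ofNat (nat_lit 20372811),Int.negSucc (nat_lit 89272949),Int.ofNat (nat_lit 23726266),Int.ofNat (nat_lit 21199231),Int.negSucc (nat_lit 3842524),Int.negSucc (nat_lit 10858129),Int.ofNat (nat_lit 41293900),Int.ofNat (nat_lit 103785283),Int.negSucc (nat_lit 48644772),Int.ofNat (nat_lit 264392415),Int.negSucc (nat_lit 151273415),Int.negSucc (nat_lit 137890756),Int.ofNat (nat_lit 46887480),Int.ofNat (nat_lit 243638843),Int.negSucc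 (nat_lit 139793325),Int.ofNat (nat_lit 140075970),Int.negSucc (nat_lit 30576668),Int.negSucc (nat_lit 9749137),Int.ofNat (nat_lit 303333370),Int.negSucc (nat_lit 13904614),Int.ofNat (nat_lit 32567288),Int.negSucc (nat_lit 84677816),Int.ofNat (nat_lit 63703794),Int.ofNat (nat_lit 28800064),Int.ofNat (nat_lit 76562120),Int.negSucc (nat_lit 40059748),Int.negSucc (nat_lit 323069433),Int.ofNat (nat_lit 54913951),Int.ofNat (nat_lit 38021185),Int.negSucc (nat_lit 1176068),Int.ofNat (nat_lit 209820364),Int.ofNat (nat_lit 237624568),Int.negSucc (nat_lit 67890145),Int.ofNat (nat_lit 13082526),Int.negSucc (nat_lit 163367259),Int.negSucc (nat_lit 7056880),Int.negSucc (nat_lit 99970477),Int.ofNat (nat_lit 182342402),Int.negSucc (nat_lit 88954053),Int.negSucc (nat_lit 118624108),Int.ofNat (nat_lit 19728774),Int.ofNat (nat_lit 36944884),Int.ofNat (nat_lit 407528),Int.negSucc (nat_lit 935361),Int.ofNat (nat_lit 51531056),Int.negSucc (nat_lit 39883619),Int.negSucc (nat_lit 72684732),Int.negSucc (nat_lit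 156247759),Int.negSucc (nat_lit 6870126),Int.ofNat (nat_lit 32487758),Int.ofNat (nat_lit 44261032),Int.ofNat (nat_lit 63007209),Int.negSucc (nat_lit 50773802),Int.negSucc (nat_lit 4344089),Int.ofNat (nat_lit 86095839),Int.negSucc (nat_lit 15353479),Int.negSucc (nat_lit 49444536),Int.ofNat (nat_lit 15487135),Int.ofNat (nat_lit 3411452),Int.ofNat (nat_lit 43912343),Int.negSucc (nat_lit 58719159),Int.ofNat (nat_lit 34280064),Int.ofNat (nat_lit 27593168),Int.ofNat (nat_lit 436483),Int.ofNat (nat_lit 13692703),Int.ofNat (nat_lit 16910129),Int.negSucc (nat_lit 67906148),Int.negSucc (nat_lit 105248515),Int.ofNat (nat_lit 41222514),Int.negSucc (nat_lit 17177609),Int.ofNat (nat_lit 46775802),Int.negSucc (nat_lit 19581468),Int.ofNat (nat_lit 24426395),Int.negSucc (nat_lit 68729063),Int.ofNat (nat_lit 18254769),Int.negSucc (nat_lit 16532165),Int.negSucc (nat_lit 880251),Int.negSucc (nat_lit 40610703),Int.ofNat (nat_lit 23024743),Int.ofNat (nat_lit 85085398),Int.ofNat (nat_lit 39811173),Int.ofNat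 (nat_lit 2862991),Int.negSucc (nat_lit 43316397),Int.ofNat (nat_lit 58275869),Int.ofNat (nat_lit 23569319),Int.ofNat (nat_lit 22590393),Int.negSucc (nat_lit 4199043),Int.negSucc (nat_lit 38106418),Int.ofNat (nat_lit 6383245),Int.negSucc (nat_lit 77357012),Int.ofNat (nat_lit 66926259),Int.negSucc (nat_lit 56958589),Int.negSucc (nat_lit 60938376),Int.ofNat (nat_lit 186757655),Int.negSucc (nat_lit 38106277),Int.negSucc (nat_lit 39150958),Int.negSucc (nat_lit 82185245),Int.ofNat (nat_lit 218357809),Int.negSucc (nat_lit 26901980),Int.negSucc (nat_lit 61751622),Int.negSucc (nat_lit 102732176),Int.negSucc (nat_lit 32275642),Int.negSucc (nat_lit 61925228),Int.negSucc (nat_lit 11740632),Int.ofNat (nat_lit 51461485),Int.ofNat (nat_lit 10720454),Int.negSucc (nat_lit 7958412),Int.ofNat (nat_lit 9309982),Int.ofNat (nat_lit 70544882),Int.ofNat (nat_lit 34779234),Int.ofNat (nat_lit 58424098),Int.negSucc (nat_lit 12177330),Int.ofNat (nat_lit 61791861),Int.negSucc (nat_lit 36910480),Int.ofNat (nat_lit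 19612191),Int.negSucc (nat_lit 10965115),Int.negSucc (nat_lit 16214326),Int.ofNat (nat_lit 37280564),Int.negSucc (nat_lit 45056880),Int.negSucc (nat_lit 1387313),Int.ofNat (nat_lit 13750178),Int.negSucc (nat_lit 58631170),Int.negSucc (nat_lit 7002314),Int.negSucc (nat_lit 11987100),Int.negSucc (nat_lit 19199734),Int.negSucc (nat_lit 47477155),Int.negSucc (nat_lit 3679103),Int.ofNat (nat_lit 54312708),Int.negSucc (nat_lit 77724372),Int.ofNat (nat_lit 107601578),Int.negSucc (nat_lit 27633180),Int.ofNat (nat_lit 52822828),Int.negSucc (nat_lit 100434808),Int.ofNat (nat_lit 92658904),Int.negSucc (nat_lit 83218136),Int.negSucc (nat_lit 59229382),Int.negSucc (nat_lit 53816005),Int.negSucc (nat_lit 13868554),Int.negSucc (nat_lit 32776590),Int.ofNat (nat_lit 42649193),Int.ofNat (nat_lit 76363920),Int.negSucc (nat_lit 42658720),Int.ofNat (nat_lit 35676550),Int.negSucc (nat_lit 16678299),Int.negSucc (nat_lit 18222794),Int.negSucc (nat_lit 39129863),Int.negSucc (nat_lit 12426242),Int.negSucc (nat_lit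 32336597),Int.ofNat (nat_lit 28370725),Int.ofNat (nat_lit 23271389),Int.negSucc (nat_lit 10715040),Int.ofNat (nat_lit 38126970),Int.ofNat (nat_lit 49944236),Int.ofNat (nat_lit 16799171),Int.negSucc (nat_lit 2524273),Int.ofNat (nat_lit 26621156),Int.ofNat (nat_lit 18181820),Int.negSucc (nat_lit 58587378),Int.negSucc (nat_lit 7171532),Int.ofNat (nat_lit 19538670),Int.negSucc (nat_lit 21642505),Int.ofNat (nat_lit 6527249),Int.ofNat (nat_lit 35878048),Int.ofNat (nat_lit 15978093),Int.negSucc (nat_lit 38281092),Int.negSucc (nat_lit 36500272),Int.negSucc (nat_lit 20889687),Int.ofNat (nat_lit 70920066),Int.negSucc (nat_lit 907670838),Int.ofNat (nat_lit 189137305),Int.negSucc (nat_lit 194009625),Int.negSucc (nat_lit 178066440),Int.ofNat (nat_lit 112025827),Int.negSucc (nat_lit 24705888),Int.ofNat (nat_lit 9521031),Int.ofNat (nat_lit 41667762),Int.negSucc (nat_lit 97314272),Int.negSucc (nat_lit 67999354),Int.negSucc (nat_lit 11628163),Int.ofNat (nat_lit 286754975)])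

/-- A row. -/
noncomputable def sr6_c4_12 : List ℕ × List ℤ :=
  ([(nat_lit 1),(nat_lit 0),(nat_lit 0),(nat_lit 0),(nat_lit 1),(nat_lit 0),(nat_lit 0),(nat_lit 0),(nat_lit 0),(nat_lit 0),(nat_lit 0),(nat_lit 0)], [Int.negSucc (nat_lit 61029182),Int.ofNat (nat_lit 84351117),Int.negSucc (nat_lit 773558707),Int.negSucc (nat_lit 467107237),Int.ofNat (nat_lit 873469179),Int.ofNat (nat_lit 83201833),Int.negSucc (nat_lit 239332883),Int.ofNat (nat_lit 493291003),Int.negSucc (nat_lit 497938070),Int.negSucc (nat_lit 361096146),Int.negSucc (nat_lit 294957656),Int.negSucc (nat_lit 169622282),Int.negSucc (nat_lit 134207545),Int.ofNat (nat_lit 24052619),Int.negSucc (nat_lit 193021167),Int.negSucc (nat_lit 95120066),Int.ofNat (nat_lit 37778851),Int.negSucc (nat_lit 5010145),Int.negSucc (nat_lit 17387988),Int.ofNat (nat_lit 57364846),Int.negSucc (nat_lit 252730272),Int.ofNat (nat_lit 197640889),Int.negSucc (nat_lit 80888590),Int.ofNat (nat_lit 279889802),Int.ofNat (nat_lit 19187822),Int.ofNat (nat_lit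 51255907),Int.negSucc (nat_lit 46180929),Int.negSucc (nat_lit 66853085),Int.ofNat (nat_lit 205884534),Int.ofNat (nat_lit 14089067),Int.ofNat (nat_lit 214731160),Int.ofNat (nat_lit 77616753),Int.negSucc (nat_lit 116083407),Int.ofNat (nat_lit 11170710),Int.negSucc (nat_lit 92414490),Int.negSucc (nat_lit 120979278),Int.negSucc (nat_lit 343439506),Int.negSucc (nat_lit 227225881),Int.negSucc (nat_lit 344369698),Int.ofNat (nat_lit 2822583),Int.negSucc (nat_lit 15702286),Int.negSucc (nat_lit 107131511),Int.negSucc (nat_lit 106365535),Int.negSucc (nat_lit 267486095),Int.ofNat (nat_lit 740913),Int.negSucc (nat_lit 11452036),Int.ofNat (nat_lit 67896226),Int.ofNat (nat_lit 22948636),Int.negSucc (nat_lit 12249586),Int.negSucc (nat_lit 148510965),Int.ofNat (nat_lit 24283751),Int.ofNat (nat_lit 87562455),Int.negSucc (nat_lit 4811658),Int.ofNat (nat_lit 221082899),Int.negSucc (nat_lit 89563610),Int.negSucc (nat_lit 86815183),Int.negSucc (nat_lit 74195803),Int.ofNat (nat_lit 2612364),Int.ofNat (nat_lit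 33668719),Int.negSucc (nat_lit 8716081),Int.negSucc (nat_lit 31981286),Int.negSucc (nat_lit 7496245),Int.ofNat (nat_lit 60378645),Int.ofNat (nat_lit 3454302),Int.ofNat (nat_lit 94604427),Int.ofNat (nat_lit 87542242),Int.negSucc (nat_lit 60958284),Int.negSucc (nat_lit 75736713),Int.negSucc (nat_lit 13628365),Int.ofNat (nat_lit 94464687),Int.negSucc (nat_lit 13549888),Int.negSucc (nat_lit 52483739),Int.ofNat (nat_lit 214669585),Int.negSucc (nat_lit 11563461),Int.ofNat (nat_lit 13566302),Int.negSucc (nat_lit 34484331),Int.negSucc (nat_lit 17400255),Int.ofNat (nat_lit 18712645),Int.ofNat (nat_lit 12946583),Int.negSucc (nat_lit 595909),Int.negSucc (nat_lit 24636100),Int.negSucc (nat_lit 8820148),Int.negSucc (nat_lit 12852492),Int.negSucc (nat_lit 41288405),Int.ofNat (nat_lit 15563901),Int.negSucc (nat_lit 7427099),Int.negSucc (nat_lit 25739227),Int.negSucc (nat_lit 995051),Int.ofNat (nat_lit 23167777),Int.ofNat (nat_lit 32543158),Int.negSucc (nat_lit 4734013),Int.negSucc (nat_lit 12077402),Int.negSucc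 (nat_lit 12724239),Int.negSucc (nat_lit 2776174),Int.negSucc (nat_lit 16680801),Int.negSucc (nat_lit 22000472),Int.negSucc (nat_lit 7561451),Int.negSucc (nat_lit 24228398),Int.ofNat (nat_lit 8810561),Int.ofNat (nat_lit 26301917),Int.negSucc (nat_lit 10231112),Int.negSucc (nat_lit 21109396),Int.ofNat (nat_lit 6486422),Int.ofNat (nat_lit 4374569),Int.ofNat (nat_lit 495336),Int.negSucc (nat_lit 14777876),Int.ofNat (nat_lit 18245291),Int.ofNat (nat_lit 12227779),Int.negSucc (nat_lit 11444897),Int.negSucc (nat_lit 2559619),Int.negSucc (nat_lit 2106636),Int.negSucc (nat_lit 28987412),Int.negSucc (nat_lit 25767107),Int.negSucc (nat_lit 5974762),Int.negSucc (nat_lit 4319764),Int.ofNat (nat_lit 30820909),Int.negSucc (nat_lit 11256489),Int.ofNat (nat_lit 17737023),Int.ofNat (nat_lit 4653578),Int.negSucc (nat_lit 5894710),Int.ofNat (nat_lit 6808813),Int.negSucc (nat_lit 3847111),Int.ofNat (nat_lit 11043274),Int.negSucc (nat_lit 29334170),Int.ofNat (nat_lit 42300499),Int.ofNat (nat_lit 18260786),Int.negSucc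 (nat_lit 12065251),Int.negSucc (nat_lit 32510543),Int.ofNat (nat_lit 234149),Int.negSucc (nat_lit 22583555),Int.ofNat (nat_lit 6138519),Int.negSucc (nat_lit 1481860),Int.negSucc (nat_lit 8804428),Int.ofNat (nat_lit 10746314),Int.negSucc (nat_lit 18826520),Int.negSucc (nat_lit 7279613),Int.negSucc (nat_lit 3427382),Int.ofNat (nat_lit 26177399),Int.negSucc (nat_lit 36102767),Int.negSucc (nat_lit 529752),Int.negSucc (nat_lit 11092779),Int.ofNat (nat_lit 14773397),Int.negSucc (nat_lit 9288215),Int.ofNat (nat_lit 4399734),Int.ofNat (nat_lit 7571810),Int.ofNat (nat_lit 10131690),Int.negSucc (nat_lit 11307434),Int.ofNat (nat_lit 80878727),Int.ofNat (nat_lit 9561745),Int.ofNat (nat_lit 20335532),Int.ofNat (nat_lit 3682877),Int.ofNat (nat_lit 16515785),Int.ofNat (nat_lit 11374359),Int.negSucc (nat_lit 19326346),Int.negSucc (nat_lit 27073127),Int.ofNat (nat_lit 11029459),Int.ofNat (nat_lit 14122698),Int.negSucc (nat_lit 8236419),Int.negSucc (nat_lit 35920003),Int.ofNat (nat_lit 35472023),Int.ofNat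 (nat_lit 3564514),Int.negSucc (nat_lit 49771185),Int.negSucc (nat_lit 12748608),Int.negSucc (nat_lit 20529665),Int.ofNat (nat_lit 12938315),Int.ofNat (nat_lit 25776592),Int.negSucc (nat_lit 5190978),Int.ofNat (nat_lit 599573),Int.ofNat (nat_lit 16690688),Int.negSucc (nat_lit 5936819),Int.negSucc (nat_lit 35460612),Int.negSucc (nat_lit 10733020),Int.ofNat (nat_lit 5082197),Int.ofNat (nat_lit 5523084),Int.negSucc (nat_lit 5316870),Int.negSucc (nat_lit 216822),Int.ofNat (nat_lit 1630580),Int.ofNat (nat_lit 23659048),Int.negSucc (nat_lit 18918865),Int.ofNat (nat_lit 4957511),Int.ofNat (nat_lit 12415841),Int.ofNat (nat_lit 11909444),Int.ofNat (nat_lit 4163503),Int.ofNat (nat_lit 9690290),Int.negSucc (nat_lit 1368618),Int.ofNat (nat_lit 7966786),Int.negSucc (nat_lit 4708940),Int.negSucc (nat_lit 14334165),Int.ofNat (nat_lit 3343533),Int.ofNat (nat_lit 4926839),Int.ofNat (nat_lit 10428011),Int.ofNat (nat_lit 7006488),Int.ofNat (nat_lit 13602802),Int.ofNat (nat_lit 1421451),Int.ofNat (nat_lit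 1105624),Int.ofNat (nat_lit 9107333),Int.ofNat (nat_lit 20889423),Int.ofNat (nat_lit 12443973),Int.ofNat (nat_lit 20803606),Int.ofNat (nat_lit 7267891),Int.ofNat (nat_lit 6845816),Int.ofNat (nat_lit 3321668),Int.negSucc (nat_lit 10174153),Int.ofNat (nat_lit 19917367),Int.ofNat (nat_lit 12627518),Int.negSucc (nat_lit 21654838),Int.ofNat (nat_lit 27301463),Int.ofNat (nat_lit 6536990),Int.ofNat (nat_lit 2683072),Int.negSucc (nat_lit 5509428),Int.negSucc (nat_lit 1074579),Int.ofNat (nat_lit 29172465),Int.negSucc (nat_lit 8322939),Int.ofNat (nat_lit 101469088),Int.ofNat (nat_lit 34554608),Int.negSucc (nat_lit 256582845),Int.ofNat (nat_lit 51121665),Int.ofNat (nat_lit 8254535),Int.ofNat (nat_lit 7390441),Int.negSucc (nat_lit 11882134),Int.negSucc (nat_lit 23333347),Int.ofNat (nat_lit 3665650),Int.ofNat (nat_lit 3906453),Int.ofNat (nat_lit 13214988),Int.negSucc (nat_lit 5018509),Int.ofNat (nat_lit 58438937)])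

/-- A row. -/
noncomputable def sr6_c4_13 : List ℕ × List ℤ :=
  ([(nat_lit 1),(nat_lit 0),(nat_lit 1),(nat_lit 0),(nat_lit 0),(nat_lit 0),(nat_lit 0),(nat_lit 0),(nat_lit 0),(nat_lit 0),(nat_lit 0),(nat_lit 0)], [Int.ofNat (nat_lit 373845804),Int.negSucc (nat_lit 1075086755),Int.negSucc (nat_lit 297790478),Int.negSucc (nat_lit 615791636),Int.ofNat (nat_lit 198651987),Int.ofNat (nat_lit 1227521262),Int.negSucc (nat_lit 254167573),Int.negSucc (nat_lit 72020794),Int.negSucc (nat_lit 286393391),Int.negSucc (nat_lit 563953021),Int.negSucc (nat_lit 190187407),Int.ofNat (nat_lit 265966169),Int.ofNat (nat_lit 104502721),Int.ofNat (nat_lit 123888530),Int.ofNat (nat_lit 299395769),Int.ofNat (nat_lit 53336411),Int.negSucc (nat_lit 271940502),Int.negSucc (nat_lit 38531457),Int.ofNat (nat_lit 75079201),Int.negSucc (nat_lit 125248387),Int.negSucc (nat_lit 384100603),Int.ofNat (nat_lit 263458619),Int.ofNat (nat_lit 161851712),Int.ofNat (nat_lit 428904803),Int.negSucc (nat_lit 211872179),Int.ofNat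 (nat_lit 122824027),Int.ofNat (nat_lit 26369797),Int.ofNat (nat_lit 141304756),Int.ofNat (nat_lit 199277172),Int.negSucc (nat_lit 100981954),Int.ofNat (nat_lit 219149730),Int.ofNat (nat_lit 139620863),Int.negSucc (nat_lit 35860524),Int.ofNat (nat_lit 95728435),Int.negSucc (nat_lit 28347936),Int.negSucc (nat_lit 75538171),Int.negSucc (nat_lit 299072582),Int.negSucc (nat_lit 178119987),Int.negSucc (nat_lit 136660563),Int.negSucc (nat_lit 172408364),Int.ofNat (nat_lit 41745392),Int.ofNat (nat_lit 8525793),Int.negSucc (nat_lit 81516515),Int.negSucc (nat_lit 114501305),Int.negSucc (nat_lit 70162687),Int.ofNat (nat_lit 28485087),Int.ofNat (nat_lit 17251914),Int.ofNat (nat_lit 64699287),Int.negSucc (nat_lit 3966289),Int.negSucc (nat_lit 133905813),Int.negSucc (nat_lit 57750285),Int.ofNat (nat_lit 116859473),Int.ofNat (nat_lit 17865866),Int.ofNat (nat_lit 192392069),Int.ofNat (nat_lit 96421962),Int.negSucc (nat_lit 248772881),Int.negSucc (nat_lit 107957841),Int.ofNat (nat_lit 97483707),Int.ofNat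 (nat_lit 292086880),Int.negSucc (nat_lit 105768364),Int.ofNat (nat_lit 120814504),Int.negSucc (nat_lit 26116056),Int.negSucc (nat_lit 421794),Int.ofNat (nat_lit 234209699),Int.negSucc (nat_lit 27488807),Int.ofNat (nat_lit 71870555),Int.negSucc (nat_lit 97145481),Int.ofNat (nat_lit 43169700),Int.ofNat (nat_lit 29264785),Int.ofNat (nat_lit 166577979),Int.negSucc (nat_lit 51350226),Int.negSucc (nat_lit 375609940),Int.ofNat (nat_lit 127748304),Int.ofNat (nat_lit 89974537),Int.ofNat (nat_lit 64561260),Int.ofNat (nat_lit 135128197),Int.ofNat (nat_lit 165861738),Int.negSucc (nat_lit 45082680),Int.negSucc (nat_lit 22888054),Int.negSucc (nat_lit 122117487),Int.negSucc (nat_lit 42647956),Int.negSucc (nat_lit 95765297),Int.ofNat (nat_lit 118071237),Int.negSucc (nat_lit 111548309),Int.negSucc (nat_lit 92176975),Int.ofNat (nat_lit 7487093),Int.ofNat (nat_lit 12055112),Int.ofNat (nat_lit 64544223),Int.ofNat (nat_lit 9286332),Int.ofNat (nat_lit 25102022),Int.negSucc (nat_lit 38497016),Int.negSucc (nat_lit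 56119522),Int.negSucc (nat_lit 132294943),Int.negSucc (nat_lit 8721327),Int.ofNat (nat_lit 11952655),Int.ofNat (nat_lit 7897732),Int.ofNat (nat_lit 16125981),Int.negSucc (nat_lit 69464628),Int.ofNat (nat_lit 1074970),Int.ofNat (nat_lit 84623846),Int.negSucc (nat_lit 41790777),Int.negSucc (nat_lit 57791995),Int.ofNat (nat_lit 16223603),Int.negSucc (nat_lit 2987496),Int.ofNat (nat_lit 59753972),Int.negSucc (nat_lit 29158075),Int.ofNat (nat_lit 63890751),Int.ofNat (nat_lit 40619418),Int.ofNat (nat_lit 22912749),Int.negSucc (nat_lit 9680269),Int.ofNat (nat_lit 11632345),Int.negSucc (nat_lit 82332518),Int.negSucc (nat_lit 139366141),Int.ofNat (nat_lit 3322910),Int.negSucc (nat_lit 6783251),Int.ofNat (nat_lit 42502054),Int.ofNat (nat_lit 7629609),Int.ofNat (nat_lit 9677986),Int.negSucc (nat_lit 48225833),Int.ofNat (nat_lit 16490924),Int.negSucc (nat_lit 7770712),Int.negSucc (nat_lit 19678002),Int.negSucc (nat_lit 40726785),Int.negSucc (nat_lit 23737702),Int.ofNat (nat_lit 65391316),Int.ofNat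 (nat_lit 37610417),Int.negSucc (nat_lit 23130282),Int.negSucc (nat_lit 28573808),Int.ofNat (nat_lit 67050895),Int.ofNat (nat_lit 17502289),Int.ofNat (nat_lit 11250047),Int.negSucc (nat_lit 5030285),Int.negSucc (nat_lit 40376038),Int.negSucc (nat_lit 15490769),Int.negSucc (nat_lit 105467676),Int.ofNat (nat_lit 78213704),Int.negSucc (nat_lit 48071693),Int.negSucc (nat_lit 63731406),Int.ofNat (nat_lit 172364781),Int.ofNat (nat_lit 23724579),Int.negSucc (nat_lit 46707628),Int.negSucc (nat_lit 89412810),Int.ofNat (nat_lit 100936152),Int.ofNat (nat_lit 377341),Int.negSucc (nat_lit 51201817),Int.negSucc (nat_lit 101298894),Int.ofNat (nat_lit 1361176),Int.negSucc (nat_lit 22581084),Int.negSucc (nat_lit 11570066),Int.ofNat (nat_lit 61389955),Int.ofNat (nat_lit 20878000),Int.ofNat (nat_lit 3603809),Int.ofNat (nat_lit 21712968),Int.ofNat (nat_lit 34180311),Int.negSucc (nat_lit 17700769),Int.ofNat (nat_lit 79978202),Int.ofNat (nat_lit 4835681),Int.ofNat (nat_lit 63915517),Int.negSucc (nat_lit 77095640),Int.ofNat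 (nat_lit 63864252),Int.ofNat (nat_lit 14687082),Int.negSucc (nat_lit 31235480),Int.ofNat (nat_lit 29626273),Int.negSucc (nat_lit 55028576),Int.ofNat (nat_lit 12652986),Int.ofNat (nat_lit 40123566),Int.negSucc (nat_lit 53806944),Int.ofNat (nat_lit 15457800),Int.negSucc (nat_lit 13894382),Int.negSucc (nat_lit 14235676),Int.negSucc (nat_lit 76872849),Int.negSucc (nat_lit 17935405),Int.ofNat (nat_lit 78255034),Int.negSucc (nat_lit 77742091),Int.ofNat (nat_lit 85927475),Int.negSucc (nat_lit 14647423),Int.ofNat (nat_lit 54740652),Int.negSucc (nat_lit 69887705),Int.ofNat (nat_lit 61388606),Int.negSucc (nat_lit 43229757),Int.negSucc (nat_lit 4903688),Int.negSucc (nat_lit 4802525),Int.ofNat (nat_lit 17277497),Int.negSucc (nat_lit 9971360),Int.ofNat (nat_lit 21614338),Int.ofNat (nat_lit 82552921),Int.negSucc (nat_lit 42126842),Int.ofNat (nat_lit 5618023),Int.negSucc (nat_lit 6396504),Int.ofNat (nat_lit 320883),Int.negSucc (nat_lit 29461090),Int.ofNat (nat_lit 1342414),Int.negSucc (nat_lit 21553843),Int.ofNat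 (nat_lit 18032633),Int.ofNat (nat_lit 15118914),Int.negSucc (nat_lit 753475),Int.ofNat (nat_lit 76502478),Int.ofNat (nat_lit 44843448),Int.ofNat (nat_lit 22752299),Int.negSucc (nat_lit 9221837),Int.ofNat (nat_lit 28140820),Int.ofNat (nat_lit 23422967),Int.negSucc (nat_lit 55612169),Int.ofNat (nat_lit 26348846),Int.ofNat (nat_lit 34208653),Int.negSucc (nat_lit 46414943),Int.ofNat (nat_lit 39973760),Int.ofNat (nat_lit 46485112),Int.ofNat (nat_lit 28015133),Int.negSucc (nat_lit 33171199),Int.negSucc (nat_lit 30373336),Int.negSucc (nat_lit 11966589),Int.ofNat (nat_lit 66777477),Int.negSucc (nat_lit 676050102),Int.ofNat (nat_lit 327217479),Int.negSucc (nat_lit 351643635),Int.negSucc (nat_lit 266578422),Int.negSucc (nat_lit 185535739),Int.ofNat (nat_lit 171519071),Int.ofNat (nat_lit 45339924),Int.ofNat (nat_lit 45287514),Int.negSucc (nat_lit 91529637),Int.negSucc (nat_lit 77108943),Int.negSucc (nat_lit 28288534),Int.ofNat (nat_lit 130958157),Int.negSucc (nat_lit 61041104),Int.ofNat (nat_lit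 166451230)])

/-- A row. -/
noncomputable def sr6_c4_14 : List ℕ × List ℤ :=
  ([(nat_lit 1),(nat_lit 1),(nat_lit 0),(nat_lit 1),(nat_lit 0),(nat_lit 0),(nat_lit 0),(nat_lit 0),(nat_lit 0),(nat_lit 0),(nat_lit 0),(nat_lit 0)], [Int.ofNat (nat_lit 751922394),Int.negSucc (nat_lit 907708910),Int.negSucc (nat_lit 1931627282),Int.negSucc (nat_lit 1179634231),Int.ofNat (nat_lit 1905471163),Int.ofNat (nat_lit 1014021077),Int.negSucc (nat_lit 504644974),Int.negSucc (nat_lit 425826158),Int.negSucc (nat_lit 716676078),Int.negSucc (nat_lit 2797880706),Int.negSucc (nat_lit 153197172),Int.ofNat (nat_lit 588693586),Int.negSucc (nat_lit 861462758),Int.negSucc (nat_lit 21993790),Int.negSucc (nat_lit 125971113),Int.negSucc (nat_lit 390479920),Int.negSucc (nat_lit 547639869),Int.negSucc (nat_lit 521989971),Int.negSucc (nat_lit 137227110),Int.ofNat (nat_lit 426235373),Int.ofNat (nat_lit 435795530),Int.negSucc (nat_lit 469483085),Int.ofNat (nat_lit 183716191),Int.ofNat (nat_lit 312806213),Int.ofNat (nat_lit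 65324408),Int.ofNat (nat_lit 935174853),Int.negSucc (nat_lit 93053962),Int.ofNat (nat_lit 107576401),Int.ofNat (nat_lit 205376475),Int.negSucc (nat_lit 609327736),Int.negSucc (nat_lit 71016627),Int.ofNat (nat_lit 336159517),Int.negSucc (nat_lit 86317879),Int.ofNat (nat_lit 79217245),Int.ofNat (nat_lit 479020996),Int.ofNat (nat_lit 155488970),Int.negSucc (nat_lit 16102876),Int.ofNat (nat_lit 153606745),Int.negSucc (nat_lit 1135299794),Int.negSucc (nat_lit 213602080),Int.ofNat (nat_lit 208099283),Int.negSucc (nat_lit 284948688),Int.negSucc (nat_lit 212913274),Int.negSucc (nat_lit 726279051),Int.ofNat (nat_lit 489522324),Int.negSucc (nat_lit 246320663),Int.negSucc (nat_lit 423313734),Int.ofNat (nat_lit 43769809),Int.ofNat (nat_lit 199342639),Int.negSucc (nat_lit 60090450),Int.ofNat (nat_lit 298788295),Int.ofNat (nat_lit 186327582),Int.ofNat (nat_lit 264976243),Int.ofNat (nat_lit 308962809),Int.ofNat (nat_lit 221672032),Int.negSucc (nat_lit 239468528),Int.negSucc (nat_lit 8887690),Int.negSucc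 (nat_lit 69403716),Int.ofNat (nat_lit 200096017),Int.negSucc (nat_lit 263418457),Int.negSucc (nat_lit 43542166),Int.ofNat (nat_lit 94749392),Int.ofNat (nat_lit 107202443),Int.ofNat (nat_lit 524471710),Int.ofNat (nat_lit 448860480),Int.ofNat (nat_lit 209316633),Int.ofNat (nat_lit 53464920),Int.negSucc (nat_lit 105835724),Int.ofNat (nat_lit 160675474),Int.ofNat (nat_lit 234504079),Int.negSucc (nat_lit 18904897),Int.ofNat (nat_lit 165045490),Int.ofNat (nat_lit 95471270),Int.negSucc (nat_lit 167587129),Int.negSucc (nat_lit 136175500),Int.negSucc (nat_lit 72456928),Int.negSucc (nat_lit 9932739),Int.negSucc (nat_lit 35571122),Int.negSucc (nat_lit 65593113),Int.negSucc (nat_lit 111872657),Int.negSucc (nat_lit 116337192),Int.negSucc (nat_lit 3126669),Int.ofNat (nat_lit 143155424),Int.ofNat (nat_lit 1398912),Int.negSucc (nat_lit 161370201),Int.negSucc (nat_lit 15836523),Int.ofNat (nat_lit 23923376),Int.negSucc (nat_lit 149129458),Int.negSucc (nat_lit 77749337),Int.negSucc (nat_lit 45673231),Int.negSucc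 (nat_lit 77702502),Int.negSucc (nat_lit 157278506),Int.negSucc (nat_lit 109082151),Int.negSucc (nat_lit 45321476),Int.ofNat (nat_lit 54665042),Int.ofNat (nat_lit 21303413),Int.negSucc (nat_lit 20604503),Int.negSucc (nat_lit 32887718),Int.negSucc (nat_lit 59104227),Int.ofNat (nat_lit 66235682),Int.negSucc (nat_lit 71699269),Int.negSucc (nat_lit 94455514),Int.ofNat (nat_lit 41988584),Int.negSucc (nat_lit 32251983),Int.negSucc (nat_lit 16682565),Int.negSucc (nat_lit 158560855),Int.ofNat (nat_lit 175409332),Int.ofNat (nat_lit 46464472),Int.negSucc (nat_lit 226262181),Int.ofNat (nat_lit 40384302),Int.negSucc (nat_lit 101769832),Int.negSucc (nat_lit 117938546),Int.negSucc (nat_lit 145935421),Int.ofNat (nat_lit 27414745),Int.negSucc (nat_lit 107747137),Int.ofNat (nat_lit 62512965),Int.negSucc (nat_lit 128602957),Int.ofNat (nat_lit 121183606),Int.ofNat (nat_lit 30426638),Int.negSucc (nat_lit 1679198),Int.ofNat (nat_lit 14483833),Int.negSucc (nat_lit 30975931),Int.ofNat (nat_lit 21140164),Int.negSucc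 (nat_lit 82118327),Int.ofNat (nat_lit 171630042),Int.ofNat (nat_lit 88576310),Int.negSucc (nat_lit 46874584),Int.negSucc (nat_lit 238447241),Int.ofNat (nat_lit 53602519),Int.negSucc (nat_lit 10294237),Int.ofNat (nat_lit 24139721),Int.ofNat (nat_lit 72015761),Int.negSucc (nat_lit 135781698),Int.ofNat (nat_lit 27386526),Int.negSucc (nat_lit 56197420),Int.negSucc (nat_lit 100488721),Int.negSucc (nat_lit 93595417),Int.ofNat (nat_lit 6619296),Int.ofNat (nat_lit 89692120),Int.ofNat (nat_lit 77373401),Int.negSucc (nat_lit 140882043),Int.ofNat (nat_lit 78897131),Int.ofNat (nat_lit 11202683),Int.negSucc (nat_lit 122858532),Int.ofNat (nat_lit 541576),Int.ofNat (nat_lit 4255144),Int.negSucc (nat_lit 81109009),Int.ofNat (nat_lit 25912653),Int.ofNat (nat_lit 27511919),Int.ofNat (nat_lit 268782827),Int.ofNat (nat_lit 46967249),Int.ofNat (nat_lit 28653564),Int.ofNat (nat_lit 96796170),Int.ofNat (nat_lit 155309519),Int.ofNat (nat_lit 72208114),Int.ofNat (nat_lit 45083814),Int.ofNat (nat_lit 27983141),Int.ofNat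 (nat_lit 54407225),Int.negSucc (nat_lit 104333811),Int.negSucc (nat_lit 56927794),Int.negSucc (nat_lit 65704544),Int.negSucc (nat_lit 156576255),Int.negSucc (nat_lit 21647807),Int.negSucc (nat_lit 16597973),Int.ofNat (nat_lit 57847552),Int.ofNat (nat_lit 84889500),Int.negSucc (nat_lit 158539662),Int.negSucc (nat_lit 22719829),Int.ofNat (nat_lit 92360342),Int.negSucc (nat_lit 104418523),Int.ofNat (nat_lit 15180579),Int.negSucc (nat_lit 107511994),Int.ofNat (nat_lit 40743503),Int.negSucc (nat_lit 19450322),Int.ofNat (nat_lit 128235189),Int.ofNat (nat_lit 25317302),Int.negSucc (nat_lit 4291544),Int.negSucc (nat_lit 39826838),Int.ofNat (nat_lit 45872220),Int.negSucc (nat_lit 89101169),Int.ofNat (nat_lit 63765478),Int.ofNat (nat_lit 21859648),Int.ofNat (nat_lit 45274298),Int.negSucc (nat_lit 72739585),Int.ofNat (nat_lit 4012701),Int.negSucc (nat_lit 82983965),Int.negSucc (nat_lit 89155989),Int.ofNat (nat_lit 112548605),Int.negSucc (nat_lit 10867175),Int.negSucc (nat_lit 16188353),Int.ofNat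 (nat_lit 32694492),Int.negSucc (nat_lit 56671611),Int.negSucc (nat_lit 48378269),Int.ofNat (nat_lit 72099958),Int.ofNat (nat_lit 12614093),Int.negSucc (nat_lit 31180350),Int.ofNat (nat_lit 38269505),Int.negSucc (nat_lit 21092012),Int.ofNat (nat_lit 151425787),Int.ofNat (nat_lit 23311750),Int.ofNat (nat_lit 7356069),Int.ofNat (nat_lit 26754039),Int.negSucc (nat_lit 11063478),Int.ofNat (nat_lit 65120698),Int.ofNat (nat_lit 96984805),Int.ofNat (nat_lit 25447236),Int.negSucc (nat_lit 12468606),Int.ofNat (nat_lit 45907611),Int.negSucc (nat_lit 41779544),Int.negSucc (nat_lit 67212520),Int.negSucc (nat_lit 29394936),Int.ofNat (nat_lit 18371635),Int.ofNat (nat_lit 61268790),Int.negSucc (nat_lit 8155136),Int.negSucc (nat_lit 191105906),Int.negSucc (nat_lit 133262210),Int.negSucc (nat_lit 85201050),Int.ofNat (nat_lit 216849084),Int.ofNat (nat_lit 201398551),Int.negSucc (nat_lit 334941842),Int.negSucc (nat_lit 1076180704),Int.negSucc (nat_lit 39134553),Int.ofNat (nat_lit 7413480),Int.ofNat (nat_lit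 52168086),Int.negSucc (nat_lit 85145035),Int.ofNat (nat_lit 118693116),Int.negSucc (nat_lit 17291814),Int.ofNat (nat_lit 209031296)])

/-- A row. -/
noncomputable def sr6_c4_15 : List ℕ × List ℤ :=
  ([(nat_lit 1),(nat_lit 2),(nat_lit 0),(nat_lit 0),(nat_lit 0),(nat_lit 0),(nat_lit 0),(nat_lit 0),(nat_lit 0),(nat_lit 0),(nat_lit 0),(nat_lit 0)], [Int.negSucc (nat_lit 1226982664),Int.ofNat (nat_lit 2607177256),Int.ofNat (nat_lit 1996989672),Int.ofNat (nat_lit 94009324),Int.negSucc (nat_lit 2462433849),Int.ofNat (nat_lit 627051026),Int.negSucc (nat_lit 125269061),Int.negSucc (nat_lit 651123430),Int.ofNat (nat_lit 1209900204),Int.ofNat (nat_lit 828753620),Int.ofNat (nat_lit 797048668),Int.ofNat (nat_lit 362644306),Int.ofNat (nat_lit 1268407468),Int.ofNat (nat_lit 280713255),Int.ofNat (nat_lit 384794872),Int.ofNat (nat_lit 631969278),Int.negSucc (nat_lit 178692773),Int.negSucc (nat_lit 254232112),Int.ofNat (nat_lit 397795225),Int.ofNat (nat_lit 203093818),Int.negSucc (nat_lit 864377591),Int.ofNat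 (nat_lit 275631487),Int.ofNat (nat_lit 565277868),Int.negSucc (nat_lit 55223971),Int.negSucc (nat_lit 306456098),Int.negSucc (nat_lit 595246140),Int.negSucc (nat_lit 221890100),Int.ofNat (nat_lit 357282498),Int.negSucc (nat_lit 160895004),Int.ofNat (nat_lit 162936387),Int.negSucc (nat_lit 373868401),Int.negSucc (nat_lit 314775745),Int.ofNat (nat_lit 476940152),Int.ofNat (nat_lit 6676238),Int.negSucc (nat_lit 371331683),Int.ofNat (nat_lit 248350533),Int.ofNat (nat_lit 279225597),Int.ofNat (nat_lit 23502188),Int.ofNat (nat_lit 953384584),Int.negSucc (nat_lit 215842651),Int.negSucc (nat_lit 220675243),Int.ofNat (nat_lit 218440929),Int.ofNat (nat_lit 367565163),Int.ofNat (nat_lit 969620660),Int.negSucc (nat_lit 425988973),Int.ofNat (nat_lit 264792016),Int.ofNat (nat_lit 78354728),Int.negSucc (nat_lit 165374556),Int.ofNat (nat_lit 206227235),Int.ofNat (nat_lit 160749214),Int.negSucc (nat_lit 575143891),Int.negSucc (nat_lit 248534724),Int.negSucc (nat_lit 270778455),Int.negSucc (nat_lit 76984229),Int.ofNat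 (nat_lit 144908267),Int.negSucc (nat_lit 152229825),Int.ofNat (nat_lit 221307666),Int.ofNat (nat_lit 86767174),Int.ofNat (nat_lit 303833435),Int.negSucc (nat_lit 14301618),Int.ofNat (nat_lit 492917494),Int.ofNat (nat_lit 858237),Int.negSucc (nat_lit 145719414),Int.negSucc (nat_lit 511024329),Int.negSucc (nat_lit 439966560),Int.negSucc (nat_lit 270767969),Int.ofNat (nat_lit 157507220),Int.ofNat (nat_lit 472615104),Int.negSucc (nat_lit 57711930),Int.negSucc (nat_lit 272079087),Int.ofNat (nat_lit 378852170),Int.ofNat (nat_lit 37768871),Int.negSucc (nat_lit 181027058),Int.negSucc (nat_lit 139814679),Int.ofNat (nat_lit 289895439),Int.ofNat (nat_lit 631711696),Int.ofNat (nat_lit 210738398),Int.ofNat (nat_lit 125688552),Int.negSucc (nat_lit 196455632),Int.negSucc (nat_lit 62556944),Int.ofNat (nat_lit 38822543),Int.ofNat (nat_lit 40719886),Int.ofNat (nat_lit 308117),Int.negSucc (nat_lit 210182249),Int.negSucc (nat_lit 136993101),Int.ofNat (nat_lit 100343395),Int.negSucc (nat_lit 55973540),Int.ofNat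 (nat_lit 89510388),Int.negSucc (nat_lit 35817338),Int.negSucc (nat_lit 85194581),Int.ofNat (nat_lit 63014245),Int.negSucc (nat_lit 185592896),Int.negSucc (nat_lit 84958260),Int.negSucc (nat_lit 43718643),Int.ofNat (nat_lit 51011574),Int.ofNat (nat_lit 117144686),Int.ofNat (nat_lit 67988933),Int.negSucc (nat_lit 45788729),Int.negSucc (nat_lit 112452790),Int.ofNat (nat_lit 346133869),Int.ofNat (nat_lit 82114960),Int.negSucc (nat_lit 291204866),Int.ofNat (nat_lit 122181416),Int.ofNat (nat_lit 208087561),Int.ofNat (nat_lit 98947366),Int.negSucc (nat_lit 99124577),Int.ofNat (nat_lit 56103202),Int.negSucc (nat_lit 75559597),Int.ofNat (nat_lit 211329242),Int.negSucc (nat_lit 117209134),Int.ofNat (nat_lit 11275647),Int.negSucc (nat_lit 86068532),Int.negSucc (nat_lit 189286815),Int.negSucc (nat_lit 55746598),Int.ofNat (nat_lit 195120487),Int.negSucc (nat_lit 99328368),Int.ofNat (nat_lit 141986288),Int.negSucc (nat_lit 204636282),Int.negSucc (nat_lit 61439073),Int.ofNat (nat_lit 104730891),Int.negSucc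 (nat_lit 77105949),Int.negSucc (nat_lit 98440717),Int.negSucc (nat_lit 180619869),Int.negSucc (nat_lit 115434380),Int.negSucc (nat_lit 105772086),Int.negSucc (nat_lit 75170084),Int.negSucc (nat_lit 77255755),Int.ofNat (nat_lit 285577244),Int.ofNat (nat_lit 43805031),Int.negSucc (nat_lit 45337038),Int.ofNat (nat_lit 114944169),Int.negSucc (nat_lit 80619491),Int.negSucc (nat_lit 13119704),Int.negSucc (nat_lit 82049418),Int.ofNat (nat_lit 140928302),Int.ofNat (nat_lit 212276166),Int.ofNat (nat_lit 71185581),Int.negSucc (nat_lit 159672451),Int.negSucc (nat_lit 67187547),Int.negSucc (nat_lit 120505458),Int.negSucc (nat_lit 265321399),Int.negSucc (nat_lit 258257524),Int.negSucc (nat_lit 20037105),Int.ofNat (nat_lit 25974186),Int.negSucc (nat_lit 96021025),Int.negSucc (nat_lit 54618630),Int.ofNat (nat_lit 62495608),Int.negSucc (nat_lit 285616063),Int.ofNat (nat_lit 38801856),Int.ofNat (nat_lit 58754893),Int.ofNat (nat_lit 256432148),Int.ofNat (nat_lit 44270809),Int.negSucc (nat_lit 66758263),Int.ofNat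 (nat_lit 176832498),Int.ofNat (nat_lit 43271886),Int.ofNat (nat_lit 104624724),Int.negSucc (nat_lit 15055374),Int.negSucc (nat_lit 57152834),Int.ofNat (nat_lit 68806660),Int.ofNat (nat_lit 156510539),Int.ofNat (nat_lit 18905880),Int.negSucc (nat_lit 20900906),Int.negSucc (nat_lit 13654937),Int.negSucc (nat_lit 20477434),Int.negSucc (nat_lit 29617235),Int.negSucc (nat_lit 40491877),Int.negSucc (nat_lit 40700074),Int.ofNat (nat_lit 127064345),Int.ofNat (nat_lit 68749303),Int.negSucc (nat_lit 22901488),Int.negSucc (nat_lit 18659054),Int.ofNat (nat_lit 21851534),Int.ofNat (nat_lit 177770922),Int.ofNat (nat_lit 6955568),Int.negSucc (nat_lit 62131807),Int.ofNat (nat_lit 137628488),Int.ofNat (nat_lit 52429989),Int.ofNat (nat_lit 49799457),Int.negSucc (nat_lit 7470319),Int.ofNat (nat_lit 85646186),Int.negSucc (nat_lit 145748294),Int.negSucc (nat_lit 60005670),Int.ofNat (nat_lit 20134670),Int.ofNat (nat_lit 100684295),Int.ofNat (nat_lit 40037772),Int.negSucc (nat_lit 17651085),Int.negSucc (nat_lit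 129716396),Int.ofNat (nat_lit 61038261),Int.ofNat (nat_lit 126506444),Int.ofNat (nat_lit 88285522),Int.ofNat (nat_lit 90453962),Int.negSucc (nat_lit 112038235),Int.negSucc (nat_lit 220100270),Int.ofNat (nat_lit 17624785),Int.negSucc (nat_lit 243185542),Int.negSucc (nat_lit 35975958),Int.ofNat (nat_lit 36496379),Int.negSucc (nat_lit 12100197),Int.ofNat (nat_lit 92473912),Int.negSucc (nat_lit 69025331),Int.negSucc (nat_lit 43810855),Int.ofNat (nat_lit 65809414),Int.ofNat (nat_lit 27549046),Int.ofNat (nat_lit 183367777),Int.ofNat (nat_lit 19942046),Int.negSucc (nat_lit 54933070),Int.ofNat (nat_lit 69899774),Int.ofNat (nat_lit 110704478),Int.ofNat (nat_lit 104284642),Int.ofNat (nat_lit 172759871),Int.ofNat (nat_lit 45978653),Int.ofNat (nat_lit 31789540),Int.negSucc (nat_lit 115401759),Int.ofNat (nat_lit 603318204),Int.ofNat (nat_lit 65701174),Int.ofNat (nat_lit 318291964),Int.negSucc (nat_lit 76373544),Int.negSucc (nat_lit 1021139058),Int.ofNat (nat_lit 781095543),Int.ofNat (nat_lit 387425235),Int.negSucc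 (nat_lit 233901243),Int.negSucc (nat_lit 1779605368),Int.ofNat (nat_lit 934446132),Int.negSucc (nat_lit 658140279),Int.negSucc (nat_lit 8596018),Int.negSucc (nat_lit 444498333),Int.ofNat (nat_lit 331269268),Int.ofNat (nat_lit 29544807),Int.ofNat (nat_lit 1078389438)])

/-- A row. -/
noncomputable def sr6_c4_16 : List ℕ × List ℤ :=
  ([(nat_lit 2),(nat_lit 0),(nat_lit 0),(nat_lit 0),(nat_lit 0),(nat_lit 0),(nat_lit 0),(nat_lit 0),(nat_lit 0),(nat_lit 0),(nat_lit 0),(nat_lit 0)], [Int.negSucc (nat_lit 611994020),Int.ofNat (nat_lit 1153957029),Int.ofNat (nat_lit 340927385),Int.ofNat (nat_lit 659442975),Int.negSucc (nat_lit 537170398),Int.negSucc (nat_lit 1402696142),Int.ofNat (nat_lit 88033674),Int.ofNat (nat_lit 335915763),Int.ofNat (nat_lit 35259293),Int.ofNat (nat_lit 439428534),Int.ofNat (nat_lit 207563168),Int.negSucc (nat_lit 699899359),Int.ofNat (nat_lit 58083024),Int.negSucc (nat_lit 76738085),Int.negSucc (nat_lit 433027245),Int.ofNat (nat_lit 94261273),Int.ofNat (nat_lit 325108670),Int.negSucc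 (nat_lit 8929097),Int.negSucc (nat_lit 46683040),Int.ofNat (nat_lit 318884416),Int.ofNat (nat_lit 108312224),Int.ofNat (nat_lit 150973847),Int.negSucc (nat_lit 224402759),Int.negSucc (nat_lit 32508645),Int.ofNat (nat_lit 210168386),Int.negSucc (nat_lit 175680991),Int.negSucc (nat_lit 125197925),Int.negSucc (nat_lit 4282384),Int.negSucc (nat_lit 32454554),Int.ofNat (nat_lit 301743353),Int.ofNat (nat_lit 104900946),Int.negSucc (nat_lit 143452081),Int.negSucc (nat_lit 72575535),Int.negSucc (nat_lit 45579225),Int.negSucc (nat_lit 164325132),Int.negSucc (nat_lit 224973952),Int.ofNat (nat_lit 139547209),Int.ofNat (nat_lit 23775209),Int.ofNat (nat_lit 38870047),Int.ofNat (nat_lit 145600439),Int.negSucc (nat_lit 44322233),Int.ofNat (nat_lit 6380937),Int.ofNat (nat_lit 214212256),Int.ofNat (nat_lit 120241115),Int.negSucc (nat_lit 5182054),Int.negSucc (nat_lit 162650852),Int.negSucc (nat_lit 48591321),Int.negSucc (nat_lit 21860398),Int.ofNat (nat_lit 19822752),Int.ofNat (nat_lit 18882825),Int.ofNat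 (nat_lit 24482283),Int.negSucc (nat_lit 32932592),Int.negSucc (nat_lit 105121435),Int.negSucc (nat_lit 12115556),Int.negSucc (nat_lit 271898319),Int.ofNat (nat_lit 77077970),Int.ofNat (nat_lit 184371596),Int.negSucc (nat_lit 151778544),Int.negSucc (nat_lit 294121652),Int.ofNat (nat_lit 47901044),Int.negSucc (nat_lit 134659408),Int.ofNat (nat_lit 44285704),Int.negSucc (nat_lit 43490680),Int.negSucc (nat_lit 329449844),Int.ofNat (nat_lit 198404623),Int.negSucc (nat_lit 32965172),Int.ofNat (nat_lit 41015539),Int.ofNat (nat_lit 38354882),Int.ofNat (nat_lit 29967400),Int.negSucc (nat_lit 87649097),Int.ofNat (nat_lit 45886379),Int.ofNat (nat_lit 521206282),Int.negSucc (nat_lit 141948692),Int.ofNat (nat_lit 46367681),Int.ofNat (nat_lit 810878),Int.negSucc (nat_lit 271817658),Int.negSucc (nat_lit 223805156),Int.negSucc (nat_lit 15282923),Int.negSucc (nat_lit 5804935),Int.ofNat (nat_lit 76533252),Int.negSucc (nat_lit 17633303),Int.ofNat (nat_lit 106852218),Int.negSucc (nat_lit 103482763),Int.ofNat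 (nat_lit 193374296),Int.ofNat (nat_lit 102464024),Int.negSucc (nat_lit 72085406),Int.negSucc (nat_lit 50569770),Int.ofNat (nat_lit 8932589),Int.negSucc (nat_lit 15375335),Int.negSucc (nat_lit 152325524),Int.ofNat (nat_lit 25233409),Int.ofNat (nat_lit 3636847),Int.ofNat (nat_lit 158717557),Int.ofNat (nat_lit 28581370),Int.negSucc (nat_lit 32415044),Int.negSucc (nat_lit 3019044),Int.negSucc (nat_lit 122203287),Int.ofNat (nat_lit 25783292),Int.negSucc (nat_lit 28310028),Int.negSucc (nat_lit 96835345),Int.ofNat (nat_lit 11320115),Int.ofNat (nat_lit 20451954),Int.negSucc (nat_lit 10502486),Int.negSucc (nat_lit 8077368),Int.negSucc (nat_lit 67244181),Int.ofNat (nat_lit 88866978),Int.ofNat (nat_lit 48425830),Int.ofNat (nat_lit 18737591),Int.negSucc (nat_lit 64344732),Int.ofNat (nat_lit 12886314),Int.negSucc (nat_lit 120471730),Int.ofNat (nat_lit 68017313),Int.ofNat (nat_lit 134136965),Int.negSucc (nat_lit 43773749),Int.ofNat (nat_lit 31813660),Int.negSucc (nat_lit 73947265),Int.ofNat (nat_lit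 998026),Int.negSucc (nat_lit 34032692),Int.ofNat (nat_lit 69910307),Int.ofNat (nat_lit 3426170),Int.negSucc (nat_lit 23139319),Int.ofNat (nat_lit 14436223),Int.ofNat (nat_lit 4162067),Int.negSucc (nat_lit 57915738),Int.negSucc (nat_lit 116981370),Int.negSucc (nat_lit 47642769),Int.negSucc (nat_lit 12137785),Int.negSucc (nat_lit 7134896),Int.negSucc (nat_lit 78458417),Int.negSucc (nat_lit 40973855),Int.negSucc (nat_lit 7597472),Int.negSucc (nat_lit 16198866),Int.ofNat (nat_lit 62021345),Int.negSucc (nat_lit 6139829),Int.ofNat (nat_lit 190127962),Int.negSucc (nat_lit 75281081),Int.ofNat (nat_lit 72215803),Int.ofNat (nat_lit 12687090),Int.negSucc (nat_lit 235219170),Int.ofNat (nat_lit 99140396),Int.ofNat (nat_lit 93484434),Int.ofNat (nat_lit 955992),Int.negSucc (nat_lit 190895370),Int.negSucc (nat_lit 10177255),Int.ofNat (nat_lit 45806364),Int.ofNat (nat_lit 92002904),Int.ofNat (nat_lit 28246061),Int.ofNat (nat_lit 9928422),Int.ofNat (nat_lit 21805988),Int.negSucc (nat_lit 27173259),Int.ofNat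 (nat_lit 23902800),Int.negSucc (nat_lit 8978918),Int.negSucc (nat_lit 18278464),Int.negSucc (nat_lit 10689082),Int.negSucc (nat_lit 4171572),Int.negSucc (nat_lit 35477582),Int.ofNat (nat_lit 8732906),Int.negSucc (nat_lit 43648770),Int.ofNat (nat_lit 23283239),Int.negSucc (nat_lit 67492825),Int.ofNat (nat_lit 35940758),Int.negSucc (nat_lit 6550728),Int.negSucc (nat_lit 78347439),Int.ofNat (nat_lit 31793972),Int.ofNat (nat_lit 15875528),Int.ofNat (nat_lit 15599389),Int.ofNat (nat_lit 65278718),Int.ofNat (nat_lit 2378288),Int.ofNat (nat_lit 45123913),Int.ofNat (nat_lit 17738479),Int.ofNat (nat_lit 110946237),Int.ofNat (nat_lit 14409474),Int.negSucc (nat_lit 71203010),Int.ofNat (nat_lit 91234779),Int.negSucc (nat_lit 122882314),Int.ofNat (nat_lit 108149317),Int.negSucc (nat_lit 88376643),Int.ofNat (nat_lit 79174013),Int.negSucc (nat_lit 142056957),Int.ofNat (nat_lit 109478595),Int.ofNat (nat_lit 109363247),Int.ofNat (nat_lit 55358809),Int.ofNat (nat_lit 81157773),Int.negSucc (nat_lit 19030024),Int.negSucc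 (nat_lit 103703225),Int.negSucc (nat_lit 86212416),Int.negSucc (nat_lit 960039),Int.ofNat (nat_lit 16938027),Int.ofNat (nat_lit 7056134),Int.negSucc (nat_lit 12414587),Int.ofNat (nat_lit 9387098),Int.ofNat (nat_lit 11864843),Int.ofNat (nat_lit 63374390),Int.ofNat (nat_lit 4024935),Int.negSucc (nat_lit 25086683),Int.negSucc (nat_lit 2712430),Int.negSucc (nat_lit 43417598),Int.negSucc (nat_lit 99741976),Int.negSucc (nat_lit 30647107),Int.ofNat (nat_lit 57953164),Int.negSucc (nat_lit 44401923),Int.negSucc (nat_lit 3702821),Int.ofNat (nat_lit 43839861),Int.negSucc (nat_lit 4645555),Int.ofNat (nat_lit 27945170),Int.ofNat (nat_lit 48269378),Int.negSucc (nat_lit 10356310),Int.negSucc (nat_lit 4238173),Int.negSucc (nat_lit 1856616),Int.ofNat (nat_lit 27885993),Int.ofNat (nat_lit 46400367),Int.ofNat (nat_lit 35881052),Int.negSucc (nat_lit 99066823),Int.ofNat (nat_lit 609719184),Int.negSucc (nat_lit 245127355),Int.ofNat (nat_lit 357369919),Int.ofNat (nat_lit 157595812),Int.negSucc (nat_lit 322624081),Int.ofNat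 (nat_lit 113810561),Int.negSucc (nat_lit 90231401),Int.negSucc (nat_lit 150624701),Int.ofNat (nat_lit 71126242),Int.ofNat (nat_lit 73006767),Int.negSucc (nat_lit 1519631),Int.negSucc (nat_lit 935678779),Int.negSucc (nat_lit 127859701),Int.ofNat (nat_lit 242966898),Int.ofNat (nat_lit 23717101),Int.negSucc (nat_lit 237943478),Int.ofNat (nat_lit 229589184)])

/-- A row. -/
noncomputable def sr6_c4_17 : List ℕ × List ℤ :=
  ([(nat_lit 2),(nat_lit 0),(nat_lit 1),(nat_lit 0),(nat_lit 0),(nat_lit 0),(nat_lit 0),(nat_lit 0),(nat_lit 0),(nat_lit 0),(nat_lit 0),(nat_lit 0)], [Int.negSucc (nat_lit 184163180),Int.negSucc (nat_lit 270653039),Int.ofNat (nat_lit 39797431),Int.ofNat (nat_lit 309151077),Int.negSucc (nat_lit 401257668),Int.negSucc (nat_lit 667795732),Int.ofNat (nat_lit 179576461),Int.negSucc (nat_lit 337965610),Int.ofNat (nat_lit 344232142),Int.negSucc (nat_lit 162400944),Int.ofNat (nat_lit 243524837),Int.ofNat (nat_lit 79937539),Int.negSucc (nat_lit 307414949),Int.negSucc (nat_lit 151542505),Int.negSucc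 (nat_lit 136543391),Int.negSucc (nat_lit 113513992),Int.negSucc (nat_lit 16253672),Int.negSucc (nat_lit 85490997),Int.negSucc (nat_lit 30621475),Int.ofNat (nat_lit 132728122),Int.ofNat (nat_lit 474089234),Int.negSucc (nat_lit 247057952),Int.negSucc (nat_lit 71824040),Int.negSucc (nat_lit 221079506),Int.ofNat (nat_lit 3257477),Int.ofNat (nat_lit 105261177),Int.negSucc (nat_lit 10677255),Int.negSucc (nat_lit 104079685),Int.negSucc (nat_lit 95952157),Int.negSucc (nat_lit 35661855),Int.negSucc (nat_lit 240220020),Int.negSucc (nat_lit 68941156),Int.negSucc (nat_lit 12803619),Int.negSucc (nat_lit 50410929),Int.ofNat (nat_lit 167919933),Int.ofNat (nat_lit 98275902),Int.ofNat (nat_lit 368720360),Int.ofNat (nat_lit 290852850),Int.negSucc (nat_lit 136342978),Int.ofNat (nat_lit 47445931),Int.ofNat (nat_lit 47843550),Int.ofNat (nat_lit 7262223),Int.ofNat (nat_lit 109217014),Int.negSucc (nat_lit 8098294),Int.ofNat (nat_lit 264228170),Int.negSucc (nat_lit 130719968),Int.negSucc (nat_lit 203288346),Int.negSucc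 (nat_lit 47665451),Int.ofNat (nat_lit 59209169),Int.ofNat (nat_lit 169258826),Int.ofNat (nat_lit 93441712),Int.negSucc (nat_lit 108020278),Int.ofNat (nat_lit 109051761),Int.negSucc (nat_lit 128112515),Int.negSucc (nat_lit 94715185),Int.ofNat (nat_lit 133737832),Int.ofNat (nat_lit 6196490),Int.negSucc (nat_lit 157552747),Int.negSucc (nat_lit 198973046),Int.ofNat (nat_lit 60782502),Int.negSucc (nat_lit 102106356),Int.negSucc (nat_lit 13323441),Int.negSucc (nat_lit 6253361),Int.negSucc (nat_lit 87493870),Int.ofNat (nat_lit 215093111),Int.ofNat (nat_lit 6098849),Int.ofNat (nat_lit 43515940),Int.negSucc (nat_lit 20154126),Int.ofNat (nat_lit 97312409),Int.negSucc (nat_lit 50051746),Int.ofNat (nat_lit 16606956),Int.ofNat (nat_lit 443749714),Int.negSucc (nat_lit 294140645),Int.negSucc (nat_lit 22690197),Int.negSucc (nat_lit 38721006),Int.negSucc (nat_lit 35093081),Int.negSucc (nat_lit 89949555),Int.negSucc (nat_lit 40399696),Int.ofNat (nat_lit 42829425),Int.ofNat (nat_lit 42377608),Int.ofNat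 (nat_lit 22387114),Int.ofNat (nat_lit 49902890),Int.negSucc (nat_lit 86768172),Int.ofNat (nat_lit 86299460),Int.ofNat (nat_lit 32554177),Int.negSucc (nat_lit 40261174),Int.negSucc (nat_lit 20391686),Int.negSucc (nat_lit 62688704),Int.negSucc (nat_lit 642648),Int.negSucc (nat_lit 12724521),Int.ofNat (nat_lit 13301253),Int.ofNat (nat_lit 18178325),Int.ofNat (nat_lit 107976977),Int.ofNat (nat_lit 30283851),Int.negSucc (nat_lit 15131700),Int.ofNat (nat_lit 17382381),Int.negSucc (nat_lit 14184989),Int.ofNat (nat_lit 28621651),Int.negSucc (nat_lit 11788452),Int.negSucc (nat_lit 35591770),Int.ofNat (nat_lit 50371307),Int.ofNat (nat_lit 34641051),Int.negSucc (nat_lit 4664826),Int.ofNat (nat_lit 7582009),Int.negSucc (nat_lit 50605976),Int.negSucc (nat_lit 15836658),Int.negSucc (nat_lit 16222929),Int.negSucc (nat_lit 24663049),Int.negSucc (nat_lit 61165710),Int.ofNat (nat_lit 37178812),Int.negSucc (nat_lit 51167586),Int.ofNat (nat_lit 51947513),Int.ofNat (nat_lit 61906736),Int.ofNat (nat_lit 18004725),Int.ofNat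 (nat_lit 15217337),Int.negSucc (nat_lit 14376961),Int.negSucc (nat_lit 25349602),Int.negSucc (nat_lit 32759112),Int.ofNat (nat_lit 9416234),Int.ofNat (nat_lit 158295),Int.negSucc (nat_lit 3900589),Int.ofNat (nat_lit 18984992),Int.ofNat (nat_lit 59992367),Int.negSucc (nat_lit 4484964),Int.negSucc (nat_lit 22765490),Int.negSucc (nat_lit 2948950),Int.negSucc (nat_lit 4220430),Int.negSucc (nat_lit 50059600),Int.negSucc (nat_lit 112829974),Int.negSucc (nat_lit 22356956),Int.ofNat (nat_lit 6279613),Int.negSucc (nat_lit 29596953),Int.ofNat (nat_lit 13139739),Int.negSucc (nat_lit 7379760),Int.ofNat (nat_lit 140016775),Int.negSucc (nat_lit 70102756),Int.ofNat (nat_lit 28967687),Int.ofNat (nat_lit 49650157),Int.negSucc (nat_lit 178396509),Int.negSucc (nat_lit 8857379),Int.negSucc (nat_lit 699606),Int.ofNat (nat_lit 74931073),Int.negSucc (nat_lit 39230268),Int.negSucc (nat_lit 11504804),Int.ofNat (nat_lit 30050623),Int.ofNat (nat_lit 82604886),Int.negSucc (nat_lit 24806922),Int.ofNat (nat_lit 26677394),Int.ofNat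 (nat_lit 35427092),Int.negSucc (nat_lit 34926985),Int.negSucc (nat_lit 8530410),Int.negSucc (nat_lit 19416523),Int.negSucc (nat_lit 25590957),Int.ofNat (nat_lit 139704),Int.ofNat (nat_lit 11475325),Int.negSucc (nat_lit 57607554),Int.negSucc (nat_lit 6444674),Int.negSucc (nat_lit 57750426),Int.ofNat (nat_lit 11281555),Int.negSucc (nat_lit 110026723),Int.ofNat (nat_lit 18527499),Int.ofNat (nat_lit 12888685),Int.negSucc (nat_lit 15974626),Int.ofNat (nat_lit 13128966),Int.negSucc (nat_lit 9083122),Int.negSucc (nat_lit 43674994),Int.ofNat (nat_lit 50152273),Int.negSucc (nat_lit 15268906),Int.ofNat (nat_lit 33713216),Int.ofNat (nat_lit 17818920),Int.ofNat (nat_lit 108005032),Int.ofNat (nat_lit 26865081),Int.negSucc (nat_lit 63702738),Int.ofNat (nat_lit 82169130),Int.negSucc (nat_lit 103663283),Int.ofNat (nat_lit 55445509),Int.negSucc (nat_lit 82259752),Int.ofNat (nat_lit 50658898),Int.negSucc (nat_lit 1713356),Int.ofNat (nat_lit 35476817),Int.ofNat (nat_lit 30995484),Int.ofNat (nat_lit 1044259),Int.negSucc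 (nat_lit 27607914),Int.ofNat (nat_lit 3890765),Int.negSucc (nat_lit 11379792),Int.negSucc (nat_lit 66544918),Int.ofNat (nat_lit 3811510),Int.ofNat (nat_lit 463352),Int.negSucc (nat_lit 7723626),Int.negSucc (nat_lit 23968075),Int.ofNat (nat_lit 5352889),Int.negSucc (nat_lit 7048501),Int.ofNat (nat_lit 14597437),Int.negSucc (nat_lit 6104308),Int.negSucc (nat_lit 15940211),Int.ofNat (nat_lit 5113172),Int.negSucc (nat_lit 40959218),Int.negSucc (nat_lit 25027695),Int.ofNat (nat_lit 10549804),Int.ofNat (nat_lit 30169995),Int.negSucc (nat_lit 20747711),Int.negSucc (nat_lit 4787607),Int.ofNat (nat_lit 20891246),Int.negSucc (nat_lit 30337626),Int.negSucc (nat_lit 12988267),Int.ofNat (nat_lit 35407888),Int.negSucc (nat_lit 24319522),Int.negSucc (nat_lit 6007939),Int.negSucc (nat_lit 12784241),Int.ofNat (nat_lit 23024450),Int.ofNat (nat_lit 29564696),Int.ofNat (nat_lit 14726117),Int.negSucc (nat_lit 50135906),Int.ofNat (nat_lit 389826311),Int.negSucc (nat_lit 185384577),Int.ofNat (nat_lit 220066614),Int.ofNat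 (nat_lit 64872825),Int.negSucc (nat_lit 96185201),Int.negSucc (nat_lit 311120524),Int.negSucc (nat_lit 66836953),Int.negSucc (nat_lit 70395659),Int.ofNat (nat_lit 80996883),Int.ofNat (nat_lit 44446042),Int.ofNat (nat_lit 19943162),Int.negSucc (nat_lit 168457957),Int.ofNat (nat_lit 37778082),Int.negSucc (nat_lit 229288035),Int.negSucc (nat_lit 3943703),Int.negSucc (nat_lit 17187096),Int.ofNat (nat_lit 2144440),Int.ofNat (nat_lit 42080111)])

/-- A row. -/
noncomputable def sr6_c4_18 : List ℕ × List ℤ :=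
  ([(nat_lit 2),(nat_lit 2),(nat_lit 0),(nat_lit 0),(nat_lit 0),(nat_lit 0),(nat_lit 0),(nat_lit 0),(nat_lit 0),(nat_lit 0),(nat_lit 0),(nat_lit 0)], [Int.negSucc (nat_lit 523638644),Int.negSucc (nat_lit 1119568124),Int.ofNat (nat_lit 505174842),Int.ofNat (nat_lit 633557727),Int.negSucc (nat_lit 813148198),Int.negSucc (nat_lit 648300679),Int.ofNat (nat_lit 372614078),Int.ofNat (nat_lit 896041478),Int.negSucc (nat_lit 374336913),Int.ofNat (nat_lit 2017910655),Int.negSucc (nat_lit 645097395),Int.negSucc (nat_lit 1144976298),Int.ofNat (nat_lit 18794424),Int.negSucc (nat_lit 234893334),Int.negSucc (nat_lit 96184270),Int.negSucc (nat_lit 50062908),Int.ofNat (nat_lit 553857700),Int.ofNat (nat_lit 868266079),Int.negSucc (nat_lit 52559031),Int.negSucc (nat_lit 176465163),Int.negSucc (nat_lit 449255050),Int.ofNat (nat_lit 973598512),Int.negSucc (nat_lit 608492889),Int.ofNat (nat_lit 302223040),Int.ofNat (nat_lit 238293852),Int.negSucc (nat_lit 661879346),Int.ofNat (nat_lit 168330128),Int.negSucc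 (nat_lit 360848076),Int.ofNat (nat_lit 173323938),Int.ofNat (nat_lit 390693211),Int.ofNat (nat_lit 114339929),Int.negSucc (nat_lit 191692917),Int.negSucc (nat_lit 164008091),Int.negSucc (nat_lit 303217021),Int.negSucc (nat_lit 111280567),Int.ofNat (nat_lit 62119697),Int.negSucc (nat_lit 214064670),Int.negSucc (nat_lit 208762277),Int.ofNat (nat_lit 57191495),Int.ofNat (nat_lit 94944771),Int.ofNat (nat_lit 87495600),Int.ofNat (nat_lit 233182182),Int.negSucc (nat_lit 50690112),Int.ofNat (nat_lit 285969342),Int.negSucc (nat_lit 19501697),Int.negSucc (nat_lit 1182078),Int.ofNat (nat_lit 560964767),Int.ofNat (nat_lit 257385024),Int.negSucc (nat_lit 478476867),Int.negSucc (nat_lit 67323933),Int.negSucc (nat_lit 92820669),Int.negSucc (nat_lit 56327442),Int.negSucc (nat_lit 155234213),Int.negSucc (nat_lit 279294665),Int.negSucc (nat_lit 628896289),Int.ofNat (nat_lit 609048402),Int.negSucc (nat_lit 397905689),Int.negSucc (nat_lit 267229086),Int.negSucc (nat_lit 599733399),Int.ofNat (nat_lit 263061944),Int.negSucc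 (nat_lit 558344603),Int.negSucc (nat_lit 185612684),Int.ofNat (nat_lit 43443224),Int.negSucc (nat_lit 106044112),Int.ofNat (nat_lit 108770572),Int.ofNat (nat_lit 195246216),Int.negSucc (nat_lit 82822814),Int.negSucc (nat_lit 400433178),Int.negSucc (nat_lit 281590557),Int.ofNat (nat_lit 182734399),Int.negSucc (nat_lit 98455041),Int.negSucc (nat_lit 33815987),Int.ofNat (nat_lit 176868717),Int.ofNat (nat_lit 403934600),Int.negSucc (nat_lit 128247537),Int.negSucc (nat_lit 462591667),Int.negSucc (nat_lit 154315439),Int.negSucc (nat_lit 136692683),Int.ofNat (nat_lit 246953028),Int.negSucc (nat_lit 50154601),Int.negSucc (nat_lit 81841372),Int.negSucc (nat_lit 22583199),Int.ofNat (nat_lit 36579911),Int.ofNat (nat_lit 111924291),Int.ofNat (nat_lit 263935079),Int.negSucc (nat_lit 213076199),Int.negSucc (nat_lit 109949344),Int.negSucc (nat_lit 55845328),Int.ofNat (nat_lit 178165168),Int.ofNat (nat_lit 698979),Int.ofNat (nat_lit 61536182),Int.ofNat (nat_lit 77282337),Int.ofNat (nat_lit 145011037),Int.ofNat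 (nat_lit 189099333),Int.negSucc (nat_lit 199453321),Int.negSucc (nat_lit 247193437),Int.ofNat (nat_lit 44620313),Int.negSucc (nat_lit 130428419),Int.negSucc (nat_lit 910581),Int.negSucc (nat_lit 207027924),Int.ofNat (nat_lit 86220104),Int.ofNat (nat_lit 144565875),Int.negSucc (nat_lit 161260126),Int.ofNat (nat_lit 17799388),Int.negSucc (nat_lit 100593826),Int.ofNat (nat_lit 39660458),Int.negSucc (nat_lit 136354333),Int.ofNat (nat_lit 76922676),Int.negSucc (nat_lit 95615966),Int.ofNat (nat_lit 24102293),Int.ofNat (nat_lit 16374789),Int.negSucc (nat_lit 10218663),Int.ofNat (nat_lit 369130815),Int.ofNat (nat_lit 152879180),Int.negSucc (nat_lit 88792027),Int.ofNat (nat_lit 11160057),Int.negSucc (nat_lit 150491031),Int.negSucc (nat_lit 47489475),Int.negSucc (nat_lit 162296693),Int.negSucc (nat_lit 26608159),Int.negSucc (nat_lit 97980260),Int.ofNat (nat_lit 159836341),Int.ofNat (nat_lit 26534104),Int.ofNat (nat_lit 212738741),Int.ofNat (nat_lit 77955497),Int.ofNat (nat_lit 181112713),Int.ofNat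 (nat_lit 26333772),Int.negSucc (nat_lit 28584110),Int.negSucc (nat_lit 123810798),Int.negSucc (nat_lit 80516221),Int.negSucc (nat_lit 70305381),Int.negSucc (nat_lit 66962989),Int.ofNat (nat_lit 106417433),Int.negSucc (nat_lit 25677634),Int.negSucc (nat_lit 30144853),Int.ofNat (nat_lit 130698551),Int.negSucc (nat_lit 167675899),Int.ofNat (nat_lit 160895298),Int.negSucc (nat_lit 80106002),Int.ofNat (nat_lit 54789948),Int.ofNat (nat_lit 510590575),Int.ofNat (nat_lit 71996674),Int.ofNat (nat_lit 171831577),Int.ofNat (nat_lit 128898511),Int.ofNat (nat_lit 102402672),Int.ofNat (nat_lit 60590518),Int.ofNat (nat_lit 60073339),Int.ofNat (nat_lit 305089047),Int.ofNat (nat_lit 79514587),Int.negSucc (nat_lit 264313688),Int.negSucc (nat_lit 95654525),Int.negSucc (nat_lit 13500532),Int.negSucc (nat_lit 161788291),Int.negSucc (nat_lit 327818285),Int.negSucc (nat_lit 108904911),Int.negSucc (nat_lit 111931818),Int.ofNat (nat_lit 37546864),Int.negSucc (nat_lit 29946851),Int.negSucc (nat_lit 49417755),Int.negSucc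 (nat_lit 107335885),Int.ofNat (nat_lit 37023092),Int.ofNat (nat_lit 30162363),Int.ofNat (nat_lit 106948384),Int.ofNat (nat_lit 31134313),Int.negSucc (nat_lit 52150668),Int.ofNat (nat_lit 32907096),Int.ofNat (nat_lit 156855457),Int.negSucc (nat_lit 47311607),Int.negSucc (nat_lit 181721751),Int.ofNat (nat_lit 144795537),Int.ofNat (nat_lit 75558932),Int.ofNat (nat_lit 161799471),Int.negSucc (nat_lit 40670445),Int.negSucc (nat_lit 44828079),Int.negSucc (nat_lit 89634144),Int.negSucc (nat_lit 363498237),Int.negSucc (nat_lit 56867803),Int.ofNat (nat_lit 18131287),Int.negSucc (nat_lit 115852525),Int.ofNat (nat_lit 70067858),Int.ofNat (nat_lit 123144075),Int.negSucc (nat_lit 84130529),Int.negSucc (nat_lit 64714109),Int.negSucc (nat_lit 214176740),Int.negSucc (nat_lit 54352091),Int.ofNat (nat_lit 108963166),Int.ofNat (nat_lit 99585474),Int.negSucc (nat_lit 100839116),Int.negSucc (nat_lit 102455557),Int.negSucc (nat_lit 79101233),Int.negSucc (nat_lit 194097424),Int.ofNat (nat_lit 135530063),Int.ofNat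 (nat_lit 351542662),Int.negSucc (nat_lit 126595199),Int.ofNat (nat_lit 110717179),Int.ofNat (nat_lit 12657137),Int.ofNat (nat_lit 38469229),Int.ofNat (nat_lit 69546900),Int.negSucc (nat_lit 119958717),Int.ofNat (nat_lit 75430996),Int.ofNat (nat_lit 84158732),Int.negSucc (nat_lit 53220013),Int.negSucc (nat_lit 82757587),Int.negSucc (nat_lit 133838267),Int.negSucc (nat_lit 6086257),Int.ofNat (nat_lit 10881681),Int.ofNat (nat_lit 8723329),Int.negSucc (nat_lit 23700843),Int.ofNat (nat_lit 64042634),Int.ofNat (nat_lit 143217612),Int.negSucc (nat_lit 38438457),Int.ofNat (nat_lit 9273221),Int.ofNat (nat_lit 74183935),Int.negSucc (nat_lit 486141607),Int.negSucc (nat_lit 171514026),Int.negSucc (nat_lit 300528383),Int.ofNat (nat_lit 211337145),Int.ofNat (nat_lit 423007920),Int.negSucc (nat_lit 1303839322),Int.ofNat (nat_lit 299795299),Int.ofNat (nat_lit 1193494470),Int.ofNat (nat_lit 445122629),Int.negSucc (nat_lit 1766511399),Int.ofNat (nat_lit 458155039),Int.ofNat (nat_lit 217099547),Int.ofNat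 (nat_lit 380576109),Int.negSucc (nat_lit 531088356),Int.negSucc (nat_lit 693211666),Int.negSucc (nat_lit 1631861340),Int.ofNat (nat_lit 113968370),Int.ofNat (nat_lit 165606862),Int.ofNat (nat_lit 326022737)])

/-- A row. -/
noncomputable def sr6_c4_19 : List ℕ × List ℤ :=
  ([(nat_lit 3),(nat_lit 0),(nat_lit 0),(nat_lit 0),(nat_lit 0),(nat_lit 0),(nat_lit 0),(nat_lit 0),(nat_lit 0),(nat_lit 0),(nat_lit 0),(nat_lit 0)], [Int.negSucc (nat_lit 386223589),Int.ofNat (nat_lit 377735390),Int.ofNat (nat_lit 16211555),Int.ofNat (nat_lit 12896552),Int.ofNat (nat_lit 100309113),Int.negSucc (nat_lit 790381057),Int.ofNat (nat_lit 134188073),Int.negSucc (nat_lit 36899327),Int.ofNat (nat_lit 126098941),Int.ofNat (nat_lit 203204971),Int.ofNat (nat_lit 105014292),Int.ofNat (nat_lit 117203972),Int.negSucc (nat_lit 142122399),Int.negSucc (nat_lit 142671821),Int.negSucc (nat_lit 169936814),Int.negSucc (nat_lit 169820709),Int.ofNat (nat_lit 270953246),Int.ofNat (nat_lit 15280022),Int.negSucc (nat_lit 129546607),Int.negSucc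 (nat_lit 122151838),Int.ofNat (nat_lit 388275476),Int.negSucc (nat_lit 457983556),Int.negSucc (nat_lit 68946464),Int.negSucc (nat_lit 431750354),Int.ofNat (nat_lit 31728662),Int.negSucc (nat_lit 33297976),Int.ofNat (nat_lit 24697662),Int.negSucc (nat_lit 235873396),Int.negSucc (nat_lit 178626457),Int.negSucc (nat_lit 103654),Int.negSucc (nat_lit 191549215),Int.negSucc (nat_lit 92623752),Int.ofNat (nat_lit 22520652),Int.negSucc (nat_lit 17241994),Int.ofNat (nat_lit 49124416),Int.ofNat (nat_lit 227937879),Int.ofNat (nat_lit 218910476),Int.ofNat (nat_lit 99400580),Int.ofNat (nat_lit 110264531),Int.ofNat (nat_lit 182120419),Int.negSucc (nat_lit 82524896),Int.ofNat (nat_lit 53568641),Int.negSucc (nat_lit 120333342),Int.negSucc (nat_lit 101039672),Int.ofNat (nat_lit 118411743),Int.ofNat (nat_lit 66464336),Int.ofNat (nat_lit 6463706),Int.negSucc (nat_lit 98981724),Int.negSucc (nat_lit 5268291),Int.ofNat (nat_lit 116404381),Int.ofNat (nat_lit 149396162),Int.negSucc (nat_lit 91661745),Int.ofNat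 (nat_lit 103312121),Int.negSucc (nat_lit 173384091),Int.negSucc (nat_lit 81405530),Int.ofNat (nat_lit 140773662),Int.negSucc (nat_lit 78953891),Int.ofNat (nat_lit 22179466),Int.negSucc (nat_lit 105354939),Int.ofNat (nat_lit 123591071),Int.ofNat (nat_lit 22610324),Int.ofNat (nat_lit 4134650),Int.ofNat (nat_lit 60366146),Int.negSucc (nat_lit 159780544),Int.negSucc (nat_lit 24486039),Int.negSucc (nat_lit 47650331),Int.ofNat (nat_lit 84279482),Int.negSucc (nat_lit 151203729),Int.negSucc (nat_lit 1654559),Int.negSucc (nat_lit 72258159),Int.ofNat (nat_lit 10908213),Int.ofNat (nat_lit 195660790),Int.negSucc (nat_lit 123990396),Int.negSucc (nat_lit 129904464),Int.negSucc (nat_lit 53816066),Int.ofNat (nat_lit 199118106),Int.negSucc (nat_lit 10861888),Int.ofNat (nat_lit 69390313),Int.ofNat (nat_lit 36382246),Int.ofNat (nat_lit 134493322),Int.ofNat (nat_lit 104433667),Int.ofNat (nat_lit 9803708),Int.negSucc (nat_lit 180918045),Int.negSucc (nat_lit 64875513),Int.negSucc (nat_lit 13916530),Int.ofNat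 (nat_lit 68854555),Int.ofNat (nat_lit 19551128),Int.negSucc (nat_lit 52383735),Int.ofNat (nat_lit 24793174),Int.ofNat (nat_lit 124848486),Int.ofNat (nat_lit 54876075),Int.ofNat (nat_lit 137644108),Int.ofNat (nat_lit 88999327),Int.ofNat (nat_lit 510504),Int.ofNat (nat_lit 12903922),Int.negSucc (nat_lit 11726368),Int.ofNat (nat_lit 90473122),Int.ofNat (nat_lit 106830066),Int.ofNat (nat_lit 42257608),Int.negSucc (nat_lit 89064086),Int.ofNat (nat_lit 55921565),Int.ofNat (nat_lit 124343636),Int.negSucc (nat_lit 1851390),Int.negSucc (nat_lit 35410466),Int.negSucc (nat_lit 51351027),Int.ofNat (nat_lit 4112303),Int.negSucc (nat_lit 105760813),Int.negSucc (nat_lit 116187263),Int.ofNat (nat_lit 37320591),Int.ofNat (nat_lit 30603215),Int.ofNat (nat_lit 137986603),Int.ofNat (nat_lit 98568129),Int.ofNat (nat_lit 71661337),Int.ofNat (nat_lit 19340756),Int.negSucc (nat_lit 18610585),Int.ofNat (nat_lit 18682352),Int.ofNat (nat_lit 39777508),Int.negSucc (nat_lit 33143501),Int.ofNat (nat_lit 26398899),Int.negSucc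 (nat_lit 25634675),Int.ofNat (nat_lit 68808328),Int.negSucc (nat_lit 18307987),Int.ofNat (nat_lit 88447723),Int.ofNat (nat_lit 87597860),Int.negSucc (nat_lit 42762993),Int.negSucc (nat_lit 41002384),Int.ofNat (nat_lit 36018818),Int.ofNat (nat_lit 26348044),Int.negSucc (nat_lit 60880379),Int.ofNat (nat_lit 37831663),Int.negSucc (nat_lit 37829661),Int.ofNat (nat_lit 3176177),Int.negSucc (nat_lit 6381856),Int.negSucc (nat_lit 37385080),Int.negSucc (nat_lit 47743375),Int.negSucc (nat_lit 67740952),Int.ofNat (nat_lit 56055705),Int.ofNat (nat_lit 88540811),Int.negSucc (nat_lit 107764387),Int.negSucc (nat_lit 93643629),Int.negSucc (nat_lit 66713059),Int.ofNat (nat_lit 167156340),Int.negSucc (nat_lit 54117547),Int.ofNat (nat_lit 12049236),Int.ofNat (nat_lit 36598240),Int.ofNat (nat_lit 26672141),Int.negSucc (nat_lit 44888806),Int.negSucc (nat_lit 24823395),Int.ofNat (nat_lit 8702700),Int.negSucc (nat_lit 90609554),Int.negSucc (nat_lit 63175246),Int.negSucc (nat_lit 4406837),Int.ofNat (nat_lit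 2169378),Int.negSucc (nat_lit 35756724),Int.negSucc (nat_lit 2564690),Int.negSucc (nat_lit 106661401),Int.negSucc (nat_lit 16437079),Int.negSucc (nat_lit 58334356),Int.ofNat (nat_lit 100354087),Int.negSucc (nat_lit 66041964),Int.negSucc (nat_lit 63503143),Int.ofNat (nat_lit 109364466),Int.ofNat (nat_lit 61856275),Int.ofNat (nat_lit 26527789),Int.negSucc (nat_lit 26270071),Int.negSucc (nat_lit 134628243),Int.ofNat (nat_lit 3934802),Int.negSucc (nat_lit 48796321),Int.negSucc (nat_lit 22038151),Int.ofNat (nat_lit 16163006),Int.ofNat (nat_lit 8219692),Int.negSucc (nat_lit 17274256),Int.negSucc (nat_lit 64053544),Int.ofNat (nat_lit 55338019),Int.negSucc (nat_lit 28094586),Int.negSucc (nat_lit 63585387),Int.negSucc (nat_lit 59022195),Int.ofNat (nat_lit 64424060),Int.ofNat (nat_lit 90015989),Int.negSucc (nat_lit 13575893),Int.negSucc (nat_lit 79862369),Int.negSucc (nat_lit 4129520),Int.negSucc (nat_lit 157545479),Int.ofNat (nat_lit 106733589),Int.ofNat (nat_lit 119854273),Int.negSucc (nat_lit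 18983542),Int.ofNat (nat_lit 90085274),Int.negSucc (nat_lit 73069554),Int.ofNat (nat_lit 9063417),Int.ofNat (nat_lit 22752667),Int.ofNat (nat_lit 28931395),Int.negSucc (nat_lit 23101315),Int.negSucc (nat_lit 67752979),Int.negSucc (nat_lit 39363761),Int.ofNat (nat_lit 16438575),Int.ofNat (nat_lit 30306702),Int.negSucc (nat_lit 57182295),Int.ofNat (nat_lit 37754749),Int.ofNat (nat_lit 43585255),Int.negSucc (nat_lit 73706492),Int.ofNat (nat_lit 2999625),Int.ofNat (nat_lit 3198629),Int.ofNat (nat_lit 53128079),Int.negSucc (nat_lit 22082652),Int.negSucc (nat_lit 94298547),Int.ofNat (nat_lit 2779570),Int.negSucc (nat_lit 31079043),Int.negSucc (nat_lit 41823400),Int.negSucc (nat_lit 44252307),Int.ofNat (nat_lit 8872642),Int.negSucc (nat_lit 1233253),Int.negSucc (nat_lit 38667082),Int.ofNat (nat_lit 19992921),Int.ofNat (nat_lit 520741024),Int.negSucc (nat_lit 191835069),Int.negSucc (nat_lit 8970448),Int.ofNat (nat_lit 172464120),Int.ofNat (nat_lit 97294580),Int.negSucc (nat_lit 342675226),Int.ofNat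 (nat_lit 172220798),Int.ofNat (nat_lit 154633115),Int.ofNat (nat_lit 314719661),Int.ofNat (nat_lit 163015425),Int.ofNat (nat_lit 108108397),Int.ofNat (nat_lit 891715773),Int.ofNat (nat_lit 296535162),Int.negSucc (nat_lit 709110076),Int.negSucc (nat_lit 28682708),Int.ofNat (nat_lit 567620436),Int.negSucc (nat_lit 608787523),Int.ofNat (nat_lit 39045349),Int.negSucc (nat_lit 81453736),Int.ofNat (nat_lit 59135175)])

/-- A row. -/
noncomputable def sr6_c4_20 : List ℕ × List ℤ :=
  ([(nat_lit 4),(nat_lit 0),(nat_lit 0),(nat_lit 0),(nat_lit 0),(nat_lit 0),(nat_lit 0),(nat_lit 0),(nat_lit 0),(nat_lit 0),(nat_lit 0),(nat_lit 0)], [Int.ofNat (nat_lit 459541545),Int.negSucc (nat_lit 284090399),Int.negSucc (nat_lit 567366458),Int.negSucc (nat_lit 410615261),Int.ofNat (nat_lit 885172446),Int.ofNat (nat_lit 1039754165),Int.negSucc (nat_lit 249393248),Int.ofNat (nat_lit 329907853),Int.negSucc (nat_lit 424036204),Int.negSucc (nat_lit 98216567),Int.negSucc (nat_lit 351069286),Int.negSucc (nat_lit 20621789),Int.ofNat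 (nat_lit 128871047),Int.ofNat (nat_lit 162479951),Int.ofNat (nat_lit 179120465),Int.ofNat (nat_lit 77509394),Int.negSucc (nat_lit 231682362),Int.ofNat (nat_lit 88521352),Int.ofNat (nat_lit 60017468),Int.negSucc (nat_lit 58257423),Int.negSucc (nat_lit 457077127),Int.ofNat (nat_lit 314569558),Int.ofNat (nat_lit 89093399),Int.ofNat (nat_lit 314273657),Int.ofNat (nat_lit 28336737),Int.ofNat (nat_lit 48848390),Int.ofNat (nat_lit 16048414),Int.ofNat (nat_lit 100053053),Int.ofNat (nat_lit 173697464),Int.negSucc (nat_lit 64674093),Int.ofNat (nat_lit 203544655),Int.ofNat (nat_lit 152292479),Int.negSucc (nat_lit 11809163),Int.ofNat (nat_lit 13635489),Int.negSucc (nat_lit 35086241),Int.negSucc (nat_lit 133554234),Int.negSucc (nat_lit 465986622),Int.negSucc (nat_lit 261933848),Int.negSucc (nat_lit 120975164),Int.negSucc (nat_lit 115408459),Int.ofNat (nat_lit 30412735),Int.negSucc (nat_lit 134940034),Int.negSucc (nat_lit 76577169),Int.negSucc (nat_lit 73809488),Int.negSucc (nat_lit 168188423),Int.ofNat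 (nat_lit 106659673),Int.ofNat (nat_lit 203309905),Int.ofNat (nat_lit 89209610),Int.negSucc (nat_lit 5846375),Int.negSucc (nat_lit 189974360),Int.negSucc (nat_lit 175918393),Int.ofNat (nat_lit 128011871),Int.negSucc (nat_lit 96026033),Int.ofNat (nat_lit 243508638),Int.ofNat (nat_lit 173857111),Int.negSucc (nat_lit 121334460),Int.ofNat (nat_lit 41887797),Int.ofNat (nat_lit 183372585),Int.ofNat (nat_lit 224152078),Int.negSucc (nat_lit 67745275),Int.ofNat (nat_lit 23148637),Int.negSucc (nat_lit 5398441),Int.negSucc (nat_lit 2239638),Int.ofNat (nat_lit 259017405),Int.negSucc (nat_lit 194095664),Int.ofNat (nat_lit 48699720),Int.negSucc (nat_lit 60886128),Int.ofNat (nat_lit 54592318),Int.negSucc (nat_lit 83250149),Int.ofNat (nat_lit 92950504),Int.negSucc (nat_lit 28535801),Int.negSucc (nat_lit 514692945),Int.ofNat (nat_lit 345880331),Int.ofNat (nat_lit 48395178),Int.ofNat (nat_lit 43487092),Int.negSucc (nat_lit 96871692),Int.ofNat (nat_lit 59911035),Int.ofNat (nat_lit 10132233),Int.negSucc (nat_lit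 47900082),Int.negSucc (nat_lit 93174925),Int.negSucc (nat_lit 77949058),Int.negSucc (nat_lit 33702436),Int.ofNat (nat_lit 167119685),Int.negSucc (nat_lit 49255857),Int.ofNat (nat_lit 5278469),Int.negSucc (nat_lit 1840562),Int.ofNat (nat_lit 6954428),Int.ofNat (nat_lit 50139497),Int.negSucc (nat_lit 7191292),Int.negSucc (nat_lit 23597889),Int.negSucc (nat_lit 45243372),Int.negSucc (nat_lit 83276047),Int.negSucc (nat_lit 139729833),Int.negSucc (nat_lit 31356747),Int.ofNat (nat_lit 3507117),Int.negSucc (nat_lit 15242002),Int.negSucc (nat_lit 15620616),Int.negSucc (nat_lit 82505762),Int.negSucc (nat_lit 7059541),Int.ofNat (nat_lit 98998045),Int.negSucc (nat_lit 59998287),Int.negSucc (nat_lit 104256701),Int.ofNat (nat_lit 1965268),Int.ofNat (nat_lit 30798830),Int.ofNat (nat_lit 74287236),Int.negSucc (nat_lit 14479274),Int.ofNat (nat_lit 37045894),Int.ofNat (nat_lit 79774135),Int.ofNat (nat_lit 25654950),Int.negSucc (nat_lit 56061957),Int.negSucc (nat_lit 16444228),Int.negSucc (nat_lit 107704429),Int.negSucc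 (nat_lit 92171490),Int.negSucc (nat_lit 17528130),Int.negSucc (nat_lit 2343189),Int.ofNat (nat_lit 9990540),Int.negSucc (nat_lit 11870356),Int.ofNat (nat_lit 55798721),Int.negSucc (nat_lit 28064719),Int.ofNat (nat_lit 6033090),Int.negSucc (nat_lit 34637261),Int.ofNat (nat_lit 860888),Int.negSucc (nat_lit 80878273),Int.negSucc (nat_lit 38523236),Int.ofNat (nat_lit 75356937),Int.ofNat (nat_lit 37494553),Int.negSucc (nat_lit 10368963),Int.ofNat (nat_lit 21700042),Int.ofNat (nat_lit 122451378),Int.negSucc (nat_lit 11577517),Int.ofNat (nat_lit 20740628),Int.ofNat (nat_lit 33307416),Int.negSucc (nat_lit 18196207),Int.ofNat (nat_lit 48504450),Int.negSucc (nat_lit 96080631),Int.ofNat (nat_lit 93698753),Int.negSucc (nat_lit 69866877),Int.negSucc (nat_lit 75404481),Int.ofNat (nat_lit 232133591),Int.ofNat (nat_lit 29538665),Int.ofNat (nat_lit 25901185),Int.negSucc (nat_lit 129702423),Int.ofNat (nat_lit 79445256),Int.ofNat (nat_lit 8571428),Int.negSucc (nat_lit 37740071),Int.negSucc (nat_lit 51513001),Int.ofNat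 (nat_lit 51015551),Int.ofNat (nat_lit 35908160),Int.negSucc (nat_lit 28222936),Int.ofNat (nat_lit 79533443),Int.ofNat (nat_lit 31916408),Int.ofNat (nat_lit 23397821),Int.ofNat (nat_lit 12913690),Int.ofNat (nat_lit 2958427),Int.negSucc (nat_lit 6661002),Int.ofNat (nat_lit 95780493),Int.ofNat (nat_lit 15607031),Int.ofNat (nat_lit 67721953),Int.negSucc (nat_lit 64984216),Int.ofNat (nat_lit 135108243),Int.ofNat (nat_lit 22289322),Int.negSucc (nat_lit 85807011),Int.negSucc (nat_lit 36603620),Int.negSucc (nat_lit 25817345),Int.ofNat (nat_lit 11212640),Int.ofNat (nat_lit 110471698),Int.negSucc (nat_lit 27329942),Int.ofNat (nat_lit 41939057),Int.negSucc (nat_lit 18261608),Int.negSucc (nat_lit 22878783),Int.negSucc (nat_lit 102153671),Int.ofNat (nat_lit 3625143),Int.ofNat (nat_lit 82304252),Int.negSucc (nat_lit 97167241),Int.ofNat (nat_lit 81940931),Int.negSucc (nat_lit 16743327),Int.ofNat (nat_lit 115144149),Int.negSucc (nat_lit 88591407),Int.negSucc (nat_lit 40600548),Int.negSucc (nat_lit 30921524),Int.ofNat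 (nat_lit 4194094),Int.negSucc (nat_lit 11968768),Int.ofNat (nat_lit 91553480),Int.negSucc (nat_lit 63883895),Int.negSucc (nat_lit 55274224),Int.ofNat (nat_lit 52447996),Int.negSucc (nat_lit 50136000),Int.ofNat (nat_lit 33444181),Int.negSucc (nat_lit 754170),Int.ofNat (nat_lit 6748186),Int.negSucc (nat_lit 10993405),Int.ofNat (nat_lit 23698144),Int.ofNat (nat_lit 27472263),Int.ofNat (nat_lit 18676878),Int.negSucc (nat_lit 2015707),Int.negSucc (nat_lit 22110013),Int.ofNat (nat_lit 57265648),Int.ofNat (nat_lit 13588395),Int.negSucc (nat_lit 36795032),Int.ofNat (nat_lit 22220761),Int.ofNat (nat_lit 19144801),Int.negSucc (nat_lit 11106205),Int.negSucc (nat_lit 45225954),Int.ofNat (nat_lit 28646920),Int.ofNat (nat_lit 49350913),Int.negSucc (nat_lit 36352747),Int.ofNat (nat_lit 35360905),Int.ofNat (nat_lit 11055815),Int.ofNat (nat_lit 31652605),Int.negSucc (nat_lit 14245224),Int.negSucc (nat_lit 18004487),Int.ofNat (nat_lit 20884976),Int.ofNat (nat_lit 21658548),Int.negSucc (nat_lit 496215453),Int.ofNat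 (nat_lit 215169778),Int.negSucc (nat_lit 188360980),Int.negSucc (nat_lit 108915270),Int.ofNat (nat_lit 175614036),Int.ofNat (nat_lit 331051241),Int.negSucc (nat_lit 73139823),Int.negSucc (nat_lit 16284921),Int.negSucc (nat_lit 281183694),Int.negSucc (nat_lit 135794362),Int.negSucc (nat_lit 87035033),Int.negSucc (nat_lit 209275858),Int.negSucc (nat_lit 142194685),Int.ofNat (nat_lit 527853666),Int.ofNat (nat_lit 4284541),Int.negSucc (nat_lit 308270806),Int.ofNat (nat_lit 383887850),Int.negSucc (nat_lit 79513366),Int.ofNat (nat_lit 77573831),Int.negSucc (nat_lit 66365735),Int.ofNat (nat_lit 7652348)])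

/-- A part of a triangular factor. -/
noncomputable def sr6_c4 : Rows :=
  [sr6_c4_0,
   sr6_c4_1,
   sr6_c4_2,
   sr6_c4_3,
   sr6_c4_4,
   sr6_c4_5,
   sr6_c4_6,
   sr6_c4_7,
   sr6_c4_8,
   sr6_c4_9,
   sr6_c4_10,
   sr6_c4_11,
   sr6_c4_12,
   sr6_c4_13,
   sr6_c4_14,
   sr6_c4_15,
   sr6_c4_16,
   sr6_c4_17,
   sr6_c4_18,
   sr6_c4_19,
   sr6_c4_20]

/-- A row. -/
noncomputable def sr6_c5_0 : List ℕ × List ℤ :=
  ([(nat_lit 0),(nat_lit 0),(nat_lit 0),(nat_lit 0),(nat_lit 0),(nat_lit 0),(nat_lit 0),(nat_lit 1),(nat_lit 0),(nat_lit 0),(nat_lit 0),(nat_lit 0)], [Int.negSucc (nat_lit 154025625),Int.ofNat (nat_lit 152021059),Int.ofNat (nat_lit 197841813),Int.ofNat (nat_lit 59518342),Int.negSucc (nat_lit 243854425),Int.ofNat (nat_lit 6324083),Int.negSucc (nat_lit 23117193),Int.negSucc (nat_lit 48513532),Int.ofNat (nat_lit 46118113),Int.ofNat (nat_lit 64025012),Int.ofNat (nat_lit 28211467),Int.negSucc (nat_lit 14461858),Int.ofNat (nat_lit 85094183),Int.negSucc (nat_lit 12554623),Int.ofNat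 (nat_lit 32829929),Int.ofNat (nat_lit 29799703),Int.ofNat (nat_lit 12560754),Int.ofNat (nat_lit 17766178),Int.ofNat (nat_lit 13341524),Int.negSucc (nat_lit 13724970),Int.negSucc (nat_lit 2228432),Int.ofNat (nat_lit 16963799),Int.ofNat (nat_lit 3716620),Int.ofNat (nat_lit 1168755),Int.negSucc (nat_lit 18199824),Int.negSucc (nat_lit 64872074),Int.negSucc (nat_lit 5176417),Int.ofNat (nat_lit 20675423),Int.negSucc (nat_lit 17518493),Int.ofNat (nat_lit 1318139),Int.ofNat (nat_lit 1329696),Int.negSucc (nat_lit 27217835),Int.ofNat (nat_lit 24965988),Int.ofNat (nat_lit 1413420),Int.negSucc (nat_lit 47685992),Int.ofNat (nat_lit 37137370),Int.ofNat (nat_lit 22860423),Int.negSucc (nat_lit 13188377),Int.ofNat (nat_lit 57420139),Int.ofNat (nat_lit 21470),Int.negSucc (nat_lit 6101178),Int.ofNat (nat_lit 36732535),Int.ofNat (nat_lit 7446657),Int.ofNat (nat_lit 61663477),Int.negSucc (nat_lit 32684290),Int.ofNat (nat_lit 509669),Int.negSucc (nat_lit 793341),Int.ofNat (nat_lit 505538),Int.negSucc (nat_lit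 15301453),Int.negSucc (nat_lit 1332322),Int.ofNat (nat_lit 13133371),Int.ofNat (nat_lit 2506990),Int.negSucc (nat_lit 29523972),Int.negSucc (nat_lit 31539309),Int.negSucc (nat_lit 14468083),Int.negSucc (nat_lit 16187900),Int.negSucc (nat_lit 4188455),Int.negSucc (nat_lit 7675117),Int.ofNat (nat_lit 4798051),Int.negSucc (nat_lit 11865588),Int.ofNat (nat_lit 10343256),Int.ofNat (nat_lit 5399354),Int.negSucc (nat_lit 3094128),Int.negSucc (nat_lit 25242292),Int.ofNat (nat_lit 1531630),Int.negSucc (nat_lit 1411634),Int.negSucc (nat_lit 9337985),Int.ofNat (nat_lit 2889946),Int.negSucc (nat_lit 13153337),Int.negSucc (nat_lit 8582207),Int.ofNat (nat_lit 47934),Int.negSucc (nat_lit 4883056),Int.negSucc (nat_lit 4007195),Int.ofNat (nat_lit 8907455),Int.negSucc (nat_lit 1569412),Int.ofNat (nat_lit 5818808),Int.negSucc (nat_lit 2033880),Int.ofNat (nat_lit 1939005),Int.ofNat (nat_lit 232069),Int.negSucc (nat_lit 2888552),Int.negSucc (nat_lit 2411471),Int.negSucc (nat_lit 1347518),Int.ofNat (nat_lit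 1617194),Int.ofNat (nat_lit 3359946),Int.ofNat (nat_lit 1666173),Int.negSucc (nat_lit 2195561),Int.ofNat (nat_lit 2601364),Int.negSucc (nat_lit 3741685),Int.negSucc (nat_lit 1432625),Int.negSucc (nat_lit 6024986),Int.negSucc (nat_lit 1291007),Int.negSucc (nat_lit 814011),Int.negSucc (nat_lit 1245497),Int.negSucc (nat_lit 148279),Int.negSucc (nat_lit 64424),Int.negSucc (nat_lit 4277280),Int.negSucc (nat_lit 1014395),Int.ofNat (nat_lit 437339),Int.ofNat (nat_lit 1077777),Int.negSucc (nat_lit 486798),Int.ofNat (nat_lit 1493233),Int.negSucc (nat_lit 839179),Int.negSucc (nat_lit 161065),Int.negSucc (nat_lit 2438967),Int.ofNat (nat_lit 4352645),Int.negSucc (nat_lit 1535448),Int.ofNat (nat_lit 1916515),Int.negSucc (nat_lit 1614169),Int.negSucc (nat_lit 8534630),Int.negSucc (nat_lit 1727364),Int.negSucc (nat_lit 3865930),Int.negSucc (nat_lit 899152),Int.ofNat (nat_lit 4749347),Int.ofNat (nat_lit 1468691),Int.ofNat (nat_lit 219689),Int.ofNat (nat_lit 225317),Int.ofNat (nat_lit 2608983),Int.negSucc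 (nat_lit 325063),Int.ofNat (nat_lit 1938330),Int.ofNat (nat_lit 1439807),Int.negSucc (nat_lit 2146537),Int.negSucc (nat_lit 275974),Int.negSucc (nat_lit 6451020),Int.negSucc (nat_lit 2201383),Int.ofNat (nat_lit 503088),Int.negSucc (nat_lit 2883729),Int.negSucc (nat_lit 2326719),Int.negSucc (nat_lit 889051),Int.ofNat (nat_lit 1693377),Int.ofNat (nat_lit 1874375),Int.negSucc (nat_lit 1635080),Int.ofNat (nat_lit 114955),Int.negSucc (nat_lit 188265),Int.negSucc (nat_lit 2942722),Int.ofNat (nat_lit 2214248),Int.ofNat (nat_lit 462966),Int.ofNat (nat_lit 746462),Int.negSucc (nat_lit 4953203),Int.negSucc (nat_lit 1054866),Int.ofNat (nat_lit 1112741),Int.negSucc (nat_lit 1010450),Int.negSucc (nat_lit 2069827),Int.ofNat (nat_lit 503516),Int.ofNat (nat_lit 1352385),Int.ofNat (nat_lit 1423433),Int.negSucc (nat_lit 2547682),Int.ofNat (nat_lit 1259477),Int.negSucc (nat_lit 4039484),Int.ofNat (nat_lit 9768297),Int.ofNat (nat_lit 4592906),Int.ofNat (nat_lit 2039807),Int.ofNat (nat_lit 877511),Int.negSucc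 (nat_lit 910379),Int.ofNat (nat_lit 729318),Int.ofNat (nat_lit 3174596),Int.ofNat (nat_lit 13866),Int.negSucc (nat_lit 1192532),Int.ofNat (nat_lit 2536036),Int.ofNat (nat_lit 2234561),Int.negSucc (nat_lit 6149471),Int.negSucc (nat_lit 2531415),Int.negSucc (nat_lit 720364),Int.negSucc (nat_lit 1591249),Int.negSucc (nat_lit 516062),Int.negSucc (nat_lit 1612089),Int.negSucc (nat_lit 1081418),Int.negSucc (nat_lit 1980514),Int.negSucc (nat_lit 2502814),Int.ofNat (nat_lit 552421),Int.negSucc (nat_lit 2653471),Int.ofNat (nat_lit 3864573),Int.ofNat (nat_lit 108520),Int.negSucc (nat_lit 2298962),Int.negSucc (nat_lit 6290348),Int.ofNat (nat_lit 2850925),Int.ofNat (nat_lit 694200),Int.negSucc (nat_lit 5347182),Int.negSucc (nat_lit 3571910),Int.ofNat (nat_lit 2151574),Int.negSucc (nat_lit 3003987),Int.ofNat (nat_lit 2827505),Int.negSucc (nat_lit 1732397),Int.ofNat (nat_lit 911729),Int.negSucc (nat_lit 2288238),Int.ofNat (nat_lit 486669),Int.ofNat (nat_lit 304908),Int.negSucc (nat_lit 65681),Int.ofNat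 (nat_lit 2639645),Int.ofNat (nat_lit 2198410),Int.ofNat (nat_lit 78040),Int.negSucc (nat_lit 1035971),Int.negSucc (nat_lit 564755),Int.negSucc (nat_lit 1253078),Int.negSucc (nat_lit 506392),Int.ofNat (nat_lit 1266190),Int.negSucc (nat_lit 191438),Int.ofNat (nat_lit 3847166),Int.ofNat (nat_lit 2991431),Int.ofNat (nat_lit 2275479),Int.ofNat (nat_lit 154125),Int.negSucc (nat_lit 550270),Int.ofNat (nat_lit 1114844),Int.negSucc (nat_lit 1212942),Int.ofNat (nat_lit 1604580),Int.ofNat (nat_lit 425876),Int.ofNat (nat_lit 1631967),Int.ofNat (nat_lit 1466451),Int.ofNat (nat_lit 726328),Int.ofNat (nat_lit 562577),Int.negSucc (nat_lit 1554015),Int.negSucc (nat_lit 459033),Int.negSucc (nat_lit 1377121),Int.negSucc (nat_lit 1107074),Int.negSucc (nat_lit 2858973),Int.negSucc (nat_lit 584390),Int.negSucc (nat_lit 700325),Int.negSucc (nat_lit 909776),Int.negSucc (nat_lit 436498),Int.negSucc (nat_lit 184036),Int.negSucc (nat_lit 1266882),Int.negSucc (nat_lit 2055812),Int.ofNat (nat_lit 54710),Int.negSucc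 (nat_lit 784093),Int.ofNat (nat_lit 366327),Int.ofNat (nat_lit 359052),Int.ofNat (nat_lit 875950),Int.negSucc (nat_lit 589297),Int.negSucc (nat_lit 303520),Int.negSucc (nat_lit 1155171),Int.ofNat (nat_lit 1238878),Int.ofNat (nat_lit 535567),Int.ofNat (nat_lit 2122251),Int.ofNat (nat_lit 2131499),Int.negSucc (nat_lit 1844471),Int.ofNat (nat_lit 45762708)])

/-- A row. -/
noncomputable def sr6_c5_1 : List ℕ × List ℤ :=
  ([(nat_lit 0),(nat_lit 0),(nat_lit 0),(nat_lit 0),(nat_lit 0),(nat_lit 1),(nat_lit 0),(nat_lit 0),(nat_lit 0),(nat_lit 0),(nat_lit 0),(nat_lit 0)], [Int.negSucc (nat_lit 134179039),Int.ofNat (nat_lit 458508310),Int.ofNat (nat_lit 48164057),Int.negSucc (nat_lit 205815740),Int.negSucc (nat_lit 3804117),Int.ofNat (nat_lit 4478878),Int.negSucc (nat_lit 36391828),Int.ofNat (nat_lit 105091218),Int.negSucc (nat_lit 120856620),Int.negSucc (nat_lit 32077842),Int.negSucc (nat_lit 115740308),Int.negSucc (nat_lit 135791612),Int.ofNat (nat_lit 67596229),Int.negSucc (nat_lit 7803960),Int.negSucc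 (nat_lit 35320020),Int.ofNat (nat_lit 6751124),Int.ofNat (nat_lit 47878163),Int.ofNat (nat_lit 22554814),Int.negSucc (nat_lit 6105752),Int.ofNat (nat_lit 25149011),Int.negSucc (nat_lit 103342614),Int.ofNat (nat_lit 115033305),Int.negSucc (nat_lit 30621419),Int.ofNat (nat_lit 142078211),Int.negSucc (nat_lit 15801817),Int.negSucc (nat_lit 75668551),Int.negSucc (nat_lit 14638141),Int.negSucc (nat_lit 12802469),Int.ofNat (nat_lit 67729214),Int.negSucc (nat_lit 20962435),Int.ofNat (nat_lit 79316674),Int.ofNat (nat_lit 23056397),Int.negSucc (nat_lit 16641558),Int.ofNat (nat_lit 4043369),Int.negSucc (nat_lit 94710592),Int.ofNat (nat_lit 30126451),Int.negSucc (nat_lit 102232986),Int.negSucc (nat_lit 109582667),Int.negSucc (nat_lit 83972816),Int.ofNat (nat_lit 23801036),Int.negSucc (nat_lit 2292194),Int.negSucc (nat_lit 1692848),Int.negSucc (nat_lit 14753501),Int.ofNat (nat_lit 5998693),Int.negSucc (nat_lit 32502417),Int.negSucc (nat_lit 13835034),Int.ofNat (nat_lit 32331369),Int.ofNat (nat_lit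 7609553),Int.ofNat (nat_lit 2526968),Int.negSucc (nat_lit 57126331),Int.ofNat (nat_lit 30536588),Int.ofNat (nat_lit 36672435),Int.negSucc (nat_lit 60171682),Int.ofNat (nat_lit 23556769),Int.negSucc (nat_lit 14307258),Int.negSucc (nat_lit 62810699),Int.negSucc (nat_lit 29754305),Int.ofNat (nat_lit 9053604),Int.ofNat (nat_lit 17718118),Int.negSucc (nat_lit 36858794),Int.ofNat (nat_lit 2908057),Int.ofNat (nat_lit 1080343),Int.ofNat (nat_lit 18401527),Int.negSucc (nat_lit 40039038),Int.ofNat (nat_lit 19135492),Int.ofNat (nat_lit 45547823),Int.negSucc (nat_lit 57817621),Int.negSucc (nat_lit 46214648),Int.negSucc (nat_lit 32630641),Int.ofNat (nat_lit 37290953),Int.negSucc (nat_lit 377755),Int.negSucc (nat_lit 4155180),Int.ofNat (nat_lit 66059820),Int.negSucc (nat_lit 2235911),Int.negSucc (nat_lit 10574531),Int.ofNat (nat_lit 5198250),Int.negSucc (nat_lit 955596),Int.negSucc (nat_lit 3086895),Int.ofNat (nat_lit 20650758),Int.negSucc (nat_lit 10687598),Int.ofNat (nat_lit 1454172),Int.negSucc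 (nat_lit 10185694),Int.ofNat (nat_lit 10668833),Int.negSucc (nat_lit 3273594),Int.ofNat (nat_lit 2472273),Int.negSucc (nat_lit 6132633),Int.negSucc (nat_lit 14303165),Int.negSucc (nat_lit 2864833),Int.ofNat (nat_lit 13261424),Int.negSucc (nat_lit 10159671),Int.ofNat (nat_lit 9164214),Int.negSucc (nat_lit 24321162),Int.ofNat (nat_lit 9867927),Int.ofNat (nat_lit 21441841),Int.ofNat (nat_lit 2564308),Int.ofNat (nat_lit 3344395),Int.negSucc (nat_lit 8523148),Int.negSucc (nat_lit 2695638),Int.negSucc (nat_lit 6192270),Int.negSucc (nat_lit 4037532),Int.negSucc (nat_lit 5304906),Int.negSucc (nat_lit 9184486),Int.negSucc (nat_lit 1307835),Int.ofNat (nat_lit 3036241),Int.negSucc (nat_lit 4125931),Int.negSucc (nat_lit 8474162),Int.negSucc (nat_lit 7828357),Int.ofNat (nat_lit 7970404),Int.negSucc (nat_lit 20499022),Int.negSucc (nat_lit 3779089),Int.negSucc (nat_lit 14189047),Int.negSucc (nat_lit 14045325),Int.ofNat (nat_lit 8084041),Int.ofNat (nat_lit 659122),Int.ofNat (nat_lit 3599042),Int.negSucc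 (nat_lit 73826),Int.negSucc (nat_lit 1532670),Int.ofNat (nat_lit 6346908),Int.negSucc (nat_lit 4501265),Int.negSucc (nat_lit 783747),Int.negSucc (nat_lit 2436393),Int.ofNat (nat_lit 2865167),Int.ofNat (nat_lit 2369798),Int.negSucc (nat_lit 16484988),Int.ofNat (nat_lit 13482301),Int.ofNat (nat_lit 2522139),Int.negSucc (nat_lit 5636633),Int.negSucc (nat_lit 18978207),Int.negSucc (nat_lit 10805533),Int.negSucc (nat_lit 10327984),Int.ofNat (nat_lit 340184),Int.negSucc (nat_lit 894267),Int.ofNat (nat_lit 8239548),Int.negSucc (nat_lit 2556488),Int.ofNat (nat_lit 2749620),Int.ofNat (nat_lit 3078746),Int.ofNat (nat_lit 7436548),Int.ofNat (nat_lit 23575386),Int.negSucc (nat_lit 20750044),Int.negSucc (nat_lit 6534065),Int.ofNat (nat_lit 15115426),Int.negSucc (nat_lit 20812085),Int.ofNat (nat_lit 9916874),Int.negSucc (nat_lit 1242302),Int.ofNat (nat_lit 1403203),Int.ofNat (nat_lit 3420900),Int.negSucc (nat_lit 6087672),Int.ofNat (nat_lit 16329662),Int.ofNat (nat_lit 17109181),Int.ofNat (nat_lit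 1608119),Int.ofNat (nat_lit 11699987),Int.ofNat (nat_lit 5718987),Int.ofNat (nat_lit 3673872),Int.negSucc (nat_lit 1875927),Int.negSucc (nat_lit 11979783),Int.ofNat (nat_lit 1398555),Int.ofNat (nat_lit 6455780),Int.ofNat (nat_lit 1447907),Int.negSucc (nat_lit 7478687),Int.negSucc (nat_lit 17362080),Int.ofNat (nat_lit 4130466),Int.negSucc (nat_lit 25058180),Int.ofNat (nat_lit 4529940),Int.negSucc (nat_lit 13061749),Int.ofNat (nat_lit 16239006),Int.ofNat (nat_lit 6780654),Int.negSucc (nat_lit 6337483),Int.negSucc (nat_lit 2790283),Int.ofNat (nat_lit 14391871),Int.ofNat (nat_lit 6358413),Int.negSucc (nat_lit 7986287),Int.negSucc (nat_lit 9323960),Int.ofNat (nat_lit 8010540),Int.ofNat (nat_lit 12954355),Int.negSucc (nat_lit 9616941),Int.ofNat (nat_lit 2217855),Int.negSucc (nat_lit 4379795),Int.ofNat (nat_lit 6078163),Int.negSucc (nat_lit 9881285),Int.ofNat (nat_lit 7242854),Int.ofNat (nat_lit 15086915),Int.negSucc (nat_lit 4819645),Int.ofNat (nat_lit 7520713),Int.negSucc (nat_lit 7148860),Int.negSucc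 (nat_lit 3587312),Int.ofNat (nat_lit 2475457),Int.negSucc (nat_lit 2232788),Int.ofNat (nat_lit 4711680),Int.ofNat (nat_lit 6415588),Int.ofNat (nat_lit 199072),Int.negSucc (nat_lit 8230039),Int.negSucc (nat_lit 775479),Int.ofNat (nat_lit 8719207),Int.ofNat (nat_lit 5688361),Int.negSucc (nat_lit 1100512),Int.ofNat (nat_lit 361416),Int.ofNat (nat_lit 9419767),Int.ofNat (nat_lit 9245496),Int.ofNat (nat_lit 13428368),Int.ofNat (nat_lit 1944465),Int.ofNat (nat_lit 1464065),Int.negSucc (nat_lit 436871),Int.negSucc (nat_lit 4742977),Int.ofNat (nat_lit 17835180),Int.ofNat (nat_lit 5939866),Int.negSucc (nat_lit 6198235),Int.ofNat (nat_lit 13514213),Int.ofNat (nat_lit 4184669),Int.ofNat (nat_lit 8155193),Int.ofNat (nat_lit 4622287),Int.ofNat (nat_lit 2127320),Int.ofNat (nat_lit 14694122),Int.negSucc (nat_lit 1825811),Int.negSucc (nat_lit 14865739),Int.negSucc (nat_lit 739876),Int.negSucc (nat_lit 20885703),Int.ofNat (nat_lit 11233163),Int.negSucc (nat_lit 1941844),Int.negSucc (nat_lit 7684263),Int.ofNat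 (nat_lit 10222608),Int.negSucc (nat_lit 5219602),Int.negSucc (nat_lit 14311619),Int.ofNat (nat_lit 3217784),Int.negSucc (nat_lit 1444745),Int.negSucc (nat_lit 8032015),Int.ofNat (nat_lit 9915861),Int.ofNat (nat_lit 1778826),Int.negSucc (nat_lit 4939048),Int.negSucc (nat_lit 5150700),Int.ofNat (nat_lit 1078932),Int.ofNat (nat_lit 1731763),Int.negSucc (nat_lit 3102851),Int.negSucc (nat_lit 10914558),Int.ofNat (nat_lit 2518642),Int.ofNat (nat_lit 18653793),Int.ofNat (nat_lit 143376321)])

/-- A row. -/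
noncomputable def sr6_c5_2 : List ℕ × List ℤ :=
  ([(nat_lit 0),(nat_lit 0),(nat_lit 0),(nat_lit 1),(nat_lit 0),(nat_lit 0),(nat_lit 0),(nat_lit 0),(nat_lit 0),(nat_lit 0),(nat_lit 0),(nat_lit 0)], [Int.ofNat (nat_lit 231113217),Int.ofNat (nat_lit 554407455),Int.negSucc (nat_lit 253630001),Int.negSucc (nat_lit 173260506),Int.ofNat (nat_lit 135654365),Int.ofNat (nat_lit 358405331),Int.negSucc (nat_lit 130254143),Int.ofNat (nat_lit 105249277),Int.negSucc (nat_lit 354597479),Int.negSucc (nat_lit 517811135),Int.negSucc (nat_lit 22237535),Int.negSucc (nat_lit 6590356),Int.negSucc (nat_lit 6320771),Int.ofNat (nat_lit 79916936),Int.ofNat (nat_lit 13520535),Int.negSucc (nat_lit 4126519),Int.negSucc (nat_lit 29868227),Int.negSucc (nat_lit 41008855),Int.negSucc (nat_lit 46208643),Int.ofNat (nat_lit 104152449),Int.negSucc (nat_lit 134328560),Int.ofNat (nat_lit 134705723),Int.ofNat (nat_lit 33143217),Int.ofNat (nat_lit 304730353),Int.negSucc (nat_lit 26423627),Int.ofNat (nat_lit 141031886),Int.negSucc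 (nat_lit 19839240),Int.ofNat (nat_lit 66173229),Int.ofNat (nat_lit 185162418),Int.negSucc (nat_lit 135900877),Int.ofNat (nat_lit 163665563),Int.ofNat (nat_lit 129541908),Int.negSucc (nat_lit 67879957),Int.ofNat (nat_lit 66950129),Int.negSucc (nat_lit 58602243),Int.negSucc (nat_lit 40204920),Int.negSucc (nat_lit 90059097),Int.negSucc (nat_lit 90020192),Int.negSucc (nat_lit 196229548),Int.negSucc (nat_lit 47654592),Int.ofNat (nat_lit 54160602),Int.ofNat (nat_lit 3651013),Int.negSucc (nat_lit 35519603),Int.negSucc (nat_lit 67557219),Int.ofNat (nat_lit 12170333),Int.negSucc (nat_lit 23907710),Int.negSucc (nat_lit 89474477),Int.ofNat (nat_lit 65360684),Int.ofNat (nat_lit 16148612),Int.negSucc (nat_lit 81246431),Int.ofNat (nat_lit 34000887),Int.ofNat (nat_lit 82842469),Int.ofNat (nat_lit 5474369),Int.ofNat (nat_lit 77337095),Int.ofNat (nat_lit 4910272),Int.negSucc (nat_lit 116262262),Int.negSucc (nat_lit 47135868),Int.negSucc (nat_lit 51106917),Int.ofNat (nat_lit 77511579),Int.negSucc (nat_lit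 61970120),Int.ofNat (nat_lit 14767262),Int.negSucc (nat_lit 11919029),Int.ofNat (nat_lit 49044734),Int.ofNat (nat_lit 90349270),Int.ofNat (nat_lit 104733667),Int.ofNat (nat_lit 67948606),Int.negSucc (nat_lit 89778579),Int.ofNat (nat_lit 35487561),Int.ofNat (nat_lit 29606696),Int.ofNat (nat_lit 26397361),Int.negSucc (nat_lit 18603688),Int.negSucc (nat_lit 21010662),Int.ofNat (nat_lit 24201128),Int.negSucc (nat_lit 84910129),Int.negSucc (nat_lit 10005179),Int.negSucc (nat_lit 30619356),Int.ofNat (nat_lit 2609231),Int.negSucc (nat_lit 16034163),Int.ofNat (nat_lit 15741737),Int.negSucc (nat_lit 48473603),Int.negSucc (nat_lit 67951587),Int.negSucc (nat_lit 15649551),Int.ofNat (nat_lit 63494911),Int.negSucc (nat_lit 26470755),Int.negSucc (nat_lit 61089079),Int.ofNat (nat_lit 6946267),Int.negSucc (nat_lit 16178009),Int.ofNat (nat_lit 24386509),Int.negSucc (nat_lit 1568890),Int.negSucc (nat_lit 40881599),Int.negSucc (nat_lit 26040846),Int.negSucc (nat_lit 68585477),Int.negSucc (nat_lit 21460129),Int.negSucc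 (nat_lit 14782857),Int.negSucc (nat_lit 15456179),Int.ofNat (nat_lit 1477251),Int.negSucc (nat_lit 13325621),Int.negSucc (nat_lit 22904904),Int.negSucc (nat_lit 6279979),Int.ofNat (nat_lit 24255052),Int.negSucc (nat_lit 48089783),Int.negSucc (nat_lit 32632850),Int.ofNat (nat_lit 12425008),Int.negSucc (nat_lit 8475709),Int.negSucc (nat_lit 16291035),Int.negSucc (nat_lit 26737299),Int.ofNat (nat_lit 69730274),Int.ofNat (nat_lit 25949356),Int.negSucc (nat_lit 25552031),Int.ofNat (nat_lit 8641611),Int.negSucc (nat_lit 17455940),Int.negSucc (nat_lit 46407995),Int.negSucc (nat_lit 35069041),Int.negSucc (nat_lit 20641158),Int.negSucc (nat_lit 25607248),Int.ofNat (nat_lit 44239292),Int.negSucc (nat_lit 28298943),Int.ofNat (nat_lit 22695655),Int.negSucc (nat_lit 11635142),Int.negSucc (nat_lit 3239635),Int.negSucc (nat_lit 1597291),Int.negSucc (nat_lit 11661525),Int.negSucc (nat_lit 15761229),Int.negSucc (nat_lit 21253226),Int.ofNat (nat_lit 19629964),Int.ofNat (nat_lit 31169004),Int.negSucc (nat_lit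 12539230),Int.negSucc (nat_lit 24859746),Int.ofNat (nat_lit 22091297),Int.negSucc (nat_lit 6538471),Int.ofNat (nat_lit 10573962),Int.ofNat (nat_lit 17627788),Int.negSucc (nat_lit 45148874),Int.ofNat (nat_lit 7659922),Int.negSucc (nat_lit 35060165),Int.ofNat (nat_lit 8165034),Int.negSucc (nat_lit 16286491),Int.negSucc (nat_lit 25321208),Int.ofNat (nat_lit 62194097),Int.ofNat (nat_lit 37407173),Int.negSucc (nat_lit 16859450),Int.negSucc (nat_lit 30240111),Int.negSucc (nat_lit 14964663),Int.negSucc (nat_lit 21375645),Int.ofNat (nat_lit 5190715),Int.negSucc (nat_lit 19969783),Int.negSucc (nat_lit 7659367),Int.ofNat (nat_lit 28527468),Int.negSucc (nat_lit 27604850),Int.ofNat (nat_lit 41147891),Int.ofNat (nat_lit 25303838),Int.ofNat (nat_lit 19645912),Int.ofNat (nat_lit 17901344),Int.ofNat (nat_lit 42648062),Int.negSucc (nat_lit 32051062),Int.ofNat (nat_lit 38770652),Int.ofNat (nat_lit 16402808),Int.ofNat (nat_lit 17362120),Int.negSucc (nat_lit 32483834),Int.ofNat (nat_lit 8942507),Int.ofNat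 (nat_lit 8270521),Int.negSucc (nat_lit 37521535),Int.negSucc (nat_lit 22796347),Int.negSucc (nat_lit 16017994),Int.negSucc (nat_lit 21040595),Int.ofNat (nat_lit 33380057),Int.negSucc (nat_lit 7365563),Int.ofNat (nat_lit 7815043),Int.ofNat (nat_lit 21570572),Int.negSucc (nat_lit 11024102),Int.negSucc (nat_lit 12095407),Int.negSucc (nat_lit 18276475),Int.ofNat (nat_lit 26788053),Int.negSucc (nat_lit 29784379),Int.ofNat (nat_lit 25601588),Int.ofNat (nat_lit 17037360),Int.ofNat (nat_lit 18483796),Int.negSucc (nat_lit 20597238),Int.ofNat (nat_lit 487238),Int.ofNat (nat_lit 3695917),Int.ofNat (nat_lit 35016986),Int.ofNat (nat_lit 21787154),Int.ofNat (nat_lit 15711244),Int.negSucc (nat_lit 9140232),Int.ofNat (nat_lit 4342171),Int.ofNat (nat_lit 21732585),Int.negSucc (nat_lit 14296474),Int.negSucc (nat_lit 2048150),Int.negSucc (nat_lit 5161148),Int.ofNat (nat_lit 5001992),Int.ofNat (nat_lit 6275135),Int.negSucc (nat_lit 6788656),Int.ofNat (nat_lit 1471562),Int.ofNat (nat_lit 29719367),Int.negSucc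 (nat_lit 12244376),Int.ofNat (nat_lit 1051432),Int.ofNat (nat_lit 11163550),Int.ofNat (nat_lit 1799374),Int.ofNat (nat_lit 36665386),Int.ofNat (nat_lit 8829954),Int.ofNat (nat_lit 17871670),Int.ofNat (nat_lit 2965667),Int.negSucc (nat_lit 17255259),Int.ofNat (nat_lit 14239179),Int.ofNat (nat_lit 21969415),Int.negSucc (nat_lit 11582547),Int.negSucc (nat_lit 2064267),Int.ofNat (nat_lit 35762093),Int.ofNat (nat_lit 9686949),Int.negSucc (nat_lit 4077225),Int.negSucc (nat_lit 14302101),Int.ofNat (nat_lit 2783295),Int.ofNat (nat_lit 27162222),Int.negSucc (nat_lit 59445708),Int.ofNat (nat_lit 10598487),Int.negSucc (nat_lit 72893168),Int.negSucc (nat_lit 26025813),Int.ofNat (nat_lit 14253622),Int.ofNat (nat_lit 19582568),Int.ofNat (nat_lit 18669608),Int.negSucc (nat_lit 78924751),Int.negSucc (nat_lit 31223082),Int.ofNat (nat_lit 20163999),Int.negSucc (nat_lit 5599564),Int.negSucc (nat_lit 11353593),Int.ofNat (nat_lit 4660378),Int.ofNat (nat_lit 50554),Int.ofNat (nat_lit 2182178),Int.negSucc (nat_lit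 18616387),Int.negSucc (nat_lit 16678871),Int.ofNat (nat_lit 7717),Int.ofNat (nat_lit 10774018),Int.ofNat (nat_lit 7917250),Int.negSucc (nat_lit 16962481),Int.negSucc (nat_lit 74894958),Int.ofNat (nat_lit 34566079),Int.ofNat (nat_lit 305989159)])

/-- A row. -/
noncomputable def sr6_c5_3 : List ℕ × List ℤ :=
  ([(nat_lit 0),(nat_lit 0),(nat_lit 1),(nat_lit 1),(nat_lit 0),(nat_lit 0),(nat_lit 0),(nat_lit 0),(nat_lit 0),(nat_lit 0),(nat_lit 0),(nat_lit 0)], [Int.ofNat (nat_lit 114441972),Int.negSucc (nat_lit 19890954),Int.negSucc (nat_lit 243074785),Int.negSucc (nat_lit 210210921),Int.ofNat (nat_lit 304195372),Int.negSucc (nat_lit 2448404),Int.negSucc (nat_lit 7283720),Int.ofNat (nat_lit 76634894),Int.negSucc (nat_lit 132586364),Int.negSucc (nat_lit 164670002),Int.negSucc (nat_lit 89661580),Int.negSucc (nat_lit 43484762),Int.negSucc (nat_lit 101477451),Int.ofNat (nat_lit 1282428),Int.negSucc (nat_lit 62627649),Int.negSucc (nat_lit 36985832),Int.negSucc (nat_lit 29153543),Int.negSucc (nat_lit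 16765460),Int.negSucc (nat_lit 31998740),Int.ofNat (nat_lit 30392607),Int.negSucc (nat_lit 6672841),Int.ofNat (nat_lit 12062357),Int.negSucc (nat_lit 17305997),Int.ofNat (nat_lit 81801779),Int.ofNat (nat_lit 8798158),Int.ofNat (nat_lit 50042124),Int.negSucc (nat_lit 11439748),Int.negSucc (nat_lit 23385675),Int.ofNat (nat_lit 49077676),Int.negSucc (nat_lit 27640690),Int.ofNat (nat_lit 42137918),Int.ofNat (nat_lit 45690369),Int.negSucc (nat_lit 31536629),Int.ofNat (nat_lit 8087105),Int.ofNat (nat_lit 16940012),Int.negSucc (nat_lit 31208443),Int.negSucc (nat_lit 65954331),Int.negSucc (nat_lit 24289165),Int.negSucc (nat_lit 143958449),Int.ofNat (nat_lit 13338297),Int.ofNat (nat_lit 20935802),Int.negSucc (nat_lit 49901465),Int.negSucc (nat_lit 8764253),Int.negSucc (nat_lit 72680096),Int.ofNat (nat_lit 53343679),Int.negSucc (nat_lit 12563542),Int.ofNat (nat_lit 8629584),Int.ofNat (nat_lit 5048351),Int.ofNat (nat_lit 27996996),Int.negSucc (nat_lit 27012647),Int.ofNat (nat_lit 11926200),Int.ofNat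 (nat_lit 22362001),Int.ofNat (nat_lit 17267218),Int.ofNat (nat_lit 51186554),Int.ofNat (nat_lit 2991366),Int.negSucc (nat_lit 37715436),Int.negSucc (nat_lit 15355594),Int.ofNat (nat_lit 8258262),Int.ofNat (nat_lit 11795368),Int.ofNat (nat_lit 363947),Int.negSucc (nat_lit 5587291),Int.negSucc (nat_lit 9403310),Int.ofNat (nat_lit 15484926),Int.ofNat (nat_lit 27660090),Int.ofNat (nat_lit 33606163),Int.ofNat (nat_lit 26392671),Int.negSucc (nat_lit 27527601),Int.negSucc (nat_lit 10853044),Int.ofNat (nat_lit 5201468),Int.ofNat (nat_lit 19510790),Int.negSucc (nat_lit 5007926),Int.ofNat (nat_lit 19641290),Int.ofNat (nat_lit 12047042),Int.negSucc (nat_lit 8612232),Int.negSucc (nat_lit 8862042),Int.ofNat (nat_lit 1644771),Int.negSucc (nat_lit 4253030),Int.ofNat (nat_lit 4113625),Int.ofNat (nat_lit 9337629),Int.negSucc (nat_lit 3865389),Int.negSucc (nat_lit 10314813),Int.ofNat (nat_lit 7968298),Int.ofNat (nat_lit 11153734),Int.negSucc (nat_lit 3146983),Int.ofNat (nat_lit 4366078),Int.ofNat (nat_lit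 3751571),Int.negSucc (nat_lit 8028498),Int.negSucc (nat_lit 670845),Int.ofNat (nat_lit 13716741),Int.negSucc (nat_lit 2603517),Int.ofNat (nat_lit 1089425),Int.negSucc (nat_lit 10232399),Int.negSucc (nat_lit 3866191),Int.ofNat (nat_lit 11731874),Int.ofNat (nat_lit 2570851),Int.ofNat (nat_lit 3417207),Int.ofNat (nat_lit 4570826),Int.negSucc (nat_lit 4731084),Int.negSucc (nat_lit 9048942),Int.negSucc (nat_lit 842575),Int.ofNat (nat_lit 8054390),Int.negSucc (nat_lit 9957152),Int.ofNat (nat_lit 669770),Int.ofNat (nat_lit 2678245),Int.negSucc (nat_lit 3586427),Int.negSucc (nat_lit 2934880),Int.ofNat (nat_lit 3095196),Int.ofNat (nat_lit 6263891),Int.negSucc (nat_lit 21791824),Int.ofNat (nat_lit 5390886),Int.negSucc (nat_lit 3331602),Int.negSucc (nat_lit 11754851),Int.ofNat (nat_lit 3019377),Int.negSucc (nat_lit 2835890),Int.negSucc (nat_lit 4144380),Int.ofNat (nat_lit 1851701),Int.negSucc (nat_lit 7888270),Int.ofNat (nat_lit 5297355),Int.negSucc (nat_lit 3730323),Int.negSucc (nat_lit 2678075),Int.negSucc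 (nat_lit 1523822),Int.ofNat (nat_lit 389467),Int.negSucc (nat_lit 989441),Int.negSucc (nat_lit 14198139),Int.ofNat (nat_lit 7637110),Int.ofNat (nat_lit 12713558),Int.negSucc (nat_lit 499159),Int.negSucc (nat_lit 24539937),Int.negSucc (nat_lit 6215379),Int.negSucc (nat_lit 9781029),Int.negSucc (nat_lit 1571729),Int.ofNat (nat_lit 2877284),Int.ofNat (nat_lit 5570093),Int.ofNat (nat_lit 2353119),Int.ofNat (nat_lit 4327919),Int.ofNat (nat_lit 3653583),Int.ofNat (nat_lit 14966865),Int.ofNat (nat_lit 9148363),Int.ofNat (nat_lit 7550145),Int.ofNat (nat_lit 8445419),Int.ofNat (nat_lit 4454672),Int.ofNat (nat_lit 432833),Int.ofNat (nat_lit 7815463),Int.negSucc (nat_lit 6770171),Int.ofNat (nat_lit 2347776),Int.ofNat (nat_lit 2448452),Int.ofNat (nat_lit 2084392),Int.ofNat (nat_lit 1245802),Int.ofNat (nat_lit 8615344),Int.ofNat (nat_lit 4840787),Int.ofNat (nat_lit 5962813),Int.ofNat (nat_lit 10040942),Int.negSucc (nat_lit 1131050),Int.ofNat (nat_lit 7490084),Int.negSucc (nat_lit 4619223),Int.negSucc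 (nat_lit 1311748),Int.ofNat (nat_lit 7413097),Int.negSucc (nat_lit 7365672),Int.negSucc (nat_lit 8489503),Int.negSucc (nat_lit 8987783),Int.ofNat (nat_lit 11057469),Int.negSucc (nat_lit 16214737),Int.negSucc (nat_lit 16908247),Int.negSucc (nat_lit 18124151),Int.ofNat (nat_lit 3587795),Int.ofNat (nat_lit 3557750),Int.ofNat (nat_lit 10841765),Int.negSucc (nat_lit 213217),Int.ofNat (nat_lit 4224036),Int.ofNat (nat_lit 8904587),Int.negSucc (nat_lit 4294528),Int.negSucc (nat_lit 5655655),Int.negSucc (nat_lit 2189617),Int.ofNat (nat_lit 11792459),Int.negSucc (nat_lit 17007825),Int.ofNat (nat_lit 16158259),Int.negSucc (nat_lit 4198533),Int.negSucc (nat_lit 7485241),Int.negSucc (nat_lit 5971450),Int.negSucc (nat_lit 1309272),Int.ofNat (nat_lit 9689657),Int.ofNat (nat_lit 358600),Int.negSucc (nat_lit 6000151),Int.ofNat (nat_lit 2154603),Int.ofNat (nat_lit 3487061),Int.ofNat (nat_lit 4921451),Int.ofNat (nat_lit 287541),Int.ofNat (nat_lit 1343114),Int.negSucc (nat_lit 490453),Int.ofNat (nat_lit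 2708285),Int.negSucc (nat_lit 4453371),Int.negSucc (nat_lit 1950397),Int.negSucc (nat_lit 522549),Int.ofNat (nat_lit 1090630),Int.negSucc (nat_lit 2995056),Int.negSucc (nat_lit 567959),Int.ofNat (nat_lit 1462316),Int.negSucc (nat_lit 1375458),Int.ofNat (nat_lit 11764858),Int.ofNat (nat_lit 4903623),Int.negSucc (nat_lit 2220883),Int.negSucc (nat_lit 4157421),Int.negSucc (nat_lit 4863443),Int.ofNat (nat_lit 3895910),Int.ofNat (nat_lit 6612545),Int.negSucc (nat_lit 4327611),Int.ofNat (nat_lit 10644688),Int.ofNat (nat_lit 4200742),Int.ofNat (nat_lit 8901918),Int.ofNat (nat_lit 737471),Int.negSucc (nat_lit 4045372),Int.ofNat (nat_lit 5524631),Int.ofNat (nat_lit 5168765),Int.negSucc (nat_lit 4875757),Int.negSucc (nat_lit 1751076),Int.negSucc (nat_lit 8348253),Int.ofNat (nat_lit 7362536),Int.negSucc (nat_lit 971238),Int.negSucc (nat_lit 1508511),Int.ofNat (nat_lit 223702),Int.negSucc (nat_lit 7953060),Int.negSucc (nat_lit 8809296),Int.ofNat (nat_lit 350045),Int.negSucc (nat_lit 149848),Int.negSucc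 (nat_lit 3245911),Int.ofNat (nat_lit 2959894),Int.ofNat (nat_lit 1988839),Int.ofNat (nat_lit 14116350),Int.negSucc (nat_lit 3957067),Int.ofNat (nat_lit 3744241),Int.negSucc (nat_lit 6413383),Int.ofNat (nat_lit 5536455),Int.negSucc (nat_lit 2682882),Int.negSucc (nat_lit 8600316),Int.negSucc (nat_lit 4666077),Int.ofNat (nat_lit 23503961),Int.ofNat (nat_lit 29975103),Int.ofNat (nat_lit 103596288)])

/-- A row. -/
noncomputable def sr6_c5_4 : List ℕ × List ℤ :=
  ([(nat_lit 0),(nat_lit 1),(nat_lit 0),(nat_lit 0),(nat_lit 0),(nat_lit 0),(nat_lit 0),(nat_lit 0),(nat_lit 0),(nat_lit 0),(nat_lit 0),(nat_lit 0)], [Int.negSucc (nat_lit 785800118),Int.ofNat (nat_lit 819605858),Int.ofNat (nat_lit 1263052076),Int.ofNat (nat_lit 1058788017),Int.negSucc (nat_lit 1472033354),Int.negSucc (nat_lit 450154610),Int.ofNat (nat_lit 10456165),Int.negSucc (nat_lit 161673737),Int.ofNat (nat_lit 651452361),Int.ofNat (nat_lit 898682806),Int.ofNat (nat_lit 486627459),Int.ofNat (nat_lit 69589163),Int.ofNat (nat_lit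 413762007),Int.negSucc (nat_lit 58877232),Int.ofNat (nat_lit 189347379),Int.ofNat (nat_lit 185119841),Int.negSucc (nat_lit 76458427),Int.ofNat (nat_lit 111653258),Int.ofNat (nat_lit 9938845),Int.negSucc (nat_lit 140975348),Int.ofNat (nat_lit 380668177),Int.negSucc (nat_lit 231123584),Int.ofNat (nat_lit 55133663),Int.negSucc (nat_lit 572969721),Int.ofNat (nat_lit 49889844),Int.negSucc (nat_lit 431217998),Int.negSucc (nat_lit 81379630),Int.ofNat (nat_lit 198852296),Int.negSucc (nat_lit 325701166),Int.ofNat (nat_lit 34429508),Int.negSucc (nat_lit 136910037),Int.negSucc (nat_lit 292412914),Int.ofNat (nat_lit 198545779),Int.negSucc (nat_lit 68382457),Int.negSucc (nat_lit 239486997),Int.ofNat (nat_lit 157429927),Int.ofNat (nat_lit 237421067),Int.ofNat (nat_lit 62988473),Int.ofNat (nat_lit 572496798),Int.ofNat (nat_lit 85854626),Int.negSucc (nat_lit 41445336),Int.ofNat (nat_lit 228388971),Int.ofNat (nat_lit 116050020),Int.ofNat (nat_lit 290456784),Int.negSucc (nat_lit 228472617),Int.ofNat (nat_lit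 152521185),Int.negSucc (nat_lit 13624778),Int.negSucc (nat_lit 63276550),Int.negSucc (nat_lit 45598591),Int.ofNat (nat_lit 102453481),Int.ofNat (nat_lit 29559395),Int.negSucc (nat_lit 92426435),Int.negSucc (nat_lit 167382260),Int.negSucc (nat_lit 205969385),Int.ofNat (nat_lit 64388161),Int.ofNat (nat_lit 51140603),Int.ofNat (nat_lit 32139837),Int.ofNat (nat_lit 23850202),Int.negSucc (nat_lit 30241850),Int.ofNat (nat_lit 60861797),Int.negSucc (nat_lit 40495483),Int.ofNat (nat_lit 35248545),Int.negSucc (nat_lit 53534223),Int.negSucc (nat_lit 83922010),Int.negSucc (nat_lit 204517953),Int.negSucc (nat_lit 77807272),Int.ofNat (nat_lit 58439913),Int.negSucc (nat_lit 25350289),Int.negSucc (nat_lit 80384562),Int.negSucc (nat_lit 78415987),Int.ofNat (nat_lit 25142095),Int.negSucc (nat_lit 106790663),Int.negSucc (nat_lit 133323289),Int.ofNat (nat_lit 24288512),Int.ofNat (nat_lit 11239442),Int.ofNat (nat_lit 19738407),Int.negSucc (nat_lit 13551438),Int.ofNat (nat_lit 17631292),Int.negSucc (nat_lit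 72638022),Int.ofNat (nat_lit 138843192),Int.ofNat (nat_lit 29954871),Int.ofNat (nat_lit 34004429),Int.negSucc (nat_lit 76199855),Int.ofNat (nat_lit 85265534),Int.ofNat (nat_lit 47617824),Int.negSucc (nat_lit 14185803),Int.ofNat (nat_lit 173076859),Int.negSucc (nat_lit 17364913),Int.negSucc (nat_lit 74250747),Int.ofNat (nat_lit 49154391),Int.negSucc (nat_lit 4192055),Int.ofNat (nat_lit 98479098),Int.negSucc (nat_lit 23559756),Int.negSucc (nat_lit 65577069),Int.ofNat (nat_lit 87717088),Int.negSucc (nat_lit 3543619),Int.negSucc (nat_lit 11334543),Int.ofNat (nat_lit 6563990),Int.negSucc (nat_lit 1348118),Int.ofNat (nat_lit 38033417),Int.ofNat (nat_lit 26334790),Int.ofNat (nat_lit 4949906),Int.negSucc (nat_lit 19823338),Int.ofNat (nat_lit 10251443),Int.ofNat (nat_lit 8139095),Int.ofNat (nat_lit 52220057),Int.negSucc (nat_lit 77156150),Int.negSucc (nat_lit 12251124),Int.ofNat (nat_lit 25529232),Int.negSucc (nat_lit 1817229),Int.ofNat (nat_lit 22971866),Int.ofNat (nat_lit 43609847),Int.ofNat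 (nat_lit 24122075),Int.negSucc (nat_lit 67475463),Int.ofNat (nat_lit 31020824),Int.negSucc (nat_lit 23908188),Int.ofNat (nat_lit 46698007),Int.negSucc (nat_lit 13211711),Int.negSucc (nat_lit 24297776),Int.negSucc (nat_lit 481140),Int.ofNat (nat_lit 24065707),Int.ofNat (nat_lit 5952917),Int.ofNat (nat_lit 21110957),Int.ofNat (nat_lit 15552314),Int.negSucc (nat_lit 67479792),Int.negSucc (nat_lit 14119633),Int.ofNat (nat_lit 13812478),Int.ofNat (nat_lit 49446376),Int.negSucc (nat_lit 40081344),Int.negSucc (nat_lit 17109194),Int.ofNat (nat_lit 5290008),Int.ofNat (nat_lit 7792954),Int.ofNat (nat_lit 22178334),Int.ofNat (nat_lit 15015309),Int.negSucc (nat_lit 4976191),Int.negSucc (nat_lit 7838504),Int.ofNat (nat_lit 24483185),Int.ofNat (nat_lit 91431212),Int.negSucc (nat_lit 61061096),Int.negSucc (nat_lit 17658792),Int.ofNat (nat_lit 17176374),Int.ofNat (nat_lit 33086195),Int.negSucc (nat_lit 34871268),Int.negSucc (nat_lit 9980741),Int.ofNat (nat_lit 17096366),Int.ofNat (nat_lit 39695735),Int.ofNat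 (nat_lit 66079382),Int.negSucc (nat_lit 13687956),Int.negSucc (nat_lit 4948468),Int.negSucc (nat_lit 7242988),Int.ofNat (nat_lit 5835242),Int.negSucc (nat_lit 61175717),Int.negSucc (nat_lit 12174525),Int.negSucc (nat_lit 48439522),Int.negSucc (nat_lit 8229062),Int.negSucc (nat_lit 15478302),Int.ofNat (nat_lit 6314290),Int.ofNat (nat_lit 7206285),Int.ofNat (nat_lit 13273753),Int.negSucc (nat_lit 21072546),Int.ofNat (nat_lit 23750103),Int.ofNat (nat_lit 53571932),Int.ofNat (nat_lit 17238412),Int.ofNat (nat_lit 23537815),Int.ofNat (nat_lit 3522653),Int.ofNat (nat_lit 2239358),Int.negSucc (nat_lit 5860775),Int.ofNat (nat_lit 47718873),Int.negSucc (nat_lit 24014457),Int.negSucc (nat_lit 31334606),Int.negSucc (nat_lit 22373365),Int.negSucc (nat_lit 13822707),Int.negSucc (nat_lit 321853),Int.ofNat (nat_lit 13221595),Int.negSucc (nat_lit 3242063),Int.ofNat (nat_lit 8740932),Int.negSucc (nat_lit 46692516),Int.ofNat (nat_lit 50131946),Int.ofNat (nat_lit 100293),Int.ofNat (nat_lit 31232672),Int.negSucc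 (nat_lit 14381383),Int.ofNat (nat_lit 15827174),Int.negSucc (nat_lit 14170672),Int.ofNat (nat_lit 5287650),Int.ofNat (nat_lit 17978521),Int.negSucc (nat_lit 47583468),Int.negSucc (nat_lit 14123984),Int.ofNat (nat_lit 8270575),Int.ofNat (nat_lit 3288374),Int.ofNat (nat_lit 2428125),Int.ofNat (nat_lit 4509436),Int.negSucc (nat_lit 18086015),Int.ofNat (nat_lit 8138280),Int.negSucc (nat_lit 51767964),Int.negSucc (nat_lit 6057731),Int.negSucc (nat_lit 16597364),Int.negSucc (nat_lit 10443818),Int.negSucc (nat_lit 9885014),Int.negSucc (nat_lit 18558987),Int.negSucc (nat_lit 28979151),Int.ofNat (nat_lit 23463747),Int.negSucc (nat_lit 14183293),Int.ofNat (nat_lit 53482959),Int.ofNat (nat_lit 16550426),Int.negSucc (nat_lit 40033490),Int.ofNat (nat_lit 18341761),Int.ofNat (nat_lit 13283449),Int.negSucc (nat_lit 21958377),Int.negSucc (nat_lit 6092593),Int.ofNat (nat_lit 50440390),Int.ofNat (nat_lit 4781968),Int.ofNat (nat_lit 9836861),Int.negSucc (nat_lit 31932158),Int.ofNat (nat_lit 147685575),Int.negSucc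 (nat_lit 6360052),Int.ofNat (nat_lit 98489624),Int.negSucc (nat_lit 4865578),Int.ofNat (nat_lit 35863721),Int.negSucc (nat_lit 3362726),Int.negSucc (nat_lit 63896077),Int.ofNat (nat_lit 27660127),Int.ofNat (nat_lit 51348223),Int.negSucc (nat_lit 28476106),Int.ofNat (nat_lit 9206036),Int.ofNat (nat_lit 41943576),Int.negSucc (nat_lit 9067559),Int.ofNat (nat_lit 8827664),Int.ofNat (nat_lit 14746571),Int.ofNat (nat_lit 59299515),Int.ofNat (nat_lit 38631847),Int.ofNat (nat_lit 5467657),Int.negSucc (nat_lit 39428053),Int.negSucc (nat_lit 43032589),Int.ofNat (nat_lit 55510481),Int.ofNat (nat_lit 57858443),Int.negSucc (nat_lit 39295431),Int.negSucc (nat_lit 159074528),Int.ofNat (nat_lit 44029138),Int.ofNat (nat_lit 643291322)])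

/-- A row. -/
noncomputable def sr6_c5_5 : List ℕ × List ℤ :=
  ([(nat_lit 0),(nat_lit 1),(nat_lit 0),(nat_lit 0),(nat_lit 1),(nat_lit 0),(nat_lit 0),(nat_lit 0),(nat_lit 0),(nat_lit 0),(nat_lit 0),(nat_lit 0)], [Int.negSucc (nat_lit 87235274),Int.ofNat (nat_lit 485790330),Int.ofNat (nat_lit 270776346),Int.negSucc (nat_lit 254976),Int.negSucc (nat_lit 287603305),Int.ofNat (nat_lit 20518845),Int.ofNat (nat_lit 12085949),Int.ofNat (nat_lit 31475196),Int.negSucc (nat_lit 17850212),Int.ofNat (nat_lit 5488012),Int.negSucc (nat_lit 22769331),Int.negSucc (nat_lit 106463703),Int.ofNat (nat_lit 74826934),Int.ofNat (nat_lit 1574523),Int.negSucc (nat_lit 9049595),Int.ofNat (nat_lit 48328161),Int.ofNat (nat_lit 32239193),Int.ofNat (nat_lit 3755663),Int.ofNat (nat_lit 11915293),Int.ofNat (nat_lit 45524004),Int.negSucc (nat_lit 146082897),Int.ofNat (nat_lit 132612905),Int.negSucc (nat_lit 12200680),Int.ofNat (nat_lit 121221399),Int.negSucc (nat_lit 24327410),Int.negSucc (nat_lit 93899702),Int.negSucc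 (nat_lit 24850840),Int.ofNat (nat_lit 40878386),Int.ofNat (nat_lit 6894075),Int.ofNat (nat_lit 10269043),Int.ofNat (nat_lit 62136820),Int.negSucc (nat_lit 1478989),Int.ofNat (nat_lit 23775047),Int.ofNat (nat_lit 23422760),Int.negSucc (nat_lit 88298973),Int.negSucc (nat_lit 18567966),Int.negSucc (nat_lit 33791961),Int.negSucc (nat_lit 47733228),Int.negSucc (nat_lit 25202044),Int.ofNat (nat_lit 2667636),Int.ofNat (nat_lit 13870107),Int.ofNat (nat_lit 12497073),Int.ofNat (nat_lit 12884585),Int.ofNat (nat_lit 86481815),Int.negSucc (nat_lit 39745487),Int.negSucc (nat_lit 29860959),Int.negSucc (nat_lit 17918782),Int.ofNat (nat_lit 5486414),Int.negSucc (nat_lit 18862050),Int.negSucc (nat_lit 28324443),Int.ofNat (nat_lit 20179989),Int.ofNat (nat_lit 24554860),Int.negSucc (nat_lit 39180827),Int.negSucc (nat_lit 17228399),Int.negSucc (nat_lit 55472742),Int.negSucc (nat_lit 69489621),Int.negSucc (nat_lit 30856948),Int.negSucc (nat_lit 15803547),Int.ofNat (nat_lit 13789888),Int.negSucc (nat_lit 61158230),Int.ofNat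 (nat_lit 22572621),Int.negSucc (nat_lit 21450692),Int.ofNat (nat_lit 2622353),Int.negSucc (nat_lit 55110238),Int.ofNat (nat_lit 36311041),Int.ofNat (nat_lit 14605473),Int.negSucc (nat_lit 72970290),Int.ofNat (nat_lit 19612392),Int.negSucc (nat_lit 33819594),Int.negSucc (nat_lit 35352623),Int.negSucc (nat_lit 5374695),Int.ofNat (nat_lit 35509550),Int.ofNat (nat_lit 8833510),Int.negSucc (nat_lit 3124248),Int.negSucc (nat_lit 10290195),Int.ofNat (nat_lit 12729590),Int.negSucc (nat_lit 5707511),Int.ofNat (nat_lit 1320804),Int.ofNat (nat_lit 9394999),Int.negSucc (nat_lit 13997001),Int.negSucc (nat_lit 12971053),Int.negSucc (nat_lit 7524595),Int.negSucc (nat_lit 789841),Int.negSucc (nat_lit 9935974),Int.ofNat (nat_lit 16959900),Int.ofNat (nat_lit 8484865),Int.negSucc (nat_lit 25664832),Int.negSucc (nat_lit 7793054),Int.ofNat (nat_lit 7617190),Int.negSucc (nat_lit 7628303),Int.ofNat (nat_lit 30404646),Int.negSucc (nat_lit 19336550),Int.negSucc (nat_lit 5544468),Int.ofNat (nat_lit 26248828),Int.ofNat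 (nat_lit 6424114),Int.ofNat (nat_lit 3167416),Int.negSucc (nat_lit 3741788),Int.negSucc (nat_lit 4903620),Int.negSucc (nat_lit 8936470),Int.negSucc (nat_lit 3891015),Int.negSucc (nat_lit 3198899),Int.negSucc (nat_lit 8281771),Int.negSucc (nat_lit 1706908),Int.negSucc (nat_lit 3514379),Int.ofNat (nat_lit 10517889),Int.negSucc (nat_lit 16379694),Int.ofNat (nat_lit 5222057),Int.negSucc (nat_lit 5445448),Int.negSucc (nat_lit 14921488),Int.negSucc (nat_lit 12338453),Int.negSucc (nat_lit 19375525),Int.negSucc (nat_lit 12048669),Int.ofNat (nat_lit 2131860),Int.ofNat (nat_lit 5377515),Int.negSucc (nat_lit 843234),Int.negSucc (nat_lit 296884),Int.negSucc (nat_lit 2379911),Int.ofNat (nat_lit 2247298),Int.ofNat (nat_lit 14425171),Int.negSucc (nat_lit 2461195),Int.negSucc (nat_lit 13970707),Int.negSucc (nat_lit 1533173),Int.negSucc (nat_lit 8568367),Int.negSucc (nat_lit 19629952),Int.ofNat (nat_lit 21294999),Int.negSucc (nat_lit 8310464),Int.negSucc (nat_lit 12176629),Int.negSucc (nat_lit 11723889),Int.ofNat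 (nat_lit 2328416),Int.ofNat (nat_lit 9011267),Int.ofNat (nat_lit 4011230),Int.negSucc (nat_lit 1255144),Int.ofNat (nat_lit 9957928),Int.negSucc (nat_lit 27836757),Int.negSucc (nat_lit 5426603),Int.ofNat (nat_lit 20869240),Int.ofNat (nat_lit 8074542),Int.negSucc (nat_lit 37495153),Int.negSucc (nat_lit 1151036),Int.ofNat (nat_lit 5617163),Int.ofNat (nat_lit 2819590),Int.negSucc (nat_lit 2811891),Int.ofNat (nat_lit 7407684),Int.ofNat (nat_lit 7854802),Int.ofNat (nat_lit 5275425),Int.negSucc (nat_lit 6226333),Int.negSucc (nat_lit 6626157),Int.negSucc (nat_lit 8894622),Int.ofNat (nat_lit 17247633),Int.negSucc (nat_lit 5517121),Int.ofNat (nat_lit 10400827),Int.ofNat (nat_lit 22688502),Int.negSucc (nat_lit 3936318),Int.negSucc (nat_lit 8324561),Int.ofNat (nat_lit 5604437),Int.negSucc (nat_lit 10138495),Int.negSucc (nat_lit 974051),Int.negSucc (nat_lit 7859086),Int.negSucc (nat_lit 2054991),Int.ofNat (nat_lit 1383737),Int.ofNat (nat_lit 8610546),Int.negSucc (nat_lit 19143934),Int.negSucc (nat_lit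 10617344),Int.negSucc (nat_lit 10024022),Int.ofNat (nat_lit 5834851),Int.ofNat (nat_lit 1968915),Int.ofNat (nat_lit 1457268),Int.negSucc (nat_lit 7364000),Int.negSucc (nat_lit 4996153),Int.ofNat (nat_lit 15884444),Int.ofNat (nat_lit 5397484),Int.negSucc (nat_lit 2534719),Int.ofNat (nat_lit 5103876),Int.negSucc (nat_lit 6162251),Int.negSucc (nat_lit 14120072),Int.ofNat (nat_lit 613764),Int.ofNat (nat_lit 9385169),Int.negSucc (nat_lit 6188238),Int.negSucc (nat_lit 604051),Int.negSucc (nat_lit 2828739),Int.ofNat (nat_lit 5476476),Int.negSucc (nat_lit 2730574),Int.ofNat (nat_lit 182552),Int.ofNat (nat_lit 2747633),Int.ofNat (nat_lit 4326613),Int.ofNat (nat_lit 12494471),Int.ofNat (nat_lit 10016433),Int.negSucc (nat_lit 1381168),Int.ofNat (nat_lit 7546802),Int.ofNat (nat_lit 8165522),Int.ofNat (nat_lit 4642247),Int.negSucc (nat_lit 3300522),Int.negSucc (nat_lit 1673931),Int.negSucc (nat_lit 1162500),Int.negSucc (nat_lit 5970),Int.ofNat (nat_lit 2943572),Int.ofNat (nat_lit 5863014),Int.negSucc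 (nat_lit 167983),Int.ofNat (nat_lit 7512403),Int.negSucc (nat_lit 234994),Int.negSucc (nat_lit 2031526),Int.ofNat (nat_lit 11006539),Int.negSucc (nat_lit 4428844),Int.ofNat (nat_lit 16562632),Int.ofNat (nat_lit 6695776),Int.ofNat (nat_lit 2176093),Int.ofNat (nat_lit 8671622),Int.ofNat (nat_lit 7048766),Int.ofNat (nat_lit 11357319),Int.ofNat (nat_lit 3270831),Int.negSucc (nat_lit 721668),Int.ofNat (nat_lit 93203),Int.ofNat (nat_lit 4137244),Int.negSucc (nat_lit 4094644),Int.negSucc (nat_lit 785355),Int.negSucc (nat_lit 10855781),Int.ofNat (nat_lit 363693),Int.negSucc (nat_lit 2510828),Int.negSucc (nat_lit 5019740),Int.ofNat (nat_lit 6364386),Int.ofNat (nat_lit 158124),Int.negSucc (nat_lit 1198303),Int.ofNat (nat_lit 5298938),Int.negSucc (nat_lit 7367148),Int.negSucc (nat_lit 7350185),Int.negSucc (nat_lit 13896155),Int.negSucc (nat_lit 4893628),Int.negSucc (nat_lit 8643161),Int.negSucc (nat_lit 7072287),Int.negSucc (nat_lit 8820439),Int.negSucc (nat_lit 5776993),Int.ofNat (nat_lit 1369809),Int.ofNat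 (nat_lit 5019163),Int.negSucc (nat_lit 9066399),Int.ofNat (nat_lit 31140377),Int.ofNat (nat_lit 16162527),Int.negSucc (nat_lit 25870059),Int.ofNat (nat_lit 34181221),Int.negSucc (nat_lit 61218128),Int.ofNat (nat_lit 153901578)])

/-- A row. -/
noncomputable def sr6_c5_6 : List ℕ × List ℤ :=
  ([(nat_lit 0),(nat_lit 1),(nat_lit 1),(nat_lit 0),(nat_lit 0),(nat_lit 0),(nat_lit 0),(nat_lit 0),(nat_lit 0),(nat_lit 0),(nat_lit 0),(nat_lit 0)], [Int.negSucc (nat_lit 723829253),Int.ofNat (nat_lit 1507920943),Int.ofNat (nat_lit 1522185532),Int.ofNat (nat_lit 1287643010),Int.negSucc (nat_lit 2019944107),Int.negSucc (nat_lit 147824285),Int.negSucc (nat_lit 44368588),Int.negSucc (nat_lit 137800745),Int.ofNat (nat_lit 535364260),Int.ofNat (nat_lit 814721750),Int.ofNat (nat_lit 626777506),Int.ofNat (nat_lit 57771577),Int.ofNat (nat_lit 679489780),Int.ofNat (nat_lit 90193124),Int.ofNat (nat_lit 358832612),Int.ofNat (nat_lit 268012559),Int.ofNat (nat_lit 62834760),Int.ofNat (nat_lit 253640252),Int.negSucc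 (nat_lit 32946215),Int.negSucc (nat_lit 89104079),Int.ofNat (nat_lit 196966844),Int.negSucc (nat_lit 9535642),Int.ofNat (nat_lit 15349663),Int.negSucc (nat_lit 303617667),Int.negSucc (nat_lit 33687409),Int.negSucc (nat_lit 395001573),Int.negSucc (nat_lit 48366064),Int.ofNat (nat_lit 197167837),Int.negSucc (nat_lit 100790755),Int.negSucc (nat_lit 30412240),Int.ofNat (nat_lit 23708076),Int.negSucc (nat_lit 203869136),Int.ofNat (nat_lit 96759168),Int.negSucc (nat_lit 19477859),Int.negSucc (nat_lit 361832708),Int.ofNat (nat_lit 203622472),Int.ofNat (nat_lit 241079273),Int.negSucc (nat_lit 8759306),Int.ofNat (nat_lit 710870011),Int.ofNat (nat_lit 88737253),Int.ofNat (nat_lit 39900),Int.ofNat (nat_lit 375916578),Int.ofNat (nat_lit 103434051),Int.ofNat (nat_lit 401888799),Int.negSucc (nat_lit 374596900),Int.ofNat (nat_lit 106856738),Int.negSucc (nat_lit 82319572),Int.negSucc (nat_lit 7396496),Int.negSucc (nat_lit 129609789),Int.ofNat (nat_lit 38628607),Int.ofNat (nat_lit 51391606),Int.negSucc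 (nat_lit 35659353),Int.negSucc (nat_lit 209468439),Int.negSucc (nat_lit 252695301),Int.ofNat (nat_lit 15480144),Int.ofNat (nat_lit 23392751),Int.negSucc (nat_lit 442209),Int.negSucc (nat_lit 63397731),Int.negSucc (nat_lit 5785098),Int.ofNat (nat_lit 12631511),Int.negSucc (nat_lit 16695983),Int.negSucc (nat_lit 2787940),Int.negSucc (nat_lit 36700474),Int.negSucc (nat_lit 40527315),Int.negSucc (nat_lit 134350244),Int.negSucc (nat_lit 66040424),Int.negSucc (nat_lit 5929630),Int.ofNat (nat_lit 14041806),Int.negSucc (nat_lit 65765501),Int.negSucc (nat_lit 116570728),Int.negSucc (nat_lit 3954463),Int.negSucc (nat_lit 187660974),Int.negSucc (nat_lit 137958558),Int.negSucc (nat_lit 24843678),Int.negSucc (nat_lit 12677750),Int.negSucc (nat_lit 47845126),Int.negSucc (nat_lit 7510703),Int.negSucc (nat_lit 3260511),Int.negSucc (nat_lit 45969386),Int.ofNat (nat_lit 104515058),Int.negSucc (nat_lit 19866962),Int.ofNat (nat_lit 5152612),Int.negSucc (nat_lit 47367537),Int.ofNat (nat_lit 77842731),Int.negSucc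 (nat_lit 35722497),Int.ofNat (nat_lit 517745),Int.ofNat (nat_lit 176171814),Int.ofNat (nat_lit 21350886),Int.negSucc (nat_lit 26202571),Int.ofNat (nat_lit 12757132),Int.negSucc (nat_lit 29940488),Int.ofNat (nat_lit 72710107),Int.ofNat (nat_lit 38242112),Int.negSucc (nat_lit 83868356),Int.negSucc (nat_lit 29820128),Int.negSucc (nat_lit 21121415),Int.negSucc (nat_lit 38073580),Int.negSucc (nat_lit 10374925),Int.negSucc (nat_lit 3604060),Int.ofNat (nat_lit 10053262),Int.negSucc (nat_lit 35616213),Int.ofNat (nat_lit 25218028),Int.negSucc (nat_lit 17149203),Int.ofNat (nat_lit 10464251),Int.negSucc (nat_lit 20590340),Int.ofNat (nat_lit 60472944),Int.negSucc (nat_lit 21798219),Int.ofNat (nat_lit 7434299),Int.ofNat (nat_lit 28349824),Int.ofNat (nat_lit 17208465),Int.ofNat (nat_lit 24491403),Int.ofNat (nat_lit 27896707),Int.ofNat (nat_lit 6553837),Int.negSucc (nat_lit 82730450),Int.ofNat (nat_lit 961073),Int.negSucc (nat_lit 1381978),Int.ofNat (nat_lit 29648295),Int.ofNat (nat_lit 7147113),Int.negSucc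 (nat_lit 36476170),Int.negSucc (nat_lit 11420058),Int.ofNat (nat_lit 35196237),Int.negSucc (nat_lit 4782303),Int.ofNat (nat_lit 9468552),Int.ofNat (nat_lit 14980528),Int.negSucc (nat_lit 65954657),Int.negSucc (nat_lit 3399607),Int.negSucc (nat_lit 16446176),Int.ofNat (nat_lit 60039712),Int.negSucc (nat_lit 1918865),Int.ofNat (nat_lit 3856776),Int.negSucc (nat_lit 4540788),Int.ofNat (nat_lit 23668550),Int.negSucc (nat_lit 27000448),Int.ofNat (nat_lit 36558586),Int.negSucc (nat_lit 73876083),Int.negSucc (nat_lit 17793365),Int.ofNat (nat_lit 483729),Int.ofNat (nat_lit 60841764),Int.negSucc (nat_lit 12912390),Int.negSucc (nat_lit 214166),Int.ofNat (nat_lit 17133795),Int.ofNat (nat_lit 20243241),Int.negSucc (nat_lit 67755575),Int.negSucc (nat_lit 28275090),Int.ofNat (nat_lit 51003391),Int.ofNat (nat_lit 17365496),Int.ofNat (nat_lit 61662423),Int.ofNat (nat_lit 44121915),Int.negSucc (nat_lit 61910185),Int.negSucc (nat_lit 22485024),Int.negSucc (nat_lit 20446790),Int.negSucc (nat_lit 74504040),Int.ofNat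 (nat_lit 1342913),Int.negSucc (nat_lit 22419151),Int.negSucc (nat_lit 86040279),Int.ofNat (nat_lit 35388729),Int.ofNat (nat_lit 43939333),Int.ofNat (nat_lit 48527360),Int.negSucc (nat_lit 12411891),Int.ofNat (nat_lit 5266667),Int.ofNat (nat_lit 12846677),Int.ofNat (nat_lit 58173293),Int.ofNat (nat_lit 14059111),Int.ofNat (nat_lit 40190948),Int.negSucc (nat_lit 36759113),Int.ofNat (nat_lit 22583446),Int.negSucc (nat_lit 22819627),Int.ofNat (nat_lit 40509692),Int.negSucc (nat_lit 31876243),Int.negSucc (nat_lit 57349847),Int.negSucc (nat_lit 32229476),Int.negSucc (nat_lit 15909726),Int.ofNat (nat_lit 21205917),Int.negSucc (nat_lit 47514781),Int.ofNat (nat_lit 50940185),Int.negSucc (nat_lit 18305061),Int.negSucc (nat_lit 25740184),Int.ofNat (nat_lit 42584341),Int.ofNat (nat_lit 4747479),Int.ofNat (nat_lit 51681255),Int.ofNat (nat_lit 12636005),Int.ofNat (nat_lit 52044623),Int.ofNat (nat_lit 5756498),Int.negSucc (nat_lit 12583789),Int.ofNat (nat_lit 27979579),Int.negSucc (nat_lit 28348817),Int.negSucc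 (nat_lit 703366),Int.negSucc (nat_lit 32498348),Int.negSucc (nat_lit 13690865),Int.ofNat (nat_lit 86283),Int.negSucc (nat_lit 26016),Int.negSucc (nat_lit 20863294),Int.ofNat (nat_lit 34438842),Int.negSucc (nat_lit 21244759),Int.ofNat (nat_lit 371118),Int.negSucc (nat_lit 137784),Int.negSucc (nat_lit 13997416),Int.negSucc (nat_lit 551306),Int.negSucc (nat_lit 5211222),Int.negSucc (nat_lit 30431930),Int.ofNat (nat_lit 47924881),Int.negSucc (nat_lit 17031064),Int.ofNat (nat_lit 57390337),Int.ofNat (nat_lit 14775221),Int.negSucc (nat_lit 21626935),Int.ofNat (nat_lit 29240474),Int.negSucc (nat_lit 10692102),Int.ofNat (nat_lit 1227938),Int.negSucc (nat_lit 16054673),Int.ofNat (nat_lit 35272011),Int.negSucc (nat_lit 7104451),Int.ofNat (nat_lit 4259294),Int.negSucc (nat_lit 8135259),Int.ofNat (nat_lit 65178851),Int.ofNat (nat_lit 1415437),Int.ofNat (nat_lit 50865628),Int.negSucc (nat_lit 23512738),Int.ofNat (nat_lit 14561655),Int.ofNat (nat_lit 65486203),Int.negSucc (nat_lit 47247682),Int.ofNat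 (nat_lit 4866046),Int.ofNat (nat_lit 59859213),Int.negSucc (nat_lit 60619097),Int.ofNat (nat_lit 26712036),Int.ofNat (nat_lit 52683195),Int.negSucc (nat_lit 3988113),Int.negSucc (nat_lit 34028697),Int.ofNat (nat_lit 4455627),Int.ofNat (nat_lit 32906776),Int.ofNat (nat_lit 33861580),Int.ofNat (nat_lit 28656851),Int.negSucc (nat_lit 36057091),Int.negSucc (nat_lit 32690048),Int.ofNat (nat_lit 55586607),Int.negSucc (nat_lit 68217474),Int.negSucc (nat_lit 41539591),Int.ofNat (nat_lit 143196038),Int.negSucc (nat_lit 63591114),Int.ofNat (nat_lit 556112331),Int.negSucc (nat_lit 119721069),Int.ofNat (nat_lit 388511944)])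

/-- A row. -/
noncomputable def sr6_c5_7 : List ℕ × List ℤ :=
  ([(nat_lit 0),(nat_lit 2),(nat_lit 0),(nat_lit 1),(nat_lit 0),(nat_lit 0),(nat_lit 0),(nat_lit 0),(nat_lit 0),(nat_lit 0),(nat_lit 0),(nat_lit 0)], [Int.negSucc (nat_lit 725166335),Int.ofNat (nat_lit 1507079984),Int.ofNat (nat_lit 1224688972),Int.ofNat (nat_lit 105500895),Int.negSucc (nat_lit 1520426421),Int.ofNat (nat_lit 315515292),Int.negSucc (nat_lit 131969435),Int.negSucc (nat_lit 204497910),Int.negSucc (nat_lit 125546985),Int.ofNat (nat_lit 661288732),Int.negSucc (nat_lit 52984057),Int.negSucc (nat_lit 555339472),Int.ofNat (nat_lit 590433663),Int.ofNat (nat_lit 7028755),Int.ofNat (nat_lit 93044912),Int.ofNat (nat_lit 317821650),Int.ofNat (nat_lit 221484903),Int.ofNat (nat_lit 238810802),Int.ofNat (nat_lit 39016750),Int.ofNat (nat_lit 46244757),Int.negSucc (nat_lit 758831544),Int.ofNat (nat_lit 572072574),Int.ofNat (nat_lit 18605995),Int.ofNat (nat_lit 367708219),Int.ofNat (nat_lit 59605973),Int.negSucc (nat_lit 422938446),Int.ofNat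 (nat_lit 70321172),Int.ofNat (nat_lit 70734259),Int.negSucc (nat_lit 97497761),Int.ofNat (nat_lit 320009158),Int.ofNat (nat_lit 148212495),Int.negSucc (nat_lit 125802915),Int.ofNat (nat_lit 75205041),Int.ofNat (nat_lit 90091843),Int.negSucc (nat_lit 323776050),Int.ofNat (nat_lit 84988673),Int.negSucc (nat_lit 93511656),Int.negSucc (nat_lit 220331991),Int.ofNat (nat_lit 276095392),Int.ofNat (nat_lit 22079705),Int.negSucc (nat_lit 43696269),Int.ofNat (nat_lit 119040977),Int.ofNat (nat_lit 25859274),Int.ofNat (nat_lit 542400382),Int.negSucc (nat_lit 277577335),Int.ofNat (nat_lit 64415493),Int.ofNat (nat_lit 194518898),Int.ofNat (nat_lit 85876228),Int.negSucc (nat_lit 269274181),Int.negSucc (nat_lit 89290615),Int.negSucc (nat_lit 92880261),Int.ofNat (nat_lit 116003375),Int.negSucc (nat_lit 161553223),Int.negSucc (nat_lit 96472139),Int.negSucc (nat_lit 180595224),Int.negSucc (nat_lit 196629366),Int.ofNat (nat_lit 13420652),Int.ofNat (nat_lit 73053331),Int.ofNat (nat_lit 60306798),Int.negSucc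 (nat_lit 78925429),Int.ofNat (nat_lit 124576346),Int.negSucc (nat_lit 20306696),Int.negSucc (nat_lit 121716611),Int.negSucc (nat_lit 236953920),Int.negSucc (nat_lit 125758495),Int.negSucc (nat_lit 38901530),Int.ofNat (nat_lit 17846082),Int.ofNat (nat_lit 13172294),Int.negSucc (nat_lit 152513859),Int.negSucc (nat_lit 45848082),Int.ofNat (nat_lit 75280552),Int.ofNat (nat_lit 28269118),Int.ofNat (nat_lit 33692961),Int.ofNat (nat_lit 15012206),Int.ofNat (nat_lit 49967110),Int.ofNat (nat_lit 3881097),Int.negSucc (nat_lit 46404975),Int.ofNat (nat_lit 37400715),Int.negSucc (nat_lit 9043622),Int.negSucc (nat_lit 139351473),Int.negSucc (nat_lit 32567968),Int.negSucc (nat_lit 72378264),Int.ofNat (nat_lit 50568094),Int.negSucc (nat_lit 42701322),Int.ofNat (nat_lit 47018199),Int.ofNat (nat_lit 7285589),Int.negSucc (nat_lit 108068959),Int.ofNat (nat_lit 46486114),Int.ofNat (nat_lit 43791587),Int.negSucc (nat_lit 110112918),Int.ofNat (nat_lit 74675188),Int.negSucc (nat_lit 58944738),Int.negSucc (nat_lit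 19627486),Int.ofNat (nat_lit 47446267),Int.ofNat (nat_lit 8021628),Int.negSucc (nat_lit 53917657),Int.negSucc (nat_lit 5004920),Int.negSucc (nat_lit 2087569),Int.ofNat (nat_lit 34284695),Int.negSucc (nat_lit 52075354),Int.ofNat (nat_lit 96319646),Int.negSucc (nat_lit 17245250),Int.ofNat (nat_lit 3348786),Int.negSucc (nat_lit 37489804),Int.ofNat (nat_lit 61899176),Int.negSucc (nat_lit 59857177),Int.ofNat (nat_lit 29888218),Int.negSucc (nat_lit 22712193),Int.negSucc (nat_lit 29587966),Int.negSucc (nat_lit 7421748),Int.negSucc (nat_lit 44876844),Int.negSucc (nat_lit 50700427),Int.ofNat (nat_lit 89090227),Int.ofNat (nat_lit 94922255),Int.ofNat (nat_lit 21888350),Int.ofNat (nat_lit 22802170),Int.negSucc (nat_lit 12623083),Int.ofNat (nat_lit 33679177),Int.ofNat (nat_lit 20323085),Int.negSucc (nat_lit 26919811),Int.negSucc (nat_lit 41678218),Int.negSucc (nat_lit 5244125),Int.negSucc (nat_lit 21003518),Int.negSucc (nat_lit 19480307),Int.ofNat (nat_lit 40824023),Int.negSucc (nat_lit 27263961),Int.negSucc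 (nat_lit 59350648),Int.ofNat (nat_lit 58547373),Int.ofNat (nat_lit 43378666),Int.ofNat (nat_lit 36595343),Int.ofNat (nat_lit 11999542),Int.ofNat (nat_lit 7915431),Int.negSucc (nat_lit 13258351),Int.negSucc (nat_lit 73644812),Int.ofNat (nat_lit 42400533),Int.ofNat (nat_lit 38658949),Int.negSucc (nat_lit 26829914),Int.negSucc (nat_lit 106310967),Int.negSucc (nat_lit 60661408),Int.ofNat (nat_lit 19874515),Int.negSucc (nat_lit 26952153),Int.ofNat (nat_lit 48205978),Int.ofNat (nat_lit 60777664),Int.ofNat (nat_lit 88614673),Int.ofNat (nat_lit 39772311),Int.negSucc (nat_lit 77254486),Int.negSucc (nat_lit 4441416),Int.negSucc (nat_lit 69788236),Int.ofNat (nat_lit 114308153),Int.ofNat (nat_lit 718050),Int.ofNat (nat_lit 42111060),Int.ofNat (nat_lit 34981768),Int.negSucc (nat_lit 52362784),Int.negSucc (nat_lit 63430462),Int.ofNat (nat_lit 44530225),Int.ofNat (nat_lit 25291198),Int.ofNat (nat_lit 1301528),Int.ofNat (nat_lit 128659),Int.ofNat (nat_lit 22748195),Int.negSucc (nat_lit 16525531),Int.negSucc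 (nat_lit 17529626),Int.negSucc (nat_lit 3426861),Int.ofNat (nat_lit 24459402),Int.ofNat (nat_lit 63215711),Int.negSucc (nat_lit 14337009),Int.negSucc (nat_lit 38897020),Int.negSucc (nat_lit 3042468),Int.negSucc (nat_lit 43517015),Int.negSucc (nat_lit 22128462),Int.ofNat (nat_lit 29278292),Int.ofNat (nat_lit 5433508),Int.ofNat (nat_lit 81135006),Int.negSucc (nat_lit 15929043),Int.negSucc (nat_lit 49745727),Int.negSucc (nat_lit 10050240),Int.negSucc (nat_lit 80043497),Int.ofNat (nat_lit 13016269),Int.ofNat (nat_lit 6429895),Int.ofNat (nat_lit 28187498),Int.negSucc (nat_lit 66910511),Int.ofNat (nat_lit 1331082),Int.negSucc (nat_lit 10815208),Int.ofNat (nat_lit 496246),Int.ofNat (nat_lit 4720917),Int.ofNat (nat_lit 21004744),Int.ofNat (nat_lit 87684106),Int.ofNat (nat_lit 99310945),Int.ofNat (nat_lit 49429302),Int.ofNat (nat_lit 33195075),Int.ofNat (nat_lit 44459632),Int.ofNat (nat_lit 7137943),Int.ofNat (nat_lit 86176588),Int.negSucc (nat_lit 33107854),Int.negSucc (nat_lit 20120059),Int.negSucc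 (nat_lit 18608830),Int.ofNat (nat_lit 33273820),Int.ofNat (nat_lit 43897411),Int.ofNat (nat_lit 42561620),Int.ofNat (nat_lit 3759815),Int.negSucc (nat_lit 2136344),Int.ofNat (nat_lit 1850600),Int.ofNat (nat_lit 56804088),Int.negSucc (nat_lit 10780580),Int.ofNat (nat_lit 13744745),Int.ofNat (nat_lit 46476833),Int.negSucc (nat_lit 3162540),Int.ofNat (nat_lit 49035887),Int.ofNat (nat_lit 22760995),Int.ofNat (nat_lit 10846409),Int.negSucc (nat_lit 4244878),Int.negSucc (nat_lit 496021),Int.negSucc (nat_lit 21513786),Int.negSucc (nat_lit 28434804),Int.negSucc (nat_lit 59735923),Int.negSucc (nat_lit 25464638),Int.negSucc (nat_lit 29680969),Int.negSucc (nat_lit 10310364),Int.negSucc (nat_lit 14442985),Int.ofNat (nat_lit 15419208),Int.ofNat (nat_lit 19727269),Int.ofNat (nat_lit 2391509),Int.negSucc (nat_lit 67828243),Int.ofNat (nat_lit 19372486),Int.negSucc (nat_lit 17855041),Int.negSucc (nat_lit 39556206),Int.negSucc (nat_lit 43402082),Int.negSucc (nat_lit 30498573),Int.negSucc (nat_lit 77450986),Int.ofNat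 (nat_lit 2763815),Int.negSucc (nat_lit 7257308),Int.ofNat (nat_lit 14662612),Int.ofNat (nat_lit 69378360),Int.ofNat (nat_lit 4801455),Int.negSucc (nat_lit 3404532),Int.ofNat (nat_lit 167632093),Int.negSucc (nat_lit 150302389),Int.negSucc (nat_lit 40719881),Int.ofNat (nat_lit 148447306),Int.negSucc (nat_lit 394148547),Int.ofNat (nat_lit 211859046),Int.negSucc (nat_lit 41854368),Int.ofNat (nat_lit 645352411)])

/-- A row. -/
noncomputable def sr6_c5_8 : List ℕ × List ℤ :=
  ([(nat_lit 0),(nat_lit 3),(nat_lit 0),(nat_lit 0),(nat_lit 0),(nat_lit 0),(nat_lit 0),(nat_lit 0),(nat_lit 0),(nat_lit 0),(nat_lit 0),(nat_lit 0)], [Int.ofNat (nat_lit 475157072),Int.negSucc (nat_lit 1881166855),Int.negSucc (nat_lit 816547958),Int.ofNat (nat_lit 242118142),Int.ofNat (nat_lit 837505383),Int.negSucc (nat_lit 48977830),Int.ofNat (nat_lit 29268833),Int.ofNat (nat_lit 83878726),Int.ofNat (nat_lit 6450836),Int.negSucc (nat_lit 940888152),Int.negSucc (nat_lit 46902702),Int.ofNat (nat_lit 516927207),Int.negSucc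 (nat_lit 598787140),Int.negSucc (nat_lit 283137057),Int.negSucc (nat_lit 147300273),Int.negSucc (nat_lit 275281341),Int.negSucc (nat_lit 191099427),Int.negSucc (nat_lit 567093462),Int.ofNat (nat_lit 27790189),Int.ofNat (nat_lit 60281013),Int.ofNat (nat_lit 641347132),Int.negSucc (nat_lit 432510448),Int.negSucc (nat_lit 78652772),Int.negSucc (nat_lit 139310151),Int.negSucc (nat_lit 80551011),Int.ofNat (nat_lit 360166786),Int.ofNat (nat_lit 11682800),Int.negSucc (nat_lit 24423243),Int.ofNat (nat_lit 39262591),Int.negSucc (nat_lit 408552462),Int.negSucc (nat_lit 479506686),Int.negSucc (nat_lit 124065725),Int.ofNat (nat_lit 23002831),Int.negSucc (nat_lit 316404949),Int.ofNat (nat_lit 344019514),Int.ofNat (nat_lit 30155725),Int.ofNat (nat_lit 347051667),Int.ofNat (nat_lit 241083569),Int.negSucc (nat_lit 240721320),Int.negSucc (nat_lit 106997133),Int.ofNat (nat_lit 113987672),Int.negSucc (nat_lit 83836869),Int.ofNat (nat_lit 1985828),Int.negSucc (nat_lit 395315857),Int.ofNat (nat_lit 180699873),Int.negSucc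 (nat_lit 147508295),Int.negSucc (nat_lit 294383756),Int.negSucc (nat_lit 122913916),Int.ofNat (nat_lit 188806649),Int.ofNat (nat_lit 159264821),Int.ofNat (nat_lit 79648217),Int.negSucc (nat_lit 155433322),Int.ofNat (nat_lit 94051048),Int.ofNat (nat_lit 33965820),Int.ofNat (nat_lit 56558703),Int.ofNat (nat_lit 95095873),Int.negSucc (nat_lit 60798694),Int.negSucc (nat_lit 158638873),Int.negSucc (nat_lit 12453399),Int.ofNat (nat_lit 69407507),Int.negSucc (nat_lit 86353572),Int.negSucc (nat_lit 50843672),Int.ofNat (nat_lit 23934574),Int.ofNat (nat_lit 276857415),Int.ofNat (nat_lit 307017398),Int.ofNat (nat_lit 137674656),Int.negSucc (nat_lit 88832557),Int.ofNat (nat_lit 46841826),Int.ofNat (nat_lit 105717617),Int.negSucc (nat_lit 14368735),Int.negSucc (nat_lit 203918422),Int.ofNat (nat_lit 75868719),Int.negSucc (nat_lit 34025322),Int.ofNat (nat_lit 42672556),Int.negSucc (nat_lit 124284955),Int.negSucc (nat_lit 66169406),Int.negSucc (nat_lit 35026441),Int.ofNat (nat_lit 60567089),Int.negSucc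 (nat_lit 26613753),Int.ofNat (nat_lit 17859385),Int.ofNat (nat_lit 72871103),Int.ofNat (nat_lit 51196489),Int.ofNat (nat_lit 60634231),Int.negSucc (nat_lit 73431655),Int.negSucc (nat_lit 135889791),Int.negSucc (nat_lit 26547126),Int.negSucc (nat_lit 62270919),Int.negSucc (nat_lit 18485540),Int.negSucc (nat_lit 182740757),Int.negSucc (nat_lit 28659096),Int.negSucc (nat_lit 66805820),Int.negSucc (nat_lit 16904731),Int.ofNat (nat_lit 104348671),Int.ofNat (nat_lit 33633900),Int.negSucc (nat_lit 123927910),Int.ofNat (nat_lit 9069935),Int.ofNat (nat_lit 26488983),Int.negSucc (nat_lit 10676988),Int.ofNat (nat_lit 796700),Int.negSucc (nat_lit 23922264),Int.negSucc (nat_lit 199797523),Int.negSucc (nat_lit 41177765),Int.negSucc (nat_lit 24036412),Int.ofNat (nat_lit 94181649),Int.negSucc (nat_lit 73933082),Int.ofNat (nat_lit 30216215),Int.ofNat (nat_lit 1891975),Int.ofNat (nat_lit 32508376),Int.negSucc (nat_lit 33325055),Int.ofNat (nat_lit 35037018),Int.ofNat (nat_lit 37538797),Int.ofNat (nat_lit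 60267304),Int.negSucc (nat_lit 46427784),Int.negSucc (nat_lit 11379398),Int.negSucc (nat_lit 77086958),Int.negSucc (nat_lit 15397857),Int.negSucc (nat_lit 33236613),Int.negSucc (nat_lit 12161203),Int.negSucc (nat_lit 10054021),Int.negSucc (nat_lit 47840298),Int.ofNat (nat_lit 28209485),Int.negSucc (nat_lit 17475610),Int.negSucc (nat_lit 386562),Int.negSucc (nat_lit 19342187),Int.ofNat (nat_lit 16562966),Int.negSucc (nat_lit 2468563),Int.ofNat (nat_lit 15541126),Int.negSucc (nat_lit 74480446),Int.ofNat (nat_lit 2970235),Int.ofNat (nat_lit 11705555),Int.negSucc (nat_lit 60671122),Int.ofNat (nat_lit 3781467),Int.negSucc (nat_lit 4290726),Int.ofNat (nat_lit 50271669),Int.negSucc (nat_lit 29127353),Int.negSucc (nat_lit 78296196),Int.ofNat (nat_lit 12617731),Int.ofNat (nat_lit 33392730),Int.ofNat (nat_lit 91541548),Int.ofNat (nat_lit 33098487),Int.ofNat (nat_lit 1485335),Int.ofNat (nat_lit 54782798),Int.negSucc (nat_lit 78870060),Int.negSucc (nat_lit 123770695),Int.ofNat (nat_lit 2457588),Int.negSucc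 (nat_lit 25001158),Int.negSucc (nat_lit 75945905),Int.ofNat (nat_lit 45000327),Int.negSucc (nat_lit 89206426),Int.ofNat (nat_lit 24367558),Int.ofNat (nat_lit 16319750),Int.negSucc (nat_lit 46875736),Int.ofNat (nat_lit 101251333),Int.ofNat (nat_lit 49336231),Int.ofNat (nat_lit 76545480),Int.ofNat (nat_lit 38054994),Int.ofNat (nat_lit 19895740),Int.ofNat (nat_lit 34682850),Int.negSucc (nat_lit 347919),Int.negSucc (nat_lit 12718657),Int.ofNat (nat_lit 1438551),Int.ofNat (nat_lit 25671336),Int.negSucc (nat_lit 8059595),Int.negSucc (nat_lit 52196055),Int.negSucc (nat_lit 7763658),Int.negSucc (nat_lit 17164203),Int.ofNat (nat_lit 1367192),Int.negSucc (nat_lit 74443944),Int.negSucc (nat_lit 317107),Int.ofNat (nat_lit 29853018),Int.ofNat (nat_lit 29369015),Int.negSucc (nat_lit 5935819),Int.negSucc (nat_lit 29630280),Int.ofNat (nat_lit 6591028),Int.negSucc (nat_lit 23294010),Int.negSucc (nat_lit 23242422),Int.ofNat (nat_lit 15555606),Int.negSucc (nat_lit 38768012),Int.negSucc (nat_lit 46669989),Int.ofNat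 (nat_lit 33267610),Int.ofNat (nat_lit 57424115),Int.negSucc (nat_lit 31839223),Int.ofNat (nat_lit 13350475),Int.negSucc (nat_lit 38740413),Int.ofNat (nat_lit 3202707),Int.negSucc (nat_lit 95909185),Int.negSucc (nat_lit 82413489),Int.negSucc (nat_lit 19318217),Int.negSucc (nat_lit 62790811),Int.negSucc (nat_lit 52408554),Int.negSucc (nat_lit 48464781),Int.negSucc (nat_lit 11172648),Int.ofNat (nat_lit 139873084),Int.ofNat (nat_lit 62713162),Int.ofNat (nat_lit 141359730),Int.ofNat (nat_lit 24596492),Int.negSucc (nat_lit 42698321),Int.negSucc (nat_lit 20112033),Int.ofNat (nat_lit 5080028),Int.ofNat (nat_lit 44833917),Int.negSucc (nat_lit 46247924),Int.negSucc (nat_lit 54808328),Int.ofNat (nat_lit 5641585),Int.negSucc (nat_lit 2969734),Int.negSucc (nat_lit 32375229),Int.negSucc (nat_lit 25254204),Int.negSucc (nat_lit 40423685),Int.negSucc (nat_lit 17626501),Int.negSucc (nat_lit 13721438),Int.negSucc (nat_lit 60068277),Int.ofNat (nat_lit 22808858),Int.ofNat (nat_lit 11822517),Int.ofNat (nat_lit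 41486527),Int.negSucc (nat_lit 57294007),Int.negSucc (nat_lit 1195260),Int.ofNat (nat_lit 18759383),Int.ofNat (nat_lit 75956305),Int.negSucc (nat_lit 96385976),Int.ofNat (nat_lit 83944451),Int.ofNat (nat_lit 26639421),Int.ofNat (nat_lit 47545671),Int.negSucc (nat_lit 3182961),Int.ofNat (nat_lit 1642898),Int.negSucc (nat_lit 19849031),Int.ofNat (nat_lit 76011918),Int.ofNat (nat_lit 70013499),Int.negSucc (nat_lit 29307133),Int.ofNat (nat_lit 51743071),Int.negSucc (nat_lit 37719442),Int.ofNat (nat_lit 15722512),Int.ofNat (nat_lit 5589111),Int.negSucc (nat_lit 23384116),Int.ofNat (nat_lit 25664587),Int.negSucc (nat_lit 29355623),Int.negSucc (nat_lit 275410253),Int.ofNat (nat_lit 230159445),Int.ofNat (nat_lit 10209701),Int.negSucc (nat_lit 136517965),Int.negSucc (nat_lit 350320866),Int.negSucc (nat_lit 430966449),Int.ofNat (nat_lit 586975351),Int.negSucc (nat_lit 438385241),Int.ofNat (nat_lit 995713982)])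

/-- A row. -/
noncomputable def sr6_c5_9 : List ℕ × List ℤ :=
  ([(nat_lit 1),(nat_lit 0),(nat_lit 0),(nat_lit 0),(nat_lit 0),(nat_lit 1),(nat_lit 0),(nat_lit 0),(nat_lit 0),(nat_lit 0),(nat_lit 0),(nat_lit 0)], [Int.ofNat (nat_lit 96803484),Int.negSucc (nat_lit 299724522),Int.ofNat (nat_lit 374413182),Int.ofNat (nat_lit 635552648),Int.negSucc (nat_lit 613446776),Int.negSucc (nat_lit 4956989),Int.ofNat (nat_lit 115894713),Int.negSucc (nat_lit 194684226),Int.ofNat (nat_lit 359441395),Int.ofNat (nat_lit 248479812),Int.ofNat (nat_lit 306272744),Int.ofNat (nat_lit 231476057),Int.ofNat (nat_lit 70445792),Int.ofNat (nat_lit 55536374),Int.ofNat (nat_lit 128900326),Int.ofNat (nat_lit 73765428),Int.negSucc (nat_lit 32910832),Int.ofNat (nat_lit 814565),Int.ofNat (nat_lit 65240774),Int.negSucc (nat_lit 49899862),Int.ofNat (nat_lit 80507518),Int.negSucc (nat_lit 95729585),Int.ofNat (nat_lit 66033211),Int.negSucc (nat_lit 237949451),Int.negSucc (nat_lit 8732862),Int.negSucc (nat_lit 5218635),Int.ofNat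 (nat_lit 7311281),Int.ofNat (nat_lit 87272534),Int.negSucc (nat_lit 136454383),Int.ofNat (nat_lit 44697329),Int.negSucc (nat_lit 129644981),Int.negSucc (nat_lit 73978700),Int.ofNat (nat_lit 61738255),Int.negSucc (nat_lit 3995327),Int.ofNat (nat_lit 59172041),Int.negSucc (nat_lit 21647842),Int.ofNat (nat_lit 219092164),Int.ofNat (nat_lit 177933848),Int.ofNat (nat_lit 308856153),Int.negSucc (nat_lit 35063161),Int.ofNat (nat_lit 10020120),Int.ofNat (nat_lit 70995438),Int.ofNat (nat_lit 60703218),Int.ofNat (nat_lit 132454704),Int.negSucc (nat_lit 53413111),Int.ofNat (nat_lit 32321137),Int.negSucc (nat_lit 88998461),Int.negSucc (nat_lit 15561371),Int.negSucc (nat_lit 46010552),Int.ofNat (nat_lit 103435220),Int.negSucc (nat_lit 45312740),Int.negSucc (nat_lit 69245455),Int.ofNat (nat_lit 36207063),Int.negSucc (nat_lit 125149916),Int.ofNat (nat_lit 15534403),Int.ofNat (nat_lit 93014360),Int.ofNat (nat_lit 32944547),Int.negSucc (nat_lit 73437109),Int.negSucc (nat_lit 39525009),Int.ofNat (nat_lit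 33580089),Int.ofNat (nat_lit 5541252),Int.negSucc (nat_lit 9355097),Int.negSucc (nat_lit 43517666),Int.ofNat (nat_lit 25368295),Int.negSucc (nat_lit 44956325),Int.negSucc (nat_lit 88587274),Int.ofNat (nat_lit 67469739),Int.ofNat (nat_lit 104244289),Int.ofNat (nat_lit 24927426),Int.negSucc (nat_lit 106799616),Int.ofNat (nat_lit 21402407),Int.negSucc (nat_lit 26251522),Int.negSucc (nat_lit 144839498),Int.negSucc (nat_lit 10867232),Int.ofNat (nat_lit 21149245),Int.negSucc (nat_lit 17065945),Int.ofNat (nat_lit 10597621),Int.negSucc (nat_lit 9289785),Int.negSucc (nat_lit 35918596),Int.ofNat (nat_lit 22461756),Int.ofNat (nat_lit 3188289),Int.ofNat (nat_lit 16040357),Int.negSucc (nat_lit 18484419),Int.ofNat (nat_lit 2624934),Int.negSucc (nat_lit 10241738),Int.ofNat (nat_lit 13264008),Int.ofNat (nat_lit 26570938),Int.ofNat (nat_lit 14135383),Int.negSucc (nat_lit 21653217),Int.ofNat (nat_lit 23757482),Int.negSucc (nat_lit 15455005),Int.ofNat (nat_lit 39686459),Int.negSucc (nat_lit 14827779),Int.negSucc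 (nat_lit 36244408),Int.negSucc (nat_lit 4318539),Int.ofNat (nat_lit 43716),Int.ofNat (nat_lit 12025618),Int.ofNat (nat_lit 3923754),Int.ofNat (nat_lit 7430151),Int.ofNat (nat_lit 8898764),Int.ofNat (nat_lit 3444407),Int.ofNat (nat_lit 16804199),Int.ofNat (nat_lit 928180),Int.negSucc (nat_lit 1171952),Int.ofNat (nat_lit 2038090),Int.ofNat (nat_lit 14054888),Int.ofNat (nat_lit 8181236),Int.negSucc (nat_lit 10079979),Int.ofNat (nat_lit 53653529),Int.ofNat (nat_lit 7549930),Int.ofNat (nat_lit 27766788),Int.ofNat (nat_lit 24238874),Int.negSucc (nat_lit 22498650),Int.negSucc (nat_lit 7694720),Int.negSucc (nat_lit 7244236),Int.ofNat (nat_lit 729104),Int.ofNat (nat_lit 5017009),Int.negSucc (nat_lit 12428518),Int.ofNat (nat_lit 3299825),Int.negSucc (nat_lit 218277),Int.ofNat (nat_lit 6502798),Int.negSucc (nat_lit 7314399),Int.ofNat (nat_lit 1323748),Int.ofNat (nat_lit 26785169),Int.negSucc (nat_lit 23307990),Int.negSucc (nat_lit 6984132),Int.ofNat (nat_lit 9710985),Int.ofNat (nat_lit 42428105),Int.ofNat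 (nat_lit 18486614),Int.ofNat (nat_lit 16766425),Int.ofNat (nat_lit 5102415),Int.negSucc (nat_lit 922855),Int.negSucc (nat_lit 12352796),Int.ofNat (nat_lit 3971376),Int.negSucc (nat_lit 9305389),Int.negSucc (nat_lit 851519),Int.negSucc (nat_lit 15614347),Int.negSucc (nat_lit 37993391),Int.ofNat (nat_lit 41093842),Int.ofNat (nat_lit 9087096),Int.negSucc (nat_lit 24888801),Int.ofNat (nat_lit 36109365),Int.negSucc (nat_lit 17894166),Int.ofNat (nat_lit 2000794),Int.negSucc (nat_lit 6295930),Int.negSucc (nat_lit 1876123),Int.ofNat (nat_lit 12914230),Int.negSucc (nat_lit 18622113),Int.negSucc (nat_lit 43064797),Int.negSucc (nat_lit 9893791),Int.negSucc (nat_lit 20598948),Int.negSucc (nat_lit 14899970),Int.negSucc (nat_lit 2550284),Int.negSucc (nat_lit 1991480),Int.ofNat (nat_lit 11702395),Int.ofNat (nat_lit 2348313),Int.negSucc (nat_lit 7551615),Int.negSucc (nat_lit 4588652),Int.ofNat (nat_lit 8826987),Int.ofNat (nat_lit 40583068),Int.negSucc (nat_lit 2628293),Int.ofNat (nat_lit 44636680),Int.ofNat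 (nat_lit 376002),Int.ofNat (nat_lit 29644874),Int.negSucc (nat_lit 27241190),Int.negSucc (nat_lit 7129787),Int.ofNat (nat_lit 9011484),Int.ofNat (nat_lit 10636911),Int.negSucc (nat_lit 23392532),Int.negSucc (nat_lit 13261836),Int.ofNat (nat_lit 135590),Int.ofNat (nat_lit 21058178),Int.negSucc (nat_lit 8771209),Int.negSucc (nat_lit 13658037),Int.ofNat (nat_lit 15217865),Int.negSucc (nat_lit 5687974),Int.ofNat (nat_lit 15104971),Int.negSucc (nat_lit 5973765),Int.ofNat (nat_lit 12895009),Int.negSucc (nat_lit 4821001),Int.negSucc (nat_lit 28667020),Int.ofNat (nat_lit 7701430),Int.negSucc (nat_lit 7959673),Int.ofNat (nat_lit 12310364),Int.ofNat (nat_lit 5215461),Int.negSucc (nat_lit 4652443),Int.ofNat (nat_lit 3472965),Int.negSucc (nat_lit 13231137),Int.negSucc (nat_lit 13804960),Int.negSucc (nat_lit 1095048),Int.ofNat (nat_lit 12725398),Int.ofNat (nat_lit 1597263),Int.negSucc (nat_lit 12510253),Int.negSucc (nat_lit 8584057),Int.ofNat (nat_lit 54051),Int.negSucc (nat_lit 801929),Int.negSucc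 (nat_lit 17236651),Int.negSucc (nat_lit 14998080),Int.negSucc (nat_lit 24394640),Int.negSucc (nat_lit 4294087),Int.ofNat (nat_lit 2014001),Int.ofNat (nat_lit 1798129),Int.ofNat (nat_lit 12632923),Int.negSucc (nat_lit 28239582),Int.negSucc (nat_lit 10502818),Int.ofNat (nat_lit 14614226),Int.negSucc (nat_lit 21217370),Int.negSucc (nat_lit 3261551),Int.negSucc (nat_lit 13932254),Int.negSucc (nat_lit 436203),Int.ofNat (nat_lit 423668),Int.negSucc (nat_lit 25837722),Int.ofNat (nat_lit 4925597),Int.ofNat (nat_lit 28359279),Int.ofNat (nat_lit 3267474),Int.ofNat (nat_lit 35381751),Int.negSucc (nat_lit 21016254),Int.ofNat (nat_lit 1534568),Int.ofNat (nat_lit 14559958),Int.negSucc (nat_lit 14767372),Int.ofNat (nat_lit 12964986),Int.ofNat (nat_lit 22085277),Int.negSucc (nat_lit 7286635),Int.ofNat (nat_lit 1256772),Int.ofNat (nat_lit 13467342),Int.negSucc (nat_lit 23134425),Int.negSucc (nat_lit 4664672),Int.ofNat (nat_lit 6891738),Int.ofNat (nat_lit 12341901),Int.negSucc (nat_lit 6692748),Int.negSucc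 (nat_lit 7135903),Int.ofNat (nat_lit 2455036),Int.ofNat (nat_lit 13909862),Int.negSucc (nat_lit 1020514),Int.negSucc (nat_lit 93661447),Int.negSucc (nat_lit 227485710),Int.ofNat (nat_lit 7447743),Int.negSucc (nat_lit 3273827),Int.ofNat (nat_lit 20677532),Int.negSucc (nat_lit 7222475),Int.ofNat (nat_lit 10887262),Int.ofNat (nat_lit 4707214),Int.ofNat (nat_lit 1181249),Int.ofNat (nat_lit 53102661)])

/-- A row. -/
noncomputable def sr6_c5_10 : List ℕ × List ℤ :=
  ([(nat_lit 1),(nat_lit 0),(nat_lit 0),(nat_lit 1),(nat_lit 0),(nat_lit 0),(nat_lit 0),(nat_lit 0),(nat_lit 0),(nat_lit 0),(nat_lit 0),(nat_lit 0)], [Int.negSucc (nat_lit 128412997),Int.negSucc (nat_lit 2527035514),Int.negSucc (nat_lit 287497132),Int.ofNat (nat_lit 6000864),Int.ofNat (nat_lit 880357996),Int.negSucc (nat_lit 1188666716),Int.ofNat (nat_lit 385965464),Int.negSucc (nat_lit 187545470),Int.ofNat (nat_lit 756833631),Int.ofNat (nat_lit 995364245),Int.negSucc (nat_lit 113402786),Int.ofNat (nat_lit 71072285),Int.negSucc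 (nat_lit 484289746),Int.negSucc (nat_lit 241144058),Int.negSucc (nat_lit 259760915),Int.negSucc (nat_lit 172020807),Int.negSucc (nat_lit 49403950),Int.negSucc (nat_lit 17336114),Int.ofNat (nat_lit 35998655),Int.negSucc (nat_lit 222631021),Int.ofNat (nat_lit 576314218),Int.negSucc (nat_lit 575497128),Int.negSucc (nat_lit 140218036),Int.negSucc (nat_lit 860998183),Int.ofNat (nat_lit 127736247),Int.negSucc (nat_lit 125173813),Int.ofNat (nat_lit 14386636),Int.negSucc (nat_lit 302791762),Int.negSucc (nat_lit 476508672),Int.ofNat (nat_lit 395286540),Int.negSucc (nat_lit 474453203),Int.negSucc (nat_lit 279569988),Int.ofNat (nat_lit 106853753),Int.negSucc (nat_lit 207441867),Int.ofNat (nat_lit 387418157),Int.negSucc (nat_lit 54159102),Int.ofNat (nat_lit 196673693),Int.ofNat (nat_lit 335520044),Int.ofNat (nat_lit 157445841),Int.ofNat (nat_lit 155360837),Int.negSucc (nat_lit 125914149),Int.negSucc (nat_lit 154569420),Int.ofNat (nat_lit 78115832),Int.negSucc (nat_lit 133845193),Int.ofNat (nat_lit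 219664259),Int.ofNat (nat_lit 43039378),Int.ofNat (nat_lit 289129536),Int.negSucc (nat_lit 207360911),Int.ofNat (nat_lit 60227704),Int.ofNat (nat_lit 242653481),Int.negSucc (nat_lit 126208791),Int.negSucc (nat_lit 248614066),Int.ofNat (nat_lit 139677822),Int.negSucc (nat_lit 44179550),Int.negSucc (nat_lit 12427650),Int.ofNat (nat_lit 398106292),Int.ofNat (nat_lit 135831919),Int.ofNat (nat_lit 138573649),Int.negSucc (nat_lit 256467369),Int.ofNat (nat_lit 270556499),Int.negSucc (nat_lit 68215338),Int.ofNat (nat_lit 23240289),Int.negSucc (nat_lit 119124300),Int.negSucc (nat_lit 139659835),Int.negSucc (nat_lit 229888701),Int.negSucc (nat_lit 185762159),Int.ofNat (nat_lit 301852252),Int.negSucc (nat_lit 103160947),Int.negSucc (nat_lit 30473308),Int.negSucc (nat_lit 77829638),Int.ofNat (nat_lit 12042176),Int.ofNat (nat_lit 173093672),Int.negSucc (nat_lit 76162024),Int.ofNat (nat_lit 254368851),Int.ofNat (nat_lit 1951339),Int.ofNat (nat_lit 104893674),Int.negSucc (nat_lit 12892280),Int.ofNat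 (nat_lit 65774968),Int.negSucc (nat_lit 31827688),Int.ofNat (nat_lit 143494944),Int.ofNat (nat_lit 161826187),Int.ofNat (nat_lit 89154586),Int.negSucc (nat_lit 187273121),Int.ofNat (nat_lit 73608768),Int.ofNat (nat_lit 190969844),Int.negSucc (nat_lit 11618877),Int.ofNat (nat_lit 43933594),Int.negSucc (nat_lit 86174200),Int.ofNat (nat_lit 22259045),Int.ofNat (nat_lit 123408126),Int.ofNat (nat_lit 62175183),Int.ofNat (nat_lit 202403723),Int.ofNat (nat_lit 52028899),Int.ofNat (nat_lit 46245719),Int.ofNat (nat_lit 45595114),Int.ofNat (nat_lit 4682382),Int.ofNat (nat_lit 56248869),Int.ofNat (nat_lit 62614884),Int.negSucc (nat_lit 6246482),Int.negSucc (nat_lit 70520068),Int.ofNat (nat_lit 171373450),Int.ofNat (nat_lit 80044140),Int.negSucc (nat_lit 42149387),Int.ofNat (nat_lit 31346022),Int.ofNat (nat_lit 42055626),Int.ofNat (nat_lit 84972898),Int.negSucc (nat_lit 187938684),Int.negSucc (nat_lit 74206675),Int.ofNat (nat_lit 18214649),Int.negSucc (nat_lit 22090595),Int.ofNat (nat_lit 62245672),Int.ofNat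 (nat_lit 115729237),Int.ofNat (nat_lit 101061344),Int.ofNat (nat_lit 65497681),Int.ofNat (nat_lit 58954793),Int.negSucc (nat_lit 136398619),Int.ofNat (nat_lit 62170650),Int.negSucc (nat_lit 73098661),Int.ofNat (nat_lit 29844767),Int.ofNat (nat_lit 10820683),Int.negSucc (nat_lit 6492559),Int.ofNat (nat_lit 31114719),Int.ofNat (nat_lit 33460186),Int.ofNat (nat_lit 63461355),Int.negSucc (nat_lit 62597884),Int.negSucc (nat_lit 75154295),Int.ofNat (nat_lit 36855591),Int.ofNat (nat_lit 21828046),Int.negSucc (nat_lit 68244879),Int.ofNat (nat_lit 4207781),Int.negSucc (nat_lit 37540095),Int.negSucc (nat_lit 49706705),Int.ofNat (nat_lit 149857630),Int.negSucc (nat_lit 21106279),Int.ofNat (nat_lit 138840044),Int.negSucc (nat_lit 18618796),Int.ofNat (nat_lit 64325129),Int.ofNat (nat_lit 93588088),Int.negSucc (nat_lit 181336894),Int.negSucc (nat_lit 92115193),Int.ofNat (nat_lit 61129009),Int.ofNat (nat_lit 95930510),Int.ofNat (nat_lit 52336960),Int.ofNat (nat_lit 47321364),Int.negSucc (nat_lit 25320954),Int.ofNat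 (nat_lit 65395745),Int.ofNat (nat_lit 28960289),Int.negSucc (nat_lit 105564700),Int.ofNat (nat_lit 95441660),Int.negSucc (nat_lit 97208810),Int.negSucc (nat_lit 84028220),Int.negSucc (nat_lit 38214713),Int.negSucc (nat_lit 55082856),Int.negSucc (nat_lit 95572692),Int.ofNat (nat_lit 107814347),Int.negSucc (nat_lit 132364162),Int.negSucc (nat_lit 41189810),Int.negSucc (nat_lit 68179668),Int.ofNat (nat_lit 84469571),Int.negSucc (nat_lit 61195727),Int.negSucc (nat_lit 10624184),Int.ofNat (nat_lit 93338435),Int.ofNat (nat_lit 21717854),Int.ofNat (nat_lit 9222029),Int.ofNat (nat_lit 71894328),Int.negSucc (nat_lit 103177338),Int.ofNat (nat_lit 31979926),Int.negSucc (nat_lit 23606968),Int.negSucc (nat_lit 73788708),Int.ofNat (nat_lit 48387851),Int.ofNat (nat_lit 53558775),Int.ofNat (nat_lit 35631291),Int.negSucc (nat_lit 87905806),Int.ofNat (nat_lit 101232249),Int.negSucc (nat_lit 98364505),Int.negSucc (nat_lit 18932862),Int.negSucc (nat_lit 78852793),Int.ofNat (nat_lit 45421679),Int.negSucc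 (nat_lit 11637786),Int.negSucc (nat_lit 19114696),Int.negSucc (nat_lit 97280460),Int.negSucc (nat_lit 60757579),Int.negSucc (nat_lit 69877788),Int.ofNat (nat_lit 28377291),Int.negSucc (nat_lit 6686540),Int.negSucc (nat_lit 69391431),Int.ofNat (nat_lit 30878620),Int.ofNat (nat_lit 7077571),Int.ofNat (nat_lit 6314460),Int.negSucc (nat_lit 17262310),Int.negSucc (nat_lit 24216478),Int.ofNat (nat_lit 6455742),Int.negSucc (nat_lit 12434128),Int.negSucc (nat_lit 93415398),Int.ofNat (nat_lit 38860882),Int.negSucc (nat_lit 7961399),Int.negSucc (nat_lit 33517655),Int.negSucc (nat_lit 17155210),Int.negSucc (nat_lit 96645303),Int.ofNat (nat_lit 8244036),Int.negSucc (nat_lit 68232674),Int.negSucc (nat_lit 18609654),Int.ofNat (nat_lit 40296473),Int.negSucc (nat_lit 41372250),Int.negSucc (nat_lit 54154964),Int.ofNat (nat_lit 31172487),Int.ofNat (nat_lit 10590127),Int.negSucc (nat_lit 104977315),Int.negSucc (nat_lit 21818783),Int.ofNat (nat_lit 17221743),Int.ofNat (nat_lit 29771074),Int.ofNat (nat_lit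 299043),Int.negSucc (nat_lit 79630760),Int.ofNat (nat_lit 186338454),Int.negSucc (nat_lit 33683056),Int.ofNat (nat_lit 222446468),Int.ofNat (nat_lit 99919044),Int.negSucc (nat_lit 47084402),Int.negSucc (nat_lit 64992647),Int.negSucc (nat_lit 77355216),Int.ofNat (nat_lit 212884135),Int.ofNat (nat_lit 81934197),Int.negSucc (nat_lit 63500238),Int.ofNat (nat_lit 27087384),Int.ofNat (nat_lit 32318574),Int.negSucc (nat_lit 9763682),Int.ofNat (nat_lit 13817025),Int.ofNat (nat_lit 41727595),Int.ofNat (nat_lit 47303859),Int.ofNat (nat_lit 71013752),Int.negSucc (nat_lit 18496988),Int.negSucc (nat_lit 38348735),Int.negSucc (nat_lit 20923143),Int.ofNat (nat_lit 33188387),Int.ofNat (nat_lit 239031373),Int.negSucc (nat_lit 199298959),Int.negSucc (nat_lit 892909822),Int.ofNat (nat_lit 217013506),Int.negSucc (nat_lit 21225860),Int.negSucc (nat_lit 25521428),Int.negSucc (nat_lit 6440629),Int.negSucc (nat_lit 83689904),Int.ofNat (nat_lit 15026916),Int.negSucc (nat_lit 5892856),Int.ofNat (nat_lit 168791318)])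

/-- A row. -/
noncomputable def sr6_c5_11 : List ℕ × List ℤ :=
  ([(nat_lit 1),(nat_lit 1),(nat_lit 0),(nat_lit 0),(nat_lit 0),(nat_lit 0),(nat_lit 0),(nat_lit 0),(nat_lit 0),(nat_lit 0),(nat_lit 0),(nat_lit 0)], [Int.ofNat (nat_lit 1378121283),Int.negSucc (nat_lit 2450484727),Int.negSucc (nat_lit 2517077780),Int.negSucc (nat_lit 2181633429),Int.ofNat (nat_lit 3191401830),Int.ofNat (nat_lit 614393327),Int.ofNat (nat_lit 80540656),Int.ofNat (nat_lit 217280273),Int.negSucc (nat_lit 1137006076),Int.negSucc (nat_lit 1174894337),Int.negSucc (nat_lit 1106690709),Int.negSucc (nat_lit 233829047),Int.negSucc (nat_lit 715692783),Int.ofNat (nat_lit 127435098),Int.negSucc (nat_lit 286030701),Int.negSucc (nat_lit 467706604),Int.ofNat (nat_lit 566692183),Int.ofNat (nat_lit 138104291),Int.negSucc (nat_lit 143586628),Int.ofNat (nat_lit 131857210),Int.negSucc (nat_lit 635613160),Int.ofNat (nat_lit 445180872),Int.negSucc (nat_lit 426213190),Int.ofNat (nat_lit 1058452061),Int.negSucc (nat_lit 170660069),Int.ofNat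 (nat_lit 908803421),Int.ofNat (nat_lit 363836249),Int.negSucc (nat_lit 879070898),Int.ofNat (nat_lit 758356297),Int.ofNat (nat_lit 71945592),Int.ofNat (nat_lit 300540733),Int.ofNat (nat_lit 611164686),Int.negSucc (nat_lit 555486712),Int.ofNat (nat_lit 101521288),Int.ofNat (nat_lit 617289872),Int.negSucc (nat_lit 102050507),Int.negSucc (nat_lit 510636600),Int.negSucc (nat_lit 82553604),Int.negSucc (nat_lit 876300188),Int.ofNat (nat_lit 3630268),Int.ofNat (nat_lit 33514461),Int.negSucc (nat_lit 386788064),Int.negSucc (nat_lit 286004979),Int.negSucc (nat_lit 591981736),Int.ofNat (nat_lit 328203380),Int.negSucc (nat_lit 473088162),Int.ofNat (nat_lit 225320917),Int.ofNat (nat_lit 33378093),Int.ofNat (nat_lit 49346),Int.negSucc (nat_lit 165189701),Int.negSucc (nat_lit 25063602),Int.ofNat (nat_lit 132805458),Int.ofNat (nat_lit 350751008),Int.ofNat (nat_lit 328970383),Int.negSucc (nat_lit 213943223),Int.ofNat (nat_lit 173607325),Int.ofNat (nat_lit 46605202),Int.negSucc (nat_lit 10580045),Int.negSucc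 (nat_lit 97497205),Int.negSucc (nat_lit 27917492),Int.ofNat (nat_lit 20887643),Int.negSucc (nat_lit 96747524),Int.ofNat (nat_lit 129421916),Int.ofNat (nat_lit 132763606),Int.ofNat (nat_lit 411760298),Int.ofNat (nat_lit 149859359),Int.negSucc (nat_lit 32144820),Int.negSucc (nat_lit 170896143),Int.ofNat (nat_lit 180713459),Int.ofNat (nat_lit 231470636),Int.negSucc (nat_lit 148885051),Int.ofNat (nat_lit 133922251),Int.ofNat (nat_lit 354903279),Int.ofNat (nat_lit 74999610),Int.negSucc (nat_lit 83627114),Int.negSucc (nat_lit 93996955),Int.ofNat (nat_lit 11239205),Int.ofNat (nat_lit 6029089),Int.ofNat (nat_lit 220068532),Int.negSucc (nat_lit 248893383),Int.ofNat (nat_lit 37932645),Int.negSucc (nat_lit 68469561),Int.ofNat (nat_lit 24127121),Int.negSucc (nat_lit 94529773),Int.negSucc (nat_lit 32761777),Int.ofNat (nat_lit 5840515),Int.negSucc (nat_lit 334675349),Int.negSucc (nat_lit 27490331),Int.ofNat (nat_lit 310975818),Int.negSucc (nat_lit 114468462),Int.ofNat (nat_lit 41225966),Int.negSucc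 (nat_lit 80433575),Int.ofNat (nat_lit 252977188),Int.ofNat (nat_lit 213369044),Int.negSucc (nat_lit 384347045),Int.negSucc (nat_lit 28941836),Int.negSucc (nat_lit 2219307),Int.ofNat (nat_lit 2106903),Int.ofNat (nat_lit 37586261),Int.negSucc (nat_lit 242845049),Int.negSucc (nat_lit 23507117),Int.ofNat (nat_lit 155624832),Int.ofNat (nat_lit 25275667),Int.negSucc (nat_lit 31779187),Int.negSucc (nat_lit 67348692),Int.negSucc (nat_lit 34459869),Int.ofNat (nat_lit 94538362),Int.negSucc (nat_lit 33045933),Int.negSucc (nat_lit 60637504),Int.negSucc (nat_lit 5919304),Int.negSucc (nat_lit 270377),Int.ofNat (nat_lit 11470222),Int.ofNat (nat_lit 55780346),Int.ofNat (nat_lit 172121131),Int.negSucc (nat_lit 48663229),Int.negSucc (nat_lit 86720609),Int.negSucc (nat_lit 56941561),Int.ofNat (nat_lit 30978099),Int.ofNat (nat_lit 61725005),Int.ofNat (nat_lit 16216378),Int.negSucc (nat_lit 48777114),Int.ofNat (nat_lit 21966457),Int.negSucc (nat_lit 22011097),Int.ofNat (nat_lit 1222636),Int.ofNat (nat_lit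 148266634),Int.negSucc (nat_lit 8252369),Int.negSucc (nat_lit 92950880),Int.negSucc (nat_lit 135144652),Int.ofNat (nat_lit 75349040),Int.ofNat (nat_lit 45212063),Int.negSucc (nat_lit 122465059),Int.ofNat (nat_lit 4929104),Int.negSucc (nat_lit 44026989),Int.ofNat (nat_lit 35916353),Int.negSucc (nat_lit 52162545),Int.negSucc (nat_lit 61925713),Int.negSucc (nat_lit 76047943),Int.negSucc (nat_lit 111097838),Int.ofNat (nat_lit 95063552),Int.negSucc (nat_lit 34761168),Int.ofNat (nat_lit 36001249),Int.negSucc (nat_lit 34018885),Int.ofNat (nat_lit 95562343),Int.ofNat (nat_lit 56081518),Int.negSucc (nat_lit 24752071),Int.negSucc (nat_lit 15545788),Int.negSucc (nat_lit 177965106),Int.ofNat (nat_lit 105482714),Int.ofNat (nat_lit 31336993),Int.negSucc (nat_lit 65759392),Int.negSucc (nat_lit 183601914),Int.ofNat (nat_lit 75743009),Int.negSucc (nat_lit 3461347),Int.ofNat (nat_lit 32858280),Int.negSucc (nat_lit 40274911),Int.negSucc (nat_lit 41331521),Int.negSucc (nat_lit 13368049),Int.negSucc (nat_lit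 11330873),Int.negSucc (nat_lit 4129618),Int.ofNat (nat_lit 15773835),Int.negSucc (nat_lit 160808856),Int.negSucc (nat_lit 124167787),Int.ofNat (nat_lit 47168257),Int.ofNat (nat_lit 38607032),Int.ofNat (nat_lit 16948068),Int.negSucc (nat_lit 65652328),Int.negSucc (nat_lit 25350744),Int.negSucc (nat_lit 171046571),Int.ofNat (nat_lit 33715980),Int.ofNat (nat_lit 34469363),Int.ofNat (nat_lit 46105609),Int.ofNat (nat_lit 47649162),Int.negSucc (nat_lit 68558345),Int.negSucc (nat_lit 29997021),Int.ofNat (nat_lit 33852534),Int.negSucc (nat_lit 127845027),Int.ofNat (nat_lit 100797762),Int.negSucc (nat_lit 84600008),Int.negSucc (nat_lit 34325331),Int.negSucc (nat_lit 72707707),Int.ofNat (nat_lit 14490582),Int.negSucc (nat_lit 46131361),Int.ofNat (nat_lit 16628487),Int.negSucc (nat_lit 43900133),Int.negSucc (nat_lit 60087446),Int.ofNat (nat_lit 58681097),Int.ofNat (nat_lit 56602066),Int.negSucc (nat_lit 42439356),Int.negSucc (nat_lit 8885394),Int.negSucc (nat_lit 40241362),Int.negSucc (nat_lit 50245826),Int.ofNat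 (nat_lit 69572247),Int.ofNat (nat_lit 38059827),Int.ofNat (nat_lit 84540138),Int.ofNat (nat_lit 47049354),Int.ofNat (nat_lit 57933007),Int.ofNat (nat_lit 5563960),Int.ofNat (nat_lit 39503877),Int.ofNat (nat_lit 21997738),Int.ofNat (nat_lit 45825938),Int.negSucc (nat_lit 53960352),Int.ofNat (nat_lit 25511787),Int.negSucc (nat_lit 95320874),Int.negSucc (nat_lit 62744735),Int.ofNat (nat_lit 91612115),Int.ofNat (nat_lit 7352892),Int.negSucc (nat_lit 65483192),Int.negSucc (nat_lit 18015425),Int.negSucc (nat_lit 28602189),Int.negSucc (nat_lit 157737536),Int.negSucc (nat_lit 11196109),Int.negSucc (nat_lit 39866491),Int.ofNat (nat_lit 79960665),Int.negSucc (nat_lit 322957566),Int.negSucc (nat_lit 27214943),Int.negSucc (nat_lit 124913579),Int.ofNat (nat_lit 69843067),Int.negSucc (nat_lit 106215083),Int.ofNat (nat_lit 34171045),Int.ofNat (nat_lit 114708165),Int.ofNat (nat_lit 72943113),Int.negSucc (nat_lit 750796),Int.negSucc (nat_lit 58553752),Int.ofNat (nat_lit 58185121),Int.negSucc (nat_lit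 89394796),Int.ofNat (nat_lit 66284807),Int.negSucc (nat_lit 38989800),Int.negSucc (nat_lit 57501989),Int.negSucc (nat_lit 170060390),Int.negSucc (nat_lit 76285856),Int.ofNat (nat_lit 61951770),Int.ofNat (nat_lit 83535411),Int.ofNat (nat_lit 116645703),Int.negSucc (nat_lit 109401473),Int.negSucc (nat_lit 14434997),Int.ofNat (nat_lit 261189822),Int.negSucc (nat_lit 106058941),Int.negSucc (nat_lit 318826184),Int.negSucc (nat_lit 1696616150),Int.negSucc (nat_lit 347154528),Int.ofNat (nat_lit 572636777),Int.negSucc (nat_lit 40325638),Int.negSucc (nat_lit 303348863),Int.negSucc (nat_lit 234873692),Int.ofNat (nat_lit 60369388),Int.ofNat (nat_lit 540190203)])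

/-- A row. -/
noncomputable def sr6_c5_12 : List ℕ × List ℤ :=
  ([(nat_lit 1),(nat_lit 1),(nat_lit 1),(nat_lit 0),(nat_lit 0),(nat_lit 0),(nat_lit 0),(nat_lit 0),(nat_lit 0),(nat_lit 0),(nat_lit 0),(nat_lit 0)], [Int.ofNat (nat_lit 597250772),Int.negSucc (nat_lit 2756899471),Int.negSucc (nat_lit 2020350680),Int.negSucc (nat_lit 1629463474),Int.ofNat (nat_lit 2739538374),Int.ofNat (nat_lit 136315658),Int.negSucc (nat_lit 45844715),Int.negSucc (nat_lit 7557382),Int.negSucc (nat_lit 540747441),Int.negSucc (nat_lit 811702231),Int.negSucc (nat_lit 786396531),Int.ofNat (nat_lit 60894401),Int.negSucc (nat_lit 826365640),Int.negSucc (nat_lit 209299506),Int.negSucc (nat_lit 415176451),Int.negSucc (nat_lit 393965176),Int.negSucc (nat_lit 38681751),Int.negSucc (nat_lit 321569772),Int.ofNat (nat_lit 89768382),Int.negSucc (nat_lit 38369152),Int.negSucc (nat_lit 30902894),Int.negSucc (nat_lit 235241268),Int.ofNat (nat_lit 834189),Int.ofNat (nat_lit 138625753),Int.ofNat (nat_lit 51082355),Int.ofNat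 (nat_lit 506421383),Int.ofNat (nat_lit 114651588),Int.negSucc (nat_lit 315213681),Int.ofNat (nat_lit 26059753),Int.ofNat (nat_lit 96977235),Int.negSucc (nat_lit 189287177),Int.ofNat (nat_lit 167908192),Int.negSucc (nat_lit 74404114),Int.negSucc (nat_lit 31278839),Int.ofNat (nat_lit 553948719),Int.negSucc (nat_lit 134099085),Int.negSucc (nat_lit 199758448),Int.ofNat (nat_lit 59950840),Int.negSucc (nat_lit 736590655),Int.negSucc (nat_lit 139190974),Int.negSucc (nat_lit 90465947),Int.negSucc (nat_lit 436779532),Int.negSucc (nat_lit 164174910),Int.negSucc (nat_lit 515522193),Int.ofNat (nat_lit 497657920),Int.negSucc (nat_lit 83978495),Int.ofNat (nat_lit 202233083),Int.negSucc (nat_lit 1671438),Int.ofNat (nat_lit 149922256),Int.ofNat (nat_lit 11098028),Int.negSucc (nat_lit 98372406),Int.negSucc (nat_lit 10656573),Int.ofNat (nat_lit 286455826),Int.ofNat (nat_lit 296407756),Int.ofNat (nat_lit 4808003),Int.ofNat (nat_lit 114485409),Int.ofNat (nat_lit 58705645),Int.ofNat (nat_lit 113286354),Int.negSucc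 (nat_lit 9473838),Int.ofNat (nat_lit 54123229),Int.ofNat (nat_lit 31592469),Int.ofNat (nat_lit 93218072),Int.ofNat (nat_lit 28413639),Int.ofNat (nat_lit 38489849),Int.ofNat (nat_lit 75474547),Int.ofNat (nat_lit 23606649),Int.ofNat (nat_lit 151753062),Int.negSucc (nat_lit 48369820),Int.ofNat (nat_lit 133861139),Int.ofNat (nat_lit 202224458),Int.negSucc (nat_lit 6973664),Int.ofNat (nat_lit 216463999),Int.ofNat (nat_lit 203245029),Int.ofNat (nat_lit 97357809),Int.ofNat (nat_lit 26202434),Int.ofNat (nat_lit 76625861),Int.ofNat (nat_lit 3497243),Int.ofNat (nat_lit 22954972),Int.ofNat (nat_lit 44392073),Int.negSucc (nat_lit 135005899),Int.ofNat (nat_lit 59796041),Int.negSucc (nat_lit 19801104),Int.ofNat (nat_lit 43698383),Int.negSucc (nat_lit 82406936),Int.ofNat (nat_lit 45890834),Int.negSucc (nat_lit 28699192),Int.negSucc (nat_lit 212376076),Int.negSucc (nat_lit 43536153),Int.ofNat (nat_lit 4907687),Int.negSucc (nat_lit 21365863),Int.ofNat (nat_lit 12577461),Int.negSucc (nat_lit 66250985),Int.negSucc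 (nat_lit 37757811),Int.ofNat (nat_lit 66303524),Int.ofNat (nat_lit 37445371),Int.ofNat (nat_lit 10681157),Int.ofNat (nat_lit 47735041),Int.ofNat (nat_lit 37389006),Int.ofNat (nat_lit 38510961),Int.negSucc (nat_lit 14478528),Int.ofNat (nat_lit 46382321),Int.negSucc (nat_lit 15656670),Int.ofNat (nat_lit 20484578),Int.negSucc (nat_lit 22106171),Int.ofNat (nat_lit 37813985),Int.negSucc (nat_lit 62872236),Int.ofNat (nat_lit 8778366),Int.negSucc (nat_lit 22071400),Int.negSucc (nat_lit 25131101),Int.negSucc (nat_lit 36079175),Int.negSucc (nat_lit 21972370),Int.negSucc (nat_lit 12219461),Int.ofNat (nat_lit 14183969),Int.ofNat (nat_lit 128221031),Int.ofNat (nat_lit 27988149),Int.negSucc (nat_lit 265112),Int.negSucc (nat_lit 2202836),Int.negSucc (nat_lit 16821724),Int.ofNat (nat_lit 60913681),Int.ofNat (nat_lit 26020048),Int.negSucc (nat_lit 41846111),Int.ofNat (nat_lit 14235480),Int.negSucc (nat_lit 6948043),Int.ofNat (nat_lit 23377275),Int.ofNat (nat_lit 66341972),Int.negSucc (nat_lit 17083381),Int.ofNat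 (nat_lit 32059273),Int.negSucc (nat_lit 43952637),Int.ofNat (nat_lit 14187814),Int.ofNat (nat_lit 795816),Int.negSucc (nat_lit 3420931),Int.negSucc (nat_lit 26672673),Int.ofNat (nat_lit 24984415),Int.negSucc (nat_lit 37368070),Int.ofNat (nat_lit 128342561),Int.negSucc (nat_lit 15579838),Int.negSucc (nat_lit 34707683),Int.negSucc (nat_lit 37997051),Int.ofNat (nat_lit 13213803),Int.negSucc (nat_lit 23727783),Int.negSucc (nat_lit 30400494),Int.negSucc (nat_lit 43329907),Int.ofNat (nat_lit 81626886),Int.ofNat (nat_lit 58076786),Int.negSucc (nat_lit 75594018),Int.negSucc (nat_lit 22477473),Int.negSucc (nat_lit 82279971),Int.negSucc (nat_lit 64518432),Int.ofNat (nat_lit 103538080),Int.ofNat (nat_lit 33445647),Int.ofNat (nat_lit 16833397),Int.ofNat (nat_lit 66153540),Int.negSucc (nat_lit 388283),Int.ofNat (nat_lit 24729290),Int.ofNat (nat_lit 136065549),Int.negSucc (nat_lit 44062999),Int.negSucc (nat_lit 83511647),Int.negSucc (nat_lit 42311080),Int.ofNat (nat_lit 46430258),Int.negSucc (nat_lit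 25854118),Int.negSucc (nat_lit 56294989),Int.negSucc (nat_lit 41746829),Int.ofNat (nat_lit 7508090),Int.negSucc (nat_lit 24083049),Int.ofNat (nat_lit 44920042),Int.negSucc (nat_lit 50574835),Int.ofNat (nat_lit 7945818),Int.negSucc (nat_lit 58984769),Int.ofNat (nat_lit 50670117),Int.ofNat (nat_lit 45263863),Int.ofNat (nat_lit 74950016),Int.ofNat (nat_lit 23836354),Int.negSucc (nat_lit 37730874),Int.ofNat (nat_lit 44228164),Int.negSucc (nat_lit 22492599),Int.ofNat (nat_lit 4621037),Int.ofNat (nat_lit 18408844),Int.negSucc (nat_lit 51175984),Int.ofNat (nat_lit 6288767),Int.negSucc (nat_lit 80620038),Int.negSucc (nat_lit 32474941),Int.negSucc (nat_lit 81923378),Int.ofNat (nat_lit 1461076),Int.ofNat (nat_lit 5594676),Int.negSucc (nat_lit 58942654),Int.ofNat (nat_lit 22217156),Int.ofNat (nat_lit 1253106),Int.ofNat (nat_lit 60055185),Int.ofNat (nat_lit 26156480),Int.negSucc (nat_lit 17085101),Int.negSucc (nat_lit 3978859),Int.ofNat (nat_lit 46249238),Int.negSucc (nat_lit 50609220),Int.ofNat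 (nat_lit 24872692),Int.ofNat (nat_lit 7752036),Int.negSucc (nat_lit 2530703),Int.ofNat (nat_lit 21866195),Int.ofNat (nat_lit 11388233),Int.negSucc (nat_lit 23781276),Int.ofNat (nat_lit 46569401),Int.negSucc (nat_lit 65270985),Int.ofNat (nat_lit 23416122),Int.negSucc (nat_lit 71168331),Int.negSucc (nat_lit 44496575),Int.ofNat (nat_lit 5533938),Int.negSucc (nat_lit 43824595),Int.negSucc (nat_lit 12296362),Int.negSucc (nat_lit 25126419),Int.negSucc (nat_lit 7546294),Int.negSucc (nat_lit 68960144),Int.ofNat (nat_lit 26829746),Int.negSucc (nat_lit 18168710),Int.negSucc (nat_lit 7006750),Int.negSucc (nat_lit 86226172),Int.ofNat (nat_lit 5071899),Int.negSucc (nat_lit 48057946),Int.ofNat (nat_lit 33081423),Int.negSucc (nat_lit 17567246),Int.negSucc (nat_lit 96505681),Int.ofNat (nat_lit 46827162),Int.ofNat (nat_lit 13583814),Int.negSucc (nat_lit 75145498),Int.ofNat (nat_lit 80883253),Int.negSucc (nat_lit 24803200),Int.negSucc (nat_lit 54622672),Int.ofNat (nat_lit 21303063),Int.ofNat (nat_lit 63203703),Int.negSucc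 (nat_lit 22258838),Int.negSucc (nat_lit 33083746),Int.negSucc (nat_lit 36903369),Int.negSucc (nat_lit 33783678),Int.ofNat (nat_lit 46748759),Int.ofNat (nat_lit 56286021),Int.negSucc (nat_lit 60526394),Int.ofNat (nat_lit 224958168),Int.ofNat (nat_lit 55728928),Int.negSucc (nat_lit 277019633),Int.negSucc (nat_lit 179325201),Int.negSucc (nat_lit 736553638),Int.negSucc (nat_lit 6176178),Int.negSucc (nat_lit 591506131),Int.negSucc (nat_lit 5622645),Int.negSucc (nat_lit 12463492),Int.negSucc (nat_lit 76927632),Int.ofNat (nat_lit 21333102),Int.negSucc (nat_lit 23890391),Int.ofNat (nat_lit 145216308)])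

/-- A row. -/
noncomputable def sr6_c5_13 : List ℕ × List ℤ :=
  ([(nat_lit 1),(nat_lit 3),(nat_lit 0),(nat_lit 0),(nat_lit 0),(nat_lit 0),(nat_lit 0),(nat_lit 0),(nat_lit 0),(nat_lit 0),(nat_lit 0),(nat_lit 0)], [Int.ofNat (nat_lit 765571370),Int.ofNat (nat_lit 1492533198),Int.negSucc (nat_lit 302569166),Int.negSucc (nat_lit 345116681),Int.ofNat (nat_lit 961198405),Int.negSucc (nat_lit 426642061),Int.ofNat (nat_lit 522068149),Int.ofNat (nat_lit 522547634),Int.ofNat (nat_lit 384899963),Int.ofNat (nat_lit 36934471),Int.ofNat (nat_lit 182907598),Int.ofNat (nat_lit 185345598),Int.ofNat (nat_lit 90235466),Int.ofNat (nat_lit 387116777),Int.ofNat (nat_lit 205571011),Int.negSucc (nat_lit 37273893),Int.negSucc (nat_lit 467681132),Int.ofNat (nat_lit 458598485),Int.negSucc (nat_lit 95849548),Int.negSucc (nat_lit 213269369),Int.ofNat (nat_lit 382509781),Int.negSucc (nat_lit 280898148),Int.ofNat (nat_lit 79955038),Int.negSucc (nat_lit 344903720),Int.negSucc (nat_lit 110049386),Int.ofNat (nat_lit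 224932175),Int.negSucc (nat_lit 75411290),Int.ofNat (nat_lit 212874109),Int.ofNat (nat_lit 304729021),Int.negSucc (nat_lit 467741775),Int.ofNat (nat_lit 590064968),Int.ofNat (nat_lit 538858950),Int.ofNat (nat_lit 39145891),Int.ofNat (nat_lit 342889503),Int.negSucc (nat_lit 277574681),Int.negSucc (nat_lit 249799503),Int.negSucc (nat_lit 500325415),Int.negSucc (nat_lit 98568497),Int.negSucc (nat_lit 133387446),Int.ofNat (nat_lit 93709905),Int.negSucc (nat_lit 33869644),Int.negSucc (nat_lit 191405978),Int.negSucc (nat_lit 60489061),Int.negSucc (nat_lit 265677068),Int.ofNat (nat_lit 179348639),Int.ofNat (nat_lit 50931372),Int.negSucc (nat_lit 67815100),Int.ofNat (nat_lit 50033462),Int.ofNat (nat_lit 268528109),Int.negSucc (nat_lit 217807500),Int.ofNat (nat_lit 305628393),Int.negSucc (nat_lit 81506871),Int.negSucc (nat_lit 180888983),Int.ofNat (nat_lit 101362562),Int.ofNat (nat_lit 307315702),Int.negSucc (nat_lit 288003739),Int.ofNat (nat_lit 46860662),Int.ofNat (nat_lit 138282962),Int.ofNat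 (nat_lit 15697937),Int.negSucc (nat_lit 261573334),Int.ofNat (nat_lit 17540341),Int.ofNat (nat_lit 420072024),Int.ofNat (nat_lit 372905154),Int.negSucc (nat_lit 307006714),Int.negSucc (nat_lit 237953601),Int.negSucc (nat_lit 277200688),Int.negSucc (nat_lit 280264678),Int.negSucc (nat_lit 63318364),Int.ofNat (nat_lit 210083451),Int.ofNat (nat_lit 210766990),Int.ofNat (nat_lit 470324477),Int.negSucc (nat_lit 161375914),Int.ofNat (nat_lit 32206579),Int.negSucc (nat_lit 196627447),Int.ofNat (nat_lit 66526634),Int.ofNat (nat_lit 116279421),Int.ofNat (nat_lit 129942484),Int.negSucc (nat_lit 195016461),Int.ofNat (nat_lit 59424426),Int.ofNat (nat_lit 292907911),Int.negSucc (nat_lit 41288814),Int.ofNat (nat_lit 68971107),Int.negSucc (nat_lit 183172921),Int.ofNat (nat_lit 201893612),Int.ofNat (nat_lit 117299400),Int.ofNat (nat_lit 43335072),Int.ofNat (nat_lit 332400139),Int.negSucc (nat_lit 161353863),Int.ofNat (nat_lit 150067448),Int.ofNat (nat_lit 293295603),Int.negSucc (nat_lit 102153269),Int.ofNat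 (nat_lit 129821561),Int.negSucc (nat_lit 193750704),Int.negSucc (nat_lit 205556568),Int.ofNat (nat_lit 165049942),Int.ofNat (nat_lit 131615586),Int.negSucc (nat_lit 19262780),Int.ofNat (nat_lit 66995578),Int.ofNat (nat_lit 13725572),Int.ofNat (nat_lit 211390895),Int.negSucc (nat_lit 181613686),Int.ofNat (nat_lit 126063393),Int.ofNat (nat_lit 18732463),Int.negSucc (nat_lit 107284784),Int.negSucc (nat_lit 6888193),Int.negSucc (nat_lit 41853070),Int.negSucc (nat_lit 64959629),Int.negSucc (nat_lit 41127362),Int.ofNat (nat_lit 135797308),Int.negSucc (nat_lit 123568808),Int.negSucc (nat_lit 103051973),Int.ofNat (nat_lit 36890396),Int.negSucc (nat_lit 237995562),Int.negSucc (nat_lit 244737655),Int.ofNat (nat_lit 19508957),Int.negSucc (nat_lit 2570122),Int.ofNat (nat_lit 81097302),Int.negSucc (nat_lit 3182849),Int.ofNat (nat_lit 78143960),Int.ofNat (nat_lit 191507721),Int.ofNat (nat_lit 75698039),Int.ofNat (nat_lit 39536862),Int.negSucc (nat_lit 37981155),Int.ofNat (nat_lit 20488929),Int.ofNat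 (nat_lit 18348697),Int.ofNat (nat_lit 53095911),Int.ofNat (nat_lit 146320968),Int.negSucc (nat_lit 37278002),Int.negSucc (nat_lit 63392485),Int.negSucc (nat_lit 85104611),Int.ofNat (nat_lit 7184635),Int.ofNat (nat_lit 7161094),Int.ofNat (nat_lit 49112550),Int.ofNat (nat_lit 29287569),Int.negSucc (nat_lit 92060447),Int.ofNat (nat_lit 20881237),Int.ofNat (nat_lit 17475221),Int.ofNat (nat_lit 65002025),Int.ofNat (nat_lit 4100340),Int.negSucc (nat_lit 76757122),Int.negSucc (nat_lit 43140897),Int.negSucc (nat_lit 139349035),Int.negSucc (nat_lit 18740969),Int.negSucc (nat_lit 21102392),Int.negSucc (nat_lit 146104572),Int.ofNat (nat_lit 203222720),Int.ofNat (nat_lit 102583104),Int.ofNat (nat_lit 112412907),Int.negSucc (nat_lit 138204979),Int.ofNat (nat_lit 20596485),Int.negSucc (nat_lit 86754192),Int.ofNat (nat_lit 92760767),Int.ofNat (nat_lit 61207120),Int.ofNat (nat_lit 110672550),Int.negSucc (nat_lit 161696498),Int.negSucc (nat_lit 188010579),Int.negSucc (nat_lit 153049077),Int.negSucc (nat_lit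 4420406),Int.negSucc (nat_lit 39963715),Int.ofNat (nat_lit 110248345),Int.ofNat (nat_lit 137754929),Int.negSucc (nat_lit 146622076),Int.negSucc (nat_lit 136443759),Int.negSucc (nat_lit 119225399),Int.ofNat (nat_lit 45578253),Int.ofNat (nat_lit 56640370),Int.ofNat (nat_lit 34814476),Int.ofNat (nat_lit 229360837),Int.ofNat (nat_lit 93775881),Int.negSucc (nat_lit 211902331),Int.negSucc (nat_lit 41722554),Int.negSucc (nat_lit 317981559),Int.ofNat (nat_lit 97504471),Int.ofNat (nat_lit 24043304),Int.ofNat (nat_lit 201283263),Int.ofNat (nat_lit 418245484),Int.negSucc (nat_lit 62164942),Int.ofNat (nat_lit 34363223),Int.ofNat (nat_lit 10986735),Int.negSucc (nat_lit 6714910),Int.negSucc (nat_lit 47587554),Int.ofNat (nat_lit 32019385),Int.ofNat (nat_lit 72812267),Int.ofNat (nat_lit 99893745),Int.negSucc (nat_lit 57297957),Int.negSucc (nat_lit 28822668),Int.negSucc (nat_lit 146790606),Int.negSucc (nat_lit 43822449),Int.ofNat (nat_lit 39539757),Int.ofNat (nat_lit 28888950),Int.ofNat (nat_lit 109208384),Int.negSucc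 (nat_lit 206674260),Int.negSucc (nat_lit 199135079),Int.negSucc (nat_lit 18565631),Int.negSucc (nat_lit 197411495),Int.negSucc (nat_lit 147727233),Int.negSucc (nat_lit 24522037),Int.negSucc (nat_lit 25662040),Int.ofNat (nat_lit 10999700),Int.negSucc (nat_lit 82024874),Int.ofNat (nat_lit 167455830),Int.ofNat (nat_lit 30873864),Int.negSucc (nat_lit 31962413),Int.negSucc (nat_lit 60235011),Int.negSucc (nat_lit 149619908),Int.ofNat (nat_lit 91089336),Int.ofNat (nat_lit 18471025),Int.negSucc (nat_lit 76586329),Int.negSucc (nat_lit 49319578),Int.ofNat (nat_lit 8618086),Int.negSucc (nat_lit 130390059),Int.negSucc (nat_lit 42259438),Int.negSucc (nat_lit 12757820),Int.ofNat (nat_lit 198747279),Int.ofNat (nat_lit 113762474),Int.negSucc (nat_lit 61120344),Int.negSucc (nat_lit 230159083),Int.ofNat (nat_lit 246038435),Int.negSucc (nat_lit 167679647),Int.negSucc (nat_lit 98426620),Int.negSucc (nat_lit 128303213),Int.ofNat (nat_lit 254757849),Int.ofNat (nat_lit 46425268),Int.negSucc (nat_lit 1388942),Int.negSucc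 (nat_lit 81899225),Int.negSucc (nat_lit 27315934),Int.ofNat (nat_lit 125738874),Int.ofNat (nat_lit 153792627),Int.ofNat (nat_lit 75266751),Int.ofNat (nat_lit 4006018),Int.negSucc (nat_lit 66201738),Int.negSucc (nat_lit 110665149),Int.negSucc (nat_lit 33804202),Int.ofNat (nat_lit 30611482),Int.ofNat (nat_lit 315463293),Int.ofNat (nat_lit 96975023),Int.ofNat (nat_lit 271466583),Int.negSucc (nat_lit 142419259),Int.ofNat (nat_lit 1408052393),Int.ofNat (nat_lit 448585034),Int.negSucc (nat_lit 1076721365),Int.negSucc (nat_lit 1070775119),Int.negSucc (nat_lit 1686060315),Int.ofNat (nat_lit 59043129),Int.negSucc (nat_lit 277992936),Int.negSucc (nat_lit 42274702),Int.ofNat (nat_lit 139059692),Int.ofNat (nat_lit 993726835)])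

/-- A row. -/
noncomputable def sr6_c5_14 : List ℕ × List ℤ :=
  ([(nat_lit 2),(nat_lit 0),(nat_lit 0),(nat_lit 1),(nat_lit 0),(nat_lit 0),(nat_lit 0),(nat_lit 0),(nat_lit 0),(nat_lit 0),(nat_lit 0),(nat_lit 0)], [Int.negSucc (nat_lit 294584662),Int.ofNat (nat_lit 1953416014),Int.ofNat (nat_lit 580384496),Int.ofNat (nat_lit 122738972),Int.negSucc (nat_lit 1013505993),Int.ofNat (nat_lit 923366901),Int.negSucc (nat_lit 345737321),Int.ofNat (nat_lit 15130394),Int.negSucc (nat_lit 419881938),Int.negSucc (nat_lit 387922870),Int.ofNat (nat_lit 121328567),Int.negSucc (nat_lit 77247426),Int.ofNat (nat_lit 583644463),Int.ofNat (nat_lit 131274055),Int.ofNat (nat_lit 302645974),Int.ofNat (nat_lit 178875042),Int.ofNat (nat_lit 105593631),Int.ofNat (nat_lit 93187685),Int.ofNat (nat_lit 6746797),Int.ofNat (nat_lit 80365440),Int.negSucc (nat_lit 417060057),Int.ofNat (nat_lit 416586709),Int.ofNat (nat_lit 119811341),Int.ofNat (nat_lit 522403400),Int.negSucc (nat_lit 91486174),Int.negSucc (nat_lit 26788233),Int.ofNat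 (nat_lit 43456962),Int.ofNat (nat_lit 210066458),Int.ofNat (nat_lit 288120562),Int.negSucc (nat_lit 273052046),Int.ofNat (nat_lit 300630010),Int.ofNat (nat_lit 138929702),Int.negSucc (nat_lit 25298375),Int.ofNat (nat_lit 138653778),Int.negSucc (nat_lit 335268064),Int.ofNat (nat_lit 169000562),Int.negSucc (nat_lit 117953258),Int.negSucc (nat_lit 289249094),Int.ofNat (nat_lit 88270900),Int.negSucc (nat_lit 122524148),Int.ofNat (nat_lit 42718857),Int.ofNat (nat_lit 166710360),Int.negSucc (nat_lit 73073211),Int.ofNat (nat_lit 227335574),Int.negSucc (nat_lit 255208299),Int.negSucc (nat_lit 1828366),Int.negSucc (nat_lit 161412543),Int.ofNat (nat_lit 154292330),Int.negSucc (nat_lit 79920582),Int.negSucc (nat_lit 174886239),Int.ofNat (nat_lit 88305631),Int.ofNat (nat_lit 173251603),Int.negSucc (nat_lit 163821379),Int.negSucc (nat_lit 35505561),Int.ofNat (nat_lit 18440955),Int.negSucc (nat_lit 256722251),Int.negSucc (nat_lit 60401623),Int.negSucc (nat_lit 8294640),Int.ofNat (nat_lit 202575215),Int.negSucc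 (nat_lit 213549160),Int.ofNat (nat_lit 49694341),Int.ofNat (nat_lit 313302),Int.ofNat (nat_lit 75316857),Int.ofNat (nat_lit 29199522),Int.ofNat (nat_lit 84016826),Int.ofNat (nat_lit 125077601),Int.negSucc (nat_lit 185006397),Int.ofNat (nat_lit 39653427),Int.ofNat (nat_lit 4281383),Int.ofNat (nat_lit 101893636),Int.negSucc (nat_lit 4195280),Int.negSucc (nat_lit 189536603),Int.ofNat (nat_lit 95700038),Int.negSucc (nat_lit 154905647),Int.ofNat (nat_lit 18497767),Int.negSucc (nat_lit 71243592),Int.ofNat (nat_lit 7631695),Int.negSucc (nat_lit 49885387),Int.ofNat (nat_lit 13147054),Int.negSucc (nat_lit 105469709),Int.negSucc (nat_lit 86602425),Int.negSucc (nat_lit 97949123),Int.ofNat (nat_lit 124582492),Int.negSucc (nat_lit 41666312),Int.negSucc (nat_lit 138060567),Int.negSucc (nat_lit 4001794),Int.negSucc (nat_lit 27185705),Int.ofNat (nat_lit 59665652),Int.negSucc (nat_lit 37088822),Int.negSucc (nat_lit 91413241),Int.negSucc (nat_lit 31837276),Int.negSucc (nat_lit 138712876),Int.negSucc (nat_lit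 24186886),Int.negSucc (nat_lit 38998091),Int.negSucc (nat_lit 32910451),Int.negSucc (nat_lit 16781330),Int.negSucc (nat_lit 54575358),Int.negSucc (nat_lit 35487028),Int.ofNat (nat_lit 27332710),Int.ofNat (nat_lit 47797016),Int.negSucc (nat_lit 141256323),Int.negSucc (nat_lit 43443838),Int.ofNat (nat_lit 32596752),Int.negSucc (nat_lit 29348287),Int.negSucc (nat_lit 14817443),Int.negSucc (nat_lit 60195714),Int.ofNat (nat_lit 117910126),Int.ofNat (nat_lit 46418356),Int.ofNat (nat_lit 13795662),Int.ofNat (nat_lit 3773767),Int.negSucc (nat_lit 53061190),Int.negSucc (nat_lit 61480846),Int.negSucc (nat_lit 59921563),Int.negSucc (nat_lit 48023110),Int.negSucc (nat_lit 23239568),Int.ofNat (nat_lit 97907173),Int.negSucc (nat_lit 21952907),Int.ofNat (nat_lit 53195268),Int.negSucc (nat_lit 10791946),Int.negSucc (nat_lit 3974875),Int.ofNat (nat_lit 13386258),Int.negSucc (nat_lit 16863258),Int.negSucc (nat_lit 19149253),Int.negSucc (nat_lit 40331129),Int.ofNat (nat_lit 39861377),Int.ofNat (nat_lit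 40216316),Int.negSucc (nat_lit 26179331),Int.ofNat (nat_lit 22695969),Int.ofNat (nat_lit 50248050),Int.ofNat (nat_lit 9309473),Int.ofNat (nat_lit 27594380),Int.ofNat (nat_lit 33447644),Int.negSucc (nat_lit 113555835),Int.ofNat (nat_lit 8039662),Int.negSucc (nat_lit 124128437),Int.ofNat (nat_lit 5247127),Int.negSucc (nat_lit 45238556),Int.negSucc (nat_lit 85247732),Int.ofNat (nat_lit 120764492),Int.ofNat (nat_lit 45402225),Int.negSucc (nat_lit 51168566),Int.negSucc (nat_lit 85813901),Int.negSucc (nat_lit 46791359),Int.negSucc (nat_lit 16204430),Int.ofNat (nat_lit 29482916),Int.negSucc (nat_lit 53701907),Int.negSucc (nat_lit 26507314),Int.ofNat (nat_lit 85848895),Int.negSucc (nat_lit 65444882),Int.ofNat (nat_lit 50863458),Int.ofNat (nat_lit 64567942),Int.ofNat (nat_lit 7419618),Int.ofNat (nat_lit 35937942),Int.ofNat (nat_lit 47258430),Int.negSucc (nat_lit 82048166),Int.ofNat (nat_lit 100208877),Int.ofNat (nat_lit 18784366),Int.ofNat (nat_lit 68103192),Int.negSucc (nat_lit 43061038),Int.ofNat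 (nat_lit 57959244),Int.negSucc (nat_lit 9952554),Int.negSucc (nat_lit 47286907),Int.ofNat (nat_lit 11259619),Int.ofNat (nat_lit 18038638),Int.negSucc (nat_lit 57203892),Int.ofNat (nat_lit 72873236),Int.negSucc (nat_lit 26731842),Int.ofNat (nat_lit 8948401),Int.ofNat (nat_lit 58279705),Int.negSucc (nat_lit 45398547),Int.negSucc (nat_lit 38063020),Int.negSucc (nat_lit 13842072),Int.ofNat (nat_lit 65538651),Int.negSucc (nat_lit 88568726),Int.ofNat (nat_lit 83689836),Int.negSucc (nat_lit 2470846),Int.ofNat (nat_lit 62536005),Int.negSucc (nat_lit 27064594),Int.ofNat (nat_lit 21703016),Int.ofNat (nat_lit 18894463),Int.ofNat (nat_lit 64679471),Int.ofNat (nat_lit 41349276),Int.ofNat (nat_lit 68337857),Int.negSucc (nat_lit 20714017),Int.negSucc (nat_lit 1143906),Int.ofNat (nat_lit 51178197),Int.negSucc (nat_lit 15358142),Int.negSucc (nat_lit 3249490),Int.ofNat (nat_lit 8991307),Int.ofNat (nat_lit 12169394),Int.ofNat (nat_lit 22800381),Int.ofNat (nat_lit 791511),Int.ofNat (nat_lit 19100442),Int.ofNat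 (nat_lit 70926627),Int.negSucc (nat_lit 27329797),Int.ofNat (nat_lit 9312654),Int.ofNat (nat_lit 24070811),Int.ofNat (nat_lit 24034790),Int.ofNat (nat_lit 53271793),Int.negSucc (nat_lit 35088403),Int.ofNat (nat_lit 55049214),Int.ofNat (nat_lit 17336437),Int.negSucc (nat_lit 21979821),Int.ofNat (nat_lit 28089754),Int.ofNat (nat_lit 26139133),Int.negSucc (nat_lit 19686006),Int.negSucc (nat_lit 15298824),Int.ofNat (nat_lit 66546435),Int.ofNat (nat_lit 11044491),Int.negSucc (nat_lit 26950232),Int.negSucc (nat_lit 7932161),Int.negSucc (nat_lit 6421941),Int.ofNat (nat_lit 53689084),Int.negSucc (nat_lit 142756904),Int.ofNat (nat_lit 27257360),Int.negSucc (nat_lit 160899737),Int.negSucc (nat_lit 81602901),Int.ofNat (nat_lit 36877493),Int.ofNat (nat_lit 44882810),Int.ofNat (nat_lit 69056494),Int.negSucc (nat_lit 132566759),Int.negSucc (nat_lit 44918053),Int.ofNat (nat_lit 50727109),Int.negSucc (nat_lit 24362657),Int.negSucc (nat_lit 18683478),Int.ofNat (nat_lit 7345935),Int.negSucc (nat_lit 18322431),Int.negSucc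 (nat_lit 66220131),Int.negSucc (nat_lit 34183623),Int.negSucc (nat_lit 62135097),Int.ofNat (nat_lit 30701439),Int.ofNat (nat_lit 30648392),Int.ofNat (nat_lit 20375866),Int.negSucc (nat_lit 11714066),Int.negSucc (nat_lit 98383078),Int.ofNat (nat_lit 218688588),Int.ofNat (nat_lit 605316015),Int.negSucc (nat_lit 363800910),Int.ofNat (nat_lit 23572963),Int.ofNat (nat_lit 40818416),Int.ofNat (nat_lit 338661),Int.ofNat (nat_lit 83397127),Int.negSucc (nat_lit 26887950),Int.negSucc (nat_lit 48218254),Int.negSucc (nat_lit 247606248),Int.negSucc (nat_lit 14524479),Int.negSucc (nat_lit 3752017),Int.negSucc (nat_lit 9578279),Int.ofNat (nat_lit 51842377)])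

/-- A row. -/
noncomputable def sr6_c5_15 : List ℕ × List ℤ :=
  ([(nat_lit 2),(nat_lit 1),(nat_lit 0),(nat_lit 0),(nat_lit 0),(nat_lit 0),(nat_lit 0),(nat_lit 0),(nat_lit 0),(nat_lit 0),(nat_lit 0),(nat_lit 0)], [Int.ofNat (nat_lit 165224815),Int.ofNat (nat_lit 1455189750),Int.negSucc (nat_lit 6903720),Int.ofNat (nat_lit 411512305),Int.negSucc (nat_lit 913377263),Int.ofNat (nat_lit 1230347817),Int.negSucc (nat_lit 350483025),Int.ofNat (nat_lit 181166324),Int.negSucc (nat_lit 247121487),Int.negSucc (nat_lit 919520740),Int.ofNat (nat_lit 424756843),Int.ofNat (nat_lit 475896350),Int.ofNat (nat_lit 176267854),Int.ofNat (nat_lit 108012544),Int.negSucc (nat_lit 5681284),Int.ofNat (nat_lit 317769668),Int.negSucc (nat_lit 723660234),Int.negSucc (nat_lit 787461441),Int.ofNat (nat_lit 568014618),Int.ofNat (nat_lit 142010370),Int.negSucc (nat_lit 601639848),Int.ofNat (nat_lit 85866886),Int.ofNat (nat_lit 979827378),Int.ofNat (nat_lit 19313815),Int.ofNat (nat_lit 227247916),Int.negSucc (nat_lit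 134098921),Int.negSucc (nat_lit 332764162),Int.ofNat (nat_lit 1173882829),Int.negSucc (nat_lit 258470996),Int.negSucc (nat_lit 292676666),Int.negSucc (nat_lit 219499205),Int.negSucc (nat_lit 71729384),Int.ofNat (nat_lit 361014318),Int.ofNat (nat_lit 82673710),Int.negSucc (nat_lit 295029283),Int.negSucc (nat_lit 266728873),Int.ofNat (nat_lit 149283290),Int.negSucc (nat_lit 173577404),Int.negSucc (nat_lit 131413768),Int.negSucc (nat_lit 588415666),Int.negSucc (nat_lit 3229943),Int.negSucc (nat_lit 145999477),Int.ofNat (nat_lit 74267829),Int.ofNat (nat_lit 188453208),Int.ofNat (nat_lit 72143620),Int.ofNat (nat_lit 590294007),Int.negSucc (nat_lit 407895689),Int.ofNat (nat_lit 316958709),Int.ofNat (nat_lit 111226043),Int.negSucc (nat_lit 74474178),Int.negSucc (nat_lit 227042706),Int.ofNat (nat_lit 138500822),Int.negSucc (nat_lit 66922859),Int.ofNat (nat_lit 76212073),Int.ofNat (nat_lit 412837795),Int.negSucc (nat_lit 427849801),Int.negSucc (nat_lit 191819137),Int.ofNat (nat_lit 12800110),Int.ofNat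 (nat_lit 358962150),Int.negSucc (nat_lit 198843568),Int.ofNat (nat_lit 95494770),Int.ofNat (nat_lit 90331451),Int.negSucc (nat_lit 81092932),Int.ofNat (nat_lit 87431968),Int.negSucc (nat_lit 251619052),Int.ofNat (nat_lit 43316131),Int.negSucc (nat_lit 28626498),Int.ofNat (nat_lit 540869782),Int.ofNat (nat_lit 10156224),Int.ofNat (nat_lit 38062571),Int.ofNat (nat_lit 307576495),Int.negSucc (nat_lit 116535880),Int.negSucc (nat_lit 162698082),Int.negSucc (nat_lit 344739916),Int.ofNat (nat_lit 268660280),Int.ofNat (nat_lit 59102034),Int.ofNat (nat_lit 87447660),Int.negSucc (nat_lit 193437167),Int.negSucc (nat_lit 213204776),Int.negSucc (nat_lit 129003495),Int.negSucc (nat_lit 132964127),Int.negSucc (nat_lit 113010964),Int.ofNat (nat_lit 379452931),Int.negSucc (nat_lit 218486189),Int.negSucc (nat_lit 265268827),Int.ofNat (nat_lit 23367209),Int.negSucc (nat_lit 82039236),Int.ofNat (nat_lit 279177416),Int.negSucc (nat_lit 469941078),Int.ofNat (nat_lit 61104801),Int.negSucc (nat_lit 106423623),Int.negSucc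 (nat_lit 333437170),Int.negSucc (nat_lit 499964484),Int.negSucc (nat_lit 263768720),Int.ofNat (nat_lit 545578147),Int.ofNat (nat_lit 82864955),Int.ofNat (nat_lit 35850881),Int.negSucc (nat_lit 16519710),Int.negSucc (nat_lit 27684592),Int.ofNat (nat_lit 449237271),Int.negSucc (nat_lit 94330041),Int.negSucc (nat_lit 406664938),Int.ofNat (nat_lit 80288361),Int.ofNat (nat_lit 26977886),Int.ofNat (nat_lit 110419418),Int.negSucc (nat_lit 165521706),Int.ofNat (nat_lit 118782305),Int.ofNat (nat_lit 203299328),Int.ofNat (nat_lit 230335393),Int.ofNat (nat_lit 64123173),Int.negSucc (nat_lit 80824120),Int.negSucc (nat_lit 208828685),Int.negSucc (nat_lit 308278331),Int.negSucc (nat_lit 147250169),Int.ofNat (nat_lit 46275659),Int.ofNat (nat_lit 420299419),Int.negSucc (nat_lit 24794477),Int.ofNat (nat_lit 2373020),Int.negSucc (nat_lit 59150314),Int.negSucc (nat_lit 55441229),Int.ofNat (nat_lit 61127553),Int.negSucc (nat_lit 73061352),Int.ofNat (nat_lit 33086620),Int.negSucc (nat_lit 30125600),Int.negSucc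 (nat_lit 72236984),Int.ofNat (nat_lit 126852968),Int.ofNat (nat_lit 218467595),Int.ofNat (nat_lit 220347329),Int.ofNat (nat_lit 14614547),Int.negSucc (nat_lit 32854251),Int.ofNat (nat_lit 341435358),Int.negSucc (nat_lit 96022238),Int.negSucc (nat_lit 65124359),Int.negSucc (nat_lit 149654411),Int.ofNat (nat_lit 122443122),Int.ofNat (nat_lit 149560884),Int.ofNat (nat_lit 24569481),Int.negSucc (nat_lit 127302419),Int.ofNat (nat_lit 127295730),Int.ofNat (nat_lit 131179846),Int.negSucc (nat_lit 219464335),Int.negSucc (nat_lit 167070614),Int.negSucc (nat_lit 81369295),Int.negSucc (nat_lit 56815189),Int.negSucc (nat_lit 11265168),Int.negSucc (nat_lit 168895245),Int.ofNat (nat_lit 88283813),Int.negSucc (nat_lit 103341384),Int.negSucc (nat_lit 172939273),Int.ofNat (nat_lit 142496414),Int.ofNat (nat_lit 469263163),Int.ofNat (nat_lit 6456925),Int.ofNat (nat_lit 64756944),Int.ofNat (nat_lit 119703964),Int.ofNat (nat_lit 61837311),Int.ofNat (nat_lit 298290754),Int.ofNat (nat_lit 4873781),Int.ofNat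 (nat_lit 14483054),Int.negSucc (nat_lit 25142745),Int.ofNat (nat_lit 168756049),Int.ofNat (nat_lit 233020316),Int.ofNat (nat_lit 134643170),Int.negSucc (nat_lit 93200968),Int.negSucc (nat_lit 120754115),Int.negSucc (nat_lit 103282795),Int.ofNat (nat_lit 192902036),Int.ofNat (nat_lit 116090060),Int.ofNat (nat_lit 217636805),Int.ofNat (nat_lit 97046315),Int.ofNat (nat_lit 69154218),Int.negSucc (nat_lit 88955667),Int.ofNat (nat_lit 35691869),Int.ofNat (nat_lit 216978013),Int.ofNat (nat_lit 85964240),Int.negSucc (nat_lit 45483913),Int.ofNat (nat_lit 206597363),Int.ofNat (nat_lit 63850115),Int.negSucc (nat_lit 25235691),Int.ofNat (nat_lit 111359976),Int.ofNat (nat_lit 76195125),Int.ofNat (nat_lit 6654344),Int.ofNat (nat_lit 28849362),Int.ofNat (nat_lit 91984228),Int.ofNat (nat_lit 97212953),Int.ofNat (nat_lit 9362729),Int.ofNat (nat_lit 129040416),Int.negSucc (nat_lit 57341433),Int.ofNat (nat_lit 61465824),Int.ofNat (nat_lit 10079986),Int.ofNat (nat_lit 63034484),Int.ofNat (nat_lit 97305445),Int.negSucc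 (nat_lit 7456260),Int.negSucc (nat_lit 112006514),Int.ofNat (nat_lit 96616196),Int.negSucc (nat_lit 128767228),Int.negSucc (nat_lit 47583957),Int.ofNat (nat_lit 17684662),Int.negSucc (nat_lit 19533541),Int.negSucc (nat_lit 26460131),Int.negSucc (nat_lit 33943570),Int.ofNat (nat_lit 38387728),Int.negSucc (nat_lit 10015928),Int.negSucc (nat_lit 4644509),Int.ofNat (nat_lit 14888270),Int.negSucc (nat_lit 50244013),Int.negSucc (nat_lit 159958528),Int.ofNat (nat_lit 56150659),Int.ofNat (nat_lit 169729720),Int.ofNat (nat_lit 86454075),Int.ofNat (nat_lit 99381012),Int.ofNat (nat_lit 93972423),Int.ofNat (nat_lit 70658271),Int.negSucc (nat_lit 44061480),Int.negSucc (nat_lit 13269075),Int.ofNat (nat_lit 142298515),Int.negSucc (nat_lit 242235891),Int.negSucc (nat_lit 169760239),Int.ofNat (nat_lit 90780328),Int.negSucc (nat_lit 76765080),Int.ofNat (nat_lit 102972720),Int.negSucc (nat_lit 285380652),Int.negSucc (nat_lit 332393126),Int.ofNat (nat_lit 330723543),Int.negSucc (nat_lit 209305347),Int.ofNat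 (nat_lit 28953933),Int.negSucc (nat_lit 130288604),Int.ofNat (nat_lit 55537290),Int.negSucc (nat_lit 49488961),Int.ofNat (nat_lit 151346880),Int.negSucc (nat_lit 77368863),Int.negSucc (nat_lit 176472088),Int.ofNat (nat_lit 33323192),Int.negSucc (nat_lit 92834302),Int.ofNat (nat_lit 44152625),Int.negSucc (nat_lit 605870356),Int.negSucc (nat_lit 208163338),Int.ofNat (nat_lit 1311151643),Int.negSucc (nat_lit 92574450),Int.ofNat (nat_lit 1058165153),Int.ofNat (nat_lit 600906144),Int.negSucc (nat_lit 1675445109),Int.ofNat (nat_lit 393683293),Int.ofNat (nat_lit 712251198),Int.ofNat (nat_lit 639784373),Int.negSucc (nat_lit 641916622),Int.negSucc (nat_lit 1533075208),Int.ofNat (nat_lit 221867143),Int.negSucc (nat_lit 306728420),Int.ofNat (nat_lit 151574980),Int.ofNat (nat_lit 196012400)])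

/-- A row. -/
noncomputable def sr6_c5_16 : List ℕ × List ℤ :=
  ([(nat_lit 3),(nat_lit 1),(nat_lit 0),(nat_lit 0),(nat_lit 0),(nat_lit 0),(nat_lit 0),(nat_lit 0),(nat_lit 0),(nat_lit 0),(nat_lit 0),(nat_lit 0)], [Int.negSucc (nat_lit 451823188),Int.ofNat (nat_lit 1645181533),Int.ofNat (nat_lit 2206450843),Int.ofNat (nat_lit 1480966027),Int.negSucc (nat_lit 2171607851),Int.negSucc (nat_lit 1652657621),Int.ofNat (nat_lit 575301765),Int.negSucc (nat_lit 73837911),Int.ofNat (nat_lit 1005855366),Int.ofNat (nat_lit 1164055956),Int.ofNat (nat_lit 508040091),Int.negSucc (nat_lit 352087739),Int.ofNat (nat_lit 214216829),Int.negSucc (nat_lit 33811057),Int.ofNat (nat_lit 105310382),Int.ofNat (nat_lit 145141555),Int.ofNat (nat_lit 195366567),Int.ofNat (nat_lit 516339016),Int.negSucc (nat_lit 421252114),Int.ofNat (nat_lit 43619492),Int.ofNat (nat_lit 640271213),Int.ofNat (nat_lit 1213532),Int.negSucc (nat_lit 650826900),Int.negSucc (nat_lit 339378866),Int.negSucc (nat_lit 200885345),Int.negSucc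 (nat_lit 572262578),Int.negSucc (nat_lit 117866957),Int.negSucc (nat_lit 250222624),Int.negSucc (nat_lit 192905229),Int.ofNat (nat_lit 199611551),Int.ofNat (nat_lit 180589753),Int.negSucc (nat_lit 287172641),Int.ofNat (nat_lit 18999196),Int.negSucc (nat_lit 79601661),Int.negSucc (nat_lit 318545695),Int.ofNat (nat_lit 22371610),Int.ofNat (nat_lit 221017143),Int.ofNat (nat_lit 282880841),Int.ofNat (nat_lit 549110036),Int.ofNat (nat_lit 567241415),Int.ofNat (nat_lit 139862200),Int.ofNat (nat_lit 433591511),Int.ofNat (nat_lit 252335351),Int.ofNat (nat_lit 297460002),Int.negSucc (nat_lit 325192165),Int.negSucc (nat_lit 347500135),Int.negSucc (nat_lit 45200262),Int.negSucc (nat_lit 331681688),Int.negSucc (nat_lit 122765806),Int.ofNat (nat_lit 170902507),Int.ofNat (nat_lit 286110780),Int.negSucc (nat_lit 183716896),Int.negSucc (nat_lit 197467196),Int.negSucc (nat_lit 328281985),Int.negSucc (nat_lit 349342533),Int.ofNat (nat_lit 20055495),Int.negSucc (nat_lit 22941243),Int.negSucc (nat_lit 352022775),Int.negSucc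 (nat_lit 283637366),Int.ofNat (nat_lit 76241730),Int.negSucc (nat_lit 44730115),Int.negSucc (nat_lit 114956250),Int.negSucc (nat_lit 30240572),Int.negSucc (nat_lit 132841660),Int.ofNat (nat_lit 190293196),Int.negSucc (nat_lit 129896337),Int.negSucc (nat_lit 188591435),Int.negSucc (nat_lit 229062577),Int.negSucc (nat_lit 225220779),Int.negSucc (nat_lit 474049428),Int.negSucc (nat_lit 150377026),Int.ofNat (nat_lit 157144512),Int.negSucc (nat_lit 229575117),Int.ofNat (nat_lit 166502862),Int.negSucc (nat_lit 242830855),Int.negSucc (nat_lit 8378257),Int.negSucc (nat_lit 72594235),Int.ofNat (nat_lit 157774805),Int.ofNat (nat_lit 64941355),Int.ofNat (nat_lit 295189119),Int.ofNat (nat_lit 18168476),Int.ofNat (nat_lit 218082328),Int.negSucc (nat_lit 345110322),Int.ofNat (nat_lit 221993035),Int.ofNat (nat_lit 266569089),Int.ofNat (nat_lit 21358048),Int.ofNat (nat_lit 284958333),Int.negSucc (nat_lit 229323019),Int.ofNat (nat_lit 274130645),Int.ofNat (nat_lit 22084364),Int.ofNat (nat_lit 76175439),Int.ofNat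 (nat_lit 332820495),Int.ofNat (nat_lit 259496410),Int.ofNat (nat_lit 146304900),Int.negSucc (nat_lit 254394951),Int.negSucc (nat_lit 18915634),Int.negSucc (nat_lit 9281472),Int.negSucc (nat_lit 25398338),Int.negSucc (nat_lit 68082685),Int.negSucc (nat_lit 249058260),Int.ofNat (nat_lit 113091263),Int.ofNat (nat_lit 239449593),Int.negSucc (nat_lit 100508604),Int.ofNat (nat_lit 15044228),Int.negSucc (nat_lit 87699574),Int.ofNat (nat_lit 152907289),Int.negSucc (nat_lit 119314801),Int.negSucc (nat_lit 159877458),Int.negSucc (nat_lit 208089263),Int.negSucc (nat_lit 32253066),Int.ofNat (nat_lit 75976980),Int.ofNat (nat_lit 129442576),Int.ofNat (nat_lit 197057337),Int.ofNat (nat_lit 33851971),Int.negSucc (nat_lit 80593947),Int.negSucc (nat_lit 337497748),Int.negSucc (nat_lit 8666955),Int.negSucc (nat_lit 29377294),Int.negSucc (nat_lit 7695988),Int.ofNat (nat_lit 24318087),Int.negSucc (nat_lit 59990140),Int.ofNat (nat_lit 27400513),Int.negSucc (nat_lit 40396705),Int.negSucc (nat_lit 12394052),Int.ofNat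 (nat_lit 3607115),Int.negSucc (nat_lit 113948995),Int.negSucc (nat_lit 160422070),Int.negSucc (nat_lit 182432919),Int.negSucc (nat_lit 55685204),Int.ofNat (nat_lit 2709284),Int.negSucc (nat_lit 224485865),Int.ofNat (nat_lit 88563473),Int.ofNat (nat_lit 99214587),Int.ofNat (nat_lit 113166762),Int.negSucc (nat_lit 55629935),Int.negSucc (nat_lit 41277782),Int.ofNat (nat_lit 12437354),Int.ofNat (nat_lit 141465544),Int.negSucc (nat_lit 165404193),Int.negSucc (nat_lit 41573417),Int.ofNat (nat_lit 194059027),Int.ofNat (nat_lit 238335411),Int.ofNat (nat_lit 24241228),Int.negSucc (nat_lit 30666077),Int.ofNat (nat_lit 5073665),Int.ofNat (nat_lit 168219714),Int.ofNat (nat_lit 45493566),Int.negSucc (nat_lit 6701032),Int.ofNat (nat_lit 115447445),Int.negSucc (nat_lit 59166759),Int.negSucc (nat_lit 313875806),Int.ofNat (nat_lit 15617397),Int.negSucc (nat_lit 40633640),Int.negSucc (nat_lit 100960213),Int.negSucc (nat_lit 13925872),Int.negSucc (nat_lit 259210656),Int.ofNat (nat_lit 36669665),Int.negSucc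 (nat_lit 53611537),Int.negSucc (nat_lit 26336672),Int.negSucc (nat_lit 160815090),Int.negSucc (nat_lit 54413295),Int.negSucc (nat_lit 96617761),Int.ofNat (nat_lit 12845746),Int.ofNat (nat_lit 41132496),Int.ofNat (nat_lit 92000121),Int.negSucc (nat_lit 118333200),Int.negSucc (nat_lit 106000651),Int.negSucc (nat_lit 68924185),Int.negSucc (nat_lit 141326563),Int.negSucc (nat_lit 59055115),Int.ofNat (nat_lit 44880005),Int.negSucc (nat_lit 81208334),Int.negSucc (nat_lit 150837021),Int.negSucc (nat_lit 61931808),Int.negSucc (nat_lit 8247296),Int.negSucc (nat_lit 97557572),Int.negSucc (nat_lit 106078403),Int.ofNat (nat_lit 82864293),Int.negSucc (nat_lit 109976886),Int.negSucc (nat_lit 21945895),Int.negSucc (nat_lit 6426614),Int.ofNat (nat_lit 13783409),Int.negSucc (nat_lit 133781956),Int.negSucc (nat_lit 66868011),Int.ofNat (nat_lit 61650203),Int.negSucc (nat_lit 161975063),Int.ofNat (nat_lit 5495555),Int.negSucc (nat_lit 52630997),Int.negSucc (nat_lit 39470379),Int.negSucc (nat_lit 18325327),Int.negSucc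 (nat_lit 57533778),Int.negSucc (nat_lit 66862952),Int.ofNat (nat_lit 56976074),Int.negSucc (nat_lit 156435185),Int.ofNat (nat_lit 99629331),Int.ofNat (nat_lit 2298926),Int.negSucc (nat_lit 17186151),Int.negSucc (nat_lit 43325160),Int.ofNat (nat_lit 60339670),Int.ofNat (nat_lit 56966879),Int.negSucc (nat_lit 6815988),Int.ofNat (nat_lit 2588635),Int.ofNat (nat_lit 58020400),Int.ofNat (nat_lit 62560597),Int.ofNat (nat_lit 26136431),Int.ofNat (nat_lit 156042956),Int.ofNat (nat_lit 12836444),Int.negSucc (nat_lit 102386110),Int.negSucc (nat_lit 42279540),Int.ofNat (nat_lit 78619804),Int.negSucc (nat_lit 121251790),Int.negSucc (nat_lit 38872547),Int.ofNat (nat_lit 12170908),Int.ofNat (nat_lit 255626903),Int.negSucc (nat_lit 130071190),Int.ofNat (nat_lit 311649722),Int.ofNat (nat_lit 109918732),Int.negSucc (nat_lit 29614805),Int.ofNat (nat_lit 73034079),Int.negSucc (nat_lit 182877652),Int.ofNat (nat_lit 168490703),Int.ofNat (nat_lit 295340743),Int.negSucc (nat_lit 285548032),Int.ofNat (nat_lit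 151406350),Int.ofNat (nat_lit 17328803),Int.ofNat (nat_lit 54226828),Int.negSucc (nat_lit 35282762),Int.ofNat (nat_lit 145538954),Int.negSucc (nat_lit 27395683),Int.ofNat (nat_lit 129572348),Int.ofNat (nat_lit 91821048),Int.negSucc (nat_lit 108046016),Int.negSucc (nat_lit 5878606),Int.negSucc (nat_lit 1651092),Int.ofNat (nat_lit 325121336),Int.negSucc (nat_lit 184681256),Int.negSucc (nat_lit 1094054436),Int.ofNat (nat_lit 798426884),Int.ofNat (nat_lit 97790805),Int.negSucc (nat_lit 159287387),Int.ofNat (nat_lit 1303466605),Int.negSucc (nat_lit 380830310),Int.negSucc (nat_lit 346421906),Int.negSucc (nat_lit 207528232),Int.ofNat (nat_lit 850599392),Int.ofNat (nat_lit 1108474025),Int.negSucc (nat_lit 330476392),Int.ofNat (nat_lit 327859869),Int.negSucc (nat_lit 349072195),Int.negSucc (nat_lit 236597058),Int.ofNat (nat_lit 32869524)])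

/-- A part of a triangular factor. -/
noncomputable def sr6_c5 : Rows :=
  [sr6_c5_0,
   sr6_c5_1,
   sr6_c5_2,
   sr6_c5_3,
   sr6_c5_4,
   sr6_c5_5,
   sr6_c5_6,
   sr6_c5_7,
   sr6_c5_8,
   sr6_c5_9,
   sr6_c5_10,
   sr6_c5_11,
   sr6_c5_12,
   sr6_c5_13,
   sr6_c5_14,
   sr6_c5_15,
   sr6_c5_16]

/-- A triangular factor. -/
noncomputable def sr6_rows : List Rows :=
  [sr6_c0, sr6_c1, sr6_c2, sr6_c3, sr6_c4, sr6_c5]

end Vale.Agent.P142K.CertB
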