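import Vale.Agent.P142K.CertB.Sr7Rows
import Vale.Agent.P142K.Fast
import Vale.Agent.P142K.CertB.Sr6Part0

/-!
# An expanded part of the certificate

Generated from a semidefinite program; only the checker is trusted.
-/

namespace Vale.Agent.P142K.CertB

open Vale.Agent.P142J (MP)

/-- A coefficient. -/
noncomputable def sr7_m0_0_0 : MP 10 :=
  [[[[[[[[[[Int.ofNat (nat_lit 9183926064876217992),Int.ofNat (nat_lit 0),Int.ofNat (nat_lit 718468177148574936)],[Int.negSucc (nat_lit 2823755974463695811)],[Int.ofNat (nat_lit 779508307871891118)]],[[Int.ofNat (nat_lit 0),Int.negSucc (nat_lit 217988230467876071)]],[[Int.ofNat (nat_lit 2029328415883492860)]]],[[[Int.ofNat (nat_lit 350924286447114684)],[Int.negSucc (nat_lit 322384975177011131)]]],[[[Int.ofNat (nat_lit 2339896192173091158)]]]],[[[[Int.ofNat (nat_lit 0),Int.ofNat (nat_lit 3007925732870527704)]],[[Int.negSucc (nat_lit 1424188107629206019)]]]],[[[[Int.ofNat (nat_lit 7478784023121384726)]]]]],[[[[[Int.ofNat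 (nat_lit 10039928625345845088)],[Int.negSucc (nat_lit 1539754247759595095)]]],[[[Int.negSucc (nat_lit 2067718978593948755)]]]]],[[[[[Int.ofNat (nat_lit 11484875197502032434)]]]]]],[[[[[[Int.ofNat (nat_lit 0),Int.ofNat (nat_lit 1444408923203867184)]],[[Int.ofNat (nat_lit 2625275544820626492)]]]],[[[[Int.negSucc (nat_lit 7838927456073971447)]]]]]],[[[[[[Int.ofNat (nat_lit 18148834898361608742)],[Int.negSucc (nat_lit 1384472628130373567)]]],[[[Int.ofNat (nat_lit 529835350998182736)]]]]],[[[[[Int.negSucc (nat_lit 6745736442929856179)]]]]]],[],[[[[[[Int.ofNat (nat_lit 5783665702160348646)]]]]]]],[[[[[[[Int.negSucc (nat_lit 16370727654868672859)],[Int.ofNat (nat_lit 3349755448028016192)]]],[[[Int.negSucc (nat_lit 572962422621079151)]]]]],[[[[[Int.negSucc (nat_lit 4671181898298777167)]]]]]],[[[[[[Int.ofNat (nat_lit 0),Int.negSucc (nat_lit 403162665056708807)]],[[Int.ofNat (nat_lit 79469559983887932)]]]],[[[[Int.ofNat (nat_lit 1289058650678365596)]]]]]],[[[[[[Int.negSucc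 (nat_lit 14580375142541169695)]]]]]]],[[[[[[[Int.ofNat (nat_lit 13922078356245912924)],[Int.negSucc (nat_lit 1458990597401401343)]]],[[[Int.negSucc (nat_lit 155601494759808563)]]]]],[[[[[Int.negSucc (nat_lit 6275576693246108303)]]]]]],[],[[[[[[Int.ofNat (nat_lit 14320753514133935142)]]]]]]],[[[[[[[Int.negSucc (nat_lit 7970221718563009235)]]]]]]],[[[[[[[Int.ofNat (nat_lit 7568547713561310546)]]]]]]]],[[[[[[[[Int.ofNat (nat_lit 0),Int.negSucc (nat_lit 5022051877619954183)],[Int.ofNat (nat_lit 0),Int.ofNat (nat_lit 1313219814229377744)]],[[Int.negSucc (nat_lit 3199332343711004495)],[Int.negSucc (nat_lit 222787310317606823)]]],[[[Int.ofNat (nat_lit 0),Int.negSucc (nat_lit 174670920317236295)]],[[Int.ofNat (nat_lit 1379760028744611876)]]]],[[[[Int.ofNat (nat_lit 2243555089085784744)],[Int.ofNat (nat_lit 803165854057425972)]]],[[[Int.ofNat (nat_lit 141888897577080156)]]]]],[[[[[Int.ofNat (nat_lit 0),Int.ofNat (nat_lit 56237337175919880)]],[[Int.negSucc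 (nat_lit 1672565089604370215)]]]],[[[[Int.ofNat (nat_lit 7674593719264586220)]]]]]],[[[[[[Int.negSucc (nat_lit 41744999416710693647)],[Int.ofNat (nat_lit 2731111246458667896)]]],[[[Int.negSucc (nat_lit 5172020836175792735)]]]]],[[[[[Int.ofNat (nat_lit 2061193102110711852)]]]]]],[[[[[[Int.ofNat (nat_lit 0),Int.negSucc (nat_lit 906319174652790335)]],[[Int.negSucc (nat_lit 306845297798398307)]]]],[[[[Int.negSucc (nat_lit 8933535656927771459)]]]]]],[[[[[[Int.ofNat (nat_lit 1116927146359207104)]]]]]]],[[[[[[[Int.ofNat (nat_lit 0),Int.ofNat (nat_lit 980187410339693784)]],[[Int.ofNat (nat_lit 5610769828118226312)]]]],[[[[Int.ofNat (nat_lit 3640906725372687816)]]]]]],[[[[[[Int.ofNat (nat_lit 10838932775148654432)],[Int.ofNat (nat_lit 33372518856702480)]]],[[[Int.ofNat (nat_lit 682210838860387932)]]]]],[[[[[Int.ofNat (nat_lit 1516656951134340888)]]]]]],[],[[[[[[Int.negSucc (nat_lit 3823526402685731915)]]]]]]],[[[[[[[Int.ofNat (nat_lit 0),Int.negSucc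 (nat_lit 1140522173225352623)]],[[Int.negSucc (nat_lit 620097094867510235)]]]],[[[[Int.negSucc (nat_lit 11146055426492560547)]]]]]],[[[[[[Int.ofNat (nat_lit 8256235538758140324)]]]]]]],[[],[[[[[[Int.negSucc (nat_lit 3318730583170090787)]]]]]]]],[[[[[[[[Int.ofNat (nat_lit 34569617995718567976)],[Int.negSucc (nat_lit 3813364067539961159)]]],[[[Int.ofNat (nat_lit 6895379270614444572)]]]],[[[[Int.ofNat (nat_lit 0),Int.negSucc (nat_lit 1931697240449285999)]],[[Int.ofNat (nat_lit 327139057956554136)]]]],[[[[Int.negSucc (nat_lit 597286644556653779)]]]]],[[[[[Int.negSucc (nat_lit 17178628930262698907)],[Int.ofNat (nat_lit 1354995786532792440)]]],[[[Int.ofNat (nat_lit 462936590632435056)]]]]],[[[[[Int.negSucc (nat_lit 4150953191261026967)]]]]]],[[[[[[Int.ofNat (nat_lit 0),Int.ofNat (nat_lit 459348806089816920)]],[[Int.negSucc (nat_lit 2245748923520478155)]]]],[[[[Int.negSucc (nat_lit 1105840400234260151)]]]]]],[[[[[[Int.ofNat (nat_lit 10131007483610272002)]]]]],[[[[[Int.ofNat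 (nat_lit 4893399876890835516)]]]]]]],[[[[[[[Int.negSucc (nat_lit 21389973941786456807)],[Int.ofNat (nat_lit 287746469557950984)]]],[[[Int.negSucc (nat_lit 2797056975369099227)]]]]],[[[[[Int.negSucc (nat_lit 7230117564109735787)]]]]]],[[[],[[[[Int.ofNat (nat_lit 710650326689560668)]]]]]],[[[[[[Int.ofNat (nat_lit 1767444062856973368)]]]]]]],[[[[[[[Int.ofNat (nat_lit 35882914625663557278)]]]]],[[[[[Int.ofNat (nat_lit 5410084203206222004)]]]]]]],[[[[[[[Int.negSucc (nat_lit 5183485783534638995)]]]]]]]],[[[[[[[[Int.ofNat (nat_lit 0),Int.negSucc (nat_lit 1509088516371690623)]],[[Int.ofNat (nat_lit 5724075337537706664)]]]],[[[[Int.negSucc (nat_lit 4265741430623183723)]]]]],[[],[[[[Int.negSucc (nat_lit 3578245573429354211)]]]]]],[[[[[[Int.ofNat (nat_lit 8430404335669103772)]]]]],[[[[[Int.negSucc (nat_lit 2779535806930539131)]]]]]]],[[[[],[[[[Int.negSucc (nat_lit 3074332486562014931)]]]]]],[[[[[[Int.negSucc (nat_lit 985659863876611643)]]]]]]]],[[[[[[[[Int.ofNat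 (nat_lit 6222291045754453758)],[Int.negSucc (nat_lit 348425842451631791)]]],[[[Int.negSucc (nat_lit 1857971473248838451)]]]]],[[[[[Int.ofNat (nat_lit 7105926255962031096)]]]]]],[],[[[[[[Int.negSucc (nat_lit 5143272007226130335)]]]]]]],[[[[[[[Int.ofNat (nat_lit 8249632994228126952)]]]]]]],[[[[[[[Int.negSucc (nat_lit 4857277057150138151)]]]]]]]],[[[[[],[[[[Int.ofNat (nat_lit 269788877783092824)]]]]]],[[[[[[Int.ofNat (nat_lit 11548099777050897072)]]]]]]]],[[[[[[[[Int.negSucc (nat_lit 12955245049035777797)]]]]]]]]],[[[[[[[[[Int.ofNat (nat_lit 43928896902699788760),Int.ofNat (nat_lit 0),Int.negSucc (nat_lit 718468177148574935)],[Int.negSucc (nat_lit 8645171626018493603)],[Int.ofNat (nat_lit 779508307871891118)]],[[Int.ofNat (nat_lit 0),Int.ofNat (nat_lit 217988230467876072)]],[[Int.negSucc (nat_lit 2029328415883492859)]]],[[[Int.ofNat (nat_lit 5023530792323304456)],[Int.negSucc (nat_lit 322384975177011131)]]],[[[Int.ofNat (nat_lit 2339896192173091158)]]]],[[[[Int.ofNat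 (nat_lit 0),Int.negSucc (nat_lit 1460773667064083663)]],[[Int.ofNat (nat_lit 2176547374086663924)]]]],[[[[Int.negSucc (nat_lit 416731508375568065)]]]]],[[[[[Int.ofNat (nat_lit 17058831311023861860)],[Int.negSucc (nat_lit 1022027957378016815)]]],[[[Int.negSucc (nat_lit 655055055692333387)]]]]],[[[[[Int.ofNat (nat_lit 12030118748669545398)]]]]]],[[[[[[Int.ofNat (nat_lit 0),Int.ofNat (nat_lit 2648292304831563984)]],[[Int.negSucc (nat_lit 4563952072376197187)]]]],[[[[Int.ofNat (nat_lit 5966027742654865608)]]]]]],[[[[[[Int.ofNat (nat_lit 21309431086709913642)],[Int.negSucc (nat_lit 1384472628130373567)]]],[[[Int.ofNat (nat_lit 529835350998182736)]]]]],[[[[[Int.negSucc (nat_lit 9370385946974311703)]]]]]],[],[[[[[[Int.ofNat (nat_lit 5783665702160348646)]]]]]]],[[[[[[[Int.negSucc (nat_lit 69769354442182672391)],[Int.ofNat (nat_lit 10137304178438938824)]]],[[[Int.negSucc (nat_lit 7970269430897568695)]]]]],[[[[[Int.negSucc (nat_lit 7334023315601080595)]]]]]],[[[[[[Int.ofNat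 (nat_lit 0),Int.ofNat (nat_lit 403162665056708808)]],[[Int.negSucc (nat_lit 79469559983887931)]]]],[[[[Int.negSucc (nat_lit 1390523903564316191)]]]]]],[[[[[[Int.negSucc (nat_lit 20102657006530133255)]]]]]]],[[[[[[[Int.ofNat (nat_lit 49961289480464725224)],[Int.negSucc (nat_lit 1458990597401401343)]]],[[[Int.negSucc (nat_lit 155601494759808563)]]]]],[[[[[Int.negSucc (nat_lit 10577186963290228031)]]]]]],[],[[[[[[Int.ofNat (nat_lit 10617309469688227554)]]]]]]],[[[[[[[Int.negSucc (nat_lit 19475309215919525051)]]]]]]],[[[[[[[Int.ofNat (nat_lit 7568547713561310546)]]]]]]]],[[[[[[[[Int.ofNat (nat_lit 0),Int.negSucc (nat_lit 9545471391770310839)]],[[Int.negSucc (nat_lit 2385655661890936067)]]]],[[[[Int.negSucc (nat_lit 879186012320457443)],[Int.negSucc (nat_lit 1091524818579467735)]]],[[[Int.ofNat (nat_lit 661048225749849624)]]]]],[[[[[Int.ofNat (nat_lit 0),Int.negSucc (nat_lit 1059743824430568263)]],[[Int.negSucc (nat_lit 666847772947540079)]]]],[[[[Int.ofNat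 (nat_lit 10873690613938559220)]]]]]],[[[[[[Int.negSucc (nat_lit 75455826772469498471)],[Int.ofNat (nat_lit 5332988949677257512)]]],[[[Int.negSucc (nat_lit 7263496931131783655)]]]]],[[[[[Int.negSucc (nat_lit 8401793497661881715)]]]]]],[[[],[[[[Int.negSucc (nat_lit 5348362781509241723)]]]]]],[[[[[[Int.negSucc (nat_lit 1591115221298753423)]]]]]]],[[[[[[[Int.ofNat (nat_lit 0),Int.ofNat (nat_lit 5056193617313933568)]],[[Int.negSucc (nat_lit 1846550054913456419)]]]],[[[[Int.ofNat (nat_lit 12681623189935668)]]]]]],[[[[[[Int.ofNat (nat_lit 35225803669142207040)]]]]],[[[[[Int.ofNat (nat_lit 2364851474401494708)]]]]]]],[[[[],[[[[Int.negSucc (nat_lit 7246349737550143727)]]]]]],[[[[[[Int.ofNat (nat_lit 3782641250222897244)]]]]]]]],[[[[[[[[Int.ofNat (nat_lit 76698601943093510088)],[Int.negSucc (nat_lit 8345266330306809395)]]],[[[Int.ofNat (nat_lit 5614226193787702068)]]]],[],[[[[Int.ofNat (nat_lit 2001206734583429916)]]]]],[[[[[Int.negSucc (nat_lit 8652084114946525343)]]]]],[[[[[Int.negSucc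 (nat_lit 3867347780414131283)]]]]]],[[[],[[[[Int.negSucc (nat_lit 9715341320510977583)]]]]]],[[[[[[Int.ofNat (nat_lit 18886621002673174074)]]]]]]],[[[[[[[Int.negSucc (nat_lit 36170876867611727423)]]]]],[[[[[Int.ofNat (nat_lit 2179783698423611580)]]]]]]],[[[[[[[Int.ofNat (nat_lit 8360447771098171362)]]]]]]]],[[[[[[[[Int.ofNat (nat_lit 0),Int.ofNat (nat_lit 1235886693026733576)]],[[Int.ofNat (nat_lit 1141290850699524828)]]]],[[[[Int.ofNat (nat_lit 5862891066539313432)]]]]]],[[[[[[Int.ofNat (nat_lit 10822486282250300412)]]]]]]],[[],[[[[[[Int.negSucc (nat_lit 2244966595630847519)]]]]]]]],[[[[[[[[Int.negSucc (nat_lit 11198249032737549749)]]]]],[[[[[Int.ofNat (nat_lit 3424131151718791128)]]]]]]],[[[[[[[Int.ofNat (nat_lit 6083772733534216716)]]]]]]]],[],[[[[[[[[Int.negSucc (nat_lit 714796560111433985)]]]]]]]]],[[[[[[[[[Int.ofNat (nat_lit 96894151459106521494)],[Int.negSucc (nat_lit 9188669818109704547)]]],[[[Int.ofNat (nat_lit 7147811585675695140)]]]],[[[[Int.ofNat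 (nat_lit 0),Int.negSucc (nat_lit 1547152065806444039)]],[[Int.negSucc (nat_lit 752359266457457903)]]]],[[[[Int.negSucc (nat_lit 4505441746661513633)]]]]],[[[[[Int.ofNat (nat_lit 12111105776086995600)],[Int.ofNat (nat_lit 517726290381578280)]]],[[[Int.ofNat (nat_lit 1412663922901615368)]]]]],[[[[[Int.ofNat (nat_lit 3648667024577126370)]]]]]],[[[[[[Int.ofNat (nat_lit 0),Int.negSucc (nat_lit 4092701228035431167)]],[[Int.ofNat (nat_lit 1938676527555570696)]]]],[[[[Int.ofNat (nat_lit 2077473144162516336)]]]]]],[[[[[[Int.ofNat (nat_lit 5583002688363643752)]]]]],[[[[[Int.negSucc (nat_lit 2624649504044455523)]]]]]]],[[[[[[[Int.negSucc (nat_lit 134816865392857112267)],[Int.ofNat (nat_lit 6787548730410922632)]]],[[[Int.negSucc (nat_lit 7397307008276489543)]]]]],[[[[[Int.negSucc (nat_lit 12305001170258400839)]]]]]],[[[],[[[[Int.ofNat (nat_lit 101465252885950596)]]]]]],[[[[[[Int.negSucc (nat_lit 5096014703511524399)]]]]]]],[[[[[[[Int.ofNat (nat_lit 88311094874249831682)]]]]],[[[[[Int.negSucc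 (nat_lit 4301610270044119727)]]]]]]],[[[[[[[Int.negSucc (nat_lit 11505087497356515815)]]]]]]]],[[[[[[[[Int.ofNat (nat_lit 0),Int.ofNat (nat_lit 3722626307428905120)]],[[Int.ofNat (nat_lit 2225590005592272492)]]]],[[[[Int.ofNat (nat_lit 10692536535034867656)]]]]],[[],[[[[Int.ofNat (nat_lit 4496798602382706060)]]]]]],[[[[[[Int.negSucc (nat_lit 33703171120581697451)]]]]],[[[[[Int.negSucc (nat_lit 13831691954537891171)]]]]]]],[[[[],[[[[Int.negSucc (nat_lit 9800707950629860067)]]]]]],[[[[[[Int.ofNat (nat_lit 46185906155243952324)]]]]]]]],[[[[[[[[Int.ofNat (nat_lit 42917267879167106922)],[Int.negSucc (nat_lit 2047216996799535959)]]],[[[Int.negSucc (nat_lit 1910676387967294763)]]]]],[[[[[Int.ofNat (nat_lit 12785867350842742896)]]]]]],[],[[[[[[Int.ofNat (nat_lit 282066417062601588)]]]]]]],[[[[[[[Int.negSucc (nat_lit 20374484870784381407)]]]]]]],[[[[[[[Int.ofNat (nat_lit 1795185374329945764)]]]]]]]],[[[[[],[[[[Int.negSucc (nat_lit 1904982146251883411)]]]]]],[[[[[[Int.ofNat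 (nat_lit 22495210622455087872)]]]]]]]],[[[[[[[[Int.negSucc (nat_lit 29728002711685745195)]]]]]]]]],[[[[[[[[[Int.ofNat (nat_lit 112163272760874296238)],[Int.negSucc (nat_lit 3679121781873361211)]]],[[[Int.ofNat (nat_lit 461778678757059012)]]]],[],[[[[Int.negSucc (nat_lit 2556610768084303025)]]]]],[[[[[Int.ofNat (nat_lit 10543135388769578352)]]]]],[[[[[Int.ofNat (nat_lit 3103423473409613406)]]]]]],[[[],[[[[Int.negSucc (nat_lit 204573430743410495)]]]]]],[[[[[[Int.negSucc (nat_lit 8763317999931446519)]]]]]]],[[[[[[[Int.negSucc (nat_lit 117930283355661886355)]]]]],[[[[[Int.negSucc (nat_lit 9642159752956097411)]]]]]]],[[[[[[[Int.ofNat (nat_lit 55815199942661541954)]]]]]]]],[[[[[[[[Int.ofNat (nat_lit 0),Int.ofNat (nat_lit 2579041148167253496)]],[[Int.ofNat (nat_lit 1975463523445429560)]]]],[[[[Int.ofNat (nat_lit 8177729075254487004)]]]]]],[[[[[[Int.ofNat (nat_lit 28906862429020088184)]]]]]]],[[],[[[[[[Int.negSucc (nat_lit 2813850847813648223)]]]]]]]],[[[[[[[[Int.negSucc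 (nat_lit 34069616792237227901)]]]]],[[[[[Int.negSucc (nat_lit 2857344322980418679)]]]]]]],[[[[[[[Int.ofNat (nat_lit 13165156630342917576)]]]]]]]],[],[[[[[[[[Int.ofNat (nat_lit 6076214965353026784)]]]]]]]]],[[[[[[[[[Int.ofNat (nat_lit 58565493791751180828)],[Int.negSucc (nat_lit 311867615318454455)]]],[[[Int.negSucc (nat_lit 2013426401042446355)]]]]],[[[[[Int.negSucc (nat_lit 621806830628049167)]]]]]],[],[[[[[[Int.ofNat (nat_lit 2716154413078892328)]]]]]]],[[[[[[[Int.negSucc (nat_lit 21812583902121191243)]]]]]]],[[[[[[[Int.ofNat (nat_lit 3543316192630522572)]]]]]]]],[[[[[],[[[[Int.negSucc (nat_lit 1145667132527219135)]]]]]],[[[[[[Int.ofNat (nat_lit 16490051465655798072)]]]]]]]],[[[[[[[[Int.negSucc (nat_lit 16944755037441463151)]]]]]]]]],[[[[[[[[[Int.ofNat (nat_lit 9735208757047053504)]]]]],[[[[[Int.negSucc (nat_lit 6072739128988648691)]]]]]]],[[[[[[[Int.ofNat (nat_lit 14699460847997582376)]]]]]]]],[],[[[[[[[[Int.ofNat (nat_lit 10909208213841415092)]]]]]]]]],[[[[[[[[[Int.ofNat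 (nat_lit 9225927470472378144)]]]]]]]]],[[[[[[[[[Int.ofNat (nat_lit 8042120365585159956)]]]]]]]]]]

/-- A coefficient. -/
noncomputable def sr7_m0_0_1 : MP 10 :=
  [[[[[[[[[[Int.ofNat (nat_lit 0),Int.ofNat (nat_lit 6487700772024432672)]],[[Int.ofNat (nat_lit 7472896589576415204)],[Int.negSucc (nat_lit 640323501937580459)]]],[[[Int.ofNat (nat_lit 0),Int.negSucc (nat_lit 198430116299469383)]],[[Int.ofNat (nat_lit 1217210924949611004)]]]],[[[[Int.negSucc (nat_lit 2097259711443793727)],[Int.ofNat (nat_lit 2316213716169750276)]]],[[[Int.negSucc (nat_lit 1296340567903339199)]]]]],[[[[[Int.ofNat (nat_lit 0),Int.negSucc (nat_lit 3857535668063550503)]],[[Int.ofNat (nat_lit 6295909604468434800)]]]],[[[[Int.negSucc (nat_lit 24101341735818269603)]]]]]],[[[[[[Int.ofNat (nat_lit 54344995249431692460)],[Int.ofNat (nat_lit 562433651332865640)]]],[[[Int.ofNat (nat_lit 8148680480642156664)]]]]],[[[[[Int.ofNat (nat_lit 881441205440029020)]]]]]],[[[[[],[[Int.negSucc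 (nat_lit 1328518441007078711)]]]],[[[[Int.ofNat (nat_lit 12452576299534125192)]]]]]],[[[[[[Int.negSucc (nat_lit 7311660723716640167)]]]]]]],[[[[[[[Int.ofNat (nat_lit 0),Int.negSucc (nat_lit 379256101087433231)]],[[Int.negSucc (nat_lit 4694472450351021155)]]]],[[[[Int.negSucc (nat_lit 370553427812207543)]]]]]],[[[[[[Int.negSucc (nat_lit 26246207972767036403)]]],[[[Int.ofNat (nat_lit 908143156705576284)]]]]],[[[[[Int.ofNat (nat_lit 637427472454140048)]]]]]]],[[[[[[],[[Int.negSucc (nat_lit 1601546589619395191)]]]],[[[[Int.ofNat (nat_lit 15174840310397947092)]]]]]],[[[[[[Int.negSucc (nat_lit 7792525555923445055)]]]]]]]],[[[[[[[[Int.negSucc (nat_lit 65368932472985269643)],[Int.negSucc (nat_lit 6852311830782968291)]],[[Int.ofNat (nat_lit 0),Int.negSucc (nat_lit 738963352228587527)]],[[Int.negSucc (nat_lit 1045352311487371883)]]],[[[Int.negSucc (nat_lit 8965363269136717751)],[Int.ofNat (nat_lit 78476530227081828)]]],[[[Int.negSucc (nat_lit 1112144394027552875)]]]],[[[[Int.ofNat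 (nat_lit 0),Int.ofNat (nat_lit 2939244572940680688)]],[[Int.negSucc (nat_lit 3019671368302458503)]]]],[[[[Int.negSucc (nat_lit 12802225370719324079)]]]]],[[[[[Int.ofNat (nat_lit 14636614916129027268)],[Int.negSucc (nat_lit 3301087032700080647)]]],[[[Int.ofNat (nat_lit 1980126562149745224)]]]]],[[[[[Int.negSucc (nat_lit 6664945301918162747)]]]]]],[[[[[[Int.ofNat (nat_lit 0),Int.ofNat (nat_lit 6751965951319177824)]],[[Int.negSucc (nat_lit 3998384529991482335)]]]],[[[[Int.ofNat (nat_lit 46808828628718940796)]]]]]],[[[[[[Int.negSucc (nat_lit 24722055312619312151)]]],[[[Int.negSucc (nat_lit 329196752382261731)]]]]],[[[[[Int.negSucc (nat_lit 3375730379440468631)]]]]]]],[[[[[[[Int.negSucc (nat_lit 2399991378088165955)],[Int.ofNat (nat_lit 5604682275105574176)]]],[[[Int.ofNat (nat_lit 11831349330695010000)]]]]],[[[[[Int.ofNat (nat_lit 15986226725835209868)]]]]]],[[[[[],[[Int.ofNat (nat_lit 629899957638167616)]]]],[[[[Int.negSucc (nat_lit 5061726702187706711)]]]]]],[[[[[[Int.negSucc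 (nat_lit 14553847935405708323)]]]]]]],[[[[[[[Int.ofNat (nat_lit 12418765377636234408)]]],[[[Int.ofNat (nat_lit 469499534520761832)]]]]],[[[[[Int.negSucc (nat_lit 6540530678976576287)]]]]]]],[[[[[[[Int.negSucc (nat_lit 11530094166307673375)]]]]]]]],[[[[[[[[Int.ofNat (nat_lit 0),Int.negSucc (nat_lit 18627066480258764015)]],[[Int.negSucc (nat_lit 10309575084792784631)]]]],[[[[Int.negSucc (nat_lit 32677480834005873455)]]],[[[Int.negSucc (nat_lit 1747089523404565343)]]]]],[[[[],[[Int.negSucc (nat_lit 2204035827350618315)]]]],[[[[Int.ofNat (nat_lit 22579344649760345628)]]]]]],[[[[[[Int.ofNat (nat_lit 15213309154392008580)],[Int.ofNat (nat_lit 3355029524381269368)]]],[[[Int.ofNat (nat_lit 9672616909829176512)]]]]],[[[[[Int.negSucc (nat_lit 10759313115444208943)]]]]]],[],[[[[[[Int.negSucc (nat_lit 6226525623056529887)]]]]]]],[[[[[[[Int.ofNat (nat_lit 0),Int.ofNat (nat_lit 3800633507718156240)]],[[Int.negSucc (nat_lit 806142501152215187)]]]],[[[[Int.negSucc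 (nat_lit 15410277446131468583)]]]]]],[[[[[[Int.negSucc (nat_lit 8365980919129557635)]]]]]]],[[],[[[[[[Int.negSucc (nat_lit 6242064687734091155)]]]]]]]],[[[[[[[[Int.ofNat (nat_lit 16485213882681300288)],[Int.negSucc (nat_lit 6050788623345121415)]]],[[[Int.negSucc (nat_lit 3605606244514611251)]]]]],[[[[[Int.ofNat (nat_lit 12280652448125624268)]]]]]],[[[],[[[[Int.negSucc (nat_lit 831339952187471591)]]]]]],[[[[[[Int.ofNat (nat_lit 6192009636231466212)]]]]]]],[[[[[[[Int.negSucc (nat_lit 37629489175283819555)]]]]],[[[[[Int.negSucc (nat_lit 1066222174044355595)]]]]]]],[[[[[[[Int.ofNat (nat_lit 29877305577823150776)]]]]]]]],[[[[[[[],[[Int.ofNat (nat_lit 1993192575198445656)]]]],[[[[Int.negSucc (nat_lit 9719648990078685359)]]]]]],[[[[[[Int.negSucc (nat_lit 17211415456284022847)]]]]]]]],[[[[[[[[Int.ofNat (nat_lit 25220077896257627856)]]]]]]],[[[[[[[Int.ofNat (nat_lit 3246573358861612752)]]]]]]]]],[[[[[[[[[Int.ofNat (nat_lit 0),Int.ofNat (nat_lit 17845897117590102936)]],[[Int.negSucc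 (nat_lit 2714794007436623063)],[Int.negSucc (nat_lit 640323501937580459)]]],[[[Int.ofNat (nat_lit 0),Int.ofNat (nat_lit 198430116299469384)]],[[Int.negSucc (nat_lit 3053624785744770443)]]]],[[[[Int.ofNat (nat_lit 56998035946895048616)],[Int.ofNat (nat_lit 2316213716169750276)]]],[[[Int.ofNat (nat_lit 592820950064997624)]]]]],[[[[[Int.ofNat (nat_lit 0),Int.ofNat (nat_lit 3857535668063550504)]],[[Int.ofNat (nat_lit 943878143827782960)]]]],[[[[Int.negSucc (nat_lit 17155322924831835287)]]]]]],[[[[[[Int.ofNat (nat_lit 79346035258474342008)],[Int.negSucc (nat_lit 1716220056863429171)]]],[[[Int.ofNat (nat_lit 6809481130374327936)]]]]],[[[[[Int.ofNat (nat_lit 12954684414942570384)]]]]]],[[[[[],[[Int.negSucc (nat_lit 1328518441007078711)]]]],[[[[Int.ofNat (nat_lit 12452576299534125192)]]]]]],[[[[[[Int.negSucc (nat_lit 4071428657206721951)]]]]]]],[[[[[[[Int.ofNat (nat_lit 0),Int.negSucc (nat_lit 2409640611013764335)]],[[Int.negSucc (nat_lit 1351410971066467319)]]]],[[[[Int.negSucc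 (nat_lit 14785675860787614443)]]]]]],[[[[[[Int.negSucc (nat_lit 63730577364133965707)]]],[[[Int.negSucc (nat_lit 908143156705576283)]]]]],[[[[[Int.negSucc (nat_lit 637427472454140047)]]]]]]],[[[[[[],[[Int.negSucc (nat_lit 1601546589619395191)]]]],[[[[Int.ofNat (nat_lit 15174840310397947092)]]]]]],[[[[[[Int.negSucc (nat_lit 10895933334913229411)]]]]]]]],[[[[[[[[Int.negSucc (nat_lit 157697209342947682511)],[Int.negSucc (nat_lit 3326117161883834879)]]],[[[Int.negSucc (nat_lit 19126637214564248507)]]]],[[[],[[Int.ofNat (nat_lit 1236911877380860128)]]]],[[[[Int.negSucc (nat_lit 12054686061233400863)]]]]],[[[[[Int.ofNat (nat_lit 8787252374530284660)]]],[[[Int.negSucc (nat_lit 3009661611106270103)]]]]],[[[[[Int.ofNat (nat_lit 14472985916682952728)]]]]]],[[[[[[Int.ofNat (nat_lit 0),Int.negSucc (nat_lit 5901876672566622503)]],[[Int.ofNat (nat_lit 6347976065978000928)]]]],[[[[Int.ofNat (nat_lit 29317413207604676124)]]]]]],[[[[[[Int.negSucc (nat_lit 1185092637317100635)]]]]]]],[[[[[[[Int.ofNat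 (nat_lit 413717945417097996)],[Int.ofNat (nat_lit 3747788591860500900)]]],[[[Int.ofNat (nat_lit 5295047983913761044)]]]]],[[[[[Int.negSucc (nat_lit 23352857431415431835)]]]]]],[],[[[[[[Int.negSucc (nat_lit 16561616603984425991)]]]]]]],[[[[[[[Int.ofNat (nat_lit 91591609546031212248)]]]]]]],[[[[[[[Int.negSucc (nat_lit 15245563919672050871)]]]]]]]],[[[[[[[[Int.ofNat (nat_lit 0),Int.negSucc (nat_lit 6042178786316553671)]],[[Int.ofNat (nat_lit 11084571052072170036)]]]],[[[[Int.negSucc (nat_lit 86670317458213042883)]]]]]],[[[[[[Int.ofNat (nat_lit 10034886036076373040)]]]]],[[[[[Int.ofNat (nat_lit 9847604206549418736)]]]]]]],[[[[],[[[[Int.ofNat (nat_lit 996968831782691784)]]]]]],[[[[[[Int.ofNat (nat_lit 4451091422307593580)]]]]]]]],[[[[[[[[Int.ofNat (nat_lit 91337545900390206312)]]],[[[Int.negSucc (nat_lit 813550684891972799)]]]]],[[[[[Int.negSucc (nat_lit 11259702548220162191)]]]]]]],[[[[[[[Int.negSucc (nat_lit 12548466282271729979)]]]]]]]],[[[],[[[[[[Int.ofNat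 (nat_lit 841040355205796076)]]]]]]]],[[[[[[[[Int.negSucc (nat_lit 14909059131933770939)]]]]]]]]],[[[[[[[[[Int.ofNat (nat_lit 0),Int.negSucc (nat_lit 10315525801506943847)]],[[Int.negSucc (nat_lit 3252947766840037475)]]]],[[[[Int.ofNat (nat_lit 32198994292830089280)]]],[[[Int.negSucc (nat_lit 412597509904524335)]]]]],[[[[],[[Int.ofNat (nat_lit 125148753779786472)]]]],[[[[Int.ofNat (nat_lit 1610360766510623868)]]]]]],[[[[[[Int.ofNat (nat_lit 59218771429225366068)],[Int.negSucc (nat_lit 2278653708196294811)]]],[[[Int.ofNat (nat_lit 4687805063962079424)]]]]],[[[[[Int.ofNat (nat_lit 31075514971483216884)]]]]]],[],[[[[[[Int.ofNat (nat_lit 3240232066509918216)]]]]]]],[[[[[[[Int.ofNat (nat_lit 0),Int.ofNat (nat_lit 2788896712101197568)]],[[Int.ofNat (nat_lit 3223060331420211468)]]]],[[[[Int.negSucc (nat_lit 10671699738648146111)]]]]]],[[[[[[Int.negSucc (nat_lit 59215973293001264507)]]]]]]],[[],[[[[[[Int.negSucc (nat_lit 1794258649413554747)]]]]]]]],[[[[[[[[Int.negSucc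 (nat_lit 170585808166586060279)],[Int.ofNat (nat_lit 287330633993416596)]]],[[[Int.negSucc (nat_lit 9563003864465430719)]]]]],[[[[[Int.negSucc (nat_lit 59589502922709878639)]]]]]],[[[],[[[[Int.negSucc (nat_lit 1888784513226914819)]]]]]],[[[[[[Int.negSucc (nat_lit 13050926795072377691)]]]]]]],[[[[[[[Int.ofNat (nat_lit 45027691396322325912)]]]]],[[[[[Int.ofNat (nat_lit 14515212535882777752)]]]]]]],[[[[[[[Int.ofNat (nat_lit 21433060587505434600)]]]]]]]],[[[[[[[],[[Int.ofNat (nat_lit 3882674180692751796)]]]],[[[[Int.negSucc (nat_lit 40174926039822615479)]]]]]],[[[[[[Int.negSucc (nat_lit 10121592881073327851)]]]]]]]],[[[[[[[[Int.ofNat (nat_lit 69156825490766954244)]]]]]]],[[[[[[[Int.negSucc (nat_lit 5164380216144150059)]]]]]]]]],[[[[[[[[[Int.ofNat (nat_lit 0),Int.negSucc (nat_lit 14018072088107591759)]],[[Int.ofNat (nat_lit 9740715995006938260)]]]],[[[[Int.negSucc (nat_lit 50671476164871683759)]]]]]],[[[[[[Int.ofNat (nat_lit 2746921581129425604)]]]]],[[[[[Int.ofNat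 (nat_lit 3214430852528149056)]]]]]]],[[[[],[[[[Int.ofNat (nat_lit 1833663284502347652)]]]]]],[[[[[[Int.negSucc (nat_lit 17098413279394695347)]]]]]]]],[[[[[[[[Int.negSucc (nat_lit 19229611780596974351)]]],[[[Int.ofNat (nat_lit 330937185797962668)]]]]],[[[[[Int.negSucc (nat_lit 25893110420230745867)]]]]]]],[[[[[[[Int.negSucc (nat_lit 2181014410077209963)]]]]]]]],[[[],[[[[[[Int.negSucc (nat_lit 8419538913611346791)]]]]]]]],[[[[[[[[Int.negSucc (nat_lit 23309591163454507655)]]]]]]]]],[[[[[[[[],[[Int.ofNat (nat_lit 954333702490901844)]]]],[[[[Int.negSucc (nat_lit 27570451515323142503)]]]]]],[[[[[[Int.negSucc (nat_lit 25739576049969066479)]]]]]]]],[[[[[[[[Int.ofNat (nat_lit 46145056400176914888)]]]]]]],[[[[[[[Int.negSucc (nat_lit 14401123925884136807)]]]]]]]]],[[[[],[[[[[[Int.negSucc (nat_lit 7029408166130211299)]]]]]]]],[[[[[[[[Int.ofNat (nat_lit 8093405301647889756)]]]]]]]]]]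

/-- A coefficient. -/
noncomputable def sr7_m0_0_2 : MP 10 :=
  [[[[[[[[[[Int.ofNat (nat_lit 42637138995271603800)],[Int.ofNat (nat_lit 11315950305038287980)]],[],[[Int.ofNat (nat_lit 1477214082403338102)]]],[[[Int.negSucc (nat_lit 6576341648175687887)]]],[[[Int.ofNat (nat_lit 2241020196797315802)]]]],[[[[Int.ofNat (nat_lit 0),Int.ofNat (nat_lit 1088665808211442176)]],[[Int.negSucc (nat_lit 7974269995013350451)]]]],[[[[Int.ofNat (nat_lit 41428478224913436246)]]]]],[[[[[Int.ofNat (nat_lit 13473550603775044860)],[Int.negSucc (nat_lit 3456231218533250219)]]],[[[Int.negSucc (nat_lit 4944620762244030587)]]]]],[[[[[Int.ofNat (nat_lit 28772208516448061106)]]]]]],[[[[[[Int.ofNat (nat_lit 0),Int.negSucc (nat_lit 5067943586787720647)]],[[Int.ofNat (nat_lit 8979252367327184064)]]]],[[[[Int.negSucc (nat_lit 57434233828325521403)]]]]]],[[[[[[Int.ofNat (nat_lit 64581227716414120308)]]]]],[[[[[Int.ofNat (nat_lit 7664994611325819000)]]]]]]],[[[[[[[Int.negSucc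 (nat_lit 2467390293306162875)],[Int.negSucc (nat_lit 8222420357506615151)]]],[[[Int.ofNat (nat_lit 5470937487193481004)]]]]],[[[[[Int.negSucc (nat_lit 30664278115914057563)]]]]]],[[[],[[[[Int.ofNat (nat_lit 4427501446007533044)]]]]]],[[[[[[Int.negSucc (nat_lit 3047962031597397011)]]]]]]],[[[[[[[Int.ofNat (nat_lit 2417474712143707572)]]]]],[[[[[Int.ofNat (nat_lit 10963628275362062232)]]]]]]],[[[[[[[Int.negSucc (nat_lit 2294720930181028523)]]]]]]]],[[[[[[[[Int.ofNat (nat_lit 0),Int.ofNat (nat_lit 22913772993752088432)]],[[Int.negSucc (nat_lit 10647273580978602647)]]],[[],[[Int.negSucc (nat_lit 730098189818267711)]]]],[[[[Int.ofNat (nat_lit 80908192300149551964)],[Int.ofNat (nat_lit 2249095322333653344)]]],[[[Int.negSucc (nat_lit 7017816420280663451)]]]]],[[[[[Int.ofNat (nat_lit 0),Int.negSucc (nat_lit 3169597035241138031)]],[[Int.ofNat (nat_lit 3345006303408233280)]]]],[[[[Int.negSucc (nat_lit 22911222646698236471)]]]]]],[[[[[[Int.negSucc (nat_lit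 125361028217057711255)],[Int.negSucc (nat_lit 5504228950182933515)]]],[[[Int.negSucc (nat_lit 25429437947331822995)]]]]],[[[[[Int.ofNat (nat_lit 22159036421085486756)]]]]]],[[[],[[[[Int.negSucc (nat_lit 9536187556773869315)]]]]]],[[[[[[Int.ofNat (nat_lit 8208540963937657368)]]]]]]],[[[[[[[Int.ofNat (nat_lit 0),Int.negSucc (nat_lit 3366704738852463911)]],[[Int.ofNat (nat_lit 16397275592500792860)]]]],[[[[Int.ofNat (nat_lit 21060718257546758556)]]]]]],[[[[[[Int.ofNat (nat_lit 2344085793162073344)]]]]],[[[[[Int.ofNat (nat_lit 96032689409793792)]]]]]]],[[[[],[[[[Int.negSucc (nat_lit 8679269813159625791)]]]]]],[[[[[[Int.ofNat (nat_lit 8121038331720846576)]]]]]]]],[[[[[[[[Int.ofNat (nat_lit 11366755473898925364)],[Int.ofNat (nat_lit 18226957532146833840)]]],[[[Int.ofNat (nat_lit 13091814415599758028)]]]],[],[[[[Int.negSucc (nat_lit 983775813922670351)]]]]],[[[[[Int.negSucc (nat_lit 19677668525693604011)]]]]],[[[[[Int.ofNat (nat_lit 359865019557740304)]]]]]],[[[[[],[[Int.ofNat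 (nat_lit 1768027828528789644)]]]],[[[[Int.ofNat (nat_lit 36327729826805764260)]]]]]],[[[[[[Int.ofNat (nat_lit 26366350536303320868)]]]]]]],[[[[[[[Int.ofNat (nat_lit 77143031649544959540)]]],[[[Int.negSucc (nat_lit 654623952903587075)]]]]],[[[[[Int.negSucc (nat_lit 10461981954679485479)]]]]]]],[[[[[[[Int.negSucc (nat_lit 39421561840108918223)]]]]]]]],[[[[[[[[Int.ofNat (nat_lit 0),Int.ofNat (nat_lit 6437012242975803528)]],[[Int.ofNat (nat_lit 6946845152251060668)]]]],[[[[Int.negSucc (nat_lit 16615910931599378387)]]]]]],[[[[[[Int.negSucc (nat_lit 117239882582341907039)]]]]]]],[[],[[[[[[Int.ofNat (nat_lit 30953036763315000624)]]]]]]]],[[[[[[[[Int.ofNat (nat_lit 108006717287574726036)]]]]],[[[[[Int.ofNat (nat_lit 2099953172031284604)]]]]]]],[[[[[[[Int.negSucc (nat_lit 41156021704397651891)]]]]]]]],[],[[[[[[[[Int.negSucc (nat_lit 9086796730446227891)]]]]]]]]],[[[[[[[[[Int.ofNat (nat_lit 53228032417932278448)],[Int.ofNat (nat_lit 23199772211861467968)]],[],[[Int.ofNat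 (nat_lit 1477214082403338102)]]],[[[Int.ofNat (nat_lit 4535769997372250616)]]],[[[Int.negSucc (nat_lit 2241020196797315801)]]]],[[[[Int.ofNat (nat_lit 0),Int.negSucc (nat_lit 1088665808211442175)]],[[Int.ofNat (nat_lit 1833660282859448484)]]]],[[[[Int.ofNat (nat_lit 27156738656413522398)]]]]],[[[[[Int.negSucc (nat_lit 10007765350383725315)],[Int.negSucc (nat_lit 3456231218533250219)]]],[[[Int.ofNat (nat_lit 3421560251882548908)]]]]],[[[[[Int.negSucc (nat_lit 16659224248409700953)]]]]]],[[[[[[Int.ofNat (nat_lit 0),Int.ofNat (nat_lit 5067943586787720648)]],[[Int.negSucc (nat_lit 16421465859464100863)]]]],[[[[Int.ofNat (nat_lit 11137535499534609432)]]]]]],[[[[[[Int.ofNat (nat_lit 38458469185892811708)]]]]],[[[[[Int.ofNat (nat_lit 7664994611325819000)]]]]]]],[[[[[[[Int.ofNat (nat_lit 96387490864304784624)],[Int.negSucc (nat_lit 8222420357506615151)]]],[[[Int.ofNat (nat_lit 2941057283507974056)]]]]],[[[[[Int.ofNat (nat_lit 1070190560170020660)]]]]]],[[[],[[[[Int.negSucc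 (nat_lit 4427501446007533043)]]]]]],[[[[[[Int.ofNat (nat_lit 2410802842721575884)]]]]]]],[[[[[[[Int.negSucc (nat_lit 110945923422809277059)]]]]],[[[[[Int.ofNat (nat_lit 10963628275362062232)]]]]]]],[[[[[[[Int.negSucc (nat_lit 2294720930181028523)]]]]]]]],[[[[[[[[Int.ofNat (nat_lit 0),Int.negSucc (nat_lit 9904923256004561951)]],[[Int.ofNat (nat_lit 9961952423137035624)]]]],[[[[Int.ofNat (nat_lit 7962298545455757252)]]]]],[[],[[[[Int.ofNat (nat_lit 2812142739296110668)]]]]]],[[[[[[Int.negSucc (nat_lit 31381172754813716195)]]],[[[Int.ofNat (nat_lit 10678666556298898044)]]]]],[[[[[Int.negSucc (nat_lit 10390881608050161491)]]]]]]],[[[[[[],[[Int.ofNat (nat_lit 4084774052199179688)]]]],[[[[Int.ofNat (nat_lit 31685185018423810776)]]]]]],[[[[[[Int.negSucc (nat_lit 89800649448085007267)]]]]]]]],[[[[[[[[Int.negSucc (nat_lit 109650079019715986291)],[Int.ofNat (nat_lit 1666747974897631560)]]],[[[Int.negSucc (nat_lit 4620807152062956995)]]]]],[[[[[Int.ofNat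 (nat_lit 35289558021475016064)]]]]]],[],[[[[[[Int.negSucc (nat_lit 59996228967974181599)]]]]]]],[[[[[[[Int.ofNat (nat_lit 45472340182084582704)]]]]]]],[[[[[[[Int.ofNat (nat_lit 34387180639773884088)]]]]]]]],[[[[[],[[[[Int.negSucc (nat_lit 605043582932383919)]]]]]],[[[[[[Int.ofNat (nat_lit 6702043126667653392)]]]]]]]],[[[[[[[[Int.ofNat (nat_lit 25893470901131760504)]]]]]]]]],[[[[[[[[[Int.negSucc (nat_lit 4257398159960063921)],[Int.ofNat (nat_lit 15687588999773982360)]]],[[[Int.ofNat (nat_lit 13457616716662220544)]]]],[],[[[[Int.negSucc (nat_lit 1021867294347075239)]]]]],[[[[[Int.ofNat (nat_lit 48086028431172456564)]]]]],[[[[[Int.negSucc (nat_lit 3707786539003422407)]]]]]],[[[[[],[[Int.negSucc (nat_lit 21150135181939991)]]]],[[[[Int.ofNat (nat_lit 17281577057356582236)]]]]]],[[[[[[Int.ofNat (nat_lit 24554621037202221168)]]]]]]],[[[[[[[Int.ofNat (nat_lit 175355203623503101896)]]],[[[Int.ofNat (nat_lit 4441748422117038924)]]]]],[[[[[Int.negSucc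 (nat_lit 29997013446994275911)]]]]]]],[[[[[[[Int.negSucc (nat_lit 84996646245492015941)]]]]]]]],[[[[[[[[Int.ofNat (nat_lit 0),Int.ofNat (nat_lit 11313104714718944808)]],[[Int.ofNat (nat_lit 4718139603725361432)]]]],[[[[Int.negSucc (nat_lit 22082215089320990591)]]]]]],[[[[[[Int.negSucc (nat_lit 46702443242757390299)]]]]]]],[[],[[[[[[Int.negSucc (nat_lit 70496148655363030883)]]]]]]]],[[[[[[[[Int.ofNat (nat_lit 62119777682274454770)]]]]],[[[[[Int.ofNat (nat_lit 13714408842333451776)]]]]]]],[[[[[[[Int.negSucc (nat_lit 6715654611253874723)]]]]]]]],[],[[[[[[[[Int.negSucc (nat_lit 75688882316354962991)]]]]]]]]],[[[[[[[[[Int.negSucc (nat_lit 179936450795923693097)],[Int.ofNat (nat_lit 3803767092950802372)]]],[[[Int.ofNat (nat_lit 4585456726654258680)]]]]],[[[[[Int.ofNat (nat_lit 54883436738961458556)]]]]]],[],[[[[[[Int.ofNat (nat_lit 9496333046912372208)]]]]]]],[[[[[[[Int.ofNat (nat_lit 124419086089505915652)]]]]]]],[[[[[[[Int.negSucc (nat_lit 34145225599307519633)]]]]]]]],[[[[[],[[[[Int.ofNat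 (nat_lit 6824602668912172224)]]]]]],[[[[[[Int.negSucc (nat_lit 38450565844457713247)]]]]]]]],[[[[[[[[Int.ofNat (nat_lit 34037521504689092094)]]]]]]]]],[[[[[[[[[Int.negSucc (nat_lit 264222743422145506295)]]]]],[[[[[Int.ofNat (nat_lit 12360874545008934024)]]]]]]],[[[[[[[Int.ofNat (nat_lit 23631908207996793816)]]]]]]]],[],[[[[[[[[Int.negSucc (nat_lit 81572828941273905563)]]]]]]]]],[[[[[[[[[Int.negSucc (nat_lit 136125046416123902579)]]]]]]]]],[[[[[[[[[Int.negSucc (nat_lit 20642666379645929975)]]]]]]]]]]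

/-- A coefficient. -/
noncomputable def sr7_m0_0_3 : MP 10 :=
  [[[[[[[[[[Int.ofNat (nat_lit 0),Int.negSucc (nat_lit 12682392344562546623)]],[[Int.ofNat (nat_lit 15278711346886277292)]]]],[[[[Int.negSucc (nat_lit 74445093891916038935)]]],[[[Int.negSucc (nat_lit 123580992461586131)]]]]],[[[[],[[Int.ofNat (nat_lit 1830260150123803644)]]]],[[[[Int.negSucc (nat_lit 7824880035540125231)]]]]]],[[[[[[Int.ofNat (nat_lit 67329763227702434844)],[Int.negSucc (nat_lit 9130836078255284579)]]],[[[Int.ofNat (nat_lit 13230847450543931496)]]]]],[[[[[Int.negSucc (nat_lit 16364928647313339947)]]]]]],[],[[[[[[Int.ofNat (nat_lit 20917633113771247524)]]]]]]],[[[[[[[Int.ofNat (nat_lit 0),Int.ofNat (nat_lit 4670649862507660224)]],[[Int.negSucc (nat_lit 4572108534277266119)]]]],[[[[Int.ofNat (nat_lit 12624201257540676252)]]]]]],[[[[[[Int.ofNat (nat_lit 35081749638471804312)]]]]]]],[[],[[[[[[Int.ofNat (nat_lit 23476272248252940816)]]]]]]]],[[[[[[[[Int.negSucc (nat_lit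 101487442971502444799)],[Int.negSucc (nat_lit 2485736374175324747)]]],[[[Int.negSucc (nat_lit 2762657969177850323)]]]],[[[],[[Int.ofNat (nat_lit 2303687347820995488)]]]],[[[[Int.negSucc (nat_lit 11263831658787943283)]]]]],[[[[[Int.ofNat (nat_lit 22718283581651623044)]]],[[[Int.ofNat (nat_lit 1127701208505018780)]]]]],[[[[[Int.negSucc (nat_lit 7842321750649145003)]]]]]],[[[[[[Int.ofNat (nat_lit 0),Int.negSucc (nat_lit 9598138951341316079)]],[[Int.negSucc (nat_lit 5260499609361189095)]]]],[[[[Int.negSucc (nat_lit 38150411210546029367)]]]]]],[[[[[[Int.negSucc (nat_lit 116291204962123910999)]]]]]]],[[[[[[[Int.ofNat (nat_lit 35480802577275940668)],[Int.ofNat (nat_lit 3976558520089627608)]]],[[[Int.ofNat (nat_lit 3580265382330431184)]]]]],[[[[[Int.negSucc (nat_lit 9274184349911235359)]]]]]],[],[[[[[[Int.negSucc (nat_lit 10146591650213824787)]]]]]]],[[[[[[[Int.negSucc (nat_lit 116405461539959537255)]]]]]]],[[[[[[[Int.negSucc (nat_lit 10202590000095802943)]]]]]]]],[[[[[[[[Int.ofNat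 (nat_lit 0),Int.ofNat (nat_lit 10479504310437123624)]],[[Int.negSucc (nat_lit 1453139894484008039)]]]],[[[[Int.ofNat (nat_lit 50426126912727244308)]]]]]],[[[[[[Int.ofNat (nat_lit 378602582728781171760)]]]]],[[[[[Int.negSucc (nat_lit 17203724931578855999)]]]]]]],[[[[],[[[[Int.negSucc (nat_lit 1995094371955407707)]]]]]],[[[[[[Int.negSucc (nat_lit 117369751348033006691)]]]]]]]],[[[[[[[[Int.negSucc (nat_lit 463747411883239390823)]]],[[[Int.ofNat (nat_lit 8601607024717838532)]]]]],[[[[[Int.ofNat (nat_lit 10763843563562389572)]]]]]]],[[[[[[[Int.ofNat (nat_lit 114018028173380722920)]]]]]]]],[[[],[[[[[[Int.negSucc (nat_lit 5714108153038307207)]]]]]]]],[[[[[[[[Int.negSucc (nat_lit 10290050728059744539)]]]]]]]]],[[[[[[[[[Int.ofNat (nat_lit 0),Int.ofNat (nat_lit 7596370033161033168)]],[[Int.negSucc (nat_lit 32686856702542281155)]]]],[[[[Int.ofNat (nat_lit 16521186058580995464)]]],[[[Int.ofNat (nat_lit 123580992461586132)]]]]],[[[[],[[Int.ofNat (nat_lit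 1830260150123803644)]]]],[[[[Int.ofNat (nat_lit 9527891833048702248)]]]]]],[[[[[[Int.negSucc (nat_lit 21258928402256509607)],[Int.negSucc (nat_lit 9130836078255284579)]]],[[[Int.negSucc (nat_lit 18916299969030628799)]]]]],[[[[[Int.negSucc (nat_lit 18365427238902707579)]]]]]],[],[[[[[[Int.ofNat (nat_lit 20917633113771247524)]]]]]]],[[[[[[[Int.ofNat (nat_lit 0),Int.negSucc (nat_lit 4670649862507660223)]],[[Int.negSucc (nat_lit 2949211736523380687)]]]],[[[[Int.negSucc (nat_lit 21563205410231716343)]]]]]],[[[[[[Int.ofNat (nat_lit 114532768617424221000)]]]]]]],[[],[[[[[[Int.ofNat (nat_lit 27353707473267606480)]]]]]]]],[[[[[[[[Int.negSucc (nat_lit 35554004440589539955)],[Int.ofNat (nat_lit 4251064651031575656)]]],[[[Int.ofNat (nat_lit 32980707987808081644)]]]]],[[[[[Int.ofNat (nat_lit 66802576753443621720)]]]]]],[[[],[[[[Int.negSucc (nat_lit 15252113510095368011)]]]]]],[[[[[[Int.ofNat (nat_lit 103630891547865848748)]]]]]]],[[[[[[[Int.ofNat (nat_lit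 98196113622071235288)]]]]],[[[[[Int.negSucc (nat_lit 17219676768382261895)]]]]]]],[[[[[[[Int.negSucc (nat_lit 153454241396667632339)]]]]]]]],[[[[[[[],[[Int.negSucc (nat_lit 1291183705330235171)]]]],[[[[Int.negSucc (nat_lit 6465708414335584211)]]]]]],[[[[[[Int.negSucc (nat_lit 7945229581551395135)]]]]]]]],[[[[[[[[Int.negSucc (nat_lit 89983058667197658875)]]]]]]],[[[[[[[Int.negSucc (nat_lit 44231936434310500667)]]]]]]]]],[[[[[[[[[Int.ofNat (nat_lit 0),Int.ofNat (nat_lit 5086022311401513456)]],[[Int.negSucc (nat_lit 8081562534924903371)]]]],[[[[Int.ofNat (nat_lit 22087618130937347832)]]]]]],[[[[[[Int.ofNat (nat_lit 114718320102377594304)]]]]],[[[[[Int.negSucc (nat_lit 2387884357965956447)]]]]]]],[[[[],[[[[Int.negSucc (nat_lit 16337333373175994075)]]]]]],[[[[[[Int.ofNat (nat_lit 53398769201454946056)]]]]]]]],[[[[[[[[Int.negSucc (nat_lit 498407658354820022555)]]],[[[Int.negSucc (nat_lit 1963515496619146559)]]]]],[[[[[Int.ofNat (nat_lit 25168043758917714468)]]]]]]],[[[[[[[Int.ofNat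 (nat_lit 76176728495179056840)]]]]]]]],[[[],[[[[[[Int.ofNat (nat_lit 89371581666090653112)]]]]]]]],[[[[[[[[Int.ofNat (nat_lit 44208383346402857928)]]]]]]]]],[[[[[[[[],[[Int.negSucc (nat_lit 5528705776573047635)]]]],[[[[Int.negSucc (nat_lit 20598393711429718127)]]]]]],[[[[[[Int.ofNat (nat_lit 153682998569642043228)]]]]]]]],[[[[[[[[Int.negSucc (nat_lit 365990386473755167655)]]]]]]],[[[[[[[Int.negSucc (nat_lit 8611911523936462955)]]]]]]]]],[[[[],[[[[[[Int.ofNat (nat_lit 13911729393441867552)]]]]]]]],[[[[[[[[Int.ofNat (nat_lit 108298307218083889728)]]]]]]]]]]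

/-- A coefficient. -/
noncomputable def sr7_m0_0_4 : MP 10 :=
  [[[[[[[[[[Int.ofNat (nat_lit 155004836389950798630)],[Int.negSucc (nat_lit 16372751985231055415)]]],[[[Int.ofNat (nat_lit 2122106460258599676)]]]],[],[[[[Int.ofNat (nat_lit 19973385607564537716)]]]]],[[[[[Int.negSucc (nat_lit 4273194347289950015)]]]]],[[[[[Int.ofNat (nat_lit 24431600105454874038)]]]]]],[[[[[],[[Int.ofNat (nat_lit 6917325550610906820)]]]],[[[[Int.negSucc (nat_lit 25625005553097755675)]]]]]],[[[[[[Int.ofNat (nat_lit 65355603467145504978)]]]]]]],[[[[[[[Int.negSucc (nat_lit 146057814776225040587)]]],[[[Int.negSucc (nat_lit 2540748839483178815)]]]]],[[[[[Int.negSucc (nat_lit 12296868001529914499)]]]]]]],[[[[[[[Int.ofNat (nat_lit 269686609037613588648)]]]]]]]],[[[[[[[[Int.ofNat (nat_lit 0),Int.negSucc (nat_lit 25162865731551274895)]],[[Int.negSucc (nat_lit 11699330674755243671)]]]],[[[[Int.negSucc (nat_lit 28285138687135977095)]]]]],[[],[[[[Int.ofNat (nat_lit 3849645918075043656)]]]]]],[[[[[[Int.negSucc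 (nat_lit 186804434516306906591)]]],[[[Int.ofNat (nat_lit 840684205942337520)]]]]],[[[[[Int.ofNat (nat_lit 24609963494084087748)]]]]]]],[[[[[[],[[Int.negSucc (nat_lit 2999031293309026403)]]]],[[[[Int.negSucc (nat_lit 26719016897620921883)]]]]]],[[[[[[Int.ofNat (nat_lit 202905951120056142156)]]]]]]]],[[[[[[[[Int.ofNat (nat_lit 457551460995435033984)],[Int.negSucc (nat_lit 5856678962374411139)]]],[[[Int.negSucc (nat_lit 15461703745488689615)]]]]],[[[[[Int.negSucc (nat_lit 59695219912030116899)]]]]]],[],[[[[[[Int.negSucc (nat_lit 3225260584733087795)]]]]]]],[[[[[[[Int.negSucc (nat_lit 152330069678867433515)]]]]]]],[[[[[[[Int.ofNat (nat_lit 26036148241740243828)]]]]]]]],[[[[[],[[[[Int.ofNat (nat_lit 16189918699702818372)]]]]]],[[[[[[Int.ofNat (nat_lit 166886693825816855484)]]]]]]]],[[[[[[[[Int.negSucc (nat_lit 135975984305972188037)]]]]]]]]],[[[[[[[[[Int.ofNat (nat_lit 343258188491877711966)],[Int.negSucc (nat_lit 10526602260675012023)]]],[[[Int.negSucc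 (nat_lit 42400674951263398247)]]]],[],[[[[Int.negSucc (nat_lit 19973385607564537715)]]]]],[[[[[Int.negSucc (nat_lit 85886164871749832351)]]]]],[[[[[Int.ofNat (nat_lit 24431600105454874038)]]]]]],[[[[[],[[Int.ofNat (nat_lit 6917325550610906820)]]]],[[[[Int.ofNat (nat_lit 19209036769454949132)]]]]]],[[[[[[Int.negSucc (nat_lit 196570825089078953861)]]]]]]],[[[[[[[Int.negSucc (nat_lit 351178851092803166183)]]],[[[Int.ofNat (nat_lit 2540748839483178816)]]]]],[[[[[Int.negSucc (nat_lit 6952308094318173107)]]]]]]],[[[[[[[Int.ofNat (nat_lit 311382169409795852868)]]]]]]]],[[[[[[[[Int.ofNat (nat_lit 0),Int.ofNat (nat_lit 12651823770911516952)]],[[Int.negSucc (nat_lit 17458886012660162003)]]]],[[[[Int.negSucc (nat_lit 2011055845564754615)]]]]]],[[[[[[Int.ofNat (nat_lit 375706693258227985068)]]]]]]],[[],[[[[[[Int.ofNat (nat_lit 16431909247285940376)]]]]]]]],[[[[[[[[Int.negSucc (nat_lit 391955426044844444387)]]]]],[[[[[Int.negSucc (nat_lit 23127534666741705947)]]]]]]],[[[[[[[Int.ofNat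 (nat_lit 120172086458669637912)]]]]]]]],[],[[[[[[[[Int.ofNat (nat_lit 32608189453783248186)]]]]]]]]],[[[[[[[[[Int.ofNat (nat_lit 838320989514372722292)],[Int.ofNat (nat_lit 5846149724556043392)]]],[[[Int.negSucc (nat_lit 7269209379228134003)]]]]],[[[[[Int.negSucc (nat_lit 84158418470557977923)]]]]]],[],[[[[[[Int.negSucc (nat_lit 34139321743598676155)]]]]]]],[[[[[[[Int.negSucc (nat_lit 199387119515856456647)]]]]]]],[[[[[[[Int.ofNat (nat_lit 4483013790076889652)]]]]]]]],[[[[[],[[[[Int.negSucc (nat_lit 9348872277121750487)]]]]]],[[[[[[Int.negSucc (nat_lit 4653869759149876391)]]]]]]]],[[[[[[[[Int.negSucc (nat_lit 205387518182576768777)]]]]]]]]],[[[[[[[[[Int.ofNat (nat_lit 676945085793452722512)]]]]],[[[[[Int.negSucc (nat_lit 28918614006485914763)]]]]]]],[[[[[[[Int.ofNat (nat_lit 31129146393855789732)]]]]]]]],[],[[[[[[[[Int.negSucc (nat_lit 55601993665862335481)]]]]]]]]],[[[[[[[[[Int.ofNat (nat_lit 89223270502940454534)]]]]]]]]],[[[[[[[[[Int.ofNat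 (nat_lit 76396990853385174714)]]]]]]]]]]

/-- A coefficient. -/
noncomputable def sr7_m0_0_5 : MP 10 :=
  [[[[[[[[[[Int.ofNat (nat_lit 0),Int.ofNat (nat_lit 7639700008429328544)]],[[Int.ofNat (nat_lit 126984972413847732)]]]],[[[[Int.negSucc (nat_lit 11215288761881565623)]]]]]],[[[[[[Int.negSucc (nat_lit 65659224794238456503)]]]]],[[[[[Int.ofNat (nat_lit 44793095628457741716)]]]]]]],[[[[],[[[[Int.ofNat (nat_lit 3479136748903440072)]]]]]],[[[[[[Int.negSucc (nat_lit 101555511943459759307)]]]]]]]],[[[[[[[[Int.negSucc (nat_lit 35319804610947417635)],[Int.ofNat (nat_lit 7351633326970473816)]]],[[[Int.ofNat (nat_lit 8923177433484418392)]]]]],[[[[[Int.ofNat (nat_lit 20636796980188358448)]]]]]],[[[],[[[[Int.negSucc (nat_lit 18158675603142034475)]]]]]],[[[[[[Int.negSucc (nat_lit 42072559142203881203)]]]]]]],[[[[[[[Int.ofNat (nat_lit 154026141113586808404)]]]]],[[[[[Int.negSucc (nat_lit 22710542740340659955)]]]]]]],[[[[[[[Int.negSucc (nat_lit 54677042220180903215)]]]]]]]],[[[[[[[],[[Int.ofNat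 (nat_lit 1966722577805610156)]]]],[[[[Int.negSucc (nat_lit 33087601702007762615)]]]]]],[[[[[[Int.negSucc (nat_lit 471187066296577418783)]]]]]]]],[[[[[[[[Int.ofNat (nat_lit 649591429860945942780)]]]]]]],[[[[[[[Int.negSucc (nat_lit 6230118271617541535)]]]]]]]]],[[[[[[[[[Int.ofNat (nat_lit 0),Int.negSucc (nat_lit 7639700008429328543)]],[[Int.ofNat (nat_lit 38982270086439348684)]]]],[[[[Int.ofNat (nat_lit 42392634694563049776)]]]]]],[[[[[[Int.negSucc (nat_lit 535278690731201513939)]]]]],[[[[[Int.ofNat (nat_lit 44793095628457741716)]]]]]]],[[[[],[[[[Int.negSucc (nat_lit 3479136748903440071)]]]]]],[[[[[[Int.negSucc (nat_lit 113580900497030055851)]]]]]]]],[[[[[[[[Int.ofNat (nat_lit 910992948027908575812)]]],[[[Int.negSucc (nat_lit 8588325152149386203)]]]]],[[[[[Int.negSucc (nat_lit 41329373673196359599)]]]]]]],[[[[[[[Int.negSucc (nat_lit 85664111662749901979)]]]]]]]],[[[],[[[[[[Int.ofNat (nat_lit 5164828278275934960)]]]]]]]],[[[[[[[[Int.negSucc (nat_lit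 106886981623291195907)]]]]]]]]],[[[[[[[[],[[Int.ofNat (nat_lit 991760493654982992)]]]],[[[[Int.ofNat (nat_lit 24082776343597635048)]]]]]],[[[[[[Int.negSucc (nat_lit 194175686868791044883)]]]]]]]],[[[[[[[[Int.ofNat (nat_lit 509245935769938768336)]]]]]]],[[[[[[[Int.ofNat (nat_lit 43898080529784009984)]]]]]]]]],[[[[],[[[[[[Int.negSucc (nat_lit 65624143203185341871)]]]]]]]],[[[[[[[[Int.ofNat (nat_lit 320039367092546974548)]]]]]]]]]]

/-- A coefficient. -/
noncomputable def sr7_m0_0_6 : MP 10 :=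
  [[[[[[[[[[Int.negSucc (nat_lit 266838608263470588329)],[Int.ofNat (nat_lit 6146042460771057888)]]],[[[Int.negSucc (nat_lit 501279582737619683)]]]]],[[[[[Int.ofNat (nat_lit 13850415356209347888)]]]]]],[],[[[[[[Int.ofNat (nat_lit 133384953038246456592)]]]]]]],[[[[[[[Int.negSucc (nat_lit 38169074616445706639)]]]]]]],[[[[[[[Int.ofNat (nat_lit 51451642474624514802)]]]]]]]],[[[[[[[[Int.ofNat (nat_lit 0),Int.ofNat (nat_lit 6945427081035122616)]],[[Int.ofNat (nat_lit 10387939468276780788)]]]],[[[[Int.ofNat (nat_lit 1308620628354180144)]]]]]],[[[[[[Int.ofNat (nat_lit 260721146236088889036)]]]]]]],[[],[[[[[[Int.negSucc (nat_lit 77931792887349911843)]]]]]]]],[[[[[[[[Int.negSucc (nat_lit 749116371551537892659)]]]]],[[[[[Int.ofNat (nat_lit 45768403436376942600)]]]]]]],[[[[[[[Int.ofNat (nat_lit 130371344030515464084)]]]]]]]],[],[[[[[[[[Int.negSucc (nat_lit 44656282497353742359)]]]]]]]]],[[[[[[[[[Int.negSucc (nat_lit 1128118128926441370725)],[Int.ofNat (nat_lit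 6146042460771057888)]]],[[[Int.ofNat (nat_lit 22776990053586930468)]]]]],[[[[[Int.ofNat (nat_lit 30304098912387224544)]]]]]],[],[[[[[[Int.ofNat (nat_lit 133384953038246456592)]]]]]]],[[[[[[[Int.ofNat (nat_lit 122297818652908310556)]]]]]]],[[[[[[[Int.negSucc (nat_lit 78550935993019098833)]]]]]]]],[[[[[],[[[[Int.ofNat (nat_lit 37086629225038494960)]]]]]],[[[[[[Int.negSucc (nat_lit 194480463785731552667)]]]]]]]],[[[[[[[[Int.ofNat (nat_lit 582841338878280723168)]]]]]]]]],[[[[[[[[[Int.negSucc (nat_lit 1113055206448483169147)]]]]],[[[[[Int.negSucc (nat_lit 18612599928176309015)]]]]]]],[[[[[[[Int.ofNat (nat_lit 88466496499531634604)]]]]]]]],[],[[[[[[[[Int.negSucc (nat_lit 101445166693085334539)]]]]]]]]],[[[[[[[[[Int.negSucc (nat_lit 728548541314687333991)]]]]]]]]],[[[[[[[[[Int.negSucc (nat_lit 33699578438961310907)]]]]]]]]]]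

/-- A coefficient. -/
noncomputable def sr7_m0_0_7 : MP 10 :=
  [[[[[[[[[],[[Int.negSucc (nat_lit 10948684586833683443)]]]],[[[[Int.ofNat (nat_lit 52278155418658162140)]]]]]],[[[[[[Int.ofNat (nat_lit 292091262278043554256)]]]]]]]],[[[[[[[[Int.ofNat (nat_lit 72833566733954585976)]]],[[[Int.ofNat (nat_lit 572290799339846664)]]]]],[[[[[Int.negSucc (nat_lit 48241609189450831451)]]]]]]],[[[[[[[Int.negSucc (nat_lit 272948704490120499719)]]]]]]]],[[[],[[[[[[Int.ofNat (nat_lit 5651024006599849224)]]]]]]]],[[[[[[[[Int.negSucc (nat_lit 228157409928604284887)]]]]]]]]],[[[[[[[[],[[Int.negSucc (nat_lit 10948684586833683443)]]]],[[[[Int.negSucc (nat_lit 34076196133349186723)]]]]]],[[[[[[Int.ofNat (nat_lit 523613728521783432000)]]]]]]]],[[[[[[[[Int.negSucc (nat_lit 1184036930366798886959)]]]]]]],[[[[[[[Int.ofNat (nat_lit 28770069534774008208)]]]]]]]]],[[[[],[[[[[[Int.negSucc (nat_lit 60828208058256118103)]]]]]]]],[[[[[[[[Int.ofNat (nat_lit 28698676946285383488)]]]]]]]]]]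

/-- A coefficient. -/
noncomputable def sr7_m0_0_8 : MP 10 :=
  [[[[[[[[[[Int.ofNat (nat_lit 666135092508711783444)]]]]],[[[[[Int.negSucc (nat_lit 9785268395788463075)]]]]]]],[[[[[[[Int.ofNat (nat_lit 121988481085674955692)]]]]]]]],[[[[[],[[[[Int.ofNat (nat_lit 12189580908144309432)]]]]]],[[[[[[Int.negSucc (nat_lit 33633839717911852079)]]]]]]]],[[[[[[[[Int.ofNat (nat_lit 493337446671658832898)]]]]]]]]],[[[[[[[[[Int.ofNat (nat_lit 1578080465618715115068)]]]]],[[[[[Int.negSucc (nat_lit 9785268395788463075)]]]]]]],[[[[[[[Int.ofNat (nat_lit 45539964103913205516)]]]]]]]],[],[[[[[[[[Int.negSucc (nat_lit 114192210706307640617)]]]]]]]]],[[[[[[[[[Int.ofNat (nat_lit 445307318857528922166)]]]]]]]]],[[[[[[[[[Int.ofNat (nat_lit 265597188539660455470)]]]]]]]]]]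

/-- A coefficient. -/
noncomputable def sr7_m0_0_9 : MP 10 :=
  [[[[[],[[[[[[Int.negSucc (nat_lit 216524486980098841667)]]]]]]]],[[[[[[[[Int.negSucc (nat_lit 155547475165312732139)]]]]]]],[[[[[[[Int.ofNat (nat_lit 73964876287200228696)]]]]]]]]],[[[[],[[[[[[Int.negSucc (nat_lit 216524486980098841667)]]]]]]]],[[[[[[[[Int.ofNat (nat_lit 439160873576059898568)]]]]]]]]]]

/-- A coefficient. -/
noncomputable def sr7_m0_0_10 : MP 10 :=
  [[[[[[[[[[Int.negSucc (nat_lit 746141297404670394833)]]]]]]]],[],[[[[[[[[Int.negSucc (nat_lit 2721573173860664495)]]]]]]]]],[[[[[[[[[Int.negSucc (nat_lit 1098129789407043705473)]]]]]]]]],[[[[[[[[[Int.ofNat (nat_lit 17079292662258112380)]]]]]]]]]]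

/-- A coefficient. -/
noncomputable def sr7_m0_0_11 : MP 10 :=
  [[[],[[[[[[[[Int.negSucc (nat_lit 10759236254346773279)]]]]]]]]]]

/-- A coefficient. -/
noncomputable def sr7_m0_0_12 : MP 10 :=
  [[[[[[[[[[Int.ofNat (nat_lit 340035478495015518852)]]]]]]]]],[[[[[[[[[Int.ofNat (nat_lit 340035478495015518852)]]]]]]]]]]

/-- A coefficient. -/
noncomputable def sr7_m0_1_0 : MP 10 :=
  [[[[[[[[[[Int.negSucc (nat_lit 63911473973694692171)],[Int.ofNat (nat_lit 12672046272463830588)]],[[Int.ofNat (nat_lit 0),Int.ofNat (nat_lit 718102508210623416)]],[[Int.negSucc (nat_lit 5842582548291898859)]]],[[[Int.ofNat (nat_lit 692520343155539196)],[Int.ofNat (nat_lit 590462500485354936)]]],[[[Int.negSucc (nat_lit 5736878555718856127)]]]],[[[[Int.ofNat (nat_lit 0),Int.negSucc (nat_lit 6460297514407861655)]],[[Int.ofNat (nat_lit 2385913537942214688)]]]],[[[[Int.negSucc (nat_lit 33640989759541155947)]]]]],[[[[[Int.negSucc (nat_lit 30218112089254682543)],[Int.ofNat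 (nat_lit 9772405460863915104)]]],[[[Int.ofNat (nat_lit 3719514542879541372)]]]]],[[[[[Int.negSucc (nat_lit 54319717683682078799)]]]]]],[[[[[[Int.ofNat (nat_lit 0),Int.negSucc (nat_lit 5759861948387320367)]],[[Int.negSucc (nat_lit 11893407596131789475)]]]],[[[[Int.ofNat (nat_lit 31164264828173661588)]]]]]],[[[[[[Int.negSucc (nat_lit 118217988303382233239)]]],[[[Int.ofNat (nat_lit 194269358650557132)]]]]],[[[[[Int.negSucc (nat_lit 3386630886622784867)]]]]]]],[[[[[[[Int.ofNat (nat_lit 107657205652097537700)],[Int.negSucc (nat_lit 5255945534597721635)]]],[[[Int.ofNat (nat_lit 852757938245005572)]]]]],[[[[[Int.ofNat (nat_lit 4565451214138980684)]]]]]],[[[[[],[[Int.negSucc (nat_lit 805539388980807251)]]]],[[[[Int.negSucc (nat_lit 5519055583580166875)]]]]]],[[[[[[Int.ofNat (nat_lit 43488165063371365200)]]]]]]],[[[[[[[Int.negSucc (nat_lit 122940002695035073091)]]],[[[Int.ofNat (nat_lit 881100178246487292)]]]]],[[[[[Int.negSucc (nat_lit 8703737540359916831)]]]]]]],[[[[[[[Int.ofNat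 (nat_lit 33076975289749819836)]]]]]]]],[[[[[[[[Int.ofNat (nat_lit 0),Int.ofNat (nat_lit 24868992484518510408)]],[[Int.ofNat (nat_lit 16158482380460316132)],[Int.ofNat (nat_lit 518693529559012296)]]],[[[Int.ofNat (nat_lit 0),Int.ofNat (nat_lit 504449613956220696)]],[[Int.negSucc (nat_lit 4702063249044490151)]]]],[[[[Int.ofNat (nat_lit 38546770611215405580)],[Int.negSucc (nat_lit 8288140746764143427)]]],[[[Int.ofNat (nat_lit 2610614651660019936)]]]]],[[[[[Int.ofNat (nat_lit 0),Int.ofNat (nat_lit 10529550693105628296)]],[[Int.ofNat (nat_lit 4802557186365688464)]]]],[[[[Int.negSucc (nat_lit 6129911175794143763)]]]]]],[[[[[[Int.ofNat (nat_lit 221627403570758797788)],[Int.negSucc (nat_lit 5334045996354410123)]]],[[[Int.ofNat (nat_lit 4376695877439565128)]]]]],[[[[[Int.ofNat (nat_lit 18590973754450261788)]]]]]],[[[[[],[[Int.ofNat (nat_lit 1529083461545071752)]]]],[[[[Int.ofNat (nat_lit 17800699698714935988)]]]]]],[[[[[[Int.negSucc (nat_lit 10036401655151163095)]]]]]]],[[[[[[[Int.ofNat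 (nat_lit 0),Int.negSucc (nat_lit 191640525281698679)]],[[Int.negSucc (nat_lit 18411914036669503103)]]]],[[[[Int.negSucc (nat_lit 54226507661862878723)]]]]]],[[[[[[Int.negSucc (nat_lit 8421428787957408419)]]],[[[Int.negSucc (nat_lit 1382441364129299027)]]]]],[[[[[Int.negSucc (nat_lit 7631136732258725051)]]]]]]],[[[[[[],[[Int.ofNat (nat_lit 2167249073456698776)]]]],[[[[Int.ofNat (nat_lit 19631245500491619300)]]]]]],[[[[[[Int.negSucc (nat_lit 29015555904745874495)]]]]]]]],[[[[[[[[Int.negSucc (nat_lit 251318540217586923227)],[Int.ofNat (nat_lit 5977400667329262180)]]],[[[Int.negSucc (nat_lit 11270715796358867171)]]]],[[[],[[Int.negSucc (nat_lit 990510282791075003)]]]],[[[[Int.ofNat (nat_lit 12533110442742957240)]]]]],[[[[[Int.ofNat (nat_lit 14969029238990861568)]]],[[[Int.ofNat (nat_lit 576729210648181752)]]]]],[[[[[Int.ofNat (nat_lit 16568519213326102776)]]]]]],[[[[[[Int.ofNat (nat_lit 0),Int.negSucc (nat_lit 203519886580452479)]],[[Int.ofNat (nat_lit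 5939838742419974700)]]]],[[[[Int.negSucc (nat_lit 20321143987594639295)]]]]]],[[[[[[Int.ofNat (nat_lit 44128098486679116384)]]]]]]],[[[[[[[Int.ofNat (nat_lit 40105126772705458896)],[Int.ofNat (nat_lit 2025527003348447148)]]],[[[Int.ofNat (nat_lit 2455750733683043472)]]]]],[[[[[Int.ofNat (nat_lit 30810878230426906752)]]]]]],[],[[[[[[Int.negSucc (nat_lit 1186918174543621379)]]]]]]],[[[[[[[Int.negSucc (nat_lit 48410751551647992767)]]]]]]],[[[[[[[Int.ofNat (nat_lit 5884249938929192100)]]]]]]]],[[[[[[[[Int.ofNat (nat_lit 0),Int.negSucc (nat_lit 4589035827724983455)]],[[Int.negSucc (nat_lit 25912885278376620971)]]]],[[[[Int.ofNat (nat_lit 30428863336115478612)]]]]]],[[[[[[Int.negSucc (nat_lit 173535018555441733739)]]]]],[[[[[Int.negSucc (nat_lit 1755310972193057423)]]]]]]],[[[[],[[[[Int.negSucc (nat_lit 768005455085274647)]]]]]],[[[[[[Int.ofNat (nat_lit 18623826975581544348)]]]]]]]],[[[[[[[[Int.ofNat (nat_lit 78741026679328419972)]]],[[[Int.ofNat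 (nat_lit 781848369383290836)]]]]],[[[[[Int.negSucc (nat_lit 19774482033131808203)]]]]]]],[[[[[[[Int.negSucc (nat_lit 50168421604976833715)]]]]]]]],[[[],[[[[[[Int.negSucc (nat_lit 6749942669326724507)]]]]]]]],[[[[[[[[Int.ofNat (nat_lit 26649991639634947212)]]]]]]]]],[[[[[[[[[Int.negSucc (nat_lit 292727527138419435035)],[Int.ofNat (nat_lit 24617419807436793756)]],[[Int.ofNat (nat_lit 0),Int.negSucc (nat_lit 718102508210623415)]],[[Int.ofNat (nat_lit 5842582548291898860)]]],[[[Int.negSucc (nat_lit 12760490512183726811)],[Int.ofNat (nat_lit 590462500485354936)]]],[[[Int.negSucc (nat_lit 5736878555718856127)]]]],[[[[Int.ofNat (nat_lit 0),Int.ofNat (nat_lit 6460297514407861656)]],[[Int.negSucc (nat_lit 3409677620755971215)]]]],[[[[Int.ofNat (nat_lit 20127902609375907048)]]]]],[[[[[Int.negSucc (nat_lit 55060117175126218235)],[Int.ofNat (nat_lit 9772405460863915104)]]],[[[Int.ofNat (nat_lit 3014913776381882628)]]]]],[[[[[Int.negSucc (nat_lit 46371767310177844751)]]]]]],[[[[[[Int.ofNat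 (nat_lit 0),Int.ofNat (nat_lit 404505333628106088)]],[[Int.ofNat (nat_lit 14471045106351095076)]]]],[[[[Int.negSucc (nat_lit 29409602384013909479)]]]]]],[[[[[[Int.negSucc (nat_lit 68890374278494815875)]]],[[[Int.ofNat (nat_lit 194269358650557132)]]]]],[[[[[Int.negSucc (nat_lit 3386630886622784867)]]]]]]],[[[[[[[Int.ofNat (nat_lit 356772381472395014664)],[Int.negSucc (nat_lit 11539901245129170695)]]],[[[Int.ofNat (nat_lit 16441921257987181356)]]]]],[[[[[Int.ofNat (nat_lit 44227073024994202080)]]]]]],[[[[[],[[Int.ofNat (nat_lit 805539388980807252)]]]],[[[[Int.ofNat (nat_lit 5519055583580166876)]]]]]],[[[[[[Int.ofNat (nat_lit 23234118461927338020)]]]]]]],[[[[[[[Int.negSucc (nat_lit 207159917492425449959)]]],[[[Int.ofNat (nat_lit 881100178246487292)]]]]],[[[[[Int.negSucc (nat_lit 8703737540359916831)]]]]]]],[[[[[[[Int.ofNat (nat_lit 26884501548791421528)]]]]]]]],[[[[[[[[Int.ofNat (nat_lit 0),Int.ofNat (nat_lit 14730219001221816936)]],[[Int.ofNat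 (nat_lit 4272263512449501624)]]]],[[[[Int.ofNat (nat_lit 81603635405455871220)]]],[[[Int.negSucc (nat_lit 1413404812964064215)]]]]],[[[[],[[Int.negSucc (nat_lit 570294988167959315)]]]],[[[[Int.negSucc (nat_lit 6553571974769678135)]]]]]],[[[[[[Int.ofNat (nat_lit 250756775842423902120)],[Int.negSucc (nat_lit 6977031018781964975)]]],[[[Int.ofNat (nat_lit 16223225818534262328)]]]]],[[[[[Int.ofNat (nat_lit 38176617210391117416)]]]]]],[],[[[[[[Int.negSucc (nat_lit 3479430488486960843)]]]]]]],[[[[[[[Int.ofNat (nat_lit 0),Int.negSucc (nat_lit 6572668642079747303)]],[[Int.ofNat (nat_lit 4745945352892016556)]]]],[[[[Int.negSucc (nat_lit 43410705080463894791)]]]]]],[[[[[[Int.negSucc (nat_lit 78652194057009697619)]]]]]]],[[],[[[[[[Int.negSucc (nat_lit 9216016848037519391)]]]]]]]],[[[[[[[[Int.negSucc (nat_lit 316723177175552071175)],[Int.ofNat (nat_lit 10128564656028460440)]]],[[[Int.negSucc (nat_lit 10834182029832319883)]]]]],[[[[[Int.negSucc (nat_lit 28642283929364573495)]]]]]],[[[],[[[[Int.ofNat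 (nat_lit 20450098491350307384)]]]]]],[[[[[[Int.negSucc (nat_lit 15844156694860389623)]]]]]]],[[[[[[[Int.negSucc (nat_lit 126607499574379928015)]]]]],[[[[[Int.negSucc (nat_lit 18742237623854921003)]]]]]]],[[[[[[[Int.ofNat (nat_lit 77851532894064662832)]]]]]]]],[[[[[[[],[[Int.negSucc (nat_lit 361923541867529831)]]]],[[[[Int.negSucc (nat_lit 21767337636719682155)]]]]]],[[[[[[Int.negSucc (nat_lit 73711098030509173979)]]]]]]]],[[[[[[[[Int.ofNat (nat_lit 76010546003408162472)]]]]]]],[[[[[[[Int.ofNat (nat_lit 4052066850484809636)]]]]]]]]],[[[[[[[[[Int.negSucc (nat_lit 562467661356196418231)],[Int.ofNat (nat_lit 9751203010904458740)]]],[[[Int.negSucc (nat_lit 17805581582257305911)]]]],[[[],[[Int.ofNat (nat_lit 1023764082813756528)]]]],[[[[Int.ofNat (nat_lit 13513087150165248900)]]]]],[[[[[Int.negSucc (nat_lit 42422766702883490243)]]],[[[Int.negSucc (nat_lit 704600766497658743)]]]]],[[[[[Int.ofNat (nat_lit 7947950373504234048)]]]]]],[[[[[[Int.ofNat (nat_lit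 0),Int.ofNat (nat_lit 5355356614759214280)]],[[Int.negSucc (nat_lit 2577637510219305599)]]]],[[[[Int.negSucc (nat_lit 3357447568190042867)]]]]]],[[[[[[Int.ofNat (nat_lit 76001089178293144140)]]]]]]],[[[[[[[Int.ofNat (nat_lit 448024920672406775388)],[Int.negSucc (nat_lit 6283955710531449059)]]],[[[Int.ofNat (nat_lit 15589163319742175784)]]]]],[[[[[Int.ofNat (nat_lit 56041206899255070624)]]]]]],[],[[[[[[Int.negSucc (nat_lit 3977788101806545403)]]]]]]],[[[[[[[Int.negSucc (nat_lit 144434830829922539867)]]]]]]],[[[[[[[Int.negSucc (nat_lit 6192473740958398307)]]]]]]]],[[[[[[[[Int.ofNat (nat_lit 0),Int.negSucc (nat_lit 23926101761120767439)]],[[Int.negSucc (nat_lit 17738273871077586923)]]]],[[[[Int.negSucc (nat_lit 30895120523423588699)]]]]]],[[[[[[Int.negSucc (nat_lit 17596142785431379679)]]]]],[[[[[Int.ofNat (nat_lit 24566683209205124856)]]]]]]],[[[[],[[[[Int.ofNat (nat_lit 20046881462801349348)]]]]]],[[[[[[Int.negSucc (nat_lit 147593425178558022731)]]]]]]]],[[[[[[[[Int.ofNat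 (nat_lit 34838519402189487708)]]],[[[Int.negSucc (nat_lit 301559167750660751)]]]]],[[[[[Int.negSucc (nat_lit 64516652938823832155)]]]]]]],[[[[[[[Int.negSucc (nat_lit 19943383037435933567)]]]]]]]],[[[],[[[[[[Int.negSucc (nat_lit 23265944654200042415)]]]]]]]],[[[[[[[[Int.ofNat (nat_lit 102437342460277730544)]]]]]]]]],[[[[[[[[[Int.negSucc (nat_lit 538572739398708807083)],[Int.negSucc (nat_lit 2194170524068504427)]]],[[[Int.negSucc (nat_lit 3254747808319395707)]]]]],[[[[[Int.negSucc (nat_lit 37903089765367975295)]]]]]],[[[],[[[[Int.ofNat (nat_lit 1602785124030290760)]]]]]],[[[[[[Int.ofNat (nat_lit 70528555223543609184)]]]]]]],[[[[[[[Int.ofNat (nat_lit 229921641756180668556)]]]]],[[[[[Int.ofNat (nat_lit 16379585088399849228)]]]]]]],[[[[[[[Int.negSucc (nat_lit 60214916032532162999)]]]]]]]],[[[[[[[],[[Int.negSucc (nat_lit 1139406577674461999)]]]],[[[[Int.negSucc (nat_lit 44581711160972035007)]]]]]],[[[[[[Int.negSucc (nat_lit 114744329371457774591)]]]]]]]],[[[[[[[[Int.ofNat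 (nat_lit 250103054438051393472)]]]]]]],[[[[[[[Int.negSucc (nat_lit 4204720795868507939)]]]]]]]]],[[[[[[[[[Int.negSucc (nat_lit 249728103064785333323)]]],[[[Int.ofNat (nat_lit 1097822918598644196)]]]]],[[[[[Int.negSucc (nat_lit 20322328148356020743)]]]]]]],[[[[[[[Int.ofNat (nat_lit 13208107034245308276)]]]]]]]],[[[],[[[[[[Int.negSucc (nat_lit 20885992418922306227)]]]]]]]],[[[[[[[[Int.ofNat (nat_lit 97196617285374541296)]]]]]]]]],[[[[[[[[[Int.negSucc (nat_lit 41306882931527710775)]]]]]]],[[[[[[[Int.negSucc (nat_lit 17803789869826061855)]]]]]]]]],[[[[[[[[[Int.ofNat (nat_lit 3500088926020490832)]]]]]]]]]]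

/-- A coefficient. -/
noncomputable def sr7_m0_1_1 : MP 10 :=
  [[[[[[[[[[Int.ofNat (nat_lit 0),Int.negSucc (nat_lit 24672741906240144431)]],[[Int.negSucc (nat_lit 11667054990524751575)]]],[[],[[Int.negSucc (nat_lit 1994407371828929123)]]]],[[[[Int.negSucc (nat_lit 77016100056687161327)],[Int.negSucc (nat_lit 1401961168958357855)]]],[[[Int.ofNat (nat_lit 4882392739170570048)]]]]],[[[[[Int.ofNat (nat_lit 0),Int.ofNat (nat_lit 5275800973032891912)]],[[Int.negSucc (nat_lit 22410247686864122051)]]]],[[[[Int.ofNat (nat_lit 78715657970711686308)]]]]]],[[[[[[Int.negSucc (nat_lit 211277469930411184667)],[Int.negSucc (nat_lit 6176832110358254471)]]],[[[Int.negSucc (nat_lit 28678178752258233383)]]]]],[[[[[Int.ofNat (nat_lit 6014212235511276084)]]]]]],[[[],[[[[Int.negSucc (nat_lit 6668863705450099139)]]]]]],[[[[[[Int.ofNat (nat_lit 33136752334019864988)]]]]]]],[[[[[[[Int.ofNat (nat_lit 0),Int.negSucc (nat_lit 3814255344208962671)]],[[Int.negSucc (nat_lit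 1981793769472983899)]]]],[[[[Int.ofNat (nat_lit 26684692846837601556)]]]]]],[[[[[[Int.ofNat (nat_lit 58362088671926026920)]]]]],[[[[[Int.ofNat (nat_lit 995424482622286332)]]]]]]],[[[[],[[[[Int.negSucc (nat_lit 9667698041243367191)]]]]]],[[[[[[Int.ofNat (nat_lit 30225108070653305184)]]]]]]]],[[[[[[[[Int.ofNat (nat_lit 328950869649866204484)],[Int.ofNat (nat_lit 17455419097674055380)]],[],[[Int.ofNat (nat_lit 675573894676308204)]]],[[[Int.negSucc (nat_lit 2284810254103944659)]]],[[[Int.ofNat (nat_lit 266190168712973376)]]]],[[[[Int.ofNat (nat_lit 0),Int.negSucc (nat_lit 1986226190285885975)]],[[Int.ofNat (nat_lit 17700773829239718468)]]]],[[[[Int.ofNat (nat_lit 20508988372540280988)]]]]],[[[[[Int.negSucc (nat_lit 92429891009782099943)],[Int.ofNat (nat_lit 4997713538782486128)]]],[[[Int.negSucc (nat_lit 10283061104816584715)]]]]],[[[[[Int.ofNat (nat_lit 230233589993582496)]]]]]],[[[[[[Int.ofNat (nat_lit 0),Int.negSucc (nat_lit 6955530543688705775)]],[[Int.ofNat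 (nat_lit 1570215463042918860)]]]],[[[[Int.negSucc (nat_lit 96620517224312776391)]]]]]],[[[[[[Int.negSucc (nat_lit 58458426018277779371)]]]]],[[[[[Int.negSucc (nat_lit 5350016853466045727)]]]]]]],[[[[[[[Int.ofNat (nat_lit 152751829535777987988)],[Int.negSucc (nat_lit 4843834397309351459)]]],[[[Int.negSucc (nat_lit 12976676000454463691)]]]]],[[[[[Int.negSucc (nat_lit 29676315239921723507)]]]]]],[[[],[[[[Int.ofNat (nat_lit 2734372557654183108)]]]]]],[[[[[[Int.ofNat (nat_lit 11634648351774475536)]]]]]]],[[[[[[[Int.negSucc (nat_lit 101312444687697620651)]]]]],[[[[[Int.negSucc (nat_lit 3793737715925604995)]]]]]]],[[[[[[[Int.ofNat (nat_lit 23011393898027730312)]]]]]]]],[[[[[[[[Int.ofNat (nat_lit 0),Int.ofNat (nat_lit 44766607248671529864)]],[[Int.ofNat (nat_lit 12906868100031825288)]]]],[[[[Int.ofNat (nat_lit 171258078457454733624)]]]]],[[],[[[[Int.negSucc (nat_lit 17836115023336093019)]]]]]],[[[[[[Int.ofNat (nat_lit 363817319903716974228)]]],[[[Int.negSucc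 (nat_lit 5608591749946192583)]]]]],[[[[[Int.ofNat (nat_lit 68299987628527969128)]]]]]]],[[[[[[],[[Int.negSucc (nat_lit 1512779378059483799)]]]],[[[[Int.ofNat (nat_lit 29865113749939856196)]]]]]],[[[[[[Int.ofNat (nat_lit 4783625739265340460)]]]]]]]],[[[[[[[[Int.negSucc (nat_lit 441089581705181264555)],[Int.ofNat (nat_lit 8018670625200153708)]]],[[[Int.ofNat (nat_lit 10478787905536784844)]]]]],[[[[[Int.negSucc (nat_lit 102924484756421145179)]]]]]],[],[[[[[[Int.ofNat (nat_lit 10939721836694796912)]]]]]]],[[[[[[[Int.ofNat (nat_lit 92988873492107269044)]]]]]]],[[[[[[[Int.negSucc (nat_lit 26754321165972457187)]]]]]]]],[[[[[],[[[[Int.ofNat (nat_lit 10762904440596275640)]]]]]],[[[[[[Int.negSucc (nat_lit 84201372164216763683)]]]]]]]],[[[[[[[[Int.ofNat (nat_lit 103109329382838899220)]]]]]]]]],[[[[[[[[[Int.ofNat (nat_lit 0),Int.negSucc (nat_lit 17476142827932645575)]],[[Int.ofNat (nat_lit 28503532782159766872)]]],[[],[[Int.ofNat (nat_lit 4161848626882326228)]]]],[[[[Int.negSucc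 (nat_lit 289905948215620867499)],[Int.negSucc (nat_lit 1401961168958357855)]]],[[[Int.ofNat (nat_lit 9099711512033803656)]]]]],[[[[[Int.ofNat (nat_lit 0),Int.negSucc (nat_lit 5275800973032891911)]],[[Int.ofNat (nat_lit 5930574233360194236)]]]],[[[[Int.ofNat (nat_lit 34318402598031505392)]]]]]],[[[[[[Int.negSucc (nat_lit 209599931240491979039)],[Int.negSucc (nat_lit 6176832110358254471)]]],[[[Int.negSucc (nat_lit 37439061691976141687)]]]]],[[[[[Int.negSucc (nat_lit 7944947087227552991)]]]]]],[[[],[[[[Int.negSucc (nat_lit 6668863705450099139)]]]]]],[[[[[[Int.ofNat (nat_lit 33136752334019864988)]]]]]]],[[[[[[[Int.ofNat (nat_lit 0),Int.ofNat (nat_lit 3814255344208962672)]],[[Int.negSucc (nat_lit 7976457147920645435)]]]],[[[[Int.ofNat (nat_lit 54357590587984294464)]]]]]],[[[[[[Int.ofNat (nat_lit 154602461838662517540)]]]]],[[[[[Int.negSucc (nat_lit 995424482622286331)]]]]]]],[[[[],[[[[Int.negSucc (nat_lit 9667698041243367191)]]]]]],[[[[[[Int.ofNat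 (nat_lit 42853035303966283080)]]]]]]]],[[[[[[[[Int.ofNat (nat_lit 525276826464325214232)],[Int.ofNat (nat_lit 10668034629864527556)]]],[[[Int.ofNat (nat_lit 38665402173301140816)]]]],[],[[[[Int.ofNat (nat_lit 7511647984267310640)]]]]],[[[[[Int.negSucc (nat_lit 105818920744766576963)]]]]],[[[[[Int.negSucc (nat_lit 3189765785857486619)]]]]]],[[[[[],[[Int.negSucc (nat_lit 6411409588619302223)]]]],[[[[Int.negSucc (nat_lit 55020840754211305499)]]]]]],[[[[[[Int.ofNat (nat_lit 17240520023354070756)]]]]]]],[[[[[[[Int.ofNat (nat_lit 314059903755126352368)]]],[[[Int.negSucc (nat_lit 10748127078215312303)]]]]],[[[[[Int.ofNat (nat_lit 89171353388267122596)]]]]]]],[[[[[[[Int.negSucc (nat_lit 239265852075690620471)]]]]]]]],[[[[[[[[Int.ofNat (nat_lit 0),Int.ofNat (nat_lit 1405408960647132216)]],[[Int.negSucc (nat_lit 30755299750383225563)]]]],[[[[Int.ofNat (nat_lit 275817309958136447856)]]]]]],[[[[[[Int.negSucc (nat_lit 31508656376494500263)]]]]]]],[[],[[[[[[Int.ofNat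 (nat_lit 39313000799290945932)]]]]]]]],[[[[[[[[Int.negSucc (nat_lit 172957947649767415547)]]]]],[[[[[Int.negSucc (nat_lit 9494261832628102343)]]]]]]],[[[[[[[Int.negSucc (nat_lit 121141493751070217327)]]]]]]]],[],[[[[[[[[Int.ofNat (nat_lit 31858400243655003804)]]]]]]]]],[[[[[[[[[Int.ofNat (nat_lit 0),Int.ofNat (nat_lit 36283357069700169672)]],[[Int.negSucc (nat_lit 3095184292553173199)]]]],[[[[Int.ofNat (nat_lit 30954506105117495964)]]]]],[[],[[[[Int.negSucc (nat_lit 8523195237931810355)]]]]]],[[[[[[Int.negSucc (nat_lit 98422393225978000643)]]],[[[Int.ofNat (nat_lit 3124032289591175088)]]]]],[[[[[Int.negSucc (nat_lit 83607226580877915971)]]]]]]],[[[[[[],[[Int.ofNat (nat_lit 399422109645698688)]]]],[[[[Int.ofNat (nat_lit 4582716078246272844)]]]]]],[[[[[[Int.ofNat (nat_lit 157928903387666674524)]]]]]]]],[[[[[[[[Int.ofNat (nat_lit 485932179150763751400)],[Int.ofNat (nat_lit 3543682457033652228)]]],[[[Int.ofNat (nat_lit 23322813147536125236)]]]]],[[[[[Int.ofNat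 (nat_lit 147998506943870924556)]]]]]],[],[[[[[[Int.negSucc (nat_lit 1298755169298784391)]]]]]]],[[[[[[[Int.negSucc (nat_lit 264465356513147959763)]]]]]]],[[[[[[[Int.negSucc (nat_lit 7594534548615935471)]]]]]]]],[[[[[],[[[[Int.ofNat (nat_lit 67904912469428874348)]]]]]],[[[[[[Int.negSucc (nat_lit 132756235018958679995)]]]]]]]],[[[[[[[[Int.ofNat (nat_lit 83322255747649316796)]]]]]]]]],[[[[[[[[[Int.ofNat (nat_lit 0),Int.ofNat (nat_lit 5865527664472620336)]],[[Int.negSucc (nat_lit 26638009677645784487)]]]],[[[[Int.ofNat (nat_lit 205923386752823496852)]]]]]],[[[[[[Int.ofNat (nat_lit 31785919889544540588)]]]]]]],[[],[[[[[[Int.ofNat (nat_lit 21684975951398378400)]]]]]]]],[[[[[[[[Int.ofNat (nat_lit 205554773584240008372)]]]]],[[[[[Int.ofNat (nat_lit 31333645090773614364)]]]]]]],[[[[[[[Int.negSucc (nat_lit 145939207638345554435)]]]]]]]],[],[[[[[[[[Int.ofNat (nat_lit 19219284039196991592)]]]]]]]]],[[[[[[],[[[[Int.ofNat (nat_lit 31231075974900755676)]]]]]],[[[[[[Int.ofNat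 (nat_lit 45909867245371984908)]]]]]]]],[[[[[[[[Int.ofNat (nat_lit 50647375316737827444)]]]]]]]]],[[],[[[[[[[[Int.negSucc (nat_lit 6283953076010287511)]]]]]]]]]]

/-- A coefficient. -/
noncomputable def sr7_m0_1_2 : MP 10 :=
  [[[[[[[[[[Int.negSucc (nat_lit 68677201814950352315)],[Int.negSucc (nat_lit 48382984413747773507)]]],[[[Int.ofNat (nat_lit 64943886606956542692)]]]],[[[],[[Int.ofNat (nat_lit 2628978345951168108)]]]],[[[[Int.negSucc (nat_lit 104402291220513732203)]]]]],[[[[[Int.ofNat (nat_lit 29705715581062075956)]]],[[[Int.ofNat (nat_lit 287091545932329960)]]]]],[[[[[Int.negSucc (nat_lit 96168293941578489839)]]]]]],[[[[[[Int.ofNat (nat_lit 0),Int.ofNat (nat_lit 744709781868779136)]],[[Int.ofNat (nat_lit 276294343740077748)]]]],[[[[Int.ofNat (nat_lit 104275601324246912592)]]]]]],[[[[[[Int.negSucc (nat_lit 220892086285604463347)]]]]]]],[[[[[[[Int.negSucc (nat_lit 229012297340833699019)],[Int.ofNat (nat_lit 5353062000347106300)]]],[[[Int.negSucc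 (nat_lit 32091960052146852455)]]]]],[[[[[Int.ofNat (nat_lit 63359818312741968456)]]]]]],[],[[[[[[Int.ofNat (nat_lit 348133732609170072)]]]]]]],[[[[[[[Int.ofNat (nat_lit 15041521759319427180)]]]]]]],[[[[[[[Int.ofNat (nat_lit 1924547966932769532)]]]]]]]],[[[[[[[[Int.ofNat (nat_lit 0),Int.negSucc (nat_lit 38074899850908900839)]],[[Int.ofNat (nat_lit 22523907121965737448)]]]],[[[[Int.negSucc (nat_lit 234931713870808342151)]]],[[[Int.ofNat (nat_lit 10566667191432505908)]]]]],[[[[],[[Int.negSucc (nat_lit 1183076136100013891)]]]],[[[[Int.ofNat (nat_lit 49099716287858653884)]]]]]],[[[[[[Int.negSucc (nat_lit 103370350279692787139)],[Int.ofNat (nat_lit 3552913054417034052)]]],[[[Int.ofNat (nat_lit 25889620423784664504)]]]]],[[[[[Int.negSucc (nat_lit 52350659273960403047)]]]]]],[],[[[[[[Int.ofNat (nat_lit 462903351460188852)]]]]]]],[[[[[[[Int.ofNat (nat_lit 0),Int.negSucc (nat_lit 1410160348051840823)]],[[Int.negSucc (nat_lit 32484193086041842979)]]]],[[[[Int.negSucc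 (nat_lit 2047885078006010435)]]]]]],[[[[[[Int.negSucc (nat_lit 54713419389777296579)]]]]]]],[[],[[[[[[Int.ofNat (nat_lit 4785244658453191464)]]]]]]]],[[[[[[[[Int.ofNat (nat_lit 682371476891054759664)],[Int.ofNat (nat_lit 4928891340977815860)]]],[[[Int.negSucc (nat_lit 30067530518924857595)]]]]],[[[[[Int.ofNat (nat_lit 162015428279150504268)]]]]]],[[[],[[[[Int.negSucc (nat_lit 35891633351424289451)]]]]]],[[[[[[Int.negSucc (nat_lit 74157690902978739947)]]]]]]],[[[[[[[Int.negSucc (nat_lit 221179751994784687451)]]]]],[[[[[Int.ofNat (nat_lit 25010745888114574608)]]]]]]],[[[[[[[Int.ofNat (nat_lit 86330003869965332568)]]]]]]]],[[[[[[[],[[Int.negSucc (nat_lit 13397226080635746059)]]]],[[[[Int.ofNat (nat_lit 23238962046963889860)]]]]]],[[[[[[Int.ofNat (nat_lit 487730699644971113700)]]]]]]]],[[[[[[[[Int.negSucc (nat_lit 765674871827446986983)]]]]]]],[[[[[[[Int.ofNat (nat_lit 79715848271574707436)]]]]]]]]],[[[[[[[[[Int.ofNat (nat_lit 417773386105380782280)],[Int.negSucc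 (nat_lit 76382460248022990323)]]],[[[Int.ofNat (nat_lit 33749595185146615632)]]]],[[[],[[Int.negSucc (nat_lit 8703313290405456251)]]]],[[[[Int.negSucc (nat_lit 52827365434099331339)]]]]],[[[[[Int.ofNat (nat_lit 232985369476252801848)]]],[[[Int.ofNat (nat_lit 672578339373347256)]]]]],[[[[[Int.negSucc (nat_lit 10273606056456572567)]]]]]],[[[[[[Int.ofNat (nat_lit 0),Int.negSucc (nat_lit 744709781868779135)]],[[Int.ofNat (nat_lit 26834509939867771212)]]]],[[[[Int.negSucc (nat_lit 33294561930623972087)]]]]]],[[[[[[Int.negSucc (nat_lit 272859688893933916043)]]]]]]],[[[[[[[Int.negSucc (nat_lit 1143823428020759869571)],[Int.ofNat (nat_lit 5353062000347106300)]]],[[[Int.negSucc (nat_lit 34006296948980852999)]]]]],[[[[[Int.negSucc (nat_lit 8954133245635124219)]]]]]],[],[[[[[[Int.negSucc (nat_lit 4682908713965313023)]]]]]]],[[[[[[[Int.ofNat (nat_lit 376169892779829155304)]]]]]]],[[[[[[[Int.ofNat (nat_lit 1924547966932769532)]]]]]]]],[[[[[[[[Int.ofNat (nat_lit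 0),Int.negSucc (nat_lit 25468076613351936047)]],[[Int.negSucc (nat_lit 24213113413026662255)]]]],[[[[Int.negSucc (nat_lit 68242838853177854135)]]]]]],[[[[[[Int.ofNat (nat_lit 262546682325505369308)]]]]],[[[[[Int.negSucc (nat_lit 33703333843829155571)]]]]]]],[[[[],[[[[Int.negSucc (nat_lit 41007225649784363843)]]]]]],[[[[[[Int.ofNat (nat_lit 77574680139808166352)]]]]]]]],[[[[[[[[Int.ofNat (nat_lit 125463819439891686372)]]],[[[Int.ofNat (nat_lit 4053975374657430828)]]]]],[[[[[Int.negSucc (nat_lit 9533902377841074071)]]]]]]],[[[[[[[Int.ofNat (nat_lit 213708037630992635832)]]]]]]]],[[[],[[[[[[Int.negSucc (nat_lit 17758123259072922155)]]]]]]]],[[[[[[[[Int.negSucc (nat_lit 106762114286713770215)]]]]]]]]],[[[[[[[[[Int.ofNat (nat_lit 1024008102859013790420)],[Int.negSucc (nat_lit 27999475834275216815)]]],[[[Int.negSucc (nat_lit 27127745351588246219)]]]]],[[[[[Int.ofNat (nat_lit 72515210900150175216)]]]]]],[[[],[[[[Int.negSucc (nat_lit 11046684393013856543)]]]]]],[[[[[[Int.ofNat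 (nat_lit 6214288132795463208)]]]]]]],[[[[[[[Int.negSucc (nat_lit 1029459571729209010475)]]]]],[[[[[Int.negSucc (nat_lit 5089779103122750707)]]]]]]],[[[[[[[Int.ofNat (nat_lit 206874846009085450476)]]]]]]]],[[[[[[[],[[Int.negSucc (nat_lit 9621418113614790275)]]]],[[[[Int.ofNat (nat_lit 52643284575870037080)]]]]]],[[[[[[Int.ofNat (nat_lit 165678801226518035508)]]]]]]]],[[[[[[[[Int.negSucc (nat_lit 472573785624958081919)]]]]]]],[[[[[[[Int.ofNat (nat_lit 36769084654252810560)]]]]]]]]],[[[[[[[[[Int.ofNat (nat_lit 1282859790518672655696)]]],[[[Int.negSucc (nat_lit 2722540147325359079)]]]]],[[[[[Int.ofNat (nat_lit 25349331597853440228)]]]]]]],[[[[[[[Int.negSucc (nat_lit 273996221645415791579)]]]]]]]],[[[],[[[[[[Int.ofNat (nat_lit 45222547141846125624)]]]]]]]],[[[[[[[[Int.negSucc (nat_lit 119867991807346061879)]]]]]]]]],[[[[[[[[[Int.ofNat (nat_lit 829676430501844994940)]]]]]]],[[[[[[[Int.ofNat (nat_lit 29183333591918110920)]]]]]]]]],[[[[[[[[[Int.ofNat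 (nat_lit 182472767744675845164)]]]]]]]]]]

/-- A coefficient. -/
noncomputable def sr7_m0_1_3 : MP 10 :=
  [[[[[[[[[[Int.ofNat (nat_lit 0),Int.ofNat (nat_lit 13508389127113646976)]],[[Int.negSucc (nat_lit 13431605449956364643)]]]],[[[[Int.ofNat (nat_lit 102302967964312928088)]]]]],[[],[[[[Int.ofNat (nat_lit 17381950017436977636)]]]]]],[[[[[[Int.ofNat (nat_lit 91352032707085505652)]]],[[[Int.negSucc (nat_lit 1354438328742982379)]]]]],[[[[[Int.negSucc (nat_lit 56665230475905718931)]]]]]]],[[[[[[],[[Int.ofNat (nat_lit 13859903353721943036)]]]],[[[[Int.negSucc (nat_lit 47836666475612990855)]]]]]],[[[[[[Int.negSucc (nat_lit 280906153690210611047)]]]]]]]],[[[[[[[[Int.negSucc (nat_lit 210295455244317594275)],[Int.negSucc (nat_lit 25058243570736545519)]]],[[[Int.negSucc (nat_lit 39914973745942727411)]]]],[],[[[[Int.ofNat (nat_lit 2026678357957144896)]]]]],[[[[[Int.ofNat (nat_lit 33711519075236624928)]]]]],[[[[[Int.negSucc (nat_lit 1891652188259844491)]]]]]],[[[[[],[[Int.negSucc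 (nat_lit 5449855159457277767)]]]],[[[[Int.ofNat (nat_lit 94256409130891912368)]]]]]],[[[[[[Int.ofNat (nat_lit 260484747038500722468)]]]]]]],[[[[[[[Int.negSucc (nat_lit 53342745100418789687)]]],[[[Int.ofNat (nat_lit 7996994028326496876)]]]]],[[[[[Int.ofNat (nat_lit 38739266935842794556)]]]]]]],[[[[[[[Int.ofNat (nat_lit 150467720992364136180)]]]]]]]],[[[[[[[[Int.ofNat (nat_lit 0),Int.negSucc (nat_lit 34388312787711127463)]],[[Int.negSucc (nat_lit 11665435729540256423)]]]],[[[[Int.negSucc (nat_lit 55183652486349334859)]]]]]],[[[[[[Int.negSucc (nat_lit 837298185838228973615)]]]]]]],[[],[[[[[[Int.negSucc (nat_lit 16347548634241125875)]]]]]]]],[[[[[[[[Int.ofNat (nat_lit 1699647962969728319100)]]]]],[[[[[Int.negSucc (nat_lit 1715057230309621451)]]]]]]],[[[[[[[Int.negSucc (nat_lit 165632462197183513391)]]]]]]]],[],[[[[[[[[Int.ofNat (nat_lit 25956327062478190332)]]]]]]]]],[[[[[[[[[Int.ofNat (nat_lit 0),Int.ofNat (nat_lit 11883570976237641840)]],[[Int.ofNat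 (nat_lit 50647043766321385908)]]]],[[[[Int.ofNat (nat_lit 37088918944592544192)]]]]],[[],[[[[Int.negSucc (nat_lit 31385898977040878459)]]]]]],[[[[[[Int.negSucc (nat_lit 23155364828208541799)]]],[[[Int.ofNat (nat_lit 7077169076771225700)]]]]],[[[[[Int.ofNat (nat_lit 3428514499147328436)]]]]]]],[[[[[[],[[Int.ofNat (nat_lit 9076269273301570620)]]]],[[[[Int.ofNat (nat_lit 41330765178861970176)]]]]]],[[[[[[Int.negSucc (nat_lit 406722335043785361947)]]]]]]]],[[[[[[[[Int.ofNat (nat_lit 190557217098167807688)],[Int.negSucc (nat_lit 15277278033191588723)]]],[[[Int.negSucc (nat_lit 26582620202925056351)]]]]],[[[[[Int.negSucc (nat_lit 79511646659053396763)]]]]]],[],[[[[[[Int.ofNat (nat_lit 90378933390056147076)]]]]]]],[[[[[[[Int.negSucc (nat_lit 97264573105361232443)]]]]]]],[[[[[[[Int.ofNat (nat_lit 124886855261308235856)]]]]]]]],[[[[[],[[[[Int.negSucc (nat_lit 2173196257361581451)]]]]]],[[[[[[Int.negSucc (nat_lit 190375782603795422711)]]]]]]]],[[[[[[[[Int.ofNat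 (nat_lit 549311338488049141980)]]]]]]]]],[[[[[[[[[Int.ofNat (nat_lit 0),Int.negSucc (nat_lit 25391960103351288815)]],[[Int.ofNat (nat_lit 4208193721204687080)]]]],[[[[Int.ofNat (nat_lit 48610131100518415200)]]]]]],[[[[[[Int.negSucc (nat_lit 182883124196558907239)]]]]]]],[[],[[[[[[Int.negSucc (nat_lit 6061257413513015267)]]]]]]]],[[[[[[[[Int.ofNat (nat_lit 564363310803786410124)]]]]],[[[[[Int.negSucc (nat_lit 69739200845949526451)]]]]]]],[[[[[[[Int.negSucc (nat_lit 4543249249730075927)]]]]]]]],[],[[[[[[[[Int.ofNat (nat_lit 280417932737843092656)]]]]]]]]],[[[[[[],[[[[Int.ofNat (nat_lit 16722873771213083880)]]]]]],[[[[[[Int.negSucc (nat_lit 156584715745345968467)]]]]]]]],[[[[[[[[Int.ofNat (nat_lit 383368173825089494608)]]]]]]]]],[[],[[[[[[[[Int.ofNat (nat_lit 117341516051051448576)]]]]]]]]]]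

/-- A coefficient. -/
noncomputable def sr7_m0_1_4 : MP 10 :=
  [[[[[[[[[[Int.negSucc (nat_lit 739951149819790436123)],[Int.ofNat (nat_lit 25990920006473269992)]]],[[[Int.negSucc (nat_lit 19080403450623467363)]]]]],[[[[[Int.negSucc (nat_lit 101909435850543004667)]]]]]],[[[],[[[[Int.ofNat (nat_lit 4002773597092187292)]]]]]],[[[[[[Int.negSucc (nat_lit 39802033456047129995)]]]]]]],[[[[[[[Int.ofNat (nat_lit 479081106065231448504)]]]]],[[[[[Int.ofNat (nat_lit 27171672416735610900)]]]]]]],[[[[[[[Int.negSucc (nat_lit 597775072904309829227)]]]]]]]],[[[[[[[[Int.ofNat (nat_lit 0),Int.ofNat (nat_lit 23387303272585683216)]],[[Int.negSucc (nat_lit 7223488570218544319)]]]],[[[[Int.ofNat (nat_lit 136148229276374218332)]]]]]],[[[[[[Int.negSucc (nat_lit 109564384079815842779)]]]]],[[[[[Int.negSucc (nat_lit 42769634752203161231)]]]]]]],[[[[],[[[[Int.ofNat (nat_lit 67855846956108383076)]]]]]],[[[[[[Int.negSucc (nat_lit 62036482135407850475)]]]]]]]],[[[[[[[[Int.negSucc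 (nat_lit 1098157575584698440083)]]],[[[Int.negSucc (nat_lit 4121285749923239723)]]]]],[[[[[Int.negSucc (nat_lit 45493729335899671067)]]]]]]],[[[[[[[Int.ofNat (nat_lit 33325577124830073804)]]]]]]]],[[[],[[[[[[Int.negSucc (nat_lit 167095377458149165343)]]]]]]]],[[[[[[[[Int.ofNat (nat_lit 837174035101219538328)]]]]]]]]],[[[[[[[[[Int.negSucc (nat_lit 2071385386333308951659)],[Int.ofNat (nat_lit 25990920006473269992)]]],[[[Int.negSucc (nat_lit 26315811830499794699)]]]]],[[[[[Int.ofNat (nat_lit 176406233671327052748)]]]]]],[[[],[[[[Int.ofNat (nat_lit 12809200802527566420)]]]]]],[[[[[[Int.ofNat (nat_lit 272264806723709474436)]]]]]]],[[[[[[[Int.ofNat (nat_lit 920571231895230945672)]]]]],[[[[[Int.negSucc (nat_lit 6288681859152959747)]]]]]]],[[[[[[[Int.negSucc (nat_lit 607773298615646106851)]]]]]]]],[[[[[[[],[[Int.ofNat (nat_lit 22090699267626315576)]]]],[[[[Int.negSucc (nat_lit 102887439823048855703)]]]]]],[[[[[[Int.negSucc (nat_lit 149461910028692767763)]]]]]]]],[[[[[[[[Int.ofNat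 (nat_lit 614241667435912159632)]]]]]]],[[[[[[[Int.negSucc (nat_lit 3622276177274707883)]]]]]]]]],[[[[[[[[[Int.negSucc (nat_lit 2664119441688573009587)]]],[[[Int.ofNat (nat_lit 8256318771317965512)]]]]],[[[[[Int.ofNat (nat_lit 193120051426805671512)]]]]]]],[[[[[[[Int.ofNat (nat_lit 484709004167950069872)]]]]]]]],[[[],[[[[[[Int.negSucc (nat_lit 138740669170768684691)]]]]]]]],[[[[[[[[Int.ofNat (nat_lit 915903441502581026028)]]]]]]]]],[[[[[[[[[Int.negSucc (nat_lit 1646966884738347168971)]]]]]]],[[[[[[[Int.negSucc (nat_lit 29991161913283263095)]]]]]]]]],[[[[[[[[[Int.negSucc (nat_lit 230415921178164704903)]]]]]]]]]]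

/-- A coefficient. -/
noncomputable def sr7_m0_1_5 : MP 10 :=
  [[[[[[[[[[Int.ofNat (nat_lit 0),Int.negSucc (nat_lit 1485431795725032911)]],[[Int.ofNat (nat_lit 34236766015888177104)]]]],[[[[Int.negSucc (nat_lit 94552344635939152955)]]]]]],[[[[[[Int.ofNat (nat_lit 503989178860129215132)]]]]]]],[[],[[[[[[Int.ofNat (nat_lit 79030349644429552356)]]]]]]]],[[[[[[[[Int.negSucc (nat_lit 249675099813795072491)],[Int.negSucc (nat_lit 2551052202720236867)]]],[[[Int.ofNat (nat_lit 43290348715743475872)]]]]],[[[[[Int.ofNat (nat_lit 22735090173155031396)]]]]]],[],[[[[[[Int.negSucc (nat_lit 49080220877807890955)]]]]]]],[[[[[[[Int.negSucc (nat_lit 107562695143251670655)]]]]]]],[[[[[[[Int.negSucc (nat_lit 683116938055997291)]]]]]]]],[[[[[],[[[[Int.ofNat (nat_lit 5526914212182544056)]]]]]],[[[[[[Int.ofNat (nat_lit 292257057216960544044)]]]]]]]],[[[[[[[[Int.negSucc (nat_lit 1786112496678551578571)]]]]]]]]],[[[[[[[[[Int.ofNat (nat_lit 0),Int.ofNat (nat_lit 1485431795725032912)]],[[Int.negSucc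 (nat_lit 38925692052826152023)]]]],[[[[Int.ofNat (nat_lit 16548860814795845496)]]]]]],[[[[[[Int.ofNat (nat_lit 678450818242449949476)]]]]]]],[[],[[[[[[Int.ofNat (nat_lit 111878846050877362836)]]]]]]]],[[[[[[[[Int.negSucc (nat_lit 1229412790021706427539)]]]]],[[[[[Int.ofNat (nat_lit 196392996281705386872)]]]]]]],[[[[[[[Int.negSucc (nat_lit 305832889806881011943)]]]]]]]],[],[[[[[[[[Int.negSucc (nat_lit 63086126507320709219)]]]]]]]]],[[[[[[],[[[[Int.negSucc (nat_lit 35372729132323435691)]]]]]],[[[[[[Int.ofNat (nat_lit 235842471600306200880)]]]]]]]],[[[[[[[[Int.negSucc (nat_lit 899801664657442878047)]]]]]]]]],[[],[[[[[[[[Int.negSucc (nat_lit 37226673419419054931)]]]]]]]]]]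

/-- A coefficient. -/
noncomputable def sr7_m0_1_6 : MP 10 :=
  [[[[[[[[[[Int.ofNat (nat_lit 1296109711738595259792)]]],[[[Int.negSucc (nat_lit 21578949317063300243)]]]]],[[[[[Int.ofNat (nat_lit 85468452148507392396)]]]]]]],[[[[[[[Int.negSucc (nat_lit 34717691841438762455)]]]]]]]],[[[[[[[],[[Int.negSucc (nat_lit 6513302320966869191)]]]],[[[[Int.negSucc (nat_lit 43213039119788675843)]]]]]],[[[[[[Int.ofNat (nat_lit 14184483849229253556)]]]]]]]],[[[[[[[[Int.ofNat (nat_lit 901176377691893410224)]]]]]]],[[[[[[[Int.negSucc (nat_lit 38378456428147121963)]]]]]]]]],[[[[[[[[[Int.ofNat (nat_lit 2857314184231843325724)]]],[[[Int.negSucc (nat_lit 6959500939902358163)]]]]],[[[[[Int.negSucc (nat_lit 130626059956174876235)]]]]]]],[[[[[[[Int.ofNat (nat_lit 163054283765903044368)]]]]]]]],[[[],[[[[[[Int.ofNat (nat_lit 69204060603390775548)]]]]]]]],[[[[[[[[Int.negSucc (nat_lit 362049699693172078775)]]]]]]]]],[[[[[[[[[Int.ofNat (nat_lit 1961306473044983322276)]]]]]]],[[[[[[[Int.ofNat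 (nat_lit 4160611284227829744)]]]]]]]]],[[[[[[[[[Int.ofNat (nat_lit 646869820016346118488)]]]]]]]]]]

/-- A coefficient. -/
noncomputable def sr7_m0_1_7 : MP 10 :=
  [[[[[[[],[[[[Int.negSucc (nat_lit 39776836728779132495)]]]]]],[[[[[[Int.negSucc (nat_lit 290233904527715769095)]]]]]]]],[[[[[[[[Int.ofNat (nat_lit 54495366616966319244)]]]]],[[[[[Int.ofNat (nat_lit 25906791683666684220)]]]]]]],[[[[[[[Int.ofNat (nat_lit 54476541639443444616)]]]]]]]],[],[[[[[[[[Int.ofNat (nat_lit 407990207495185659564)]]]]]]]]],[[[[[[],[[[[Int.ofNat (nat_lit 16718887035232798104)]]]]]],[[[[[[Int.negSucc (nat_lit 345350153340975686039)]]]]]]]],[[[[[[[[Int.ofNat (nat_lit 477424117932907419492)]]]]]]]]],[[],[[[[[[[[Int.negSucc (nat_lit 23111406449479586759)]]]]]]]]]]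

/-- A coefficient. -/
noncomputable def sr7_m0_1_8 : MP 10 :=
  [[[[[[[[[[Int.negSucc (nat_lit 768606814734691041011)]]]]]]],[[[[[[[Int.negSucc (nat_lit 127391950807960751015)]]]]]]]],[[[],[[[[[[Int.ofNat (nat_lit 171841819360713353352)]]]]]]]],[[[[[[[[Int.negSucc (nat_lit 457713004165337347523)]]]]]]]]],[[[[[[[[[Int.negSucc (nat_lit 2025793734200780342423)]]]]]]],[[[[[[[Int.negSucc (nat_lit 102973575778501467095)]]]]]]]]],[[[[[[[[[Int.negSucc (nat_lit 512449767947626679675)]]]]]]]]]]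

/-- A coefficient. -/
noncomputable def sr7_m0_1_9 : MP 10 :=
  [[[],[[[[[[[[Int.ofNat (nat_lit 433961118460392075672)]]]]]]]]],[[],[[[[[[[[Int.negSucc (nat_lit 238565164687095479)]]]]]]]]]]

/-- A coefficient. -/
noncomputable def sr7_m0_1_10 : MP 10 :=
  [[[[[[[[[[Int.ofNat (nat_lit 39629674456502878980)]]]]]]]]],[[[[[[[[[Int.ofNat (nat_lit 536568942434142936900)]]]]]]]]]]

/-- A coefficient. -/
noncomputable def sr7_m0_1_11 : MP 10 :=
  [[[],[[[[[[[[Int.negSucc (nat_lit 196647793277408324171)]]]]]]]]]]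

/-- A coefficient. -/
noncomputable def sr7_m0_2_0 : MP 10 :=
  [[[[[[[[[[Int.ofNat (nat_lit 224118069500926962870)],[Int.ofNat (nat_lit 1235504791524566148)]],[],[[Int.ofNat (nat_lit 4542554613010666938)]]],[[[Int.negSucc (nat_lit 24329182698373383455)]]],[[[Int.ofNat (nat_lit 3877481344423861674)]]]],[[[[Int.ofNat (nat_lit 0),Int.ofNat (nat_lit 2802441851961479760)]],[[Int.ofNat (nat_lit 2712368421142135368)]]]],[[[[Int.ofNat (nat_lit 65710784677048478754)]]]]],[[[[[Int.ofNat (nat_lit 54149938471121119428)],[Int.negSucc (nat_lit 9043481482176178715)]]],[[[Int.negSucc (nat_lit 932971192553061335)]]]]],[[[[[Int.ofNat (nat_lit 132828422500724747148)]]]]]],[[[[[[Int.ofNat (nat_lit 0),Int.ofNat (nat_lit 4652240295953220000)]],[[Int.ofNat (nat_lit 18532041455595974784)]]]],[[[[Int.negSucc (nat_lit 43489913326687188155)]]]]]],[[[[[[Int.ofNat (nat_lit 210611297949312410724)]]]]],[[[[[Int.ofNat (nat_lit 10497018549308000244)]]]]]]],[[[[[[[Int.negSucc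 (nat_lit 311204432120967066347)],[Int.negSucc (nat_lit 12049244635096371383)]]],[[[Int.ofNat (nat_lit 14478292334678664684)]]]]],[[[[[Int.ofNat (nat_lit 30256198493556437460)]]]]]],[[[],[[[[Int.ofNat (nat_lit 5512696325709957672)]]]]]],[[[[[[Int.negSucc (nat_lit 14905423107716293127)]]]]]]],[[[[[[[Int.ofNat (nat_lit 313797176635607848716)]]]]],[[[[[Int.ofNat (nat_lit 16579023925797896868)]]]]]]],[[[[[[[Int.negSucc (nat_lit 15137208942817770227)]]]]]]]],[[[[[[[[Int.ofNat (nat_lit 0),Int.negSucc (nat_lit 12330796416117701447)]],[[Int.negSucc (nat_lit 29770864355806357067)]]],[[],[[Int.ofNat (nat_lit 4154086468950514548)]]]],[[[[Int.negSucc (nat_lit 143734993405749464291)],[Int.ofNat (nat_lit 5006772814878559260)]]],[[[Int.negSucc (nat_lit 4727085202077465695)]]]]],[[[[[Int.ofNat (nat_lit 0),Int.negSucc (nat_lit 9737575929590432375)]],[[Int.ofNat (nat_lit 108605002641611184)]]]],[[[[Int.negSucc (nat_lit 33543572576376079607)]]]]]],[[[[[[Int.negSucc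 (nat_lit 402539364945780093335)],[Int.ofNat (nat_lit 1503239117431790760)]]],[[[Int.ofNat (nat_lit 10699521710232156768)]]]]],[[[[[Int.negSucc (nat_lit 59022208155413160239)]]]]]],[[[],[[[[Int.negSucc (nat_lit 9957841073444213303)]]]]]],[[[[[[Int.negSucc (nat_lit 14242092409752062963)]]]]]]],[[[[[[[Int.ofNat (nat_lit 0),Int.negSucc (nat_lit 6134224688177374511)]],[[Int.ofNat (nat_lit 19924780870025121684)]]]],[[[[Int.ofNat (nat_lit 126921822000356110548)]]]]]],[[[[[[Int.negSucc (nat_lit 74341018652202626567)]]]]],[[[[[Int.ofNat (nat_lit 4812551763603268236)]]]]]]],[[[[],[[[[Int.negSucc (nat_lit 9369278588890814315)]]]]]],[[[[[[Int.negSucc (nat_lit 2730225480476421935)]]]]]]]],[[[[[[[[Int.ofNat (nat_lit 521733880421815581882)],[Int.negSucc (nat_lit 2841371486479364339)]]],[[[Int.negSucc (nat_lit 98518070491406687)]]]],[],[[[[Int.negSucc (nat_lit 10046819998741333859)]]]]],[[[[[Int.ofNat (nat_lit 63723933020178224904)]]]]],[[[[[Int.negSucc (nat_lit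 10329252420801795191)]]]]]],[[[[[],[[Int.negSucc (nat_lit 4682031876747608831)]]]],[[[[Int.ofNat (nat_lit 60610530071449134180)]]]]]],[[[[[[Int.negSucc (nat_lit 99725734996661984693)]]]]]]],[[[[[[[Int.ofNat (nat_lit 201879080987174077788)]]],[[[Int.negSucc (nat_lit 649977437018361827)]]]]],[[[[[Int.negSucc (nat_lit 30068093356025369027)]]]]]]],[[[[[[[Int.negSucc (nat_lit 35921795263969814351)]]]]]]]],[[[[[[[[Int.ofNat (nat_lit 0),Int.ofNat (nat_lit 3982134684462081696)]],[[Int.ofNat (nat_lit 34597398486833477436)]]]],[[[[Int.negSucc (nat_lit 66680775972044228423)]]]]]],[[[[[[Int.ofNat (nat_lit 430083634680432086376)]]]]]]],[[],[[[[[[Int.negSucc (nat_lit 12450940477863857831)]]]]]]]],[[[[[[[[Int.negSucc (nat_lit 275661140101541514791)]]]]],[[[[[Int.ofNat (nat_lit 15197056867651863144)]]]]]]],[[[[[[[Int.ofNat (nat_lit 39305979141844136208)]]]]]]]],[],[[[[[[[[Int.negSucc (nat_lit 20672000356858052363)]]]]]]]]],[[[[[[[[[Int.ofNat (nat_lit 665622827944083540834)],[Int.ofNat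 (nat_lit 14633630489469761700)]],[],[[Int.negSucc (nat_lit 4542554613010666937)]]],[[[Int.negSucc (nat_lit 19658222252319175067)]]],[[[Int.ofNat (nat_lit 3877481344423861674)]]]],[[[[Int.ofNat (nat_lit 0),Int.negSucc (nat_lit 2802441851961479759)]],[[Int.negSucc (nat_lit 2712368421142135367)]]]],[[[[Int.negSucc (nat_lit 60414651395500076813)]]]]],[[[[[Int.ofNat (nat_lit 83540133978619612332)],[Int.negSucc (nat_lit 9043481482176178715)]]],[[[Int.negSucc (nat_lit 932971192553061335)]]]]],[[[[[Int.ofNat (nat_lit 119578093587798270732)]]]]]],[[[[[[Int.ofNat (nat_lit 0),Int.negSucc (nat_lit 4652240295953219999)]],[[Int.negSucc (nat_lit 18045875288331469787)]]]],[[[[Int.ofNat (nat_lit 56042597606216892960)]]]]]],[[[[[[Int.negSucc (nat_lit 45987399429411144419)]]]]],[[[[[Int.ofNat (nat_lit 10497018549308000244)]]]]]]],[[[[[[[Int.negSucc (nat_lit 407215114234604208275)],[Int.negSucc (nat_lit 12049244635096371383)]]],[[[Int.ofNat (nat_lit 4657631780617592412)]]]]],[[[[[Int.ofNat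 (nat_lit 8126505813265691400)]]]]]],[[[],[[[[Int.negSucc (nat_lit 5512696325709957671)]]]]]],[[[[[[Int.negSucc (nat_lit 16576223610769864679)]]]]]]],[[[[[[[Int.ofNat (nat_lit 120759215405342450832)]]]]],[[[[[Int.ofNat (nat_lit 16579023925797896868)]]]]]]],[[[[[[[Int.negSucc (nat_lit 15137208942817770227)]]]]]]]],[[[[[[[[Int.ofNat (nat_lit 0),Int.ofNat (nat_lit 15933910437800821128)]],[[Int.ofNat (nat_lit 4544741246308442664)]]]],[[[[Int.negSucc (nat_lit 204914188748814495035)]]]]],[[],[[[[Int.negSucc (nat_lit 6691700431426476095)]]]]]],[[[[[[Int.negSucc (nat_lit 59556466211821978103)]]],[[[Int.negSucc (nat_lit 7651300672306311323)]]]]],[[[[[Int.negSucc (nat_lit 17271820792711998359)]]]]]]],[[[[[[],[[Int.negSucc (nat_lit 5639872167061365995)]]]],[[[[Int.ofNat (nat_lit 120001465859585581932)]]]]]],[[[[[[Int.negSucc (nat_lit 36634789842620158727)]]]]]]]],[[[[[[[[Int.ofNat (nat_lit 210133673636442146718)],[Int.ofNat (nat_lit 89328251547522936)]]],[[[Int.ofNat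 (nat_lit 6289789255074556728)]]]]],[[[[[Int.ofNat (nat_lit 77221384590529900080)]]]]]],[],[[[[[[Int.ofNat (nat_lit 8133860894191340862)]]]]]]],[[[[[[[Int.ofNat (nat_lit 562986610132036576476)]]]]]]],[[[[[[[Int.negSucc (nat_lit 95792804021917396403)]]]]]]]],[[[[[],[[[[Int.ofNat (nat_lit 8745815447541172560)]]]]]],[[[[[[Int.ofNat (nat_lit 75895316774283794304)]]]]]]]],[[[[[[[[Int.negSucc (nat_lit 31719144771085673543)]]]]]]]]],[[[[[[[[[Int.ofNat (nat_lit 835240474316592858786)],[Int.ofNat (nat_lit 18699773650178535696)]]],[[[Int.ofNat (nat_lit 13480202145069325092)]]]],[],[[[[Int.negSucc (nat_lit 5296133281548401939)]]]]],[[[[[Int.negSucc (nat_lit 43644353411930614307)]]]]],[[[[[Int.negSucc (nat_lit 13250328912926476415)]]]]]],[[[[[],[[Int.negSucc (nat_lit 486166167264504995)]]]],[[[[Int.negSucc (nat_lit 12552684279529704803)]]]]]],[[[[[[Int.negSucc (nat_lit 157997725693792247849)]]]]]]],[[[[[[[Int.ofNat (nat_lit 99503125948880805744)]]],[[[Int.negSucc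 (nat_lit 9820660554061072271)]]]]],[[[[[Int.negSucc (nat_lit 22129692680290746059)]]]]]]],[[[[[[[Int.negSucc (nat_lit 158183185753476790679)]]]]]]]],[[[[[[[[Int.ofNat (nat_lit 0),Int.ofNat (nat_lit 14115480064431488688)]],[[Int.ofNat (nat_lit 22343399427679522860)]]]],[[[[Int.ofNat (nat_lit 25399683526734799440)]]]]]],[[[[[[Int.ofNat (nat_lit 327143915060625283860)]]]]]]],[[],[[[[[[Int.ofNat (nat_lit 153456808321553603244)]]]]]]]],[[[[[[[[Int.negSucc (nat_lit 393477245752378660511)]]]]],[[[[[Int.ofNat (nat_lit 59513022908403612444)]]]]]]],[[[[[[[Int.negSucc (nat_lit 37947297052440541907)]]]]]]]],[],[[[[[[[[Int.negSucc (nat_lit 96082321177621633799)]]]]]]]]],[[[[[[[[[Int.ofNat (nat_lit 729518515006248480342)],[Int.ofNat (nat_lit 5301647952233340144)]]],[[[Int.ofNat (nat_lit 8809241699015116704)]]]]],[[[[[Int.negSucc (nat_lit 40524369686135622443)]]]]]],[],[[[[[[Int.negSucc (nat_lit 72193562331231404165)]]]]]]],[[[[[[[Int.ofNat (nat_lit 117029351802987520620)]]]]]]],[[[[[[[Int.ofNat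 (nat_lit 34854775476788607204)]]]]]]]],[[[[[],[[[[Int.ofNat (nat_lit 28261847987751299724)]]]]]],[[[[[[Int.ofNat (nat_lit 104671312997280536040)]]]]]]]],[[[[[[[[Int.negSucc (nat_lit 353544250797625773083)]]]]]]]]],[[[[[[[[[Int.ofNat (nat_lit 554192452126903643412)]]]]],[[[[[Int.ofNat (nat_lit 32510179233293484768)]]]]]]],[[[[[[[Int.negSucc (nat_lit 78484456259530427051)]]]]]]]],[],[[[[[[[[Int.negSucc (nat_lit 112436756700492423395)]]]]]]]]],[[[[[[[[[Int.ofNat (nat_lit 177585803057207280924)]]]]]]]]],[[[[[[[[[Int.negSucc (nat_lit 40823849936884162967)]]]]]]]]]]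

/-- A coefficient. -/
noncomputable def sr7_m0_2_1 : MP 10 :=
  [[[[[[[[[[Int.ofNat (nat_lit 0),Int.ofNat (nat_lit 12157099634363070024)]],[[Int.negSucc (nat_lit 21419589224554414067)]]]],[[[[Int.ofNat (nat_lit 255668559003975071856)]]],[[[Int.negSucc (nat_lit 1996375305479794691)]]]]],[[[[],[[Int.ofNat (nat_lit 18310669814644695288)]]]],[[[[Int.negSucc (nat_lit 91400132468567635163)]]]]]],[[[[[[Int.ofNat (nat_lit 242139509130953265528)],[Int.ofNat (nat_lit 5288511049967706756)]]],[[[Int.ofNat (nat_lit 30768005902619267184)]]]]],[[[[[Int.negSucc (nat_lit 26488869639765829175)]]]]]],[],[[[[[[Int.negSucc (nat_lit 6763816614436587359)]]]]]]],[[[[[[[Int.ofNat (nat_lit 0),Int.ofNat (nat_lit 513820439002154520)]],[[Int.ofNat (nat_lit 19092552385318235856)]]]],[[[[Int.negSucc (nat_lit 43989766470133817003)]]]]]],[[[[[[Int.negSucc (nat_lit 48565374208342355807)]]]]]]],[[],[[[[[[Int.ofNat (nat_lit 2058566493752316456)]]]]]]]],[[[[[[[[Int.negSucc (nat_lit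 597127668379317099311)],[Int.ofNat (nat_lit 19552590953194106100)]]],[[[Int.ofNat (nat_lit 44103112682664766476)]]]],[[[],[[Int.negSucc (nat_lit 12486088154251358099)]]]],[[[[Int.negSucc (nat_lit 26316989998471776095)]]]]],[[[[[Int.ofNat (nat_lit 139747314015381328068)]]],[[[Int.ofNat (nat_lit 12787382116135099512)]]]]],[[[[[Int.ofNat (nat_lit 12839396538955482324)]]]]]],[[[[[[Int.ofNat (nat_lit 0),Int.ofNat (nat_lit 4854296618147381712)]],[[Int.ofNat (nat_lit 11466420179051658240)]]]],[[[[Int.ofNat (nat_lit 12736297443871717500)]]]]]],[[[[[[Int.ofNat (nat_lit 166716499307279438292)]]]]]]],[[[[[[[Int.negSucc (nat_lit 343150871594659507283)],[Int.ofNat (nat_lit 723233125090798824)]]],[[[Int.negSucc (nat_lit 7733626522675719827)]]]]],[[[[[Int.ofNat (nat_lit 2870396140757731188)]]]]]],[],[[[[[[Int.negSucc (nat_lit 10676070793239263819)]]]]]]],[[[[[[[Int.negSucc (nat_lit 22216737878738772071)]]]]]]],[[[[[[[Int.negSucc (nat_lit 25481662482652148855)]]]]]]]],[[[[[[[[Int.ofNat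 (nat_lit 0),Int.ofNat (nat_lit 12170788894957277760)]],[[Int.ofNat (nat_lit 26590426810419625992)]]]],[[[[Int.negSucc (nat_lit 206913555566450830379)]]]]]],[[[[[[Int.negSucc (nat_lit 845591517144307118939)]]]]],[[[[[Int.negSucc (nat_lit 50491602293085931895)]]]]]]],[[[[],[[[[Int.negSucc (nat_lit 22856545529156769311)]]]]]],[[[[[[Int.negSucc (nat_lit 74141903854128299423)]]]]]]]],[[[[[[[[Int.ofNat (nat_lit 919241940143757985896)]]],[[[Int.negSucc (nat_lit 5189509350886666847)]]]]],[[[[[Int.ofNat (nat_lit 224833323944961857328)]]]]]]],[[[[[[[Int.negSucc (nat_lit 63216167217545642531)]]]]]]]],[[[],[[[[[[Int.ofNat (nat_lit 75875492407309716156)]]]]]]]],[[[[[[[[Int.negSucc (nat_lit 287242342194900387935)]]]]]]]]],[[[[[[[[[Int.ofNat (nat_lit 0),Int.negSucc (nat_lit 25294614007546507871)]],[[Int.negSucc (nat_lit 56908698774922880987)]]]],[[[[Int.ofNat (nat_lit 379716449372036269368)]]],[[[Int.negSucc (nat_lit 12891050624563732859)]]]]],[[[[],[[Int.negSucc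 (nat_lit 7855286486890406639)]]]],[[[[Int.negSucc (nat_lit 27205681472476965611)]]]]]],[[[[[[Int.ofNat (nat_lit 34645828000956713424)],[Int.ofNat (nat_lit 5288511049967706756)]]],[[[Int.ofNat (nat_lit 47672365888842127320)]]]]],[[[[[Int.negSucc (nat_lit 67311673055585647907)]]]]]],[],[[[[[[Int.negSucc (nat_lit 6763816614436587359)]]]]]]],[[[[[[[Int.ofNat (nat_lit 0),Int.negSucc (nat_lit 513820439002154519)]],[[Int.ofNat (nat_lit 21744915545463653928)]]]],[[[[Int.negSucc (nat_lit 106802648324215031567)]]]]]],[[[[[[Int.negSucc (nat_lit 129489361555496613179)]]]]]]],[[],[[[[[[Int.negSucc (nat_lit 9624689274018865991)]]]]]]]],[[[[[[[[Int.negSucc (nat_lit 390351439483173294611)],[Int.negSucc (nat_lit 986669378593448891)]]],[[[Int.negSucc (nat_lit 2497586706433610675)]]]]],[[[[[Int.ofNat (nat_lit 292153342549050887124)]]]]]],[[[],[[[[Int.ofNat (nat_lit 31703812489048975644)]]]]]],[[[[[[Int.negSucc (nat_lit 49772799437317544567)]]]]]]],[[[[[[[Int.negSucc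 (nat_lit 430510104867083663711)]]]]],[[[[[Int.negSucc (nat_lit 47290080707680064195)]]]]]]],[[[[[[[Int.negSucc (nat_lit 72363097070123295491)]]]]]]]],[[[[[[[],[[Int.ofNat (nat_lit 9536701425742600368)]]]],[[[[Int.negSucc (nat_lit 134558328877175977055)]]]]]],[[[[[[Int.ofNat (nat_lit 172797933019299436356)]]]]]]]],[[[[[[[[Int.negSucc (nat_lit 567156338723975352311)]]]]]]],[[[[[[[Int.ofNat (nat_lit 124545207555661442748)]]]]]]]]],[[[[[[[[[Int.ofNat (nat_lit 0),Int.ofNat (nat_lit 13137514373183437848)]],[[Int.ofNat (nat_lit 32584612058961745620)]]]],[[[[Int.negSucc (nat_lit 177521889420146485883)]]]]]],[[[[[[Int.ofNat (nat_lit 27464399080669121676)]]]]],[[[[[Int.ofNat (nat_lit 40187991379728190500)]]]]]]],[[[[],[[[[Int.ofNat (nat_lit 1452728685680224476)]]]]]],[[[[[[Int.negSucc (nat_lit 58610964606950474195)]]]]]]]],[[[[[[[[Int.negSucc (nat_lit 343623257606184954827)]]],[[[Int.negSucc (nat_lit 16664836351475557979)]]]]],[[[[[Int.ofNat (nat_lit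 109999974455836602780)]]]]]]],[[[[[[[Int.ofNat (nat_lit 268432708363586122644)]]]]]]]],[[[],[[[[[[Int.ofNat (nat_lit 159534176772101313336)]]]]]]]],[[[[[[[[Int.negSucc (nat_lit 624630458296550730227)]]]]]]]]],[[[[[[[[],[[Int.ofNat (nat_lit 8596536565979963844)]]]],[[[[Int.negSucc (nat_lit 147370283761295338979)]]]]]],[[[[[[Int.ofNat (nat_lit 103593614248469020344)]]]]]]]],[[[[[[[[Int.negSucc (nat_lit 867717174795116318111)]]]]]]],[[[[[[[Int.ofNat (nat_lit 173042016729354903024)]]]]]]]]],[[[[],[[[[[[Int.negSucc (nat_lit 1253132215238103947)]]]]]]]],[[[[[[[[Int.negSucc (nat_lit 543403189804112676599)]]]]]]]]]]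

/-- A coefficient. -/
noncomputable def sr7_m0_2_2 : MP 10 :=
  [[[[[[[[[[Int.negSucc (nat_lit 222624920114706443333)],[Int.ofNat (nat_lit 11650531451781948240)]]],[[[Int.negSucc (nat_lit 109401803527051354943)]]]],[],[[[[Int.ofNat (nat_lit 82547936661036616284)]]]]],[[[[[Int.negSucc (nat_lit 372742143668435190251)]]]]],[[[[[Int.ofNat (nat_lit 86041185268919027040)]]]]]],[[[[[],[[Int.negSucc (nat_lit 13631598530762582855)]]]],[[[[Int.negSucc (nat_lit 14262881988235339703)]]]]]],[[[[[[Int.ofNat (nat_lit 698863477232106761772)]]]]]]],[[[[[[[Int.ofNat (nat_lit 595619343788745336408)]]],[[[Int.ofNat (nat_lit 25245308839936475832)]]]]],[[[[[Int.negSucc (nat_lit 26545642199637611075)]]]]]]],[[[[[[[Int.ofNat (nat_lit 350430596911944527436)]]]]]]]],[[[[[[[[Int.ofNat (nat_lit 0),Int.negSucc (nat_lit 19922450752590829247)]],[[Int.negSucc (nat_lit 24523855637763681275)]]]],[[[[Int.ofNat (nat_lit 265363896540043737888)]]]]],[[],[[[[Int.negSucc (nat_lit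 32730305307507720839)]]]]]],[[[[[[Int.ofNat (nat_lit 446644455061913491764)]]],[[[Int.negSucc (nat_lit 19550316087316063871)]]]]],[[[[[Int.ofNat (nat_lit 13644357253489471752)]]]]]]],[[[[[[],[[Int.ofNat (nat_lit 15177351527210210844)]]]],[[[[Int.negSucc (nat_lit 87066281135583263063)]]]]]],[[[[[[Int.ofNat (nat_lit 439408551835050603936)]]]]]]]],[[[[[[[[Int.negSucc (nat_lit 1263256849272954029285)],[Int.negSucc (nat_lit 21518666584675489007)]]],[[[Int.ofNat (nat_lit 2514286228570618752)]]]]],[[[[[Int.negSucc (nat_lit 104843974059311288615)]]]]]],[],[[[[[[Int.ofNat (nat_lit 33609973427939144244)]]]]]]],[[[[[[[Int.negSucc (nat_lit 11318937443697153323)]]]]]]],[[[[[[[Int.negSucc (nat_lit 24799934404313532539)]]]]]]]],[[[[[],[[[[Int.negSucc (nat_lit 10668686805550058327)]]]]]],[[[[[[Int.negSucc (nat_lit 79282934167230666827)]]]]]]]],[[[[[[[[Int.ofNat (nat_lit 491655989848062711864)]]]]]]]]],[[[[[[[[[Int.negSucc (nat_lit 2070217619243604947477)],[Int.ofNat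 (nat_lit 24014597507250979380)]]],[[[Int.negSucc (nat_lit 100703064881417353007)]]]],[],[[[[Int.ofNat (nat_lit 41550413980201263828)]]]]],[[[[[Int.negSucc (nat_lit 779096944741741569011)]]]]],[[[[[Int.ofNat (nat_lit 13967163010497613776)]]]]]],[[[[[],[[Int.negSucc (nat_lit 5062163280556388879)]]]],[[[[Int.ofNat (nat_lit 36860088072850723224)]]]]]],[[[[[[Int.ofNat (nat_lit 888683247630102674580)]]]]]]],[[[[[[[Int.ofNat (nat_lit 2186138765717292737052)]]],[[[Int.ofNat (nat_lit 32355800520743536368)]]]]],[[[[[Int.negSucc (nat_lit 1432506330774294731)]]]]]]],[[[[[[[Int.negSucc (nat_lit 80707470487425121235)]]]]]]]],[[[[[[[[Int.ofNat (nat_lit 0),Int.ofNat (nat_lit 32017489794779838192)]],[[Int.ofNat (nat_lit 14508760502794723224)]]]],[[[[Int.ofNat (nat_lit 191775176583923745876)]]]]]],[[[[[[Int.negSucc (nat_lit 407536223554796104055)]]]]]]],[[],[[[[[[Int.negSucc (nat_lit 94522246755882787919)]]]]]]]],[[[[[[[[Int.ofNat (nat_lit 534639347789659665798)]]]]],[[[[[Int.ofNat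 (nat_lit 29098336221808433604)]]]]]]],[[[[[[[Int.negSucc (nat_lit 596151510198265314851)]]]]]]]],[],[[[[[[[[Int.ofNat (nat_lit 69125551234969074960)]]]]]]]]],[[[[[[[[[Int.negSucc (nat_lit 3315147124630178036375)],[Int.ofNat (nat_lit 12364066055469031140)]]],[[[Int.ofNat (nat_lit 25759481619677628360)]]]]],[[[[[Int.negSucc (nat_lit 550268069867766245987)]]]]]],[],[[[[[[Int.ofNat (nat_lit 32374400532432696984)]]]]]]],[[[[[[[Int.ofNat (nat_lit 1694018137372472365260)]]]]]]],[[[[[[[Int.negSucc (nat_lit 78443766238753993607)]]]]]]]],[[[[[],[[[[Int.negSucc (nat_lit 110066132247631599407)]]]]]],[[[[[[Int.ofNat (nat_lit 344220838527293956800)]]]]]]]],[[[[[[[[Int.ofNat (nat_lit 211314911941582588920)]]]]]]]]],[[[[[[[[[Int.negSucc (nat_lit 2252009841621895802843)]]]]],[[[[[Int.negSucc (nat_lit 119289121815796800395)]]]]]]],[[[[[[[Int.ofNat (nat_lit 209662979327076064032)]]]]]]]],[],[[[[[[[[Int.ofNat (nat_lit 258263095203191721192)]]]]]]]]],[[[[[[[[[Int.negSucc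 (nat_lit 644859850587266832059)]]]]]]]]],[[[[[[[[[Int.negSucc (nat_lit 44146457663237555147)]]]]]]]]]]

/-- A coefficient. -/
noncomputable def sr7_m0_2_3 : MP 10 :=
  [[[[[[[[[[Int.ofNat (nat_lit 0),Int.ofNat (nat_lit 3386226526971935784)]],[[Int.negSucc (nat_lit 12352238174773794539)]]]],[[[[Int.ofNat (nat_lit 185479899306209062272)]]]]]],[[[[[[Int.negSucc (nat_lit 396006489799645850195)]]]]],[[[[[Int.ofNat (nat_lit 75112941280625210004)]]]]]]],[[[[],[[[[Int.negSucc (nat_lit 8075394067724781035)]]]]]],[[[[[[Int.ofNat (nat_lit 469719762492080768280)]]]]]]]],[[[[[[[[Int.ofNat (nat_lit 392414392378494244848)],[Int.ofNat (nat_lit 4111576044360219156)]]],[[[Int.ofNat (nat_lit 38597954683412986488)]]]]],[[[[[Int.negSucc (nat_lit 389021636808720446591)]]]]]],[[[],[[[[Int.negSucc (nat_lit 52759483635835752275)]]]]]],[[[[[[Int.negSucc (nat_lit 400877251978601130227)]]]]]]],[[[[[[[Int.ofNat (nat_lit 403978235613664602960)]]]]],[[[[[Int.negSucc (nat_lit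 60583145858751733727)]]]]]]],[[[[[[[Int.negSucc (nat_lit 108125716088405163335)]]]]]]]],[[[[[[[],[[Int.ofNat (nat_lit 23959677656283811128)]]]],[[[[Int.negSucc (nat_lit 174185366908916572451)]]]]]],[[[[[[Int.ofNat (nat_lit 147685401345708529968)]]]]]]]],[[[[[[[[Int.negSucc (nat_lit 76753150262837106083)]]]]]]],[[[[[[[Int.negSucc (nat_lit 158301331034695439975)]]]]]]]]],[[[[[[[[[Int.ofNat (nat_lit 0),Int.negSucc (nat_lit 3386226526971935783)]],[[Int.ofNat (nat_lit 43349790294662592816)]]]],[[[[Int.negSucc (nat_lit 82428619301315393915)]]]]]],[[[[[[Int.negSucc (nat_lit 392884494251781325883)]]]]],[[[[[Int.ofNat (nat_lit 42533062747372042332)]]]]]]],[[[[],[[[[Int.negSucc (nat_lit 11427832348748953715)]]]]]],[[[[[[Int.ofNat (nat_lit 648588555731320262880)]]]]]]]],[[[[[[[[Int.ofNat (nat_lit 814991473110538280868)]]],[[[Int.ofNat (nat_lit 2480905413670817880)]]]]],[[[[[Int.negSucc (nat_lit 518380296927027043367)]]]]]]],[[[[[[[Int.ofNat (nat_lit 20277292542880006140)]]]]]]]],[[[],[[[[[[Int.ofNat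 (nat_lit 23901349341913339332)]]]]]]]],[[[[[[[[Int.negSucc (nat_lit 362575141014945091979)]]]]]]]]],[[[[[[[[],[[Int.negSucc (nat_lit 10774560939492785939)]]]],[[[[Int.negSucc (nat_lit 57469325308943793227)]]]]]],[[[[[[Int.negSucc (nat_lit 380005655025131181383)]]]]]]]],[[[[[[[[Int.ofNat (nat_lit 2806467986687885788764)]]]]]]],[[[[[[[Int.negSucc (nat_lit 410853021991222962215)]]]]]]]]],[[[[],[[[[[[Int.ofNat (nat_lit 85588963933189131624)]]]]]]]],[[[[[[[[Int.ofNat (nat_lit 561167669826632470416)]]]]]]]]]]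

/-- A coefficient. -/
noncomputable def sr7_m0_2_4 : MP 10 :=
  [[[[[[[[[[Int.ofNat (nat_lit 2276165749749299996094)],[Int.ofNat (nat_lit 829465659907964400)]]],[[[Int.ofNat (nat_lit 108200328972657557748)]]]]],[[[[[Int.ofNat (nat_lit 303509287107240321204)]]]]]],[],[[[[[[Int.ofNat (nat_lit 183385821163105638966)]]]]]]],[[[[[[[Int.negSucc (nat_lit 757845008291488669835)]]]]]]],[[[[[[[Int.ofNat (nat_lit 517683769789770543678)]]]]]]]],[[[[[[[[Int.ofNat (nat_lit 0),Int.ofNat (nat_lit 6650427012255793008)]],[[Int.ofNat (nat_lit 53214495148725460332)]]]],[[[[Int.negSucc (nat_lit 19328893967149374275)]]]]]],[[[[[[Int.ofNat (nat_lit 8157884604223636680)]]]]]]],[[],[[[[[[Int.negSucc (nat_lit 22148641542201737183)]]]]]]]],[[[[[[[[Int.negSucc (nat_lit 333282448108565043767)]]]]],[[[[[Int.ofNat (nat_lit 39934322519917632552)]]]]]]],[[[[[[[Int.ofNat (nat_lit 397958920583782344120)]]]]]]]],[],[[[[[[[[Int.negSucc (nat_lit 843644706165941970827)]]]]]]]]],[[[[[[[[[Int.ofNat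 (nat_lit 4846402762994442053754)],[Int.ofNat (nat_lit 829465659907964400)]]],[[[Int.ofNat (nat_lit 150740241928527241020)]]]]],[[[[[Int.ofNat (nat_lit 382171811849255260140)]]]]]],[],[[[[[[Int.negSucc (nat_lit 306443216948170248989)]]]]]]],[[[[[[[Int.negSucc (nat_lit 1658989030305745413587)]]]]]]],[[[[[[[Int.ofNat (nat_lit 441417574124728617870)]]]]]]]],[[[[[],[[[[Int.ofNat (nat_lit 61409179523143514868)]]]]]],[[[[[[Int.ofNat (nat_lit 39235828493002620624)]]]]]]]],[[[[[[[[Int.negSucc (nat_lit 1378714740302523208559)]]]]]]]]],[[[[[[[[[Int.ofNat (nat_lit 3752904470377411766778)]]]]],[[[[[Int.ofNat (nat_lit 4123736597943153960)]]]]]]],[[[[[[[Int.negSucc (nat_lit 680406934636534793807)]]]]]]]],[],[[[[[[[[Int.negSucc (nat_lit 1517142806213607839939)]]]]]]]]],[[[[[[[[[Int.ofNat (nat_lit 1690247206489552553562)]]]]]]]]],[[[[[[[[[Int.negSucc (nat_lit 331212169337579566907)]]]]]]]]]]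

/-- A coefficient. -/
noncomputable def sr7_m0_2_5 : MP 10 :=
  [[[[[[[[[],[[Int.negSucc (nat_lit 52284407501987387627)]]]],[[[[Int.negSucc (nat_lit 14388276504114298631)]]]]]],[[[[[[Int.ofNat (nat_lit 372591402465747931104)]]]]]]]],[[[[[[[[Int.negSucc (nat_lit 307790233390200885971)]]],[[[Int.negSucc (nat_lit 28881141496984978091)]]]]],[[[[[Int.ofNat (nat_lit 31483932520128423780)]]]]]]],[[[[[[[Int.negSucc (nat_lit 187360515334798675631)]]]]]]]],[[[],[[[[[[Int.ofNat (nat_lit 126782920132251936792)]]]]]]]],[[[[[[[[Int.negSucc (nat_lit 183851279971688604599)]]]]]]]]],[[[[[[[[],[[Int.negSucc (nat_lit 24630789911630129483)]]]],[[[[Int.negSucc (nat_lit 89529415724712411287)]]]]]],[[[[[[Int.ofNat (nat_lit 237729943912021082472)]]]]]]]],[[[[[[[[Int.ofNat (nat_lit 49271498529584913012)]]]]]]],[[[[[[[Int.ofNat (nat_lit 189340066099552866576)]]]]]]]]],[[[[],[[[[[[Int.ofNat (nat_lit 85285956527323409808)]]]]]]]],[[[[[[[[Int.negSucc (nat_lit 1026524422777079238947)]]]]]]]]]]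

/-- A coefficient. -/
noncomputable def sr7_m0_2_6 : MP 10 :=
  [[[[[[[[[[Int.negSucc (nat_lit 2708989460414241919631)]]]]],[[[[[Int.negSucc (nat_lit 79510167950980399571)]]]]]]],[[[[[[[Int.ofNat (nat_lit 281680944345666641796)]]]]]]]],[[[[[],[[[[Int.ofNat (nat_lit 20479491211136173008)]]]]]],[[[[[[Int.negSucc (nat_lit 137959409219085587267)]]]]]]]],[[[[[[[[Int.ofNat (nat_lit 1581373913958970485102)]]]]]]]]],[[[[[[[[[Int.negSucc (nat_lit 4334544568536147023051)]]]]],[[[[[Int.ofNat (nat_lit 13942137721478278212)]]]]]]],[[[[[[[Int.ofNat (nat_lit 96173635171443126540)]]]]]]]],[],[[[[[[[[Int.ofNat (nat_lit 567227633330146121346)]]]]]]]]],[[[[[[[[[Int.negSucc (nat_lit 676999473659709738695)]]]]]]]]],[[[[[[[[[Int.negSucc (nat_lit 471270314256640498979)]]]]]]]]]]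

/-- A coefficient. -/
noncomputable def sr7_m0_2_7 : MP 10 :=
  [[[[[],[[[[[[Int.negSucc (nat_lit 367334145354213055199)]]]]]]]],[[[[[[[[Int.ofNat (nat_lit 993821469930301490772)]]]]]]],[[[[[[[Int.ofNat (nat_lit 31047025181226603144)]]]]]]]]],[[[[],[[[[[[Int.ofNat (nat_lit 21084328606188477288)]]]]]]]],[[[[[[[[Int.ofNat (nat_lit 131036672414103401664)]]]]]]]]]]

/-- A coefficient. -/
noncomputable def sr7_m0_2_8 : MP 10 :=
  [[[[[[[[[[Int.ofNat (nat_lit 33972937945474733160)]]]]]]]],[],[[[[[[[[Int.negSucc (nat_lit 168594343810057079375)]]]]]]]]],[[[[[[[[[Int.ofNat (nat_lit 2182117715492528099676)]]]]]]]]],[[[[[[[[[Int.negSucc (nat_lit 10100581789287664739)]]]]]]]]]]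

/-- A coefficient. -/
noncomputable def sr7_m0_2_9 : MP 10 :=
  [[[],[[[[[[[[Int.negSucc (nat_lit 980235673688397984167)]]]]]]]]]]

/-- A coefficient. -/
noncomputable def sr7_m0_2_10 : MP 10 :=
  [[[[[[[[[[Int.ofNat (nat_lit 1339615669846579887672)]]]]]]]]],[[[[[[[[[Int.negSucc (nat_lit 124121414381513451575)]]]]]]]]]]

/-- A coefficient. -/
noncomputable def sr7_m0_3_0 : MP 10 :=
  [[[[[[[[[[Int.negSucc (nat_lit 323266338183497848223)],[Int.negSucc (nat_lit 33398301564952450811)]]],[[[Int.ofNat (nat_lit 65178154060658639952)]]]],[[[],[[Int.negSucc (nat_lit 5263187087569653779)]]]],[[[[Int.negSucc (nat_lit 70513449848370255479)]]]]],[[[[[Int.ofNat (nat_lit 45961213879431192300)]]],[[[Int.negSucc (nat_lit 2113281902249216291)]]]]],[[[[[Int.negSucc (nat_lit 158633752677770601395)]]]]]],[[[[[[Int.ofNat (nat_lit 0),Int.negSucc (nat_lit 868219116459208055)]],[[Int.negSucc (nat_lit 10613358013308968027)]]]],[[[[Int.ofNat (nat_lit 28079715483906400668)]]]]]],[[[[[[Int.negSucc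 (nat_lit 195614881196941555079)]]]]]]],[[[[[[[Int.ofNat (nat_lit 447752246088870276012)],[Int.ofNat (nat_lit 12130073736652550292)]]],[[[Int.negSucc (nat_lit 28528751459515268987)]]]]],[[[[[Int.negSucc (nat_lit 161267845500531355091)]]]]]],[],[[[[[[Int.ofNat (nat_lit 7913572732626464364)]]]]]]],[[[[[[[Int.negSucc (nat_lit 570252597747623768639)]]]]]]],[[[[[[[Int.ofNat (nat_lit 14669474615021705508)]]]]]]]],[[[[[[[[Int.ofNat (nat_lit 0),Int.negSucc (nat_lit 38273792713235027519)]],[[Int.ofNat (nat_lit 35872771638689006544)]]]],[[[[Int.ofNat (nat_lit 48798339545723011092)]]],[[[Int.ofNat (nat_lit 356426068682410032)]]]]],[[[[],[[Int.negSucc (nat_lit 2510396644617720755)]]]],[[[[Int.ofNat (nat_lit 35114678035653674196)]]]]]],[[[[[[Int.ofNat (nat_lit 378544678235598276636)],[Int.ofNat (nat_lit 1151114659023247788)]]],[[[Int.negSucc (nat_lit 16220739674661921935)]]]]],[[[[[Int.ofNat (nat_lit 83924971045865816820)]]]]]],[],[[[[[[Int.ofNat (nat_lit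 16641326545226262132)]]]]]]],[[[[[[[Int.ofNat (nat_lit 0),Int.ofNat (nat_lit 6042896288070480168)]],[[Int.negSucc (nat_lit 4134015459797572931)]]]],[[[[Int.negSucc (nat_lit 45008438502025712999)]]]]]],[[[[[[Int.negSucc (nat_lit 37280061111822585647)]]]]]]],[[],[[[[[[Int.ofNat (nat_lit 13847262942357013128)]]]]]]]],[[[[[[[[Int.negSucc (nat_lit 362099745773754893843)],[Int.negSucc (nat_lit 6720215471688822323)]]],[[[Int.ofNat (nat_lit 12577852619065765020)]]]]],[[[[[Int.negSucc (nat_lit 166918504020538543079)]]]]]],[[[],[[[[Int.negSucc (nat_lit 38337565804466180603)]]]]]],[[[[[[Int.ofNat (nat_lit 109518562169425780608)]]]]]]],[[[[[[[Int.negSucc (nat_lit 319351820580532072259)]]]]],[[[[[Int.ofNat (nat_lit 27158209345300723548)]]]]]]],[[[[[[[Int.ofNat (nat_lit 124238192507132550564)]]]]]]]],[[[[[[[],[[Int.negSucc (nat_lit 13929915417339859547)]]]],[[[[Int.ofNat (nat_lit 77378093690637667176)]]]]]],[[[[[[Int.negSucc (nat_lit 413150010742990531307)]]]]]]]],[[[[[[[[Int.ofNat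 (nat_lit 404216287237126270956)]]]]]]],[[[[[[[Int.negSucc (nat_lit 17576986224139920479)]]]]]]]]],[[[[[[[[[Int.negSucc (nat_lit 157886445418810863143)],[Int.negSucc (nat_lit 51593938283114673803)]]],[[[Int.ofNat (nat_lit 81561355857470889204)]]]],[[[],[[Int.ofNat (nat_lit 5263187087569653780)]]]],[[[[Int.ofNat (nat_lit 70513449848370255480)]]]]],[[[[[Int.ofNat (nat_lit 134116755733164593496)]]],[[[Int.negSucc (nat_lit 2113281902249216291)]]]]],[[[[[Int.negSucc (nat_lit 158633752677770601395)]]]]]],[[[[[[Int.ofNat (nat_lit 0),Int.ofNat (nat_lit 868219116459208056)]],[[Int.ofNat (nat_lit 10613358013308968028)]]]],[[[[Int.negSucc (nat_lit 50186501599817137691)]]]]]],[[[[[[Int.ofNat (nat_lit 206432061578129068620)]]]]]]],[[[[[[[Int.negSucc (nat_lit 126998698339990131443)],[Int.ofNat (nat_lit 12130073736652550292)]]],[[[Int.negSucc (nat_lit 28528751459515268987)]]]]],[[[[[Int.negSucc (nat_lit 185331071475389114819)]]]]]],[],[[[[[[Int.ofNat (nat_lit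 12989496182118203340)]]]]]]],[[[[[[[Int.negSucc (nat_lit 180967464698662339799)]]]]]]],[[[[[[[Int.ofNat (nat_lit 14669474615021705508)]]]]]]]],[[[[[[[[Int.ofNat (nat_lit 0),Int.negSucc (nat_lit 10055977149399622463)]],[[Int.ofNat (nat_lit 1197265191903365520)]]]],[[[[Int.ofNat (nat_lit 108908710981535498352)]]]]]],[[[[[[Int.negSucc (nat_lit 514322809928690124659)]]]]],[[[[[Int.negSucc (nat_lit 26684692112919038015)]]]]]]],[[[[],[[[[Int.negSucc (nat_lit 90978569606791226615)]]]]]],[[[[[[Int.ofNat (nat_lit 251795936398598333628)]]]]]]]],[[[[[[[[Int.ofNat (nat_lit 390943373044037058648)]]],[[[Int.ofNat (nat_lit 2293070967282870900)]]]]],[[[[[Int.negSucc (nat_lit 19518243352570842383)]]]]]]],[[[[[[[Int.negSucc (nat_lit 426928300796975244191)]]]]]]]],[[[],[[[[[[Int.negSucc (nat_lit 14758959120318888227)]]]]]]]],[[[[[[[[Int.negSucc (nat_lit 138241608239376329543)]]]]]]]]],[[[[[[[[[Int.ofNat (nat_lit 402439859579866563492)],[Int.negSucc (nat_lit 18195636718162222991)]]],[[[Int.ofNat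 (nat_lit 14345193903396618924)]]]]],[[[[[Int.ofNat (nat_lit 260674846151455844124)]]]]]],[[[],[[[[Int.ofNat (nat_lit 22106786115910737024)]]]]]],[[[[[[Int.ofNat (nat_lit 48762711229564136220)]]]]]]],[[[[[[[Int.negSucc (nat_lit 1111676086552809099791)]]]]],[[[[[Int.negSucc (nat_lit 24063225974857759727)]]]]]]],[[[[[[[Int.ofNat (nat_lit 389285133048961428840)]]]]]]]],[[[[[[[],[[Int.negSucc (nat_lit 5490853180666083455)]]]],[[[[Int.ofNat (nat_lit 68630541479068677084)]]]]]],[[[[[[Int.negSucc (nat_lit 609907046003204645159)]]]]]]]],[[[[[[[[Int.ofNat (nat_lit 578211544225067996748)]]]]]]],[[[[[[[Int.ofNat (nat_lit 41943248100447252780)]]]]]]]]],[[[[[[[[[Int.negSucc (nat_lit 116624147613631246847)]]],[[[Int.negSucc (nat_lit 2038007893415630327)]]]]],[[[[[Int.ofNat (nat_lit 172519304297722442928)]]]]]]],[[[[[[[Int.negSucc (nat_lit 468342713400119566595)]]]]]]]],[[[],[[[[[[Int.negSucc (nat_lit 13751045823171823511)]]]]]]]],[[[[[[[[Int.ofNat (nat_lit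 20639352167538831384)]]]]]]]]],[[[[[[[[[Int.negSucc (nat_lit 670995516339519877763)]]]]]]],[[[[[[[Int.ofNat (nat_lit 68582428723829125740)]]]]]]]]],[[[[[[[[[Int.negSucc (nat_lit 317311401910709052503)]]]]]]]]]]

/-- A coefficient. -/
noncomputable def sr7_m0_3_1 : MP 10 :=
  [[[[[[[[[[Int.ofNat (nat_lit 0),Int.ofNat (nat_lit 20282844307771501344)]],[[Int.ofNat (nat_lit 52350205564556760240)]]]],[[[[Int.negSucc (nat_lit 291455385390047226971)]]]]],[[],[[[[Int.ofNat (nat_lit 33997834039765273008)]]]]]],[[[[[[Int.ofNat (nat_lit 15912343352909194248)]]],[[[Int.negSucc (nat_lit 6630527795486837963)]]]]],[[[[[Int.ofNat (nat_lit 6286856958963735828)]]]]]]],[[[[[[],[[Int.negSucc (nat_lit 15388778066049560855)]]]],[[[[Int.ofNat (nat_lit 56268905594029103628)]]]]]],[[[[[[Int.ofNat (nat_lit 94346962691309234748)]]]]]]]],[[[[[[[[Int.ofNat (nat_lit 556486567528852661748)],[Int.negSucc (nat_lit 20790179937431027531)]]],[[[Int.negSucc (nat_lit 19888608773921910551)]]]],[],[[[[Int.ofNat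 (nat_lit 10497779370537271260)]]]]],[[[[[Int.ofNat (nat_lit 277399671769014071424)]]]]],[[[[[Int.negSucc (nat_lit 16539262204384071803)]]]]]],[[[[[],[[Int.negSucc (nat_lit 3388352132664485003)]]]],[[[[Int.ofNat (nat_lit 37488909191948115660)]]]]]],[[[[[[Int.negSucc (nat_lit 314724497470494968387)]]]]]]],[[[[[[[Int.negSucc (nat_lit 312929692350872299895)]]],[[[Int.ofNat (nat_lit 15098893596058808112)]]]]],[[[[[Int.negSucc (nat_lit 7567225485822965483)]]]]]]],[[[[[[[Int.ofNat (nat_lit 213352322239537060548)]]]]]]]],[[[[[[[[Int.ofNat (nat_lit 0),Int.negSucc (nat_lit 34672279848945909527)]],[[Int.negSucc (nat_lit 53240123538771257975)]]]],[[[[Int.negSucc (nat_lit 30184620869236692203)]]]]]],[[[[[[Int.ofNat (nat_lit 497415027714355991928)]]]]]]],[[],[[[[[[Int.ofNat (nat_lit 41642266966317806508)]]]]]]]],[[[[[[[[Int.negSucc (nat_lit 281269018887438561059)]]]]],[[[[[Int.negSucc (nat_lit 134559631447980562343)]]]]]]],[[[[[[[Int.ofNat (nat_lit 191258500233916269324)]]]]]]]],[],[[[[[[[[Int.ofNat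 (nat_lit 196192149343287580128)]]]]]]]]],[[[[[[[[[Int.ofNat (nat_lit 0),Int.ofNat (nat_lit 6319963252021573224)]],[[Int.ofNat (nat_lit 18947466716365222872)]]]],[[[[Int.negSucc (nat_lit 55622919094606425179)]]]]],[[],[[[[Int.ofNat (nat_lit 16428720336939472200)]]]]]],[[[[[[Int.ofNat (nat_lit 278431610339938620600)]]],[[[Int.negSucc (nat_lit 26435182163083543547)]]]]],[[[[[Int.ofNat (nat_lit 90894693312445557684)]]]]]]],[[[[[[],[[Int.negSucc (nat_lit 13941727975356163703)]]]],[[[[Int.ofNat (nat_lit 66569722247307371364)]]]]]],[[[[[[Int.ofNat (nat_lit 47759670264542802180)]]]]]]]],[[[[[[[[Int.negSucc (nat_lit 699935474942447493035)],[Int.negSucc (nat_lit 9463046565208106459)]]],[[[Int.negSucc (nat_lit 27606049025369874155)]]]]],[[[[[Int.negSucc (nat_lit 115677312690266696267)]]]]]],[],[[[[[[Int.ofNat (nat_lit 1104288744377904924)]]]]]]],[[[[[[[Int.negSucc (nat_lit 56416139088290987747)]]]]]]],[[[[[[[Int.ofNat (nat_lit 238674077792507839176)]]]]]]]],[[[[[],[[[[Int.negSucc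 (nat_lit 44934466899720996143)]]]]]],[[[[[[Int.ofNat (nat_lit 88494315435831365076)]]]]]]]],[[[[[[[[Int.ofNat (nat_lit 1130538919573610768280)]]]]]]]]],[[[[[[[[[Int.ofNat (nat_lit 0),Int.negSucc (nat_lit 26602807559793074567)]],[[Int.negSucc (nat_lit 28252107401646167543)]]]],[[[[Int.ofNat (nat_lit 45609595302979702980)]]]]]],[[[[[[Int.negSucc (nat_lit 99482026750754420735)]]]]]]],[[],[[[[[[Int.negSucc (nat_lit 116020323889448753255)]]]]]]]],[[[[[[[[Int.negSucc (nat_lit 846596919853696258235)]]]]],[[[[[Int.negSucc (nat_lit 180143302185876906239)]]]]]]],[[[[[[[Int.ofNat (nat_lit 711357838764654337308)]]]]]]]],[],[[[[[[[[Int.ofNat (nat_lit 507505091684736492696)]]]]]]]]],[[[[[[],[[[[Int.ofNat (nat_lit 3989562575660985036)]]]]]],[[[[[[Int.negSucc (nat_lit 282734951526607287167)]]]]]]]],[[[[[[[[Int.ofNat (nat_lit 1055344945978671571692)]]]]]]]]],[[],[[[[[[[[Int.ofNat (nat_lit 426765913684854182148)]]]]]]]]]]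

/-- A coefficient. -/
noncomputable def sr7_m0_3_2 : MP 10 :=
  [[[[[[[[[[Int.negSucc (nat_lit 197788233030016819343)],[Int.ofNat (nat_lit 45138972985938727584)]]],[[[Int.negSucc (nat_lit 19353021567073590959)]]]]],[[[[[Int.ofNat (nat_lit 348879917256002930112)]]]]]],[[[],[[[[Int.negSucc (nat_lit 18222276368214740639)]]]]]],[[[[[[Int.negSucc (nat_lit 908290164451377186527)]]]]]]],[[[[[[[Int.ofNat (nat_lit 235081824344490341124)]]]]],[[[[[Int.ofNat (nat_lit 19218790125318809460)]]]]]]],[[[[[[[Int.negSucc (nat_lit 742263617061079487675)]]]]]]]],[[[[[[[[Int.ofNat (nat_lit 0),Int.ofNat (nat_lit 40424203455229110720)]],[[Int.negSucc (nat_lit 9453565608061025075)]]]],[[[[Int.negSucc (nat_lit 143518097714186500487)]]]]]],[[[[[[Int.negSucc (nat_lit 413902358225696978459)]]]]],[[[[[Int.ofNat (nat_lit 36047978802438257676)]]]]]]],[[[[],[[[[Int.ofNat (nat_lit 99196558710432201756)]]]]]],[[[[[[Int.negSucc (nat_lit 498531228520924591019)]]]]]]]],[[[[[[[[Int.ofNat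 (nat_lit 214016185030310426988)]]],[[[Int.ofNat (nat_lit 16598008418586994368)]]]]],[[[[[Int.negSucc (nat_lit 180890098398971637359)]]]]]]],[[[[[[[Int.ofNat (nat_lit 107314457633271509052)]]]]]]]],[[[],[[[[[[Int.negSucc (nat_lit 211335495925511060651)]]]]]]]],[[[[[[[[Int.ofNat (nat_lit 1081707061869384094764)]]]]]]]]],[[[[[[[[[Int.ofNat (nat_lit 1378752539858565430140)],[Int.ofNat (nat_lit 45138972985938727584)]]],[[[Int.negSucc (nat_lit 18479266677030098195)]]]]],[[[[[Int.ofNat (nat_lit 418108466614540110924)]]]]]],[[[],[[[[Int.negSucc (nat_lit 53162107980702137543)]]]]]],[[[[[[Int.negSucc (nat_lit 982361788024157901815)]]]]]]],[[[[[[[Int.negSucc (nat_lit 429528581936313909323)]]]]],[[[[[Int.ofNat (nat_lit 12108617459649518532)]]]]]]],[[[[[[[Int.negSucc (nat_lit 149458288398677828747)]]]]]]]],[[[[[[[],[[Int.ofNat (nat_lit 13187162890460769936)]]]],[[[[Int.negSucc (nat_lit 378451236321720314543)]]]]]],[[[[[[Int.negSucc (nat_lit 315229159037102178203)]]]]]]]],[[[[[[[[Int.ofNat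 (nat_lit 373900022540620388880)]]]]]]],[[[[[[[Int.ofNat (nat_lit 423847850363642852196)]]]]]]]]],[[[[[[[[[Int.ofNat (nat_lit 2689454035740021852468)]]],[[[Int.negSucc (nat_lit 4044994125920664563)]]]]],[[[[[Int.ofNat (nat_lit 270981473131989326124)]]]]]]],[[[[[[[Int.negSucc (nat_lit 728474910887093016587)]]]]]]]],[[[],[[[[[[Int.negSucc (nat_lit 558949534890943157075)]]]]]]]],[[[[[[[[Int.ofNat (nat_lit 1796889931529334224700)]]]]]]]]],[[[[[[[[[Int.ofNat (nat_lit 1464955436199998698284)]]]]]]],[[[[[[[Int.negSucc (nat_lit 228367129253666667443)]]]]]]]]],[[[[[[[[[Int.ofNat (nat_lit 551276000601856084140)]]]]]]]]]]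

/-- A coefficient. -/
noncomputable def sr7_m0_3_3 : MP 10 :=
  [[[[[[[[[[Int.ofNat (nat_lit 0),Int.ofNat (nat_lit 8003030313719502840)]],[[Int.ofNat (nat_lit 33104327175999437868)]]]],[[[[Int.negSucc (nat_lit 157220872511038479839)]]]]]],[[[[[[Int.ofNat (nat_lit 381592011730016141760)]]]]]]],[[],[[[[[[Int.negSucc (nat_lit 295592838919763775167)]]]]]]]],[[[[[[[[Int.negSucc (nat_lit 610808971372862862119)],[Int.ofNat (nat_lit 12311019906100815912)]]],[[[Int.ofNat (nat_lit 49263981621130902360)]]]]],[[[[[Int.ofNat (nat_lit 294135435318072190536)]]]]]],[],[[[[[[Int.ofNat (nat_lit 154862965929786538308)]]]]]]],[[[[[[[Int.negSucc (nat_lit 349468967349896749343)]]]]]]],[[[[[[[Int.negSucc (nat_lit 99436322967333024263)]]]]]]]],[[[[[],[[[[Int.ofNat (nat_lit 194938001468048687784)]]]]]],[[[[[[Int.ofNat (nat_lit 101849637484811118756)]]]]]]]],[[[[[[[[Int.negSucc (nat_lit 2509318947947481443483)]]]]]]]]],[[[[[[[[[Int.ofNat (nat_lit 0),Int.negSucc (nat_lit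 8003030313719502839)]],[[Int.negSucc (nat_lit 46492407388485158603)]]]],[[[[Int.negSucc (nat_lit 8201642172966748451)]]]]]],[[[[[[Int.ofNat (nat_lit 1176566119382050116936)]]]]]]],[[],[[[[[[Int.negSucc (nat_lit 361744957620992876807)]]]]]]]],[[[[[[[[Int.negSucc (nat_lit 3329110746933074678603)]]]]],[[[[[Int.ofNat (nat_lit 488233173081163707480)]]]]]]],[[[[[[[Int.ofNat (nat_lit 200556584504812231128)]]]]]]]],[],[[[[[[[[Int.negSucc (nat_lit 153367380711568897139)]]]]]]]]],[[[[[[],[[[[Int.negSucc (nat_lit 8206201887957900155)]]]]]],[[[[[[Int.ofNat (nat_lit 542590860471159562176)]]]]]]]],[[[[[[[[Int.negSucc (nat_lit 4584613266971159522147)]]]]]]]]],[[],[[[[[[[[Int.negSucc (nat_lit 1146468850566316390643)]]]]]]]]]]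

/-- A coefficient. -/
noncomputable def sr7_m0_3_4 : MP 10 :=
  [[[[[[[[[[Int.negSucc (nat_lit 2151045377047678011419)]]],[[[Int.negSucc (nat_lit 110351659540762726103)]]]]],[[[[[Int.negSucc (nat_lit 187969389453394658399)]]]]]]],[[[[[[[Int.ofNat (nat_lit 373386757383673062456)]]]]]]]],[[[[[[[],[[Int.negSucc (nat_lit 30185506439929120739)]]]],[[[[Int.ofNat (nat_lit 53428076093549279376)]]]]]],[[[[[[Int.ofNat (nat_lit 442124469138232492644)]]]]]]]],[[[[[[[[Int.ofNat (nat_lit 447126141043178756328)]]]]]]],[[[[[[[Int.negSucc (nat_lit 25164572127479860439)]]]]]]]]],[[[[[[[[[Int.negSucc (nat_lit 4963383619259692035407)]]],[[[Int.negSucc (nat_lit 70708788848492357543)]]]]],[[[[[Int.negSucc (nat_lit 429361519315368673415)]]]]]]],[[[[[[[Int.ofNat (nat_lit 1325270630180290230432)]]]]]]]],[[[],[[[[[[Int.ofNat (nat_lit 264926992339096620444)]]]]]]]],[[[[[[[[Int.ofNat (nat_lit 595501277269670991960)]]]]]]]]],[[[[[[[[[Int.negSucc (nat_lit 4087714130844894591035)]]]]]]],[[[[[[[Int.ofNat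 (nat_lit 496176061186498979832)]]]]]]]]],[[[[[[[[[Int.negSucc (nat_lit 1450909778333935889519)]]]]]]]]]]

/-- A coefficient. -/
noncomputable def sr7_m0_3_5 : MP 10 :=
  [[[[[[[],[[[[Int.ofNat (nat_lit 145936451341031135136)]]]]]],[[[[[[Int.negSucc (nat_lit 679773501639852806447)]]]]]]]],[[[[[[[[Int.ofNat (nat_lit 1551926571558007756236)]]]]],[[[[[Int.negSucc (nat_lit 100655655983736580787)]]]]]]],[[[[[[[Int.ofNat (nat_lit 48023801941194068376)]]]]]]]],[],[[[[[[[[Int.ofNat (nat_lit 1584742822139981879244)]]]]]]]]],[[[[[[],[[[[Int.ofNat (nat_lit 85084833476291363832)]]]]]],[[[[[[Int.negSucc (nat_lit 914262043024083587735)]]]]]]]],[[[[[[[[Int.ofNat (nat_lit 2132852810014641654240)]]]]]]]]],[[],[[[[[[[[Int.ofNat (nat_lit 2272850589679495764672)]]]]]]]]]]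

/-- A coefficient. -/
noncomputable def sr7_m0_3_6 : MP 10 :=
  [[[[[[[[[[Int.ofNat (nat_lit 5194591201039143158892)]]]]]]],[[[[[[[Int.negSucc (nat_lit 337272226279605684107)]]]]]]]],[[[],[[[[[[Int.ofNat (nat_lit 158852320238953170456)]]]]]]]],[[[[[[[[Int.negSucc (nat_lit 869247427112462923199)]]]]]]]]],[[[[[[[[[Int.ofNat (nat_lit 6394276305744513624624)]]]]]]],[[[[[[[Int.negSucc (nat_lit 564913971008565046451)]]]]]]]]],[[[[[[[[[Int.ofNat (nat_lit 699635441821389392748)]]]]]]]]]]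

/-- A coefficient. -/
noncomputable def sr7_m0_3_7 : MP 10 :=
  [[[],[[[[[[[[Int.negSucc (nat_lit 1494582269137748292611)]]]]]]]]],[[],[[[[[[[[Int.negSucc (nat_lit 827007872156062591031)]]]]]]]]]]

/-- A coefficient. -/
noncomputable def sr7_m0_3_8 : MP 10 :=
  [[[[[[[[[[Int.negSucc (nat_lit 3596427583811630869175)]]]]]]]]],[[[[[[[[[Int.negSucc (nat_lit 3499133614545822563159)]]]]]]]]]]

/-- A coefficient. -/
noncomputable def sr7_m0_3_9 : MP 10 :=
  [[[],[[[[[[[[Int.ofNat (nat_lit 451779343900963039836)]]]]]]]]]]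

/-- A coefficient. -/
noncomputable def sr7_m0_4_0 : MP 10 :=
  [[[[[[[[[[Int.ofNat (nat_lit 167476805707607039124)],[Int.ofNat (nat_lit 10214847889435795104)]]],[[[Int.negSucc (nat_lit 43675284958514767751)]]]],[],[[[[Int.ofNat (nat_lit 34681498968556322286)]]]]],[[[[[Int.negSucc (nat_lit 286771915539215665835)]]]]],[[[[[Int.ofNat (nat_lit 71580328992122662776)]]]]]],[[[[[],[[Int.ofNat (nat_lit 1515567193804171680)]]]],[[[[Int.negSucc (nat_lit 20987227379489073371)]]]]]],[[[[[[Int.ofNat (nat_lit 203056879562411188332)]]]]]]],[[[[[[[Int.negSucc (nat_lit 626222104143334901831)]]],[[[Int.ofNat (nat_lit 16112584050606708900)]]]]],[[[[[Int.ofNat (nat_lit 193064825556445905792)]]]]]]],[[[[[[[Int.ofNat (nat_lit 955037287287181464720)]]]]]]]],[[[[[[[[Int.ofNat (nat_lit 0),Int.ofNat (nat_lit 21032046494075171232)]],[[Int.negSucc (nat_lit 34801594425537665399)]]]],[[[[Int.ofNat (nat_lit 281898305369993287500)]]]]],[[],[[[[Int.negSucc (nat_lit 354755799396470735)]]]]]],[[[[[[Int.negSucc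 (nat_lit 343463498259533098595)]]],[[[Int.ofNat (nat_lit 4769942662252383588)]]]]],[[[[[Int.negSucc (nat_lit 77066860347143725571)]]]]]]],[[[[[[],[[Int.ofNat (nat_lit 714782083895409216)]]]],[[[[Int.negSucc (nat_lit 89479127708741133911)]]]]]],[[[[[[Int.ofNat (nat_lit 381940459290555971808)]]]]]]]],[[[[[[[[Int.negSucc (nat_lit 302307341306616250589)],[Int.ofNat (nat_lit 5305185958985028084)]]],[[[Int.negSucc (nat_lit 5469593451679378523)]]]]],[[[[[Int.ofNat (nat_lit 53308247472480959412)]]]]]],[],[[[[[[Int.negSucc (nat_lit 52640706878747134307)]]]]]]],[[[[[[[Int.negSucc (nat_lit 26817026980627415783)]]]]]]],[[[[[[[Int.negSucc (nat_lit 51762402043369302419)]]]]]]]],[[[[[],[[[[Int.negSucc (nat_lit 36218506031143208543)]]]]]],[[[[[[Int.ofNat (nat_lit 131632980171642403080)]]]]]]]],[[[[[[[[Int.negSucc (nat_lit 233886135868672501691)]]]]]]]]],[[[[[[[[[Int.negSucc (nat_lit 1047446106319279988003)],[Int.ofNat (nat_lit 9529458009908828628)]]],[[[Int.negSucc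 (nat_lit 69150519950645875763)]]]],[],[[[[Int.negSucc (nat_lit 34681498968556322285)]]]]],[[[[[Int.negSucc (nat_lit 387548309607607592507)]]]]],[[[[[Int.ofNat (nat_lit 71580328992122662776)]]]]]],[[[[[],[[Int.negSucc (nat_lit 1515567193804171679)]]]],[[[[Int.ofNat (nat_lit 20987227379489073372)]]]]]],[[[[[[Int.negSucc (nat_lit 240802628968022301755)]]]]]]],[[[[[[[Int.negSucc (nat_lit 309449309005900541099)]]],[[[Int.ofNat (nat_lit 16112584050606708900)]]]]],[[[[[Int.ofNat (nat_lit 193064825556445905792)]]]]]]],[[[[[[[Int.ofNat (nat_lit 743867801227782408852)]]]]]]]],[[[[[[[[Int.ofNat (nat_lit 0),Int.negSucc (nat_lit 7383115488000631007)]],[[Int.negSucc (nat_lit 20217176997421496951)]]]],[[[[Int.ofNat (nat_lit 107427015259902233136)]]]]]],[[[[[[Int.ofNat (nat_lit 506634023781454012920)]]]]]]],[[],[[[[[[Int.negSucc (nat_lit 221959428260339820491)]]]]]]]],[[[[[[[[Int.negSucc (nat_lit 778300648328594010665)]]]]],[[[[[Int.negSucc (nat_lit 33063438631631308235)]]]]]]],[[[[[[[Int.negSucc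 (nat_lit 110202090306477157991)]]]]]]]],[],[[[[[[[[Int.ofNat (nat_lit 136569067247236071876)]]]]]]]]],[[[[[[[[[Int.negSucc (nat_lit 2094164798515853753519)],[Int.negSucc (nat_lit 685389879526966475)]]],[[[Int.negSucc (nat_lit 25475234992131108011)]]]]],[[[[[Int.negSucc (nat_lit 211520124554538901523)]]]]]],[],[[[[[[Int.ofNat (nat_lit 56746418224395210504)]]]]]]],[[[[[[[Int.ofNat (nat_lit 729470130477061531980)]]]]]]],[[[[[[[Int.negSucc (nat_lit 211169486059399055867)]]]]]]]],[[[[[],[[[[Int.negSucc (nat_lit 63880863794723278403)]]]]]],[[[[[[Int.ofNat (nat_lit 461023405693066301184)]]]]]]]],[[[[[[[[Int.negSucc (nat_lit 379104046545503335805)]]]]]]]]],[[[[[[[[[Int.negSucc (nat_lit 1123764301779445469519)]]]]],[[[[[Int.negSucc (nat_lit 110743730486146974851)]]]]]]],[[[[[[[Int.ofNat (nat_lit 412697335339627171248)]]]]]]]],[],[[[[[[[[Int.ofNat (nat_lit 164704639451741908926)]]]]]]]]],[[[[[[[[[Int.negSucc (nat_lit 22027302546419463299)]]]]]]]]],[[[[[[[[[Int.ofNat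 (nat_lit 222495112744059279828)]]]]]]]]]]

/-- A coefficient. -/
noncomputable def sr7_m0_4_1 : MP 10 :=
  [[[[[[[[[[Int.ofNat (nat_lit 0),Int.negSucc (nat_lit 16373981805339469823)]],[[Int.negSucc (nat_lit 20002037118929904803)]]]],[[[[Int.ofNat (nat_lit 62542603278034122840)]]]]]],[[[[[[Int.negSucc (nat_lit 305945754897835718807)]]]]],[[[[[Int.ofNat (nat_lit 9935073129270211308)]]]]]]],[[[[],[[[[Int.negSucc (nat_lit 41542389162253836731)]]]]]],[[[[[[Int.negSucc (nat_lit 20855001826609669259)]]]]]]]],[[[[[[[[Int.ofNat (nat_lit 522316029513398628480)],[Int.negSucc (nat_lit 13885526117883179159)]]],[[[Int.negSucc (nat_lit 36175698887916723791)]]]]],[[[[[Int.negSucc (nat_lit 602507960685192824603)]]]]]],[[[],[[[[Int.negSucc (nat_lit 18611734045989933455)]]]]]],[[[[[[Int.ofNat (nat_lit 276081182272281627936)]]]]]]],[[[[[[[Int.ofNat (nat_lit 769249361714022726648)]]]]],[[[[[Int.negSucc (nat_lit 18110945136925435655)]]]]]]],[[[[[[[Int.negSucc (nat_lit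 202119769444973833691)]]]]]]]],[[[[[[[],[[Int.ofNat (nat_lit 27143770993282049004)]]]],[[[[Int.ofNat (nat_lit 35134891352873556252)]]]]]],[[[[[[Int.ofNat (nat_lit 415244505240546436464)]]]]]]]],[[[[[[[[Int.negSucc (nat_lit 1219436520873460379459)]]]]]]],[[[[[[[Int.negSucc (nat_lit 160372937789850662987)]]]]]]]]],[[[[[[[[[Int.ofNat (nat_lit 0),Int.ofNat (nat_lit 16373981805339469824)]],[[Int.ofNat (nat_lit 26490127372354965072)]]]],[[[[Int.negSucc (nat_lit 263390923174592379419)]]]]]],[[[[[[Int.negSucc (nat_lit 363255666949503661379)]]]]],[[[[[Int.negSucc (nat_lit 16673629201650489155)]]]]]]],[[[[],[[[[Int.ofNat (nat_lit 6920361847884709332)]]]]]],[[[[[[Int.negSucc (nat_lit 32035102329019506731)]]]]]]]],[[[[[[[[Int.ofNat (nat_lit 2538582482510293985544)]]],[[[Int.ofNat (nat_lit 13294960596133218348)]]]]],[[[[[Int.negSucc (nat_lit 378657027950203117475)]]]]]]],[[[[[[[Int.ofNat (nat_lit 151063830646005711456)]]]]]]]],[[[],[[[[[[Int.negSucc (nat_lit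 195426804510754890923)]]]]]]]],[[[[[[[[Int.negSucc (nat_lit 222608447185999787435)]]]]]]]]],[[[[[[[[],[[Int.ofNat (nat_lit 10077382766240525220)]]]],[[[[Int.ofNat (nat_lit 85509010526456667852)]]]]]],[[[[[[Int.ofNat (nat_lit 219727798232374487688)]]]]]]]],[[[[[[[[Int.ofNat (nat_lit 1665751138159766906316)]]]]]]],[[[[[[[Int.negSucc (nat_lit 739330242872842140299)]]]]]]]]],[[[[],[[[[[[Int.ofNat (nat_lit 153541290703740045804)]]]]]]]],[[[[[[[[Int.ofNat (nat_lit 112256135417378014488)]]]]]]]]]]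

/-- A coefficient. -/
noncomputable def sr7_m0_4_2 : MP 10 :=
  [[[[[[[[[[Int.ofNat (nat_lit 1869639557736582445008)],[Int.negSucc (nat_lit 19934926636327308215)]]],[[[Int.ofNat (nat_lit 163114302493501429680)]]]]],[[[[[Int.ofNat (nat_lit 412933251359298114600)]]]]]],[],[[[[[[Int.ofNat (nat_lit 419333481576016633674)]]]]]]],[[[[[[[Int.negSucc (nat_lit 1078625705086122472295)]]]]]]],[[[[[[[Int.ofNat (nat_lit 449025156968917847814)]]]]]]]],[[[[[[[[Int.ofNat (nat_lit 0),Int.negSucc (nat_lit 13921552592625971927)]],[[Int.ofNat (nat_lit 32389722007666143552)]]]],[[[[Int.ofNat (nat_lit 14646752147072172612)]]]]]],[[[[[[Int.negSucc (nat_lit 270354255872429140391)]]]]]]],[[],[[[[[[Int.ofNat (nat_lit 221053866143573364912)]]]]]]]],[[[[[[[[Int.ofNat (nat_lit 1827060056370644292042)]]]]],[[[[[Int.ofNat (nat_lit 103584519862386485184)]]]]]]],[[[[[[[Int.ofNat (nat_lit 267582811988590236252)]]]]]]]],[],[[[[[[[[Int.negSucc (nat_lit 1029991640337498304403)]]]]]]]]],[[[[[[[[[Int.ofNat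 (nat_lit 3024689371921398041652)],[Int.negSucc (nat_lit 19934926636327308215)]]],[[[Int.ofNat (nat_lit 154101821091418752120)]]]]],[[[[[Int.ofNat (nat_lit 707100522373319756868)]]]]]],[],[[[[[[Int.ofNat (nat_lit 350121809914973773098)]]]]]]],[[[[[[[Int.negSucc (nat_lit 1942450052676326573051)]]]]]]],[[[[[[[Int.negSucc (nat_lit 75972243492516046637)]]]]]]]],[[[[[],[[[[Int.ofNat (nat_lit 292638977295516524508)]]]]]],[[[[[[Int.negSucc (nat_lit 16187281898138240663)]]]]]]]],[[[[[[[[Int.negSucc (nat_lit 1316452225631152466885)]]]]]]]]],[[[[[[[[[Int.ofNat (nat_lit 1998626704622761528398)]]]]],[[[[[Int.ofNat (nat_lit 136532758170994418796)]]]]]]],[[[[[[[Int.negSucc (nat_lit 943496905110831328667)]]]]]]]],[],[[[[[[[[Int.negSucc (nat_lit 1682021033931806294339)]]]]]]]]],[[[[[[[[[Int.negSucc (nat_lit 448898860734323310185)]]]]]]]]],[[[[[[[[[Int.negSucc (nat_lit 314221450855687634351)]]]]]]]]]]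

/-- A coefficient. -/
noncomputable def sr7_m0_4_3 : MP 10 :=
  [[[[[[[[[],[[Int.negSucc (nat_lit 19732943223075364175)]]]],[[[[Int.negSucc (nat_lit 419817710046169389407)]]]]]],[[[[[[Int.ofNat (nat_lit 387175813965302270544)]]]]]]]],[[[[[[[[Int.negSucc (nat_lit 376463092198082512931)]]],[[[Int.negSucc (nat_lit 50856102718981503239)]]]]],[[[[[Int.ofNat (nat_lit 370526246915342592840)]]]]]]],[[[[[[[Int.negSucc (nat_lit 374538198535688464775)]]]]]]]],[[[],[[[[[[Int.ofNat (nat_lit 103474916846670856656)]]]]]]]],[[[[[[[[Int.ofNat (nat_lit 354867100950234826776)]]]]]]]]],[[[[[[[[],[[Int.ofNat (nat_lit 6474197190320564088)]]]],[[[[Int.ofNat (nat_lit 49189215202117364448)]]]]]],[[[[[[Int.negSucc (nat_lit 408436818807045538883)]]]]]]]],[[[[[[[[Int.negSucc (nat_lit 502824830838821295215)]]]]]]],[[[[[[[Int.negSucc (nat_lit 78174940853695017467)]]]]]]]]],[[[[],[[[[[[Int.negSucc (nat_lit 208530341490600721475)]]]]]]]],[[[[[[[[Int.negSucc (nat_lit 1265941135928055414551)]]]]]]]]]]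

/-- A coefficient. -/
noncomputable def sr7_m0_4_4 : MP 10 :=
  [[[[[[[[[[Int.negSucc (nat_lit 1983234874340190714347)]]]]],[[[[[Int.negSucc (nat_lit 29711955673864751927)]]]]]]],[[[[[[[Int.ofNat (nat_lit 429672673701715894716)]]]]]]]],[[[[[],[[[[Int.negSucc (nat_lit 123101674033978867475)]]]]]],[[[[[[Int.negSucc (nat_lit 264693294764909079539)]]]]]]]],[[[[[[[[Int.ofNat (nat_lit 1964047737828366522450)]]]]]]]]],[[[[[[[[[Int.ofNat (nat_lit 486126706583576591748)]]]]],[[[[[Int.negSucc (nat_lit 85046670334368625679)]]]]]]],[[[[[[[Int.ofNat (nat_lit 403934717537836596684)]]]]]]]],[],[[[[[[[[Int.ofNat (nat_lit 419930727998751106554)]]]]]]]]],[[[[[[[[[Int.ofNat (nat_lit 2979955135992030624996)]]]]]]]]],[[[[[[[[[Int.ofNat (nat_lit 1719835042186219089516)]]]]]]]]]]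

/-- A coefficient. -/
noncomputable def sr7_m0_4_5 : MP 10 :=
  [[[[[],[[[[[[Int.negSucc (nat_lit 158742820052395324463)]]]]]]]],[[[[[[[[Int.negSucc (nat_lit 354336915728255807891)]]]]]]],[[[[[[[Int.ofNat (nat_lit 254682397714421664468)]]]]]]]]],[[[[],[[[[[[Int.ofNat (nat_lit 155023636442316172296)]]]]]]]],[[[[[[[[Int.negSucc (nat_lit 612671432131920322535)]]]]]]]]]]

/-- A coefficient. -/
noncomputable def sr7_m0_4_6 : MP 10 :=
  [[[[[[[[[[Int.negSucc (nat_lit 3667499967824102365127)]]]]]]]],[],[[[[[[[[Int.negSucc (nat_lit 767727698148808588691)]]]]]]]]],[[[[[[[[[Int.negSucc (nat_lit 4342183883622174922763)]]]]]]]]],[[[[[[[[[Int.negSucc (nat_lit 525336477398060528243)]]]]]]]]]]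

/-- A coefficient. -/
noncomputable def sr7_m0_4_7 : MP 10 :=
  [[[],[[[[[[[[Int.negSucc (nat_lit 465820284465631856111)]]]]]]]]]]

/-- A coefficient. -/
noncomputable def sr7_m0_4_8 : MP 10 :=
  [[[[[[[[[[Int.ofNat (nat_lit 4522256018316016239072)]]]]]]]]],[[[[[[[[[Int.ofNat (nat_lit 3062696744597013635232)]]]]]]]]]]

/-- A coefficient. -/
noncomputable def sr7_m0_5_0 : MP 10 :=
  [[[[[[[[[[Int.negSucc (nat_lit 264429721143859454183)],[Int.ofNat (nat_lit 18098642748484291152)]]],[[[Int.negSucc (nat_lit 42507183107263690847)]]]]],[[[[[Int.ofNat (nat_lit 204238037365292617416)]]]]]],[[[],[[[[Int.ofNat (nat_lit 14532137883976592040)]]]]]],[[[[[[Int.negSucc (nat_lit 182851445290272382391)]]]]]]],[[[[[[[Int.ofNat (nat_lit 748878366684192541104)]]]]],[[[[[Int.negSucc (nat_lit 61522526976296125475)]]]]]]],[[[[[[[Int.negSucc (nat_lit 877223816435540470427)]]]]]]]],[[[[[[[[Int.ofNat (nat_lit 0),Int.ofNat (nat_lit 18230844980686929096)]],[[Int.negSucc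 (nat_lit 253233749167715795)]]]],[[[[Int.negSucc (nat_lit 293905534960097699471)]]]]]],[[[[[[Int.ofNat (nat_lit 280643936769083094252)]]]]],[[[[[Int.ofNat (nat_lit 38131028894304933960)]]]]]]],[[[[],[[[[Int.ofNat (nat_lit 60203255899761814512)]]]]]],[[[[[[Int.negSucc (nat_lit 465774222979163625491)]]]]]]]],[[[[[[[[Int.ofNat (nat_lit 686301942303759353976)]]],[[[Int.negSucc (nat_lit 3524149076239626119)]]]]],[[[[[Int.ofNat (nat_lit 142113233747652311508)]]]]]]],[[[[[[[Int.ofNat (nat_lit 149548394490870849036)]]]]]]]],[[[],[[[[[[Int.ofNat (nat_lit 14794111338168111240)]]]]]]]],[[[[[[[[Int.negSucc (nat_lit 15608591800459290887)]]]]]]]]],[[[[[[[[[Int.ofNat (nat_lit 602891643222776461032)],[Int.ofNat (nat_lit 18098642748484291152)]]],[[[Int.negSucc (nat_lit 35792408805383292983)]]]]],[[[[[Int.ofNat (nat_lit 136370440015820184756)]]]]]],[[[],[[[[Int.negSucc (nat_lit 14532137883976592039)]]]]]],[[[[[[Int.ofNat (nat_lit 184446751592620885776)]]]]]]],[[[[[[[Int.ofNat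 (nat_lit 1094828379643429258944)]]]]],[[[[[Int.negSucc (nat_lit 61522526976296125475)]]]]]]],[[[[[[[Int.negSucc (nat_lit 877223816435540470427)]]]]]]]],[[[[[[[],[[Int.ofNat (nat_lit 10342362057968621268)]]]],[[[[Int.negSucc (nat_lit 172461897525799502471)]]]]]],[[[[[[Int.ofNat (nat_lit 195990313885122742176)]]]]]]]],[[[[[[[[Int.ofNat (nat_lit 400508427825522900432)]]]]]]],[[[[[[[Int.ofNat (nat_lit 157179864911021176296)]]]]]]]]],[[[[[[[[[Int.ofNat (nat_lit 1770135503883310846824)]]],[[[Int.ofNat (nat_lit 6714774301880397864)]]]]],[[[[[Int.negSucc (nat_lit 67867597349472432659)]]]]]]],[[[[[[[Int.ofNat (nat_lit 224947847379183152532)]]]]]]]],[[[],[[[[[[Int.negSucc (nat_lit 121961269812587044715)]]]]]]]],[[[[[[[[Int.ofNat (nat_lit 281468613152989258104)]]]]]]]]],[[[[[[[[[Int.ofNat (nat_lit 1709580228168715535052)]]]]]]],[[[[[[[Int.negSucc (nat_lit 121002165580053565307)]]]]]]]]],[[[[[[[[[Int.ofNat (nat_lit 806766088652040603444)]]]]]]]]]]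

/-- A coefficient. -/
noncomputable def sr7_m0_5_1 : MP 10 :=
  [[[[[[[[[[Int.ofNat (nat_lit 0),Int.ofNat (nat_lit 1697419114890289248)]],[[Int.negSucc (nat_lit 11787505577886117527)]]]],[[[[Int.ofNat (nat_lit 196678541410160856264)]]]]]],[[[[[[Int.ofNat (nat_lit 307247867726674640772)]]]]]]],[[],[[[[[[Int.negSucc (nat_lit 50329808609373281255)]]]]]]]],[[[[[[[[Int.negSucc (nat_lit 2019687087449291968811)],[Int.ofNat (nat_lit 5550389419537090236)]]],[[[Int.negSucc (nat_lit 7471155691684612319)]]]]],[[[[[Int.ofNat (nat_lit 69722911860887856660)]]]]]],[],[[[[[[Int.negSucc (nat_lit 72975799165828436447)]]]]]]],[[[[[[[Int.negSucc (nat_lit 140759776626295412831)]]]]]]],[[[[[[[Int.ofNat (nat_lit 22606742753112412728)]]]]]]]],[[[[[],[[[[Int.ofNat (nat_lit 47038776591618721608)]]]]]],[[[[[[Int.negSucc (nat_lit 682169862274297564331)]]]]]]]],[[[[[[[[Int.ofNat (nat_lit 1066965227517832776024)]]]]]]]]],[[[[[[[[[Int.ofNat (nat_lit 0),Int.negSucc (nat_lit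 1697419114890289247)]],[[Int.negSucc (nat_lit 7783172068611510767)]]]],[[[[Int.ofNat (nat_lit 176270920973785294320)]]]]]],[[[[[[Int.ofNat (nat_lit 145157665240740080880)]]]]]]],[[],[[[[[[Int.ofNat (nat_lit 108082694318383832784)]]]]]]]],[[[[[[[[Int.negSucc (nat_lit 1932081986008410055835)]]]]],[[[[[Int.ofNat (nat_lit 255588914109518116716)]]]]]]],[[[[[[[Int.negSucc (nat_lit 163636805729458114427)]]]]]]]],[],[[[[[[[[Int.negSucc (nat_lit 312393543799499722247)]]]]]]]]],[[[[[[],[[[[Int.negSucc (nat_lit 34419049298483436407)]]]]]],[[[[[[Int.negSucc (nat_lit 87509303513441972387)]]]]]]]],[[[[[[[[Int.negSucc (nat_lit 268489102734317780231)]]]]]]]]],[[],[[[[[[[[Int.negSucc (nat_lit 425761767574555142111)]]]]]]]]]]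

/-- A coefficient. -/
noncomputable def sr7_m0_5_2 : MP 10 :=
  [[[[[[[[[[Int.negSucc (nat_lit 1118374931139294385127)]]],[[[Int.negSucc (nat_lit 87791926763367956507)]]]]],[[[[[Int.negSucc (nat_lit 537743354677574947847)]]]]]]],[[[[[[[Int.negSucc (nat_lit 39251791491842647127)]]]]]]]],[[[[[[[],[[Int.negSucc (nat_lit 21944539342966159727)]]]],[[[[Int.ofNat (nat_lit 263624771201328420348)]]]]]],[[[[[[Int.ofNat (nat_lit 678237827758147838928)]]]]]]]],[[[[[[[[Int.negSucc (nat_lit 1717880776517843294375)]]]]]]],[[[[[[[Int.negSucc (nat_lit 392890968120480764063)]]]]]]]]],[[[[[[[[[Int.negSucc (nat_lit 3943487163736700669855)]]],[[[Int.negSucc (nat_lit 89552658135140808947)]]]]],[[[[[Int.negSucc (nat_lit 461849997920314716359)]]]]]]],[[[[[[[Int.ofNat (nat_lit 1130097645235604281752)]]]]]]]],[[[],[[[[[[Int.ofNat (nat_lit 460569970681925164248)]]]]]]]],[[[[[[[[Int.negSucc (nat_lit 871469327823923091407)]]]]]]]]],[[[[[[[[[Int.negSucc (nat_lit 4008012861652554474359)]]]]]]],[[[[[[[Int.ofNat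 (nat_lit 990280648335582121344)]]]]]]]]],[[[[[[[[[Int.negSucc (nat_lit 296549887369083599519)]]]]]]]]]]

/-- A coefficient. -/
noncomputable def sr7_m0_5_3 : MP 10 :=
  [[[[[[[],[[[[Int.ofNat (nat_lit 340628593635386768148)]]]]]],[[[[[[Int.negSucc (nat_lit 424711766155437559655)]]]]]]]],[[[[[[[[Int.ofNat (nat_lit 1866357440335883625612)]]]]],[[[[[Int.negSucc (nat_lit 262945203437955118439)]]]]]]],[[[[[[[Int.ofNat (nat_lit 307711255452226074024)]]]]]]]],[],[[[[[[[[Int.ofNat (nat_lit 1123482481100753005656)]]]]]]]]],[[[[[[],[[[[Int.ofNat (nat_lit 335204185275209292)]]]]]],[[[[[[Int.negSucc (nat_lit 686127233159845390919)]]]]]]]],[[[[[[[[Int.ofNat (nat_lit 5481602748685371163584)]]]]]]]]],[[],[[[[[[[[Int.ofNat (nat_lit 3041333849661113080596)]]]]]]]]]]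

/-- A coefficient. -/
noncomputable def sr7_m0_5_4 : MP 10 :=
  [[[[[[[[[[Int.ofNat (nat_lit 5116057405710251054796)]]]]]]],[[[[[[[Int.negSucc (nat_lit 655375184884784048999)]]]]]]]],[[[],[[[[[[Int.ofNat (nat_lit 109869843742371557892)]]]]]]]],[[[[[[[[Int.negSucc (nat_lit 364191432519306621851)]]]]]]]]],[[[[[[[[[Int.ofNat (nat_lit 3839601656016022001796)]]]]]]],[[[[[[[Int.negSucc (nat_lit 656710479667792205591)]]]]]]]]],[[[[[[[[[Int.ofNat (nat_lit 1450278886875030773208)]]]]]]]]]]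

/-- A coefficient. -/
noncomputable def sr7_m0_5_5 : MP 10 :=
  [[[],[[[[[[[[Int.negSucc (nat_lit 878544393205195604387)]]]]]]]]],[[],[[[[[[[[Int.negSucc (nat_lit 589212518172530685503)]]]]]]]]]]

/-- A coefficient. -/
noncomputable def sr7_m0_5_6 : MP 10 :=
  [[[[[[[[[[Int.negSucc (nat_lit 4524777735771967768367)]]]]]]]]],[[[[[[[[[Int.negSucc (nat_lit 1962754627724633812127)]]]]]]]]]]

/-- A coefficient. -/
noncomputable def sr7_m0_5_7 : MP 10 :=
  [[[],[[[[[[[[Int.negSucc (nat_lit 102864530332964659403)]]]]]]]]]]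

/-- A coefficient. -/
noncomputable def sr7_m0_6_0 : MP 10 :=
  [[[[[[[[[[Int.ofNat (nat_lit 560469518695484102232)],[Int.negSucc (nat_lit 6044514810175499903)]]],[[[Int.ofNat (nat_lit 71746200221187669984)]]]]],[[[[[Int.ofNat (nat_lit 127894305423136184616)]]]]]],[],[[[[[[Int.ofNat (nat_lit 81809636901355827222)]]]]]]],[[[[[[[Int.negSucc (nat_lit 14120901886383109019)]]]]]]],[[[[[[[Int.ofNat (nat_lit 323415612858866142534)]]]]]]]],[[[[[[[[Int.ofNat (nat_lit 0),Int.negSucc (nat_lit 8654069711754485183)]],[[Int.ofNat (nat_lit 32296994233647020196)]]]],[[[[Int.ofNat (nat_lit 20486909607712202496)]]]]]],[[[[[[Int.negSucc (nat_lit 19450766691001482899)]]]]]]],[[],[[[[[[Int.ofNat (nat_lit 193240465104296126616)]]]]]]]],[[[[[[[[Int.ofNat (nat_lit 31172070173135216508)]]]]],[[[[[Int.negSucc (nat_lit 85761618078379253555)]]]]]]],[[[[[[[Int.ofNat (nat_lit 157070380386479797860)]]]]]]]],[],[[[[[[[[Int.ofNat (nat_lit 29831407912480501740)]]]]]]]]],[[[[[[[[[Int.ofNat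 (nat_lit 1338963569236752707004)],[Int.negSucc (nat_lit 6044514810175499903)]]],[[[Int.ofNat (nat_lit 71746200221187669984)]]]]],[[[[[Int.ofNat (nat_lit 214819753063056793272)]]]]]],[],[[[[[[Int.negSucc (nat_lit 94763267273363190989)]]]]]]],[[[[[[[Int.negSucc (nat_lit 269061710877943261115)]]]]]]],[[[[[[[Int.ofNat (nat_lit 323415612858866142534)]]]]]]]],[[[[[],[[[[Int.ofNat (nat_lit 76231713969675032820)]]]]]],[[[[[[Int.negSucc (nat_lit 477587643596375321687)]]]]]]]],[[[[[[[[Int.ofNat (nat_lit 224855056179263193984)]]]]]]]]],[[[[[[[[[Int.ofNat (nat_lit 1064508763044693455808)]]]]],[[[[[Int.ofNat (nat_lit 86925447639920608656)]]]]]]],[[[[[[[Int.negSucc (nat_lit 254940808991560152095)]]]]]]]],[],[[[[[[[[Int.negSucc (nat_lit 184928430423669782315)]]]]]]]]],[[[[[[[[[Int.negSucc (nat_lit 237275099671447861175)]]]]]]]]],[[[[[[[[[Int.negSucc (nat_lit 523289812174872712211)]]]]]]]]]]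

/-- A coefficient. -/
noncomputable def sr7_m0_6_1 : MP 10 :=
  [[[[[[[[[],[[Int.ofNat (nat_lit 7672279508264001504)]]]],[[[[Int.negSucc (nat_lit 195599131078808680607)]]]]]],[[[[[[Int.ofNat (nat_lit 26448852865621055556)]]]]]]]],[[[[[[[[Int.ofNat (nat_lit 562329024112457428164)]]],[[[Int.ofNat (nat_lit 33120780179799448824)]]]]],[[[[[Int.ofNat (nat_lit 309629845021034644656)]]]]]]],[[[[[[[Int.negSucc (nat_lit 147894455602900970927)]]]]]]]],[[[],[[[[[[Int.ofNat (nat_lit 253727261296649764368)]]]]]]]],[[[[[[[[Int.ofNat (nat_lit 404338141836988041000)]]]]]]]]],[[[[[[[[],[[Int.negSucc (nat_lit 9909781713581507783)]]]],[[[[Int.ofNat (nat_lit 26680264611945952032)]]]]]],[[[[[[Int.ofNat (nat_lit 114910247416258470564)]]]]]]]],[[[[[[[[Int.negSucc (nat_lit 1446690183685164311123)]]]]]]],[[[[[[[Int.ofNat (nat_lit 146298990839419915092)]]]]]]]]],[[[[],[[[[[[Int.negSucc (nat_lit 58981626808042703111)]]]]]]]],[[[[[[[[Int.negSucc (nat_lit 1208930244963351946295)]]]]]]]]]]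

/-- A coefficient. -/
noncomputable def sr7_m0_6_2 : MP 10 :=
  [[[[[[[[[[Int.negSucc (nat_lit 2701188506215380825071)]]]]],[[[[[Int.ofNat (nat_lit 72020303692601306256)]]]]]]],[[[[[[[Int.ofNat (nat_lit 1162970269639114422300)]]]]]]]],[[[[[],[[[[Int.negSucc (nat_lit 221473048910927918219)]]]]]],[[[[[[Int.ofNat (nat_lit 1593555251020320060)]]]]]]]],[[[[[[[[Int.negSucc (nat_lit 149224443464780902235)]]]]]]]]],[[[[[[[[[Int.negSucc (nat_lit 1285733480293815112019)]]]]],[[[[[Int.negSucc (nat_lit 25054186576774227383)]]]]]]],[[[[[[[Int.ofNat (nat_lit 909538387461221250588)]]]]]]]],[],[[[[[[[[Int.ofNat (nat_lit 1251603216960701807628)]]]]]]]]],[[[[[[[[[Int.ofNat (nat_lit 912629404259706513918)]]]]]]]]],[[[[[[[[[Int.ofNat (nat_lit 44995659354113032182)]]]]]]]]]]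

/-- A coefficient. -/
noncomputable def sr7_m0_6_3 : MP 10 :=
  [[[[[],[[[[[[Int.negSucc (nat_lit 92946084519101925959)]]]]]]]],[[[[[[[[Int.negSucc (nat_lit 400930808542801088447)]]]]]]],[[[[[[[Int.ofNat (nat_lit 420313943853773941704)]]]]]]]]],[[[[],[[[[[[Int.ofNat (nat_lit 549876486136526249568)]]]]]]]],[[[[[[[[Int.negSucc (nat_lit 182481287863956596639)]]]]]]]]]]

/-- A coefficient. -/
noncomputable def sr7_m0_6_4 : MP 10 :=
  [[[[[[[[[[Int.ofNat (nat_lit 208054050533941759218)]]]]]]]],[],[[[[[[[[Int.negSucc (nat_lit 707487231895112797583)]]]]]]]]],[[[[[[[[[Int.negSucc (nat_lit 597726729414013663097)]]]]]]]]],[[[[[[[[[Int.negSucc (nat_lit 2714294473968877708571)]]]]]]]]]]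

/-- A coefficient. -/
noncomputable def sr7_m0_6_5 : MP 10 :=
  [[[],[[[[[[[[Int.negSucc (nat_lit 1057477537704933129647)]]]]]]]]]]

/-- A coefficient. -/
noncomputable def sr7_m0_6_6 : MP 10 :=
  [[[[[[[[[[Int.ofNat (nat_lit 5559989059387924743780)]]]]]]]]],[[[[[[[[[Int.ofNat (nat_lit 1057601435076817521756)]]]]]]]]]]

/-- A coefficient. -/
noncomputable def sr7_m0_7_0 : MP 10 :=
  [[[[[[[[[[Int.ofNat (nat_lit 32897785632596891556)]]],[[[Int.negSucc (nat_lit 24929051779299558599)]]]]],[[[[[Int.negSucc (nat_lit 153569979119223869447)]]]]]]],[[[[[[[Int.negSucc (nat_lit 732241567234414466915)]]]]]]]],[[[[[[[],[[Int.negSucc (nat_lit 16212611268354933947)]]]],[[[[Int.ofNat (nat_lit 84565887316774538160)]]]]]],[[[[[[Int.negSucc (nat_lit 174176797526314666691)]]]]]]]],[[[[[[[[Int.negSucc (nat_lit 691608469447514926607)]]]]]]],[[[[[[[Int.negSucc (nat_lit 163296817019824405535)]]]]]]]]],[[[[[[[[[Int.negSucc (nat_lit 1675900507325779298951)]]],[[[Int.negSucc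 (nat_lit 24929051779299558599)]]]]],[[[[[Int.negSucc (nat_lit 153569979119223869447)]]]]]]],[[[[[[[Int.negSucc (nat_lit 738093118882703016263)]]]]]]]],[[[],[[[[[[Int.ofNat (nat_lit 179688331125009777276)]]]]]]]],[[[[[[[[Int.negSucc (nat_lit 393045867061727922947)]]]]]]]]],[[[[[[[[[Int.negSucc (nat_lit 3027212017642514060927)]]]]]]],[[[[[[[Int.negSucc (nat_lit 5851551648288549347)]]]]]]]]],[[[[[[[[[Int.negSucc (nat_lit 1318413724684137870419)]]]]]]]]]]

/-- A coefficient. -/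
noncomputable def sr7_m0_7_1 : MP 10 :=
  [[[[[[[],[[[[Int.ofNat (nat_lit 38915967156966809424)]]]]]],[[[[[[Int.negSucc (nat_lit 151104214896493235291)]]]]]]]],[[[[[[[[Int.ofNat (nat_lit 1747548697692686938632)]]]]],[[[[[Int.negSucc (nat_lit 97559175853682269379)]]]]]]],[[[[[[[Int.negSucc (nat_lit 271237267582293452915)]]]]]]]],[],[[[[[[[[Int.negSucc (nat_lit 482249364900696897995)]]]]]]]]],[[[[[[],[[[[Int.negSucc (nat_lit 16185874137570936839)]]]]]],[[[[[[Int.negSucc (nat_lit 148668043320644898515)]]]]]]]],[[[[[[[[Int.ofNat (nat_lit 1919900311248425413308)]]]]]]]]],[[],[[[[[[[[Int.ofNat (nat_lit 590768291349815945196)]]]]]]]]]]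

/-- A coefficient. -/
noncomputable def sr7_m0_7_2 : MP 10 :=
  [[[[[[[[[[Int.ofNat (nat_lit 3988457414404105492860)]]]]]]],[[[[[[[Int.negSucc (nat_lit 663098459613719281739)]]]]]]]],[[[],[[[[[[Int.negSucc (nat_lit 295289205532678302731)]]]]]]]],[[[[[[[[Int.ofNat (nat_lit 49765561685032370220)]]]]]]]]],[[[[[[[[[Int.ofNat (nat_lit 3759494642141694177612)]]]]]]],[[[[[[[Int.negSucc (nat_lit 821546860687034147315)]]]]]]]]],[[[[[[[[[Int.ofNat (nat_lit 1110707346534987800904)]]]]]]]]]]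

/-- A coefficient. -/
noncomputable def sr7_m0_7_3 : MP 10 :=
  [[[],[[[[[[[[Int.negSucc (nat_lit 930640342207336820603)]]]]]]]]],[[],[[[[[[[[Int.negSucc (nat_lit 2084519887641942241127)]]]]]]]]]]

/-- A coefficient. -/
noncomputable def sr7_m0_7_4 : MP 10 :=
  [[[[[[[[[[Int.negSucc (nat_lit 7391522931237882386339)]]]]]]]]],[[[[[[[[[Int.negSucc (nat_lit 5212236100445352545483)]]]]]]]]]]

/-- A coefficient. -/
noncomputable def sr7_m0_7_5 : MP 10 :=
  [[[],[[[[[[[[Int.ofNat (nat_lit 454224887348758404732)]]]]]]]]]]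

/-- A coefficient. -/
noncomputable def sr7_m0_8_0 : MP 10 :=
  [[[[[[[[[[Int.negSucc (nat_lit 1053390555230830026083)]]]]],[[[[[Int.ofNat (nat_lit 22417352415474721296)]]]]]]],[[[[[[[Int.ofNat (nat_lit 474543613073408140344)]]]]]]]],[[[[[],[[[[Int.negSucc (nat_lit 35606898148117504343)]]]]]],[[[[[[Int.ofNat (nat_lit 110197660448230463976)]]]]]]]],[[[[[[[[Int.ofNat (nat_lit 286627174927597118208)]]]]]]]]],[[[[[[[[[Int.negSucc (nat_lit 501105333133344738083)]]]]],[[[[[Int.ofNat (nat_lit 22417352415474721296)]]]]]]],[[[[[[[Int.ofNat (nat_lit 474543613073408140344)]]]]]]]],[],[[[[[[[[Int.ofNat (nat_lit 159144583527041371476)]]]]]]]]],[[[[[[[[[Int.ofNat (nat_lit 1323320497003280203998)]]]]]]]]],[[[[[[[[[Int.ofNat (nat_lit 771035274905794915998)]]]]]]]]]]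

/-- A coefficient. -/
noncomputable def sr7_m0_8_1 : MP 10 :=
  [[[[[],[[[[[[Int.ofNat (nat_lit 49441374146506132584)]]]]]]]],[[[[[[[[Int.negSucc (nat_lit 840389833625625113927)]]]]]]],[[[[[[[Int.ofNat (nat_lit 298276334936641149240)]]]]]]]]],[[[[],[[[[[[Int.ofNat (nat_lit 59047729084866925392)]]]]]]]],[[[[[[[[Int.ofNat (nat_lit 5862783718241391036)]]]]]]]]]]

/-- A coefficient. -/
noncomputable def sr7_m0_8_2 : MP 10 :=
  [[[[[[[[[[Int.negSucc (nat_lit 301048411930551875657)]]]]]]]],[],[[[[[[[[Int.ofNat (nat_lit 538873115203813785288)]]]]]]]]],[[[[[[[[[Int.ofNat (nat_lit 18951979545053573946)]]]]]]]]],[[[[[[[[[Int.ofNat (nat_lit 2086340675045598912)]]]]]]]]]]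

/-- A coefficient. -/
noncomputable def sr7_m0_8_3 : MP 10 :=
  [[[],[[[[[[[[Int.ofNat (nat_lit 495408378853761618672)]]]]]]]]]]

/-- A coefficient. -/
noncomputable def sr7_m0_8_4 : MP 10 :=
  [[[[[[[[[[Int.ofNat (nat_lit 4775466301973739432762)]]]]]]]]],[[[[[[[[[Int.ofNat (nat_lit 3220590334095565671810)]]]]]]]]]]

/-- A coefficient. -/
noncomputable def sr7_m0_9_0 : MP 10 :=
  [[[[[[[[[[Int.ofNat (nat_lit 898098796272949130952)]]]]]]],[[[[[[[Int.negSucc (nat_lit 54797383818138278555)]]]]]]]],[[[],[[[[[[Int.negSucc (nat_lit 21536829412089924983)]]]]]]]],[[[[[[[[Int.ofNat (nat_lit 152702212058825700504)]]]]]]]]],[[[[[[[[[Int.ofNat (nat_lit 1724031838349135789556)]]]]]]],[[[[[[[Int.negSucc (nat_lit 54797383818138278555)]]]]]]]]],[[[[[[[[[Int.ofNat (nat_lit 825933042076186658604)]]]]]]]]]]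

/-- A coefficient. -/
noncomputable def sr7_m0_9_1 : MP 10 :=
  [[[],[[[[[[[[Int.negSucc (nat_lit 492838127050798260971)]]]]]]]]],[[],[[[[[[[[Int.negSucc (nat_lit 245708479226406184739)]]]]]]]]]]

/-- A coefficient. -/
noncomputable def sr7_m0_9_2 : MP 10 :=
  [[[[[[[[[[Int.negSucc (nat_lit 2759641260499483607219)]]]]]]]]],[[[[[[[[[Int.negSucc (nat_lit 1842959970699536264987)]]]]]]]]]]

/-- A coefficient. -/
noncomputable def sr7_m0_9_3 : MP 10 :=
  [[[],[[[[[[[[Int.negSucc (nat_lit 585523149596626595135)]]]]]]]]]]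

/-- A coefficient. -/
noncomputable def sr7_m0_10_0 : MP 10 :=
  [[[[[[[[[[Int.ofNat (nat_lit 257401636621445508114)]]]]]]]],[],[[[[[[[[Int.negSucc (nat_lit 86396321867571911435)]]]]]]]]],[[[[[[[[[Int.negSucc (nat_lit 314040099740695685741)]]]]]]]]],[[[[[[[[[Int.negSucc (nat_lit 571441736362141193855)]]]]]]]]]]

/-- A coefficient. -/
noncomputable def sr7_m0_10_1 : MP 10 :=
  [[[],[[[[[[[[Int.ofNat (nat_lit 214751065375176607860)]]]]]]]]]]

/-- A coefficient. -/
noncomputable def sr7_m0_10_2 : MP 10 :=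
  [[[[[[[[[[Int.ofNat (nat_lit 1559194349830209154860)]]]]]]]]],[[[[[[[[[Int.ofNat (nat_lit 234409921456897280892)]]]]]]]]]]

/-- A coefficient. -/
noncomputable def sr7_m0_11_0 : MP 10 :=
  [[[[[[[[[[Int.negSucc (nat_lit 748588348263015943667)]]]]]]]]],[[[[[[[[[Int.negSucc (nat_lit 748588348263015943667)]]]]]]]]]]

/-- A coefficient. -/
noncomputable def sr7_m0_11_1 : MP 10 :=
  [[[],[[[[[[[[Int.ofNat (nat_lit 19175347610673433104)]]]]]]]]]]

/-- A coefficient. -/
noncomputable def sr7_m0_12_0 : MP 10 :=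
  [[[[[[[[[[Int.ofNat (nat_lit 315369051062086796430)]]]]]]]]],[[[[[[[[[Int.ofNat (nat_lit 315369051062086796430)]]]]]]]]]]

/-- An expanded part. -/
noncomputable def sr7_m0 : R12 :=
  [[sr7_m0_0_0, sr7_m0_0_1, sr7_m0_0_2, sr7_m0_0_3, sr7_m0_0_4, sr7_m0_0_5, sr7_m0_0_6, sr7_m0_0_7, sr7_m0_0_8, sr7_m0_0_9, sr7_m0_0_10, sr7_m0_0_11, sr7_m0_0_12],
   [sr7_m0_1_0, sr7_m0_1_1, sr7_m0_1_2, sr7_m0_1_3, sr7_m0_1_4, sr7_m0_1_5, sr7_m0_1_6, sr7_m0_1_7, sr7_m0_1_8, sr7_m0_1_9, sr7_m0_1_10, sr7_m0_1_11],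
   [sr7_m0_2_0, sr7_m0_2_1, sr7_m0_2_2, sr7_m0_2_3, sr7_m0_2_4, sr7_m0_2_5, sr7_m0_2_6, sr7_m0_2_7, sr7_m0_2_8, sr7_m0_2_9, sr7_m0_2_10],
   [sr7_m0_3_0, sr7_m0_3_1, sr7_m0_3_2, sr7_m0_3_3, sr7_m0_3_4, sr7_m0_3_5, sr7_m0_3_6, sr7_m0_3_7, sr7_m0_3_8, sr7_m0_3_9],
   [sr7_m0_4_0, sr7_m0_4_1, sr7_m0_4_2, sr7_m0_4_3, sr7_m0_4_4, sr7_m0_4_5, sr7_m0_4_6, sr7_m0_4_7, sr7_m0_4_8],
   [sr7_m0_5_0, sr7_m0_5_1, sr7_m0_5_2, sr7_m0_5_3, sr7_m0_5_4, sr7_m0_5_5, sr7_m0_5_6, sr7_m0_5_7],
   [sr7_m0_6_0, sr7_m0_6_1, sr7_m0_6_2, sr7_m0_6_3, sr7_m0_6_4, sr7_m0_6_5, sr7_m0_6_6],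
   [sr7_m0_7_0, sr7_m0_7_1, sr7_m0_7_2, sr7_m0_7_3, sr7_m0_7_4, sr7_m0_7_5],
   [sr7_m0_8_0, sr7_m0_8_1, sr7_m0_8_2, sr7_m0_8_3, sr7_m0_8_4],
   [sr7_m0_9_0, sr7_m0_9_1, sr7_m0_9_2, sr7_m0_9_3],
   [sr7_m0_10_0, sr7_m0_10_1, sr7_m0_10_2],
   [sr7_m0_11_0, sr7_m0_11_1],
   [sr7_m0_12_0]]

set_option maxRecDepth 100000 in
theorem sr7_check0 : partOk 4 sr7_rows 0 sr7_m0 = true :=
  Fast.partOk_of_fast (by decide +kernel)

end Vale.Agent.P142K.CertB
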