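import Vale.Agent.P142K.Checker

/-!
# A factor of the certificate

Generated from a semidefinite program; only the checker is trusted.
-/

namespace Vale.Agent.P142K.CertB

open Vale.Agent.P142J (MP)

/-- A row. -/
noncomputable def sr7_c0_0 : List ℕ × List ℤ :=
  ([(nat_lit 0),(nat_lit 0),(nat_lit 0),(nat_lit 0),(nat_lit 0),(nat_lit 0),(nat_lit 0),(nat_lit 0),(nat_lit 0),(nat_lit 0),(nat_lit 0),(nat_lit 1)], [Int.ofNat (nat_lit 346041466)])

/-- A row. -/
noncomputable def sr7_c0_1 : List ℕ × List ℤ :=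
  ([(nat_lit 0),(nat_lit 0),(nat_lit 0),(nat_lit 0),(nat_lit 0),(nat_lit 0),(nat_lit 0),(nat_lit 0),(nat_lit 0),(nat_lit 1),(nat_lit 0),(nat_lit 0)], [Int.negSucc (nat_lit 52495690),Int.ofNat (nat_lit 579193927)])

/-- A row. -/
noncomputable def sr7_c0_2 : List ℕ × List ℤ :=
  ([(nat_lit 0),(nat_lit 0),(nat_lit 0),(nat_lit 0),(nat_lit 0),(nat_lit 0),(nat_lit 0),(nat_lit 1),(nat_lit 0),(nat_lit 0),(nat_lit 0),(nat_lit 0)], [Int.ofNat (nat_lit 724365437),Int.negSucc (nat_lit 139256083),Int.ofNat (nat_lit 838073064)])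

/-- A row. -/
noncomputable def sr7_c0_3 : List ℕ × List ℤ :=
  ([(nat_lit 0),(nat_lit 0),(nat_lit 0),(nat_lit 0),(nat_lit 0),(nat_lit 1),(nat_lit 0),(nat_lit 0),(nat_lit 0),(nat_lit 0),(nat_lit 0),(nat_lit 0)], [Int.ofNat (nat_lit 347841002),Int.ofNat (nat_lit 409246549),Int.negSucc (nat_lit 1012104932),Int.ofNat (nat_lit 1299052943)])

/-- A row. -/
noncomputable def sr7_c0_4 : List ℕ × List ℤ :=
  ([(nat_lit 0),(nat_lit 0),(nat_lit 0),(nat_lit 0),(nat_lit 1),(nat_lit 1),(nat_lit 0),(nat_lit 0),(nat_lit 0),(nat_lit 0),(nat_lit 0),(nat_lit 0)], [Int.negSucc (nat_lit 97089198),Int.ofNat (nat_lit 2634176),Int.ofNat (nat_lit 212530920),Int.negSucc (nat_lit 254415740),Int.ofNat (nat_lit 435075079)])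

/-- A row. -/
noncomputable def sr7_c0_5 : List ℕ × List ℤ :=
  ([(nat_lit 0),(nat_lit 0),(nat_lit 0),(nat_lit 1),(nat_lit 0),(nat_lit 0),(nat_lit 0),(nat_lit 0),(nat_lit 0),(nat_lit 0),(nat_lit 0),(nat_lit 0)], [Int.negSucc (nat_lit 662934756),Int.negSucc (nat_lit 339316368),Int.ofNat (nat_lit 375748040),Int.negSucc (nat_lit 1287256821),Int.negSucc (nat_lit 85298979),Int.ofNat (nat_lit 1664098314)])

/-- A row. -/
noncomputable def sr7_c0_6 : List ℕ × List ℤ :=
  ([(nat_lit 0),(nat_lit 0),(nat_lit 0),(nat_lit 1),(nat_lit 0),(nat_lit 0),(nat_lit 1),(nat_lit 0),(nat_lit 0),(nat_lit 0),(nat_lit 0),(nat_lit 0)], [Int.ofNat (nat_lit 483236886),Int.negSucc (nat_lit 44556703),Int.negSucc (nat_lit 459958417),Int.ofNat (nat_lit 27384313),Int.negSucc (nat_lit 178713812),Int.ofNat (nat_lit 195305358),Int.ofNat (nat_lit 415726332)])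

/-- A row. -/
noncomputable def sr7_c0_7 : List ℕ × List ℤ :=
  ([(nat_lit 0),(nat_lit 0),(nat_lit 0),(nat_lit 1),(nat_lit 1),(nat_lit 0),(nat_lit 0),(nat_lit 0),(nat_lit 0),(nat_lit 0),(nat_lit 0),(nat_lit 0)], [Int.negSucc (nat_lit 325363224),Int.ofNat (nat_lit 410491517),Int.ofNat (nat_lit 556329925),Int.negSucc (nat_lit 225465599),Int.negSucc (nat_lit 118675113),Int.negSucc (nat_lit 1196312929),Int.negSucc (nat_lit 359659425),Int.ofNat (nat_lit 1347431418)])

/-- A row. -/
noncomputable def sr7_c0_8 : List ℕ × List ℤ :=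
  ([(nat_lit 0),(nat_lit 0),(nat_lit 0),(nat_lit 3),(nat_lit 0),(nat_lit 0),(nat_lit 0),(nat_lit 0),(nat_lit 0),(nat_lit 0),(nat_lit 0),(nat_lit 0)], [Int.negSucc (nat_lit 324651018),Int.ofNat (nat_lit 8700719),Int.ofNat (nat_lit 549839825),Int.negSucc (nat_lit 158918697),Int.ofNat (nat_lit 163433925),Int.negSucc (nat_lit 113245729),Int.negSucc (nat_lit 330230504),Int.ofNat (nat_lit 275822606),Int.ofNat (nat_lit 633071370)])

/-- A row. -/
noncomputable def sr7_c0_9 : List ℕ × List ℤ :=
  ([(nat_lit 0),(nat_lit 0),(nat_lit 1),(nat_lit 0),(nat_lit 0),(nat_lit 0),(nat_lit 0),(nat_lit 1),(nat_lit 0),(nat_lit 0),(nat_lit 0),(nat_lit 0)], [Int.ofNat (nat_lit 372583495),Int.ofNat (nat_lit 142017431),Int.ofNat (nat_lit 403776921),Int.ofNat (nat_lit 8512008),Int.negSucc (nat_lit 129414893),Int.negSucc (nat_lit 30371154),Int.negSucc (nat_lit 125160202),Int.negSucc (nat_lit 66425308),Int.ofNat (nat_lit 4336248),Int.ofNat (nat_lit 257369975)])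

/-- A row. -/
noncomputable def sr7_c0_10 : List ℕ × List ℤ :=
  ([(nat_lit 0),(nat_lit 0),(nat_lit 1),(nat_lit 0),(nat_lit 0),(nat_lit 1),(nat_lit 0),(nat_lit 0),(nat_lit 0),(nat_lit 0),(nat_lit 0),(nat_lit 0)], [Int.ofNat (nat_lit 985599904),Int.negSucc (nat_lit 189602521),Int.negSucc (nat_lit 819171633),Int.ofNat (nat_lit 1227747850),Int.negSucc (nat_lit 30821315),Int.ofNat (nat_lit 283941732),Int.negSucc (nat_lit 115087812),Int.negSucc (nat_lit 112973335),Int.ofNat (nat_lit 80672479),Int.negSucc (nat_lit 79866444),Int.ofNat (nat_lit 479956113)])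

/-- A row. -/
noncomputable def sr7_c0_11 : List ℕ × List ℤ :=
  ([(nat_lit 0),(nat_lit 0),(nat_lit 1),(nat_lit 1),(nat_lit 0),(nat_lit 0),(nat_lit 0),(nat_lit 0),(nat_lit 0),(nat_lit 0),(nat_lit 0),(nat_lit 0)], [Int.negSucc (nat_lit 2116907619),Int.negSucc (nat_lit 486479532),Int.ofNat (nat_lit 900090132),Int.negSucc (nat_lit 1162475762),Int.negSucc (nat_lit 37377867),Int.ofNat (nat_lit 1437602688),Int.negSucc (nat_lit 257415207),Int.ofNat (nat_lit 495600860),Int.ofNat (nat_lit 482811252),Int.ofNat (nat_lit 54724062),Int.negSucc (nat_lit 104961418),Int.ofNat (nat_lit 726176536)])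

/-- A row. -/
noncomputable def sr7_c0_12 : List ℕ × List ℤ :=
  ([(nat_lit 0),(nat_lit 0),(nat_lit 2),(nat_lit 1),(nat_lit 0),(nat_lit 0),(nat_lit 0),(nat_lit 0),(nat_lit 0),(nat_lit 0),(nat_lit 0),(nat_lit 0)], [Int.negSucc (nat_lit 783532944),Int.negSucc (nat_lit 143955950),Int.ofNat (nat_lit 534977530),Int.negSucc (nat_lit 93639102),Int.negSucc (nat_lit 64803279),Int.negSucc (nat_lit 28106382),Int.negSucc (nat_lit 134813359),Int.ofNat (nat_lit 506559550),Int.ofNat (nat_lit 642866902),Int.ofNat (nat_lit 85071795),Int.ofNat (nat_lit 39363545),Int.ofNat (nat_lit 510532469),Int.ofNat (nat_lit 356126193)])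

/-- A row. -/
noncomputable def sr7_c0_13 : List ℕ × List ℤ :=
  ([(nat_lit 0),(nat_lit 1),(nat_lit 0),(nat_lit 0),(nat_lit 0),(nat_lit 0),(nat_lit 0),(nat_lit 0),(nat_lit 0),(nat_lit 0),(nat_lit 0),(nat_lit 0)], [Int.ofNat (nat_lit 1562361116),Int.ofNat (nat_lit 902644850),Int.negSucc (nat_lit 768370598),Int.ofNat (nat_lit 1238407486),Int.negSucc (nat_lit 12635764),Int.negSucc (nat_lit 685363302),Int.negSucc (nat_lit 320598142),Int.negSucc (nat_lit 209148914),Int.negSucc (nat_lit 140765235),Int.ofNat (nat_lit 303302921),Int.ofNat (nat_lit 233240844),Int.ofNat (nat_lit 117791069),Int.negSucc (nat_lit 75377468),Int.ofNat (nat_lit 2165528590)])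

/-- A row. -/
noncomputable def sr7_c0_14 : List ℕ × List ℤ :=
  ([(nat_lit 0),(nat_lit 1),(nat_lit 0),(nat_lit 0),(nat_lit 0),(nat_lit 0),(nat_lit 0),(nat_lit 0),(nat_lit 1),(nat_lit 0),(nat_lit 0),(nat_lit 0)], [Int.negSucc (nat_lit 47785726),Int.ofNat (nat_lit 302908810),Int.ofNat (nat_lit 18223618),Int.negSucc (nat_lit 195801175),Int.ofNat (nat_lit 38046812),Int.negSucc (nat_lit 9271108),Int.ofNat (nat_lit 27310839),Int.ofNat (nat_lit 204888374),Int.ofNat (nat_lit 114907873),Int.ofNat (nat_lit 95773943),Int.negSucc (nat_lit 58871879),Int.negSucc (nat_lit 63644332),Int.ofNat (nat_lit 2242484),Int.negSucc (nat_lit 146030916),Int.ofNat (nat_lit 381201098)])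

/-- A row. -/
noncomputable def sr7_c0_15 : List ℕ × List ℤ :=
  ([(nat_lit 0),(nat_lit 1),(nat_lit 0),(nat_lit 0),(nat_lit 0),(nat_lit 0),(nat_lit 1),(nat_lit 0),(nat_lit 0),(nat_lit 0),(nat_lit 0),(nat_lit 0)], [Int.negSucc (nat_lit 928967586),Int.ofNat (nat_lit 309825498),Int.ofNat (nat_lit 559063635),Int.ofNat (nat_lit 484039592),Int.negSucc (nat_lit 77138214),Int.negSucc (nat_lit 366364055),Int.negSucc (nat_lit 528274182),Int.negSucc (nat_lit 134037324),Int.negSucc (nat_lit 307071353),Int.negSucc (nat_lit 185500202),Int.ofNat (nat_lit 171863207),Int.ofNat (nat_lit 301921764),Int.negSucc (nat_lit 60119857),Int.ofNat (nat_lit 391755204),Int.negSucc (nat_lit 579976049),Int.ofNat (nat_lit 889428622)])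

/-- A row. -/
noncomputable def sr7_c0_16 : List ℕ × List ℤ :=
  ([(nat_lit 0),(nat_lit 1),(nat_lit 0),(nat_lit 0),(nat_lit 1),(nat_lit 0),(nat_lit 0),(nat_lit 0),(nat_lit 0),(nat_lit 0),(nat_lit 0),(nat_lit 0)], [Int.negSucc (nat_lit 91332045),Int.negSucc (nat_lit 581937670),Int.ofNat (nat_lit 127941776),Int.negSucc (nat_lit 76198579),Int.ofNat (nat_lit 1033701598),Int.ofNat (nat_lit 547758388),Int.ofNat (nat_lit 186472419),Int.negSucc (nat_lit 855919130),Int.ofNat (nat_lit 85033876),Int.negSucc (nat_lit 99019545),Int.negSucc (nat_lit 238280490),Int.negSucc (nat_lit 48833933),Int.ofNat (nat_lit 143636168),Int.negSucc (nat_lit 1219999005),Int.ofNat (nat_lit 39659748),Int.negSucc (nat_lit 111474932),Int.ofNat (nat_lit 1402015121)])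

/-- A row. -/
noncomputable def sr7_c0_17 : List ℕ × List ℤ :=
  ([(nat_lit 0),(nat_lit 1),(nat_lit 0),(nat_lit 1),(nat_lit 0),(nat_lit 1),(nat_lit 0),(nat_lit 0),(nat_lit 0),(nat_lit 0),(nat_lit 0),(nat_lit 0)], [Int.ofNat (nat_lit 1165257289),Int.negSucc (nat_lit 1111528633),Int.ofNat (nat_lit 458661558),Int.ofNat (nat_lit 121487641),Int.ofNat (nat_lit 348202738),Int.ofNat (nat_lit 110921307),Int.ofNat (nat_lit 143105446),Int.negSucc (nat_lit 1005951256),Int.negSucc (nat_lit 568962135),Int.ofNat (nat_lit 117099207),Int.ofNat (nat_lit 140006532),Int.ofNat (nat_lit 415713806),Int.ofNat (nat_lit 80030910),Int.ofNat (nat_lit 90699411),Int.negSucc (nat_lit 692233431),Int.ofNat (nat_lit 263935957),Int.ofNat (nat_lit 248054342),Int.ofNat (nat_lit 1235611885)])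

/-- A row. -/
noncomputable def sr7_c0_18 : List ℕ × List ℤ :=
  ([(nat_lit 0),(nat_lit 1),(nat_lit 0),(nat_lit 2),(nat_lit 0),(nat_lit 0),(nat_lit 0),(nat_lit 0),(nat_lit 0),(nat_lit 0),(nat_lit 0),(nat_lit 0)], [Int.negSucc (nat_lit 1487371330),Int.negSucc (nat_lit 237578967),Int.negSucc (nat_lit 1039719010),Int.ofNat (nat_lit 5466560),Int.negSucc (nat_lit 339945835),Int.ofNat (nat_lit 672374893),Int.ofNat (nat_lit 822552051),Int.ofNat (nat_lit 222461005),Int.negSucc (nat_lit 1255800014),Int.ofNat (nat_lit 12615517),Int.negSucc (nat_lit 3396786),Int.negSucc (nat_lit 488670287),Int.ofNat (nat_lit 160976341),Int.negSucc (nat_lit 312530800),Int.ofNat (nat_lit 638105450),Int.negSucc (nat_lit 367778134),Int.ofNat (nat_lit 38746852),Int.negSucc (nat_lit 828406623),Int.ofNat (nat_lit 1864956055)])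

/-- A row. -/
noncomputable def sr7_c0_19 : List ℕ × List ℤ :=
  ([(nat_lit 0),(nat_lit 1),(nat_lit 1),(nat_lit 0),(nat_lit 0),(nat_lit 0),(nat_lit 0),(nat_lit 0),(nat_lit 0),(nat_lit 0),(nat_lit 0),(nat_lit 0)], [Int.ofNat (nat_lit 5859990849),Int.ofNat (nat_lit 273289934),Int.ofNat (nat_lit 163395125),Int.negSucc (nat_lit 338313367),Int.ofNat (nat_lit 303920059),Int.ofNat (nat_lit 179011014),Int.negSucc (nat_lit 459267212),Int.negSucc (nat_lit 211797375),Int.negSucc (nat_lit 486309121),Int.ofNat (nat_lit 732919276),Int.ofNat (nat_lit 383958747),Int.negSucc (nat_lit 760387999),Int.negSucc (nat_lit 79111490),Int.ofNat (nat_lit 4047769909),Int.ofNat (nat_lit 632062052),Int.negSucc (nat_lit 559476337),Int.ofNat (nat_lit 702368376),Int.negSucc (nat_lit 23386790),Int.ofNat (nat_lit 268381449),Int.ofNat (nat_lit 1631232482)])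

/-- A row. -/
noncomputable def sr7_c0_20 : List ℕ × List ℤ :=
  ([(nat_lit 0),(nat_lit 1),(nat_lit 1),(nat_lit 0),(nat_lit 1),(nat_lit 0),(nat_lit 0),(nat_lit 0),(nat_lit 0),(nat_lit 0),(nat_lit 0),(nat_lit 0)], [Int.negSucc (nat_lit 671619103),Int.negSucc (nat_lit 625899668),Int.ofNat (nat_lit 592715935),Int.ofNat (nat_lit 242505006),Int.ofNat (nat_lit 738425313),Int.negSucc (nat_lit 252464338),Int.negSucc (nat_lit 335472889),Int.negSucc (nat_lit 232406307),Int.negSucc (nat_lit 85908449),Int.negSucc (nat_lit 94140867),Int.ofNat (nat_lit 155029036),Int.ofNat (nat_lit 378777940),Int.ofNat (nat_lit 78172796),Int.negSucc (nat_lit 355441239),Int.negSucc (nat_lit 392398127),Int.ofNat (nat_lit 206692225),Int.ofNat (nat_lit 559693646),Int.ofNat (nat_lit 414254765),Int.negSucc (nat_lit 6655830),Int.negSucc (nat_lit 406990468),Int.ofNat (nat_lit 843268499)])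

/-- A row. -/
noncomputable def sr7_c0_21 : List ℕ × List ℤ :=
  ([(nat_lit 0),(nat_lit 1),(nat_lit 2),(nat_lit 0),(nat_lit 0),(nat_lit 0),(nat_lit 0),(nat_lit 0),(nat_lit 0),(nat_lit 0),(nat_lit 0),(nat_lit 0)], [Int.ofNat (nat_lit 3375817030),Int.negSucc (nat_lit 846109327),Int.ofNat (nat_lit 1074583116),Int.negSucc (nat_lit 1423618937),Int.ofNat (nat_lit 448322544),Int.ofNat (nat_lit 796475024),Int.negSucc (nat_lit 216919419),Int.ofNat (nat_lit 77920622),Int.negSucc (nat_lit 478456128),Int.ofNat (nat_lit 300126943),Int.ofNat (nat_lit 12326175),Int.negSucc (nat_lit 691023902),Int.negSucc (nat_lit 302499026),Int.ofNat (nat_lit 1941069470),Int.ofNat (nat_lit 569986077),Int.negSucc (nat_lit 506348246),Int.ofNat (nat_lit 648273682),Int.negSucc (nat_lit 50049949),Int.ofNat (nat_lit 356174383),Int.ofNat (nat_lit 1568667286),Int.ofNat (nat_lit 29173613),Int.ofNat (nat_lit 427844413)])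

/-- A row. -/
noncomputable def sr7_c0_22 : List ℕ × List ℤ :=
  ([(nat_lit 0),(nat_lit 2),(nat_lit 0),(nat_lit 0),(nat_lit 0),(nat_lit 0),(nat_lit 0),(nat_lit 1),(nat_lit 0),(nat_lit 0),(nat_lit 0),(nat_lit 0)], [Int.ofNat (nat_lit 262171328),Int.negSucc (nat_lit 681811182),Int.ofNat (nat_lit 420463836),Int.negSucc (nat_lit 402477039),Int.ofNat (nat_lit 469919833),Int.ofNat (nat_lit 73260850),Int.negSucc (nat_lit 486053948),Int.ofNat (nat_lit 319865410),Int.ofNat (nat_lit 134663504),Int.negSucc (nat_lit 229923785),Int.ofNat (nat_lit 145689161),Int.negSucc (nat_lit 388039927),Int.ofNat (nat_lit 55603206),Int.negSucc (nat_lit 94616361),Int.ofNat (nat_lit 76894192),Int.negSucc (nat_lit 318714238),Int.ofNat (nat_lit 154887404),Int.negSucc (nat_lit 175317883),Int.ofNat (nat_lit 123122471),Int.negSucc (nat_lit 15917837),Int.ofNat (nat_lit 28367868),Int.ofNat (nat_lit 190172290),Int.ofNat (nat_lit 1192611158)])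

/-- A row. -/
noncomputable def sr7_c0_23 : List ℕ × List ℤ :=
  ([(nat_lit 0),(nat_lit 2),(nat_lit 0),(nat_lit 0),(nat_lit 0),(nat_lit 1),(nat_lit 0),(nat_lit 0),(nat_lit 0),(nat_lit 0),(nat_lit 0),(nat_lit 0)], [Int.negSucc (nat_lit 1220456718),Int.ofNat (nat_lit 1715165230),Int.negSucc (nat_lit 490809435),Int.negSucc (nat_lit 1102013660),Int.negSucc (nat_lit 1210175473),Int.ofNat (nat_lit 60748139),Int.negSucc (nat_lit 161853258),Int.ofNat (nat_lit 490182492),Int.ofNat (nat_lit 446906977),Int.ofNat (nat_lit 258572520),Int.ofNat (nat_lit 151096848),Int.negSucc (nat_lit 453299129),Int.negSucc (nat_lit 96805956),Int.negSucc (nat_lit 359345178),Int.ofNat (nat_lit 936612488),Int.ofNat (nat_lit 11094647),Int.negSucc (nat_lit 735361200),Int.negSucc (nat_lit 1354561224),Int.negSucc (nat_lit 648787256),Int.ofNat (nat_lit 8430052),Int.ofNat (nat_lit 60311905),Int.negSucc (nat_lit 274923487),Int.negSucc (nat_lit 482830321),Int.ofNat (nat_lit 2596389427)])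

/-- A row. -/
noncomputable def sr7_c0_24 : List ℕ × List ℤ :=
  ([(nat_lit 0),(nat_lit 2),(nat_lit 0),(nat_lit 1),(nat_lit 0),(nat_lit 0),(nat_lit 0),(nat_lit 0),(nat_lit 0),(nat_lit 0),(nat_lit 0),(nat_lit 0)], [Int.ofNat (nat_lit 3021602129),Int.negSucc (nat_lit 2382013955),Int.ofNat (nat_lit 2134787240),Int.ofNat (nat_lit 1075192489),Int.ofNat (nat_lit 483518031),Int.negSucc (nat_lit 1573622808),Int.negSucc (nat_lit 68185341),Int.negSucc (nat_lit 749168559),Int.ofNat (nat_lit 2006187053),Int.negSucc (nat_lit 12866768),Int.ofNat (nat_lit 91956895),Int.ofNat (nat_lit 1187305514),Int.negSucc (nat_lit 348753268),Int.ofNat (nat_lit 831513108),Int.negSucc (nat_lit 1563612440),Int.ofNat (nat_lit 496550658),Int.ofNat (nat_lit 445785548),Int.ofNat (nat_lit 2058228460),Int.negSucc (nat_lit 2147380035),Int.ofNat (nat_lit 296079688),Int.ofNat (nat_lit 346014353),Int.ofNat (nat_lit 450270355),Int.ofNat (nat_lit 632343751),Int.negSucc (nat_lit 1119621095),Int.ofNat (nat_lit 3249851756)])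

/-- A row. -/
noncomputable def sr7_c0_25 : List ℕ × List ℤ :=
  ([(nat_lit 0),(nat_lit 2),(nat_lit 1),(nat_lit 1),(nat_lit 0),(nat_lit 0),(nat_lit 0),(nat_lit 0),(nat_lit 0),(nat_lit 0),(nat_lit 0),(nat_lit 0)], [Int.negSucc (nat_lit 1864939411),Int.negSucc (nat_lit 385523870),Int.ofNat (nat_lit 259955557),Int.ofNat (nat_lit 495656782),Int.negSucc (nat_lit 162446701),Int.ofNat (nat_lit 66039021),Int.negSucc (nat_lit 50273941),Int.ofNat (nat_lit 868645774),Int.ofNat (nat_lit 638927981),Int.negSucc (nat_lit 201431463),Int.ofNat (nat_lit 402860181),Int.negSucc (nat_lit 59320611),Int.ofNat (nat_lit 353335801),Int.negSucc (nat_lit 651926102),Int.negSucc (nat_lit 30959705),Int.ofNat (nat_lit 198480504),Int.ofNat (nat_lit 356367750),Int.ofNat (nat_lit 32745582),Int.ofNat (nat_lit 444591252),Int.negSucc (nat_lit 359759700),Int.ofNat (nat_lit 263619304),Int.ofNat (nat_lit 171318620),Int.ofNat (nat_lit 248759407),Int.negSucc (nat_lit 186828837),Int.ofNat (nat_lit 1471055975),Int.ofNat (nat_lit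 2424948967)])

/-- A row. -/
noncomputable def sr7_c0_26 : List ℕ × List ℤ :=
  ([(nat_lit 0),(nat_lit 3),(nat_lit 0),(nat_lit 0),(nat_lit 0),(nat_lit 0),(nat_lit 0),(nat_lit 0),(nat_lit 0),(nat_lit 0),(nat_lit 0),(nat_lit 0)], [Int.negSucc (nat_lit 3054160071),Int.ofNat (nat_lit 2818214735),Int.negSucc (nat_lit 344674722),Int.negSucc (nat_lit 1975850931),Int.negSucc (nat_lit 945313794),Int.ofNat (nat_lit 1348021031),Int.ofNat (nat_lit 374248962),Int.negSucc (nat_lit 86188341),Int.ofNat (nat_lit 50283523),Int.ofNat (nat_lit 55122224),Int.ofNat (nat_lit 266555548),Int.negSucc (nat_lit 219148944),Int.ofNat (nat_lit 800022765),Int.negSucc (nat_lit 2027460212),Int.ofNat (nat_lit 162984784),Int.ofNat (nat_lit 65806141),Int.negSucc (nat_lit 829569754),Int.negSucc (nat_lit 610179961),Int.ofNat (nat_lit 780454619),Int.ofNat (nat_lit 1507674472),Int.ofNat (nat_lit 425369110),Int.negSucc (nat_lit 808490809),Int.negSucc (nat_lit 1621825167),Int.ofNat (nat_lit 1546304302),Int.negSucc (nat_lit 2060444917),Int.ofNat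 (nat_lit 998883999),Int.ofNat (nat_lit 3924235979)])

/-- A row. -/
noncomputable def sr7_c0_27 : List ℕ × List ℤ :=
  ([(nat_lit 0),(nat_lit 3),(nat_lit 0),(nat_lit 0),(nat_lit 1),(nat_lit 0),(nat_lit 0),(nat_lit 0),(nat_lit 0),(nat_lit 0),(nat_lit 0),(nat_lit 0)], [Int.ofNat (nat_lit 1124780872),Int.negSucc (nat_lit 14804282),Int.ofNat (nat_lit 324575720),Int.negSucc (nat_lit 103644705),Int.negSucc (nat_lit 339407973),Int.negSucc (nat_lit 267327636),Int.negSucc (nat_lit 389400170),Int.negSucc (nat_lit 89019150),Int.negSucc (nat_lit 474878972),Int.ofNat (nat_lit 73459923),Int.ofNat (nat_lit 304436359),Int.negSucc (nat_lit 167822065),Int.negSucc (nat_lit 368464909),Int.ofNat (nat_lit 630642576),Int.ofNat (nat_lit 19142249),Int.negSucc (nat_lit 42977956),Int.negSucc (nat_lit 1063714565),Int.negSucc (nat_lit 305017994),Int.ofNat (nat_lit 14737910),Int.negSucc (nat_lit 51372567),Int.ofNat (nat_lit 184408034),Int.negSucc (nat_lit 11889978),Int.negSucc (nat_lit 27606647),Int.ofNat (nat_lit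 134152935),Int.ofNat (nat_lit 75568771),Int.negSucc (nat_lit 466622182),Int.negSucc (nat_lit 805515860),Int.ofNat (nat_lit 2462895452)])

/-- A row. -/
noncomputable def sr7_c0_28 : List ℕ × List ℤ :=
  ([(nat_lit 0),(nat_lit 3),(nat_lit 1),(nat_lit 0),(nat_lit 0),(nat_lit 0),(nat_lit 0),(nat_lit 0),(nat_lit 0),(nat_lit 0),(nat_lit 0),(nat_lit 0)], [Int.negSucc (nat_lit 1224810417),Int.negSucc (nat_lit 282928501),Int.ofNat (nat_lit 497835789),Int.negSucc (nat_lit 620852746),Int.ofNat (nat_lit 438485720),Int.ofNat (nat_lit 566791776),Int.ofNat (nat_lit 583967415),Int.negSucc (nat_lit 1163582683),Int.negSucc (nat_lit 508262767),Int.negSucc (nat_lit 21961738),Int.negSucc (nat_lit 345536597),Int.ofNat (nat_lit 379975082),Int.negSucc (nat_lit 52670316),Int.negSucc (nat_lit 1653704787),Int.ofNat (nat_lit 188647592),Int.negSucc (nat_lit 184860771),Int.negSucc (nat_lit 774564939),Int.ofNat (nat_lit 53977056),Int.ofNat (nat_lit 165672258),Int.ofNat (nat_lit 1061371515),Int.negSucc (nat_lit 40315262),Int.ofNat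 (nat_lit 727305582),Int.negSucc (nat_lit 975650117),Int.ofNat (nat_lit 421490805),Int.negSucc (nat_lit 1004889993),Int.negSucc (nat_lit 636545672),Int.ofNat (nat_lit 2929155684),Int.negSucc (nat_lit 116734126),Int.ofNat (nat_lit 2383933752)])

/-- A row. -/
noncomputable def sr7_c0_29 : List ℕ × List ℤ :=
  ([(nat_lit 0),(nat_lit 4),(nat_lit 0),(nat_lit 1),(nat_lit 0),(nat_lit 0),(nat_lit 0),(nat_lit 0),(nat_lit 0),(nat_lit 0),(nat_lit 0),(nat_lit 0)], [Int.negSucc (nat_lit 1795157971),Int.ofNat (nat_lit 958402614),Int.negSucc (nat_lit 518423117),Int.negSucc (nat_lit 1199628751),Int.ofNat (nat_lit 11978512),Int.ofNat (nat_lit 1179120047),Int.ofNat (nat_lit 121436846),Int.ofNat (nat_lit 580219655),Int.negSucc (nat_lit 502376007),Int.negSucc (nat_lit 914448930),Int.negSucc (nat_lit 97439055),Int.negSucc (nat_lit 471097363),Int.ofNat (nat_lit 1170159569),Int.negSucc (nat_lit 308565648),Int.ofNat (nat_lit 77019725),Int.negSucc (nat_lit 434445566),Int.ofNat (nat_lit 276128263),Int.negSucc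 (nat_lit 1267123685),Int.ofNat (nat_lit 1202926439),Int.negSucc (nat_lit 475666737),Int.negSucc (nat_lit 357880197),Int.ofNat (nat_lit 29160389),Int.ofNat (nat_lit 80186469),Int.ofNat (nat_lit 278652410),Int.negSucc (nat_lit 1461565877),Int.ofNat (nat_lit 1218708997),Int.negSucc (nat_lit 288413489),Int.ofNat (nat_lit 313354818),Int.negSucc (nat_lit 781519368),Int.ofNat (nat_lit 3599236280)])

/-- A row. -/
noncomputable def sr7_c0_30 : List ℕ × List ℤ :=
  ([(nat_lit 0),(nat_lit 5),(nat_lit 0),(nat_lit 0),(nat_lit 0),(nat_lit 0),(nat_lit 0),(nat_lit 0),(nat_lit 0),(nat_lit 0),(nat_lit 0),(nat_lit 0)], [Int.ofNat (nat_lit 1839784332),Int.negSucc (nat_lit 2557116088),Int.ofNat (nat_lit 864879146),Int.ofNat (nat_lit 837014342),Int.ofNat (nat_lit 984018016),Int.negSucc (nat_lit 676365117),Int.negSucc (nat_lit 40733993),Int.negSucc (nat_lit 320002344),Int.negSucc (nat_lit 252693717),Int.ofNat (nat_lit 17131911),Int.negSucc (nat_lit 386139576),Int.ofNat (nat_lit 90262193),Int.negSucc (nat_lit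 798579511),Int.ofNat (nat_lit 339361359),Int.ofNat (nat_lit 328989601),Int.negSucc (nat_lit 123859649),Int.ofNat (nat_lit 314952509),Int.ofNat (nat_lit 416661080),Int.negSucc (nat_lit 708751437),Int.negSucc (nat_lit 596764779),Int.negSucc (nat_lit 469183508),Int.ofNat (nat_lit 1036805028),Int.ofNat (nat_lit 900859273),Int.negSucc (nat_lit 687802445),Int.ofNat (nat_lit 1278403987),Int.negSucc (nat_lit 1352024031),Int.negSucc (nat_lit 1869727277),Int.negSucc (nat_lit 443030699),Int.ofNat (nat_lit 1766849863),Int.negSucc (nat_lit 730657859),Int.ofNat (nat_lit 1494878633)])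

/-- A row. -/
noncomputable def sr7_c0_31 : List ℕ × List ℤ :=
  ([(nat_lit 1),(nat_lit 0),(nat_lit 0),(nat_lit 0),(nat_lit 0),(nat_lit 0),(nat_lit 0),(nat_lit 0),(nat_lit 0),(nat_lit 1),(nat_lit 0),(nat_lit 0)], [Int.ofNat (nat_lit 172932673),Int.negSucc (nat_lit 824945905),Int.negSucc (nat_lit 115470751),Int.negSucc (nat_lit 777951),Int.negSucc (nat_lit 54754119),Int.ofNat (nat_lit 44741020),Int.ofNat (nat_lit 55694987),Int.negSucc (nat_lit 44086524),Int.ofNat (nat_lit 6352077),Int.ofNat (nat_lit 47907065),Int.ofNat (nat_lit 2672025),Int.negSucc (nat_lit 36011100),Int.negSucc (nat_lit 10142438),Int.ofNat (nat_lit 13246500),Int.ofNat (nat_lit 21255327),Int.negSucc (nat_lit 34444363),Int.negSucc (nat_lit 25621661),Int.ofNat (nat_lit 9402510),Int.negSucc (nat_lit 2062680),Int.ofNat (nat_lit 11836960),Int.negSucc (nat_lit 23328285),Int.ofNat (nat_lit 1850833),Int.negSucc (nat_lit 27152978),Int.negSucc (nat_lit 18568205),Int.ofNat (nat_lit 8182644),Int.ofNat (nat_lit 2738322),Int.ofNat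 (nat_lit 5294969),Int.ofNat (nat_lit 2856926),Int.negSucc (nat_lit 2771049),Int.negSucc (nat_lit 8877254),Int.negSucc (nat_lit 5860183),Int.ofNat (nat_lit 122332395)])

/-- A row. -/
noncomputable def sr7_c0_32 : List ℕ × List ℤ :=
  ([(nat_lit 1),(nat_lit 0),(nat_lit 0),(nat_lit 0),(nat_lit 0),(nat_lit 0),(nat_lit 0),(nat_lit 1),(nat_lit 0),(nat_lit 0),(nat_lit 0),(nat_lit 0)], [Int.negSucc (nat_lit 1555761892),Int.negSucc (nat_lit 45264507),Int.negSucc (nat_lit 2007914464),Int.ofNat (nat_lit 259059098),Int.negSucc (nat_lit 271670625),Int.negSucc (nat_lit 252394682),Int.negSucc (nat_lit 228083931),Int.negSucc (nat_lit 491313951),Int.negSucc (nat_lit 136978857),Int.ofNat (nat_lit 641570108),Int.negSucc (nat_lit 50105433),Int.ofNat (nat_lit 225171563),Int.negSucc (nat_lit 156582790),Int.ofNat (nat_lit 81862452),Int.negSucc (nat_lit 147343328),Int.ofNat (nat_lit 58402345),Int.ofNat (nat_lit 64935153),Int.ofNat (nat_lit 258415824),Int.negSucc (nat_lit 48949312),Int.negSucc (nat_lit 7586051),Int.ofNat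 (nat_lit 87679061),Int.negSucc (nat_lit 21087024),Int.negSucc (nat_lit 235841733),Int.negSucc (nat_lit 52347954),Int.ofNat (nat_lit 41741359),Int.negSucc (nat_lit 115047670),Int.ofNat (nat_lit 8104661),Int.ofNat (nat_lit 94639669),Int.negSucc (nat_lit 3922834),Int.negSucc (nat_lit 20960560),Int.ofNat (nat_lit 14011106),Int.ofNat (nat_lit 51472635),Int.ofNat (nat_lit 469753778)])

/-- A row. -/
noncomputable def sr7_c0_33 : List ℕ × List ℤ :=
  ([(nat_lit 1),(nat_lit 0),(nat_lit 0),(nat_lit 0),(nat_lit 0),(nat_lit 1),(nat_lit 0),(nat_lit 0),(nat_lit 0),(nat_lit 0),(nat_lit 0),(nat_lit 0)], [Int.negSucc (nat_lit 1387083753),Int.negSucc (nat_lit 1557920246),Int.ofNat (nat_lit 1880215812),Int.negSucc (nat_lit 3073052439),Int.negSucc (nat_lit 1104334748),Int.negSucc (nat_lit 227784360),Int.negSucc (nat_lit 135161232),Int.ofNat (nat_lit 794827936),Int.negSucc (nat_lit 211337664),Int.negSucc (nat_lit 424880916),Int.ofNat (nat_lit 635635969),Int.negSucc (nat_lit 139030015),Int.negSucc (nat_lit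 156591324),Int.negSucc (nat_lit 140074174),Int.ofNat (nat_lit 100282679),Int.ofNat (nat_lit 46617420),Int.ofNat (nat_lit 175517299),Int.negSucc (nat_lit 410097368),Int.negSucc (nat_lit 69734991),Int.negSucc (nat_lit 71640649),Int.negSucc (nat_lit 96913477),Int.negSucc (nat_lit 38823108),Int.ofNat (nat_lit 46005326),Int.negSucc (nat_lit 448802751),Int.ofNat (nat_lit 7697074),Int.ofNat (nat_lit 140327109),Int.ofNat (nat_lit 1464276),Int.ofNat (nat_lit 45859647),Int.negSucc (nat_lit 172118780),Int.negSucc (nat_lit 17229885),Int.ofNat (nat_lit 56809841),Int.negSucc (nat_lit 424980811),Int.ofNat (nat_lit 137055744),Int.ofNat (nat_lit 973757279)])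

/-- A row. -/
noncomputable def sr7_c0_34 : List ℕ × List ℤ :=
  ([(nat_lit 1),(nat_lit 0),(nat_lit 0),(nat_lit 1),(nat_lit 0),(nat_lit 0),(nat_lit 0),(nat_lit 0),(nat_lit 0),(nat_lit 0),(nat_lit 0),(nat_lit 0)], [Int.ofNat (nat_lit 3512086652),Int.ofNat (nat_lit 1383319284),Int.negSucc (nat_lit 2039992645),Int.ofNat (nat_lit 4201339893),Int.negSucc (nat_lit 398045713),Int.negSucc (nat_lit 5143794884),Int.ofNat (nat_lit 1487183433),Int.negSucc (nat_lit 1139194786),Int.negSucc (nat_lit 1193324457),Int.ofNat (nat_lit 696282458),Int.negSucc (nat_lit 378195645),Int.ofNat (nat_lit 723318826),Int.ofNat (nat_lit 221918302),Int.negSucc (nat_lit 5569837),Int.ofNat (nat_lit 228945043),Int.negSucc (nat_lit 240414525),Int.negSucc (nat_lit 212388533),Int.ofNat (nat_lit 79290606),Int.negSucc (nat_lit 95051788),Int.ofNat (nat_lit 15812293),Int.negSucc (nat_lit 161920789),Int.ofNat (nat_lit 74898152),Int.negSucc (nat_lit 25603671),Int.ofNat (nat_lit 66901854),Int.negSucc (nat_lit 23147767),Int.ofNat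 (nat_lit 164789233),Int.negSucc (nat_lit 6808515),Int.negSucc (nat_lit 160590505),Int.negSucc (nat_lit 43656069),Int.negSucc (nat_lit 48467365),Int.negSucc (nat_lit 61568807),Int.ofNat (nat_lit 369926066),Int.negSucc (nat_lit 342132178),Int.negSucc (nat_lit 85613250),Int.ofNat (nat_lit 1413260771)])

/-- A row. -/
noncomputable def sr7_c0_35 : List ℕ × List ℤ :=
  ([(nat_lit 1),(nat_lit 0),(nat_lit 0),(nat_lit 1),(nat_lit 1),(nat_lit 0),(nat_lit 0),(nat_lit 0),(nat_lit 0),(nat_lit 0),(nat_lit 0),(nat_lit 0)], [Int.ofNat (nat_lit 946629933),Int.ofNat (nat_lit 110323053),Int.negSucc (nat_lit 692956425),Int.ofNat (nat_lit 76198831),Int.ofNat (nat_lit 325063363),Int.ofNat (nat_lit 2147977272),Int.ofNat (nat_lit 243778759),Int.negSucc (nat_lit 1936302944),Int.ofNat (nat_lit 905490462),Int.negSucc (nat_lit 83811279),Int.negSucc (nat_lit 134204222),Int.negSucc (nat_lit 264893000),Int.ofNat (nat_lit 240163851),Int.negSucc (nat_lit 289365621),Int.ofNat (nat_lit 486358390),Int.negSucc (nat_lit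 80223551),Int.negSucc (nat_lit 23728038),Int.negSucc (nat_lit 42140317),Int.ofNat (nat_lit 62210892),Int.ofNat (nat_lit 47893879),Int.negSucc (nat_lit 46444465),Int.negSucc (nat_lit 5810520),Int.ofNat (nat_lit 107848585),Int.ofNat (nat_lit 100830743),Int.negSucc (nat_lit 79376310),Int.ofNat (nat_lit 24249173),Int.negSucc (nat_lit 6537211),Int.negSucc (nat_lit 100669166),Int.ofNat (nat_lit 50927854),Int.ofNat (nat_lit 90089855),Int.negSucc (nat_lit 5664063),Int.ofNat (nat_lit 184339360),Int.negSucc (nat_lit 274445511),Int.negSucc (nat_lit 235348297),Int.negSucc (nat_lit 204939677),Int.ofNat (nat_lit 578817786)])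

/-- A row. -/
noncomputable def sr7_c0_36 : List ℕ × List ℤ :=
  ([(nat_lit 1),(nat_lit 0),(nat_lit 1),(nat_lit 0),(nat_lit 0),(nat_lit 1),(nat_lit 0),(nat_lit 0),(nat_lit 0),(nat_lit 0),(nat_lit 0),(nat_lit 0)], [Int.negSucc (nat_lit 1289671214),Int.negSucc (nat_lit 490888246),Int.ofNat (nat_lit 767428743),Int.negSucc (nat_lit 955113679),Int.negSucc (nat_lit 865736535),Int.negSucc (nat_lit 1068804341),Int.negSucc (nat_lit 78833706),Int.ofNat (nat_lit 145946861),Int.negSucc (nat_lit 836493648),Int.negSucc (nat_lit 101510162),Int.negSucc (nat_lit 675162640),Int.ofNat (nat_lit 140774757),Int.negSucc (nat_lit 356406262),Int.ofNat (nat_lit 299479872),Int.negSucc (nat_lit 471894024),Int.ofNat (nat_lit 100767534),Int.ofNat (nat_lit 58109956),Int.negSucc (nat_lit 26484178),Int.negSucc (nat_lit 145114130),Int.ofNat (nat_lit 14298269),Int.ofNat (nat_lit 5223072),Int.negSucc (nat_lit 20197689),Int.negSucc (nat_lit 93918499),Int.negSucc (nat_lit 179639833),Int.ofNat (nat_lit 83615032),Int.negSucc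 (nat_lit 20012153),Int.ofNat (nat_lit 3094207),Int.ofNat (nat_lit 80407598),Int.negSucc (nat_lit 70508638),Int.negSucc (nat_lit 75904581),Int.ofNat (nat_lit 4390653),Int.negSucc (nat_lit 208520295),Int.ofNat (nat_lit 370519132),Int.ofNat (nat_lit 378331629),Int.ofNat (nat_lit 25659164),Int.negSucc (nat_lit 458865943),Int.ofNat (nat_lit 349130923)])

/-- A row. -/
noncomputable def sr7_c0_37 : List ℕ × List ℤ :=
  ([(nat_lit 1),(nat_lit 0),(nat_lit 1),(nat_lit 1),(nat_lit 0),(nat_lit 0),(nat_lit 0),(nat_lit 0),(nat_lit 0),(nat_lit 0),(nat_lit 0),(nat_lit 0)], [Int.ofNat (nat_lit 5178147840),Int.ofNat (nat_lit 1882812513),Int.negSucc (nat_lit 2539321038),Int.ofNat (nat_lit 2385229262),Int.negSucc (nat_lit 1120822216),Int.negSucc (nat_lit 2340671733),Int.ofNat (nat_lit 2462899751),Int.negSucc (nat_lit 2082804847),Int.negSucc (nat_lit 917324258),Int.ofNat (nat_lit 738637673),Int.negSucc (nat_lit 5128776),Int.negSucc (nat_lit 641888789),Int.ofNat (nat_lit 1511235283),Int.negSucc (nat_lit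 93023056),Int.ofNat (nat_lit 287848789),Int.negSucc (nat_lit 226383863),Int.negSucc (nat_lit 162230162),Int.ofNat (nat_lit 82761602),Int.negSucc (nat_lit 53243234),Int.negSucc (nat_lit 64935258),Int.negSucc (nat_lit 270783366),Int.ofNat (nat_lit 101116007),Int.negSucc (nat_lit 109643414),Int.negSucc (nat_lit 13152175),Int.negSucc (nat_lit 1836651),Int.ofNat (nat_lit 143371043),Int.ofNat (nat_lit 53036666),Int.negSucc (nat_lit 116047949),Int.negSucc (nat_lit 133405662),Int.negSucc (nat_lit 51146992),Int.negSucc (nat_lit 17832142),Int.ofNat (nat_lit 286244547),Int.negSucc (nat_lit 210767386),Int.ofNat (nat_lit 113203944),Int.ofNat (nat_lit 1250928199),Int.negSucc (nat_lit 20293245),Int.negSucc (nat_lit 170603137),Int.ofNat (nat_lit 619366591)])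

/-- A row. -/
noncomputable def sr7_c0_38 : List ℕ × List ℤ :=
  ([(nat_lit 1),(nat_lit 1),(nat_lit 0),(nat_lit 0),(nat_lit 0),(nat_lit 0),(nat_lit 0),(nat_lit 0),(nat_lit 0),(nat_lit 0),(nat_lit 0),(nat_lit 0)], [Int.negSucc (nat_lit 5941663145),Int.negSucc (nat_lit 1518870690),Int.ofNat (nat_lit 65945141),Int.negSucc (nat_lit 2064466749),Int.negSucc (nat_lit 243038642),Int.ofNat (nat_lit 938977712),Int.negSucc (nat_lit 42819743),Int.ofNat (nat_lit 1370181048),Int.negSucc (nat_lit 62088680),Int.negSucc (nat_lit 1502393230),Int.negSucc (nat_lit 264424839),Int.negSucc (nat_lit 1808308426),Int.negSucc (nat_lit 955937301),Int.negSucc (nat_lit 6846021464),Int.negSucc (nat_lit 605861142),Int.ofNat (nat_lit 655102963),Int.negSucc (nat_lit 244903332),Int.negSucc (nat_lit 1176304015),Int.negSucc (nat_lit 450120428),Int.ofNat (nat_lit 1175444360),Int.negSucc (nat_lit 932297796),Int.ofNat (nat_lit 317288504),Int.negSucc (nat_lit 206420042),Int.negSucc (nat_lit 185564573),Int.ofNat (nat_lit 150410214),Int.negSucc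 (nat_lit 117224786),Int.negSucc (nat_lit 474810607),Int.ofNat (nat_lit 520959399),Int.negSucc (nat_lit 130555092),Int.ofNat (nat_lit 6820615),Int.ofNat (nat_lit 5571300),Int.negSucc (nat_lit 69100188),Int.negSucc (nat_lit 27565163),Int.ofNat (nat_lit 571552978),Int.negSucc (nat_lit 695129988),Int.negSucc (nat_lit 328029549),Int.negSucc (nat_lit 432589542),Int.negSucc (nat_lit 134252051),Int.ofNat (nat_lit 3094358017)])

/-- A row. -/
noncomputable def sr7_c0_39 : List ℕ × List ℤ :=
  ([(nat_lit 1),(nat_lit 1),(nat_lit 0),(nat_lit 0),(nat_lit 0),(nat_lit 0),(nat_lit 1),(nat_lit 0),(nat_lit 0),(nat_lit 0),(nat_lit 0),(nat_lit 0)], [Int.ofNat (nat_lit 1270512711),Int.negSucc (nat_lit 930440081),Int.negSucc (nat_lit 182233780),Int.negSucc (nat_lit 470359461),Int.ofNat (nat_lit 293787240),Int.ofNat (nat_lit 238974404),Int.negSucc (nat_lit 230697193),Int.ofNat (nat_lit 3522049),Int.negSucc (nat_lit 52609586),Int.ofNat (nat_lit 197282406),Int.negSucc (nat_lit 154782521),Int.negSucc (nat_lit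 627374278),Int.negSucc (nat_lit 145057445),Int.negSucc (nat_lit 409485250),Int.ofNat (nat_lit 296345186),Int.negSucc (nat_lit 1385167963),Int.negSucc (nat_lit 7519101),Int.negSucc (nat_lit 144949739),Int.ofNat (nat_lit 50313574),Int.ofNat (nat_lit 10593048),Int.negSucc (nat_lit 38076890),Int.ofNat (nat_lit 123074386),Int.negSucc (nat_lit 27653277),Int.negSucc (nat_lit 37374047),Int.ofNat (nat_lit 119875151),Int.ofNat (nat_lit 71121133),Int.negSucc (nat_lit 44598406),Int.ofNat (nat_lit 10682733),Int.negSucc (nat_lit 83668408),Int.negSucc (nat_lit 86637696),Int.negSucc (nat_lit 2989621),Int.ofNat (nat_lit 124316699),Int.negSucc (nat_lit 110992824),Int.ofNat (nat_lit 161089332),Int.ofNat (nat_lit 109041139),Int.negSucc (nat_lit 90119132),Int.ofNat (nat_lit 28670113),Int.negSucc (nat_lit 17432998),Int.ofNat (nat_lit 163242432),Int.ofNat (nat_lit 490557385)])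

/-- A row. -/
noncomputable def sr7_c0_40 : List ℕ × List ℤ :=
  ([(nat_lit 1),(nat_lit 1),(nat_lit 0),(nat_lit 0),(nat_lit 1),(nat_lit 0),(nat_lit 0),(nat_lit 0),(nat_lit 0),(nat_lit 0),(nat_lit 0),(nat_lit 0)], [Int.negSucc (nat_lit 918544865),Int.ofNat (nat_lit 3076228),Int.negSucc (nat_lit 282774545),Int.ofNat (nat_lit 327650199),Int.negSucc (nat_lit 1084628477),Int.ofNat (nat_lit 456456665),Int.ofNat (nat_lit 786196914),Int.ofNat (nat_lit 394657787),Int.ofNat (nat_lit 1294202918),Int.negSucc (nat_lit 155832238),Int.ofNat (nat_lit 329636301),Int.ofNat (nat_lit 998274506),Int.ofNat (nat_lit 557752058),Int.ofNat (nat_lit 1897659610),Int.ofNat (nat_lit 714662139),Int.negSucc (nat_lit 220575330),Int.negSucc (nat_lit 3003305074),Int.ofNat (nat_lit 1025591547),Int.ofNat (nat_lit 110479811),Int.negSucc (nat_lit 864718788),Int.ofNat (nat_lit 1500268495),Int.negSucc (nat_lit 325584529),Int.ofNat (nat_lit 101758438),Int.ofNat (nat_lit 172059960),Int.negSucc (nat_lit 543226061),Int.ofNat (nat_lit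 115394800),Int.ofNat (nat_lit 329844760),Int.negSucc (nat_lit 616577932),Int.ofNat (nat_lit 222648921),Int.ofNat (nat_lit 359434239),Int.ofNat (nat_lit 70863222),Int.negSucc (nat_lit 831174424),Int.ofNat (nat_lit 459336444),Int.ofNat (nat_lit 76129131),Int.negSucc (nat_lit 552357765),Int.ofNat (nat_lit 118874193),Int.ofNat (nat_lit 123378311),Int.ofNat (nat_lit 172870890),Int.negSucc (nat_lit 1098340544),Int.negSucc (nat_lit 686030670),Int.ofNat (nat_lit 1609013093)])

/-- A row. -/
noncomputable def sr7_c0_41 : List ℕ × List ℤ :=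
  ([(nat_lit 1),(nat_lit 1),(nat_lit 0),(nat_lit 2),(nat_lit 0),(nat_lit 0),(nat_lit 0),(nat_lit 0),(nat_lit 0),(nat_lit 0),(nat_lit 0),(nat_lit 0)], [Int.ofNat (nat_lit 2990230800),Int.ofNat (nat_lit 181490503),Int.negSucc (nat_lit 568756094),Int.ofNat (nat_lit 1317675833),Int.negSucc (nat_lit 458111755),Int.negSucc (nat_lit 1886733298),Int.negSucc (nat_lit 493322157),Int.negSucc (nat_lit 1793276064),Int.negSucc (nat_lit 906953355),Int.negSucc (nat_lit 333292228),Int.negSucc (nat_lit 227986846),Int.ofNat (nat_lit 1470739856),Int.ofNat (nat_lit 336343047),Int.ofNat (nat_lit 377580687),Int.negSucc (nat_lit 798583813),Int.ofNat (nat_lit 375697649),Int.negSucc (nat_lit 78931561),Int.ofNat (nat_lit 1009865761),Int.negSucc (nat_lit 3484047588),Int.negSucc (nat_lit 105298843),Int.ofNat (nat_lit 107988178),Int.negSucc (nat_lit 491094428),Int.ofNat (nat_lit 37502309),Int.ofNat (nat_lit 110585931),Int.negSucc (nat_lit 563947568),Int.negSucc (nat_lit 257652734),Int.ofNat (nat_lit 116190470),Int.negSucc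 (nat_lit 152841451),Int.ofNat (nat_lit 182476128),Int.ofNat (nat_lit 450687739),Int.negSucc (nat_lit 48476056),Int.negSucc (nat_lit 290186785),Int.ofNat (nat_lit 398317740),Int.negSucc (nat_lit 2286337),Int.negSucc (nat_lit 739698465),Int.ofNat (nat_lit 92761953),Int.ofNat (nat_lit 319341215),Int.ofNat (nat_lit 29891574),Int.negSucc (nat_lit 554028872),Int.negSucc (nat_lit 970319175),Int.ofNat (nat_lit 258670761),Int.ofNat (nat_lit 1210240919)])

/-- A row. -/
noncomputable def sr7_c0_42 : List ℕ × List ℤ :=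
  ([(nat_lit 1),(nat_lit 1),(nat_lit 1),(nat_lit 0),(nat_lit 0),(nat_lit 0),(nat_lit 0),(nat_lit 0),(nat_lit 0),(nat_lit 0),(nat_lit 0),(nat_lit 0)], [Int.negSucc (nat_lit 10150249048),Int.ofNat (nat_lit 307403738),Int.negSucc (nat_lit 3524913914),Int.ofNat (nat_lit 1852040948),Int.negSucc (nat_lit 1428466299),Int.negSucc (nat_lit 2289210594),Int.ofNat (nat_lit 412950110),Int.ofNat (nat_lit 1234787663),Int.negSucc (nat_lit 110093251),Int.negSucc (nat_lit 2293056206),Int.negSucc (nat_lit 806187218),Int.negSucc (nat_lit 885430279),Int.negSucc (nat_lit 1677201267),Int.negSucc (nat_lit 9078317824),Int.negSucc (nat_lit 1737614979),Int.ofNat (nat_lit 1590248891),Int.negSucc (nat_lit 2887254876),Int.negSucc (nat_lit 903605438),Int.negSucc (nat_lit 1107447350),Int.negSucc (nat_lit 2426006598),Int.negSucc (nat_lit 1284753536),Int.ofNat (nat_lit 740065977),Int.ofNat (nat_lit 21522976),Int.negSucc (nat_lit 61992517),Int.ofNat (nat_lit 124515092),Int.negSucc (nat_lit 677148327),Int.negSucc (nat_lit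 207755902),Int.ofNat (nat_lit 573332933),Int.negSucc (nat_lit 382140161),Int.ofNat (nat_lit 317706800),Int.ofNat (nat_lit 94399513),Int.negSucc (nat_lit 402236508),Int.ofNat (nat_lit 116129359),Int.ofNat (nat_lit 326855560),Int.negSucc (nat_lit 584377359),Int.negSucc (nat_lit 53880959),Int.negSucc (nat_lit 177062435),Int.negSucc (nat_lit 771859607),Int.ofNat (nat_lit 3042592221),Int.negSucc (nat_lit 489190707),Int.ofNat (nat_lit 236843864),Int.ofNat (nat_lit 432467760),Int.ofNat (nat_lit 1882454280)])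

/-- A row. -/
noncomputable def sr7_c0_43 : List ℕ × List ℤ :=
  ([(nat_lit 1),(nat_lit 1),(nat_lit 2),(nat_lit 0),(nat_lit 0),(nat_lit 0),(nat_lit 0),(nat_lit 0),(nat_lit 0),(nat_lit 0),(nat_lit 0),(nat_lit 0)], [Int.negSucc (nat_lit 1412530057),Int.ofNat (nat_lit 932797631),Int.negSucc (nat_lit 2647590826),Int.ofNat (nat_lit 2182770607),Int.negSucc (nat_lit 1107150892),Int.negSucc (nat_lit 1433137690),Int.ofNat (nat_lit 1037899702),Int.negSucc (nat_lit 850432354),Int.ofNat (nat_lit 129717176),Int.negSucc (nat_lit 592391063),Int.negSucc (nat_lit 190142990),Int.ofNat (nat_lit 271943620),Int.ofNat (nat_lit 52404186),Int.negSucc (nat_lit 2984048370),Int.negSucc (nat_lit 336660145),Int.ofNat (nat_lit 643695279),Int.negSucc (nat_lit 1315190535),Int.ofNat (nat_lit 546790432),Int.negSucc (nat_lit 803242790),Int.negSucc (nat_lit 2119609837),Int.negSucc (nat_lit 829402077),Int.negSucc (nat_lit 978864966),Int.ofNat (nat_lit 122771758),Int.ofNat (nat_lit 13700058),Int.negSucc (nat_lit 240262839),Int.negSucc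 (nat_lit 98940603),Int.ofNat (nat_lit 133242820),Int.ofNat (nat_lit 38989851),Int.negSucc (nat_lit 114172129),Int.ofNat (nat_lit 391652507),Int.ofNat (nat_lit 96202685),Int.negSucc (nat_lit 567608500),Int.ofNat (nat_lit 442354423),Int.negSucc (nat_lit 16552367),Int.ofNat (nat_lit 11134878),Int.ofNat (nat_lit 13558040),Int.ofNat (nat_lit 31961002),Int.ofNat (nat_lit 100464408),Int.negSucc (nat_lit 220824152),Int.negSucc (nat_lit 569715949),Int.ofNat (nat_lit 452309000),Int.ofNat (nat_lit 376961464),Int.ofNat (nat_lit 780087656),Int.ofNat (nat_lit 910258337)])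

/-- A row. -/
noncomputable def sr7_c0_44 : List ℕ × List ℤ :=
  ([(nat_lit 1),(nat_lit 2),(nat_lit 0),(nat_lit 0),(nat_lit 0),(nat_lit 1),(nat_lit 0),(nat_lit 0),(nat_lit 0),(nat_lit 0),(nat_lit 0),(nat_lit 0)], [Int.ofNat (nat_lit 179340208),Int.ofNat (nat_lit 715964886),Int.negSucc (nat_lit 701369809),Int.ofNat (nat_lit 999211711),Int.ofNat (nat_lit 1444419084),Int.ofNat (nat_lit 707923440),Int.ofNat (nat_lit 773838878),Int.ofNat (nat_lit 550699090),Int.negSucc (nat_lit 43016648),Int.negSucc (nat_lit 967050746),Int.negSucc (nat_lit 891507875),Int.negSucc (nat_lit 702145664),Int.negSucc (nat_lit 341529151),Int.ofNat (nat_lit 1028286817),Int.negSucc (nat_lit 1002706290),Int.negSucc (nat_lit 618757113),Int.ofNat (nat_lit 390230456),Int.negSucc (nat_lit 1709466228),Int.ofNat (nat_lit 1289228891),Int.ofNat (nat_lit 4028846),Int.negSucc (nat_lit 173980039),Int.ofNat (nat_lit 626191986),Int.negSucc (nat_lit 633315657),Int.negSucc (nat_lit 4483877128),Int.ofNat (nat_lit 61228442),Int.ofNat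 (nat_lit 82493919),Int.ofNat (nat_lit 12992302),Int.ofNat (nat_lit 64446211),Int.negSucc (nat_lit 194579552),Int.ofNat (nat_lit 126853893),Int.ofNat (nat_lit 57708729),Int.ofNat (nat_lit 658152055),Int.negSucc (nat_lit 421682597),Int.negSucc (nat_lit 259474898),Int.ofNat (nat_lit 574292187),Int.ofNat (nat_lit 63338578),Int.negSucc (nat_lit 344330737),Int.ofNat (nat_lit 104734346),Int.ofNat (nat_lit 423418276),Int.ofNat (nat_lit 702274980),Int.negSucc (nat_lit 310078009),Int.negSucc (nat_lit 411181652),Int.ofNat (nat_lit 93579907),Int.ofNat (nat_lit 270343874),Int.ofNat (nat_lit 1615109522)])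

/-- A row. -/
noncomputable def sr7_c0_45 : List ℕ × List ℤ :=
  ([(nat_lit 1),(nat_lit 2),(nat_lit 0),(nat_lit 1),(nat_lit 0),(nat_lit 0),(nat_lit 0),(nat_lit 0),(nat_lit 0),(nat_lit 0),(nat_lit 0),(nat_lit 0)], [Int.ofNat (nat_lit 393637817),Int.ofNat (nat_lit 125645909),Int.negSucc (nat_lit 128304775),Int.negSucc (nat_lit 1666599767),Int.ofNat (nat_lit 1674499490),Int.ofNat (nat_lit 4333835530),Int.negSucc (nat_lit 583485546),Int.ofNat (nat_lit 912917135),Int.ofNat (nat_lit 732965588),Int.ofNat (nat_lit 220602426),Int.ofNat (nat_lit 716440639),Int.negSucc (nat_lit 1479276462),Int.ofNat (nat_lit 317510554),Int.negSucc (nat_lit 1130055125),Int.ofNat (nat_lit 1154586473),Int.ofNat (nat_lit 556796745),Int.negSucc (nat_lit 272201582),Int.ofNat (nat_lit 1277517744),Int.ofNat (nat_lit 248196336),Int.negSucc (nat_lit 549556414),Int.ofNat (nat_lit 294672994),Int.ofNat (nat_lit 141460428),Int.negSucc (nat_lit 22314572),Int.ofNat (nat_lit 1112595793),Int.negSucc (nat_lit 5005401766),Int.ofNat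 (nat_lit 2359002455),Int.negSucc (nat_lit 1159357474),Int.ofNat (nat_lit 380053887),Int.ofNat (nat_lit 903359810),Int.negSucc (nat_lit 2330572002),Int.ofNat (nat_lit 184383662),Int.negSucc (nat_lit 248998937),Int.ofNat (nat_lit 1286310986),Int.negSucc (nat_lit 867207384),Int.negSucc (nat_lit 93315713),Int.negSucc (nat_lit 644596264),Int.negSucc (nat_lit 656080197),Int.ofNat (nat_lit 642642169),Int.ofNat (nat_lit 23975668),Int.ofNat (nat_lit 1878521318),Int.negSucc (nat_lit 780030261),Int.negSucc (nat_lit 2521816654),Int.negSucc (nat_lit 253949978),Int.negSucc (nat_lit 436050669),Int.negSucc (nat_lit 1182499276),Int.ofNat (nat_lit 4089392833)])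

/-- A row. -/
noncomputable def sr7_c0_46 : List ℕ × List ℤ :=
  ([(nat_lit 1),(nat_lit 3),(nat_lit 0),(nat_lit 0),(nat_lit 0),(nat_lit 0),(nat_lit 0),(nat_lit 0),(nat_lit 0),(nat_lit 0),(nat_lit 0),(nat_lit 0)], [Int.ofNat (nat_lit 3253075728),Int.ofNat (nat_lit 1811264339),Int.negSucc (nat_lit 3414802595),Int.ofNat (nat_lit 210682468),Int.ofNat (nat_lit 825691182),Int.negSucc (nat_lit 2100688932),Int.ofNat (nat_lit 2159096881),Int.ofNat (nat_lit 663197252),Int.negSucc (nat_lit 2093980317),Int.ofNat (nat_lit 802716202),Int.negSucc (nat_lit 2315299120),Int.ofNat (nat_lit 289719478),Int.ofNat (nat_lit 61460860),Int.ofNat (nat_lit 4533473427),Int.ofNat (nat_lit 2357102313),Int.negSucc (nat_lit 1784235245),Int.ofNat (nat_lit 1123642434),Int.negSucc (nat_lit 3041008796),Int.ofNat (nat_lit 712458813),Int.negSucc (nat_lit 4537237334),Int.negSucc (nat_lit 1518987802),Int.ofNat (nat_lit 496492504),Int.negSucc (nat_lit 103060025),Int.negSucc (nat_lit 1023358706),Int.ofNat (nat_lit 740062821),Int.negSucc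 (nat_lit 3401157940),Int.negSucc (nat_lit 6683319359),Int.negSucc (nat_lit 1978037684),Int.negSucc (nat_lit 307414408),Int.ofNat (nat_lit 1583703497),Int.ofNat (nat_lit 700648231),Int.ofNat (nat_lit 1057481132),Int.negSucc (nat_lit 1268533684),Int.negSucc (nat_lit 212770250),Int.ofNat (nat_lit 547746515),Int.ofNat (nat_lit 1252384084),Int.negSucc (nat_lit 199420743),Int.negSucc (nat_lit 623013678),Int.negSucc (nat_lit 2868570401),Int.negSucc (nat_lit 2137896097),Int.negSucc (nat_lit 242634000),Int.ofNat (nat_lit 2803141767),Int.ofNat (nat_lit 1154835354),Int.ofNat (nat_lit 583949501),Int.ofNat (nat_lit 2677991700),Int.negSucc (nat_lit 3376119024),Int.ofNat (nat_lit 4539587619)])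

/-- A row. -/
noncomputable def sr7_c0_47 : List ℕ × List ℤ :=
  ([(nat_lit 1),(nat_lit 3),(nat_lit 1),(nat_lit 0),(nat_lit 0),(nat_lit 0),(nat_lit 0),(nat_lit 0),(nat_lit 0),(nat_lit 0),(nat_lit 0),(nat_lit 0)], [Int.ofNat (nat_lit 6114864498),Int.ofNat (nat_lit 1669587423),Int.negSucc (nat_lit 1618808676),Int.negSucc (nat_lit 787743384),Int.ofNat (nat_lit 1074636559),Int.negSucc (nat_lit 532306725),Int.ofNat (nat_lit 1131296472),Int.negSucc (nat_lit 1489484976),Int.negSucc (nat_lit 555830449),Int.ofNat (nat_lit 1459016229),Int.negSucc (nat_lit 210482663),Int.ofNat (nat_lit 323998938),Int.ofNat (nat_lit 691890789),Int.ofNat (nat_lit 3096699016),Int.ofNat (nat_lit 928519010),Int.negSucc (nat_lit 783026538),Int.ofNat (nat_lit 1433071259),Int.ofNat (nat_lit 1203727130),Int.negSucc (nat_lit 1427811432),Int.negSucc (nat_lit 962119839),Int.negSucc (nat_lit 493394077),Int.negSucc (nat_lit 2449630544),Int.ofNat (nat_lit 545780509),Int.negSucc (nat_lit 603809107),Int.negSucc (nat_lit 1214835956),Int.negSucc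 (nat_lit 3155482123),Int.negSucc (nat_lit 2869659829),Int.negSucc (nat_lit 1587590245),Int.negSucc (nat_lit 3257384088),Int.negSucc (nat_lit 173264688),Int.ofNat (nat_lit 32965424),Int.ofNat (nat_lit 1006674320),Int.ofNat (nat_lit 356745052),Int.negSucc (nat_lit 426369898),Int.negSucc (nat_lit 619767151),Int.negSucc (nat_lit 99951339),Int.negSucc (nat_lit 321143499),Int.ofNat (nat_lit 280670663),Int.negSucc (nat_lit 1644216569),Int.negSucc (nat_lit 1260958394),Int.ofNat (nat_lit 314634576),Int.ofNat (nat_lit 1120909867),Int.negSucc (nat_lit 723879361),Int.ofNat (nat_lit 766334240),Int.ofNat (nat_lit 739336423),Int.ofNat (nat_lit 191199597),Int.ofNat (nat_lit 2852639127),Int.ofNat (nat_lit 3855476978)])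

/-- A row. -/
noncomputable def sr7_c0_48 : List ℕ × List ℤ :=
  ([(nat_lit 1),(nat_lit 5),(nat_lit 0),(nat_lit 0),(nat_lit 0),(nat_lit 0),(nat_lit 0),(nat_lit 0),(nat_lit 0),(nat_lit 0),(nat_lit 0),(nat_lit 0)], [Int.negSucc (nat_lit 357720085),Int.ofNat (nat_lit 1340148541),Int.ofNat (nat_lit 730113065),Int.ofNat (nat_lit 670710364),Int.negSucc (nat_lit 953895871),Int.negSucc (nat_lit 332906958),Int.negSucc (nat_lit 1677490489),Int.negSucc (nat_lit 1558342486),Int.ofNat (nat_lit 1393252320),Int.ofNat (nat_lit 735525362),Int.ofNat (nat_lit 1719857485),Int.ofNat (nat_lit 128541678),Int.negSucc (nat_lit 543687657),Int.negSucc (nat_lit 695999376),Int.negSucc (nat_lit 1934358166),Int.ofNat (nat_lit 1040901001),Int.negSucc (nat_lit 781373502),Int.ofNat (nat_lit 3000946920),Int.negSucc (nat_lit 1130350791),Int.ofNat (nat_lit 2298621318),Int.ofNat (nat_lit 993179042),Int.negSucc (nat_lit 1798125279),Int.ofNat (nat_lit 112860059),Int.ofNat (nat_lit 511521606),Int.ofNat (nat_lit 227364340),Int.ofNat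 (nat_lit 36306335),Int.ofNat (nat_lit 4574855989),Int.ofNat (nat_lit 849537802),Int.negSucc (nat_lit 2496582530),Int.negSucc (nat_lit 2761742552),Int.negSucc (nat_lit 1926145511),Int.ofNat (nat_lit 114172320),Int.ofNat (nat_lit 810106601),Int.ofNat (nat_lit 274170320),Int.negSucc (nat_lit 615091689),Int.negSucc (nat_lit 471256749),Int.ofNat (nat_lit 188452818),Int.ofNat (nat_lit 96857666),Int.ofNat (nat_lit 867005039),Int.ofNat (nat_lit 1071702435),Int.ofNat (nat_lit 119418869),Int.negSucc (nat_lit 1647058476),Int.negSucc (nat_lit 319679832),Int.negSucc (nat_lit 216150460),Int.negSucc (nat_lit 1450863431),Int.ofNat (nat_lit 1512041067),Int.negSucc (nat_lit 2441540132),Int.ofNat (nat_lit 3065724256),Int.ofNat (nat_lit 3985389577)])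

/-- A row. -/
noncomputable def sr7_c0_49 : List ℕ × List ℤ :=
  ([(nat_lit 2),(nat_lit 0),(nat_lit 0),(nat_lit 0),(nat_lit 0),(nat_lit 0),(nat_lit 0),(nat_lit 1),(nat_lit 0),(nat_lit 0),(nat_lit 0),(nat_lit 0)], [Int.ofNat (nat_lit 674881030),Int.ofNat (nat_lit 374649089),Int.ofNat (nat_lit 1311570474),Int.negSucc (nat_lit 404934773),Int.ofNat (nat_lit 326741462),Int.ofNat (nat_lit 384234674),Int.ofNat (nat_lit 331227733),Int.ofNat (nat_lit 809945361),Int.ofNat (nat_lit 305556690),Int.negSucc (nat_lit 938569385),Int.ofNat (nat_lit 45314123),Int.negSucc (nat_lit 223560267),Int.ofNat (nat_lit 345969881),Int.negSucc (nat_lit 183921149),Int.ofNat (nat_lit 265589544),Int.negSucc (nat_lit 29699617),Int.negSucc (nat_lit 84873988),Int.negSucc (nat_lit 347860192),Int.ofNat (nat_lit 66784568),Int.negSucc (nat_lit 6059382),Int.negSucc (nat_lit 99819792),Int.ofNat (nat_lit 15737767),Int.ofNat (nat_lit 267793670),Int.ofNat (nat_lit 135687126),Int.negSucc (nat_lit 110389919),Int.ofNat (nat_lit 185391025),Int.negSucc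 (nat_lit 16428996),Int.negSucc (nat_lit 190487640),Int.ofNat (nat_lit 7445936),Int.ofNat (nat_lit 58481846),Int.negSucc (nat_lit 24386584),Int.negSucc (nat_lit 268606826),Int.negSucc (nat_lit 781994221),Int.ofNat (nat_lit 1567458),Int.ofNat (nat_lit 29671181),Int.negSucc (nat_lit 2189232),Int.negSucc (nat_lit 21199098),Int.ofNat (nat_lit 28780246),Int.negSucc (nat_lit 31333039),Int.negSucc (nat_lit 22439463),Int.ofNat (nat_lit 11211018),Int.ofNat (nat_lit 16619547),Int.negSucc (nat_lit 13633863),Int.ofNat (nat_lit 10143241),Int.negSucc (nat_lit 10436059),Int.negSucc (nat_lit 8392375),Int.negSucc (nat_lit 10652964),Int.ofNat (nat_lit 25650284),Int.negSucc (nat_lit 9104095),Int.ofNat (nat_lit 139994044)])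

/-- A row. -/
noncomputable def sr7_c0_50 : List ℕ × List ℤ :=
  ([(nat_lit 2),(nat_lit 0),(nat_lit 0),(nat_lit 0),(nat_lit 0),(nat_lit 1),(nat_lit 0),(nat_lit 0),(nat_lit 0),(nat_lit 0),(nat_lit 0),(nat_lit 0)], [Int.ofNat (nat_lit 1120347500),Int.ofNat (nat_lit 1433817677),Int.negSucc (nat_lit 79880049),Int.ofNat (nat_lit 1881245815),Int.ofNat (nat_lit 1540444309),Int.negSucc (nat_lit 240834886),Int.negSucc (nat_lit 84091359),Int.negSucc (nat_lit 2003464471),Int.negSucc (nat_lit 344624697),Int.ofNat (nat_lit 779316717),Int.negSucc (nat_lit 1744888478),Int.ofNat (nat_lit 282695126),Int.negSucc (nat_lit 111852574),Int.ofNat (nat_lit 894247325),Int.negSucc (nat_lit 924218146),Int.negSucc (nat_lit 8667424),Int.negSucc (nat_lit 566923392),Int.ofNat (nat_lit 820697903),Int.ofNat (nat_lit 43418104),Int.ofNat (nat_lit 324205033),Int.ofNat (nat_lit 53110278),Int.ofNat (nat_lit 7902209),Int.ofNat (nat_lit 56768527),Int.ofNat (nat_lit 947967440),Int.ofNat (nat_lit 87887137),Int.negSucc (nat_lit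 496587258),Int.negSucc (nat_lit 76427245),Int.negSucc (nat_lit 87538336),Int.ofNat (nat_lit 484996882),Int.negSucc (nat_lit 58746480),Int.negSucc (nat_lit 213022440),Int.ofNat (nat_lit 936476792),Int.negSucc (nat_lit 161452768),Int.negSucc (nat_lit 2338000847),Int.negSucc (nat_lit 290893092),Int.negSucc (nat_lit 699820315),Int.ofNat (nat_lit 788233272),Int.negSucc (nat_lit 132588391),Int.ofNat (nat_lit 25291404),Int.negSucc (nat_lit 87471691),Int.ofNat (nat_lit 61799982),Int.ofNat (nat_lit 185664571),Int.ofNat (nat_lit 89753048),Int.negSucc (nat_lit 245185237),Int.negSucc (nat_lit 211216889),Int.ofNat (nat_lit 25778927),Int.negSucc (nat_lit 5525361),Int.negSucc (nat_lit 34945442),Int.ofNat (nat_lit 16370927),Int.negSucc (nat_lit 134812688),Int.ofNat (nat_lit 530878123)])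

/-- A row. -/
noncomputable def sr7_c0_51 : List ℕ × List ℤ :=
  ([(nat_lit 2),(nat_lit 0),(nat_lit 0),(nat_lit 1),(nat_lit 0),(nat_lit 0),(nat_lit 0),(nat_lit 0),(nat_lit 0),(nat_lit 0),(nat_lit 0),(nat_lit 0)], [Int.negSucc (nat_lit 3307131034),Int.negSucc (nat_lit 2291343386),Int.ofNat (nat_lit 2063417583),Int.negSucc (nat_lit 3626140187),Int.ofNat (nat_lit 819394505),Int.ofNat (nat_lit 3725910762),Int.negSucc (nat_lit 2506864982),Int.ofNat (nat_lit 3072973297),Int.ofNat (nat_lit 1901641262),Int.negSucc (nat_lit 1411408924),Int.ofNat (nat_lit 1033266695),Int.negSucc (nat_lit 2051577793),Int.negSucc (nat_lit 369222255),Int.negSucc (nat_lit 235600641),Int.negSucc (nat_lit 457922646),Int.ofNat (nat_lit 380045857),Int.ofNat (nat_lit 626335420),Int.negSucc (nat_lit 256422845),Int.ofNat (nat_lit 329419006),Int.negSucc (nat_lit 281219687),Int.ofNat (nat_lit 457772669),Int.ofNat (nat_lit 222728941),Int.ofNat (nat_lit 123427981),Int.negSucc (nat_lit 164231316),Int.ofNat (nat_lit 40089651),Int.negSucc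 (nat_lit 430364569),Int.ofNat (nat_lit 85689313),Int.ofNat (nat_lit 548823076),Int.negSucc (nat_lit 295025857),Int.ofNat (nat_lit 53403379),Int.ofNat (nat_lit 246178221),Int.negSucc (nat_lit 809819597),Int.ofNat (nat_lit 1039299623),Int.ofNat (nat_lit 186468267),Int.negSucc (nat_lit 3185776495),Int.negSucc (nat_lit 208704807),Int.negSucc (nat_lit 458408273),Int.ofNat (nat_lit 903239660),Int.ofNat (nat_lit 122794091),Int.ofNat (nat_lit 398645478),Int.ofNat (nat_lit 50461006),Int.negSucc (nat_lit 140946887),Int.negSucc (nat_lit 81175739),Int.ofNat (nat_lit 191735872),Int.negSucc (nat_lit 86473534),Int.negSucc (nat_lit 213718121),Int.negSucc (nat_lit 16408291),Int.negSucc (nat_lit 45084999),Int.negSucc (nat_lit 43571825),Int.negSucc (nat_lit 164096125),Int.ofNat (nat_lit 33889962),Int.ofNat (nat_lit 1160438161)])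

/-- A row. -/
noncomputable def sr7_c0_52 : List ℕ × List ℤ :=
  ([(nat_lit 2),(nat_lit 0),(nat_lit 1),(nat_lit 1),(nat_lit 0),(nat_lit 0),(nat_lit 0),(nat_lit 0),(nat_lit 0),(nat_lit 0),(nat_lit 0),(nat_lit 0)], [Int.negSucc (nat_lit 2156593392),Int.negSucc (nat_lit 1521800953),Int.ofNat (nat_lit 796091257),Int.negSucc (nat_lit 1194785913),Int.ofNat (nat_lit 1427648132),Int.ofNat (nat_lit 731460603),Int.negSucc (nat_lit 1987265621),Int.ofNat (nat_lit 1939441496),Int.negSucc (nat_lit 514965702),Int.negSucc (nat_lit 812917433),Int.ofNat (nat_lit 264743341),Int.negSucc (nat_lit 953669018),Int.negSucc (nat_lit 2473405560),Int.negSucc (nat_lit 23278267),Int.negSucc (nat_lit 355487642),Int.ofNat (nat_lit 253171643),Int.ofNat (nat_lit 263975447),Int.negSucc (nat_lit 156967711),Int.ofNat (nat_lit 185675478),Int.negSucc (nat_lit 2522891),Int.ofNat (nat_lit 489487531),Int.negSucc (nat_lit 78287715),Int.ofNat (nat_lit 169763337),Int.ofNat (nat_lit 88175010),Int.negSucc (nat_lit 10222930),Int.negSucc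 (nat_lit 288743094),Int.negSucc (nat_lit 124107608),Int.ofNat (nat_lit 202435886),Int.ofNat (nat_lit 80498833),Int.ofNat (nat_lit 40098905),Int.ofNat (nat_lit 52632776),Int.negSucc (nat_lit 304973681),Int.ofNat (nat_lit 233433517),Int.negSucc (nat_lit 115610438),Int.negSucc (nat_lit 1557664395),Int.negSucc (nat_lit 155491673),Int.negSucc (nat_lit 79211887),Int.negSucc (nat_lit 943223928),Int.ofNat (nat_lit 48188605),Int.ofNat (nat_lit 137969702),Int.ofNat (nat_lit 118659971),Int.negSucc (nat_lit 17687680),Int.ofNat (nat_lit 21566821),Int.ofNat (nat_lit 48383301),Int.negSucc (nat_lit 37675712),Int.negSucc (nat_lit 57674377),Int.negSucc (nat_lit 7529151),Int.negSucc (nat_lit 12582928),Int.ofNat (nat_lit 22206221),Int.negSucc (nat_lit 31863862),Int.ofNat (nat_lit 118211706),Int.ofNat (nat_lit 198081411),Int.ofNat (nat_lit 451993405)])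

/-- A row. -/
noncomputable def sr7_c0_53 : List ℕ × List ℤ :=
  ([(nat_lit 2),(nat_lit 1),(nat_lit 0),(nat_lit 0),(nat_lit 0),(nat_lit 0),(nat_lit 0),(nat_lit 0),(nat_lit 0),(nat_lit 0),(nat_lit 0),(nat_lit 0)], [Int.ofNat (nat_lit 2927659647),Int.negSucc (nat_lit 1059844664),Int.ofNat (nat_lit 4654029306),Int.ofNat (nat_lit 236648805),Int.negSucc (nat_lit 2031850008),Int.ofNat (nat_lit 1048854648),Int.negSucc (nat_lit 2590480880),Int.negSucc (nat_lit 661649591),Int.negSucc (nat_lit 30312989),Int.ofNat (nat_lit 848627539),Int.negSucc (nat_lit 282132171),Int.ofNat (nat_lit 1514495727),Int.ofNat (nat_lit 640023564),Int.ofNat (nat_lit 4174863698),Int.ofNat (nat_lit 229686514),Int.negSucc (nat_lit 983063707),Int.negSucc (nat_lit 593201423),Int.ofNat (nat_lit 689456216),Int.ofNat (nat_lit 1103324403),Int.negSucc (nat_lit 3204277499),Int.ofNat (nat_lit 800990052),Int.negSucc (nat_lit 1238321062),Int.ofNat (nat_lit 1273525624),Int.ofNat (nat_lit 693284447),Int.negSucc (nat_lit 105963251),Int.ofNat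 (nat_lit 134437587),Int.ofNat (nat_lit 432700831),Int.negSucc (nat_lit 1070548757),Int.ofNat (nat_lit 474380695),Int.negSucc (nat_lit 835769739),Int.ofNat (nat_lit 120421274),Int.negSucc (nat_lit 1189146373),Int.negSucc (nat_lit 693217594),Int.negSucc (nat_lit 273788628),Int.ofNat (nat_lit 382348360),Int.ofNat (nat_lit 462102150),Int.ofNat (nat_lit 2259429039),Int.negSucc (nat_lit 702286684),Int.negSucc (nat_lit 9074439220),Int.ofNat (nat_lit 2614169379),Int.negSucc (nat_lit 1378345055),Int.negSucc (nat_lit 841513367),Int.ofNat (nat_lit 619492264),Int.negSucc (nat_lit 109980761),Int.negSucc (nat_lit 468114644),Int.negSucc (nat_lit 78959596),Int.negSucc (nat_lit 1060942124),Int.ofNat (nat_lit 525976),Int.ofNat (nat_lit 138935337),Int.ofNat (nat_lit 555699234),Int.ofNat (nat_lit 173905094),Int.negSucc (nat_lit 1311341612),Int.ofNat (nat_lit 153113823),Int.ofNat (nat_lit 2714799513)])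

/-- A row. -/
noncomputable def sr7_c0_54 : List ℕ × List ℤ :=
  ([(nat_lit 2),(nat_lit 1),(nat_lit 0),(nat_lit 0),(nat_lit 1),(nat_lit 0),(nat_lit 0),(nat_lit 0),(nat_lit 0),(nat_lit 0),(nat_lit 0),(nat_lit 0)], [Int.ofNat (nat_lit 123737685),Int.negSucc (nat_lit 23670800),Int.ofNat (nat_lit 641354699),Int.negSucc (nat_lit 906727764),Int.ofNat (nat_lit 303131012),Int.negSucc (nat_lit 2759536544),Int.negSucc (nat_lit 471820128),Int.ofNat (nat_lit 1037251974),Int.negSucc (nat_lit 2725278789),Int.ofNat (nat_lit 969583809),Int.ofNat (nat_lit 104505690),Int.negSucc (nat_lit 342870634),Int.negSucc (nat_lit 953328152),Int.ofNat (nat_lit 216894028),Int.negSucc (nat_lit 1234857427),Int.ofNat (nat_lit 562066898),Int.ofNat (nat_lit 1561881728),Int.negSucc (nat_lit 734703747),Int.negSucc (nat_lit 515471680),Int.ofNat (nat_lit 1184435198),Int.negSucc (nat_lit 2096459697),Int.ofNat (nat_lit 171450084),Int.negSucc (nat_lit 472041973),Int.negSucc (nat_lit 417191155),Int.ofNat (nat_lit 601248548),Int.negSucc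 (nat_lit 312793186),Int.negSucc (nat_lit 203018302),Int.ofNat (nat_lit 689130593),Int.negSucc (nat_lit 276156730),Int.negSucc (nat_lit 449722850),Int.negSucc (nat_lit 156299627),Int.ofNat (nat_lit 1037552956),Int.ofNat (nat_lit 270464444),Int.ofNat (nat_lit 52126613),Int.ofNat (nat_lit 1031975394),Int.negSucc (nat_lit 1361473736),Int.negSucc (nat_lit 187018852),Int.negSucc (nat_lit 193941200),Int.ofNat (nat_lit 1197111093),Int.negSucc (nat_lit 99863694),Int.negSucc (nat_lit 2325245159),Int.ofNat (nat_lit 291458732),Int.ofNat (nat_lit 21438275),Int.ofNat (nat_lit 49192188),Int.ofNat (nat_lit 64087013),Int.negSucc (nat_lit 72099927),Int.negSucc (nat_lit 754007),Int.ofNat (nat_lit 113283660),Int.negSucc (nat_lit 15617426),Int.ofNat (nat_lit 205719190),Int.ofNat (nat_lit 64885110),Int.negSucc (nat_lit 94162869),Int.negSucc (nat_lit 56625710),Int.negSucc (nat_lit 79790814),Int.ofNat (nat_lit 535138127)])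

/-- A row. -/
noncomputable def sr7_c0_55 : List ℕ × List ℤ :=
  ([(nat_lit 2),(nat_lit 1),(nat_lit 1),(nat_lit 0),(nat_lit 0),(nat_lit 0),(nat_lit 0),(nat_lit 0),(nat_lit 0),(nat_lit 0),(nat_lit 0),(nat_lit 0)], [Int.negSucc (nat_lit 3163762068),Int.negSucc (nat_lit 3705017715),Int.ofNat (nat_lit 4465756441),Int.ofNat (nat_lit 1805469148),Int.negSucc (nat_lit 2063186856),Int.ofNat (nat_lit 1011361355),Int.negSucc (nat_lit 3294762044),Int.ofNat (nat_lit 1041724591),Int.negSucc (nat_lit 301901343),Int.negSucc (nat_lit 111230676),Int.ofNat (nat_lit 457588664),Int.ofNat (nat_lit 2454037520),Int.negSucc (nat_lit 351892002),Int.ofNat (nat_lit 2211671899),Int.negSucc (nat_lit 496952601),Int.ofNat (nat_lit 429236012),Int.ofNat (nat_lit 1143224642),Int.negSucc (nat_lit 426162012),Int.ofNat (nat_lit 896794857),Int.negSucc (nat_lit 1935131702),Int.negSucc (nat_lit 69260451),Int.negSucc (nat_lit 1863670138),Int.ofNat (nat_lit 694689319),Int.ofNat (nat_lit 287678836),Int.ofNat (nat_lit 18394822),Int.ofNat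 (nat_lit 1276575888),Int.negSucc (nat_lit 600923018),Int.negSucc (nat_lit 548666003),Int.ofNat (nat_lit 475715742),Int.negSucc (nat_lit 1127649761),Int.ofNat (nat_lit 19241720),Int.negSucc (nat_lit 943825751),Int.negSucc (nat_lit 364474928),Int.ofNat (nat_lit 107005995),Int.ofNat (nat_lit 138734273),Int.negSucc (nat_lit 83319157),Int.ofNat (nat_lit 762197146),Int.ofNat (nat_lit 528577238),Int.negSucc (nat_lit 6347062371),Int.ofNat (nat_lit 3640286265),Int.negSucc (nat_lit 2027254990),Int.negSucc (nat_lit 1515210095),Int.negSucc (nat_lit 3773856713),Int.ofNat (nat_lit 1661909149),Int.negSucc (nat_lit 485116435),Int.ofNat (nat_lit 133453083),Int.negSucc (nat_lit 727232652),Int.negSucc (nat_lit 680701674),Int.ofNat (nat_lit 92091948),Int.ofNat (nat_lit 45991852),Int.ofNat (nat_lit 94297596),Int.ofNat (nat_lit 24918153),Int.negSucc (nat_lit 355016045),Int.ofNat (nat_lit 2400942162),Int.negSucc (nat_lit 477655160),Int.ofNat (nat_lit 1464639275)])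

/-- A row. -/
noncomputable def sr7_c0_56 : List ℕ × List ℤ :=
  ([(nat_lit 2),(nat_lit 2),(nat_lit 0),(nat_lit 1),(nat_lit 0),(nat_lit 0),(nat_lit 0),(nat_lit 0),(nat_lit 0),(nat_lit 0),(nat_lit 0),(nat_lit 0)], [Int.negSucc (nat_lit 6320614687),Int.ofNat (nat_lit 377487459),Int.ofNat (nat_lit 1290546120),Int.negSucc (nat_lit 1987624125),Int.negSucc (nat_lit 419544514),Int.negSucc (nat_lit 1414831965),Int.ofNat (nat_lit 224500077),Int.ofNat (nat_lit 2345543700),Int.ofNat (nat_lit 1069490735),Int.ofNat (nat_lit 1147677821),Int.ofNat (nat_lit 418030194),Int.negSucc (nat_lit 637004775),Int.negSucc (nat_lit 1454465580),Int.negSucc (nat_lit 344936715),Int.ofNat (nat_lit 392985513),Int.negSucc (nat_lit 640994102),Int.ofNat (nat_lit 384289162),Int.negSucc (nat_lit 791269548),Int.ofNat (nat_lit 5984395486),Int.ofNat (nat_lit 443395078),Int.negSucc (nat_lit 548703752),Int.negSucc (nat_lit 67180364),Int.ofNat (nat_lit 367533037),Int.ofNat (nat_lit 831683299),Int.ofNat (nat_lit 2198993088),Int.negSucc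 (nat_lit 3440772731),Int.ofNat (nat_lit 1521764009),Int.ofNat (nat_lit 345373872),Int.negSucc (nat_lit 1906608351),Int.ofNat (nat_lit 1097102603),Int.negSucc (nat_lit 34508310),Int.ofNat (nat_lit 398179460),Int.negSucc (nat_lit 1414481936),Int.ofNat (nat_lit 1356961800),Int.ofNat (nat_lit 2443067537),Int.ofNat (nat_lit 282007231),Int.ofNat (nat_lit 37729518),Int.negSucc (nat_lit 1208330693),Int.ofNat (nat_lit 1187860334),Int.negSucc (nat_lit 1507555358),Int.ofNat (nat_lit 869183539),Int.negSucc (nat_lit 771897310),Int.ofNat (nat_lit 1061289555),Int.ofNat (nat_lit 1106149598),Int.ofNat (nat_lit 54328470),Int.negSucc (nat_lit 6375993796),Int.negSucc (nat_lit 967810811),Int.ofNat (nat_lit 133700753),Int.ofNat (nat_lit 306811174),Int.ofNat (nat_lit 375594133),Int.negSucc (nat_lit 236502932),Int.ofNat (nat_lit 72147546),Int.ofNat (nat_lit 256326883),Int.negSucc (nat_lit 575839136),Int.ofNat (nat_lit 743451729),Int.negSucc (nat_lit 495217216),Int.ofNat (nat_lit 2148953266)])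

/-- A row. -/
noncomputable def sr7_c0_57 : List ℕ × List ℤ :=
  ([(nat_lit 2),(nat_lit 3),(nat_lit 0),(nat_lit 0),(nat_lit 0),(nat_lit 0),(nat_lit 0),(nat_lit 0),(nat_lit 0),(nat_lit 0),(nat_lit 0),(nat_lit 0)], [Int.ofNat (nat_lit 815467427),Int.negSucc (nat_lit 3834597042),Int.negSucc (nat_lit 657798863),Int.ofNat (nat_lit 2724444843),Int.ofNat (nat_lit 1362504493),Int.ofNat (nat_lit 127400338),Int.ofNat (nat_lit 1116014579),Int.negSucc (nat_lit 421361006),Int.negSucc (nat_lit 216574002),Int.negSucc (nat_lit 1384023573),Int.negSucc (nat_lit 129534430),Int.ofNat (nat_lit 845987854),Int.negSucc (nat_lit 650167713),Int.negSucc (nat_lit 1261299815),Int.negSucc (nat_lit 1150372),Int.ofNat (nat_lit 817371093),Int.ofNat (nat_lit 846189515),Int.negSucc (nat_lit 1253916269),Int.negSucc (nat_lit 1886483537),Int.ofNat (nat_lit 1679525157),Int.negSucc (nat_lit 374312281),Int.ofNat (nat_lit 263029951),Int.negSucc (nat_lit 848371387),Int.negSucc (nat_lit 1648661774),Int.ofNat (nat_lit 1638782685),Int.ofNat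 (nat_lit 1178982182),Int.negSucc (nat_lit 1836647245),Int.ofNat (nat_lit 754667610),Int.ofNat (nat_lit 1478085191),Int.negSucc (nat_lit 353809666),Int.negSucc (nat_lit 3038016167),Int.ofNat (nat_lit 290350753),Int.ofNat (nat_lit 104567404),Int.negSucc (nat_lit 524072427),Int.negSucc (nat_lit 644617666),Int.ofNat (nat_lit 74085721),Int.negSucc (nat_lit 1354815165),Int.ofNat (nat_lit 1255518381),Int.ofNat (nat_lit 4449383479),Int.negSucc (nat_lit 30554341),Int.ofNat (nat_lit 1286177280),Int.ofNat (nat_lit 249139281),Int.negSucc (nat_lit 4697441117),Int.ofNat (nat_lit 1460609147),Int.ofNat (nat_lit 914578697),Int.ofNat (nat_lit 1345490643),Int.negSucc (nat_lit 3052695390),Int.ofNat (nat_lit 480683391),Int.negSucc (nat_lit 1193790843),Int.negSucc (nat_lit 1502261172),Int.ofNat (nat_lit 526757657),Int.ofNat (nat_lit 459014014),Int.negSucc (nat_lit 623984960),Int.negSucc (nat_lit 2611219820),Int.negSucc (nat_lit 1125248487),Int.ofNat (nat_lit 3595339902),Int.negSucc (nat_lit 2099834845),Int.ofNat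 (nat_lit 4460947416)])

/-- A row. -/
noncomputable def sr7_c0_58 : List ℕ × List ℤ :=
  ([(nat_lit 3),(nat_lit 0),(nat_lit 0),(nat_lit 0),(nat_lit 0),(nat_lit 1),(nat_lit 0),(nat_lit 0),(nat_lit 0),(nat_lit 0),(nat_lit 0),(nat_lit 0)], [Int.negSucc (nat_lit 209083592),Int.negSucc (nat_lit 61945394),Int.negSucc (nat_lit 1071188267),Int.negSucc (nat_lit 108693278),Int.negSucc (nat_lit 72691009),Int.ofNat (nat_lit 806160278),Int.ofNat (nat_lit 486868415),Int.ofNat (nat_lit 1308448074),Int.ofNat (nat_lit 765753599),Int.negSucc (nat_lit 166801096),Int.ofNat (nat_lit 1262548986),Int.negSucc (nat_lit 156500947),Int.ofNat (nat_lit 339816377),Int.negSucc (nat_lit 977808889),Int.ofNat (nat_lit 1075186336),Int.negSucc (nat_lit 129381517),Int.ofNat (nat_lit 402612045),Int.negSucc (nat_lit 314632475),Int.ofNat (nat_lit 88578614),Int.negSucc (nat_lit 296622153),Int.ofNat (nat_lit 59594027),Int.ofNat (nat_lit 104366999),Int.negSucc (nat_lit 81583319),Int.negSucc (nat_lit 450481728),Int.negSucc (nat_lit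 38674859),Int.ofNat (nat_lit 443387389),Int.ofNat (nat_lit 65427131),Int.ofNat (nat_lit 84138273),Int.negSucc (nat_lit 352409648),Int.ofNat (nat_lit 43829819),Int.ofNat (nat_lit 193126608),Int.negSucc (nat_lit 261997159),Int.ofNat (nat_lit 6967693),Int.ofNat (nat_lit 1411007115),Int.ofNat (nat_lit 423265891),Int.ofNat (nat_lit 986263248),Int.negSucc (nat_lit 1126201361),Int.ofNat (nat_lit 139663159),Int.ofNat (nat_lit 8570671),Int.ofNat (nat_lit 176970801),Int.negSucc (nat_lit 99674665),Int.negSucc (nat_lit 271594928),Int.negSucc (nat_lit 171832372),Int.ofNat (nat_lit 323567342),Int.ofNat (nat_lit 122716950),Int.ofNat (nat_lit 453662),Int.ofNat (nat_lit 35059865),Int.negSucc (nat_lit 6450831),Int.negSucc (nat_lit 5929532),Int.negSucc (nat_lit 377685),Int.negSucc (nat_lit 815494453),Int.ofNat (nat_lit 65505085),Int.ofNat (nat_lit 26040063),Int.ofNat (nat_lit 8571097),Int.negSucc (nat_lit 74191744),Int.ofNat (nat_lit 60622234),Int.ofNat (nat_lit 8093732),Int.negSucc (nat_lit 22824384),Int.ofNat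 (nat_lit 166126002)])

/-- A row. -/
noncomputable def sr7_c0_59 : List ℕ × List ℤ :=
  ([(nat_lit 3),(nat_lit 0),(nat_lit 0),(nat_lit 1),(nat_lit 0),(nat_lit 0),(nat_lit 0),(nat_lit 0),(nat_lit 0),(nat_lit 0),(nat_lit 0),(nat_lit 0)], [Int.negSucc (nat_lit 1773453360),Int.ofNat (nat_lit 1504697771),Int.negSucc (nat_lit 578557117),Int.negSucc (nat_lit 841605262),Int.ofNat (nat_lit 570627581),Int.ofNat (nat_lit 2202542184),Int.ofNat (nat_lit 26649450),Int.negSucc (nat_lit 904066637),Int.negSucc (nat_lit 157446351),Int.ofNat (nat_lit 116030375),Int.negSucc (nat_lit 637668289),Int.ofNat (nat_lit 606104201),Int.negSucc (nat_lit 761265019),Int.negSucc (nat_lit 392344459),Int.ofNat (nat_lit 835790901),Int.ofNat (nat_lit 261055717),Int.negSucc (nat_lit 54547698),Int.ofNat (nat_lit 130860649),Int.negSucc (nat_lit 12373652),Int.ofNat (nat_lit 273165331),Int.ofNat (nat_lit 199695122),Int.negSucc (nat_lit 792068574),Int.negSucc (nat_lit 247496353),Int.ofNat (nat_lit 301502040),Int.negSucc (nat_lit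 92860660),Int.ofNat (nat_lit 496091541),Int.negSucc (nat_lit 218277573),Int.negSucc (nat_lit 613020462),Int.ofNat (nat_lit 709876238),Int.ofNat (nat_lit 186540481),Int.negSucc (nat_lit 220764589),Int.negSucc (nat_lit 74142656),Int.negSucc (nat_lit 1188488875),Int.ofNat (nat_lit 172707539),Int.ofNat (nat_lit 1086974146),Int.ofNat (nat_lit 827369726),Int.ofNat (nat_lit 460195272),Int.negSucc (nat_lit 2320171444),Int.negSucc (nat_lit 199492054),Int.negSucc (nat_lit 487971790),Int.ofNat (nat_lit 69697741),Int.ofNat (nat_lit 158007937),Int.ofNat (nat_lit 279255185),Int.negSucc (nat_lit 256133280),Int.ofNat (nat_lit 376875825),Int.ofNat (nat_lit 215981592),Int.ofNat (nat_lit 90465904),Int.ofNat (nat_lit 240648888),Int.ofNat (nat_lit 153524510),Int.ofNat (nat_lit 789593130),Int.negSucc (nat_lit 331005257),Int.negSucc (nat_lit 2908648456),Int.ofNat (nat_lit 1076816090),Int.ofNat (nat_lit 6393064),Int.negSucc (nat_lit 210886086),Int.negSucc (nat_lit 139963409),Int.negSucc (nat_lit 260916116),Int.ofNat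 (nat_lit 76246050),Int.ofNat (nat_lit 59898528),Int.ofNat (nat_lit 795874026)])

/-- A row. -/
noncomputable def sr7_c0_60 : List ℕ × List ℤ :=
  ([(nat_lit 3),(nat_lit 1),(nat_lit 0),(nat_lit 0),(nat_lit 0),(nat_lit 0),(nat_lit 0),(nat_lit 0),(nat_lit 0),(nat_lit 0),(nat_lit 0),(nat_lit 0)], [Int.ofNat (nat_lit 4884492732),Int.ofNat (nat_lit 4115332998),Int.negSucc (nat_lit 4481204050),Int.negSucc (nat_lit 211369442),Int.ofNat (nat_lit 3595545293),Int.negSucc (nat_lit 1302759016),Int.ofNat (nat_lit 5961346030),Int.negSucc (nat_lit 3268940498),Int.ofNat (nat_lit 1103406545),Int.ofNat (nat_lit 1363131464),Int.negSucc (nat_lit 99638609),Int.ofNat (nat_lit 2065015599),Int.ofNat (nat_lit 2599841485),Int.ofNat (nat_lit 4865689302),Int.ofNat (nat_lit 749151261),Int.negSucc (nat_lit 1185917993),Int.ofNat (nat_lit 1292671699),Int.ofNat (nat_lit 1895731201),Int.negSucc (nat_lit 325497284),Int.ofNat (nat_lit 2034468346),Int.ofNat (nat_lit 1759026201),Int.ofNat (nat_lit 1659501874),Int.negSucc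 (nat_lit 1262811784),Int.negSucc (nat_lit 959288966),Int.ofNat (nat_lit 409525095),Int.negSucc (nat_lit 351440680),Int.ofNat (nat_lit 1039120494),Int.ofNat (nat_lit 473956422),Int.negSucc (nat_lit 757570771),Int.ofNat (nat_lit 1118500894),Int.negSucc (nat_lit 483933373),Int.ofNat (nat_lit 3205887095),Int.ofNat (nat_lit 932170056),Int.negSucc (nat_lit 1101824114),Int.ofNat (nat_lit 1521484511),Int.ofNat (nat_lit 342394361),Int.negSucc (nat_lit 1194231465),Int.ofNat (nat_lit 1538047829),Int.ofNat (nat_lit 6315261436),Int.negSucc (nat_lit 4144185963),Int.ofNat (nat_lit 2799830412),Int.ofNat (nat_lit 1622545449),Int.negSucc (nat_lit 376367024),Int.negSucc (nat_lit 1116411547),Int.ofNat (nat_lit 506569742),Int.ofNat (nat_lit 557813315),Int.ofNat (nat_lit 1079850378),Int.ofNat (nat_lit 318800952),Int.negSucc (nat_lit 279299974),Int.negSucc (nat_lit 1923529653),Int.ofNat (nat_lit 159200355),Int.ofNat (nat_lit 1993820104),Int.negSucc (nat_lit 980606865),Int.negSucc (nat_lit 5954990120),Int.negSucc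 (nat_lit 821291691),Int.ofNat (nat_lit 270317010),Int.ofNat (nat_lit 422323501),Int.negSucc (nat_lit 197106118),Int.negSucc (nat_lit 308446761),Int.negSucc (nat_lit 389336170),Int.ofNat (nat_lit 1608818777)])

/-- A row. -/
noncomputable def sr7_c0_61 : List ℕ × List ℤ :=
  ([(nat_lit 3),(nat_lit 1),(nat_lit 1),(nat_lit 0),(nat_lit 0),(nat_lit 0),(nat_lit 0),(nat_lit 0),(nat_lit 0),(nat_lit 0),(nat_lit 0),(nat_lit 0)], [Int.ofNat (nat_lit 6406459479),Int.ofNat (nat_lit 2308887297),Int.negSucc (nat_lit 228267135),Int.negSucc (nat_lit 3137536700),Int.ofNat (nat_lit 3268221651),Int.ofNat (nat_lit 1876684477),Int.ofNat (nat_lit 2301113164),Int.negSucc (nat_lit 2747638114),Int.ofNat (nat_lit 1154359307),Int.ofNat (nat_lit 295801831),Int.negSucc (nat_lit 89408319),Int.negSucc (nat_lit 229766435),Int.ofNat (nat_lit 3096389526),Int.ofNat (nat_lit 3663225769),Int.ofNat (nat_lit 706415179),Int.negSucc (nat_lit 1718480644),Int.ofNat (nat_lit 2049844179),Int.ofNat (nat_lit 680471626),Int.ofNat (nat_lit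 200472724),Int.ofNat (nat_lit 3163224912),Int.ofNat (nat_lit 2540225627),Int.ofNat (nat_lit 1448774923),Int.negSucc (nat_lit 807653904),Int.negSucc (nat_lit 446963708),Int.ofNat (nat_lit 310179641),Int.negSucc (nat_lit 226732303),Int.ofNat (nat_lit 729857631),Int.ofNat (nat_lit 279629754),Int.negSucc (nat_lit 76001715),Int.ofNat (nat_lit 551279391),Int.negSucc (nat_lit 118324286),Int.ofNat (nat_lit 1251113886),Int.negSucc (nat_lit 172495102),Int.ofNat (nat_lit 231269412),Int.ofNat (nat_lit 540774920),Int.ofNat (nat_lit 683237388),Int.ofNat (nat_lit 536687789),Int.ofNat (nat_lit 877651305),Int.ofNat (nat_lit 3782514803),Int.negSucc (nat_lit 2272230873),Int.ofNat (nat_lit 2034830058),Int.ofNat (nat_lit 945461978),Int.ofNat (nat_lit 1562065044),Int.negSucc (nat_lit 2866367482),Int.ofNat (nat_lit 579591736),Int.ofNat (nat_lit 2013211),Int.ofNat (nat_lit 418382615),Int.ofNat (nat_lit 545646802),Int.ofNat (nat_lit 355910),Int.negSucc (nat_lit 288178795),Int.negSucc (nat_lit 153956559),Int.negSucc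 (nat_lit 474153589),Int.negSucc (nat_lit 9553289),Int.negSucc (nat_lit 3190566519),Int.negSucc (nat_lit 450380260),Int.negSucc (nat_lit 2321211261),Int.ofNat (nat_lit 201378548),Int.negSucc (nat_lit 160981665),Int.ofNat (nat_lit 59874503),Int.ofNat (nat_lit 98065569),Int.ofNat (nat_lit 551682826),Int.ofNat (nat_lit 880245793)])

/-- A row. -/
noncomputable def sr7_c0_62 : List ℕ × List ℤ :=
  ([(nat_lit 3),(nat_lit 3),(nat_lit 0),(nat_lit 0),(nat_lit 0),(nat_lit 0),(nat_lit 0),(nat_lit 0),(nat_lit 0),(nat_lit 0),(nat_lit 0),(nat_lit 0)], [Int.ofNat (nat_lit 1927281145),Int.ofNat (nat_lit 86084167),Int.ofNat (nat_lit 6206413868),Int.negSucc (nat_lit 346552372),Int.negSucc (nat_lit 1269429114),Int.ofNat (nat_lit 941767068),Int.negSucc (nat_lit 5535508637),Int.negSucc (nat_lit 672064917),Int.ofNat (nat_lit 468830633),Int.negSucc (nat_lit 1893807792),Int.ofNat (nat_lit 1073491076),Int.negSucc (nat_lit 1637049821),Int.ofNat (nat_lit 765133153),Int.negSucc (nat_lit 132556562),Int.negSucc (nat_lit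 3555540654),Int.ofNat (nat_lit 607838735),Int.negSucc (nat_lit 2230855245),Int.ofNat (nat_lit 410955043),Int.negSucc (nat_lit 1543484978),Int.ofNat (nat_lit 1540595107),Int.ofNat (nat_lit 2060577211),Int.ofNat (nat_lit 415272060),Int.ofNat (nat_lit 1097579048),Int.negSucc (nat_lit 830540607),Int.ofNat (nat_lit 32220597),Int.ofNat (nat_lit 2487396049),Int.ofNat (nat_lit 3891710026),Int.ofNat (nat_lit 2128966804),Int.negSucc (nat_lit 480246722),Int.negSucc (nat_lit 280338190),Int.ofNat (nat_lit 2475490316),Int.negSucc (nat_lit 3128373613),Int.negSucc (nat_lit 174135932),Int.ofNat (nat_lit 228909102),Int.negSucc (nat_lit 1178467710),Int.negSucc (nat_lit 1472894615),Int.ofNat (nat_lit 2818400982),Int.ofNat (nat_lit 193246000),Int.negSucc (nat_lit 1835627704),Int.ofNat (nat_lit 3796719781),Int.negSucc (nat_lit 1167964446),Int.negSucc (nat_lit 1406737338),Int.ofNat (nat_lit 3556848874),Int.negSucc (nat_lit 3543143279),Int.negSucc (nat_lit 1070971942),Int.ofNat (nat_lit 4866558209),Int.negSucc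 (nat_lit 2757875736),Int.negSucc (nat_lit 1809786171),Int.negSucc (nat_lit 1082483075),Int.ofNat (nat_lit 2346651824),Int.ofNat (nat_lit 142707531),Int.negSucc (nat_lit 772657548),Int.ofNat (nat_lit 215203563),Int.ofNat (nat_lit 4548144589),Int.ofNat (nat_lit 1062080657),Int.negSucc (nat_lit 5005525231),Int.negSucc (nat_lit 1768541792),Int.negSucc (nat_lit 6712572657),Int.ofNat (nat_lit 34177527),Int.negSucc (nat_lit 640312322),Int.negSucc (nat_lit 674736989),Int.ofNat (nat_lit 87953859),Int.ofNat (nat_lit 2726937042)])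

/-- A row. -/
noncomputable def sr7_c0_63 : List ℕ × List ℤ :=
  ([(nat_lit 4),(nat_lit 0),(nat_lit 0),(nat_lit 1),(nat_lit 0),(nat_lit 0),(nat_lit 0),(nat_lit 0),(nat_lit 0),(nat_lit 0),(nat_lit 0),(nat_lit 0)], [Int.ofNat (nat_lit 2146015699),Int.ofNat (nat_lit 303532443),Int.ofNat (nat_lit 955221370),Int.ofNat (nat_lit 1213650938),Int.negSucc (nat_lit 814834654),Int.negSucc (nat_lit 1928715834),Int.ofNat (nat_lit 862257699),Int.negSucc (nat_lit 1599794612),Int.ofNat (nat_lit 192567554),Int.ofNat (nat_lit 522769173),Int.negSucc (nat_lit 217362556),Int.ofNat (nat_lit 973149737),Int.ofNat (nat_lit 1649737985),Int.ofNat (nat_lit 690917612),Int.negSucc (nat_lit 383903140),Int.negSucc (nat_lit 416013263),Int.negSucc (nat_lit 497972908),Int.ofNat (nat_lit 32005381),Int.negSucc (nat_lit 194047368),Int.ofNat (nat_lit 92803431),Int.negSucc (nat_lit 700812434),Int.ofNat (nat_lit 520836376),Int.ofNat (nat_lit 177712604),Int.negSucc (nat_lit 141656925),Int.ofNat (nat_lit 10182283),Int.negSucc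 (nat_lit 196556000),Int.ofNat (nat_lit 164094945),Int.ofNat (nat_lit 11204452),Int.negSucc (nat_lit 301459534),Int.negSucc (nat_lit 84032241),Int.negSucc (nat_lit 25924439),Int.ofNat (nat_lit 415223587),Int.ofNat (nat_lit 94441699),Int.negSucc (nat_lit 538111907),Int.ofNat (nat_lit 846137803),Int.negSucc (nat_lit 427262610),Int.ofNat (nat_lit 207604150),Int.ofNat (nat_lit 1637423658),Int.ofNat (nat_lit 20655422),Int.negSucc (nat_lit 39530083),Int.negSucc (nat_lit 234659112),Int.ofNat (nat_lit 22615607),Int.negSucc (nat_lit 231579420),Int.ofNat (nat_lit 17528427),Int.negSucc (nat_lit 195620600),Int.ofNat (nat_lit 105244242),Int.negSucc (nat_lit 56955459),Int.negSucc (nat_lit 153824782),Int.negSucc (nat_lit 186355503),Int.negSucc (nat_lit 404702963),Int.ofNat (nat_lit 449064461),Int.ofNat (nat_lit 1670066993),Int.negSucc (nat_lit 1490019419),Int.negSucc (nat_lit 18664125),Int.ofNat (nat_lit 329255823),Int.ofNat (nat_lit 183625671),Int.ofNat (nat_lit 159227426),Int.negSucc (nat_lit 122472470),Int.negSucc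 (nat_lit 263863773),Int.negSucc (nat_lit 996608045),Int.negSucc (nat_lit 7726640),Int.negSucc (nat_lit 36273899),Int.negSucc (nat_lit 26946308),Int.ofNat (nat_lit 241708789)])

/-- A row. -/
noncomputable def sr7_c0_64 : List ℕ × List ℤ :=
  ([(nat_lit 4),(nat_lit 1),(nat_lit 0),(nat_lit 0),(nat_lit 0),(nat_lit 0),(nat_lit 0),(nat_lit 0),(nat_lit 0),(nat_lit 0),(nat_lit 0),(nat_lit 0)], [Int.negSucc (nat_lit 3943164671),Int.negSucc (nat_lit 1377507732),Int.negSucc (nat_lit 2380841141),Int.ofNat (nat_lit 1302314772),Int.ofNat (nat_lit 508903505),Int.negSucc (nat_lit 597163038),Int.ofNat (nat_lit 1061896857),Int.ofNat (nat_lit 1881901581),Int.negSucc (nat_lit 566884653),Int.negSucc (nat_lit 356796951),Int.ofNat (nat_lit 523424073),Int.negSucc (nat_lit 179200360),Int.negSucc (nat_lit 1959041269),Int.negSucc (nat_lit 3152808767),Int.ofNat (nat_lit 330434060),Int.ofNat (nat_lit 1464558212),Int.ofNat (nat_lit 462191495),Int.negSucc (nat_lit 509430926),Int.negSucc (nat_lit 795012478),Int.ofNat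 (nat_lit 1584003069),Int.negSucc (nat_lit 1253301873),Int.negSucc (nat_lit 586329398),Int.negSucc (nat_lit 639167610),Int.negSucc (nat_lit 323504831),Int.negSucc (nat_lit 308489395),Int.ofNat (nat_lit 1035060376),Int.negSucc (nat_lit 1065473781),Int.ofNat (nat_lit 633253436),Int.ofNat (nat_lit 552539635),Int.ofNat (nat_lit 511887958),Int.ofNat (nat_lit 643405153),Int.ofNat (nat_lit 261078287),Int.ofNat (nat_lit 864018597),Int.ofNat (nat_lit 151315197),Int.negSucc (nat_lit 313902105),Int.negSucc (nat_lit 708521153),Int.negSucc (nat_lit 2083474783),Int.ofNat (nat_lit 356915493),Int.ofNat (nat_lit 3508121755),Int.negSucc (nat_lit 565767612),Int.ofNat (nat_lit 56582257),Int.negSucc (nat_lit 137083023),Int.negSucc (nat_lit 2496167347),Int.ofNat (nat_lit 1776264150),Int.ofNat (nat_lit 90514793),Int.ofNat (nat_lit 152509714),Int.ofNat (nat_lit 1684011473),Int.negSucc (nat_lit 1521948746),Int.ofNat (nat_lit 562149154),Int.negSucc (nat_lit 238207553),Int.negSucc (nat_lit 359773334),Int.ofNat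 (nat_lit 1566070804),Int.ofNat (nat_lit 340300208),Int.ofNat (nat_lit 1180798318),Int.ofNat (nat_lit 510952748),Int.negSucc (nat_lit 859968150),Int.negSucc (nat_lit 116790165),Int.negSucc (nat_lit 484042854),Int.ofNat (nat_lit 1078168696),Int.negSucc (nat_lit 438359041),Int.negSucc (nat_lit 3186869566),Int.ofNat (nat_lit 1385385626),Int.negSucc (nat_lit 647989395),Int.ofNat (nat_lit 549225285),Int.ofNat (nat_lit 783673741)])

/-- A row. -/
noncomputable def sr7_c0_65 : List ℕ × List ℤ :=
  ([(nat_lit 5),(nat_lit 1),(nat_lit 0),(nat_lit 0),(nat_lit 0),(nat_lit 0),(nat_lit 0),(nat_lit 0),(nat_lit 0),(nat_lit 0),(nat_lit 0),(nat_lit 0)], [Int.ofNat (nat_lit 408770644),Int.negSucc (nat_lit 1365755518),Int.ofNat (nat_lit 1464587300),Int.negSucc (nat_lit 343388996),Int.negSucc (nat_lit 2026484749),Int.negSucc (nat_lit 182329219),Int.negSucc (nat_lit 3438764572),Int.ofNat (nat_lit 1988196517),Int.negSucc (nat_lit 1192695531),Int.ofNat (nat_lit 482180832),Int.ofNat (nat_lit 129062175),Int.negSucc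 (nat_lit 2022947737),Int.negSucc (nat_lit 1387476393),Int.negSucc (nat_lit 1571342773),Int.negSucc (nat_lit 215098771),Int.ofNat (nat_lit 187201509),Int.negSucc (nat_lit 1109015813),Int.negSucc (nat_lit 792609044),Int.ofNat (nat_lit 276191332),Int.negSucc (nat_lit 1683519908),Int.negSucc (nat_lit 792852947),Int.negSucc (nat_lit 237194564),Int.ofNat (nat_lit 716273421),Int.ofNat (nat_lit 737444406),Int.negSucc (nat_lit 157045843),Int.negSucc (nat_lit 716351255),Int.ofNat (nat_lit 25467578),Int.negSucc (nat_lit 405728978),Int.negSucc (nat_lit 106210901),Int.negSucc (nat_lit 1056012835),Int.negSucc (nat_lit 240383275),Int.negSucc (nat_lit 1493437383),Int.negSucc (nat_lit 139388733),Int.ofNat (nat_lit 768600711),Int.negSucc (nat_lit 946614217),Int.negSucc (nat_lit 80986373),Int.ofNat (nat_lit 597455083),Int.negSucc (nat_lit 1475095894),Int.negSucc (nat_lit 3939818860),Int.ofNat (nat_lit 1862758647),Int.negSucc (nat_lit 1918937367),Int.negSucc (nat_lit 747448230),Int.ofNat (nat_lit 2357157490),Int.negSucc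 (nat_lit 169840622),Int.negSucc (nat_lit 373103248),Int.negSucc (nat_lit 882515290),Int.negSucc (nat_lit 1545829743),Int.ofNat (nat_lit 1275057399),Int.negSucc (nat_lit 254426576),Int.ofNat (nat_lit 1212827654),Int.negSucc (nat_lit 404857563),Int.negSucc (nat_lit 2089063638),Int.ofNat (nat_lit 1163057988),Int.ofNat (nat_lit 2673599191),Int.ofNat (nat_lit 684471633),Int.ofNat (nat_lit 967696622),Int.negSucc (nat_lit 172153702),Int.ofNat (nat_lit 1077614931),Int.negSucc (nat_lit 131807408),Int.ofNat (nat_lit 1391396012),Int.ofNat (nat_lit 1397928666),Int.negSucc (nat_lit 1785967429),Int.ofNat (nat_lit 674215506),Int.negSucc (nat_lit 1298217281),Int.negSucc (nat_lit 1030605077),Int.ofNat (nat_lit 246889674)])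

/-- A part of a triangular factor. -/
noncomputable def sr7_c0 : Rows :=
  [sr7_c0_0,
   sr7_c0_1,
   sr7_c0_2,
   sr7_c0_3,
   sr7_c0_4,
   sr7_c0_5,
   sr7_c0_6,
   sr7_c0_7,
   sr7_c0_8,
   sr7_c0_9,
   sr7_c0_10,
   sr7_c0_11,
   sr7_c0_12,
   sr7_c0_13,
   sr7_c0_14,
   sr7_c0_15,
   sr7_c0_16,
   sr7_c0_17,
   sr7_c0_18,
   sr7_c0_19,
   sr7_c0_20,
   sr7_c0_21,
   sr7_c0_22,
   sr7_c0_23,
   sr7_c0_24,
   sr7_c0_25,
   sr7_c0_26,
   sr7_c0_27,
   sr7_c0_28,
   sr7_c0_29,
   sr7_c0_30,
   sr7_c0_31,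
   sr7_c0_32,
   sr7_c0_33,
   sr7_c0_34,
   sr7_c0_35,
   sr7_c0_36,
   sr7_c0_37,
   sr7_c0_38,
   sr7_c0_39,
   sr7_c0_40,
   sr7_c0_41,
   sr7_c0_42,
   sr7_c0_43,
   sr7_c0_44,
   sr7_c0_45,
   sr7_c0_46,
   sr7_c0_47,
   sr7_c0_48,
   sr7_c0_49,
   sr7_c0_50,
   sr7_c0_51,
   sr7_c0_52,
   sr7_c0_53,
   sr7_c0_54,
   sr7_c0_55,
   sr7_c0_56,
   sr7_c0_57,
   sr7_c0_58,
   sr7_c0_59,
   sr7_c0_60,
   sr7_c0_61,
   sr7_c0_62,
   sr7_c0_63,
   sr7_c0_64,
   sr7_c0_65]

/-- A row. -/
noncomputable def sr7_c1_0 : List ℕ × List ℤ :=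
  ([(nat_lit 0),(nat_lit 0),(nat_lit 0),(nat_lit 0),(nat_lit 0),(nat_lit 0),(nat_lit 0),(nat_lit 0),(nat_lit 0),(nat_lit 0),(nat_lit 0),(nat_lit 0)], [Int.negSucc (nat_lit 546470369),Int.negSucc (nat_lit 230612925),Int.ofNat (nat_lit 109684679),Int.ofNat (nat_lit 33536512),Int.negSucc (nat_lit 89510136),Int.negSucc (nat_lit 231064603),Int.negSucc (nat_lit 129255300),Int.negSucc (nat_lit 401550074),Int.negSucc (nat_lit 301127762),Int.ofNat (nat_lit 45568715),Int.ofNat (nat_lit 10918246),Int.negSucc (nat_lit 12685808),Int.negSucc (nat_lit 33254337),Int.negSucc (nat_lit 15772255),Int.negSucc (nat_lit 105917686),Int.negSucc (nat_lit 116017148),Int.negSucc (nat_lit 109248681),Int.ofNat (nat_lit 53095087),Int.negSucc (nat_lit 112220546),Int.negSucc (nat_lit 5469282),Int.negSucc (nat_lit 133677193),Int.negSucc (nat_lit 22927460),Int.negSucc (nat_lit 47297606),Int.negSucc (nat_lit 38398616),Int.ofNat (nat_lit 52077067),Int.negSucc (nat_lit 69603474),Int.ofNat (nat_lit 66921832),Int.ofNat (nat_lit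 49195785),Int.ofNat (nat_lit 71257751),Int.negSucc (nat_lit 41804644),Int.negSucc (nat_lit 8071977),Int.negSucc (nat_lit 70211129),Int.ofNat (nat_lit 132846664),Int.negSucc (nat_lit 40760103),Int.negSucc (nat_lit 68020987),Int.negSucc (nat_lit 72652962),Int.negSucc (nat_lit 23357171),Int.negSucc (nat_lit 6470521),Int.ofNat (nat_lit 37350221),Int.negSucc (nat_lit 110283837),Int.negSucc (nat_lit 70763000),Int.ofNat (nat_lit 74461003),Int.negSucc (nat_lit 14599274),Int.ofNat (nat_lit 10570209),Int.negSucc (nat_lit 12029444),Int.ofNat (nat_lit 76981026),Int.negSucc (nat_lit 1907037),Int.negSucc (nat_lit 35013926),Int.ofNat (nat_lit 38724748),Int.negSucc (nat_lit 80213944),Int.negSucc (nat_lit 4548853),Int.negSucc (nat_lit 54641611),Int.negSucc (nat_lit 50705580),Int.negSucc (nat_lit 4866337),Int.negSucc (nat_lit 54536146),Int.ofNat (nat_lit 41148512),Int.ofNat (nat_lit 22876690),Int.negSucc (nat_lit 54478828),Int.negSucc (nat_lit 20836262),Int.negSucc (nat_lit 125683918),Int.negSucc (nat_lit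 17462651),Int.ofNat (nat_lit 10568010),Int.negSucc (nat_lit 14710608),Int.negSucc (nat_lit 28927887),Int.negSucc (nat_lit 32894840),Int.negSucc (nat_lit 39781179),Int.ofNat (nat_lit 792408308)])

/-- A row. -/
noncomputable def sr7_c1_1 : List ℕ × List ℤ :=
  ([(nat_lit 0),(nat_lit 0),(nat_lit 0),(nat_lit 0),(nat_lit 0),(nat_lit 0),(nat_lit 0),(nat_lit 0),(nat_lit 0),(nat_lit 0),(nat_lit 1),(nat_lit 0)], [Int.ofNat (nat_lit 316248182),Int.negSucc (nat_lit 3390819),Int.ofNat (nat_lit 53720396),Int.ofNat (nat_lit 12115899),Int.ofNat (nat_lit 57827923),Int.negSucc (nat_lit 11131870),Int.negSucc (nat_lit 7628646),Int.ofNat (nat_lit 68213919),Int.ofNat (nat_lit 22124371),Int.negSucc (nat_lit 45977445),Int.ofNat (nat_lit 20661417),Int.negSucc (nat_lit 11077346),Int.negSucc (nat_lit 4167448),Int.negSucc (nat_lit 23462214),Int.ofNat (nat_lit 18249447),Int.ofNat (nat_lit 7786844),Int.ofNat (nat_lit 11469067),Int.negSucc (nat_lit 30848081),Int.ofNat (nat_lit 11233617),Int.negSucc (nat_lit 15971030),Int.ofNat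 (nat_lit 4148799),Int.negSucc (nat_lit 6191832),Int.ofNat (nat_lit 2576821),Int.negSucc (nat_lit 19254091),Int.negSucc (nat_lit 21843428),Int.ofNat (nat_lit 19264656),Int.ofNat (nat_lit 11866398),Int.ofNat (nat_lit 8929218),Int.ofNat (nat_lit 2943546),Int.negSucc (nat_lit 12354530),Int.ofNat (nat_lit 2629043),Int.ofNat (nat_lit 11214387),Int.negSucc (nat_lit 3780940),Int.ofNat (nat_lit 5342087),Int.ofNat (nat_lit 4002356),Int.ofNat (nat_lit 11494639),Int.ofNat (nat_lit 2590852),Int.negSucc (nat_lit 19103774),Int.negSucc (nat_lit 2636212),Int.ofNat (nat_lit 13529045),Int.ofNat (nat_lit 4180018),Int.negSucc (nat_lit 6345448),Int.ofNat (nat_lit 4264420),Int.ofNat (nat_lit 135075),Int.ofNat (nat_lit 2737789),Int.negSucc (nat_lit 3259479),Int.negSucc (nat_lit 920635),Int.ofNat (nat_lit 10337096),Int.ofNat (nat_lit 2223844),Int.ofNat (nat_lit 3664652),Int.negSucc (nat_lit 5644967),Int.negSucc (nat_lit 7559061),Int.ofNat (nat_lit 2900954),Int.ofNat (nat_lit 7191020),Int.ofNat (nat_lit 5250943),Int.negSucc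 (nat_lit 154934),Int.negSucc (nat_lit 9391777),Int.ofNat (nat_lit 5055238),Int.negSucc (nat_lit 6497483),Int.ofNat (nat_lit 17734331),Int.negSucc (nat_lit 1349862),Int.ofNat (nat_lit 4114612),Int.ofNat (nat_lit 7300366),Int.negSucc (nat_lit 10194130),Int.negSucc (nat_lit 4145773),Int.negSucc (nat_lit 2939030),Int.negSucc (nat_lit 22097828),Int.ofNat (nat_lit 94852082)])

/-- A row. -/
noncomputable def sr7_c1_2 : List ℕ × List ℤ :=
  ([(nat_lit 0),(nat_lit 0),(nat_lit 0),(nat_lit 0),(nat_lit 0),(nat_lit 0),(nat_lit 0),(nat_lit 0),(nat_lit 1),(nat_lit 0),(nat_lit 0),(nat_lit 0)], [Int.negSucc (nat_lit 42064062),Int.ofNat (nat_lit 194704770),Int.negSucc (nat_lit 52602159),Int.ofNat (nat_lit 6242505),Int.ofNat (nat_lit 149449671),Int.ofNat (nat_lit 13430714),Int.ofNat (nat_lit 161885911),Int.negSucc (nat_lit 151399262),Int.negSucc (nat_lit 107336278),Int.negSucc (nat_lit 72961734),Int.negSucc (nat_lit 31500259),Int.ofNat (nat_lit 92466557),Int.ofNat (nat_lit 47493015),Int.ofNat (nat_lit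 80933742),Int.negSucc (nat_lit 250219849),Int.negSucc (nat_lit 31034720),Int.ofNat (nat_lit 76194348),Int.ofNat (nat_lit 34926688),Int.negSucc (nat_lit 63519664),Int.negSucc (nat_lit 25804062),Int.ofNat (nat_lit 31760721),Int.negSucc (nat_lit 15830860),Int.negSucc (nat_lit 72949816),Int.negSucc (nat_lit 52546949),Int.ofNat (nat_lit 23338283),Int.ofNat (nat_lit 671716),Int.ofNat (nat_lit 45729683),Int.ofNat (nat_lit 38579990),Int.negSucc (nat_lit 61209242),Int.ofNat (nat_lit 99507664),Int.ofNat (nat_lit 14755257),Int.negSucc (nat_lit 35381713),Int.ofNat (nat_lit 58720559),Int.ofNat (nat_lit 63005386),Int.ofNat (nat_lit 24945624),Int.negSucc (nat_lit 22331686),Int.negSucc (nat_lit 4345766),Int.negSucc (nat_lit 43954853),Int.negSucc (nat_lit 577154),Int.negSucc (nat_lit 3451872),Int.ofNat (nat_lit 36671609),Int.negSucc (nat_lit 16429089),Int.ofNat (nat_lit 3034465),Int.negSucc (nat_lit 25073885),Int.ofNat (nat_lit 57293150),Int.negSucc (nat_lit 2392728),Int.ofNat (nat_lit 23927991),Int.ofNat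 (nat_lit 8823394),Int.ofNat (nat_lit 24163478),Int.negSucc (nat_lit 908905),Int.negSucc (nat_lit 41511450),Int.ofNat (nat_lit 21625451),Int.negSucc (nat_lit 37960845),Int.negSucc (nat_lit 6607512),Int.negSucc (nat_lit 13269951),Int.negSucc (nat_lit 13950871),Int.negSucc (nat_lit 22760374),Int.negSucc (nat_lit 3174405),Int.ofNat (nat_lit 13294390),Int.negSucc (nat_lit 23687128),Int.ofNat (nat_lit 19857403),Int.ofNat (nat_lit 4053911),Int.negSucc (nat_lit 3900363),Int.negSucc (nat_lit 29624138),Int.negSucc (nat_lit 2691924),Int.negSucc (nat_lit 56710814),Int.negSucc (nat_lit 40043944),Int.negSucc (nat_lit 8532030),Int.ofNat (nat_lit 328607617)])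

/-- A row. -/
noncomputable def sr7_c1_3 : List ℕ × List ℤ :=
  ([(nat_lit 0),(nat_lit 0),(nat_lit 0),(nat_lit 0),(nat_lit 0),(nat_lit 0),(nat_lit 1),(nat_lit 0),(nat_lit 0),(nat_lit 0),(nat_lit 0),(nat_lit 0)], [Int.negSucc (nat_lit 469693870),Int.negSucc (nat_lit 194861334),Int.ofNat (nat_lit 650525634),Int.negSucc (nat_lit 180401889),Int.ofNat (nat_lit 291113087),Int.negSucc (nat_lit 62210324),Int.negSucc (nat_lit 251737462),Int.negSucc (nat_lit 295418457),Int.ofNat (nat_lit 286224923),Int.negSucc (nat_lit 107368910),Int.ofNat (nat_lit 3290384),Int.negSucc (nat_lit 118001096),Int.ofNat (nat_lit 109278283),Int.negSucc (nat_lit 43761224),Int.ofNat (nat_lit 38006183),Int.negSucc (nat_lit 278682424),Int.negSucc (nat_lit 121201470),Int.ofNat (nat_lit 111638765),Int.ofNat (nat_lit 8708081),Int.ofNat (nat_lit 37072614),Int.negSucc (nat_lit 83822984),Int.negSucc (nat_lit 860675),Int.ofNat (nat_lit 112769060),Int.ofNat (nat_lit 56639607),Int.ofNat (nat_lit 14241305),Int.negSucc (nat_lit 141068652),Int.ofNat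 (nat_lit 40360714),Int.ofNat (nat_lit 21791793),Int.negSucc (nat_lit 242319),Int.negSucc (nat_lit 27148465),Int.ofNat (nat_lit 16994897),Int.negSucc (nat_lit 8614245),Int.ofNat (nat_lit 146534830),Int.negSucc (nat_lit 88793415),Int.negSucc (nat_lit 153985722),Int.negSucc (nat_lit 11871006),Int.negSucc (nat_lit 11035228),Int.ofNat (nat_lit 61228215),Int.ofNat (nat_lit 11763019),Int.negSucc (nat_lit 113725531),Int.negSucc (nat_lit 66766567),Int.ofNat (nat_lit 121719704),Int.ofNat (nat_lit 415756),Int.ofNat (nat_lit 34115816),Int.negSucc (nat_lit 28753709),Int.ofNat (nat_lit 33660803),Int.negSucc (nat_lit 18386311),Int.negSucc (nat_lit 38669924),Int.ofNat (nat_lit 11961250),Int.negSucc (nat_lit 83227044),Int.ofNat (nat_lit 6024390),Int.negSucc (nat_lit 34856586),Int.negSucc (nat_lit 7336438),Int.negSucc (nat_lit 13515733),Int.ofNat (nat_lit 9995072),Int.ofNat (nat_lit 12980630),Int.ofNat (nat_lit 59077477),Int.negSucc (nat_lit 64867465),Int.negSucc (nat_lit 19744916),Int.negSucc (nat_lit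 101365033),Int.ofNat (nat_lit 36155478),Int.ofNat (nat_lit 52761048),Int.negSucc (nat_lit 16770082),Int.negSucc (nat_lit 13959253),Int.negSucc (nat_lit 7179943),Int.negSucc (nat_lit 3793881),Int.ofNat (nat_lit 331459770),Int.ofNat (nat_lit 2567074),Int.negSucc (nat_lit 275514538),Int.ofNat (nat_lit 611042872)])

/-- A row. -/
noncomputable def sr7_c1_4 : List ℕ × List ℤ :=
  ([(nat_lit 0),(nat_lit 0),(nat_lit 0),(nat_lit 0),(nat_lit 0),(nat_lit 2),(nat_lit 0),(nat_lit 0),(nat_lit 0),(nat_lit 0),(nat_lit 0),(nat_lit 0)], [Int.negSucc (nat_lit 218258807),Int.negSucc (nat_lit 63930380),Int.negSucc (nat_lit 574127902),Int.ofNat (nat_lit 147260553),Int.negSucc (nat_lit 414098723),Int.ofNat (nat_lit 52907419),Int.ofNat (nat_lit 379960650),Int.ofNat (nat_lit 105932908),Int.ofNat (nat_lit 15951380),Int.negSucc (nat_lit 31427398),Int.ofNat (nat_lit 42971386),Int.ofNat (nat_lit 121289999),Int.ofNat (nat_lit 99569696),Int.negSucc (nat_lit 46279765),Int.ofNat (nat_lit 24679020),Int.negSucc (nat_lit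 21035001),Int.negSucc (nat_lit 46169573),Int.ofNat (nat_lit 70390585),Int.negSucc (nat_lit 26130553),Int.negSucc (nat_lit 38526623),Int.negSucc (nat_lit 34825180),Int.negSucc (nat_lit 43565787),Int.negSucc (nat_lit 79308044),Int.negSucc (nat_lit 27247919),Int.negSucc (nat_lit 886110),Int.ofNat (nat_lit 61405393),Int.ofNat (nat_lit 38669700),Int.negSucc (nat_lit 6099114),Int.negSucc (nat_lit 22419330),Int.ofNat (nat_lit 13435102),Int.ofNat (nat_lit 634013),Int.ofNat (nat_lit 45986279),Int.negSucc (nat_lit 39568143),Int.ofNat (nat_lit 40603214),Int.ofNat (nat_lit 28992932),Int.ofNat (nat_lit 29037613),Int.negSucc (nat_lit 21479807),Int.ofNat (nat_lit 51129993),Int.negSucc (nat_lit 28628227),Int.negSucc (nat_lit 40864435),Int.ofNat (nat_lit 38066178),Int.ofNat (nat_lit 95206705),Int.negSucc (nat_lit 12512290),Int.ofNat (nat_lit 79536775),Int.negSucc (nat_lit 10747791),Int.negSucc (nat_lit 26870782),Int.ofNat (nat_lit 10042062),Int.ofNat (nat_lit 40928605),Int.ofNat (nat_lit 12085638),Int.ofNat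 (nat_lit 16529003),Int.negSucc (nat_lit 53250640),Int.ofNat (nat_lit 21275042),Int.ofNat (nat_lit 49519083),Int.negSucc (nat_lit 1193217),Int.negSucc (nat_lit 81911739),Int.negSucc (nat_lit 9585186),Int.ofNat (nat_lit 12177955),Int.negSucc (nat_lit 22346111),Int.ofNat (nat_lit 21233264),Int.ofNat (nat_lit 27205915),Int.negSucc (nat_lit 17793187),Int.negSucc (nat_lit 3718756),Int.ofNat (nat_lit 10969020),Int.negSucc (nat_lit 4412044),Int.ofNat (nat_lit 14211354),Int.ofNat (nat_lit 22801975),Int.ofNat (nat_lit 9117552),Int.ofNat (nat_lit 13646163),Int.ofNat (nat_lit 58620420),Int.negSucc (nat_lit 32819171),Int.ofNat (nat_lit 348981333)])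

/-- A row. -/
noncomputable def sr7_c1_5 : List ℕ × List ℤ :=
  ([(nat_lit 0),(nat_lit 0),(nat_lit 0),(nat_lit 0),(nat_lit 1),(nat_lit 0),(nat_lit 0),(nat_lit 0),(nat_lit 0),(nat_lit 0),(nat_lit 0),(nat_lit 0)], [Int.ofNat (nat_lit 561410902),Int.ofNat (nat_lit 418169862),Int.ofNat (nat_lit 277642252),Int.ofNat (nat_lit 192806479),Int.ofNat (nat_lit 468873230),Int.ofNat (nat_lit 76037078),Int.negSucc (nat_lit 173283952),Int.ofNat (nat_lit 232036606),Int.ofNat (nat_lit 194926652),Int.ofNat (nat_lit 23482872),Int.negSucc (nat_lit 122112663),Int.ofNat (nat_lit 22537132),Int.negSucc (nat_lit 58873000),Int.negSucc (nat_lit 160819327),Int.ofNat (nat_lit 201319792),Int.ofNat (nat_lit 173066522),Int.ofNat (nat_lit 2581963),Int.negSucc (nat_lit 3825251),Int.ofNat (nat_lit 68193663),Int.ofNat (nat_lit 14462266),Int.ofNat (nat_lit 199998404),Int.negSucc (nat_lit 47760745),Int.ofNat (nat_lit 89298709),Int.ofNat (nat_lit 132428335),Int.negSucc (nat_lit 84650968),Int.ofNat (nat_lit 78180691),Int.negSucc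 (nat_lit 140385341),Int.negSucc (nat_lit 53353925),Int.ofNat (nat_lit 20349217),Int.ofNat (nat_lit 35792243),Int.negSucc (nat_lit 16450663),Int.negSucc (nat_lit 33290214),Int.negSucc (nat_lit 124240380),Int.ofNat (nat_lit 40060127),Int.ofNat (nat_lit 76582791),Int.ofNat (nat_lit 286157),Int.ofNat (nat_lit 14184962),Int.negSucc (nat_lit 51108660),Int.negSucc (nat_lit 33378650),Int.ofNat (nat_lit 91542734),Int.ofNat (nat_lit 65120084),Int.negSucc (nat_lit 189621365),Int.ofNat (nat_lit 21147355),Int.negSucc (nat_lit 41603301),Int.ofNat (nat_lit 12513463),Int.negSucc (nat_lit 22273448),Int.negSucc (nat_lit 12850697),Int.negSucc (nat_lit 6323428),Int.negSucc (nat_lit 12213785),Int.ofNat (nat_lit 51777988),Int.ofNat (nat_lit 2058394),Int.ofNat (nat_lit 18103631),Int.negSucc (nat_lit 14408033),Int.negSucc (nat_lit 28048118),Int.ofNat (nat_lit 84037341),Int.ofNat (nat_lit 12444367),Int.negSucc (nat_lit 35765330),Int.ofNat (nat_lit 2567153),Int.ofNat (nat_lit 15626556),Int.ofNat (nat_lit 84448705),Int.ofNat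 (nat_lit 13211248),Int.negSucc (nat_lit 3024304),Int.ofNat (nat_lit 45933279),Int.ofNat (nat_lit 26823670),Int.ofNat (nat_lit 29109972),Int.negSucc (nat_lit 8025437),Int.negSucc (nat_lit 794982291),Int.ofNat (nat_lit 90078273),Int.negSucc (nat_lit 87705067),Int.ofNat (nat_lit 71627538),Int.negSucc (nat_lit 212318736),Int.ofNat (nat_lit 660509697)])

/-- A row. -/
noncomputable def sr7_c1_6 : List ℕ × List ℤ :=
  ([(nat_lit 0),(nat_lit 0),(nat_lit 0),(nat_lit 0),(nat_lit 2),(nat_lit 0),(nat_lit 0),(nat_lit 0),(nat_lit 0),(nat_lit 0),(nat_lit 0),(nat_lit 0)], [Int.negSucc (nat_lit 274659321),Int.negSucc (nat_lit 114112364),Int.negSucc (nat_lit 687049129),Int.ofNat (nat_lit 75518369),Int.negSucc (nat_lit 316484451),Int.ofNat (nat_lit 114839657),Int.ofNat (nat_lit 436369765),Int.ofNat (nat_lit 134733083),Int.ofNat (nat_lit 108185546),Int.negSucc (nat_lit 50304324),Int.ofNat (nat_lit 56556893),Int.ofNat (nat_lit 97757727),Int.ofNat (nat_lit 127376514),Int.negSucc (nat_lit 99484061),Int.ofNat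 (nat_lit 127440298),Int.negSucc (nat_lit 51548626),Int.negSucc (nat_lit 78245752),Int.ofNat (nat_lit 58112783),Int.negSucc (nat_lit 16742537),Int.negSucc (nat_lit 33293600),Int.negSucc (nat_lit 23367960),Int.negSucc (nat_lit 61586603),Int.negSucc (nat_lit 86728184),Int.negSucc (nat_lit 31855055),Int.negSucc (nat_lit 40055698),Int.ofNat (nat_lit 72840949),Int.ofNat (nat_lit 50117952),Int.negSucc (nat_lit 12911027),Int.ofNat (nat_lit 16920864),Int.negSucc (nat_lit 28464247),Int.negSucc (nat_lit 11546901),Int.ofNat (nat_lit 91012170),Int.negSucc (nat_lit 75944855),Int.negSucc (nat_lit 7620326),Int.negSucc (nat_lit 13245370),Int.ofNat (nat_lit 113266413),Int.negSucc (nat_lit 14586254),Int.ofNat (nat_lit 61465931),Int.negSucc (nat_lit 35675254),Int.negSucc (nat_lit 60245829),Int.ofNat (nat_lit 41843192),Int.ofNat (nat_lit 115139356),Int.negSucc (nat_lit 7973581),Int.ofNat (nat_lit 75909474),Int.negSucc (nat_lit 24979783),Int.negSucc (nat_lit 41391670),Int.negSucc (nat_lit 1900198),Int.ofNat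 (nat_lit 65317945),Int.ofNat (nat_lit 6896903),Int.ofNat (nat_lit 28300640),Int.negSucc (nat_lit 30525935),Int.ofNat (nat_lit 6629646),Int.ofNat (nat_lit 82907669),Int.ofNat (nat_lit 1616939),Int.negSucc (nat_lit 95474786),Int.negSucc (nat_lit 16012228),Int.ofNat (nat_lit 34561518),Int.negSucc (nat_lit 21630039),Int.negSucc (nat_lit 1105110),Int.ofNat (nat_lit 40155694),Int.negSucc (nat_lit 22430810),Int.ofNat (nat_lit 3728629),Int.ofNat (nat_lit 12830870),Int.ofNat (nat_lit 1599925),Int.ofNat (nat_lit 20492978),Int.ofNat (nat_lit 33272442),Int.ofNat (nat_lit 6403687),Int.ofNat (nat_lit 40072901),Int.ofNat (nat_lit 23930808),Int.negSucc (nat_lit 38581924),Int.ofNat (nat_lit 352065874),Int.negSucc (nat_lit 27046726),Int.ofNat (nat_lit 226525185)])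

/-- A row. -/
noncomputable def sr7_c1_7 : List ℕ × List ℤ :=
  ([(nat_lit 0),(nat_lit 0),(nat_lit 0),(nat_lit 1),(nat_lit 0),(nat_lit 0),(nat_lit 0),(nat_lit 1),(nat_lit 0),(nat_lit 0),(nat_lit 0),(nat_lit 0)], [Int.negSucc (nat_lit 465189249),Int.ofNat (nat_lit 4905364),Int.negSucc (nat_lit 27539492),Int.ofNat (nat_lit 37790336),Int.ofNat (nat_lit 67828609),Int.negSucc (nat_lit 8411509),Int.negSucc (nat_lit 175858769),Int.negSucc (nat_lit 334699400),Int.negSucc (nat_lit 134630743),Int.ofNat (nat_lit 15920846),Int.negSucc (nat_lit 52003331),Int.negSucc (nat_lit 89537249),Int.negSucc (nat_lit 29404377),Int.ofNat (nat_lit 170254746),Int.negSucc (nat_lit 158894985),Int.negSucc (nat_lit 24295665),Int.negSucc (nat_lit 29036211),Int.ofNat (nat_lit 6994075),Int.negSucc (nat_lit 36886290),Int.ofNat (nat_lit 56553314),Int.negSucc (nat_lit 18061611),Int.ofNat (nat_lit 31544684),Int.ofNat (nat_lit 69558097),Int.ofNat (nat_lit 67937917),Int.ofNat (nat_lit 86267474),Int.negSucc (nat_lit 96830844),Int.negSucc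 (nat_lit 2324587),Int.ofNat (nat_lit 10037648),Int.ofNat (nat_lit 10594818),Int.ofNat (nat_lit 45857545),Int.negSucc (nat_lit 5365718),Int.negSucc (nat_lit 32811198),Int.ofNat (nat_lit 51003723),Int.negSucc (nat_lit 53647832),Int.negSucc (nat_lit 52712879),Int.negSucc (nat_lit 77465214),Int.ofNat (nat_lit 19534196),Int.ofNat (nat_lit 35141865),Int.ofNat (nat_lit 17376360),Int.negSucc (nat_lit 15461844),Int.ofNat (nat_lit 1018485),Int.negSucc (nat_lit 3113743),Int.negSucc (nat_lit 9603702),Int.negSucc (nat_lit 32043826),Int.ofNat (nat_lit 8552176),Int.negSucc (nat_lit 1615954),Int.ofNat (nat_lit 5320018),Int.negSucc (nat_lit 48388322),Int.ofNat (nat_lit 4615998),Int.negSucc (nat_lit 64456392),Int.ofNat (nat_lit 25567371),Int.ofNat (nat_lit 13492044),Int.negSucc (nat_lit 44097602),Int.negSucc (nat_lit 2498631),Int.ofNat (nat_lit 28584573),Int.ofNat (nat_lit 562958),Int.ofNat (nat_lit 2745578),Int.ofNat (nat_lit 3069063),Int.negSucc (nat_lit 20611270),Int.negSucc (nat_lit 65598598),Int.ofNat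 (nat_lit 12898333),Int.negSucc (nat_lit 13026601),Int.negSucc (nat_lit 19618307),Int.ofNat (nat_lit 9458600),Int.negSucc (nat_lit 6466234),Int.negSucc (nat_lit 1539097),Int.ofNat (nat_lit 78607071),Int.negSucc (nat_lit 178301594),Int.ofNat (nat_lit 9734715),Int.ofNat (nat_lit 42906320),Int.negSucc (nat_lit 108933765),Int.negSucc (nat_lit 22459851),Int.negSucc (nat_lit 50634279),Int.ofNat (nat_lit 214957789)])

/-- A row. -/
noncomputable def sr7_c1_8 : List ℕ × List ℤ :=
  ([(nat_lit 0),(nat_lit 0),(nat_lit 0),(nat_lit 1),(nat_lit 0),(nat_lit 1),(nat_lit 0),(nat_lit 0),(nat_lit 0),(nat_lit 0),(nat_lit 0),(nat_lit 0)], [Int.ofNat (nat_lit 110619885),Int.negSucc (nat_lit 313088013),Int.ofNat (nat_lit 559552342),Int.negSucc (nat_lit 860674558),Int.ofNat (nat_lit 314580944),Int.ofNat (nat_lit 548830866),Int.negSucc (nat_lit 166127604),Int.ofNat (nat_lit 380982555),Int.ofNat (nat_lit 643423039),Int.ofNat (nat_lit 39260479),Int.ofNat (nat_lit 93740443),Int.negSucc (nat_lit 144958666),Int.negSucc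 (nat_lit 58060926),Int.negSucc (nat_lit 436211455),Int.ofNat (nat_lit 622026850),Int.negSucc (nat_lit 53502403),Int.negSucc (nat_lit 731690),Int.negSucc (nat_lit 237906553),Int.ofNat (nat_lit 90707443),Int.negSucc (nat_lit 60708364),Int.ofNat (nat_lit 6367051),Int.ofNat (nat_lit 51439494),Int.ofNat (nat_lit 92213432),Int.negSucc (nat_lit 58080110),Int.negSucc (nat_lit 84524515),Int.ofNat (nat_lit 169888754),Int.negSucc (nat_lit 29766432),Int.ofNat (nat_lit 8623761),Int.ofNat (nat_lit 40824266),Int.negSucc (nat_lit 66067866),Int.ofNat (nat_lit 20331964),Int.ofNat (nat_lit 46295291),Int.negSucc (nat_lit 271839715),Int.negSucc (nat_lit 81486746),Int.ofNat (nat_lit 40591667),Int.ofNat (nat_lit 49893696),Int.negSucc (nat_lit 87692152),Int.ofNat (nat_lit 72443657),Int.ofNat (nat_lit 49787330),Int.ofNat (nat_lit 102640137),Int.negSucc (nat_lit 45188014),Int.negSucc (nat_lit 154096057),Int.ofNat (nat_lit 17567472),Int.negSucc (nat_lit 15069223),Int.negSucc (nat_lit 60816432),Int.negSucc (nat_lit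 53239358),Int.negSucc (nat_lit 47721488),Int.ofNat (nat_lit 79013624),Int.negSucc (nat_lit 43551337),Int.ofNat (nat_lit 97306810),Int.negSucc (nat_lit 63658990),Int.negSucc (nat_lit 53026142),Int.ofNat (nat_lit 70825587),Int.ofNat (nat_lit 41803019),Int.negSucc (nat_lit 30570429),Int.ofNat (nat_lit 52318225),Int.negSucc (nat_lit 35469569),Int.negSucc (nat_lit 19827645),Int.ofNat (nat_lit 56485033),Int.ofNat (nat_lit 154012709),Int.negSucc (nat_lit 53862656),Int.ofNat (nat_lit 5257875),Int.ofNat (nat_lit 45961126),Int.ofNat (nat_lit 37585013),Int.ofNat (nat_lit 2715743),Int.ofNat (nat_lit 25349328),Int.negSucc (nat_lit 114056891),Int.negSucc (nat_lit 7019820),Int.negSucc (nat_lit 259635648),Int.negSucc (nat_lit 4548130),Int.negSucc (nat_lit 26142989),Int.ofNat (nat_lit 230117074),Int.ofNat (nat_lit 162116655),Int.negSucc (nat_lit 341620293),Int.ofNat (nat_lit 754237059)])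

/-- A row. -/
noncomputable def sr7_c1_9 : List ℕ × List ℤ :=
  ([(nat_lit 0),(nat_lit 0),(nat_lit 0),(nat_lit 2),(nat_lit 0),(nat_lit 0),(nat_lit 0),(nat_lit 0),(nat_lit 0),(nat_lit 0),(nat_lit 0),(nat_lit 0)], [Int.negSucc (nat_lit 38766052),Int.ofNat (nat_lit 781929891),Int.negSucc (nat_lit 1205030135),Int.ofNat (nat_lit 1453266129),Int.ofNat (nat_lit 133108620),Int.negSucc (nat_lit 1044369194),Int.ofNat (nat_lit 259672729),Int.negSucc (nat_lit 817654788),Int.negSucc (nat_lit 890045059),Int.negSucc (nat_lit 6520454),Int.negSucc (nat_lit 79359893),Int.ofNat (nat_lit 341888057),Int.negSucc (nat_lit 376079284),Int.ofNat (nat_lit 1271776),Int.negSucc (nat_lit 157235425),Int.ofNat (nat_lit 200351402),Int.ofNat (nat_lit 47556298),Int.ofNat (nat_lit 189216872),Int.negSucc (nat_lit 232531417),Int.negSucc (nat_lit 67141587),Int.ofNat (nat_lit 158145981),Int.negSucc (nat_lit 169401212),Int.negSucc (nat_lit 223174645),Int.ofNat (nat_lit 95706755),Int.negSucc (nat_lit 372265888),Int.ofNat (nat_lit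 148921863),Int.negSucc (nat_lit 87019696),Int.negSucc (nat_lit 61036600),Int.ofNat (nat_lit 111805267),Int.negSucc (nat_lit 127024280),Int.negSucc (nat_lit 74139454),Int.negSucc (nat_lit 45342457),Int.ofNat (nat_lit 89941520),Int.ofNat (nat_lit 74025001),Int.ofNat (nat_lit 26053539),Int.ofNat (nat_lit 15195683),Int.ofNat (nat_lit 14514077),Int.negSucc (nat_lit 155230959),Int.negSucc (nat_lit 22136528),Int.ofNat (nat_lit 34334701),Int.negSucc (nat_lit 8705645),Int.negSucc (nat_lit 81572217),Int.ofNat (nat_lit 85047854),Int.negSucc (nat_lit 72527712),Int.ofNat (nat_lit 72803948),Int.ofNat (nat_lit 60213598),Int.negSucc (nat_lit 6632561),Int.ofNat (nat_lit 9029010),Int.negSucc (nat_lit 28385174),Int.ofNat (nat_lit 21266708),Int.negSucc (nat_lit 48743316),Int.negSucc (nat_lit 237514501),Int.ofNat (nat_lit 77790507),Int.negSucc (nat_lit 28094678),Int.negSucc (nat_lit 19756383),Int.negSucc (nat_lit 51061798),Int.ofNat (nat_lit 3066390),Int.ofNat (nat_lit 81975182),Int.ofNat (nat_lit 14069311),Int.ofNat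 (nat_lit 100465025),Int.ofNat (nat_lit 27987176),Int.ofNat (nat_lit 46124049),Int.negSucc (nat_lit 9194427),Int.negSucc (nat_lit 48200764),Int.negSucc (nat_lit 8250275),Int.negSucc (nat_lit 38118423),Int.negSucc (nat_lit 359207724),Int.ofNat (nat_lit 147929054),Int.ofNat (nat_lit 128853489),Int.negSucc (nat_lit 107270880),Int.negSucc (nat_lit 38830188),Int.ofNat (nat_lit 11775578),Int.negSucc (nat_lit 86287935),Int.negSucc (nat_lit 29925861),Int.negSucc (nat_lit 371359879),Int.ofNat (nat_lit 896265568)])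

/-- A row. -/
noncomputable def sr7_c1_10 : List ℕ × List ℤ :=
  ([(nat_lit 0),(nat_lit 0),(nat_lit 1),(nat_lit 0),(nat_lit 0),(nat_lit 0),(nat_lit 0),(nat_lit 0),(nat_lit 0),(nat_lit 0),(nat_lit 0),(nat_lit 0)], [Int.negSucc (nat_lit 844757281),Int.negSucc (nat_lit 404427677),Int.negSucc (nat_lit 503186438),Int.ofNat (nat_lit 600560809),Int.negSucc (nat_lit 378207537),Int.negSucc (nat_lit 445023752),Int.negSucc (nat_lit 175433317),Int.negSucc (nat_lit 1197968354),Int.negSucc (nat_lit 1044517135),Int.ofNat (nat_lit 254654037),Int.negSucc (nat_lit 89049411),Int.ofNat (nat_lit 147139313),Int.negSucc (nat_lit 260318477),Int.ofNat (nat_lit 8692106),Int.negSucc (nat_lit 394373190),Int.negSucc (nat_lit 40100609),Int.negSucc (nat_lit 253726686),Int.ofNat (nat_lit 130371182),Int.negSucc (nat_lit 445459917),Int.negSucc (nat_lit 210113533),Int.negSucc (nat_lit 251716308),Int.negSucc (nat_lit 262899241),Int.negSucc (nat_lit 213482648),Int.negSucc (nat_lit 17967102),Int.ofNat (nat_lit 71573590),Int.negSucc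 (nat_lit 68328410),Int.ofNat (nat_lit 111385197),Int.ofNat (nat_lit 146658606),Int.ofNat (nat_lit 301762592),Int.ofNat (nat_lit 2727323),Int.negSucc (nat_lit 50033376),Int.negSucc (nat_lit 181966089),Int.ofNat (nat_lit 287200697),Int.ofNat (nat_lit 2445561),Int.negSucc (nat_lit 121153066),Int.negSucc (nat_lit 193753893),Int.negSucc (nat_lit 9246557),Int.negSucc (nat_lit 15099722),Int.ofNat (nat_lit 92249693),Int.negSucc (nat_lit 275610564),Int.negSucc (nat_lit 90849620),Int.ofNat (nat_lit 64717765),Int.ofNat (nat_lit 117480434),Int.negSucc (nat_lit 14159889),Int.ofNat (nat_lit 6554299),Int.ofNat (nat_lit 137611148),Int.negSucc (nat_lit 19290523),Int.negSucc (nat_lit 78805232),Int.ofNat (nat_lit 104579954),Int.negSucc (nat_lit 206348840),Int.negSucc (nat_lit 54899675),Int.negSucc (nat_lit 54901633),Int.negSucc (nat_lit 151007958),Int.negSucc (nat_lit 57998179),Int.negSucc (nat_lit 135386526),Int.ofNat (nat_lit 59061774),Int.ofNat (nat_lit 18505345),Int.negSucc (nat_lit 100724203),Int.negSucc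 (nat_lit 41689414),Int.negSucc (nat_lit 195890319),Int.negSucc (nat_lit 49730608),Int.negSucc (nat_lit 4490451),Int.negSucc (nat_lit 15975088),Int.negSucc (nat_lit 75785735),Int.negSucc (nat_lit 90686396),Int.negSucc (nat_lit 140480551),Int.ofNat (nat_lit 1212646605),Int.negSucc (nat_lit 84630002),Int.ofNat (nat_lit 275433204),Int.negSucc (nat_lit 365480373),Int.ofNat (nat_lit 48286776),Int.ofNat (nat_lit 367192991),Int.ofNat (nat_lit 90394339),Int.ofNat (nat_lit 95650894),Int.ofNat (nat_lit 22296633),Int.ofNat (nat_lit 128362885),Int.ofNat (nat_lit 758184690)])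

/-- A row. -/
noncomputable def sr7_c1_11 : List ℕ × List ℤ :=
  ([(nat_lit 0),(nat_lit 0),(nat_lit 1),(nat_lit 0),(nat_lit 0),(nat_lit 0),(nat_lit 1),(nat_lit 0),(nat_lit 0),(nat_lit 0),(nat_lit 0),(nat_lit 0)], [Int.ofNat (nat_lit 228030519),Int.negSucc (nat_lit 163632334),Int.ofNat (nat_lit 56540876),Int.ofNat (nat_lit 142198209),Int.ofNat (nat_lit 32847909),Int.negSucc (nat_lit 63620068),Int.negSucc (nat_lit 129872639),Int.negSucc (nat_lit 327738052),Int.negSucc (nat_lit 261176786),Int.ofNat (nat_lit 14496174),Int.ofNat (nat_lit 7244298),Int.negSucc (nat_lit 38290501),Int.negSucc (nat_lit 85997578),Int.ofNat (nat_lit 154054463),Int.negSucc (nat_lit 243861817),Int.negSucc (nat_lit 26175784),Int.negSucc (nat_lit 9166778),Int.negSucc (nat_lit 32806446),Int.negSucc (nat_lit 61298728),Int.ofNat (nat_lit 6740859),Int.negSucc (nat_lit 37115009),Int.negSucc (nat_lit 177411),Int.ofNat (nat_lit 13393622),Int.negSucc (nat_lit 3642563),Int.ofNat (nat_lit 61271784),Int.negSucc (nat_lit 52755717),Int.ofNat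 (nat_lit 28325768),Int.ofNat (nat_lit 61157421),Int.ofNat (nat_lit 2685307),Int.ofNat (nat_lit 7470810),Int.ofNat (nat_lit 16791963),Int.negSucc (nat_lit 25028237),Int.ofNat (nat_lit 97561706),Int.ofNat (nat_lit 14421467),Int.negSucc (nat_lit 19440758),Int.negSucc (nat_lit 111858921),Int.ofNat (nat_lit 25607787),Int.negSucc (nat_lit 17779596),Int.ofNat (nat_lit 35447169),Int.ofNat (nat_lit 19742636),Int.negSucc (nat_lit 17429344),Int.negSucc (nat_lit 7549954),Int.ofNat (nat_lit 6192540),Int.negSucc (nat_lit 26032873),Int.ofNat (nat_lit 17595563),Int.ofNat (nat_lit 9275231),Int.ofNat (nat_lit 18752095),Int.negSucc (nat_lit 17712794),Int.ofNat (nat_lit 6950964),Int.negSucc (nat_lit 39452540),Int.negSucc (nat_lit 14138217),Int.negSucc (nat_lit 9241562),Int.negSucc (nat_lit 68246214),Int.ofNat (nat_lit 11900103),Int.ofNat (nat_lit 31422739),Int.ofNat (nat_lit 8912408),Int.negSucc (nat_lit 15003598),Int.ofNat (nat_lit 2552645),Int.negSucc (nat_lit 12873366),Int.negSucc (nat_lit 36198255),Int.ofNat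 (nat_lit 12544313),Int.ofNat (nat_lit 1841000),Int.negSucc (nat_lit 15439238),Int.negSucc (nat_lit 16948023),Int.negSucc (nat_lit 20969402),Int.negSucc (nat_lit 19060990),Int.ofNat (nat_lit 47043343),Int.ofNat (nat_lit 25550431),Int.ofNat (nat_lit 43852416),Int.ofNat (nat_lit 29415340),Int.negSucc (nat_lit 33683876),Int.negSucc (nat_lit 44637478),Int.negSucc (nat_lit 82646919),Int.ofNat (nat_lit 67488722),Int.ofNat (nat_lit 37412),Int.negSucc (nat_lit 10395103),Int.ofNat (nat_lit 57194823),Int.ofNat (nat_lit 209666984)])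

/-- A row. -/
noncomputable def sr7_c1_12 : List ℕ × List ℤ :=
  ([(nat_lit 0),(nat_lit 0),(nat_lit 1),(nat_lit 0),(nat_lit 1),(nat_lit 0),(nat_lit 0),(nat_lit 0),(nat_lit 0),(nat_lit 0),(nat_lit 0),(nat_lit 0)], [Int.ofNat (nat_lit 892263879),Int.ofNat (nat_lit 255173944),Int.ofNat (nat_lit 916055592),Int.negSucc (nat_lit 312052043),Int.ofNat (nat_lit 323748325),Int.ofNat (nat_lit 307937637),Int.negSucc (nat_lit 349830801),Int.ofNat (nat_lit 1298778747),Int.ofNat (nat_lit 766610155),Int.negSucc (nat_lit 166350980),Int.ofNat (nat_lit 276335389),Int.negSucc (nat_lit 235861011),Int.ofNat (nat_lit 5477963),Int.negSucc (nat_lit 309002477),Int.ofNat (nat_lit 510337433),Int.ofNat (nat_lit 42794486),Int.ofNat (nat_lit 165252586),Int.negSucc (nat_lit 357124266),Int.ofNat (nat_lit 311004610),Int.negSucc (nat_lit 131221170),Int.ofNat (nat_lit 105990796),Int.ofNat (nat_lit 229677281),Int.ofNat (nat_lit 158089782),Int.negSucc (nat_lit 54861566),Int.negSucc (nat_lit 106294072),Int.ofNat (nat_lit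 253115573),Int.negSucc (nat_lit 6445198),Int.negSucc (nat_lit 31122614),Int.negSucc (nat_lit 146422972),Int.negSucc (nat_lit 94721913),Int.negSucc (nat_lit 11521545),Int.negSucc (nat_lit 10297023),Int.negSucc (nat_lit 325227700),Int.ofNat (nat_lit 87512969),Int.ofNat (nat_lit 252519661),Int.negSucc (nat_lit 4630077),Int.negSucc (nat_lit 13742897),Int.ofNat (nat_lit 15191875),Int.negSucc (nat_lit 27528884),Int.ofNat (nat_lit 273438518),Int.ofNat (nat_lit 42535456),Int.negSucc (nat_lit 316562318),Int.negSucc (nat_lit 95296896),Int.negSucc (nat_lit 5339477),Int.negSucc (nat_lit 14826127),Int.negSucc (nat_lit 98854397),Int.negSucc (nat_lit 16562270),Int.negSucc (nat_lit 56889347),Int.negSucc (nat_lit 71196079),Int.ofNat (nat_lit 177903615),Int.ofNat (nat_lit 36611945),Int.negSucc (nat_lit 33440304),Int.ofNat (nat_lit 79415001),Int.ofNat (nat_lit 21580888),Int.ofNat (nat_lit 92449271),Int.ofNat (nat_lit 22449873),Int.negSucc (nat_lit 111486892),Int.ofNat (nat_lit 79197261),Int.negSucc (nat_lit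 21737882),Int.ofNat (nat_lit 273612864),Int.negSucc (nat_lit 91858447),Int.negSucc (nat_lit 29664164),Int.ofNat (nat_lit 101578933),Int.ofNat (nat_lit 64498231),Int.ofNat (nat_lit 44741819),Int.ofNat (nat_lit 40579139),Int.negSucc (nat_lit 490507830),Int.ofNat (nat_lit 316785166),Int.negSucc (nat_lit 265876432),Int.ofNat (nat_lit 163707142),Int.negSucc (nat_lit 222784385),Int.ofNat (nat_lit 401708621),Int.negSucc (nat_lit 69049902),Int.negSucc (nat_lit 105432101),Int.ofNat (nat_lit 91394867),Int.negSucc (nat_lit 54188302),Int.negSucc (nat_lit 358924238),Int.negSucc (nat_lit 366047743),Int.ofNat (nat_lit 654658322)])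

/-- A row. -/
noncomputable def sr7_c1_13 : List ℕ × List ℤ :=
  ([(nat_lit 0),(nat_lit 0),(nat_lit 1),(nat_lit 2),(nat_lit 0),(nat_lit 0),(nat_lit 0),(nat_lit 0),(nat_lit 0),(nat_lit 0),(nat_lit 0),(nat_lit 0)], [Int.negSucc (nat_lit 27026115),Int.ofNat (nat_lit 199882965),Int.ofNat (nat_lit 153303461),Int.negSucc (nat_lit 18293210),Int.ofNat (nat_lit 74634497),Int.negSucc (nat_lit 59544656),Int.ofNat (nat_lit 162122350),Int.ofNat (nat_lit 101786651),Int.ofNat (nat_lit 597865596),Int.negSucc (nat_lit 99628644),Int.negSucc (nat_lit 6226516),Int.ofNat (nat_lit 99455272),Int.ofNat (nat_lit 124850640),Int.ofNat (nat_lit 90029500),Int.negSucc (nat_lit 47791447),Int.ofNat (nat_lit 115921099),Int.ofNat (nat_lit 8686490),Int.ofNat (nat_lit 186222737),Int.ofNat (nat_lit 41606463),Int.ofNat (nat_lit 71907103),Int.ofNat (nat_lit 70641427),Int.negSucc (nat_lit 3163603),Int.negSucc (nat_lit 88232849),Int.ofNat (nat_lit 107995604),Int.negSucc (nat_lit 75784110),Int.negSucc (nat_lit 36466934),Int.ofNat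 (nat_lit 16182187),Int.negSucc (nat_lit 49519857),Int.ofNat (nat_lit 12321489),Int.ofNat (nat_lit 29666065),Int.negSucc (nat_lit 76713715),Int.ofNat (nat_lit 10773900),Int.negSucc (nat_lit 9623495),Int.negSucc (nat_lit 117522513),Int.negSucc (nat_lit 32220515),Int.ofNat (nat_lit 43941032),Int.ofNat (nat_lit 25602155),Int.ofNat (nat_lit 49652402),Int.negSucc (nat_lit 66217614),Int.negSucc (nat_lit 79659214),Int.ofNat (nat_lit 16593523),Int.ofNat (nat_lit 36326337),Int.negSucc (nat_lit 24822859),Int.ofNat (nat_lit 78215615),Int.ofNat (nat_lit 15438630),Int.negSucc (nat_lit 27968542),Int.negSucc (nat_lit 13273108),Int.negSucc (nat_lit 50087512),Int.negSucc (nat_lit 35355804),Int.ofNat (nat_lit 46934482),Int.negSucc (nat_lit 9522258),Int.negSucc (nat_lit 579261),Int.negSucc (nat_lit 17031702),Int.negSucc (nat_lit 35975766),Int.negSucc (nat_lit 38870387),Int.negSucc (nat_lit 59128114),Int.negSucc (nat_lit 1420636),Int.ofNat (nat_lit 6811046),Int.negSucc (nat_lit 69528283),Int.ofNat (nat_lit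 57797089),Int.negSucc (nat_lit 15751525),Int.negSucc (nat_lit 40492891),Int.negSucc (nat_lit 8571993),Int.ofNat (nat_lit 52858577),Int.ofNat (nat_lit 18496168),Int.ofNat (nat_lit 6691892),Int.negSucc (nat_lit 130576017),Int.negSucc (nat_lit 32100450),Int.negSucc (nat_lit 103522208),Int.ofNat (nat_lit 133597817),Int.ofNat (nat_lit 131119733),Int.ofNat (nat_lit 48734001),Int.ofNat (nat_lit 72268976),Int.ofNat (nat_lit 68340109),Int.negSucc (nat_lit 7806755),Int.ofNat (nat_lit 167762059),Int.negSucc (nat_lit 61537304),Int.negSucc (nat_lit 124463509),Int.ofNat (nat_lit 150367096),Int.ofNat (nat_lit 466662941)])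

/-- A row. -/
noncomputable def sr7_c1_14 : List ℕ × List ℤ :=
  ([(nat_lit 0),(nat_lit 0),(nat_lit 2),(nat_lit 0),(nat_lit 0),(nat_lit 0),(nat_lit 0),(nat_lit 0),(nat_lit 0),(nat_lit 0),(nat_lit 0),(nat_lit 0)], [Int.negSucc (nat_lit 436895814),Int.ofNat (nat_lit 58943181),Int.negSucc (nat_lit 570016981),Int.ofNat (nat_lit 825504613),Int.negSucc (nat_lit 489082969),Int.negSucc (nat_lit 345443649),Int.negSucc (nat_lit 41776376),Int.negSucc (nat_lit 543197240),Int.negSucc (nat_lit 311527966),Int.ofNat (nat_lit 229754446),Int.negSucc (nat_lit 87880832),Int.ofNat (nat_lit 436679781),Int.negSucc (nat_lit 197626166),Int.ofNat (nat_lit 114159399),Int.negSucc (nat_lit 214280433),Int.ofNat (nat_lit 199039783),Int.negSucc (nat_lit 167186192),Int.ofNat (nat_lit 223403046),Int.negSucc (nat_lit 286880470),Int.negSucc (nat_lit 119759873),Int.negSucc (nat_lit 64646855),Int.negSucc (nat_lit 378728944),Int.negSucc (nat_lit 233699190),Int.ofNat (nat_lit 110561593),Int.negSucc (nat_lit 57732917),Int.ofNat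 (nat_lit 46165519),Int.ofNat (nat_lit 64105624),Int.ofNat (nat_lit 16393658),Int.ofNat (nat_lit 295325220),Int.ofNat (nat_lit 32025353),Int.negSucc (nat_lit 129333018),Int.negSucc (nat_lit 79856748),Int.ofNat (nat_lit 97128830),Int.negSucc (nat_lit 63110899),Int.negSucc (nat_lit 40405506),Int.negSucc (nat_lit 108091018),Int.ofNat (nat_lit 51347100),Int.ofNat (nat_lit 70190280),Int.negSucc (nat_lit 2216703),Int.negSucc (nat_lit 260819761),Int.ofNat (nat_lit 31962389),Int.negSucc (nat_lit 1739539),Int.ofNat (nat_lit 116189974),Int.ofNat (nat_lit 79947252),Int.ofNat (nat_lit 388243),Int.negSucc (nat_lit 3416102),Int.negSucc (nat_lit 25299045),Int.negSucc (nat_lit 101868707),Int.ofNat (nat_lit 7193475),Int.negSucc (nat_lit 75142839),Int.negSucc (nat_lit 37454499),Int.negSucc (nat_lit 22812486),Int.negSucc (nat_lit 17417997),Int.negSucc (nat_lit 78634928),Int.negSucc (nat_lit 94031781),Int.negSucc (nat_lit 33749376),Int.ofNat (nat_lit 16868958),Int.negSucc (nat_lit 10096925),Int.negSucc (nat_lit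 129737140),Int.ofNat (nat_lit 35128501),Int.negSucc (nat_lit 100441719),Int.negSucc (nat_lit 97363164),Int.ofNat (nat_lit 24617813),Int.negSucc (nat_lit 13361452),Int.negSucc (nat_lit 33358003),Int.negSucc (nat_lit 76973413),Int.ofNat (nat_lit 273537275),Int.negSucc (nat_lit 116863490),Int.ofNat (nat_lit 73276718),Int.negSucc (nat_lit 271647793),Int.ofNat (nat_lit 194842330),Int.ofNat (nat_lit 424055592),Int.ofNat (nat_lit 164139726),Int.ofNat (nat_lit 186569377),Int.negSucc (nat_lit 41649709),Int.ofNat (nat_lit 199028594),Int.ofNat (nat_lit 695129515),Int.negSucc (nat_lit 210810318),Int.ofNat (nat_lit 210049430),Int.ofNat (nat_lit 318706206),Int.ofNat (nat_lit 401655013)])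

/-- A row. -/
noncomputable def sr7_c1_15 : List ℕ × List ℤ :=
  ([(nat_lit 0),(nat_lit 0),(nat_lit 3),(nat_lit 0),(nat_lit 0),(nat_lit 0),(nat_lit 0),(nat_lit 0),(nat_lit 0),(nat_lit 0),(nat_lit 0),(nat_lit 0)], [Int.negSucc (nat_lit 162451031),Int.ofNat (nat_lit 196562268),Int.ofNat (nat_lit 197620998),Int.ofNat (nat_lit 37925471),Int.negSucc (nat_lit 225496044),Int.ofNat (nat_lit 310767),Int.ofNat (nat_lit 112786130),Int.ofNat (nat_lit 390987476),Int.ofNat (nat_lit 581160481),Int.negSucc (nat_lit 29175281),Int.ofNat (nat_lit 59306993),Int.ofNat (nat_lit 185812554),Int.ofNat (nat_lit 240730559),Int.ofNat (nat_lit 91763943),Int.ofNat (nat_lit 56434739),Int.ofNat (nat_lit 127225548),Int.negSucc (nat_lit 6547175),Int.ofNat (nat_lit 137677259),Int.ofNat (nat_lit 114467375),Int.ofNat (nat_lit 59237076),Int.ofNat (nat_lit 45533670),Int.ofNat (nat_lit 30078809),Int.negSucc (nat_lit 48711764),Int.ofNat (nat_lit 67381881),Int.negSucc (nat_lit 36181409),Int.ofNat (nat_lit 888041),Int.ofNat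 (nat_lit 25817994),Int.negSucc (nat_lit 73164263),Int.ofNat (nat_lit 3427983),Int.negSucc (nat_lit 4221375),Int.negSucc (nat_lit 80186277),Int.ofNat (nat_lit 37082622),Int.negSucc (nat_lit 48284588),Int.negSucc (nat_lit 91559184),Int.ofNat (nat_lit 9402781),Int.ofNat (nat_lit 19356080),Int.ofNat (nat_lit 34240997),Int.ofNat (nat_lit 92345600),Int.negSucc (nat_lit 83688784),Int.negSucc (nat_lit 90931176),Int.ofNat (nat_lit 49641568),Int.ofNat (nat_lit 644075),Int.negSucc (nat_lit 41545750),Int.ofNat (nat_lit 116661404),Int.negSucc (nat_lit 17001474),Int.negSucc (nat_lit 73086008),Int.negSucc (nat_lit 6222441),Int.negSucc (nat_lit 63205689),Int.negSucc (nat_lit 53392736),Int.ofNat (nat_lit 60323346),Int.ofNat (nat_lit 7383422),Int.ofNat (nat_lit 29649325),Int.ofNat (nat_lit 59706468),Int.negSucc (nat_lit 29893997),Int.negSucc (nat_lit 11450926),Int.negSucc (nat_lit 44893404),Int.ofNat (nat_lit 23480179),Int.ofNat (nat_lit 24399767),Int.negSucc (nat_lit 98384039),Int.ofNat (nat_lit 70145451),Int.negSucc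 (nat_lit 73385698),Int.negSucc (nat_lit 85318345),Int.ofNat (nat_lit 14147026),Int.ofNat (nat_lit 56909872),Int.ofNat (nat_lit 14901147),Int.ofNat (nat_lit 38791378),Int.negSucc (nat_lit 142349560),Int.negSucc (nat_lit 62933741),Int.negSucc (nat_lit 164359988),Int.ofNat (nat_lit 86940341),Int.ofNat (nat_lit 172466822),Int.ofNat (nat_lit 34586440),Int.ofNat (nat_lit 81311178),Int.ofNat (nat_lit 82737185),Int.negSucc (nat_lit 65201304),Int.ofNat (nat_lit 64053394),Int.negSucc (nat_lit 51699163),Int.negSucc (nat_lit 202093938),Int.ofNat (nat_lit 199331424),Int.ofNat (nat_lit 305310277),Int.ofNat (nat_lit 230941189),Int.ofNat (nat_lit 206828880)])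

/-- A row. -/
noncomputable def sr7_c1_16 : List ℕ × List ℤ :=
  ([(nat_lit 0),(nat_lit 1),(nat_lit 0),(nat_lit 0),(nat_lit 0),(nat_lit 0),(nat_lit 0),(nat_lit 0),(nat_lit 0),(nat_lit 1),(nat_lit 0),(nat_lit 0)], [Int.negSucc (nat_lit 177956358),Int.negSucc (nat_lit 166532537),Int.ofNat (nat_lit 144315452),Int.ofNat (nat_lit 22056057),Int.ofNat (nat_lit 24346628),Int.negSucc (nat_lit 17842863),Int.negSucc (nat_lit 75731824),Int.negSucc (nat_lit 23671969),Int.ofNat (nat_lit 14927180),Int.negSucc (nat_lit 49444720),Int.negSucc (nat_lit 41285146),Int.ofNat (nat_lit 20632366),Int.ofNat (nat_lit 16664791),Int.negSucc (nat_lit 21977506),Int.negSucc (nat_lit 33393633),Int.ofNat (nat_lit 68114618),Int.negSucc (nat_lit 5347184),Int.ofNat (nat_lit 43401757),Int.ofNat (nat_lit 29106936),Int.ofNat (nat_lit 20477099),Int.negSucc (nat_lit 17291071),Int.ofNat (nat_lit 18856993),Int.ofNat (nat_lit 48555910),Int.ofNat (nat_lit 85744310),Int.negSucc (nat_lit 29066579),Int.negSucc (nat_lit 6038315),Int.negSucc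 (nat_lit 32317435),Int.negSucc (nat_lit 40518208),Int.ofNat (nat_lit 30414510),Int.ofNat (nat_lit 30993445),Int.negSucc (nat_lit 443380),Int.negSucc (nat_lit 155598615),Int.negSucc (nat_lit 47118079),Int.negSucc (nat_lit 53651296),Int.ofNat (nat_lit 13022920),Int.ofNat (nat_lit 2747053),Int.negSucc (nat_lit 5260475),Int.ofNat (nat_lit 12130552),Int.ofNat (nat_lit 3586413),Int.ofNat (nat_lit 37742870),Int.negSucc (nat_lit 16801011),Int.ofNat (nat_lit 2904826),Int.negSucc (nat_lit 19820178),Int.ofNat (nat_lit 4762135),Int.negSucc (nat_lit 6706420),Int.ofNat (nat_lit 5707812),Int.negSucc (nat_lit 15094299),Int.ofNat (nat_lit 1302481),Int.negSucc (nat_lit 1835816),Int.ofNat (nat_lit 13119241),Int.negSucc (nat_lit 650577),Int.ofNat (nat_lit 10246950),Int.negSucc (nat_lit 20819113),Int.ofNat (nat_lit 14212155),Int.ofNat (nat_lit 12730165),Int.ofNat (nat_lit 10490604),Int.ofNat (nat_lit 9585526),Int.ofNat (nat_lit 4677623),Int.ofNat (nat_lit 8988430),Int.negSucc (nat_lit 14187210),Int.negSucc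 (nat_lit 1654985),Int.negSucc (nat_lit 21572443),Int.negSucc (nat_lit 16992431),Int.ofNat (nat_lit 9911322),Int.negSucc (nat_lit 18905073),Int.ofNat (nat_lit 11349396),Int.ofNat (nat_lit 30958420),Int.negSucc (nat_lit 16272948),Int.negSucc (nat_lit 99774489),Int.ofNat (nat_lit 29564979),Int.negSucc (nat_lit 52430905),Int.ofNat (nat_lit 6380512),Int.negSucc (nat_lit 62914781),Int.ofNat (nat_lit 42269376),Int.negSucc (nat_lit 30404026),Int.ofNat (nat_lit 52680409),Int.ofNat (nat_lit 21526510),Int.negSucc (nat_lit 19771661),Int.negSucc (nat_lit 14917332),Int.ofNat (nat_lit 60948503),Int.ofNat (nat_lit 27564980),Int.ofNat (nat_lit 28170844),Int.ofNat (nat_lit 249602866)])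

/-- A row. -/
noncomputable def sr7_c1_17 : List ℕ × List ℤ :=
  ([(nat_lit 0),(nat_lit 1),(nat_lit 0),(nat_lit 0),(nat_lit 0),(nat_lit 0),(nat_lit 0),(nat_lit 1),(nat_lit 0),(nat_lit 0),(nat_lit 0),(nat_lit 0)], [Int.ofNat (nat_lit 707825714),Int.negSucc (nat_lit 636235037),Int.negSucc (nat_lit 1131469237),Int.ofNat (nat_lit 56576657),Int.negSucc (nat_lit 221906944),Int.ofNat (nat_lit 355190705),Int.ofNat (nat_lit 400757922),Int.negSucc (nat_lit 114242125),Int.negSucc (nat_lit 255938268),Int.ofNat (nat_lit 93743179),Int.negSucc (nat_lit 40601654),Int.ofNat (nat_lit 136667708),Int.negSucc (nat_lit 152515196),Int.negSucc (nat_lit 281086733),Int.ofNat (nat_lit 134631168),Int.negSucc (nat_lit 31435046),Int.negSucc (nat_lit 60730184),Int.negSucc (nat_lit 71049824),Int.negSucc (nat_lit 350901189),Int.negSucc (nat_lit 65782156),Int.negSucc (nat_lit 156726248),Int.negSucc (nat_lit 236910673),Int.negSucc (nat_lit 490375498),Int.ofNat (nat_lit 2753852),Int.negSucc (nat_lit 161537775),Int.ofNat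 (nat_lit 260624354),Int.negSucc (nat_lit 83742357),Int.negSucc (nat_lit 21433956),Int.ofNat (nat_lit 53628003),Int.negSucc (nat_lit 33911104),Int.ofNat (nat_lit 18519357),Int.negSucc (nat_lit 9026095),Int.negSucc (nat_lit 582600641),Int.ofNat (nat_lit 103222197),Int.ofNat (nat_lit 44602829),Int.ofNat (nat_lit 119052170),Int.negSucc (nat_lit 33378228),Int.negSucc (nat_lit 52457846),Int.ofNat (nat_lit 24234450),Int.ofNat (nat_lit 110691137),Int.negSucc (nat_lit 88795496),Int.ofNat (nat_lit 19546197),Int.ofNat (nat_lit 78086395),Int.ofNat (nat_lit 49473742),Int.ofNat (nat_lit 78872079),Int.ofNat (nat_lit 33755233),Int.negSucc (nat_lit 49350107),Int.ofNat (nat_lit 78442510),Int.ofNat (nat_lit 3819313),Int.ofNat (nat_lit 50572587),Int.negSucc (nat_lit 11144242),Int.negSucc (nat_lit 58277197),Int.ofNat (nat_lit 40746487),Int.ofNat (nat_lit 91926283),Int.negSucc (nat_lit 44549144),Int.negSucc (nat_lit 26331228),Int.ofNat (nat_lit 27968012),Int.ofNat (nat_lit 56473664),Int.ofNat (nat_lit 45586820),Int.ofNat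 (nat_lit 131113211),Int.negSucc (nat_lit 12048055),Int.ofNat (nat_lit 19433030),Int.ofNat (nat_lit 20561895),Int.negSucc (nat_lit 82517351),Int.negSucc (nat_lit 27491816),Int.ofNat (nat_lit 23486888),Int.negSucc (nat_lit 167174180),Int.ofNat (nat_lit 380103812),Int.ofNat (nat_lit 40733982),Int.negSucc (nat_lit 452869257),Int.ofNat (nat_lit 284793794),Int.ofNat (nat_lit 63234179),Int.ofNat (nat_lit 178638033),Int.negSucc (nat_lit 223158871),Int.ofNat (nat_lit 152920731),Int.negSucc (nat_lit 63891091),Int.ofNat (nat_lit 137198526),Int.ofNat (nat_lit 314964802),Int.ofNat (nat_lit 68960188),Int.ofNat (nat_lit 187619255),Int.negSucc (nat_lit 90294129),Int.negSucc (nat_lit 238700928),Int.ofNat (nat_lit 209416903),Int.ofNat (nat_lit 1002674025)])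

/-- A row. -/
noncomputable def sr7_c1_18 : List ℕ × List ℤ :=
  ([(nat_lit 0),(nat_lit 1),(nat_lit 0),(nat_lit 0),(nat_lit 0),(nat_lit 1),(nat_lit 0),(nat_lit 0),(nat_lit 0),(nat_lit 0),(nat_lit 0),(nat_lit 0)], [Int.ofNat (nat_lit 460743883),Int.ofNat (nat_lit 997580388),Int.ofNat (nat_lit 72470463),Int.ofNat (nat_lit 815231390),Int.ofNat (nat_lit 17551286),Int.negSucc (nat_lit 647915783),Int.negSucc (nat_lit 355315149),Int.negSucc (nat_lit 1098942500),Int.negSucc (nat_lit 819115729),Int.negSucc (nat_lit 90523487),Int.ofNat (nat_lit 216190896),Int.negSucc (nat_lit 160734223),Int.negSucc (nat_lit 137715108),Int.ofNat (nat_lit 1213233082),Int.negSucc (nat_lit 920797050),Int.negSucc (nat_lit 235455780),Int.negSucc (nat_lit 355456736),Int.negSucc (nat_lit 149651171),Int.ofNat (nat_lit 201129446),Int.ofNat (nat_lit 142783794),Int.ofNat (nat_lit 14918085),Int.ofNat (nat_lit 72087977),Int.negSucc (nat_lit 118129557),Int.negSucc (nat_lit 731887443),Int.negSucc (nat_lit 108598834),Int.negSucc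 (nat_lit 400061174),Int.ofNat (nat_lit 56926060),Int.negSucc (nat_lit 182202238),Int.negSucc (nat_lit 108900676),Int.negSucc (nat_lit 135304969),Int.negSucc (nat_lit 120166329),Int.ofNat (nat_lit 233579137),Int.ofNat (nat_lit 564345384),Int.negSucc (nat_lit 471020863),Int.negSucc (nat_lit 189551131),Int.negSucc (nat_lit 253056001),Int.ofNat (nat_lit 252363439),Int.negSucc (nat_lit 274544623),Int.ofNat (nat_lit 63571627),Int.negSucc (nat_lit 49720404),Int.ofNat (nat_lit 127998820),Int.ofNat (nat_lit 36114465),Int.negSucc (nat_lit 32276982),Int.negSucc (nat_lit 207702939),Int.ofNat (nat_lit 251634315),Int.negSucc (nat_lit 94680864),Int.ofNat (nat_lit 83048533),Int.negSucc (nat_lit 188820760),Int.ofNat (nat_lit 58000599),Int.negSucc (nat_lit 86936118),Int.ofNat (nat_lit 91124587),Int.negSucc (nat_lit 110272641),Int.negSucc (nat_lit 153342101),Int.negSucc (nat_lit 61212756),Int.ofNat (nat_lit 172906225),Int.negSucc (nat_lit 156277350),Int.ofNat (nat_lit 71440204),Int.negSucc (nat_lit 2463089),Int.negSucc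 (nat_lit 238239899),Int.negSucc (nat_lit 139536929),Int.ofNat (nat_lit 130228085),Int.negSucc (nat_lit 98760712),Int.negSucc (nat_lit 9374133),Int.negSucc (nat_lit 231549567),Int.ofNat (nat_lit 51750462),Int.negSucc (nat_lit 101857929),Int.ofNat (nat_lit 620824605),Int.ofNat (nat_lit 160843873),Int.ofNat (nat_lit 492147340),Int.ofNat (nat_lit 379840339),Int.negSucc (nat_lit 87269845),Int.negSucc (nat_lit 572975698),Int.negSucc (nat_lit 441793088),Int.ofNat (nat_lit 272553764),Int.negSucc (nat_lit 1147478495),Int.ofNat (nat_lit 46308791),Int.negSucc (nat_lit 86193345),Int.ofNat (nat_lit 57450875),Int.negSucc (nat_lit 103627523),Int.negSucc (nat_lit 14894194),Int.ofNat (nat_lit 68969973),Int.ofNat (nat_lit 131182282),Int.negSucc (nat_lit 262565951),Int.negSucc (nat_lit 10092524),Int.ofNat (nat_lit 1747664207)])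

/-- A row. -/
noncomputable def sr7_c1_19 : List ℕ × List ℤ :=
  ([(nat_lit 0),(nat_lit 1),(nat_lit 0),(nat_lit 1),(nat_lit 0),(nat_lit 0),(nat_lit 0),(nat_lit 0),(nat_lit 0),(nat_lit 0),(nat_lit 0),(nat_lit 0)], [Int.negSucc (nat_lit 2998378766),Int.negSucc (nat_lit 1591923917),Int.ofNat (nat_lit 147104396),Int.negSucc (nat_lit 3192565642),Int.negSucc (nat_lit 853706692),Int.ofNat (nat_lit 2208497138),Int.ofNat (nat_lit 1020640527),Int.ofNat (nat_lit 1970641452),Int.ofNat (nat_lit 2245282953),Int.negSucc (nat_lit 147610665),Int.negSucc (nat_lit 207043490),Int.negSucc (nat_lit 382875021),Int.ofNat (nat_lit 685109109),Int.negSucc (nat_lit 1753195704),Int.ofNat (nat_lit 402742080),Int.ofNat (nat_lit 106983527),Int.ofNat (nat_lit 60877393),Int.ofNat (nat_lit 8855419),Int.negSucc (nat_lit 269378867),Int.negSucc (nat_lit 152953274),Int.ofNat (nat_lit 32510622),Int.ofNat (nat_lit 446981771),Int.ofNat (nat_lit 326252989),Int.ofNat (nat_lit 420359067),Int.ofNat (nat_lit 517054966),Int.negSucc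 (nat_lit 32790500),Int.negSucc (nat_lit 73336121),Int.negSucc (nat_lit 7534372),Int.negSucc (nat_lit 577319936),Int.ofNat (nat_lit 984916542),Int.ofNat (nat_lit 379103992),Int.negSucc (nat_lit 17137650),Int.negSucc (nat_lit 717575673),Int.ofNat (nat_lit 68520307),Int.negSucc (nat_lit 56314520),Int.ofNat (nat_lit 121237628),Int.negSucc (nat_lit 338709101),Int.ofNat (nat_lit 472525769),Int.ofNat (nat_lit 252326155),Int.ofNat (nat_lit 305880992),Int.ofNat (nat_lit 85776514),Int.negSucc (nat_lit 95768501),Int.negSucc (nat_lit 105504479),Int.ofNat (nat_lit 230851643),Int.negSucc (nat_lit 230621976),Int.ofNat (nat_lit 56064325),Int.ofNat (nat_lit 103883987),Int.ofNat (nat_lit 9506581),Int.ofNat (nat_lit 41594502),Int.ofNat (nat_lit 89523186),Int.ofNat (nat_lit 50540206),Int.ofNat (nat_lit 419989843),Int.ofNat (nat_lit 152620979),Int.negSucc (nat_lit 395775319),Int.negSucc (nat_lit 296699225),Int.ofNat (nat_lit 78914510),Int.ofNat (nat_lit 47147071),Int.negSucc (nat_lit 113890601),Int.ofNat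 (nat_lit 130760944),Int.ofNat (nat_lit 165389394),Int.negSucc (nat_lit 74752926),Int.negSucc (nat_lit 234821795),Int.ofNat (nat_lit 43285658),Int.ofNat (nat_lit 281888724),Int.ofNat (nat_lit 10576154),Int.ofNat (nat_lit 300488400),Int.ofNat (nat_lit 182102191),Int.negSucc (nat_lit 1012582684),Int.negSucc (nat_lit 359095033),Int.negSucc (nat_lit 447456086),Int.ofNat (nat_lit 411900488),Int.ofNat (nat_lit 421581764),Int.negSucc (nat_lit 57626726),Int.ofNat (nat_lit 65547310),Int.ofNat (nat_lit 1099600138),Int.negSucc (nat_lit 1366120992),Int.negSucc (nat_lit 149180745),Int.negSucc (nat_lit 295311489),Int.ofNat (nat_lit 313574066),Int.ofNat (nat_lit 150989617),Int.negSucc (nat_lit 195446028),Int.negSucc (nat_lit 126668091),Int.ofNat (nat_lit 761310785),Int.ofNat (nat_lit 10444390),Int.negSucc (nat_lit 587625909),Int.ofNat (nat_lit 2214263552)])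

/-- A row. -/
noncomputable def sr7_c1_20 : List ℕ × List ℤ :=
  ([(nat_lit 0),(nat_lit 1),(nat_lit 0),(nat_lit 1),(nat_lit 1),(nat_lit 0),(nat_lit 0),(nat_lit 0),(nat_lit 0),(nat_lit 0),(nat_lit 0),(nat_lit 0)], [Int.ofNat (nat_lit 915264470),Int.negSucc (nat_lit 168826187),Int.ofNat (nat_lit 768652970),Int.ofNat (nat_lit 154708702),Int.ofNat (nat_lit 418285005),Int.negSucc (nat_lit 408833662),Int.negSucc (nat_lit 83591560),Int.ofNat (nat_lit 286095814),Int.negSucc (nat_lit 79088207),Int.negSucc (nat_lit 50641344),Int.ofNat (nat_lit 237332557),Int.ofNat (nat_lit 662582151),Int.negSucc (nat_lit 110253847),Int.negSucc (nat_lit 34395858),Int.ofNat (nat_lit 120337277),Int.ofNat (nat_lit 180425743),Int.negSucc (nat_lit 49264139),Int.ofNat (nat_lit 482612263),Int.ofNat (nat_lit 47827691),Int.negSucc (nat_lit 83654893),Int.ofNat (nat_lit 39626940),Int.negSucc (nat_lit 140132927),Int.negSucc (nat_lit 441649230),Int.negSucc (nat_lit 537511574),Int.negSucc (nat_lit 333562983),Int.ofNat (nat_lit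 200393358),Int.ofNat (nat_lit 143547830),Int.ofNat (nat_lit 133225015),Int.ofNat (nat_lit 69590800),Int.negSucc (nat_lit 199329843),Int.ofNat (nat_lit 6412417),Int.negSucc (nat_lit 111026076),Int.ofNat (nat_lit 181617820),Int.ofNat (nat_lit 220325348),Int.ofNat (nat_lit 138049755),Int.negSucc (nat_lit 197681837),Int.negSucc (nat_lit 93290982),Int.negSucc (nat_lit 251009935),Int.negSucc (nat_lit 131176557),Int.negSucc (nat_lit 25873631),Int.negSucc (nat_lit 70001598),Int.ofNat (nat_lit 90612454),Int.negSucc (nat_lit 3403017),Int.negSucc (nat_lit 15987607),Int.ofNat (nat_lit 53138891),Int.ofNat (nat_lit 6693805),Int.ofNat (nat_lit 6128488),Int.ofNat (nat_lit 226411619),Int.ofNat (nat_lit 32916347),Int.ofNat (nat_lit 94005766),Int.negSucc (nat_lit 195919198),Int.ofNat (nat_lit 43556311),Int.negSucc (nat_lit 17474441),Int.ofNat (nat_lit 10423184),Int.negSucc (nat_lit 175177253),Int.ofNat (nat_lit 26443988),Int.negSucc (nat_lit 169213123),Int.negSucc (nat_lit 4309469),Int.negSucc (nat_lit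 13371557),Int.negSucc (nat_lit 61226134),Int.negSucc (nat_lit 19282359),Int.ofNat (nat_lit 22742744),Int.ofNat (nat_lit 57900131),Int.negSucc (nat_lit 145451585),Int.negSucc (nat_lit 26271090),Int.negSucc (nat_lit 145359104),Int.ofNat (nat_lit 127399350),Int.ofNat (nat_lit 478581976),Int.ofNat (nat_lit 28124637),Int.negSucc (nat_lit 153591040),Int.negSucc (nat_lit 169773779),Int.negSucc (nat_lit 79645049),Int.ofNat (nat_lit 359695208),Int.negSucc (nat_lit 320892910),Int.ofNat (nat_lit 154976630),Int.ofNat (nat_lit 7859941),Int.ofNat (nat_lit 25599598),Int.negSucc (nat_lit 156437826),Int.negSucc (nat_lit 205880523),Int.negSucc (nat_lit 133751318),Int.negSucc (nat_lit 61317459),Int.negSucc (nat_lit 99646589),Int.ofNat (nat_lit 177792382),Int.negSucc (nat_lit 2756471),Int.ofNat (nat_lit 15887670),Int.negSucc (nat_lit 200648983),Int.ofNat (nat_lit 1075147309)])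

/-- A row. -/
noncomputable def sr7_c1_21 : List ℕ × List ℤ :=
  ([(nat_lit 0),(nat_lit 1),(nat_lit 1),(nat_lit 0),(nat_lit 0),(nat_lit 1),(nat_lit 0),(nat_lit 0),(nat_lit 0),(nat_lit 0),(nat_lit 0),(nat_lit 0)], [Int.negSucc (nat_lit 256026297),Int.negSucc (nat_lit 18953980),Int.negSucc (nat_lit 427882252),Int.negSucc (nat_lit 256772164),Int.negSucc (nat_lit 236138344),Int.ofNat (nat_lit 337905536),Int.ofNat (nat_lit 3813935),Int.negSucc (nat_lit 522559960),Int.negSucc (nat_lit 235615157),Int.ofNat (nat_lit 124903995),Int.negSucc (nat_lit 191301264),Int.negSucc (nat_lit 451588938),Int.ofNat (nat_lit 47158461),Int.ofNat (nat_lit 83707926),Int.negSucc (nat_lit 42941746),Int.negSucc (nat_lit 143487023),Int.negSucc (nat_lit 219903155),Int.negSucc (nat_lit 370377858),Int.negSucc (nat_lit 96067746),Int.ofNat (nat_lit 84307740),Int.negSucc (nat_lit 303084606),Int.ofNat (nat_lit 7957695),Int.ofNat (nat_lit 195989966),Int.ofNat (nat_lit 335267867),Int.ofNat (nat_lit 194183367),Int.negSucc (nat_lit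 132192234),Int.negSucc (nat_lit 68668389),Int.ofNat (nat_lit 58575871),Int.ofNat (nat_lit 647994),Int.ofNat (nat_lit 110313785),Int.ofNat (nat_lit 64472844),Int.ofNat (nat_lit 51833887),Int.negSucc (nat_lit 215727686),Int.negSucc (nat_lit 226798188),Int.negSucc (nat_lit 67751108),Int.ofNat (nat_lit 175429227),Int.negSucc (nat_lit 192095449),Int.ofNat (nat_lit 104877217),Int.ofNat (nat_lit 112044312),Int.ofNat (nat_lit 73323621),Int.negSucc (nat_lit 32192337),Int.ofNat (nat_lit 17715388),Int.ofNat (nat_lit 18658446),Int.negSucc (nat_lit 1176562),Int.ofNat (nat_lit 51036336),Int.ofNat (nat_lit 21881987),Int.negSucc (nat_lit 12625925),Int.negSucc (nat_lit 83586253),Int.ofNat (nat_lit 47645197),Int.negSucc (nat_lit 121078511),Int.ofNat (nat_lit 55225697),Int.negSucc (nat_lit 55490963),Int.negSucc (nat_lit 35131083),Int.ofNat (nat_lit 31534531),Int.ofNat (nat_lit 12819758),Int.negSucc (nat_lit 8312078),Int.ofNat (nat_lit 90738843),Int.negSucc (nat_lit 22220962),Int.ofNat (nat_lit 63524065),Int.ofNat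 (nat_lit 52012689),Int.ofNat (nat_lit 31126577),Int.negSucc (nat_lit 9281104),Int.ofNat (nat_lit 12069498),Int.ofNat (nat_lit 50832546),Int.ofNat (nat_lit 4006889),Int.ofNat (nat_lit 35248081),Int.ofNat (nat_lit 169239231),Int.negSucc (nat_lit 11491797),Int.negSucc (nat_lit 13164802),Int.negSucc (nat_lit 48648077),Int.ofNat (nat_lit 143380447),Int.ofNat (nat_lit 9889212),Int.negSucc (nat_lit 176688792),Int.ofNat (nat_lit 188073314),Int.negSucc (nat_lit 17102975),Int.negSucc (nat_lit 94993462),Int.ofNat (nat_lit 183100495),Int.ofNat (nat_lit 406162624),Int.ofNat (nat_lit 125845023),Int.ofNat (nat_lit 87565106),Int.negSucc (nat_lit 43165790),Int.negSucc (nat_lit 116083207),Int.negSucc (nat_lit 64282426),Int.ofNat (nat_lit 135440473),Int.ofNat (nat_lit 244337360),Int.ofNat (nat_lit 97561043),Int.negSucc (nat_lit 524217690),Int.ofNat (nat_lit 702238659)])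

/-- A row. -/
noncomputable def sr7_c1_22 : List ℕ × List ℤ :=
  ([(nat_lit 0),(nat_lit 1),(nat_lit 1),(nat_lit 1),(nat_lit 0),(nat_lit 0),(nat_lit 0),(nat_lit 0),(nat_lit 0),(nat_lit 0),(nat_lit 0),(nat_lit 0)], [Int.negSucc (nat_lit 2942442321),Int.ofNat (nat_lit 481025429),Int.negSucc (nat_lit 2740966456),Int.ofNat (nat_lit 383845751),Int.negSucc (nat_lit 361784381),Int.negSucc (nat_lit 154201271),Int.ofNat (nat_lit 1076917575),Int.ofNat (nat_lit 732459109),Int.negSucc (nat_lit 999732768),Int.negSucc (nat_lit 432825338),Int.negSucc (nat_lit 175434404),Int.negSucc (nat_lit 723578324),Int.negSucc (nat_lit 628162533),Int.negSucc (nat_lit 1764356561),Int.ofNat (nat_lit 383998945),Int.ofNat (nat_lit 89593782),Int.negSucc (nat_lit 118529707),Int.negSucc (nat_lit 262558485),Int.ofNat (nat_lit 600149822),Int.negSucc (nat_lit 768936493),Int.ofNat (nat_lit 376545052),Int.ofNat (nat_lit 131728462),Int.ofNat (nat_lit 376661655),Int.ofNat (nat_lit 164012453),Int.negSucc (nat_lit 19961827),Int.negSucc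 (nat_lit 218638486),Int.negSucc (nat_lit 506992751),Int.negSucc (nat_lit 426398362),Int.negSucc (nat_lit 219304004),Int.ofNat (nat_lit 66664408),Int.ofNat (nat_lit 171168640),Int.negSucc (nat_lit 73156517),Int.negSucc (nat_lit 155676725),Int.ofNat (nat_lit 207293812),Int.negSucc (nat_lit 186659979),Int.ofNat (nat_lit 176676183),Int.negSucc (nat_lit 90566431),Int.negSucc (nat_lit 311573193),Int.ofNat (nat_lit 117313358),Int.ofNat (nat_lit 597557984),Int.ofNat (nat_lit 127464823),Int.negSucc (nat_lit 356985642),Int.negSucc (nat_lit 144000323),Int.negSucc (nat_lit 34041415),Int.negSucc (nat_lit 224011353),Int.ofNat (nat_lit 305125438),Int.negSucc (nat_lit 52592614),Int.ofNat (nat_lit 90659863),Int.negSucc (nat_lit 136620758),Int.negSucc (nat_lit 85640503),Int.ofNat (nat_lit 55926172),Int.ofNat (nat_lit 89349915),Int.ofNat (nat_lit 407611111),Int.negSucc (nat_lit 326778584),Int.negSucc (nat_lit 210078160),Int.negSucc (nat_lit 222879855),Int.ofNat (nat_lit 192470916),Int.ofNat (nat_lit 50344711),Int.ofNat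 (nat_lit 339469830),Int.negSucc (nat_lit 14174557),Int.ofNat (nat_lit 24563689),Int.ofNat (nat_lit 295568338),Int.ofNat (nat_lit 2411001),Int.ofNat (nat_lit 73514559),Int.ofNat (nat_lit 17279010),Int.ofNat (nat_lit 252756915),Int.ofNat (nat_lit 48655435),Int.negSucc (nat_lit 647491788),Int.ofNat (nat_lit 90701403),Int.negSucc (nat_lit 76764843),Int.negSucc (nat_lit 111729107),Int.ofNat (nat_lit 16051907),Int.negSucc (nat_lit 227115925),Int.negSucc (nat_lit 12873655),Int.negSucc (nat_lit 298698550),Int.ofNat (nat_lit 422639883),Int.negSucc (nat_lit 297797076),Int.negSucc (nat_lit 279162021),Int.negSucc (nat_lit 492618724),Int.negSucc (nat_lit 1432559433),Int.negSucc (nat_lit 94952031),Int.ofNat (nat_lit 109248263),Int.ofNat (nat_lit 552573868),Int.negSucc (nat_lit 275830072),Int.ofNat (nat_lit 171592188),Int.ofNat (nat_lit 1545229521),Int.ofNat (nat_lit 129007088),Int.negSucc (nat_lit 422987503),Int.ofNat (nat_lit 1786233626)])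

/-- A row. -/
noncomputable def sr7_c1_23 : List ℕ × List ℤ :=
  ([(nat_lit 0),(nat_lit 2),(nat_lit 0),(nat_lit 0),(nat_lit 0),(nat_lit 0),(nat_lit 0),(nat_lit 0),(nat_lit 0),(nat_lit 0),(nat_lit 0),(nat_lit 0)], [Int.ofNat (nat_lit 2496468017),Int.ofNat (nat_lit 783635069),Int.ofNat (nat_lit 691863392),Int.ofNat (nat_lit 1419780716),Int.ofNat (nat_lit 972313286),Int.negSucc (nat_lit 1681448225),Int.negSucc (nat_lit 365783209),Int.negSucc (nat_lit 403452286),Int.negSucc (nat_lit 187723796),Int.negSucc (nat_lit 207199914),Int.ofNat (nat_lit 160412424),Int.ofNat (nat_lit 35866546),Int.ofNat (nat_lit 437790550),Int.ofNat (nat_lit 711344252),Int.ofNat (nat_lit 531509896),Int.negSucc (nat_lit 424059916),Int.negSucc (nat_lit 117018980),Int.ofNat (nat_lit 486357811),Int.ofNat (nat_lit 691953046),Int.ofNat (nat_lit 433010998),Int.negSucc (nat_lit 40615444),Int.negSucc (nat_lit 161742427),Int.ofNat (nat_lit 491487270),Int.negSucc (nat_lit 834166888),Int.negSucc (nat_lit 781019754),Int.negSucc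 (nat_lit 566545993),Int.negSucc (nat_lit 1030595864),Int.ofNat (nat_lit 289384253),Int.ofNat (nat_lit 242034989),Int.negSucc (nat_lit 274717204),Int.ofNat (nat_lit 501510593),Int.ofNat (nat_lit 420811962),Int.ofNat (nat_lit 463665023),Int.negSucc (nat_lit 523642195),Int.ofNat (nat_lit 43064299),Int.ofNat (nat_lit 296079106),Int.ofNat (nat_lit 221004501),Int.negSucc (nat_lit 109660180),Int.negSucc (nat_lit 1057740643),Int.negSucc (nat_lit 742020222),Int.negSucc (nat_lit 20880974),Int.ofNat (nat_lit 309237480),Int.ofNat (nat_lit 32809227),Int.ofNat (nat_lit 61952642),Int.ofNat (nat_lit 131023025),Int.negSucc (nat_lit 285188382),Int.ofNat (nat_lit 133025350),Int.negSucc (nat_lit 30444460),Int.negSucc (nat_lit 419371009),Int.ofNat (nat_lit 55436053),Int.negSucc (nat_lit 178115098),Int.ofNat (nat_lit 23311776),Int.negSucc (nat_lit 102359219),Int.negSucc (nat_lit 71764155),Int.ofNat (nat_lit 361013614),Int.ofNat (nat_lit 7884726),Int.ofNat (nat_lit 128582565),Int.ofNat (nat_lit 221353695),Int.ofNat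 (nat_lit 192958060),Int.negSucc (nat_lit 42249664),Int.ofNat (nat_lit 178971873),Int.ofNat (nat_lit 209523782),Int.negSucc (nat_lit 318167476),Int.negSucc (nat_lit 63354623),Int.ofNat (nat_lit 57331998),Int.negSucc (nat_lit 49512554),Int.negSucc (nat_lit 1216997724),Int.ofNat (nat_lit 293607639),Int.negSucc (nat_lit 509819258),Int.ofNat (nat_lit 1164482238),Int.ofNat (nat_lit 211425345),Int.negSucc (nat_lit 683166912),Int.ofNat (nat_lit 193483971),Int.negSucc (nat_lit 76859027),Int.negSucc (nat_lit 501525261),Int.ofNat (nat_lit 254789747),Int.ofNat (nat_lit 563854484),Int.ofNat (nat_lit 342437342),Int.negSucc (nat_lit 112135270),Int.negSucc (nat_lit 444094045),Int.negSucc (nat_lit 205949322),Int.ofNat (nat_lit 166195553),Int.negSucc (nat_lit 379588592),Int.negSucc (nat_lit 428753784),Int.ofNat (nat_lit 950264654),Int.negSucc (nat_lit 1754600231),Int.negSucc (nat_lit 140755974),Int.negSucc (nat_lit 43158440),Int.ofNat (nat_lit 40296887),Int.ofNat (nat_lit 3224426228)])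

/-- A row. -/
noncomputable def sr7_c1_24 : List ℕ × List ℤ :=
  ([(nat_lit 0),(nat_lit 2),(nat_lit 0),(nat_lit 0),(nat_lit 0),(nat_lit 0),(nat_lit 1),(nat_lit 0),(nat_lit 0),(nat_lit 0),(nat_lit 0),(nat_lit 0)], [Int.negSucc (nat_lit 763298945),Int.negSucc (nat_lit 152447667),Int.negSucc (nat_lit 448946845),Int.negSucc (nat_lit 56751686),Int.ofNat (nat_lit 35103777),Int.ofNat (nat_lit 475180528),Int.ofNat (nat_lit 241928008),Int.negSucc (nat_lit 338576248),Int.ofNat (nat_lit 378429911),Int.negSucc (nat_lit 58239469),Int.ofNat (nat_lit 155534857),Int.negSucc (nat_lit 152141233),Int.ofNat (nat_lit 335735991),Int.negSucc (nat_lit 190880585),Int.ofNat (nat_lit 261069500),Int.negSucc (nat_lit 457274267),Int.negSucc (nat_lit 30800261),Int.ofNat (nat_lit 123931813),Int.negSucc (nat_lit 70804623),Int.ofNat (nat_lit 3682295),Int.negSucc (nat_lit 162254846),Int.ofNat (nat_lit 72264653),Int.ofNat (nat_lit 364768782),Int.negSucc (nat_lit 97867346),Int.negSucc (nat_lit 65380130),Int.ofNat (nat_lit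 77697880),Int.ofNat (nat_lit 219801520),Int.negSucc (nat_lit 34257973),Int.negSucc (nat_lit 21908944),Int.ofNat (nat_lit 162140175),Int.ofNat (nat_lit 95819111),Int.ofNat (nat_lit 80041200),Int.negSucc (nat_lit 122762566),Int.negSucc (nat_lit 252919717),Int.ofNat (nat_lit 9671177),Int.ofNat (nat_lit 25560093),Int.negSucc (nat_lit 39718953),Int.ofNat (nat_lit 223630950),Int.negSucc (nat_lit 119603897),Int.negSucc (nat_lit 417295181),Int.negSucc (nat_lit 226048084),Int.ofNat (nat_lit 43464583),Int.negSucc (nat_lit 96279489),Int.negSucc (nat_lit 2525857),Int.ofNat (nat_lit 69358231),Int.negSucc (nat_lit 34068322),Int.negSucc (nat_lit 22883639),Int.negSucc (nat_lit 4617506),Int.ofNat (nat_lit 101191764),Int.ofNat (nat_lit 66925674),Int.negSucc (nat_lit 15812377),Int.ofNat (nat_lit 75376983),Int.negSucc (nat_lit 92815046),Int.ofNat (nat_lit 62629059),Int.ofNat (nat_lit 91915422),Int.ofNat (nat_lit 97313872),Int.negSucc (nat_lit 78676137),Int.ofNat (nat_lit 15582636),Int.ofNat (nat_lit 76951570),Int.ofNat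 (nat_lit 108091606),Int.negSucc (nat_lit 45156117),Int.negSucc (nat_lit 39626647),Int.negSucc (nat_lit 84907232),Int.ofNat (nat_lit 133853256),Int.negSucc (nat_lit 79194969),Int.ofNat (nat_lit 79147495),Int.ofNat (nat_lit 40121918),Int.negSucc (nat_lit 39336736),Int.negSucc (nat_lit 136763304),Int.ofNat (nat_lit 88759868),Int.ofNat (nat_lit 215785621),Int.negSucc (nat_lit 2456224),Int.ofNat (nat_lit 48743009),Int.ofNat (nat_lit 193697269),Int.ofNat (nat_lit 10712516),Int.ofNat (nat_lit 4244721),Int.ofNat (nat_lit 106659893),Int.ofNat (nat_lit 195409619),Int.ofNat (nat_lit 11263952),Int.negSucc (nat_lit 153872568),Int.negSucc (nat_lit 14418540),Int.ofNat (nat_lit 83495514),Int.ofNat (nat_lit 305367651),Int.negSucc (nat_lit 127835691),Int.negSucc (nat_lit 187461363),Int.negSucc (nat_lit 33768926),Int.negSucc (nat_lit 201809721),Int.negSucc (nat_lit 18853447),Int.negSucc (nat_lit 40626807),Int.ofNat (nat_lit 312504772),Int.ofNat (nat_lit 977201556)])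

/-- A row. -/
noncomputable def sr7_c1_25 : List ℕ × List ℤ :=
  ([(nat_lit 0),(nat_lit 2),(nat_lit 0),(nat_lit 0),(nat_lit 1),(nat_lit 0),(nat_lit 0),(nat_lit 0),(nat_lit 0),(nat_lit 0),(nat_lit 0),(nat_lit 0)], [Int.negSucc (nat_lit 810766210),Int.ofNat (nat_lit 2080827075),Int.negSucc (nat_lit 1062415486),Int.negSucc (nat_lit 536963476),Int.negSucc (nat_lit 466598122),Int.ofNat (nat_lit 781810426),Int.negSucc (nat_lit 33807490),Int.negSucc (nat_lit 1202722673),Int.negSucc (nat_lit 563287637),Int.ofNat (nat_lit 1206228717),Int.negSucc (nat_lit 896742775),Int.negSucc (nat_lit 1147787894),Int.negSucc (nat_lit 118722354),Int.ofNat (nat_lit 1055099814),Int.negSucc (nat_lit 143082999),Int.negSucc (nat_lit 318413824),Int.negSucc (nat_lit 691719810),Int.negSucc (nat_lit 1162163341),Int.negSucc (nat_lit 248905584),Int.ofNat (nat_lit 184501236),Int.ofNat (nat_lit 151699808),Int.ofNat (nat_lit 347612485),Int.negSucc (nat_lit 91850624),Int.ofNat (nat_lit 1768361118),Int.ofNat (nat_lit 530148716),Int.negSucc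 (nat_lit 512313671),Int.negSucc (nat_lit 346831911),Int.negSucc (nat_lit 1901905577),Int.ofNat (nat_lit 545899015),Int.negSucc (nat_lit 221604702),Int.negSucc (nat_lit 1222781461),Int.ofNat (nat_lit 337535318),Int.negSucc (nat_lit 482092362),Int.negSucc (nat_lit 547020019),Int.negSucc (nat_lit 211768318),Int.negSucc (nat_lit 414623191),Int.ofNat (nat_lit 200891942),Int.ofNat (nat_lit 86230618),Int.ofNat (nat_lit 662721973),Int.ofNat (nat_lit 320667316),Int.negSucc (nat_lit 328006944),Int.ofNat (nat_lit 49860602),Int.ofNat (nat_lit 13763928),Int.negSucc (nat_lit 558568692),Int.ofNat (nat_lit 137429046),Int.negSucc (nat_lit 244269248),Int.ofNat (nat_lit 73787112),Int.negSucc (nat_lit 344477905),Int.negSucc (nat_lit 446007271),Int.ofNat (nat_lit 369532692),Int.ofNat (nat_lit 529402142),Int.negSucc (nat_lit 238112029),Int.negSucc (nat_lit 193990268),Int.ofNat (nat_lit 291826188),Int.ofNat (nat_lit 490826787),Int.negSucc (nat_lit 262113405),Int.ofNat (nat_lit 184938175),Int.negSucc (nat_lit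 127694367),Int.negSucc (nat_lit 583787457),Int.ofNat (nat_lit 86819716),Int.negSucc (nat_lit 35170284),Int.negSucc (nat_lit 435918123),Int.ofNat (nat_lit 50000973),Int.ofNat (nat_lit 173326418),Int.negSucc (nat_lit 8118524),Int.ofNat (nat_lit 141013509),Int.ofNat (nat_lit 559057320),Int.negSucc (nat_lit 709811583),Int.ofNat (nat_lit 1144690018),Int.negSucc (nat_lit 91639902),Int.negSucc (nat_lit 398840260),Int.negSucc (nat_lit 585288013),Int.negSucc (nat_lit 709231395),Int.ofNat (nat_lit 480406713),Int.negSucc (nat_lit 310142062),Int.ofNat (nat_lit 279328561),Int.negSucc (nat_lit 183539725),Int.negSucc (nat_lit 322342518),Int.ofNat (nat_lit 388205250),Int.ofNat (nat_lit 499511975),Int.ofNat (nat_lit 253703186),Int.ofNat (nat_lit 88341512),Int.negSucc (nat_lit 509159922),Int.ofNat (nat_lit 19856768),Int.ofNat (nat_lit 370573207),Int.negSucc (nat_lit 292143407),Int.negSucc (nat_lit 771351246),Int.ofNat (nat_lit 211532456),Int.ofNat (nat_lit 1896698),Int.negSucc (nat_lit 1722274843),Int.negSucc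 (nat_lit 650568005),Int.ofNat (nat_lit 2638350813)])

/-- A row. -/
noncomputable def sr7_c1_26 : List ℕ × List ℤ :=
  ([(nat_lit 0),(nat_lit 2),(nat_lit 0),(nat_lit 2),(nat_lit 0),(nat_lit 0),(nat_lit 0),(nat_lit 0),(nat_lit 0),(nat_lit 0),(nat_lit 0),(nat_lit 0)], [Int.ofNat (nat_lit 1550154359),Int.ofNat (nat_lit 1108068754),Int.ofNat (nat_lit 332864140),Int.negSucc (nat_lit 582499698),Int.ofNat (nat_lit 454601615),Int.ofNat (nat_lit 41698861),Int.negSucc (nat_lit 744330382),Int.ofNat (nat_lit 204597517),Int.negSucc (nat_lit 1439040347),Int.ofNat (nat_lit 421556828),Int.negSucc (nat_lit 276578569),Int.negSucc (nat_lit 1247434047),Int.negSucc (nat_lit 533309837),Int.negSucc (nat_lit 85784747),Int.ofNat (nat_lit 825254270),Int.ofNat (nat_lit 102024773),Int.negSucc (nat_lit 358791932),Int.negSucc (nat_lit 1180121864),Int.ofNat (nat_lit 157856732),Int.ofNat (nat_lit 193455929),Int.negSucc (nat_lit 234283607),Int.ofNat (nat_lit 154985979),Int.negSucc (nat_lit 108187805),Int.ofNat (nat_lit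 428814722),Int.negSucc (nat_lit 338780199),Int.negSucc (nat_lit 358907696),Int.negSucc (nat_lit 49816677),Int.negSucc (nat_lit 214320075),Int.ofNat (nat_lit 663372890),Int.negSucc (nat_lit 945278101),Int.negSucc (nat_lit 107795946),Int.ofNat (nat_lit 227430492),Int.negSucc (nat_lit 546022104),Int.negSucc (nat_lit 100784494),Int.negSucc (nat_lit 175252171),Int.ofNat (nat_lit 89755487),Int.ofNat (nat_lit 35224993),Int.negSucc (nat_lit 120447803),Int.ofNat (nat_lit 305268471),Int.ofNat (nat_lit 576438110),Int.negSucc (nat_lit 63820845),Int.negSucc (nat_lit 66809320),Int.negSucc (nat_lit 41142996),Int.negSucc (nat_lit 213667848),Int.ofNat (nat_lit 329556785),Int.negSucc (nat_lit 217473377),Int.ofNat (nat_lit 59821159),Int.ofNat (nat_lit 64626329),Int.negSucc (nat_lit 195524504),Int.negSucc (nat_lit 86500654),Int.ofNat (nat_lit 346677432),Int.negSucc (nat_lit 93963311),Int.negSucc (nat_lit 81411343),Int.ofNat (nat_lit 242971649),Int.negSucc (nat_lit 55152591),Int.negSucc (nat_lit 2113696),Int.negSucc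 (nat_lit 413305686),Int.negSucc (nat_lit 41531829),Int.negSucc (nat_lit 191516106),Int.ofNat (nat_lit 21104477),Int.ofNat (nat_lit 107621826),Int.ofNat (nat_lit 76629757),Int.negSucc (nat_lit 91644331),Int.ofNat (nat_lit 47263723),Int.ofNat (nat_lit 42530619),Int.ofNat (nat_lit 117014597),Int.ofNat (nat_lit 71513684),Int.ofNat (nat_lit 95625597),Int.negSucc (nat_lit 271709792),Int.ofNat (nat_lit 84184005),Int.negSucc (nat_lit 527067073),Int.negSucc (nat_lit 164374594),Int.ofNat (nat_lit 85442024),Int.negSucc (nat_lit 110525811),Int.negSucc (nat_lit 38209862),Int.negSucc (nat_lit 549491098),Int.negSucc (nat_lit 121179459),Int.negSucc (nat_lit 70663964),Int.ofNat (nat_lit 39592282),Int.ofNat (nat_lit 217652998),Int.negSucc (nat_lit 69461746),Int.negSucc (nat_lit 28957825),Int.negSucc (nat_lit 434724800),Int.ofNat (nat_lit 196231281),Int.ofNat (nat_lit 41866138),Int.negSucc (nat_lit 427843551),Int.negSucc (nat_lit 26824908),Int.ofNat (nat_lit 273541242),Int.ofNat (nat_lit 117371914),Int.negSucc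 (nat_lit 475978570),Int.negSucc (nat_lit 327441124),Int.ofNat (nat_lit 247090657),Int.ofNat (nat_lit 1678685036)])

/-- A row. -/
noncomputable def sr7_c1_27 : List ℕ × List ℤ :=
  ([(nat_lit 0),(nat_lit 2),(nat_lit 1),(nat_lit 0),(nat_lit 0),(nat_lit 0),(nat_lit 0),(nat_lit 0),(nat_lit 0),(nat_lit 0),(nat_lit 0),(nat_lit 0)], [Int.ofNat (nat_lit 2501248585),Int.negSucc (nat_lit 434262963),Int.ofNat (nat_lit 2911050023),Int.negSucc (nat_lit 866959181),Int.ofNat (nat_lit 1020042698),Int.negSucc (nat_lit 653871696),Int.ofNat (nat_lit 656514951),Int.negSucc (nat_lit 241109950),Int.ofNat (nat_lit 1898455960),Int.negSucc (nat_lit 626693433),Int.ofNat (nat_lit 449373511),Int.ofNat (nat_lit 1198956460),Int.ofNat (nat_lit 1233170585),Int.ofNat (nat_lit 971189766),Int.negSucc (nat_lit 991941076),Int.ofNat (nat_lit 118029985),Int.ofNat (nat_lit 607743670),Int.ofNat (nat_lit 1317107470),Int.negSucc (nat_lit 517742533),Int.ofNat (nat_lit 737902464),Int.negSucc (nat_lit 155263014),Int.negSucc (nat_lit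 87270129),Int.negSucc (nat_lit 230030696),Int.negSucc (nat_lit 862013314),Int.ofNat (nat_lit 403517258),Int.negSucc (nat_lit 647676586),Int.ofNat (nat_lit 353788541),Int.ofNat (nat_lit 966033587),Int.negSucc (nat_lit 1374441698),Int.ofNat (nat_lit 596959347),Int.ofNat (nat_lit 829539713),Int.ofNat (nat_lit 437133522),Int.ofNat (nat_lit 256608336),Int.negSucc (nat_lit 145931913),Int.negSucc (nat_lit 274803413),Int.ofNat (nat_lit 85285745),Int.ofNat (nat_lit 54916690),Int.ofNat (nat_lit 322100538),Int.negSucc (nat_lit 1036487609),Int.negSucc (nat_lit 1118317826),Int.ofNat (nat_lit 31637288),Int.ofNat (nat_lit 774245430),Int.negSucc (nat_lit 517478169),Int.ofNat (nat_lit 265791878),Int.ofNat (nat_lit 554027936),Int.negSucc (nat_lit 571471865),Int.ofNat (nat_lit 832486211),Int.ofNat (nat_lit 578985644),Int.negSucc (nat_lit 529308911),Int.ofNat (nat_lit 27537194),Int.negSucc (nat_lit 156273051),Int.ofNat (nat_lit 46756912),Int.negSucc (nat_lit 69416676),Int.negSucc (nat_lit 40387222),Int.ofNat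 (nat_lit 39708992),Int.negSucc (nat_lit 81633835),Int.ofNat (nat_lit 143620729),Int.ofNat (nat_lit 114004320),Int.negSucc (nat_lit 58856925),Int.negSucc (nat_lit 67176896),Int.ofNat (nat_lit 333520187),Int.ofNat (nat_lit 180295912),Int.negSucc (nat_lit 433166049),Int.ofNat (nat_lit 110128225),Int.ofNat (nat_lit 62116622),Int.negSucc (nat_lit 210197915),Int.negSucc (nat_lit 1973652549),Int.ofNat (nat_lit 154417285),Int.negSucc (nat_lit 572741191),Int.ofNat (nat_lit 505144025),Int.ofNat (nat_lit 487953087),Int.negSucc (nat_lit 594992550),Int.ofNat (nat_lit 363440500),Int.negSucc (nat_lit 531633286),Int.ofNat (nat_lit 615944740),Int.negSucc (nat_lit 727248098),Int.negSucc (nat_lit 540951932),Int.ofNat (nat_lit 1066371156),Int.ofNat (nat_lit 380647556),Int.ofNat (nat_lit 1380049169),Int.ofNat (nat_lit 261573259),Int.negSucc (nat_lit 528673350),Int.negSucc (nat_lit 493562892),Int.ofNat (nat_lit 427261361),Int.negSucc (nat_lit 244815287),Int.negSucc (nat_lit 772625309),Int.negSucc (nat_lit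 49208960),Int.ofNat (nat_lit 690550985),Int.negSucc (nat_lit 1720028010),Int.ofNat (nat_lit 2281309733),Int.ofNat (nat_lit 145691205),Int.ofNat (nat_lit 210843620),Int.ofNat (nat_lit 88720704),Int.ofNat (nat_lit 2622691980)])

/-- A row. -/
noncomputable def sr7_c1_28 : List ℕ × List ℤ :=
  ([(nat_lit 0),(nat_lit 2),(nat_lit 2),(nat_lit 0),(nat_lit 0),(nat_lit 0),(nat_lit 0),(nat_lit 0),(nat_lit 0),(nat_lit 0),(nat_lit 0),(nat_lit 0)], [Int.ofNat (nat_lit 859470287),Int.ofNat (nat_lit 1013507717),Int.negSucc (nat_lit 329366715),Int.ofNat (nat_lit 614227586),Int.ofNat (nat_lit 699418366),Int.negSucc (nat_lit 812511339),Int.negSucc (nat_lit 218420994),Int.negSucc (nat_lit 365183185),Int.negSucc (nat_lit 1663812138),Int.ofNat (nat_lit 116505703),Int.negSucc (nat_lit 40134111),Int.negSucc (nat_lit 444170497),Int.negSucc (nat_lit 757633511),Int.negSucc (nat_lit 365903938),Int.ofNat (nat_lit 24209217),Int.ofNat (nat_lit 208091931),Int.negSucc (nat_lit 121278828),Int.negSucc (nat_lit 334310398),Int.negSucc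 (nat_lit 55383706),Int.negSucc (nat_lit 239463007),Int.ofNat (nat_lit 127684318),Int.ofNat (nat_lit 37894672),Int.negSucc (nat_lit 310441264),Int.ofNat (nat_lit 150350925),Int.ofNat (nat_lit 226258376),Int.ofNat (nat_lit 339963730),Int.ofNat (nat_lit 25561295),Int.negSucc (nat_lit 87258136),Int.ofNat (nat_lit 757364390),Int.negSucc (nat_lit 899806811),Int.negSucc (nat_lit 154120537),Int.ofNat (nat_lit 279471072),Int.ofNat (nat_lit 22937622),Int.ofNat (nat_lit 81882709),Int.negSucc (nat_lit 364099789),Int.negSucc (nat_lit 13094942),Int.ofNat (nat_lit 90984651),Int.negSucc (nat_lit 384724721),Int.ofNat (nat_lit 22998170),Int.ofNat (nat_lit 286726684),Int.negSucc (nat_lit 187466067),Int.negSucc (nat_lit 5767947),Int.negSucc (nat_lit 360504351),Int.negSucc (nat_lit 666843437),Int.ofNat (nat_lit 219803997),Int.negSucc (nat_lit 101631526),Int.ofNat (nat_lit 404702393),Int.ofNat (nat_lit 399284284),Int.negSucc (nat_lit 468394795),Int.negSucc (nat_lit 146323269),Int.ofNat (nat_lit 62228234),Int.negSucc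 (nat_lit 66238416),Int.ofNat (nat_lit 53498566),Int.ofNat (nat_lit 156800866),Int.negSucc (nat_lit 236229748),Int.negSucc (nat_lit 92795239),Int.ofNat (nat_lit 77236186),Int.negSucc (nat_lit 6516099),Int.negSucc (nat_lit 115745129),Int.negSucc (nat_lit 112013304),Int.ofNat (nat_lit 305293794),Int.ofNat (nat_lit 386998932),Int.negSucc (nat_lit 147912154),Int.ofNat (nat_lit 9200376),Int.negSucc (nat_lit 80015319),Int.negSucc (nat_lit 61262670),Int.negSucc (nat_lit 135635555),Int.ofNat (nat_lit 193422658),Int.negSucc (nat_lit 81048583),Int.ofNat (nat_lit 210501660),Int.negSucc (nat_lit 308829861),Int.negSucc (nat_lit 203246121),Int.ofNat (nat_lit 80858262),Int.negSucc (nat_lit 218081004),Int.ofNat (nat_lit 53737944),Int.ofNat (nat_lit 149204383),Int.negSucc (nat_lit 592086719),Int.ofNat (nat_lit 281537816),Int.ofNat (nat_lit 160777716),Int.ofNat (nat_lit 85886168),Int.negSucc (nat_lit 51169480),Int.ofNat (nat_lit 227238806),Int.negSucc (nat_lit 174683259),Int.ofNat (nat_lit 439320666),Int.ofNat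 (nat_lit 14912492),Int.ofNat (nat_lit 212968774),Int.ofNat (nat_lit 188286548),Int.ofNat (nat_lit 17970865),Int.ofNat (nat_lit 373370002),Int.negSucc (nat_lit 451149309),Int.ofNat (nat_lit 34701679),Int.ofNat (nat_lit 434407162),Int.ofNat (nat_lit 403640402),Int.ofNat (nat_lit 1214845949),Int.ofNat (nat_lit 1558578829)])

/-- A row. -/
noncomputable def sr7_c1_29 : List ℕ × List ℤ :=
  ([(nat_lit 0),(nat_lit 3),(nat_lit 0),(nat_lit 0),(nat_lit 0),(nat_lit 1),(nat_lit 0),(nat_lit 0),(nat_lit 0),(nat_lit 0),(nat_lit 0),(nat_lit 0)], [Int.negSucc (nat_lit 2311413489),Int.negSucc (nat_lit 759129278),Int.negSucc (nat_lit 602757747),Int.ofNat (nat_lit 801189200),Int.negSucc (nat_lit 285476230),Int.ofNat (nat_lit 153625496),Int.ofNat (nat_lit 413516150),Int.ofNat (nat_lit 459293878),Int.ofNat (nat_lit 1005694843),Int.ofNat (nat_lit 335903846),Int.ofNat (nat_lit 61130776),Int.ofNat (nat_lit 1072753208),Int.ofNat (nat_lit 169406151),Int.negSucc (nat_lit 604707612),Int.ofNat (nat_lit 261679340),Int.ofNat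 (nat_lit 158128355),Int.ofNat (nat_lit 391171787),Int.ofNat (nat_lit 1358247350),Int.negSucc (nat_lit 2504819),Int.negSucc (nat_lit 52005407),Int.negSucc (nat_lit 60742065),Int.negSucc (nat_lit 158295953),Int.negSucc (nat_lit 126020355),Int.negSucc (nat_lit 772674933),Int.ofNat (nat_lit 117623055),Int.ofNat (nat_lit 335709846),Int.ofNat (nat_lit 94155566),Int.negSucc (nat_lit 684586678),Int.ofNat (nat_lit 115954466),Int.negSucc (nat_lit 175717584),Int.ofNat (nat_lit 135732125),Int.negSucc (nat_lit 332782027),Int.ofNat (nat_lit 145331401),Int.ofNat (nat_lit 275777486),Int.negSucc (nat_lit 99353634),Int.ofNat (nat_lit 158247667),Int.ofNat (nat_lit 124264893),Int.ofNat (nat_lit 43100771),Int.negSucc (nat_lit 235532677),Int.negSucc (nat_lit 517616964),Int.ofNat (nat_lit 46018042),Int.ofNat (nat_lit 152268754),Int.negSucc (nat_lit 252062108),Int.negSucc (nat_lit 176543083),Int.negSucc (nat_lit 1291985546),Int.ofNat (nat_lit 99506074),Int.ofNat (nat_lit 36137915),Int.ofNat (nat_lit 275882172),Int.ofNat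 (nat_lit 147128538),Int.negSucc (nat_lit 137751095),Int.ofNat (nat_lit 22809373),Int.ofNat (nat_lit 83517627),Int.ofNat (nat_lit 69787581),Int.ofNat (nat_lit 19248772),Int.negSucc (nat_lit 51155900),Int.ofNat (nat_lit 147805336),Int.negSucc (nat_lit 78605314),Int.negSucc (nat_lit 80149117),Int.ofNat (nat_lit 279518465),Int.negSucc (nat_lit 61229201),Int.negSucc (nat_lit 197122146),Int.negSucc (nat_lit 63223066),Int.ofNat (nat_lit 305696679),Int.negSucc (nat_lit 10034837),Int.negSucc (nat_lit 32577464),Int.ofNat (nat_lit 43455413),Int.negSucc (nat_lit 138680498),Int.negSucc (nat_lit 70274084),Int.negSucc (nat_lit 274211915),Int.negSucc (nat_lit 336271300),Int.ofNat (nat_lit 15250898),Int.ofNat (nat_lit 234250605),Int.ofNat (nat_lit 204129998),Int.ofNat (nat_lit 5978166),Int.ofNat (nat_lit 246660315),Int.ofNat (nat_lit 144242885),Int.ofNat (nat_lit 89441039),Int.negSucc (nat_lit 43521156),Int.negSucc (nat_lit 232255355),Int.negSucc (nat_lit 62821356),Int.negSucc (nat_lit 46359883),Int.negSucc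 (nat_lit 76129270),Int.ofNat (nat_lit 415450041),Int.negSucc (nat_lit 328904514),Int.negSucc (nat_lit 806217285),Int.ofNat (nat_lit 324624524),Int.ofNat (nat_lit 331582838),Int.negSucc (nat_lit 263070613),Int.negSucc (nat_lit 18145183),Int.ofNat (nat_lit 306848499),Int.ofNat (nat_lit 571003160),Int.negSucc (nat_lit 375719939),Int.negSucc (nat_lit 949519167),Int.negSucc (nat_lit 17572950),Int.negSucc (nat_lit 331984984),Int.ofNat (nat_lit 2259607540)])

/-- A row. -/
noncomputable def sr7_c1_30 : List ℕ × List ℤ :=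
  ([(nat_lit 0),(nat_lit 3),(nat_lit 0),(nat_lit 1),(nat_lit 0),(nat_lit 0),(nat_lit 0),(nat_lit 0),(nat_lit 0),(nat_lit 0),(nat_lit 0),(nat_lit 0)], [Int.ofNat (nat_lit 2523662947),Int.ofNat (nat_lit 484209056),Int.negSucc (nat_lit 608215211),Int.ofNat (nat_lit 3337617168),Int.ofNat (nat_lit 245647043),Int.negSucc (nat_lit 3086574473),Int.negSucc (nat_lit 1390315731),Int.negSucc (nat_lit 1262510074),Int.negSucc (nat_lit 280986252),Int.negSucc (nat_lit 463148259),Int.ofNat (nat_lit 173749938),Int.ofNat (nat_lit 591953455),Int.negSucc (nat_lit 848660734),Int.ofNat (nat_lit 1149310993),Int.negSucc (nat_lit 1797518522),Int.ofNat (nat_lit 37371986),Int.ofNat (nat_lit 206304442),Int.ofNat (nat_lit 983244156),Int.negSucc (nat_lit 1574202896),Int.negSucc (nat_lit 964993701),Int.negSucc (nat_lit 141681846),Int.negSucc (nat_lit 808146496),Int.ofNat (nat_lit 460856689),Int.negSucc (nat_lit 1130517950),Int.negSucc (nat_lit 34739834),Int.negSucc (nat_lit 495074543),Int.negSucc (nat_lit 1703304698),Int.ofNat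 (nat_lit 830770059),Int.negSucc (nat_lit 1399841321),Int.negSucc (nat_lit 1177788384),Int.negSucc (nat_lit 1040947990),Int.negSucc (nat_lit 134724424),Int.ofNat (nat_lit 997679300),Int.ofNat (nat_lit 301878601),Int.ofNat (nat_lit 124727117),Int.negSucc (nat_lit 389382079),Int.ofNat (nat_lit 504819764),Int.negSucc (nat_lit 361922339),Int.negSucc (nat_lit 80289809),Int.negSucc (nat_lit 799126072),Int.ofNat (nat_lit 150613098),Int.ofNat (nat_lit 279293514),Int.ofNat (nat_lit 462692795),Int.ofNat (nat_lit 74629242),Int.ofNat (nat_lit 299115548),Int.negSucc (nat_lit 481961155),Int.negSucc (nat_lit 149510795),Int.negSucc (nat_lit 419849971),Int.ofNat (nat_lit 305960012),Int.negSucc (nat_lit 115380332),Int.negSucc (nat_lit 66208470),Int.negSucc (nat_lit 71861709),Int.ofNat (nat_lit 141403034),Int.ofNat (nat_lit 220639610),Int.ofNat (nat_lit 376932302),Int.negSucc (nat_lit 585414475),Int.ofNat (nat_lit 421514596),Int.negSucc (nat_lit 373446261),Int.negSucc (nat_lit 6747808),Int.negSucc (nat_lit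 291443308),Int.ofNat (nat_lit 16309152),Int.ofNat (nat_lit 504667937),Int.ofNat (nat_lit 171956352),Int.ofNat (nat_lit 36214004),Int.ofNat (nat_lit 19599403),Int.negSucc (nat_lit 377221872),Int.negSucc (nat_lit 154226373),Int.ofNat (nat_lit 526375880),Int.ofNat (nat_lit 944384577),Int.ofNat (nat_lit 451769358),Int.negSucc (nat_lit 54406924),Int.negSucc (nat_lit 329462532),Int.ofNat (nat_lit 103372956),Int.ofNat (nat_lit 87891149),Int.negSucc (nat_lit 799109642),Int.ofNat (nat_lit 1109114646),Int.ofNat (nat_lit 390218718),Int.ofNat (nat_lit 583624067),Int.negSucc (nat_lit 192352144),Int.negSucc (nat_lit 172449731),Int.ofNat (nat_lit 473050967),Int.ofNat (nat_lit 70570980),Int.negSucc (nat_lit 938451282),Int.ofNat (nat_lit 335992685),Int.ofNat (nat_lit 102243540),Int.negSucc (nat_lit 2735233118),Int.negSucc (nat_lit 485826153),Int.negSucc (nat_lit 245180783),Int.ofNat (nat_lit 749734758),Int.negSucc (nat_lit 21961498),Int.ofNat (nat_lit 44053985),Int.ofNat (nat_lit 1978333),Int.negSucc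 (nat_lit 1987458082),Int.ofNat (nat_lit 218216169),Int.ofNat (nat_lit 142882806),Int.negSucc (nat_lit 968632161),Int.ofNat (nat_lit 3366006586)])

/-- A row. -/
noncomputable def sr7_c1_31 : List ℕ × List ℤ :=
  ([(nat_lit 0),(nat_lit 4),(nat_lit 0),(nat_lit 0),(nat_lit 0),(nat_lit 0),(nat_lit 0),(nat_lit 0),(nat_lit 0),(nat_lit 0),(nat_lit 0),(nat_lit 0)], [Int.negSucc (nat_lit 4264536265),Int.negSucc (nat_lit 1670577119),Int.negSucc (nat_lit 65971955),Int.negSucc (nat_lit 691732443),Int.negSucc (nat_lit 2096302838),Int.ofNat (nat_lit 1551504724),Int.ofNat (nat_lit 554165804),Int.ofNat (nat_lit 1929153251),Int.ofNat (nat_lit 223030715),Int.ofNat (nat_lit 1022181667),Int.ofNat (nat_lit 182138549),Int.ofNat (nat_lit 1149874041),Int.negSucc (nat_lit 212974714),Int.negSucc (nat_lit 1637721315),Int.ofNat (nat_lit 810572960),Int.ofNat (nat_lit 826001508),Int.ofNat (nat_lit 234319149),Int.ofNat (nat_lit 260559317),Int.ofNat (nat_lit 199792674),Int.ofNat (nat_lit 24939416),Int.ofNat (nat_lit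 18665015),Int.ofNat (nat_lit 503018772),Int.negSucc (nat_lit 1190922097),Int.ofNat (nat_lit 1141833519),Int.ofNat (nat_lit 16886150),Int.ofNat (nat_lit 1271288954),Int.ofNat (nat_lit 1629676443),Int.negSucc (nat_lit 1943271508),Int.ofNat (nat_lit 1149569798),Int.negSucc (nat_lit 503218865),Int.negSucc (nat_lit 667153699),Int.negSucc (nat_lit 528301706),Int.negSucc (nat_lit 131298141),Int.ofNat (nat_lit 690045356),Int.ofNat (nat_lit 171542928),Int.negSucc (nat_lit 378647794),Int.negSucc (nat_lit 89730745),Int.ofNat (nat_lit 539426787),Int.ofNat (nat_lit 736097344),Int.ofNat (nat_lit 806364556),Int.ofNat (nat_lit 485989104),Int.negSucc (nat_lit 621489259),Int.negSucc (nat_lit 711518749),Int.ofNat (nat_lit 56939571),Int.negSucc (nat_lit 1329035715),Int.ofNat (nat_lit 1313560440),Int.negSucc (nat_lit 1578004770),Int.ofNat (nat_lit 2009964812),Int.ofNat (nat_lit 1619561819),Int.ofNat (nat_lit 328032202),Int.negSucc (nat_lit 177680588),Int.negSucc (nat_lit 39444401),Int.ofNat (nat_lit 124933814),Int.ofNat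 (nat_lit 6457174),Int.negSucc (nat_lit 146236816),Int.ofNat (nat_lit 105451730),Int.negSucc (nat_lit 392758741),Int.negSucc (nat_lit 200257378),Int.negSucc (nat_lit 131528210),Int.negSucc (nat_lit 100504379),Int.negSucc (nat_lit 635535682),Int.negSucc (nat_lit 884616327),Int.ofNat (nat_lit 476152215),Int.negSucc (nat_lit 52672595),Int.ofNat (nat_lit 4645013),Int.ofNat (nat_lit 193232829),Int.ofNat (nat_lit 441455161),Int.negSucc (nat_lit 198876030),Int.negSucc (nat_lit 1166762646),Int.negSucc (nat_lit 1590696219),Int.negSucc (nat_lit 37599938),Int.ofNat (nat_lit 462892514),Int.negSucc (nat_lit 583224696),Int.negSucc (nat_lit 437791678),Int.ofNat (nat_lit 450289275),Int.negSucc (nat_lit 287074827),Int.negSucc (nat_lit 1328495513),Int.negSucc (nat_lit 531212239),Int.negSucc (nat_lit 749161750),Int.ofNat (nat_lit 512294708),Int.ofNat (nat_lit 280617693),Int.negSucc (nat_lit 82726036),Int.ofNat (nat_lit 1407394240),Int.negSucc (nat_lit 438352788),Int.negSucc (nat_lit 1439538964),Int.ofNat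 (nat_lit 3755076649),Int.ofNat (nat_lit 723595951),Int.negSucc (nat_lit 752864438),Int.negSucc (nat_lit 1202903687),Int.negSucc (nat_lit 3853961489),Int.ofNat (nat_lit 763282846),Int.negSucc (nat_lit 1464208652),Int.ofNat (nat_lit 100110705),Int.ofNat (nat_lit 913680804),Int.negSucc (nat_lit 975211199),Int.ofNat (nat_lit 2355617676),Int.negSucc (nat_lit 2976124785),Int.ofNat (nat_lit 4033020176)])

/-- A row. -/
noncomputable def sr7_c1_32 : List ℕ × List ℤ :=
  ([(nat_lit 0),(nat_lit 4),(nat_lit 1),(nat_lit 0),(nat_lit 0),(nat_lit 0),(nat_lit 0),(nat_lit 0),(nat_lit 0),(nat_lit 0),(nat_lit 0),(nat_lit 0)], [Int.ofNat (nat_lit 1251640609),Int.negSucc (nat_lit 541611498),Int.negSucc (nat_lit 528826454),Int.negSucc (nat_lit 236822048),Int.negSucc (nat_lit 379864485),Int.ofNat (nat_lit 435833394),Int.negSucc (nat_lit 1064036171),Int.ofNat (nat_lit 737162979),Int.negSucc (nat_lit 382840059),Int.negSucc (nat_lit 414097295),Int.negSucc (nat_lit 384983627),Int.negSucc (nat_lit 1111266405),Int.negSucc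 (nat_lit 512490872),Int.negSucc (nat_lit 627981066),Int.negSucc (nat_lit 135429117),Int.ofNat (nat_lit 62731194),Int.negSucc (nat_lit 40168763),Int.negSucc (nat_lit 1323867392),Int.ofNat (nat_lit 17845571),Int.negSucc (nat_lit 818331259),Int.negSucc (nat_lit 140019575),Int.ofNat (nat_lit 49859994),Int.ofNat (nat_lit 964475112),Int.ofNat (nat_lit 247595671),Int.ofNat (nat_lit 78559641),Int.ofNat (nat_lit 128899507),Int.negSucc (nat_lit 1007909362),Int.negSucc (nat_lit 143426440),Int.negSucc (nat_lit 311469429),Int.ofNat (nat_lit 1029569450),Int.ofNat (nat_lit 478044250),Int.negSucc (nat_lit 492623849),Int.negSucc (nat_lit 206914048),Int.ofNat (nat_lit 160919898),Int.ofNat (nat_lit 302287398),Int.ofNat (nat_lit 178562907),Int.negSucc (nat_lit 22054103),Int.negSucc (nat_lit 236513139),Int.ofNat (nat_lit 986601695),Int.ofNat (nat_lit 1057941781),Int.ofNat (nat_lit 78873619),Int.negSucc (nat_lit 691779378),Int.ofNat (nat_lit 593608586),Int.negSucc (nat_lit 334218082),Int.negSucc (nat_lit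 194143008),Int.ofNat (nat_lit 306956213),Int.negSucc (nat_lit 1342130737),Int.negSucc (nat_lit 616696691),Int.ofNat (nat_lit 1151399758),Int.negSucc (nat_lit 103447627),Int.ofNat (nat_lit 254749739),Int.negSucc (nat_lit 79231828),Int.ofNat (nat_lit 97562021),Int.ofNat (nat_lit 91465695),Int.ofNat (nat_lit 86788498),Int.ofNat (nat_lit 197594748),Int.negSucc (nat_lit 194794180),Int.ofNat (nat_lit 260667166),Int.ofNat (nat_lit 10782469),Int.ofNat (nat_lit 20282535),Int.negSucc (nat_lit 158300955),Int.negSucc (nat_lit 10025019),Int.ofNat (nat_lit 535428128),Int.negSucc (nat_lit 63762253),Int.negSucc (nat_lit 52624273),Int.ofNat (nat_lit 139509262),Int.ofNat (nat_lit 785456216),Int.ofNat (nat_lit 256811268),Int.ofNat (nat_lit 418736003),Int.negSucc (nat_lit 286077115),Int.negSucc (nat_lit 476763226),Int.negSucc (nat_lit 167291157),Int.negSucc (nat_lit 431116436),Int.ofNat (nat_lit 230354298),Int.negSucc (nat_lit 256690725),Int.ofNat (nat_lit 71019264),Int.ofNat (nat_lit 105664989),Int.negSucc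 (nat_lit 383810222),Int.negSucc (nat_lit 655862457),Int.negSucc (nat_lit 1308871811),Int.negSucc (nat_lit 191650814),Int.ofNat (nat_lit 285800693),Int.ofNat (nat_lit 277485361),Int.ofNat (nat_lit 98804288),Int.negSucc (nat_lit 29768174),Int.ofNat (nat_lit 73402678),Int.negSucc (nat_lit 315711500),Int.negSucc (nat_lit 594701670),Int.ofNat (nat_lit 854061077),Int.negSucc (nat_lit 1810486441),Int.negSucc (nat_lit 515977134),Int.negSucc (nat_lit 150323099),Int.negSucc (nat_lit 78162968),Int.negSucc (nat_lit 1821511463),Int.ofNat (nat_lit 520765653),Int.negSucc (nat_lit 227804295),Int.ofNat (nat_lit 439884035),Int.ofNat (nat_lit 621186182),Int.ofNat (nat_lit 2393531525)])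

/-- A row. -/
noncomputable def sr7_c1_33 : List ℕ × List ℤ :=
  ([(nat_lit 0),(nat_lit 6),(nat_lit 0),(nat_lit 0),(nat_lit 0),(nat_lit 0),(nat_lit 0),(nat_lit 0),(nat_lit 0),(nat_lit 0),(nat_lit 0),(nat_lit 0)], [Int.ofNat (nat_lit 1672590273),Int.ofNat (nat_lit 1064021147),Int.negSucc (nat_lit 414328418),Int.negSucc (nat_lit 513264633),Int.ofNat (nat_lit 1247862724),Int.ofNat (nat_lit 415076676),Int.negSucc (nat_lit 40170748),Int.negSucc (nat_lit 1034424165),Int.ofNat (nat_lit 53884927),Int.negSucc (nat_lit 363817493),Int.negSucc (nat_lit 119029049),Int.negSucc (nat_lit 924753845),Int.negSucc (nat_lit 76270090),Int.ofNat (nat_lit 698408595),Int.negSucc (nat_lit 139748491),Int.negSucc (nat_lit 424011378),Int.negSucc (nat_lit 173968203),Int.negSucc (nat_lit 676526174),Int.ofNat (nat_lit 39211985),Int.negSucc (nat_lit 91179223),Int.ofNat (nat_lit 279753768),Int.negSucc (nat_lit 447623254),Int.ofNat (nat_lit 383784421),Int.negSucc (nat_lit 192219570),Int.ofNat (nat_lit 55977832),Int.negSucc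 (nat_lit 522627575),Int.negSucc (nat_lit 528459640),Int.ofNat (nat_lit 1284881789),Int.negSucc (nat_lit 1152628705),Int.negSucc (nat_lit 304582052),Int.negSucc (nat_lit 633848478),Int.negSucc (nat_lit 18676398),Int.negSucc (nat_lit 341218745),Int.negSucc (nat_lit 368291089),Int.negSucc (nat_lit 124959448),Int.ofNat (nat_lit 373780832),Int.negSucc (nat_lit 152448893),Int.negSucc (nat_lit 314629808),Int.negSucc (nat_lit 28685756),Int.negSucc (nat_lit 131955994),Int.negSucc (nat_lit 512438909),Int.ofNat (nat_lit 212666773),Int.ofNat (nat_lit 536156662),Int.negSucc (nat_lit 199720067),Int.ofNat (nat_lit 877497320),Int.negSucc (nat_lit 682066408),Int.ofNat (nat_lit 1239305070),Int.negSucc (nat_lit 1944714588),Int.negSucc (nat_lit 1439750277),Int.negSucc (nat_lit 278935124),Int.ofNat (nat_lit 191797114),Int.ofNat (nat_lit 31971162),Int.negSucc (nat_lit 210870225),Int.ofNat (nat_lit 123884719),Int.negSucc (nat_lit 61360388),Int.ofNat (nat_lit 110151001),Int.ofNat (nat_lit 133655566),Int.ofNat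 (nat_lit 105775576),Int.ofNat (nat_lit 135600067),Int.ofNat (nat_lit 187810273),Int.ofNat (nat_lit 366078977),Int.ofNat (nat_lit 498308154),Int.negSucc (nat_lit 151037434),Int.negSucc (nat_lit 94946084),Int.negSucc (nat_lit 45599153),Int.negSucc (nat_lit 124097902),Int.ofNat (nat_lit 179181994),Int.ofNat (nat_lit 96175675),Int.ofNat (nat_lit 1193156589),Int.ofNat (nat_lit 546001946),Int.negSucc (nat_lit 6880499),Int.ofNat (nat_lit 145189109),Int.ofNat (nat_lit 376670100),Int.ofNat (nat_lit 433663603),Int.ofNat (nat_lit 37526840),Int.negSucc (nat_lit 63836116),Int.ofNat (nat_lit 697115919),Int.ofNat (nat_lit 127773002),Int.ofNat (nat_lit 451056163),Int.negSucc (nat_lit 484201522),Int.negSucc (nat_lit 280279119),Int.negSucc (nat_lit 54075855),Int.negSucc (nat_lit 459549243),Int.ofNat (nat_lit 503024604),Int.ofNat (nat_lit 808959620),Int.negSucc (nat_lit 1469488045),Int.negSucc (nat_lit 309225592),Int.ofNat (nat_lit 647900323),Int.ofNat (nat_lit 613153962),Int.ofNat (nat_lit 1272744339),Int.negSucc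 (nat_lit 461990869),Int.ofNat (nat_lit 783379344),Int.ofNat (nat_lit 76161591),Int.negSucc (nat_lit 1160637374),Int.ofNat (nat_lit 511794222),Int.negSucc (nat_lit 1777748703),Int.ofNat (nat_lit 1105822704),Int.negSucc (nat_lit 3680354220),Int.ofNat (nat_lit 538460615),Int.ofNat (nat_lit 1647207398)])

/-- A row. -/
noncomputable def sr7_c1_34 : List ℕ × List ℤ :=
  ([(nat_lit 1),(nat_lit 0),(nat_lit 0),(nat_lit 0),(nat_lit 0),(nat_lit 0),(nat_lit 0),(nat_lit 0),(nat_lit 0),(nat_lit 0),(nat_lit 0),(nat_lit 0)], [Int.ofNat (nat_lit 2476837347),Int.ofNat (nat_lit 977331433),Int.ofNat (nat_lit 2039199932),Int.negSucc (nat_lit 840140980),Int.ofNat (nat_lit 1463096211),Int.ofNat (nat_lit 414810975),Int.negSucc (nat_lit 92712817),Int.ofNat (nat_lit 891291170),Int.ofNat (nat_lit 1673909682),Int.negSucc (nat_lit 207222570),Int.negSucc (nat_lit 440836835),Int.ofNat (nat_lit 195581041),Int.ofNat (nat_lit 316313347),Int.ofNat (nat_lit 606926035),Int.negSucc (nat_lit 353831724),Int.ofNat (nat_lit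 666348980),Int.ofNat (nat_lit 476429226),Int.ofNat (nat_lit 426504968),Int.ofNat (nat_lit 427107655),Int.ofNat (nat_lit 168870136),Int.ofNat (nat_lit 816296265),Int.ofNat (nat_lit 126656807),Int.ofNat (nat_lit 196915207),Int.ofNat (nat_lit 590656139),Int.negSucc (nat_lit 45750944),Int.negSucc (nat_lit 469916570),Int.negSucc (nat_lit 373829740),Int.negSucc (nat_lit 263696609),Int.negSucc (nat_lit 268187084),Int.ofNat (nat_lit 377142487),Int.ofNat (nat_lit 7739645),Int.ofNat (nat_lit 107648531),Int.ofNat (nat_lit 113754348),Int.negSucc (nat_lit 219928032),Int.negSucc (nat_lit 246624855),Int.ofNat (nat_lit 126672212),Int.ofNat (nat_lit 181020953),Int.negSucc (nat_lit 35933160),Int.negSucc (nat_lit 361868491),Int.ofNat (nat_lit 202187070),Int.ofNat (nat_lit 236912733),Int.negSucc (nat_lit 207563562),Int.ofNat (nat_lit 180520783),Int.negSucc (nat_lit 180894568),Int.ofNat (nat_lit 134528816),Int.negSucc (nat_lit 140656728),Int.negSucc (nat_lit 10492046),Int.ofNat (nat_lit 21680726),Int.negSucc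 (nat_lit 182103467),Int.ofNat (nat_lit 148695441),Int.ofNat (nat_lit 119608854),Int.ofNat (nat_lit 264831701),Int.ofNat (nat_lit 90550336),Int.negSucc (nat_lit 80488525),Int.ofNat (nat_lit 363591664),Int.negSucc (nat_lit 211245381),Int.ofNat (nat_lit 8711238),Int.ofNat (nat_lit 116633403),Int.negSucc (nat_lit 65516782),Int.ofNat (nat_lit 116908727),Int.ofNat (nat_lit 170207610),Int.negSucc (nat_lit 115736470),Int.negSucc (nat_lit 35687614),Int.ofNat (nat_lit 80910160),Int.ofNat (nat_lit 56567844),Int.ofNat (nat_lit 47892830),Int.negSucc (nat_lit 2981511460),Int.negSucc (nat_lit 253211010),Int.negSucc (nat_lit 344287956),Int.ofNat (nat_lit 551943082),Int.negSucc (nat_lit 551004669),Int.negSucc (nat_lit 272547667),Int.negSucc (nat_lit 340502300),Int.ofNat (nat_lit 63732550),Int.negSucc (nat_lit 183887006),Int.ofNat (nat_lit 87094100),Int.ofNat (nat_lit 422677048),Int.ofNat (nat_lit 210592612),Int.negSucc (nat_lit 464972971),Int.ofNat (nat_lit 356411502),Int.negSucc (nat_lit 22628418),Int.ofNat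 (nat_lit 180572267),Int.ofNat (nat_lit 114601178),Int.ofNat (nat_lit 119868713),Int.negSucc (nat_lit 88192260),Int.ofNat (nat_lit 242359483),Int.ofNat (nat_lit 59276212),Int.negSucc (nat_lit 13504923),Int.negSucc (nat_lit 24457179),Int.negSucc (nat_lit 318968972),Int.negSucc (nat_lit 171127551),Int.ofNat (nat_lit 201703325),Int.ofNat (nat_lit 32109119),Int.ofNat (nat_lit 143458247),Int.negSucc (nat_lit 163054284),Int.negSucc (nat_lit 18515499),Int.ofNat (nat_lit 73133805),Int.ofNat (nat_lit 59549491),Int.ofNat (nat_lit 78201807),Int.negSucc (nat_lit 56748547),Int.ofNat (nat_lit 1212975127)])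

/-- A row. -/
noncomputable def sr7_c1_35 : List ℕ × List ℤ :=
  ([(nat_lit 1),(nat_lit 0),(nat_lit 0),(nat_lit 0),(nat_lit 0),(nat_lit 0),(nat_lit 0),(nat_lit 0),(nat_lit 1),(nat_lit 0),(nat_lit 0),(nat_lit 0)], [Int.ofNat (nat_lit 121481013),Int.negSucc (nat_lit 373447517),Int.negSucc (nat_lit 10157575),Int.ofNat (nat_lit 22592795),Int.negSucc (nat_lit 217246330),Int.negSucc (nat_lit 9774146),Int.negSucc (nat_lit 167152406),Int.ofNat (nat_lit 150896842),Int.ofNat (nat_lit 86240894),Int.ofNat (nat_lit 75462334),Int.ofNat (nat_lit 48052259),Int.negSucc (nat_lit 104274532),Int.negSucc (nat_lit 88015664),Int.negSucc (nat_lit 87270927),Int.ofNat (nat_lit 246715914),Int.ofNat (nat_lit 30285048),Int.negSucc (nat_lit 87962687),Int.negSucc (nat_lit 33803993),Int.ofNat (nat_lit 73474534),Int.ofNat (nat_lit 27885493),Int.negSucc (nat_lit 43260339),Int.ofNat (nat_lit 24373362),Int.ofNat (nat_lit 76126954),Int.ofNat (nat_lit 50946488),Int.negSucc (nat_lit 26602419),Int.ofNat (nat_lit 4375440),Int.negSucc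 (nat_lit 62350076),Int.negSucc (nat_lit 39000131),Int.ofNat (nat_lit 52274207),Int.negSucc (nat_lit 122328876),Int.negSucc (nat_lit 10132506),Int.ofNat (nat_lit 64969734),Int.negSucc (nat_lit 52068709),Int.negSucc (nat_lit 48419336),Int.negSucc (nat_lit 12297977),Int.ofNat (nat_lit 17516786),Int.ofNat (nat_lit 5472968),Int.ofNat (nat_lit 44385315),Int.ofNat (nat_lit 10159681),Int.ofNat (nat_lit 35067991),Int.negSucc (nat_lit 61588498),Int.ofNat (nat_lit 17941290),Int.negSucc (nat_lit 5252740),Int.ofNat (nat_lit 35970795),Int.negSucc (nat_lit 74161530),Int.ofNat (nat_lit 13017935),Int.negSucc (nat_lit 29479866),Int.negSucc (nat_lit 2601894),Int.negSucc (nat_lit 27903794),Int.ofNat (nat_lit 7468309),Int.ofNat (nat_lit 36898373),Int.negSucc (nat_lit 22935396),Int.ofNat (nat_lit 47716958),Int.ofNat (nat_lit 9367031),Int.ofNat (nat_lit 20719842),Int.ofNat (nat_lit 22702210),Int.ofNat (nat_lit 21741373),Int.ofNat (nat_lit 1815859),Int.negSucc (nat_lit 1406752),Int.ofNat (nat_lit 33275411),Int.negSucc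 (nat_lit 20745940),Int.negSucc (nat_lit 5418910),Int.ofNat (nat_lit 3730002),Int.ofNat (nat_lit 32462951),Int.ofNat (nat_lit 7881648),Int.ofNat (nat_lit 68255806),Int.ofNat (nat_lit 60413413),Int.ofNat (nat_lit 40553250),Int.negSucc (nat_lit 427858952),Int.negSucc (nat_lit 7009893),Int.ofNat (nat_lit 24427049),Int.negSucc (nat_lit 11875279),Int.negSucc (nat_lit 20357769),Int.negSucc (nat_lit 20724795),Int.negSucc (nat_lit 15405537),Int.ofNat (nat_lit 1370190),Int.ofNat (nat_lit 5223597),Int.ofNat (nat_lit 34052449),Int.negSucc (nat_lit 6869328),Int.negSucc (nat_lit 3371665),Int.negSucc (nat_lit 8143351),Int.negSucc (nat_lit 21993133),Int.ofNat (nat_lit 19064766),Int.ofNat (nat_lit 29660753),Int.ofNat (nat_lit 9572364),Int.ofNat (nat_lit 7661096),Int.ofNat (nat_lit 15552782),Int.ofNat (nat_lit 7316238),Int.negSucc (nat_lit 5048091),Int.ofNat (nat_lit 3221917),Int.negSucc (nat_lit 4129337),Int.negSucc (nat_lit 11130349),Int.negSucc (nat_lit 17094680),Int.negSucc (nat_lit 2686308),Int.negSucc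 (nat_lit 992875),Int.negSucc (nat_lit 11687598),Int.negSucc (nat_lit 1629007),Int.negSucc (nat_lit 1214577),Int.ofNat (nat_lit 678158),Int.negSucc (nat_lit 3455057),Int.ofNat (nat_lit 13974556),Int.ofNat (nat_lit 81537832)])

/-- A row. -/
noncomputable def sr7_c1_36 : List ℕ × List ℤ :=
  ([(nat_lit 1),(nat_lit 0),(nat_lit 0),(nat_lit 0),(nat_lit 0),(nat_lit 0),(nat_lit 1),(nat_lit 0),(nat_lit 0),(nat_lit 0),(nat_lit 0),(nat_lit 0)], [Int.ofNat (nat_lit 2535715063),Int.ofNat (nat_lit 556367019),Int.negSucc (nat_lit 468894673),Int.ofNat (nat_lit 519830483),Int.negSucc (nat_lit 366133154),Int.negSucc (nat_lit 368773348),Int.negSucc (nat_lit 103837853),Int.ofNat (nat_lit 627060724),Int.negSucc (nat_lit 852131650),Int.ofNat (nat_lit 542054276),Int.negSucc (nat_lit 114825737),Int.ofNat (nat_lit 417533711),Int.negSucc (nat_lit 474043477),Int.ofNat (nat_lit 375102331),Int.negSucc (nat_lit 220898013),Int.ofNat (nat_lit 1005969555),Int.ofNat (nat_lit 345425202),Int.negSucc (nat_lit 197193684),Int.negSucc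 (nat_lit 28189279),Int.negSucc (nat_lit 656697),Int.ofNat (nat_lit 334499226),Int.negSucc (nat_lit 72471394),Int.negSucc (nat_lit 318185605),Int.ofNat (nat_lit 33593321),Int.negSucc (nat_lit 33032204),Int.ofNat (nat_lit 183826047),Int.negSucc (nat_lit 221397329),Int.negSucc (nat_lit 12160769),Int.ofNat (nat_lit 235012249),Int.negSucc (nat_lit 45997663),Int.negSucc (nat_lit 97580683),Int.negSucc (nat_lit 31910711),Int.negSucc (nat_lit 159905050),Int.ofNat (nat_lit 32507272),Int.ofNat (nat_lit 328948525),Int.negSucc (nat_lit 67179167),Int.ofNat (nat_lit 60713510),Int.negSucc (nat_lit 242742602),Int.negSucc (nat_lit 62294344),Int.ofNat (nat_lit 237611184),Int.ofNat (nat_lit 158621101),Int.negSucc (nat_lit 414495544),Int.ofNat (nat_lit 2705879),Int.negSucc (nat_lit 163207128),Int.ofNat (nat_lit 50832205),Int.negSucc (nat_lit 13243717),Int.ofNat (nat_lit 62534164),Int.ofNat (nat_lit 39151878),Int.negSucc (nat_lit 77679070),Int.ofNat (nat_lit 137765258),Int.ofNat (nat_lit 80902881),Int.ofNat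 (nat_lit 15596912),Int.negSucc (nat_lit 57892181),Int.ofNat (nat_lit 32085311),Int.ofNat (nat_lit 87032442),Int.negSucc (nat_lit 27651364),Int.negSucc (nat_lit 149624427),Int.ofNat (nat_lit 237542770),Int.negSucc (nat_lit 62671359),Int.ofNat (nat_lit 162040296),Int.negSucc (nat_lit 131668525),Int.negSucc (nat_lit 204591458),Int.ofNat (nat_lit 17882059),Int.ofNat (nat_lit 10404162),Int.negSucc (nat_lit 5256413),Int.ofNat (nat_lit 5644853),Int.negSucc (nat_lit 968398391),Int.ofNat (nat_lit 84377794),Int.ofNat (nat_lit 354956088),Int.negSucc (nat_lit 1699518642),Int.negSucc (nat_lit 312539960),Int.negSucc (nat_lit 26767204),Int.negSucc (nat_lit 169728336),Int.ofNat (nat_lit 36062863),Int.ofNat (nat_lit 115633686),Int.ofNat (nat_lit 4822775),Int.ofNat (nat_lit 58087255),Int.ofNat (nat_lit 243095078),Int.negSucc (nat_lit 2363064),Int.ofNat (nat_lit 187769395),Int.ofNat (nat_lit 65813185),Int.negSucc (nat_lit 2251022),Int.negSucc (nat_lit 125060608),Int.ofNat (nat_lit 51139950),Int.negSucc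 (nat_lit 74654681),Int.ofNat (nat_lit 68672510),Int.ofNat (nat_lit 36088755),Int.ofNat (nat_lit 1771105),Int.ofNat (nat_lit 46368508),Int.negSucc (nat_lit 72902036),Int.negSucc (nat_lit 243338029),Int.ofNat (nat_lit 33584601),Int.ofNat (nat_lit 80468750),Int.negSucc (nat_lit 5406140),Int.ofNat (nat_lit 23119668),Int.ofNat (nat_lit 41782877),Int.ofNat (nat_lit 44954477),Int.negSucc (nat_lit 6446512),Int.negSucc (nat_lit 9308774),Int.ofNat (nat_lit 32599744),Int.ofNat (nat_lit 152270668),Int.negSucc (nat_lit 98653469),Int.ofNat (nat_lit 376472864)])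

/-- A row. -/
noncomputable def sr7_c1_37 : List ℕ × List ℤ :=
  ([(nat_lit 1),(nat_lit 0),(nat_lit 0),(nat_lit 0),(nat_lit 1),(nat_lit 0),(nat_lit 0),(nat_lit 0),(nat_lit 0),(nat_lit 0),(nat_lit 0),(nat_lit 0)], [Int.negSucc (nat_lit 992780597),Int.negSucc (nat_lit 1166373628),Int.negSucc (nat_lit 1899966165),Int.negSucc (nat_lit 131695490),Int.negSucc (nat_lit 2149754615),Int.ofNat (nat_lit 289735151),Int.ofNat (nat_lit 288100351),Int.ofNat (nat_lit 594143029),Int.negSucc (nat_lit 1388420188),Int.negSucc (nat_lit 296147440),Int.ofNat (nat_lit 1270259034),Int.negSucc (nat_lit 591888115),Int.negSucc (nat_lit 421084924),Int.ofNat (nat_lit 362443429),Int.negSucc (nat_lit 351377215),Int.negSucc (nat_lit 667626129),Int.ofNat (nat_lit 468212797),Int.negSucc (nat_lit 1250966611),Int.negSucc (nat_lit 37464796),Int.negSucc (nat_lit 427834276),Int.negSucc (nat_lit 925908829),Int.ofNat (nat_lit 497037314),Int.negSucc (nat_lit 167910361),Int.negSucc (nat_lit 1433930990),Int.ofNat (nat_lit 204837379),Int.ofNat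 (nat_lit 498316721),Int.ofNat (nat_lit 761936971),Int.ofNat (nat_lit 476392883),Int.negSucc (nat_lit 547529605),Int.negSucc (nat_lit 408267097),Int.ofNat (nat_lit 276737269),Int.ofNat (nat_lit 89248806),Int.ofNat (nat_lit 8117240),Int.ofNat (nat_lit 728062776),Int.ofNat (nat_lit 434115475),Int.negSucc (nat_lit 122061953),Int.negSucc (nat_lit 27906267),Int.ofNat (nat_lit 68111128),Int.ofNat (nat_lit 210995171),Int.ofNat (nat_lit 315175030),Int.negSucc (nat_lit 410803896),Int.ofNat (nat_lit 134290095),Int.negSucc (nat_lit 110561818),Int.negSucc (nat_lit 1164168),Int.negSucc (nat_lit 27497317),Int.negSucc (nat_lit 98289776),Int.ofNat (nat_lit 27886379),Int.ofNat (nat_lit 53324488),Int.ofNat (nat_lit 30950767),Int.negSucc (nat_lit 15796275),Int.ofNat (nat_lit 41224769),Int.negSucc (nat_lit 61428288),Int.ofNat (nat_lit 58498871),Int.ofNat (nat_lit 210925239),Int.negSucc (nat_lit 151496335),Int.negSucc (nat_lit 13894882),Int.negSucc (nat_lit 134644467),Int.ofNat (nat_lit 264098056),Int.ofNat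 (nat_lit 114537961),Int.ofNat (nat_lit 219925199),Int.negSucc (nat_lit 162810064),Int.ofNat (nat_lit 107750719),Int.negSucc (nat_lit 61626776),Int.negSucc (nat_lit 144993022),Int.negSucc (nat_lit 41368041),Int.ofNat (nat_lit 63902787),Int.ofNat (nat_lit 2165061419),Int.ofNat (nat_lit 88095932),Int.ofNat (nat_lit 967649653),Int.negSucc (nat_lit 999082023),Int.ofNat (nat_lit 695379254),Int.negSucc (nat_lit 2291572771),Int.negSucc (nat_lit 146265823),Int.negSucc (nat_lit 253671588),Int.ofNat (nat_lit 91768322),Int.negSucc (nat_lit 205290112),Int.negSucc (nat_lit 420300119),Int.negSucc (nat_lit 437171378),Int.ofNat (nat_lit 854485674),Int.negSucc (nat_lit 507937007),Int.negSucc (nat_lit 66619338),Int.ofNat (nat_lit 29101380),Int.negSucc (nat_lit 213576263),Int.negSucc (nat_lit 74747435),Int.ofNat (nat_lit 109225244),Int.negSucc (nat_lit 198204792),Int.negSucc (nat_lit 14525087),Int.negSucc (nat_lit 184885282),Int.ofNat (nat_lit 175486197),Int.ofNat (nat_lit 309244495),Int.ofNat (nat_lit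 251051060),Int.negSucc (nat_lit 539845663),Int.ofNat (nat_lit 31525789),Int.negSucc (nat_lit 27735896),Int.negSucc (nat_lit 35129823),Int.negSucc (nat_lit 24313812),Int.negSucc (nat_lit 63903825),Int.negSucc (nat_lit 73169128),Int.ofNat (nat_lit 21937051),Int.ofNat (nat_lit 25660153),Int.negSucc (nat_lit 701666051),Int.negSucc (nat_lit 135046764),Int.negSucc (nat_lit 138556213),Int.ofNat (nat_lit 787656978)])

/-- A row. -/
noncomputable def sr7_c1_38 : List ℕ × List ℤ :=
  ([(nat_lit 1),(nat_lit 0),(nat_lit 0),(nat_lit 1),(nat_lit 0),(nat_lit 1),(nat_lit 0),(nat_lit 0),(nat_lit 0),(nat_lit 0),(nat_lit 0),(nat_lit 0)], [Int.negSucc (nat_lit 49011439),Int.ofNat (nat_lit 475306449),Int.negSucc (nat_lit 165943905),Int.ofNat (nat_lit 730841994),Int.ofNat (nat_lit 37467568),Int.negSucc (nat_lit 618919166),Int.negSucc (nat_lit 168813917),Int.negSucc (nat_lit 596268692),Int.negSucc (nat_lit 541253133),Int.ofNat (nat_lit 162690871),Int.negSucc (nat_lit 219697017),Int.negSucc (nat_lit 42990638),Int.ofNat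 (nat_lit 132173921),Int.ofNat (nat_lit 520679164),Int.negSucc (nat_lit 591242334),Int.ofNat (nat_lit 1931219),Int.negSucc (nat_lit 93055020),Int.ofNat (nat_lit 177114196),Int.negSucc (nat_lit 36831903),Int.ofNat (nat_lit 146811371),Int.negSucc (nat_lit 34777724),Int.negSucc (nat_lit 39406422),Int.negSucc (nat_lit 38918147),Int.ofNat (nat_lit 246987258),Int.ofNat (nat_lit 26266994),Int.negSucc (nat_lit 331546517),Int.negSucc (nat_lit 16311442),Int.negSucc (nat_lit 101501166),Int.ofNat (nat_lit 77489786),Int.ofNat (nat_lit 69551521),Int.negSucc (nat_lit 77165537),Int.ofNat (nat_lit 39314472),Int.ofNat (nat_lit 247567069),Int.negSucc (nat_lit 131227937),Int.negSucc (nat_lit 97702646),Int.ofNat (nat_lit 48874210),Int.ofNat (nat_lit 39676206),Int.negSucc (nat_lit 93766919),Int.negSucc (nat_lit 51645693),Int.negSucc (nat_lit 143944844),Int.ofNat (nat_lit 12157799),Int.ofNat (nat_lit 197784428),Int.negSucc (nat_lit 7571345),Int.negSucc (nat_lit 66293221),Int.ofNat (nat_lit 71175253),Int.ofNat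 (nat_lit 110425888),Int.ofNat (nat_lit 10172140),Int.negSucc (nat_lit 134006052),Int.ofNat (nat_lit 39082555),Int.negSucc (nat_lit 64455178),Int.ofNat (nat_lit 221242112),Int.negSucc (nat_lit 13193041),Int.negSucc (nat_lit 164487393),Int.negSucc (nat_lit 61400554),Int.ofNat (nat_lit 166510051),Int.negSucc (nat_lit 68044085),Int.ofNat (nat_lit 100070124),Int.ofNat (nat_lit 48366900),Int.negSucc (nat_lit 165314899),Int.negSucc (nat_lit 225868760),Int.ofNat (nat_lit 94179258),Int.ofNat (nat_lit 19398851),Int.negSucc (nat_lit 99256604),Int.negSucc (nat_lit 830643),Int.negSucc (nat_lit 15839773),Int.ofNat (nat_lit 17645976),Int.ofNat (nat_lit 154276970),Int.negSucc (nat_lit 5024517),Int.ofNat (nat_lit 166922429),Int.ofNat (nat_lit 21978866),Int.negSucc (nat_lit 303042993),Int.negSucc (nat_lit 343415904),Int.ofNat (nat_lit 15624813),Int.ofNat (nat_lit 403055574),Int.negSucc (nat_lit 1120714734),Int.ofNat (nat_lit 3524139),Int.ofNat (nat_lit 79563905),Int.ofNat (nat_lit 67236525),Int.negSucc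 (nat_lit 24386721),Int.ofNat (nat_lit 2233547),Int.ofNat (nat_lit 25956133),Int.ofNat (nat_lit 40251952),Int.negSucc (nat_lit 5221464),Int.ofNat (nat_lit 45470139),Int.negSucc (nat_lit 78244145),Int.ofNat (nat_lit 9913514),Int.negSucc (nat_lit 80152323),Int.negSucc (nat_lit 55162868),Int.ofNat (nat_lit 83274048),Int.negSucc (nat_lit 17858712),Int.negSucc (nat_lit 13411101),Int.ofNat (nat_lit 28932322),Int.ofNat (nat_lit 27468943),Int.negSucc (nat_lit 34544994),Int.negSucc (nat_lit 32131393),Int.negSucc (nat_lit 6656922),Int.negSucc (nat_lit 23744676),Int.negSucc (nat_lit 4320253),Int.negSucc (nat_lit 1556946),Int.negSucc (nat_lit 716411),Int.negSucc (nat_lit 67815950),Int.negSucc (nat_lit 68628211),Int.ofNat (nat_lit 45071634),Int.ofNat (nat_lit 20994495),Int.ofNat (nat_lit 277645303)])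

/-- A row. -/
noncomputable def sr7_c1_39 : List ℕ × List ℤ :=
  ([(nat_lit 1),(nat_lit 0),(nat_lit 0),(nat_lit 2),(nat_lit 0),(nat_lit 0),(nat_lit 0),(nat_lit 0),(nat_lit 0),(nat_lit 0),(nat_lit 0),(nat_lit 0)], [Int.negSucc (nat_lit 1105126667),Int.negSucc (nat_lit 2591533997),Int.ofNat (nat_lit 1128789970),Int.negSucc (nat_lit 2550854478),Int.negSucc (nat_lit 1548985008),Int.ofNat (nat_lit 2814671735),Int.ofNat (nat_lit 101741980),Int.ofNat (nat_lit 1531835464),Int.ofNat (nat_lit 1645245631),Int.negSucc (nat_lit 484064720),Int.ofNat (nat_lit 588510338),Int.negSucc (nat_lit 950581990),Int.ofNat (nat_lit 1243613666),Int.ofNat (nat_lit 647930952),Int.negSucc (nat_lit 506508840),Int.negSucc (nat_lit 585386719),Int.negSucc (nat_lit 260325657),Int.negSucc (nat_lit 403130217),Int.ofNat (nat_lit 446344455),Int.ofNat (nat_lit 206195077),Int.negSucc (nat_lit 674403649),Int.ofNat (nat_lit 462526530),Int.ofNat (nat_lit 581760589),Int.negSucc (nat_lit 502350580),Int.ofNat (nat_lit 1326198307),Int.negSucc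 (nat_lit 564077321),Int.ofNat (nat_lit 542745324),Int.ofNat (nat_lit 378595356),Int.negSucc (nat_lit 594944590),Int.ofNat (nat_lit 470144183),Int.ofNat (nat_lit 278102459),Int.ofNat (nat_lit 1620914),Int.negSucc (nat_lit 76115284),Int.ofNat (nat_lit 22752049),Int.negSucc (nat_lit 397115055),Int.negSucc (nat_lit 260148321),Int.ofNat (nat_lit 171156465),Int.ofNat (nat_lit 553851191),Int.ofNat (nat_lit 3742741),Int.negSucc (nat_lit 341489390),Int.ofNat (nat_lit 66561828),Int.ofNat (nat_lit 528959440),Int.negSucc (nat_lit 299549105),Int.ofNat (nat_lit 453882169),Int.negSucc (nat_lit 210646675),Int.negSucc (nat_lit 290607223),Int.ofNat (nat_lit 69574496),Int.negSucc (nat_lit 75989021),Int.ofNat (nat_lit 186442346),Int.negSucc (nat_lit 167654137),Int.ofNat (nat_lit 69761796),Int.ofNat (nat_lit 793285914),Int.negSucc (nat_lit 352812881),Int.ofNat (nat_lit 83413520),Int.negSucc (nat_lit 108772790),Int.ofNat (nat_lit 126085154),Int.ofNat (nat_lit 51103247),Int.negSucc (nat_lit 352879493),Int.negSucc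 (nat_lit 83572937),Int.negSucc (nat_lit 496264948),Int.negSucc (nat_lit 38612948),Int.negSucc (nat_lit 99454932),Int.ofNat (nat_lit 27713368),Int.ofNat (nat_lit 240931329),Int.ofNat (nat_lit 66366241),Int.ofNat (nat_lit 126030421),Int.ofNat (nat_lit 1116029961),Int.negSucc (nat_lit 581684393),Int.ofNat (nat_lit 87271059),Int.ofNat (nat_lit 308645580),Int.ofNat (nat_lit 1062825643),Int.negSucc (nat_lit 124859800),Int.ofNat (nat_lit 342440929),Int.ofNat (nat_lit 840559452),Int.ofNat (nat_lit 502054877),Int.negSucc (nat_lit 2723295617),Int.negSucc (nat_lit 127448051),Int.negSucc (nat_lit 70876773),Int.ofNat (nat_lit 256710393),Int.ofNat (nat_lit 114368324),Int.negSucc (nat_lit 151186939),Int.ofNat (nat_lit 38496906),Int.negSucc (nat_lit 95696651),Int.negSucc (nat_lit 213204872),Int.ofNat (nat_lit 137309363),Int.negSucc (nat_lit 244123752),Int.negSucc (nat_lit 81349112),Int.negSucc (nat_lit 84554014),Int.ofNat (nat_lit 34789451),Int.ofNat (nat_lit 196489638),Int.ofNat (nat_lit 213438872),Int.negSucc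 (nat_lit 181175813),Int.negSucc (nat_lit 97348676),Int.ofNat (nat_lit 18996948),Int.negSucc (nat_lit 67203454),Int.negSucc (nat_lit 66530446),Int.negSucc (nat_lit 65048509),Int.negSucc (nat_lit 112695536),Int.ofNat (nat_lit 43886056),Int.negSucc (nat_lit 6187524),Int.negSucc (nat_lit 381815155),Int.ofNat (nat_lit 42810533),Int.negSucc (nat_lit 238232146),Int.ofNat (nat_lit 149086513),Int.negSucc (nat_lit 258067783),Int.ofNat (nat_lit 656251139)])

/-- A row. -/
noncomputable def sr7_c1_40 : List ℕ × List ℤ :=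
  ([(nat_lit 1),(nat_lit 0),(nat_lit 1),(nat_lit 0),(nat_lit 0),(nat_lit 0),(nat_lit 0),(nat_lit 0),(nat_lit 0),(nat_lit 0),(nat_lit 0),(nat_lit 0)], [Int.ofNat (nat_lit 1881254295),Int.ofNat (nat_lit 400980961),Int.ofNat (nat_lit 986939867),Int.negSucc (nat_lit 1617169407),Int.ofNat (nat_lit 917368111),Int.ofNat (nat_lit 1211850220),Int.ofNat (nat_lit 854695130),Int.ofNat (nat_lit 2422735471),Int.ofNat (nat_lit 2494405576),Int.negSucc (nat_lit 890279403),Int.negSucc (nat_lit 66856959),Int.negSucc (nat_lit 351699087),Int.ofNat (nat_lit 879673168),Int.ofNat (nat_lit 441277714),Int.ofNat (nat_lit 430910931),Int.ofNat (nat_lit 7242091),Int.ofNat (nat_lit 587585293),Int.negSucc (nat_lit 48589664),Int.ofNat (nat_lit 1196213810),Int.ofNat (nat_lit 917722942),Int.ofNat (nat_lit 706920733),Int.ofNat (nat_lit 698263728),Int.ofNat (nat_lit 789607269),Int.ofNat (nat_lit 361260218),Int.negSucc (nat_lit 8636410),Int.negSucc (nat_lit 283483713),Int.negSucc (nat_lit 440935076),Int.negSucc (nat_lit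 607708661),Int.negSucc (nat_lit 953500142),Int.ofNat (nat_lit 225915216),Int.ofNat (nat_lit 256673011),Int.ofNat (nat_lit 524021056),Int.negSucc (nat_lit 575851281),Int.negSucc (nat_lit 253097592),Int.ofNat (nat_lit 205632863),Int.ofNat (nat_lit 440822088),Int.ofNat (nat_lit 24096415),Int.negSucc (nat_lit 29552333),Int.negSucc (nat_lit 341821473),Int.ofNat (nat_lit 738535096),Int.ofNat (nat_lit 195144834),Int.ofNat (nat_lit 131000161),Int.negSucc (nat_lit 448910221),Int.ofNat (nat_lit 161047169),Int.negSucc (nat_lit 125365290),Int.negSucc (nat_lit 323292699),Int.ofNat (nat_lit 100237476),Int.ofNat (nat_lit 319707004),Int.negSucc (nat_lit 272292036),Int.ofNat (nat_lit 583531422),Int.ofNat (nat_lit 52511749),Int.ofNat (nat_lit 140103223),Int.ofNat (nat_lit 435080869),Int.ofNat (nat_lit 292260455),Int.ofNat (nat_lit 418604390),Int.negSucc (nat_lit 77631289),Int.ofNat (nat_lit 96434470),Int.ofNat (nat_lit 143575735),Int.ofNat (nat_lit 153966312),Int.ofNat (nat_lit 306477692),Int.ofNat (nat_lit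 257755396),Int.negSucc (nat_lit 130108684),Int.negSucc (nat_lit 20012780),Int.ofNat (nat_lit 127784429),Int.ofNat (nat_lit 196026804),Int.ofNat (nat_lit 427475250),Int.negSucc (nat_lit 3146272198),Int.negSucc (nat_lit 37009270),Int.negSucc (nat_lit 970905731),Int.ofNat (nat_lit 1413470400),Int.ofNat (nat_lit 135295766),Int.negSucc (nat_lit 2076634265),Int.negSucc (nat_lit 564376321),Int.ofNat (nat_lit 81443734),Int.negSucc (nat_lit 166602512),Int.negSucc (nat_lit 539142685),Int.negSucc (nat_lit 2084268201),Int.ofNat (nat_lit 691304898),Int.negSucc (nat_lit 901466880),Int.negSucc (nat_lit 216778362),Int.ofNat (nat_lit 377035985),Int.negSucc (nat_lit 37592581),Int.ofNat (nat_lit 211689898),Int.ofNat (nat_lit 51473211),Int.negSucc (nat_lit 69634106),Int.ofNat (nat_lit 222219916),Int.negSucc (nat_lit 23612852),Int.negSucc (nat_lit 50924323),Int.ofNat (nat_lit 33844523),Int.negSucc (nat_lit 4633115),Int.negSucc (nat_lit 182747417),Int.ofNat (nat_lit 155341721),Int.negSucc (nat_lit 65299938),Int.negSucc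 (nat_lit 164080330),Int.negSucc (nat_lit 267915190),Int.negSucc (nat_lit 35297054),Int.negSucc (nat_lit 75999536),Int.negSucc (nat_lit 10124629),Int.ofNat (nat_lit 71049312),Int.negSucc (nat_lit 10227517),Int.ofNat (nat_lit 806115185),Int.ofNat (nat_lit 326887338),Int.negSucc (nat_lit 70572549),Int.ofNat (nat_lit 67587024),Int.negSucc (nat_lit 121161460),Int.ofNat (nat_lit 329674441),Int.ofNat (nat_lit 909315450)])

/-- A row. -/
noncomputable def sr7_c1_41 : List ℕ × List ℤ :=
  ([(nat_lit 1),(nat_lit 0),(nat_lit 1),(nat_lit 0),(nat_lit 1),(nat_lit 0),(nat_lit 0),(nat_lit 0),(nat_lit 0),(nat_lit 0),(nat_lit 0),(nat_lit 0)], [Int.negSucc (nat_lit 636193053),Int.ofNat (nat_lit 64406481),Int.negSucc (nat_lit 86790418),Int.ofNat (nat_lit 257582022),Int.negSucc (nat_lit 16906499),Int.negSucc (nat_lit 637723618),Int.negSucc (nat_lit 169903053),Int.negSucc (nat_lit 1885318031),Int.negSucc (nat_lit 812954952),Int.ofNat (nat_lit 374776552),Int.negSucc (nat_lit 500269338),Int.ofNat (nat_lit 272325101),Int.negSucc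 (nat_lit 65026673),Int.ofNat (nat_lit 575057823),Int.negSucc (nat_lit 715853727),Int.ofNat (nat_lit 84659302),Int.negSucc (nat_lit 175583478),Int.ofNat (nat_lit 493598342),Int.negSucc (nat_lit 381902229),Int.ofNat (nat_lit 294287322),Int.negSucc (nat_lit 148412018),Int.negSucc (nat_lit 291650392),Int.negSucc (nat_lit 158969176),Int.ofNat (nat_lit 167476070),Int.ofNat (nat_lit 134941409),Int.negSucc (nat_lit 470633514),Int.negSucc (nat_lit 65482437),Int.ofNat (nat_lit 18204608),Int.ofNat (nat_lit 257652026),Int.ofNat (nat_lit 160409475),Int.negSucc (nat_lit 18002906),Int.negSucc (nat_lit 34526153),Int.ofNat (nat_lit 556402637),Int.negSucc (nat_lit 221898599),Int.negSucc (nat_lit 376082834),Int.negSucc (nat_lit 42626202),Int.ofNat (nat_lit 44235151),Int.negSucc (nat_lit 81641455),Int.ofNat (nat_lit 43440239),Int.negSucc (nat_lit 416184497),Int.negSucc (nat_lit 108586341),Int.ofNat (nat_lit 329242174),Int.ofNat (nat_lit 160914920),Int.negSucc (nat_lit 63708657),Int.ofNat (nat_lit 65156620),Int.ofNat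 (nat_lit 179668687),Int.ofNat (nat_lit 1012566),Int.negSucc (nat_lit 23040487),Int.ofNat (nat_lit 74056647),Int.negSucc (nat_lit 284355313),Int.ofNat (nat_lit 41452700),Int.ofNat (nat_lit 22200715),Int.negSucc (nat_lit 186977631),Int.negSucc (nat_lit 51025989),Int.ofNat (nat_lit 30256998),Int.negSucc (nat_lit 41544198),Int.ofNat (nat_lit 142162638),Int.negSucc (nat_lit 62892418),Int.negSucc (nat_lit 23822073),Int.negSucc (nat_lit 428330665),Int.ofNat (nat_lit 149888417),Int.ofNat (nat_lit 24189770),Int.negSucc (nat_lit 162036622),Int.negSucc (nat_lit 94919523),Int.negSucc (nat_lit 74238457),Int.negSucc (nat_lit 65736269),Int.ofNat (nat_lit 609447922),Int.negSucc (nat_lit 485957394),Int.ofNat (nat_lit 239679541),Int.negSucc (nat_lit 179847921),Int.negSucc (nat_lit 120062766),Int.negSucc (nat_lit 493276688),Int.negSucc (nat_lit 155342877),Int.ofNat (nat_lit 165869532),Int.negSucc (nat_lit 119700530),Int.ofNat (nat_lit 134184122),Int.ofNat (nat_lit 508685066),Int.ofNat (nat_lit 384066850),Int.negSucc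 (nat_lit 907036082),Int.ofNat (nat_lit 184461296),Int.ofNat (nat_lit 66172803),Int.ofNat (nat_lit 72478978),Int.negSucc (nat_lit 66540934),Int.ofNat (nat_lit 32700139),Int.negSucc (nat_lit 20086608),Int.negSucc (nat_lit 15796934),Int.ofNat (nat_lit 5910431),Int.negSucc (nat_lit 30389771),Int.ofNat (nat_lit 6886652),Int.negSucc (nat_lit 30132353),Int.negSucc (nat_lit 25088608),Int.negSucc (nat_lit 6702797),Int.ofNat (nat_lit 26392187),Int.negSucc (nat_lit 26711046),Int.ofNat (nat_lit 6477914),Int.ofNat (nat_lit 26291581),Int.ofNat (nat_lit 12943966),Int.ofNat (nat_lit 744233),Int.ofNat (nat_lit 27567753),Int.ofNat (nat_lit 2912570),Int.negSucc (nat_lit 26035739),Int.negSucc (nat_lit 72121844),Int.ofNat (nat_lit 58652712),Int.ofNat (nat_lit 44384016),Int.ofNat (nat_lit 93531398),Int.negSucc (nat_lit 43081508),Int.negSucc (nat_lit 48786065),Int.ofNat (nat_lit 171571515)])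

/-- A row. -/
noncomputable def sr7_c1_42 : List ℕ × List ℤ :=
  ([(nat_lit 1),(nat_lit 0),(nat_lit 2),(nat_lit 0),(nat_lit 0),(nat_lit 0),(nat_lit 0),(nat_lit 0),(nat_lit 0),(nat_lit 0),(nat_lit 0),(nat_lit 0)], [Int.negSucc (nat_lit 583710229),Int.negSucc (nat_lit 1016032599),Int.negSucc (nat_lit 1214956278),Int.negSucc (nat_lit 1444565757),Int.negSucc (nat_lit 758417352),Int.ofNat (nat_lit 1636017563),Int.ofNat (nat_lit 1610286472),Int.ofNat (nat_lit 969825761),Int.ofNat (nat_lit 644597372),Int.negSucc (nat_lit 816851648),Int.ofNat (nat_lit 496174378),Int.negSucc (nat_lit 926551050),Int.ofNat (nat_lit 1219863954),Int.negSucc (nat_lit 67390637),Int.ofNat (nat_lit 132797710),Int.negSucc (nat_lit 657652855),Int.ofNat (nat_lit 120210830),Int.negSucc (nat_lit 557370874),Int.ofNat (nat_lit 650155892),Int.ofNat (nat_lit 357743179),Int.negSucc (nat_lit 272111177),Int.ofNat (nat_lit 1001435665),Int.ofNat (nat_lit 573658347),Int.negSucc (nat_lit 456983305),Int.ofNat (nat_lit 361018818),Int.negSucc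 (nat_lit 146160073),Int.ofNat (nat_lit 55159071),Int.negSucc (nat_lit 53891761),Int.negSucc (nat_lit 1038734512),Int.ofNat (nat_lit 91524646),Int.ofNat (nat_lit 399201651),Int.ofNat (nat_lit 338190524),Int.negSucc (nat_lit 389741618),Int.ofNat (nat_lit 299225154),Int.ofNat (nat_lit 241732153),Int.ofNat (nat_lit 301551363),Int.negSucc (nat_lit 112645525),Int.ofNat (nat_lit 262368275),Int.negSucc (nat_lit 95560082),Int.ofNat (nat_lit 453257158),Int.negSucc (nat_lit 104741222),Int.ofNat (nat_lit 372410444),Int.negSucc (nat_lit 375315304),Int.ofNat (nat_lit 191216243),Int.negSucc (nat_lit 172153526),Int.negSucc (nat_lit 169839409),Int.ofNat (nat_lit 66503131),Int.ofNat (nat_lit 366773730),Int.ofNat (nat_lit 91278824),Int.ofNat (nat_lit 229895452),Int.negSucc (nat_lit 113754090),Int.ofNat (nat_lit 267733065),Int.ofNat (nat_lit 74984223),Int.ofNat (nat_lit 317209019),Int.ofNat (nat_lit 23281929),Int.ofNat (nat_lit 138633937),Int.ofNat (nat_lit 101454431),Int.negSucc (nat_lit 96958019),Int.ofNat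 (nat_lit 404666193),Int.negSucc (nat_lit 118320670),Int.ofNat (nat_lit 149319323),Int.ofNat (nat_lit 116276545),Int.negSucc (nat_lit 68844254),Int.ofNat (nat_lit 83061751),Int.ofNat (nat_lit 53556260),Int.ofNat (nat_lit 316585840),Int.negSucc (nat_lit 492272895),Int.negSucc (nat_lit 30195339),Int.ofNat (nat_lit 152731061),Int.ofNat (nat_lit 497941631),Int.ofNat (nat_lit 936650637),Int.negSucc (nat_lit 1547006388),Int.negSucc (nat_lit 139351549),Int.negSucc (nat_lit 81780100),Int.ofNat (nat_lit 97343351),Int.negSucc (nat_lit 727522440),Int.negSucc (nat_lit 1585660928),Int.ofNat (nat_lit 853535131),Int.negSucc (nat_lit 848568195),Int.negSucc (nat_lit 870314386),Int.negSucc (nat_lit 625214370),Int.ofNat (nat_lit 604617798),Int.ofNat (nat_lit 45410995),Int.negSucc (nat_lit 48542456),Int.ofNat (nat_lit 17983417),Int.negSucc (nat_lit 56917076),Int.negSucc (nat_lit 66679145),Int.negSucc (nat_lit 47120032),Int.ofNat (nat_lit 157087079),Int.ofNat (nat_lit 225265716),Int.ofNat (nat_lit 57298203),Int.negSucc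 (nat_lit 159882822),Int.negSucc (nat_lit 100642520),Int.negSucc (nat_lit 163130495),Int.negSucc (nat_lit 280395375),Int.negSucc (nat_lit 26410661),Int.negSucc (nat_lit 134763766),Int.negSucc (nat_lit 118933713),Int.ofNat (nat_lit 3564280),Int.ofNat (nat_lit 36292833),Int.negSucc (nat_lit 259321265),Int.ofNat (nat_lit 266736622),Int.negSucc (nat_lit 70856580),Int.ofNat (nat_lit 259374959),Int.negSucc (nat_lit 98531413),Int.ofNat (nat_lit 422982119),Int.ofNat (nat_lit 541330368),Int.negSucc (nat_lit 125863266),Int.ofNat (nat_lit 439116420)])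

/-- A row. -/
noncomputable def sr7_c1_43 : List ℕ × List ℤ :=
  ([(nat_lit 1),(nat_lit 1),(nat_lit 0),(nat_lit 0),(nat_lit 0),(nat_lit 0),(nat_lit 0),(nat_lit 1),(nat_lit 0),(nat_lit 0),(nat_lit 0),(nat_lit 0)], [Int.negSucc (nat_lit 478320852),Int.ofNat (nat_lit 1107522174),Int.ofNat (nat_lit 1212892676),Int.negSucc (nat_lit 28975501),Int.negSucc (nat_lit 199142265),Int.negSucc (nat_lit 614752501),Int.ofNat (nat_lit 42933316),Int.ofNat (nat_lit 454925068),Int.ofNat (nat_lit 320700228),Int.negSucc (nat_lit 431386),Int.ofNat (nat_lit 210291782),Int.ofNat (nat_lit 107195358),Int.ofNat (nat_lit 222931234),Int.ofNat (nat_lit 232567016),Int.negSucc (nat_lit 82709603),Int.ofNat (nat_lit 21980245),Int.ofNat (nat_lit 104251445),Int.ofNat (nat_lit 182328161),Int.ofNat (nat_lit 472914077),Int.negSucc (nat_lit 23047581),Int.ofNat (nat_lit 213515804),Int.ofNat (nat_lit 186332211),Int.ofNat (nat_lit 375750911),Int.negSucc (nat_lit 316108979),Int.ofNat (nat_lit 223209046),Int.negSucc (nat_lit 271049383),Int.ofNat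 (nat_lit 176475958),Int.ofNat (nat_lit 113693969),Int.negSucc (nat_lit 162162853),Int.negSucc (nat_lit 37186647),Int.ofNat (nat_lit 28305178),Int.ofNat (nat_lit 297026427),Int.ofNat (nat_lit 1013185938),Int.ofNat (nat_lit 42613236),Int.negSucc (nat_lit 69803494),Int.ofNat (nat_lit 1360805),Int.ofNat (nat_lit 61552774),Int.ofNat (nat_lit 27255048),Int.negSucc (nat_lit 50888403),Int.negSucc (nat_lit 345546361),Int.ofNat (nat_lit 111068958),Int.ofNat (nat_lit 41595067),Int.negSucc (nat_lit 28110664),Int.ofNat (nat_lit 1418345),Int.negSucc (nat_lit 103426443),Int.negSucc (nat_lit 36564491),Int.ofNat (nat_lit 85531396),Int.negSucc (nat_lit 69378917),Int.ofNat (nat_lit 15555622),Int.negSucc (nat_lit 198865322),Int.negSucc (nat_lit 46358164),Int.ofNat (nat_lit 45908487),Int.ofNat (nat_lit 60428473),Int.negSucc (nat_lit 175981145),Int.negSucc (nat_lit 92761286),Int.ofNat (nat_lit 3583998),Int.negSucc (nat_lit 11602954),Int.negSucc (nat_lit 146107909),Int.ofNat (nat_lit 11729419),Int.negSucc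 (nat_lit 88089005),Int.ofNat (nat_lit 27100814),Int.ofNat (nat_lit 62539090),Int.ofNat (nat_lit 32890912),Int.ofNat (nat_lit 100385770),Int.ofNat (nat_lit 73972684),Int.negSucc (nat_lit 87605210),Int.ofNat (nat_lit 149687262),Int.negSucc (nat_lit 436875264),Int.ofNat (nat_lit 164006517),Int.ofNat (nat_lit 515263477),Int.ofNat (nat_lit 35279488),Int.negSucc (nat_lit 50519815),Int.negSucc (nat_lit 16303045),Int.negSucc (nat_lit 303819911),Int.negSucc (nat_lit 183576128),Int.negSucc (nat_lit 57680988),Int.negSucc (nat_lit 195357261),Int.negSucc (nat_lit 430502702),Int.negSucc (nat_lit 110774789),Int.negSucc (nat_lit 476013380),Int.ofNat (nat_lit 103188194),Int.ofNat (nat_lit 329948974),Int.negSucc (nat_lit 712387667),Int.negSucc (nat_lit 1572467581),Int.ofNat (nat_lit 20390905),Int.negSucc (nat_lit 25116983),Int.negSucc (nat_lit 70756308),Int.ofNat (nat_lit 37140981),Int.ofNat (nat_lit 17123988),Int.negSucc (nat_lit 12409488),Int.negSucc (nat_lit 3467148),Int.negSucc (nat_lit 12586166),Int.ofNat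 (nat_lit 8879426),Int.negSucc (nat_lit 21661691),Int.negSucc (nat_lit 42803475),Int.negSucc (nat_lit 2776614),Int.negSucc (nat_lit 37286352),Int.negSucc (nat_lit 9641009),Int.ofNat (nat_lit 1362788),Int.negSucc (nat_lit 17151622),Int.negSucc (nat_lit 81226976),Int.ofNat (nat_lit 5476107),Int.negSucc (nat_lit 93937123),Int.negSucc (nat_lit 26622880),Int.ofNat (nat_lit 43588860),Int.ofNat (nat_lit 20599558),Int.negSucc (nat_lit 29598195),Int.negSucc (nat_lit 8982774),Int.negSucc (nat_lit 20913081),Int.ofNat (nat_lit 258425275)])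

/-- A row. -/
noncomputable def sr7_c1_44 : List ℕ × List ℤ :=
  ([(nat_lit 1),(nat_lit 1),(nat_lit 0),(nat_lit 0),(nat_lit 0),(nat_lit 1),(nat_lit 0),(nat_lit 0),(nat_lit 0),(nat_lit 0),(nat_lit 0),(nat_lit 0)], [Int.negSucc (nat_lit 1675023377),Int.negSucc (nat_lit 1705269107),Int.negSucc (nat_lit 524591300),Int.negSucc (nat_lit 94543537),Int.negSucc (nat_lit 1728659152),Int.negSucc (nat_lit 391282827),Int.ofNat (nat_lit 1268991143),Int.ofNat (nat_lit 3103952398),Int.ofNat (nat_lit 293113776),Int.negSucc (nat_lit 270330705),Int.negSucc (nat_lit 1109961027),Int.ofNat (nat_lit 431300122),Int.ofNat (nat_lit 821415855),Int.negSucc (nat_lit 2413768471),Int.ofNat (nat_lit 1213382868),Int.ofNat (nat_lit 1027280751),Int.ofNat (nat_lit 1012520929),Int.ofNat (nat_lit 707056469),Int.negSucc (nat_lit 574539691),Int.negSucc (nat_lit 194807511),Int.ofNat (nat_lit 20780712),Int.ofNat (nat_lit 12404531),Int.ofNat (nat_lit 1233231245),Int.ofNat (nat_lit 3018380263),Int.ofNat (nat_lit 1004420304),Int.ofNat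 (nat_lit 433863825),Int.negSucc (nat_lit 248210847),Int.ofNat (nat_lit 929355772),Int.ofNat (nat_lit 20624875),Int.ofNat (nat_lit 645096405),Int.ofNat (nat_lit 472124640),Int.negSucc (nat_lit 1064704494),Int.negSucc (nat_lit 684948120),Int.ofNat (nat_lit 1295887711),Int.ofNat (nat_lit 779290482),Int.ofNat (nat_lit 675197552),Int.negSucc (nat_lit 954613320),Int.ofNat (nat_lit 952662632),Int.negSucc (nat_lit 245090367),Int.negSucc (nat_lit 59351844),Int.negSucc (nat_lit 478417233),Int.ofNat (nat_lit 391121818),Int.ofNat (nat_lit 33044811),Int.ofNat (nat_lit 1194094748),Int.negSucc (nat_lit 665550723),Int.ofNat (nat_lit 549523908),Int.negSucc (nat_lit 102956373),Int.ofNat (nat_lit 122240958),Int.negSucc (nat_lit 79997563),Int.negSucc (nat_lit 232268182),Int.negSucc (nat_lit 662899327),Int.ofNat (nat_lit 582737118),Int.ofNat (nat_lit 521992333),Int.negSucc (nat_lit 57661058),Int.negSucc (nat_lit 576924174),Int.ofNat (nat_lit 355882366),Int.negSucc (nat_lit 7213203),Int.ofNat (nat_lit 9546411),Int.ofNat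 (nat_lit 673008222),Int.ofNat (nat_lit 27432688),Int.negSucc (nat_lit 105365050),Int.ofNat (nat_lit 342444477),Int.negSucc (nat_lit 213580901),Int.ofNat (nat_lit 920433215),Int.negSucc (nat_lit 28226365),Int.ofNat (nat_lit 286831292),Int.negSucc (nat_lit 1274229395),Int.negSucc (nat_lit 536431098),Int.negSucc (nat_lit 1726282213),Int.negSucc (nat_lit 611754122),Int.ofNat (nat_lit 347737795),Int.ofNat (nat_lit 1101450975),Int.negSucc (nat_lit 22261773),Int.ofNat (nat_lit 620253326),Int.ofNat (nat_lit 941357156),Int.negSucc (nat_lit 142760143),Int.ofNat (nat_lit 129100993),Int.ofNat (nat_lit 72016739),Int.ofNat (nat_lit 537417145),Int.ofNat (nat_lit 43759023),Int.negSucc (nat_lit 121927466),Int.negSucc (nat_lit 438518358),Int.ofNat (nat_lit 459632938),Int.negSucc (nat_lit 753551493),Int.negSucc (nat_lit 5157125058),Int.ofNat (nat_lit 195496861),Int.negSucc (nat_lit 963376753),Int.ofNat (nat_lit 1211410242),Int.negSucc (nat_lit 209770449),Int.ofNat (nat_lit 41456262),Int.negSucc (nat_lit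 92763790),Int.negSucc (nat_lit 23134254),Int.ofNat (nat_lit 309132455),Int.ofNat (nat_lit 179857044),Int.ofNat (nat_lit 114436657),Int.negSucc (nat_lit 701576361),Int.ofNat (nat_lit 99042457),Int.ofNat (nat_lit 75242282),Int.negSucc (nat_lit 16800995),Int.negSucc (nat_lit 65414355),Int.ofNat (nat_lit 547767107),Int.ofNat (nat_lit 71258670),Int.ofNat (nat_lit 380572306),Int.negSucc (nat_lit 239378209),Int.negSucc (nat_lit 405118344),Int.ofNat (nat_lit 64162645),Int.negSucc (nat_lit 22682297),Int.negSucc (nat_lit 129655676),Int.negSucc (nat_lit 189278601),Int.ofNat (nat_lit 109791950),Int.ofNat (nat_lit 942624062)])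

/-- A row. -/
noncomputable def sr7_c1_45 : List ℕ × List ℤ :=
  ([(nat_lit 1),(nat_lit 1),(nat_lit 0),(nat_lit 1),(nat_lit 0),(nat_lit 0),(nat_lit 0),(nat_lit 0),(nat_lit 0),(nat_lit 0),(nat_lit 0),(nat_lit 0)], [Int.ofNat (nat_lit 7790415367),Int.ofNat (nat_lit 2164657428),Int.ofNat (nat_lit 3874986817),Int.ofNat (nat_lit 3446123361),Int.ofNat (nat_lit 3669433113),Int.negSucc (nat_lit 2285125162),Int.negSucc (nat_lit 3601452004),Int.negSucc (nat_lit 2391234595),Int.negSucc (nat_lit 2202565716),Int.ofNat (nat_lit 1527665549),Int.ofNat (nat_lit 292147457),Int.ofNat (nat_lit 1013755277),Int.negSucc (nat_lit 1747389932),Int.ofNat (nat_lit 3202533842),Int.ofNat (nat_lit 1099543899),Int.negSucc (nat_lit 375834699),Int.ofNat (nat_lit 52029069),Int.negSucc (nat_lit 405786546),Int.ofNat (nat_lit 1665092915),Int.negSucc (nat_lit 275333301),Int.ofNat (nat_lit 298807225),Int.negSucc (nat_lit 1483239270),Int.negSucc (nat_lit 978163591),Int.negSucc (nat_lit 858598799),Int.negSucc (nat_lit 1268840546),Int.ofNat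 (nat_lit 807626979),Int.negSucc (nat_lit 80785367),Int.negSucc (nat_lit 399608925),Int.ofNat (nat_lit 2007819211),Int.negSucc (nat_lit 2349535379),Int.negSucc (nat_lit 1034528454),Int.ofNat (nat_lit 269802380),Int.ofNat (nat_lit 892620954),Int.negSucc (nat_lit 613319084),Int.ofNat (nat_lit 638837170),Int.ofNat (nat_lit 72093918),Int.ofNat (nat_lit 709509165),Int.negSucc (nat_lit 1069568699),Int.negSucc (nat_lit 1777507519),Int.negSucc (nat_lit 153694302),Int.negSucc (nat_lit 394254988),Int.negSucc (nat_lit 942988747),Int.negSucc (nat_lit 216874498),Int.negSucc (nat_lit 562952618),Int.ofNat (nat_lit 463861706),Int.negSucc (nat_lit 567389692),Int.negSucc (nat_lit 789322256),Int.ofNat (nat_lit 3370686),Int.negSucc (nat_lit 378642123),Int.negSucc (nat_lit 18262558),Int.ofNat (nat_lit 211785486),Int.negSucc (nat_lit 1278354653),Int.negSucc (nat_lit 143033091),Int.ofNat (nat_lit 1274526839),Int.ofNat (nat_lit 1019626858),Int.negSucc (nat_lit 43054855),Int.negSucc (nat_lit 278425557),Int.ofNat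 (nat_lit 739136159),Int.ofNat (nat_lit 81602720),Int.negSucc (nat_lit 134642628),Int.negSucc (nat_lit 799348639),Int.ofNat (nat_lit 912035565),Int.negSucc (nat_lit 195708886),Int.negSucc (nat_lit 395506096),Int.ofNat (nat_lit 13111253),Int.negSucc (nat_lit 755013717),Int.negSucc (nat_lit 697482422),Int.ofNat (nat_lit 2148576344),Int.ofNat (nat_lit 308802932),Int.ofNat (nat_lit 573731264),Int.negSucc (nat_lit 1973187729),Int.negSucc (nat_lit 518943762),Int.ofNat (nat_lit 719458635),Int.negSucc (nat_lit 1892187708),Int.negSucc (nat_lit 213133499),Int.ofNat (nat_lit 2661336187),Int.ofNat (nat_lit 889930546),Int.ofNat (nat_lit 714926753),Int.negSucc (nat_lit 1062920553),Int.negSucc (nat_lit 515335501),Int.ofNat (nat_lit 919283141),Int.ofNat (nat_lit 112495389),Int.negSucc (nat_lit 1320351301),Int.ofNat (nat_lit 1185624563),Int.ofNat (nat_lit 683420872),Int.negSucc (nat_lit 5477725925),Int.negSucc (nat_lit 372339598),Int.negSucc (nat_lit 704692547),Int.ofNat (nat_lit 1274932233),Int.negSucc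 (nat_lit 302722264),Int.negSucc (nat_lit 6572432),Int.ofNat (nat_lit 71883612),Int.negSucc (nat_lit 653010865),Int.negSucc (nat_lit 93232515),Int.ofNat (nat_lit 234811463),Int.ofNat (nat_lit 240397875),Int.ofNat (nat_lit 81629275),Int.ofNat (nat_lit 600641623),Int.negSucc (nat_lit 222591399),Int.negSucc (nat_lit 62532024),Int.ofNat (nat_lit 608527489),Int.ofNat (nat_lit 164128567),Int.ofNat (nat_lit 170859863),Int.negSucc (nat_lit 126919575),Int.ofNat (nat_lit 98314012),Int.negSucc (nat_lit 1885709537),Int.negSucc (nat_lit 403384655),Int.ofNat (nat_lit 368270941),Int.negSucc (nat_lit 74411810),Int.negSucc (nat_lit 478750202),Int.ofNat (nat_lit 565999),Int.ofNat (nat_lit 2410909373)])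

/-- A row. -/
noncomputable def sr7_c1_46 : List ℕ × List ℤ :=
  ([(nat_lit 1),(nat_lit 1),(nat_lit 1),(nat_lit 1),(nat_lit 0),(nat_lit 0),(nat_lit 0),(nat_lit 0),(nat_lit 0),(nat_lit 0),(nat_lit 0),(nat_lit 0)], [Int.ofNat (nat_lit 3328679873),Int.negSucc (nat_lit 489249442),Int.ofNat (nat_lit 4017744996),Int.ofNat (nat_lit 181164586),Int.negSucc (nat_lit 145860022),Int.negSucc (nat_lit 217279070),Int.negSucc (nat_lit 2598735446),Int.negSucc (nat_lit 2407424509),Int.negSucc (nat_lit 1069008899),Int.ofNat (nat_lit 1348901426),Int.ofNat (nat_lit 117525807),Int.ofNat (nat_lit 861410856),Int.ofNat (nat_lit 700776754),Int.ofNat (nat_lit 2811407621),Int.negSucc (nat_lit 888174148),Int.negSucc (nat_lit 328007283),Int.ofNat (nat_lit 182791189),Int.negSucc (nat_lit 125180838),Int.negSucc (nat_lit 1277131185),Int.ofNat (nat_lit 984402702),Int.negSucc (nat_lit 613014708),Int.negSucc (nat_lit 241675032),Int.negSucc (nat_lit 43488298),Int.negSucc (nat_lit 314686057),Int.ofNat (nat_lit 492424434),Int.negSucc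 (nat_lit 8990971),Int.ofNat (nat_lit 617655971),Int.ofNat (nat_lit 583268885),Int.ofNat (nat_lit 505657050),Int.negSucc (nat_lit 129519822),Int.negSucc (nat_lit 115478684),Int.negSucc (nat_lit 742130),Int.ofNat (nat_lit 544930128),Int.negSucc (nat_lit 98471639),Int.negSucc (nat_lit 39169386),Int.negSucc (nat_lit 618473107),Int.ofNat (nat_lit 457474063),Int.ofNat (nat_lit 600867366),Int.negSucc (nat_lit 116418488),Int.negSucc (nat_lit 1186187696),Int.negSucc (nat_lit 271977955),Int.ofNat (nat_lit 526380513),Int.ofNat (nat_lit 95448218),Int.negSucc (nat_lit 432777784),Int.ofNat (nat_lit 243587168),Int.negSucc (nat_lit 434357147),Int.ofNat (nat_lit 153763386),Int.negSucc (nat_lit 138402023),Int.ofNat (nat_lit 289332301),Int.negSucc (nat_lit 295461639),Int.ofNat (nat_lit 43534124),Int.negSucc (nat_lit 210225949),Int.negSucc (nat_lit 674330788),Int.ofNat (nat_lit 602165464),Int.ofNat (nat_lit 651507518),Int.ofNat (nat_lit 511641717),Int.negSucc (nat_lit 119847201),Int.negSucc (nat_lit 20446142),Int.negSucc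 (nat_lit 456858908),Int.negSucc (nat_lit 344713751),Int.negSucc (nat_lit 22858519),Int.negSucc (nat_lit 511226431),Int.negSucc (nat_lit 86300029),Int.negSucc (nat_lit 66986206),Int.negSucc (nat_lit 93766614),Int.negSucc (nat_lit 306967968),Int.ofNat (nat_lit 305061799),Int.ofNat (nat_lit 178609865),Int.ofNat (nat_lit 122203105),Int.negSucc (nat_lit 117570318),Int.negSucc (nat_lit 263042127),Int.negSucc (nat_lit 206370426),Int.negSucc (nat_lit 317045829),Int.ofNat (nat_lit 228042814),Int.ofNat (nat_lit 304732573),Int.negSucc (nat_lit 1253238535),Int.ofNat (nat_lit 546096009),Int.ofNat (nat_lit 365496356),Int.ofNat (nat_lit 125294458),Int.ofNat (nat_lit 400360895),Int.ofNat (nat_lit 614160165),Int.ofNat (nat_lit 418482538),Int.negSucc (nat_lit 821789060),Int.ofNat (nat_lit 89734793),Int.negSucc (nat_lit 503143660),Int.negSucc (nat_lit 2197693790),Int.negSucc (nat_lit 859968908),Int.negSucc (nat_lit 100804101),Int.negSucc (nat_lit 2704852181),Int.negSucc (nat_lit 142360757),Int.ofNat (nat_lit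 25644200),Int.ofNat (nat_lit 5022119),Int.ofNat (nat_lit 86747701),Int.negSucc (nat_lit 66518693),Int.ofNat (nat_lit 60274000),Int.ofNat (nat_lit 81100823),Int.ofNat (nat_lit 75701329),Int.ofNat (nat_lit 54473024),Int.ofNat (nat_lit 131071383),Int.ofNat (nat_lit 15471525),Int.negSucc (nat_lit 5279735),Int.negSucc (nat_lit 214873222),Int.ofNat (nat_lit 10816063),Int.negSucc (nat_lit 21726454),Int.negSucc (nat_lit 183410829),Int.ofNat (nat_lit 38336914),Int.negSucc (nat_lit 285244772),Int.ofNat (nat_lit 346564534),Int.negSucc (nat_lit 39696412),Int.ofNat (nat_lit 7190212),Int.ofNat (nat_lit 145447408),Int.ofNat (nat_lit 104451324),Int.ofNat (nat_lit 796754957)])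

/-- A row. -/
noncomputable def sr7_c1_47 : List ℕ × List ℤ :=
  ([(nat_lit 1),(nat_lit 2),(nat_lit 0),(nat_lit 0),(nat_lit 0),(nat_lit 0),(nat_lit 0),(nat_lit 0),(nat_lit 0),(nat_lit 0),(nat_lit 0),(nat_lit 0)], [Int.negSucc (nat_lit 9562794211),Int.negSucc (nat_lit 923294105),Int.negSucc (nat_lit 4635882910),Int.ofNat (nat_lit 322102529),Int.negSucc (nat_lit 4374310083),Int.ofNat (nat_lit 1623267398),Int.ofNat (nat_lit 1756221506),Int.negSucc (nat_lit 3278222864),Int.negSucc (nat_lit 3110468721),Int.negSucc (nat_lit 1865062179),Int.ofNat (nat_lit 949753724),Int.ofNat (nat_lit 18652641),Int.negSucc (nat_lit 814088476),Int.ofNat (nat_lit 716908684),Int.negSucc (nat_lit 4466210239),Int.negSucc (nat_lit 62000570),Int.ofNat (nat_lit 603970728),Int.negSucc (nat_lit 727095560),Int.negSucc (nat_lit 1637128597),Int.negSucc (nat_lit 1146352108),Int.negSucc (nat_lit 936083707),Int.ofNat (nat_lit 533097141),Int.negSucc (nat_lit 290677157),Int.ofNat (nat_lit 493358088),Int.ofNat (nat_lit 2661580648),Int.ofNat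 (nat_lit 475429661),Int.ofNat (nat_lit 4324293277),Int.ofNat (nat_lit 1754557934),Int.negSucc (nat_lit 3090205307),Int.ofNat (nat_lit 1917825344),Int.negSucc (nat_lit 1245256847),Int.negSucc (nat_lit 1588193546),Int.ofNat (nat_lit 802209410),Int.ofNat (nat_lit 1949885556),Int.negSucc (nat_lit 319731136),Int.negSucc (nat_lit 871105261),Int.negSucc (nat_lit 491864392),Int.ofNat (nat_lit 430194646),Int.ofNat (nat_lit 3272793550),Int.ofNat (nat_lit 57888531),Int.negSucc (nat_lit 95868630),Int.ofNat (nat_lit 209214455),Int.negSucc (nat_lit 184486675),Int.ofNat (nat_lit 170742069),Int.negSucc (nat_lit 33082115),Int.ofNat (nat_lit 920848542),Int.negSucc (nat_lit 23290514),Int.ofNat (nat_lit 1137307),Int.ofNat (nat_lit 3098680712),Int.negSucc (nat_lit 1577210131),Int.ofNat (nat_lit 64356005),Int.ofNat (nat_lit 483871273),Int.negSucc (nat_lit 386541468),Int.negSucc (nat_lit 949668551),Int.negSucc (nat_lit 1356115901),Int.ofNat (nat_lit 484808456),Int.negSucc (nat_lit 278148614),Int.negSucc (nat_lit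 845695284),Int.negSucc (nat_lit 287977957),Int.negSucc (nat_lit 453444725),Int.ofNat (nat_lit 432883335),Int.ofNat (nat_lit 191851927),Int.ofNat (nat_lit 747655280),Int.ofNat (nat_lit 108434172),Int.ofNat (nat_lit 160294645),Int.negSucc (nat_lit 423494185),Int.ofNat (nat_lit 4556622234),Int.negSucc (nat_lit 277353604),Int.ofNat (nat_lit 2600704413),Int.negSucc (nat_lit 2055454253),Int.ofNat (nat_lit 278774300),Int.ofNat (nat_lit 2699271423),Int.negSucc (nat_lit 987550137),Int.ofNat (nat_lit 1736688058),Int.negSucc (nat_lit 1523608950),Int.ofNat (nat_lit 1093081435),Int.negSucc (nat_lit 2614678071),Int.ofNat (nat_lit 72280949),Int.ofNat (nat_lit 883551147),Int.negSucc (nat_lit 107873962),Int.ofNat (nat_lit 955576571),Int.negSucc (nat_lit 494707587),Int.negSucc (nat_lit 640922935),Int.negSucc (nat_lit 1139136509),Int.negSucc (nat_lit 509571894),Int.ofNat (nat_lit 2191752413),Int.negSucc (nat_lit 102985675),Int.ofNat (nat_lit 2255440051),Int.negSucc (nat_lit 1930693539),Int.negSucc (nat_lit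 7741941315),Int.ofNat (nat_lit 1653217453),Int.negSucc (nat_lit 1817310696),Int.negSucc (nat_lit 882591747),Int.ofNat (nat_lit 2020837315),Int.negSucc (nat_lit 394513209),Int.negSucc (nat_lit 761739531),Int.negSucc (nat_lit 491946460),Int.negSucc (nat_lit 2270920577),Int.negSucc (nat_lit 769076312),Int.ofNat (nat_lit 1289064515),Int.negSucc (nat_lit 2114303746),Int.ofNat (nat_lit 115196511),Int.ofNat (nat_lit 1266250958),Int.negSucc (nat_lit 932669848),Int.ofNat (nat_lit 212583636),Int.ofNat (nat_lit 2556339388),Int.ofNat (nat_lit 915837337),Int.negSucc (nat_lit 918113589),Int.ofNat (nat_lit 1018046195),Int.ofNat (nat_lit 770888741),Int.ofNat (nat_lit 10101614),Int.negSucc (nat_lit 2078660016),Int.ofNat (nat_lit 453213793),Int.ofNat (nat_lit 4204028601)])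

/-- A row. -/
noncomputable def sr7_c1_48 : List ℕ × List ℤ :=
  ([(nat_lit 1),(nat_lit 2),(nat_lit 0),(nat_lit 0),(nat_lit 1),(nat_lit 0),(nat_lit 0),(nat_lit 0),(nat_lit 0),(nat_lit 0),(nat_lit 0),(nat_lit 0)], [Int.negSucc (nat_lit 339593296),Int.negSucc (nat_lit 2332322669),Int.ofNat (nat_lit 487588836),Int.negSucc (nat_lit 198182501),Int.ofNat (nat_lit 225566860),Int.negSucc (nat_lit 275620393),Int.negSucc (nat_lit 291800936),Int.ofNat (nat_lit 2900595241),Int.ofNat (nat_lit 870319771),Int.negSucc (nat_lit 1921178917),Int.ofNat (nat_lit 206649536),Int.negSucc (nat_lit 446150243),Int.negSucc (nat_lit 454248500),Int.negSucc (nat_lit 2109447433),Int.ofNat (nat_lit 472377317),Int.ofNat (nat_lit 659504127),Int.ofNat (nat_lit 1508585591),Int.ofNat (nat_lit 6573807),Int.ofNat (nat_lit 822131203),Int.ofNat (nat_lit 122758822),Int.negSucc (nat_lit 228203117),Int.ofNat (nat_lit 153706071),Int.ofNat (nat_lit 1271320449),Int.negSucc (nat_lit 1048059942),Int.ofNat (nat_lit 27114777),Int.ofNat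 (nat_lit 582950551),Int.negSucc (nat_lit 291130350),Int.ofNat (nat_lit 1887196048),Int.negSucc (nat_lit 784466448),Int.ofNat (nat_lit 244069577),Int.ofNat (nat_lit 1843891465),Int.negSucc (nat_lit 551498778),Int.ofNat (nat_lit 60866885),Int.ofNat (nat_lit 598048976),Int.ofNat (nat_lit 488095730),Int.ofNat (nat_lit 1489550708),Int.negSucc (nat_lit 205599845),Int.negSucc (nat_lit 54902640),Int.negSucc (nat_lit 116299796),Int.ofNat (nat_lit 1057485358),Int.ofNat (nat_lit 606547969),Int.negSucc (nat_lit 753253215),Int.ofNat (nat_lit 170473303),Int.ofNat (nat_lit 878226687),Int.negSucc (nat_lit 413547260),Int.ofNat (nat_lit 613673341),Int.negSucc (nat_lit 266840833),Int.negSucc (nat_lit 242933058),Int.ofNat (nat_lit 226339349),Int.negSucc (nat_lit 826023290),Int.negSucc (nat_lit 430400434),Int.ofNat (nat_lit 394275051),Int.ofNat (nat_lit 523708490),Int.negSucc (nat_lit 493229905),Int.negSucc (nat_lit 731063054),Int.ofNat (nat_lit 251975118),Int.ofNat (nat_lit 392710579),Int.ofNat (nat_lit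 239427874),Int.ofNat (nat_lit 1007419521),Int.negSucc (nat_lit 102558165),Int.ofNat (nat_lit 348655677),Int.ofNat (nat_lit 722309218),Int.negSucc (nat_lit 360382302),Int.negSucc (nat_lit 91297385),Int.ofNat (nat_lit 165722509),Int.ofNat (nat_lit 108673039),Int.negSucc (nat_lit 1163147651),Int.ofNat (nat_lit 155324022),Int.negSucc (nat_lit 2184945669),Int.ofNat (nat_lit 622458921),Int.negSucc (nat_lit 283192776),Int.ofNat (nat_lit 932470411),Int.negSucc (nat_lit 33495990),Int.negSucc (nat_lit 469129107),Int.negSucc (nat_lit 148102118),Int.negSucc (nat_lit 390620952),Int.ofNat (nat_lit 181887626),Int.ofNat (nat_lit 556528920),Int.negSucc (nat_lit 536581313),Int.ofNat (nat_lit 85251760),Int.negSucc (nat_lit 373977445),Int.negSucc (nat_lit 5247249),Int.ofNat (nat_lit 635865101),Int.ofNat (nat_lit 470953606),Int.negSucc (nat_lit 603816513),Int.ofNat (nat_lit 1044026375),Int.negSucc (nat_lit 1175200675),Int.negSucc (nat_lit 695780183),Int.ofNat (nat_lit 148600389),Int.ofNat (nat_lit 2095934277),Int.negSucc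 (nat_lit 70955662),Int.negSucc (nat_lit 4182670879),Int.ofNat (nat_lit 533637529),Int.negSucc (nat_lit 313706542),Int.ofNat (nat_lit 195496178),Int.negSucc (nat_lit 132655748),Int.negSucc (nat_lit 148480603),Int.ofNat (nat_lit 41775029),Int.ofNat (nat_lit 165143220),Int.negSucc (nat_lit 17073968),Int.ofNat (nat_lit 41021094),Int.ofNat (nat_lit 323375121),Int.negSucc (nat_lit 66835694),Int.ofNat (nat_lit 144425950),Int.negSucc (nat_lit 6197061),Int.negSucc (nat_lit 242462495),Int.ofNat (nat_lit 141585272),Int.ofNat (nat_lit 79936238),Int.negSucc (nat_lit 25952056),Int.ofNat (nat_lit 59999797),Int.negSucc (nat_lit 65983952),Int.negSucc (nat_lit 267443416),Int.negSucc (nat_lit 453427545),Int.negSucc (nat_lit 420067680),Int.ofNat (nat_lit 1294537620)])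

/-- A row. -/
noncomputable def sr7_c1_49 : List ℕ × List ℤ :=
  ([(nat_lit 1),(nat_lit 2),(nat_lit 1),(nat_lit 0),(nat_lit 0),(nat_lit 0),(nat_lit 0),(nat_lit 0),(nat_lit 0),(nat_lit 0),(nat_lit 0),(nat_lit 0)], [Int.negSucc (nat_lit 5739556976),Int.negSucc (nat_lit 1045152638),Int.negSucc (nat_lit 2818602954),Int.ofNat (nat_lit 1086111392),Int.negSucc (nat_lit 1616658969),Int.ofNat (nat_lit 889762648),Int.negSucc (nat_lit 1801431942),Int.negSucc (nat_lit 2400237023),Int.negSucc (nat_lit 2416795960),Int.ofNat (nat_lit 1985731923),Int.negSucc (nat_lit 90774691),Int.negSucc (nat_lit 271489510),Int.negSucc (nat_lit 1535519390),Int.negSucc (nat_lit 205841304),Int.ofNat (nat_lit 816363751),Int.negSucc (nat_lit 482821949),Int.negSucc (nat_lit 994878716),Int.negSucc (nat_lit 83345928),Int.negSucc (nat_lit 375289716),Int.negSucc (nat_lit 792188156),Int.negSucc (nat_lit 615012717),Int.negSucc (nat_lit 445003146),Int.negSucc (nat_lit 1048008712),Int.ofNat (nat_lit 974082570),Int.negSucc (nat_lit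 1337312897),Int.ofNat (nat_lit 2157726174),Int.negSucc (nat_lit 146334598),Int.ofNat (nat_lit 418224131),Int.ofNat (nat_lit 3015475767),Int.negSucc (nat_lit 1200510346),Int.negSucc (nat_lit 1832654413),Int.negSucc (nat_lit 352902077),Int.ofNat (nat_lit 517950593),Int.ofNat (nat_lit 198419206),Int.ofNat (nat_lit 377669547),Int.negSucc (nat_lit 150154234),Int.ofNat (nat_lit 50578993),Int.ofNat (nat_lit 139822881),Int.ofNat (nat_lit 535325072),Int.ofNat (nat_lit 371053734),Int.negSucc (nat_lit 753869405),Int.negSucc (nat_lit 1152378694),Int.ofNat (nat_lit 700121773),Int.negSucc (nat_lit 707461980),Int.negSucc (nat_lit 346290475),Int.ofNat (nat_lit 1488559749),Int.negSucc (nat_lit 1450724799),Int.negSucc (nat_lit 1532503885),Int.ofNat (nat_lit 2257477715),Int.negSucc (nat_lit 479309030),Int.ofNat (nat_lit 166542365),Int.negSucc (nat_lit 145958153),Int.negSucc (nat_lit 433144027),Int.negSucc (nat_lit 882544786),Int.negSucc (nat_lit 332349265),Int.ofNat (nat_lit 151847558),Int.negSucc (nat_lit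 755751417),Int.negSucc (nat_lit 572372909),Int.ofNat (nat_lit 155717080),Int.ofNat (nat_lit 84019034),Int.negSucc (nat_lit 236610327),Int.negSucc (nat_lit 32745695),Int.ofNat (nat_lit 536322559),Int.ofNat (nat_lit 243808363),Int.negSucc (nat_lit 54053258),Int.negSucc (nat_lit 325987751),Int.ofNat (nat_lit 3852959514),Int.ofNat (nat_lit 232461074),Int.ofNat (nat_lit 631630226),Int.negSucc (nat_lit 1146666730),Int.ofNat (nat_lit 350461101),Int.ofNat (nat_lit 3122823227),Int.ofNat (nat_lit 57577412),Int.negSucc (nat_lit 348570190),Int.negSucc (nat_lit 370878209),Int.ofNat (nat_lit 1287429162),Int.ofNat (nat_lit 1284124838),Int.negSucc (nat_lit 725973000),Int.ofNat (nat_lit 1222965690),Int.ofNat (nat_lit 20615338),Int.negSucc (nat_lit 1631188576),Int.ofNat (nat_lit 1466859074),Int.ofNat (nat_lit 506615433),Int.ofNat (nat_lit 235511911),Int.ofNat (nat_lit 943416476),Int.negSucc (nat_lit 518010212),Int.ofNat (nat_lit 21007775),Int.ofNat (nat_lit 797626958),Int.ofNat (nat_lit 482125256),Int.negSucc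 (nat_lit 2544115304),Int.ofNat (nat_lit 1604513156),Int.negSucc (nat_lit 2085016688),Int.negSucc (nat_lit 1250127047),Int.negSucc (nat_lit 3193500791),Int.ofNat (nat_lit 2024661981),Int.negSucc (nat_lit 29048634),Int.negSucc (nat_lit 75850751),Int.negSucc (nat_lit 109682382),Int.negSucc (nat_lit 1934602906),Int.ofNat (nat_lit 443671790),Int.negSucc (nat_lit 953007280),Int.ofNat (nat_lit 137485673),Int.ofNat (nat_lit 750785833),Int.negSucc (nat_lit 231055746),Int.ofNat (nat_lit 129266206),Int.ofNat (nat_lit 269356401),Int.negSucc (nat_lit 245339597),Int.negSucc (nat_lit 1495825619),Int.ofNat (nat_lit 1593447049),Int.ofNat (nat_lit 182168522),Int.negSucc (nat_lit 763415732),Int.ofNat (nat_lit 1116823241),Int.negSucc (nat_lit 289421694),Int.ofNat (nat_lit 2570298917),Int.negSucc (nat_lit 266772871),Int.ofNat (nat_lit 3127888621)])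

/-- A row. -/
noncomputable def sr7_c1_50 : List ℕ × List ℤ :=
  ([(nat_lit 1),(nat_lit 3),(nat_lit 0),(nat_lit 1),(nat_lit 0),(nat_lit 0),(nat_lit 0),(nat_lit 0),(nat_lit 0),(nat_lit 0),(nat_lit 0),(nat_lit 0)], [Int.negSucc (nat_lit 8281356466),Int.negSucc (nat_lit 2565206329),Int.negSucc (nat_lit 906720565),Int.negSucc (nat_lit 2980309919),Int.negSucc (nat_lit 2639523691),Int.ofNat (nat_lit 4364156669),Int.ofNat (nat_lit 3692348540),Int.ofNat (nat_lit 2217081355),Int.ofNat (nat_lit 2600346868),Int.negSucc (nat_lit 1130600126),Int.ofNat (nat_lit 573702977),Int.ofNat (nat_lit 1285681572),Int.ofNat (nat_lit 1432452046),Int.negSucc (nat_lit 589900912),Int.negSucc (nat_lit 324854713),Int.ofNat (nat_lit 307866348),Int.ofNat (nat_lit 371117084),Int.ofNat (nat_lit 448952007),Int.ofNat (nat_lit 2115662204),Int.ofNat (nat_lit 866213771),Int.ofNat (nat_lit 999244640),Int.ofNat (nat_lit 1539413089),Int.ofNat (nat_lit 77702252),Int.ofNat (nat_lit 919332637),Int.ofNat (nat_lit 1876637643),Int.ofNat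 (nat_lit 1626726907),Int.ofNat (nat_lit 2269039654),Int.negSucc (nat_lit 225683994),Int.ofNat (nat_lit 43649327),Int.ofNat (nat_lit 3379847193),Int.ofNat (nat_lit 1668841743),Int.negSucc (nat_lit 386278828),Int.negSucc (nat_lit 786984414),Int.ofNat (nat_lit 391705750),Int.ofNat (nat_lit 571089753),Int.ofNat (nat_lit 136816503),Int.negSucc (nat_lit 843447404),Int.ofNat (nat_lit 504843075),Int.ofNat (nat_lit 278943552),Int.ofNat (nat_lit 1599959283),Int.negSucc (nat_lit 317735535),Int.negSucc (nat_lit 648934134),Int.negSucc (nat_lit 623890946),Int.ofNat (nat_lit 147535914),Int.negSucc (nat_lit 876552694),Int.ofNat (nat_lit 1217451078),Int.ofNat (nat_lit 204710569),Int.negSucc (nat_lit 1120349424),Int.negSucc (nat_lit 784981655),Int.ofNat (nat_lit 7299251),Int.negSucc (nat_lit 1149240262),Int.ofNat (nat_lit 508718820),Int.ofNat (nat_lit 268816367),Int.negSucc (nat_lit 874488832),Int.negSucc (nat_lit 1225476665),Int.ofNat (nat_lit 1043325125),Int.negSucc (nat_lit 31680249),Int.ofNat (nat_lit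 849218626),Int.ofNat (nat_lit 475637999),Int.ofNat (nat_lit 579475439),Int.ofNat (nat_lit 63049750),Int.negSucc (nat_lit 1091972840),Int.negSucc (nat_lit 752575039),Int.negSucc (nat_lit 444927197),Int.ofNat (nat_lit 30716714),Int.ofNat (nat_lit 190322424),Int.ofNat (nat_lit 328486668),Int.negSucc (nat_lit 1233279411),Int.negSucc (nat_lit 412551995),Int.negSucc (nat_lit 297564473),Int.ofNat (nat_lit 1685273314),Int.ofNat (nat_lit 600932790),Int.negSucc (nat_lit 1357001613),Int.ofNat (nat_lit 449753471),Int.ofNat (nat_lit 865616112),Int.negSucc (nat_lit 59297757),Int.negSucc (nat_lit 896239942),Int.negSucc (nat_lit 999133495),Int.ofNat (nat_lit 797238009),Int.negSucc (nat_lit 112974073),Int.negSucc (nat_lit 702857808),Int.ofNat (nat_lit 121085927),Int.ofNat (nat_lit 1780199004),Int.negSucc (nat_lit 611810244),Int.ofNat (nat_lit 912057477),Int.ofNat (nat_lit 5435842633),Int.ofNat (nat_lit 302962322),Int.ofNat (nat_lit 374847431),Int.negSucc (nat_lit 1599448171),Int.ofNat (nat_lit 976677157),Int.negSucc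 (nat_lit 381411874),Int.negSucc (nat_lit 533813433),Int.negSucc (nat_lit 1729840757),Int.negSucc (nat_lit 287897909),Int.ofNat (nat_lit 1446096165),Int.negSucc (nat_lit 408143829),Int.negSucc (nat_lit 5174836057),Int.negSucc (nat_lit 1084970977),Int.ofNat (nat_lit 458959796),Int.ofNat (nat_lit 480144930),Int.ofNat (nat_lit 214135359),Int.negSucc (nat_lit 162358651),Int.negSucc (nat_lit 516707990),Int.ofNat (nat_lit 149983938),Int.negSucc (nat_lit 1061399217),Int.negSucc (nat_lit 139769824),Int.ofNat (nat_lit 229742714),Int.ofNat (nat_lit 53485809),Int.ofNat (nat_lit 70762661),Int.ofNat (nat_lit 453290220),Int.negSucc (nat_lit 222705572),Int.negSucc (nat_lit 734964922),Int.negSucc (nat_lit 101746473),Int.negSucc (nat_lit 749762514),Int.ofNat (nat_lit 1233070833),Int.negSucc (nat_lit 302953815),Int.ofNat (nat_lit 2672067106)])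

/-- A row. -/
noncomputable def sr7_c1_51 : List ℕ × List ℤ :=
  ([(nat_lit 1),(nat_lit 4),(nat_lit 0),(nat_lit 0),(nat_lit 0),(nat_lit 0),(nat_lit 0),(nat_lit 0),(nat_lit 0),(nat_lit 0),(nat_lit 0),(nat_lit 0)], [Int.ofNat (nat_lit 5632105198),Int.negSucc (nat_lit 273053388),Int.ofNat (nat_lit 2859371040),Int.ofNat (nat_lit 916949719),Int.ofNat (nat_lit 1356890319),Int.negSucc (nat_lit 2487262267),Int.negSucc (nat_lit 2037818215),Int.ofNat (nat_lit 1843736780),Int.ofNat (nat_lit 1751743432),Int.ofNat (nat_lit 3055161262),Int.negSucc (nat_lit 957250388),Int.negSucc (nat_lit 102059500),Int.ofNat (nat_lit 686154366),Int.negSucc (nat_lit 208997764),Int.ofNat (nat_lit 3775010315),Int.negSucc (nat_lit 309152582),Int.negSucc (nat_lit 1195564738),Int.ofNat (nat_lit 313029051),Int.ofNat (nat_lit 834702646),Int.ofNat (nat_lit 1503025719),Int.ofNat (nat_lit 437297359),Int.negSucc (nat_lit 682791803),Int.ofNat (nat_lit 137308032),Int.negSucc (nat_lit 995190173),Int.negSucc (nat_lit 891191246),Int.negSucc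 (nat_lit 852495368),Int.negSucc (nat_lit 3096761193),Int.negSucc (nat_lit 1532585198),Int.ofNat (nat_lit 3634575383),Int.negSucc (nat_lit 898273711),Int.ofNat (nat_lit 2093735736),Int.ofNat (nat_lit 1547508624),Int.negSucc (nat_lit 1176691591),Int.negSucc (nat_lit 1879416201),Int.ofNat (nat_lit 229044180),Int.ofNat (nat_lit 298651001),Int.ofNat (nat_lit 634183867),Int.negSucc (nat_lit 49742081),Int.negSucc (nat_lit 2384994875),Int.negSucc (nat_lit 1358387936),Int.ofNat (nat_lit 429625804),Int.ofNat (nat_lit 1205182231),Int.ofNat (nat_lit 202309881),Int.negSucc (nat_lit 98840823),Int.negSucc (nat_lit 21824250),Int.negSucc (nat_lit 1838375245),Int.negSucc (nat_lit 227400874),Int.negSucc (nat_lit 1139457900),Int.negSucc (nat_lit 6355243118),Int.ofNat (nat_lit 1713813658),Int.ofNat (nat_lit 417608620),Int.negSucc (nat_lit 811447426),Int.ofNat (nat_lit 290438772),Int.ofNat (nat_lit 796403281),Int.ofNat (nat_lit 1445430902),Int.negSucc (nat_lit 993715891),Int.ofNat (nat_lit 520005973),Int.negSucc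 (nat_lit 421993434),Int.negSucc (nat_lit 277898859),Int.ofNat (nat_lit 634324006),Int.negSucc (nat_lit 480830289),Int.negSucc (nat_lit 352202707),Int.negSucc (nat_lit 284346019),Int.ofNat (nat_lit 529532940),Int.negSucc (nat_lit 312099374),Int.ofNat (nat_lit 827463912),Int.negSucc (nat_lit 1803305499),Int.ofNat (nat_lit 140491174),Int.negSucc (nat_lit 2489163633),Int.ofNat (nat_lit 983562500),Int.negSucc (nat_lit 240095815),Int.negSucc (nat_lit 1672332294),Int.ofNat (nat_lit 1551885284),Int.negSucc (nat_lit 822805049),Int.ofNat (nat_lit 1026942610),Int.negSucc (nat_lit 875463418),Int.ofNat (nat_lit 2767218636),Int.negSucc (nat_lit 442342643),Int.ofNat (nat_lit 54072523),Int.ofNat (nat_lit 332110991),Int.negSucc (nat_lit 990684469),Int.ofNat (nat_lit 782222929),Int.ofNat (nat_lit 445138788),Int.ofNat (nat_lit 334488300),Int.negSucc (nat_lit 534615812),Int.negSucc (nat_lit 2337220154),Int.ofNat (nat_lit 292693734),Int.negSucc (nat_lit 1795009545),Int.ofNat (nat_lit 1456609765),Int.ofNat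 (nat_lit 7095367151),Int.negSucc (nat_lit 1210096565),Int.ofNat (nat_lit 2720764419),Int.ofNat (nat_lit 1949255347),Int.negSucc (nat_lit 3598518559),Int.ofNat (nat_lit 697459121),Int.ofNat (nat_lit 1417271140),Int.ofNat (nat_lit 2209588596),Int.ofNat (nat_lit 459812365),Int.ofNat (nat_lit 931787257),Int.negSucc (nat_lit 3767318752),Int.ofNat (nat_lit 1151790344),Int.negSucc (nat_lit 449744187),Int.negSucc (nat_lit 508780286),Int.ofNat (nat_lit 716069418),Int.ofNat (nat_lit 522245939),Int.negSucc (nat_lit 2429921939),Int.negSucc (nat_lit 1418233209),Int.ofNat (nat_lit 71594292),Int.negSucc (nat_lit 423192040),Int.negSucc (nat_lit 826604946),Int.ofNat (nat_lit 363966214),Int.ofNat (nat_lit 1415912411),Int.ofNat (nat_lit 31656752),Int.negSucc (nat_lit 3934650744),Int.negSucc (nat_lit 1738656923),Int.ofNat (nat_lit 2863928023),Int.negSucc (nat_lit 1761294932),Int.ofNat (nat_lit 4537686237)])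

/-- A row. -/
noncomputable def sr7_c1_52 : List ℕ × List ℤ :=
  ([(nat_lit 2),(nat_lit 0),(nat_lit 0),(nat_lit 0),(nat_lit 0),(nat_lit 0),(nat_lit 0),(nat_lit 0),(nat_lit 0),(nat_lit 0),(nat_lit 0),(nat_lit 0)], [Int.ofNat (nat_lit 337641916),Int.negSucc (nat_lit 363066145),Int.negSucc (nat_lit 3685267850),Int.ofNat (nat_lit 1366028593),Int.negSucc (nat_lit 2078669932),Int.negSucc (nat_lit 416792300),Int.negSucc (nat_lit 385749758),Int.ofNat (nat_lit 1251750130),Int.negSucc (nat_lit 1729569105),Int.ofNat (nat_lit 710287565),Int.ofNat (nat_lit 638171192),Int.negSucc (nat_lit 903688317),Int.negSucc (nat_lit 779140304),Int.negSucc (nat_lit 1536395561),Int.ofNat (nat_lit 2474471803),Int.negSucc (nat_lit 698105116),Int.negSucc (nat_lit 290110147),Int.negSucc (nat_lit 1683032316),Int.ofNat (nat_lit 120484679),Int.ofNat (nat_lit 305859239),Int.negSucc (nat_lit 1017966871),Int.negSucc (nat_lit 131585224),Int.ofNat (nat_lit 153760707),Int.negSucc (nat_lit 773473083),Int.negSucc (nat_lit 315216632),Int.ofNat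 (nat_lit 1713571819),Int.ofNat (nat_lit 21831394),Int.negSucc (nat_lit 4847393),Int.ofNat (nat_lit 722014419),Int.negSucc (nat_lit 929961804),Int.negSucc (nat_lit 152369261),Int.ofNat (nat_lit 295827459),Int.negSucc (nat_lit 1449207379),Int.ofNat (nat_lit 482640705),Int.ofNat (nat_lit 1182577589),Int.ofNat (nat_lit 307195559),Int.negSucc (nat_lit 344671620),Int.negSucc (nat_lit 207248243),Int.ofNat (nat_lit 932108048),Int.ofNat (nat_lit 384026195),Int.negSucc (nat_lit 3646706),Int.negSucc (nat_lit 123808052),Int.negSucc (nat_lit 643017564),Int.ofNat (nat_lit 305256015),Int.negSucc (nat_lit 363340286),Int.negSucc (nat_lit 21715363),Int.ofNat (nat_lit 57789331),Int.ofNat (nat_lit 81438132),Int.ofNat (nat_lit 106389956),Int.ofNat (nat_lit 228450920),Int.negSucc (nat_lit 127588834),Int.negSucc (nat_lit 585843808),Int.ofNat (nat_lit 195810786),Int.ofNat (nat_lit 299611219),Int.negSucc (nat_lit 174362978),Int.ofNat (nat_lit 262761075),Int.negSucc (nat_lit 191681508),Int.ofNat (nat_lit 359740662),Int.ofNat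 (nat_lit 184007404),Int.ofNat (nat_lit 476298584),Int.negSucc (nat_lit 292869270),Int.ofNat (nat_lit 180621782),Int.ofNat (nat_lit 170438008),Int.ofNat (nat_lit 45493654),Int.ofNat (nat_lit 86948238),Int.ofNat (nat_lit 349834553),Int.ofNat (nat_lit 2288202716),Int.ofNat (nat_lit 736410114),Int.negSucc (nat_lit 30337724),Int.negSucc (nat_lit 1387574599),Int.negSucc (nat_lit 33150909),Int.ofNat (nat_lit 162283031),Int.ofNat (nat_lit 452826927),Int.negSucc (nat_lit 189216631),Int.ofNat (nat_lit 625685799),Int.negSucc (nat_lit 708327323),Int.negSucc (nat_lit 2099660711),Int.negSucc (nat_lit 623474310),Int.ofNat (nat_lit 1005569791),Int.negSucc (nat_lit 931813849),Int.ofNat (nat_lit 265369340),Int.negSucc (nat_lit 725708201),Int.negSucc (nat_lit 444615942),Int.negSucc (nat_lit 291218216),Int.ofNat (nat_lit 200902010),Int.negSucc (nat_lit 671684129),Int.negSucc (nat_lit 319206097),Int.negSucc (nat_lit 9186375),Int.negSucc (nat_lit 46737038),Int.ofNat (nat_lit 705231481),Int.ofNat (nat_lit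 229805607),Int.negSucc (nat_lit 445467586),Int.negSucc (nat_lit 30949905),Int.negSucc (nat_lit 963461138),Int.ofNat (nat_lit 796362453),Int.ofNat (nat_lit 231021539),Int.negSucc (nat_lit 136008261),Int.negSucc (nat_lit 1675856),Int.negSucc (nat_lit 358240369),Int.ofNat (nat_lit 263681186),Int.negSucc (nat_lit 4351822405),Int.ofNat (nat_lit 36019959),Int.ofNat (nat_lit 565255909),Int.negSucc (nat_lit 703534683),Int.negSucc (nat_lit 279378228),Int.negSucc (nat_lit 517871321),Int.ofNat (nat_lit 651931181),Int.negSucc (nat_lit 264791227),Int.negSucc (nat_lit 78390675),Int.negSucc (nat_lit 6104837),Int.negSucc (nat_lit 297066345),Int.ofNat (nat_lit 97783687),Int.ofNat (nat_lit 252660960),Int.negSucc (nat_lit 534804164),Int.ofNat (nat_lit 86851312),Int.negSucc (nat_lit 156556951),Int.negSucc (nat_lit 181767704),Int.negSucc (nat_lit 78914067),Int.ofNat (nat_lit 1054594221)])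

/-- A row. -/
noncomputable def sr7_c1_53 : List ℕ × List ℤ :=
  ([(nat_lit 2),(nat_lit 0),(nat_lit 0),(nat_lit 0),(nat_lit 0),(nat_lit 0),(nat_lit 1),(nat_lit 0),(nat_lit 0),(nat_lit 0),(nat_lit 0),(nat_lit 0)], [Int.negSucc (nat_lit 2344992552),Int.negSucc (nat_lit 134610956),Int.negSucc (nat_lit 67649035),Int.negSucc (nat_lit 513019623),Int.ofNat (nat_lit 132355006),Int.ofNat (nat_lit 494389593),Int.ofNat (nat_lit 424432391),Int.negSucc (nat_lit 220309321),Int.ofNat (nat_lit 822492941),Int.negSucc (nat_lit 480853639),Int.ofNat (nat_lit 84272893),Int.negSucc (nat_lit 307001074),Int.ofNat (nat_lit 498461906),Int.negSucc (nat_lit 464937899),Int.ofNat (nat_lit 380060405),Int.negSucc (nat_lit 727411886),Int.negSucc (nat_lit 269366302),Int.ofNat (nat_lit 100889778),Int.ofNat (nat_lit 53601314),Int.negSucc (nat_lit 33738125),Int.negSucc (nat_lit 287086508),Int.ofNat (nat_lit 60533442),Int.ofNat (nat_lit 203680262),Int.negSucc (nat_lit 82207231),Int.negSucc (nat_lit 32684666),Int.negSucc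 (nat_lit 28099229),Int.ofNat (nat_lit 183512733),Int.negSucc (nat_lit 50786639),Int.negSucc (nat_lit 240293862),Int.ofNat (nat_lit 112976041),Int.ofNat (nat_lit 71180031),Int.ofNat (nat_lit 29291387),Int.negSucc (nat_lit 80636231),Int.ofNat (nat_lit 26822580),Int.negSucc (nat_lit 212558480),Int.ofNat (nat_lit 184323898),Int.negSucc (nat_lit 72770777),Int.ofNat (nat_lit 204586934),Int.ofNat (nat_lit 22811207),Int.negSucc (nat_lit 187718908),Int.negSucc (nat_lit 73857887),Int.ofNat (nat_lit 334825095),Int.ofNat (nat_lit 12243503),Int.ofNat (nat_lit 156194930),Int.negSucc (nat_lit 9182711),Int.negSucc (nat_lit 32750022),Int.negSucc (nat_lit 66982047),Int.ofNat (nat_lit 8412898),Int.ofNat (nat_lit 70756211),Int.negSucc (nat_lit 38919667),Int.negSucc (nat_lit 89559213),Int.ofNat (nat_lit 28024891),Int.ofNat (nat_lit 96626474),Int.negSucc (nat_lit 16617664),Int.negSucc (nat_lit 137202423),Int.ofNat (nat_lit 250250),Int.ofNat (nat_lit 113792957),Int.negSucc (nat_lit 191674232),Int.ofNat (nat_lit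 93198069),Int.negSucc (nat_lit 65404188),Int.ofNat (nat_lit 116899956),Int.ofNat (nat_lit 180133748),Int.ofNat (nat_lit 12723584),Int.ofNat (nat_lit 1140941),Int.ofNat (nat_lit 16152478),Int.negSucc (nat_lit 6396990),Int.ofNat (nat_lit 673530629),Int.negSucc (nat_lit 130980195),Int.negSucc (nat_lit 32147888),Int.ofNat (nat_lit 1169530777),Int.ofNat (nat_lit 317736864),Int.ofNat (nat_lit 79687794),Int.ofNat (nat_lit 213855785),Int.negSucc (nat_lit 52396826),Int.negSucc (nat_lit 137226888),Int.ofNat (nat_lit 23344396),Int.negSucc (nat_lit 88575408),Int.negSucc (nat_lit 438974443),Int.negSucc (nat_lit 1513845),Int.negSucc (nat_lit 185895624),Int.negSucc (nat_lit 70720958),Int.ofNat (nat_lit 29083013),Int.ofNat (nat_lit 165241431),Int.negSucc (nat_lit 80782500),Int.ofNat (nat_lit 112478818),Int.negSucc (nat_lit 92692717),Int.negSucc (nat_lit 36682576),Int.ofNat (nat_lit 4872201),Int.negSucc (nat_lit 54854370),Int.ofNat (nat_lit 61965976),Int.ofNat (nat_lit 237282758),Int.negSucc (nat_lit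 27363162),Int.negSucc (nat_lit 92440056),Int.ofNat (nat_lit 16553462),Int.negSucc (nat_lit 22431972),Int.negSucc (nat_lit 30109560),Int.negSucc (nat_lit 52335866),Int.ofNat (nat_lit 10548017),Int.ofNat (nat_lit 11838688),Int.negSucc (nat_lit 37241834),Int.negSucc (nat_lit 218131014),Int.ofNat (nat_lit 14806381),Int.negSucc (nat_lit 503789172),Int.negSucc (nat_lit 11052810),Int.ofNat (nat_lit 24640352),Int.negSucc (nat_lit 23043327),Int.negSucc (nat_lit 6177841),Int.ofNat (nat_lit 26097747),Int.ofNat (nat_lit 8978531),Int.negSucc (nat_lit 12647379),Int.negSucc (nat_lit 6227573),Int.ofNat (nat_lit 15945770),Int.ofNat (nat_lit 20486356),Int.ofNat (nat_lit 8782729),Int.negSucc (nat_lit 7174717),Int.negSucc (nat_lit 1617651),Int.negSucc (nat_lit 5095400),Int.negSucc (nat_lit 1014128),Int.negSucc (nat_lit 2053013),Int.ofNat (nat_lit 78521039)])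

/-- A row. -/
noncomputable def sr7_c1_54 : List ℕ × List ℤ :=
  ([(nat_lit 2),(nat_lit 0),(nat_lit 0),(nat_lit 0),(nat_lit 1),(nat_lit 0),(nat_lit 0),(nat_lit 0),(nat_lit 0),(nat_lit 0),(nat_lit 0),(nat_lit 0)], [Int.negSucc (nat_lit 1477237385),Int.ofNat (nat_lit 22244467),Int.ofNat (nat_lit 1346547698),Int.ofNat (nat_lit 236760787),Int.ofNat (nat_lit 1936256031),Int.negSucc (nat_lit 833482168),Int.ofNat (nat_lit 852426250),Int.negSucc (nat_lit 3965700971),Int.ofNat (nat_lit 1217183570),Int.ofNat (nat_lit 450005041),Int.negSucc (nat_lit 2460540376),Int.ofNat (nat_lit 1339287845),Int.ofNat (nat_lit 1275328953),Int.ofNat (nat_lit 196692849),Int.negSucc (nat_lit 1016141370),Int.ofNat (nat_lit 552662217),Int.negSucc (nat_lit 1406633251),Int.ofNat (nat_lit 3055470565),Int.negSucc (nat_lit 584560419),Int.ofNat (nat_lit 902055363),Int.ofNat (nat_lit 964605502),Int.negSucc (nat_lit 1033270722),Int.negSucc (nat_lit 95868768),Int.ofNat (nat_lit 2620910004),Int.ofNat (nat_lit 217356801),Int.negSucc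 (nat_lit 1682278674),Int.negSucc (nat_lit 1024996738),Int.negSucc (nat_lit 672748613),Int.ofNat (nat_lit 990133399),Int.ofNat (nat_lit 1025880504),Int.negSucc (nat_lit 491669283),Int.negSucc (nat_lit 88847694),Int.ofNat (nat_lit 754363378),Int.negSucc (nat_lit 1622287092),Int.negSucc (nat_lit 1494119641),Int.negSucc (nat_lit 89967370),Int.ofNat (nat_lit 67750362),Int.ofNat (nat_lit 173030466),Int.negSucc (nat_lit 213191189),Int.negSucc (nat_lit 1289283887),Int.ofNat (nat_lit 693326316),Int.ofNat (nat_lit 837633932),Int.ofNat (nat_lit 228124217),Int.ofNat (nat_lit 275274546),Int.ofNat (nat_lit 26477938),Int.ofNat (nat_lit 280405355),Int.ofNat (nat_lit 57920543),Int.negSucc (nat_lit 48019725),Int.ofNat (nat_lit 115384528),Int.negSucc (nat_lit 316379021),Int.negSucc (nat_lit 262285089),Int.ofNat (nat_lit 152397329),Int.negSucc (nat_lit 143736453),Int.negSucc (nat_lit 396777657),Int.negSucc (nat_lit 216631138),Int.ofNat (nat_lit 6489091),Int.ofNat (nat_lit 463338953),Int.negSucc (nat_lit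 844225238),Int.negSucc (nat_lit 185511675),Int.negSucc (nat_lit 984314822),Int.ofNat (nat_lit 442066091),Int.negSucc (nat_lit 179338317),Int.negSucc (nat_lit 74549934),Int.ofNat (nat_lit 213835083),Int.negSucc (nat_lit 70423341),Int.negSucc (nat_lit 197018338),Int.negSucc (nat_lit 1106994202),Int.negSucc (nat_lit 882601813),Int.negSucc (nat_lit 1342776982),Int.ofNat (nat_lit 2141822051),Int.negSucc (nat_lit 71601668),Int.ofNat (nat_lit 2411267899),Int.ofNat (nat_lit 254564140),Int.ofNat (nat_lit 807780381),Int.negSucc (nat_lit 317727403),Int.ofNat (nat_lit 414338032),Int.ofNat (nat_lit 1299220901),Int.ofNat (nat_lit 1407897514),Int.negSucc (nat_lit 2432670380),Int.ofNat (nat_lit 989296199),Int.ofNat (nat_lit 141674236),Int.negSucc (nat_lit 1601378),Int.ofNat (nat_lit 572310390),Int.ofNat (nat_lit 102018918),Int.negSucc (nat_lit 152472297),Int.ofNat (nat_lit 347482330),Int.ofNat (nat_lit 1007297),Int.ofNat (nat_lit 550847510),Int.negSucc (nat_lit 453255839),Int.negSucc (nat_lit 641624291),Int.negSucc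 (nat_lit 351385469),Int.ofNat (nat_lit 1278923004),Int.negSucc (nat_lit 220972716),Int.ofNat (nat_lit 82067684),Int.ofNat (nat_lit 50705964),Int.ofNat (nat_lit 13798246),Int.ofNat (nat_lit 66864689),Int.ofNat (nat_lit 156958744),Int.negSucc (nat_lit 41257650),Int.negSucc (nat_lit 115420827),Int.ofNat (nat_lit 1545559404),Int.ofNat (nat_lit 602952768),Int.negSucc (nat_lit 119988783),Int.negSucc (nat_lit 2018124662),Int.ofNat (nat_lit 78603471),Int.ofNat (nat_lit 218110786),Int.negSucc (nat_lit 157944116),Int.ofNat (nat_lit 143954167),Int.negSucc (nat_lit 9779396),Int.ofNat (nat_lit 79637425),Int.ofNat (nat_lit 70812857),Int.negSucc (nat_lit 89620804),Int.ofNat (nat_lit 87119465),Int.ofNat (nat_lit 27149303),Int.negSucc (nat_lit 262650185),Int.negSucc (nat_lit 27105954),Int.ofNat (nat_lit 106778656),Int.negSucc (nat_lit 6346332),Int.negSucc (nat_lit 154592555),Int.negSucc (nat_lit 125977001),Int.ofNat (nat_lit 333759237)])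

/-- A row. -/
noncomputable def sr7_c1_55 : List ℕ × List ℤ :=
  ([(nat_lit 2),(nat_lit 0),(nat_lit 0),(nat_lit 2),(nat_lit 0),(nat_lit 0),(nat_lit 0),(nat_lit 0),(nat_lit 0),(nat_lit 0),(nat_lit 0),(nat_lit 0)], [Int.ofNat (nat_lit 958973388),Int.ofNat (nat_lit 1577914398),Int.negSucc (nat_lit 743715461),Int.ofNat (nat_lit 1458765235),Int.ofNat (nat_lit 978674456),Int.negSucc (nat_lit 1846821961),Int.negSucc (nat_lit 151519964),Int.negSucc (nat_lit 934593101),Int.negSucc (nat_lit 1493769123),Int.ofNat (nat_lit 564116017),Int.negSucc (nat_lit 479027281),Int.ofNat (nat_lit 739998901),Int.negSucc (nat_lit 1055143544),Int.negSucc (nat_lit 665296322),Int.ofNat (nat_lit 679308031),Int.ofNat (nat_lit 289927554),Int.ofNat (nat_lit 114344996),Int.ofNat (nat_lit 112721320),Int.negSucc (nat_lit 340412152),Int.negSucc (nat_lit 221862460),Int.ofNat (nat_lit 488809848),Int.negSucc (nat_lit 377271822),Int.negSucc (nat_lit 436350783),Int.ofNat (nat_lit 271365509),Int.negSucc (nat_lit 916811888),Int.ofNat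 (nat_lit 574283597),Int.negSucc (nat_lit 427563611),Int.negSucc (nat_lit 250514798),Int.ofNat (nat_lit 520190952),Int.negSucc (nat_lit 442602868),Int.negSucc (nat_lit 196239002),Int.ofNat (nat_lit 99284797),Int.ofNat (nat_lit 35309214),Int.ofNat (nat_lit 50120374),Int.ofNat (nat_lit 428052729),Int.ofNat (nat_lit 175530806),Int.negSucc (nat_lit 152752285),Int.negSucc (nat_lit 374021396),Int.ofNat (nat_lit 56428851),Int.ofNat (nat_lit 378645382),Int.ofNat (nat_lit 5489545),Int.negSucc (nat_lit 459939603),Int.ofNat (nat_lit 217997369),Int.negSucc (nat_lit 439744234),Int.ofNat (nat_lit 98906141),Int.ofNat (nat_lit 188561964),Int.negSucc (nat_lit 79624429),Int.ofNat (nat_lit 121542821),Int.negSucc (nat_lit 143630527),Int.ofNat (nat_lit 72051979),Int.negSucc (nat_lit 122291995),Int.negSucc (nat_lit 621054428),Int.ofNat (nat_lit 301192791),Int.negSucc (nat_lit 25953843),Int.ofNat (nat_lit 41906017),Int.negSucc (nat_lit 77778164),Int.negSucc (nat_lit 7448307),Int.ofNat (nat_lit 298312784),Int.ofNat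 (nat_lit 189603372),Int.ofNat (nat_lit 496929367),Int.negSucc (nat_lit 36793291),Int.ofNat (nat_lit 59948146),Int.ofNat (nat_lit 21252807),Int.negSucc (nat_lit 374790919),Int.negSucc (nat_lit 54224471),Int.negSucc (nat_lit 64646773),Int.negSucc (nat_lit 669993735),Int.ofNat (nat_lit 456354663),Int.negSucc (nat_lit 115276936),Int.negSucc (nat_lit 341589807),Int.negSucc (nat_lit 777309235),Int.ofNat (nat_lit 81810396),Int.negSucc (nat_lit 331891174),Int.negSucc (nat_lit 833625851),Int.ofNat (nat_lit 53009747),Int.ofNat (nat_lit 1875630007),Int.ofNat (nat_lit 175449598),Int.ofNat (nat_lit 154351803),Int.negSucc (nat_lit 332484836),Int.negSucc (nat_lit 446028875),Int.ofNat (nat_lit 221948210),Int.negSucc (nat_lit 52694532),Int.ofNat (nat_lit 114360767),Int.ofNat (nat_lit 222672130),Int.negSucc (nat_lit 106654957),Int.ofNat (nat_lit 302085228),Int.ofNat (nat_lit 121416357),Int.ofNat (nat_lit 209359481),Int.negSucc (nat_lit 129318739),Int.negSucc (nat_lit 207318074),Int.negSucc (nat_lit 241468814),Int.ofNat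 (nat_lit 235414853),Int.ofNat (nat_lit 58367099),Int.negSucc (nat_lit 27140892),Int.ofNat (nat_lit 88390849),Int.ofNat (nat_lit 84412905),Int.ofNat (nat_lit 96052994),Int.ofNat (nat_lit 120359688),Int.negSucc (nat_lit 75149263),Int.ofNat (nat_lit 29905131),Int.ofNat (nat_lit 535223098),Int.ofNat (nat_lit 12611669),Int.ofNat (nat_lit 199272377),Int.negSucc (nat_lit 178935708),Int.ofNat (nat_lit 159430036),Int.negSucc (nat_lit 923395462),Int.negSucc (nat_lit 56157197),Int.ofNat (nat_lit 16825014),Int.negSucc (nat_lit 27560650),Int.ofNat (nat_lit 23350846),Int.ofNat (nat_lit 56241105),Int.negSucc (nat_lit 31351220),Int.negSucc (nat_lit 4457509),Int.negSucc (nat_lit 3880730),Int.negSucc (nat_lit 67505220),Int.ofNat (nat_lit 11103809),Int.ofNat (nat_lit 40345145),Int.ofNat (nat_lit 5975761),Int.negSucc (nat_lit 27064899),Int.negSucc (nat_lit 35045552),Int.ofNat (nat_lit 103236503),Int.ofNat (nat_lit 207058375)])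

/-- A row. -/
noncomputable def sr7_c1_56 : List ℕ × List ℤ :=
  ([(nat_lit 2),(nat_lit 0),(nat_lit 1),(nat_lit 0),(nat_lit 0),(nat_lit 0),(nat_lit 0),(nat_lit 0),(nat_lit 0),(nat_lit 0),(nat_lit 0),(nat_lit 0)], [Int.ofNat (nat_lit 2686649517),Int.ofNat (nat_lit 133839532),Int.ofNat (nat_lit 2322682527),Int.negSucc (nat_lit 298206172),Int.ofNat (nat_lit 805596896),Int.negSucc (nat_lit 768793540),Int.negSucc (nat_lit 1885571678),Int.negSucc (nat_lit 107025740),Int.negSucc (nat_lit 611862370),Int.ofNat (nat_lit 636376841),Int.ofNat (nat_lit 423273409),Int.negSucc (nat_lit 831390950),Int.negSucc (nat_lit 570329041),Int.negSucc (nat_lit 592306868),Int.ofNat (nat_lit 391797488),Int.negSucc (nat_lit 59073767),Int.ofNat (nat_lit 99552659),Int.negSucc (nat_lit 817033291),Int.negSucc (nat_lit 305712558),Int.negSucc (nat_lit 774286186),Int.negSucc (nat_lit 187006250),Int.ofNat (nat_lit 93771036),Int.negSucc (nat_lit 329216224),Int.negSucc (nat_lit 387859925),Int.negSucc (nat_lit 32895194),Int.ofNat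 (nat_lit 376441824),Int.ofNat (nat_lit 302303589),Int.ofNat (nat_lit 773055363),Int.ofNat (nat_lit 564059891),Int.negSucc (nat_lit 461978215),Int.negSucc (nat_lit 279002566),Int.negSucc (nat_lit 336466931),Int.ofNat (nat_lit 268824102),Int.ofNat (nat_lit 424980126),Int.negSucc (nat_lit 339996487),Int.negSucc (nat_lit 200150215),Int.ofNat (nat_lit 64226244),Int.ofNat (nat_lit 263046318),Int.ofNat (nat_lit 439795496),Int.ofNat (nat_lit 31595674),Int.ofNat (nat_lit 133356720),Int.negSucc (nat_lit 560139033),Int.ofNat (nat_lit 494097219),Int.negSucc (nat_lit 659977995),Int.ofNat (nat_lit 214626999),Int.ofNat (nat_lit 136091081),Int.negSucc (nat_lit 256140495),Int.negSucc (nat_lit 339573740),Int.ofNat (nat_lit 166197752),Int.negSucc (nat_lit 501281511),Int.ofNat (nat_lit 293330977),Int.ofNat (nat_lit 226933365),Int.negSucc (nat_lit 521338433),Int.negSucc (nat_lit 317543201),Int.ofNat (nat_lit 81132065),Int.negSucc (nat_lit 234384006),Int.negSucc (nat_lit 265155082),Int.ofNat (nat_lit 303851436),Int.negSucc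 (nat_lit 103505019),Int.negSucc (nat_lit 232766029),Int.negSucc (nat_lit 211848741),Int.ofNat (nat_lit 495940001),Int.negSucc (nat_lit 4521079),Int.ofNat (nat_lit 83210339),Int.negSucc (nat_lit 41576640),Int.negSucc (nat_lit 157499147),Int.ofNat (nat_lit 1020948177),Int.ofNat (nat_lit 601161797),Int.ofNat (nat_lit 392660445),Int.negSucc (nat_lit 938077125),Int.negSucc (nat_lit 1423494336),Int.ofNat (nat_lit 2168759073),Int.ofNat (nat_lit 158638821),Int.negSucc (nat_lit 550533370),Int.ofNat (nat_lit 205002598),Int.ofNat (nat_lit 212323112),Int.ofNat (nat_lit 511691037),Int.negSucc (nat_lit 772890374),Int.ofNat (nat_lit 1472227979),Int.ofNat (nat_lit 1131637),Int.negSucc (nat_lit 1310725126),Int.ofNat (nat_lit 150716267),Int.negSucc (nat_lit 445802903),Int.ofNat (nat_lit 8626582),Int.ofNat (nat_lit 30055656),Int.negSucc (nat_lit 439661546),Int.negSucc (nat_lit 62471130),Int.ofNat (nat_lit 87245708),Int.negSucc (nat_lit 288206166),Int.negSucc (nat_lit 486071907),Int.ofNat (nat_lit 237198156),Int.negSucc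 (nat_lit 327773121),Int.ofNat (nat_lit 159897685),Int.ofNat (nat_lit 28211200),Int.ofNat (nat_lit 557310497),Int.ofNat (nat_lit 56600569),Int.ofNat (nat_lit 308246119),Int.ofNat (nat_lit 6848087),Int.negSucc (nat_lit 287438578),Int.ofNat (nat_lit 41649500),Int.negSucc (nat_lit 1776548851),Int.negSucc (nat_lit 541479133),Int.ofNat (nat_lit 802149987),Int.negSucc (nat_lit 747445595),Int.ofNat (nat_lit 20840338),Int.negSucc (nat_lit 1041433394),Int.negSucc (nat_lit 2222456253),Int.negSucc (nat_lit 581497364),Int.ofNat (nat_lit 634072142),Int.negSucc (nat_lit 102214289),Int.negSucc (nat_lit 73485580),Int.ofNat (nat_lit 66551507),Int.ofNat (nat_lit 185981781),Int.negSucc (nat_lit 256420202),Int.ofNat (nat_lit 31762883),Int.negSucc (nat_lit 449026500),Int.negSucc (nat_lit 82071512),Int.ofNat (nat_lit 95603137),Int.ofNat (nat_lit 761758966),Int.negSucc (nat_lit 27689237),Int.negSucc (nat_lit 2212808),Int.ofNat (nat_lit 174580802),Int.ofNat (nat_lit 703896495)])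

/-- A row. -/
noncomputable def sr7_c1_57 : List ℕ × List ℤ :=
  ([(nat_lit 2),(nat_lit 0),(nat_lit 2),(nat_lit 0),(nat_lit 0),(nat_lit 0),(nat_lit 0),(nat_lit 0),(nat_lit 0),(nat_lit 0),(nat_lit 0),(nat_lit 0)], [Int.ofNat (nat_lit 1242681321),Int.negSucc (nat_lit 22634859),Int.ofNat (nat_lit 235972221),Int.ofNat (nat_lit 924126033),Int.ofNat (nat_lit 1223746308),Int.negSucc (nat_lit 1295050329),Int.negSucc (nat_lit 1378443539),Int.negSucc (nat_lit 1017001247),Int.negSucc (nat_lit 1852944663),Int.ofNat (nat_lit 509326241),Int.negSucc (nat_lit 397483148),Int.ofNat (nat_lit 39326744),Int.negSucc (nat_lit 1704389929),Int.negSucc (nat_lit 256601189),Int.negSucc (nat_lit 107825384),Int.ofNat (nat_lit 55023424),Int.negSucc (nat_lit 17469470),Int.negSucc (nat_lit 84947079),Int.negSucc (nat_lit 651332373),Int.negSucc (nat_lit 484208803),Int.ofNat (nat_lit 301539261),Int.negSucc (nat_lit 747871395),Int.negSucc (nat_lit 353145417),Int.ofNat (nat_lit 189120050),Int.negSucc (nat_lit 223654199),Int.ofNat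 (nat_lit 204703532),Int.negSucc (nat_lit 80948326),Int.ofNat (nat_lit 260501969),Int.ofNat (nat_lit 739528291),Int.negSucc (nat_lit 210015096),Int.negSucc (nat_lit 140790956),Int.negSucc (nat_lit 271330074),Int.ofNat (nat_lit 332656979),Int.ofNat (nat_lit 61245185),Int.negSucc (nat_lit 291780203),Int.negSucc (nat_lit 341017712),Int.ofNat (nat_lit 41269037),Int.negSucc (nat_lit 497335791),Int.ofNat (nat_lit 327665996),Int.ofNat (nat_lit 122647155),Int.ofNat (nat_lit 144002950),Int.negSucc (nat_lit 279067421),Int.ofNat (nat_lit 331535469),Int.negSucc (nat_lit 493716601),Int.ofNat (nat_lit 173454648),Int.ofNat (nat_lit 240840475),Int.negSucc (nat_lit 60527997),Int.negSucc (nat_lit 126162499),Int.ofNat (nat_lit 10061142),Int.negSucc (nat_lit 241053492),Int.ofNat (nat_lit 135017157),Int.negSucc (nat_lit 351011960),Int.negSucc (nat_lit 19088216),Int.negSucc (nat_lit 213290114),Int.negSucc (nat_lit 56620335),Int.negSucc (nat_lit 77547577),Int.negSucc (nat_lit 165708336),Int.ofNat (nat_lit 32643427),Int.negSucc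 (nat_lit 89439167),Int.ofNat (nat_lit 97937258),Int.ofNat (nat_lit 82907559),Int.ofNat (nat_lit 203408516),Int.ofNat (nat_lit 45816489),Int.negSucc (nat_lit 172681905),Int.negSucc (nat_lit 12669653),Int.negSucc (nat_lit 269888087),Int.ofNat (nat_lit 530667339),Int.ofNat (nat_lit 449223758),Int.ofNat (nat_lit 111937118),Int.negSucc (nat_lit 373743141),Int.negSucc (nat_lit 1078197033),Int.ofNat (nat_lit 1119107656),Int.negSucc (nat_lit 5379779),Int.negSucc (nat_lit 224628407),Int.ofNat (nat_lit 4674724),Int.ofNat (nat_lit 415640686),Int.ofNat (nat_lit 1020774385),Int.negSucc (nat_lit 117524904),Int.ofNat (nat_lit 492447082),Int.negSucc (nat_lit 62892730),Int.negSucc (nat_lit 295763656),Int.negSucc (nat_lit 1235597240),Int.ofNat (nat_lit 8760580),Int.ofNat (nat_lit 25096485),Int.negSucc (nat_lit 24138587),Int.ofNat (nat_lit 40148263),Int.negSucc (nat_lit 33656853),Int.ofNat (nat_lit 67223611),Int.negSucc (nat_lit 281543380),Int.negSucc (nat_lit 259956577),Int.negSucc (nat_lit 24227958),Int.ofNat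 (nat_lit 219163356),Int.ofNat (nat_lit 79274332),Int.ofNat (nat_lit 149268755),Int.ofNat (nat_lit 263863096),Int.ofNat (nat_lit 11367027),Int.ofNat (nat_lit 155840863),Int.ofNat (nat_lit 134106291),Int.negSucc (nat_lit 44424280),Int.negSucc (nat_lit 54738048),Int.ofNat (nat_lit 358325543),Int.negSucc (nat_lit 236286304),Int.negSucc (nat_lit 38572841),Int.negSucc (nat_lit 368746562),Int.ofNat (nat_lit 132490275),Int.negSucc (nat_lit 540346349),Int.negSucc (nat_lit 732584643),Int.ofNat (nat_lit 50426866),Int.negSucc (nat_lit 655167870),Int.ofNat (nat_lit 10507108),Int.ofNat (nat_lit 54607402),Int.negSucc (nat_lit 33281068),Int.ofNat (nat_lit 39981593),Int.negSucc (nat_lit 2245172),Int.negSucc (nat_lit 63710817),Int.negSucc (nat_lit 43670170),Int.ofNat (nat_lit 32694681),Int.ofNat (nat_lit 14798666),Int.negSucc (nat_lit 19051375),Int.negSucc (nat_lit 40383770),Int.ofNat (nat_lit 132045371),Int.ofNat (nat_lit 136188713),Int.ofNat (nat_lit 64226683),Int.ofNat (nat_lit 132813453)])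

/-- A row. -/
noncomputable def sr7_c1_58 : List ℕ × List ℤ :=
  ([(nat_lit 2),(nat_lit 1),(nat_lit 0),(nat_lit 0),(nat_lit 0),(nat_lit 1),(nat_lit 0),(nat_lit 0),(nat_lit 0),(nat_lit 0),(nat_lit 0),(nat_lit 0)], [Int.ofNat (nat_lit 1169006486),Int.ofNat (nat_lit 514158393),Int.negSucc (nat_lit 299141024),Int.negSucc (nat_lit 244877444),Int.ofNat (nat_lit 1218641823),Int.ofNat (nat_lit 1186235999),Int.negSucc (nat_lit 360673199),Int.negSucc (nat_lit 1933008568),Int.ofNat (nat_lit 1005325248),Int.negSucc (nat_lit 100737721),Int.ofNat (nat_lit 1273437630),Int.ofNat (nat_lit 351695323),Int.negSucc (nat_lit 645044568),Int.ofNat (nat_lit 1205535051),Int.negSucc (nat_lit 301322784),Int.negSucc (nat_lit 568587650),Int.negSucc (nat_lit 641091832),Int.negSucc (nat_lit 236108980),Int.ofNat (nat_lit 189933495),Int.negSucc (nat_lit 27662726),Int.ofNat (nat_lit 8604910),Int.negSucc (nat_lit 363154906),Int.negSucc (nat_lit 1562826476),Int.negSucc (nat_lit 2649076505),Int.negSucc (nat_lit 1234861481),Int.ofNat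 (nat_lit 305281775),Int.ofNat (nat_lit 354580845),Int.negSucc (nat_lit 788372080),Int.ofNat (nat_lit 74639828),Int.negSucc (nat_lit 443517377),Int.negSucc (nat_lit 433023552),Int.ofNat (nat_lit 449938829),Int.negSucc (nat_lit 36882795),Int.negSucc (nat_lit 677332193),Int.negSucc (nat_lit 879800931),Int.negSucc (nat_lit 713153457),Int.ofNat (nat_lit 1108664290),Int.negSucc (nat_lit 640414557),Int.negSucc (nat_lit 61136209),Int.negSucc (nat_lit 15420892),Int.ofNat (nat_lit 688549733),Int.negSucc (nat_lit 332043516),Int.negSucc (nat_lit 54462723),Int.negSucc (nat_lit 931085845),Int.ofNat (nat_lit 550582203),Int.negSucc (nat_lit 774037177),Int.ofNat (nat_lit 52477974),Int.ofNat (nat_lit 288698895),Int.ofNat (nat_lit 42583646),Int.ofNat (nat_lit 539660741),Int.ofNat (nat_lit 579118306),Int.negSucc (nat_lit 407134671),Int.negSucc (nat_lit 246091328),Int.ofNat (nat_lit 261897183),Int.ofNat (nat_lit 195085722),Int.negSucc (nat_lit 329104430),Int.negSucc (nat_lit 181462789),Int.ofNat (nat_lit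 38510909),Int.negSucc (nat_lit 613292100),Int.ofNat (nat_lit 213842457),Int.negSucc (nat_lit 216765584),Int.negSucc (nat_lit 427522546),Int.ofNat (nat_lit 316443380),Int.negSucc (nat_lit 921849897),Int.negSucc (nat_lit 101016182),Int.negSucc (nat_lit 202658149),Int.ofNat (nat_lit 464627528),Int.ofNat (nat_lit 339728477),Int.ofNat (nat_lit 1561512710),Int.ofNat (nat_lit 308199427),Int.ofNat (nat_lit 704447581),Int.negSucc (nat_lit 297510073),Int.negSucc (nat_lit 13402331),Int.negSucc (nat_lit 882771439),Int.ofNat (nat_lit 1027626749),Int.ofNat (nat_lit 315448962),Int.negSucc (nat_lit 256846601),Int.negSucc (nat_lit 659637558),Int.negSucc (nat_lit 406125444),Int.ofNat (nat_lit 375066694),Int.ofNat (nat_lit 99884304),Int.ofNat (nat_lit 485281704),Int.ofNat (nat_lit 423824283),Int.ofNat (nat_lit 954040889),Int.ofNat (nat_lit 3927789674),Int.negSucc (nat_lit 336492956),Int.ofNat (nat_lit 1510171970),Int.negSucc (nat_lit 1781767871),Int.ofNat (nat_lit 56479288),Int.negSucc (nat_lit 7091621),Int.ofNat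 (nat_lit 150426164),Int.ofNat (nat_lit 63685285),Int.negSucc (nat_lit 318164900),Int.negSucc (nat_lit 136540195),Int.negSucc (nat_lit 6251465),Int.ofNat (nat_lit 755922765),Int.negSucc (nat_lit 8154567),Int.negSucc (nat_lit 31207080),Int.ofNat (nat_lit 9348490),Int.ofNat (nat_lit 150482323),Int.negSucc (nat_lit 544875098),Int.negSucc (nat_lit 295402850),Int.negSucc (nat_lit 532280640),Int.ofNat (nat_lit 342736238),Int.negSucc (nat_lit 240282459),Int.negSucc (nat_lit 91522521),Int.ofNat (nat_lit 37782562),Int.ofNat (nat_lit 190104572),Int.ofNat (nat_lit 366938088),Int.negSucc (nat_lit 497718667),Int.negSucc (nat_lit 1444755183),Int.ofNat (nat_lit 64748772),Int.ofNat (nat_lit 38719585),Int.ofNat (nat_lit 34738521),Int.negSucc (nat_lit 59313476),Int.ofNat (nat_lit 77931674),Int.negSucc (nat_lit 8863862),Int.negSucc (nat_lit 15294975),Int.ofNat (nat_lit 114729992),Int.ofNat (nat_lit 108438824),Int.negSucc (nat_lit 89811446),Int.negSucc (nat_lit 14096913),Int.ofNat (nat_lit 20849229),Int.negSucc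 (nat_lit 76856878),Int.ofNat (nat_lit 277676216)])

/-- A row. -/
noncomputable def sr7_c1_59 : List ℕ × List ℤ :=
  ([(nat_lit 2),(nat_lit 1),(nat_lit 0),(nat_lit 1),(nat_lit 0),(nat_lit 0),(nat_lit 0),(nat_lit 0),(nat_lit 0),(nat_lit 0),(nat_lit 0),(nat_lit 0)], [Int.ofNat (nat_lit 2930956280),Int.ofNat (nat_lit 3791810512),Int.negSucc (nat_lit 1924833117),Int.ofNat (nat_lit 1072803930),Int.ofNat (nat_lit 1079973330),Int.negSucc (nat_lit 3177489183),Int.ofNat (nat_lit 1229999294),Int.negSucc (nat_lit 3826373817),Int.negSucc (nat_lit 634355328),Int.negSucc (nat_lit 128911653),Int.negSucc (nat_lit 352983751),Int.ofNat (nat_lit 662061961),Int.ofNat (nat_lit 1269904228),Int.negSucc (nat_lit 1281116902),Int.negSucc (nat_lit 1291835258),Int.negSucc (nat_lit 449820683),Int.ofNat (nat_lit 242303078),Int.ofNat (nat_lit 947859760),Int.negSucc (nat_lit 2804056424),Int.ofNat (nat_lit 1409357480),Int.negSucc (nat_lit 467939445),Int.ofNat (nat_lit 1284804395),Int.negSucc (nat_lit 315822939),Int.negSucc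 (nat_lit 85964076),Int.negSucc (nat_lit 976040511),Int.negSucc (nat_lit 549221889),Int.ofNat (nat_lit 199135545),Int.negSucc (nat_lit 390793469),Int.negSucc (nat_lit 635289841),Int.ofNat (nat_lit 890325796),Int.ofNat (nat_lit 261651071),Int.ofNat (nat_lit 1119486660),Int.ofNat (nat_lit 250442257),Int.negSucc (nat_lit 216671372),Int.ofNat (nat_lit 394447619),Int.ofNat (nat_lit 319159878),Int.negSucc (nat_lit 964107480),Int.negSucc (nat_lit 83771936),Int.ofNat (nat_lit 3319340913),Int.negSucc (nat_lit 1634449565),Int.ofNat (nat_lit 150066035),Int.ofNat (nat_lit 1443887784),Int.ofNat (nat_lit 1381540914),Int.negSucc (nat_lit 1081778387),Int.ofNat (nat_lit 158775029),Int.ofNat (nat_lit 1463170413),Int.ofNat (nat_lit 1683667357),Int.ofNat (nat_lit 563472043),Int.ofNat (nat_lit 278899689),Int.ofNat (nat_lit 424904848),Int.negSucc (nat_lit 763844102),Int.ofNat (nat_lit 165248175),Int.negSucc (nat_lit 722089763),Int.negSucc (nat_lit 1585347720),Int.ofNat (nat_lit 236880782),Int.negSucc (nat_lit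 15793493),Int.ofNat (nat_lit 214582914),Int.negSucc (nat_lit 887523608),Int.negSucc (nat_lit 640269101),Int.ofNat (nat_lit 89221536),Int.ofNat (nat_lit 2158145021),Int.negSucc (nat_lit 1669075642),Int.ofNat (nat_lit 749305812),Int.negSucc (nat_lit 1194194416),Int.negSucc (nat_lit 758845096),Int.ofNat (nat_lit 95458110),Int.negSucc (nat_lit 224818134),Int.ofNat (nat_lit 942917361),Int.ofNat (nat_lit 417856477),Int.ofNat (nat_lit 415142098),Int.ofNat (nat_lit 12409575),Int.negSucc (nat_lit 149116455),Int.negSucc (nat_lit 94336829),Int.ofNat (nat_lit 306841469),Int.negSucc (nat_lit 1818455093),Int.ofNat (nat_lit 1122176813),Int.negSucc (nat_lit 450555456),Int.ofNat (nat_lit 517119212),Int.negSucc (nat_lit 89124822),Int.negSucc (nat_lit 107460379),Int.negSucc (nat_lit 468907103),Int.ofNat (nat_lit 792207235),Int.negSucc (nat_lit 951953128),Int.negSucc (nat_lit 1168278998),Int.ofNat (nat_lit 585444532),Int.ofNat (nat_lit 2725102923),Int.ofNat (nat_lit 708527830),Int.ofNat (nat_lit 542619796),Int.negSucc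 (nat_lit 3694664958),Int.negSucc (nat_lit 115785921),Int.negSucc (nat_lit 493186422),Int.ofNat (nat_lit 379566576),Int.ofNat (nat_lit 1480263469),Int.negSucc (nat_lit 299590914),Int.negSucc (nat_lit 756180046),Int.ofNat (nat_lit 223130317),Int.negSucc (nat_lit 766290606),Int.negSucc (nat_lit 1006136851),Int.ofNat (nat_lit 659098041),Int.negSucc (nat_lit 643149),Int.negSucc (nat_lit 1434189684),Int.negSucc (nat_lit 465386045),Int.negSucc (nat_lit 268267669),Int.negSucc (nat_lit 250997055),Int.ofNat (nat_lit 2546821563),Int.ofNat (nat_lit 2433030188),Int.ofNat (nat_lit 1304970763),Int.negSucc (nat_lit 489931536),Int.ofNat (nat_lit 513226812),Int.ofNat (nat_lit 1671821306),Int.negSucc (nat_lit 941718642),Int.negSucc (nat_lit 6728044535),Int.ofNat (nat_lit 814514831),Int.negSucc (nat_lit 278353349),Int.ofNat (nat_lit 74441650),Int.negSucc (nat_lit 118478018),Int.negSucc (nat_lit 444955713),Int.ofNat (nat_lit 119253251),Int.negSucc (nat_lit 513255333),Int.negSucc (nat_lit 258707121),Int.ofNat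 (nat_lit 244349223),Int.negSucc (nat_lit 790361658),Int.negSucc (nat_lit 354248125),Int.negSucc (nat_lit 317130365),Int.negSucc (nat_lit 4434192),Int.ofNat (nat_lit 1149343409)])

/-- A row. -/
noncomputable def sr7_c1_60 : List ℕ × List ℤ :=
  ([(nat_lit 2),(nat_lit 2),(nat_lit 0),(nat_lit 0),(nat_lit 0),(nat_lit 0),(nat_lit 0),(nat_lit 0),(nat_lit 0),(nat_lit 0),(nat_lit 0),(nat_lit 0)], [Int.ofNat (nat_lit 1522911544),Int.negSucc (nat_lit 2633997241),Int.negSucc (nat_lit 309470868),Int.negSucc (nat_lit 1280084857),Int.ofNat (nat_lit 201741713),Int.ofNat (nat_lit 3390823304),Int.ofNat (nat_lit 2320930436),Int.ofNat (nat_lit 6905532858),Int.ofNat (nat_lit 4919722208),Int.ofNat (nat_lit 381943578),Int.negSucc (nat_lit 1369033765),Int.ofNat (nat_lit 420392095),Int.ofNat (nat_lit 1476206015),Int.negSucc (nat_lit 2043769272),Int.ofNat (nat_lit 2202292565),Int.ofNat (nat_lit 1821897166),Int.negSucc (nat_lit 1185764904),Int.ofNat (nat_lit 413857869),Int.ofNat (nat_lit 45029390),Int.ofNat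 (nat_lit 27647175),Int.ofNat (nat_lit 2431090857),Int.negSucc (nat_lit 357800833),Int.ofNat (nat_lit 62953954),Int.ofNat (nat_lit 2151608973),Int.negSucc (nat_lit 1728006525),Int.ofNat (nat_lit 474036331),Int.negSucc (nat_lit 2581517051),Int.negSucc (nat_lit 2411223212),Int.ofNat (nat_lit 2060500986),Int.negSucc (nat_lit 392070914),Int.ofNat (nat_lit 1976595426),Int.negSucc (nat_lit 713520451),Int.negSucc (nat_lit 1678135170),Int.negSucc (nat_lit 1298437197),Int.negSucc (nat_lit 564353367),Int.negSucc (nat_lit 764198032),Int.ofNat (nat_lit 492261132),Int.ofNat (nat_lit 440360519),Int.negSucc (nat_lit 2132328340),Int.ofNat (nat_lit 2190455757),Int.ofNat (nat_lit 507703784),Int.negSucc (nat_lit 28206024),Int.ofNat (nat_lit 689071299),Int.ofNat (nat_lit 400599929),Int.negSucc (nat_lit 474133199),Int.ofNat (nat_lit 44850749),Int.negSucc (nat_lit 393136746),Int.negSucc (nat_lit 994389978),Int.negSucc (nat_lit 3722512174),Int.ofNat (nat_lit 2584295560),Int.ofNat (nat_lit 326433704),Int.negSucc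 (nat_lit 10559260),Int.ofNat (nat_lit 1781367643),Int.ofNat (nat_lit 2572194767),Int.ofNat (nat_lit 238302360),Int.negSucc (nat_lit 1816460558),Int.negSucc (nat_lit 96087938),Int.negSucc (nat_lit 1613153231),Int.negSucc (nat_lit 430783829),Int.ofNat (nat_lit 1128187956),Int.negSucc (nat_lit 1200917647),Int.negSucc (nat_lit 1167748664),Int.ofNat (nat_lit 334498904),Int.ofNat (nat_lit 275320901),Int.negSucc (nat_lit 409516152),Int.ofNat (nat_lit 1088142602),Int.negSucc (nat_lit 3071784517),Int.negSucc (nat_lit 1373773496),Int.negSucc (nat_lit 1262220188),Int.ofNat (nat_lit 76708381),Int.ofNat (nat_lit 2364382990),Int.negSucc (nat_lit 2388858108),Int.ofNat (nat_lit 220622723),Int.ofNat (nat_lit 1099381055),Int.ofNat (nat_lit 1981041743),Int.negSucc (nat_lit 2757626623),Int.ofNat (nat_lit 3407677614),Int.negSucc (nat_lit 2136277647),Int.negSucc (nat_lit 129946431),Int.ofNat (nat_lit 2211040273),Int.negSucc (nat_lit 1781939920),Int.ofNat (nat_lit 259538276),Int.ofNat (nat_lit 3745809247),Int.ofNat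 (nat_lit 1311891988),Int.negSucc (nat_lit 2083252659),Int.ofNat (nat_lit 2440587154),Int.ofNat (nat_lit 1268529839),Int.negSucc (nat_lit 2364178991),Int.ofNat (nat_lit 3711307782),Int.ofNat (nat_lit 2713750015),Int.negSucc (nat_lit 2238928844),Int.ofNat (nat_lit 3737562422),Int.ofNat (nat_lit 895840209),Int.negSucc (nat_lit 3825570989),Int.negSucc (nat_lit 107240152),Int.ofNat (nat_lit 83223441),Int.ofNat (nat_lit 1209350046),Int.ofNat (nat_lit 1498520364),Int.ofNat (nat_lit 1927243509),Int.negSucc (nat_lit 3557443353),Int.ofNat (nat_lit 6524328071),Int.negSucc (nat_lit 822949051),Int.negSucc (nat_lit 2648635269),Int.ofNat (nat_lit 3393023949),Int.negSucc (nat_lit 2612199094),Int.negSucc (nat_lit 2578413241),Int.negSucc (nat_lit 3589054495),Int.ofNat (nat_lit 1160605966),Int.negSucc (nat_lit 1691234485),Int.negSucc (nat_lit 2215410268),Int.ofNat (nat_lit 2014626046),Int.ofNat (nat_lit 3964293559),Int.negSucc (nat_lit 1754511772),Int.negSucc (nat_lit 8388464358),Int.negSucc (nat_lit 1960790584),Int.ofNat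 (nat_lit 1691347465),Int.ofNat (nat_lit 164631737),Int.negSucc (nat_lit 18264829),Int.negSucc (nat_lit 1239762069),Int.ofNat (nat_lit 858175437),Int.negSucc (nat_lit 1174082067),Int.ofNat (nat_lit 1093449402),Int.ofNat (nat_lit 2190600929),Int.ofNat (nat_lit 683887628),Int.negSucc (nat_lit 629218166),Int.negSucc (nat_lit 144046802),Int.ofNat (nat_lit 3196951635)])

/-- A row. -/
noncomputable def sr7_c1_61 : List ℕ × List ℤ :=
  ([(nat_lit 2),(nat_lit 2),(nat_lit 1),(nat_lit 0),(nat_lit 0),(nat_lit 0),(nat_lit 0),(nat_lit 0),(nat_lit 0),(nat_lit 0),(nat_lit 0),(nat_lit 0)], [Int.ofNat (nat_lit 1389802738),Int.ofNat (nat_lit 823075137),Int.negSucc (nat_lit 1700865028),Int.negSucc (nat_lit 2486214663),Int.ofNat (nat_lit 715963774),Int.ofNat (nat_lit 2813279437),Int.ofNat (nat_lit 4342223462),Int.ofNat (nat_lit 5390470174),Int.ofNat (nat_lit 6044132582),Int.negSucc (nat_lit 2453603614),Int.ofNat (nat_lit 49264568),Int.negSucc (nat_lit 411088962),Int.ofNat (nat_lit 1921616775),Int.negSucc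 (nat_lit 1110850153),Int.ofNat (nat_lit 952124617),Int.negSucc (nat_lit 570049082),Int.ofNat (nat_lit 158592756),Int.negSucc (nat_lit 429975638),Int.ofNat (nat_lit 2390586886),Int.ofNat (nat_lit 80311315),Int.ofNat (nat_lit 1233753261),Int.ofNat (nat_lit 1143707923),Int.ofNat (nat_lit 1221404157),Int.negSucc (nat_lit 191711362),Int.ofNat (nat_lit 151560067),Int.negSucc (nat_lit 1830631285),Int.ofNat (nat_lit 423720658),Int.negSucc (nat_lit 1942017563),Int.negSucc (nat_lit 3083859447),Int.ofNat (nat_lit 1948192821),Int.ofNat (nat_lit 890816229),Int.ofNat (nat_lit 268781150),Int.negSucc (nat_lit 1798592847),Int.negSucc (nat_lit 698802479),Int.ofNat (nat_lit 1027067813),Int.ofNat (nat_lit 291110274),Int.negSucc (nat_lit 1296449761),Int.negSucc (nat_lit 499977880),Int.ofNat (nat_lit 786502007),Int.ofNat (nat_lit 844527370),Int.ofNat (nat_lit 1113480862),Int.negSucc (nat_lit 45797591),Int.ofNat (nat_lit 155853982),Int.ofNat (nat_lit 1767546367),Int.negSucc (nat_lit 474415146),Int.negSucc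 (nat_lit 1172814977),Int.negSucc (nat_lit 35755304),Int.ofNat (nat_lit 547474512),Int.negSucc (nat_lit 1761787357),Int.ofNat (nat_lit 1521356459),Int.negSucc (nat_lit 450277791),Int.ofNat (nat_lit 681573366),Int.ofNat (nat_lit 844620637),Int.ofNat (nat_lit 846853026),Int.ofNat (nat_lit 640671396),Int.negSucc (nat_lit 171661278),Int.ofNat (nat_lit 309051471),Int.ofNat (nat_lit 323342027),Int.ofNat (nat_lit 439714326),Int.ofNat (nat_lit 678189526),Int.negSucc (nat_lit 1007164568),Int.negSucc (nat_lit 975747821),Int.ofNat (nat_lit 673678533),Int.negSucc (nat_lit 688353559),Int.ofNat (nat_lit 139562126),Int.ofNat (nat_lit 877862441),Int.negSucc (nat_lit 1739775240),Int.ofNat (nat_lit 178262672),Int.ofNat (nat_lit 481805927),Int.ofNat (nat_lit 682731886),Int.ofNat (nat_lit 513084396),Int.negSucc (nat_lit 2610789150),Int.ofNat (nat_lit 519658567),Int.ofNat (nat_lit 1590692080),Int.negSucc (nat_lit 338549669),Int.ofNat (nat_lit 400067165),Int.negSucc (nat_lit 204310056),Int.negSucc (nat_lit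 502052288),Int.negSucc (nat_lit 1017912855),Int.negSucc (nat_lit 696143678),Int.ofNat (nat_lit 1235186712),Int.negSucc (nat_lit 2456724558),Int.ofNat (nat_lit 131636231),Int.negSucc (nat_lit 1615803165),Int.negSucc (nat_lit 128837111),Int.ofNat (nat_lit 1956050430),Int.ofNat (nat_lit 1187735721),Int.negSucc (nat_lit 87145933),Int.ofNat (nat_lit 2353059002),Int.ofNat (nat_lit 682017036),Int.negSucc (nat_lit 1054314544),Int.ofNat (nat_lit 2258971334),Int.ofNat (nat_lit 248741096),Int.negSucc (nat_lit 1078958026),Int.negSucc (nat_lit 4909630972),Int.negSucc (nat_lit 144329269),Int.negSucc (nat_lit 291473339),Int.negSucc (nat_lit 227481141),Int.ofNat (nat_lit 1608751850),Int.negSucc (nat_lit 806028418),Int.ofNat (nat_lit 1358843922),Int.ofNat (nat_lit 229621904),Int.negSucc (nat_lit 1296073184),Int.ofNat (nat_lit 24339939),Int.ofNat (nat_lit 298563349),Int.negSucc (nat_lit 308298165),Int.ofNat (nat_lit 754522759),Int.ofNat (nat_lit 1165259057),Int.negSucc (nat_lit 2472339683),Int.ofNat (nat_lit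 226931570),Int.ofNat (nat_lit 1010568276),Int.negSucc (nat_lit 1757613356),Int.negSucc (nat_lit 1283662624),Int.negSucc (nat_lit 3013082770),Int.negSucc (nat_lit 653941893),Int.negSucc (nat_lit 4694971505),Int.ofNat (nat_lit 112190712),Int.ofNat (nat_lit 66718754),Int.negSucc (nat_lit 110287589),Int.ofNat (nat_lit 237275770),Int.ofNat (nat_lit 284394933),Int.ofNat (nat_lit 31424440),Int.ofNat (nat_lit 176995691),Int.ofNat (nat_lit 490113339),Int.negSucc (nat_lit 246595840),Int.ofNat (nat_lit 411081501),Int.ofNat (nat_lit 226508089),Int.ofNat (nat_lit 1084130860)])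

/-- A row. -/
noncomputable def sr7_c1_62 : List ℕ × List ℤ :=
  ([(nat_lit 2),(nat_lit 4),(nat_lit 0),(nat_lit 0),(nat_lit 0),(nat_lit 0),(nat_lit 0),(nat_lit 0),(nat_lit 0),(nat_lit 0),(nat_lit 0),(nat_lit 0)], [Int.ofNat (nat_lit 1601548674),Int.ofNat (nat_lit 5417483333),Int.negSucc (nat_lit 2088180881),Int.ofNat (nat_lit 550562232),Int.ofNat (nat_lit 2207937778),Int.negSucc (nat_lit 1032071846),Int.ofNat (nat_lit 757259758),Int.negSucc (nat_lit 6182634340),Int.negSucc (nat_lit 3787108899),Int.negSucc (nat_lit 3027569685),Int.negSucc (nat_lit 8624778),Int.negSucc (nat_lit 1604788315),Int.negSucc (nat_lit 985237362),Int.ofNat (nat_lit 1338383915),Int.negSucc (nat_lit 3459865830),Int.negSucc (nat_lit 1513105767),Int.ofNat (nat_lit 1258954031),Int.negSucc (nat_lit 402281391),Int.negSucc (nat_lit 1683337168),Int.negSucc (nat_lit 1638275971),Int.negSucc (nat_lit 1865063406),Int.ofNat (nat_lit 147340096),Int.ofNat (nat_lit 906082302),Int.negSucc (nat_lit 1200807009),Int.ofNat (nat_lit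 493677115),Int.negSucc (nat_lit 1121601519),Int.ofNat (nat_lit 1386454668),Int.ofNat (nat_lit 3049141514),Int.negSucc (nat_lit 4103880329),Int.ofNat (nat_lit 54963945),Int.negSucc (nat_lit 917975095),Int.negSucc (nat_lit 114319673),Int.ofNat (nat_lit 2808650295),Int.ofNat (nat_lit 1244913471),Int.negSucc (nat_lit 797334747),Int.ofNat (nat_lit 646749119),Int.negSucc (nat_lit 529110653),Int.negSucc (nat_lit 916943001),Int.ofNat (nat_lit 1080601860),Int.negSucc (nat_lit 1669598151),Int.negSucc (nat_lit 1376905492),Int.ofNat (nat_lit 171157293),Int.ofNat (nat_lit 803067925),Int.negSucc (nat_lit 85005429),Int.ofNat (nat_lit 712404390),Int.ofNat (nat_lit 100658914),Int.ofNat (nat_lit 3896516627),Int.ofNat (nat_lit 38279516),Int.ofNat (nat_lit 6223442002),Int.negSucc (nat_lit 3163078511),Int.ofNat (nat_lit 297213652),Int.ofNat (nat_lit 883752813),Int.negSucc (nat_lit 958333524),Int.negSucc (nat_lit 1141617746),Int.negSucc (nat_lit 651342084),Int.ofNat (nat_lit 1259393441),Int.ofNat (nat_lit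 1091638274),Int.ofNat (nat_lit 593201204),Int.ofNat (nat_lit 608521611),Int.negSucc (nat_lit 1013926405),Int.ofNat (nat_lit 1907289292),Int.ofNat (nat_lit 2116265536),Int.negSucc (nat_lit 1331993768),Int.negSucc (nat_lit 169245622),Int.ofNat (nat_lit 286786976),Int.negSucc (nat_lit 1363152806),Int.ofNat (nat_lit 864404999),Int.ofNat (nat_lit 425863476),Int.ofNat (nat_lit 3684763696),Int.ofNat (nat_lit 584853784),Int.negSucc (nat_lit 2511719572),Int.ofNat (nat_lit 1764112591),Int.ofNat (nat_lit 121413675),Int.negSucc (nat_lit 10051577),Int.negSucc (nat_lit 1566964680),Int.ofNat (nat_lit 982000424),Int.negSucc (nat_lit 1261384850),Int.ofNat (nat_lit 2181545301),Int.negSucc (nat_lit 91791401),Int.negSucc (nat_lit 1242508449),Int.ofNat (nat_lit 1418084326),Int.negSucc (nat_lit 1576078759),Int.negSucc (nat_lit 3513328379),Int.negSucc (nat_lit 521806360),Int.ofNat (nat_lit 880598841),Int.negSucc (nat_lit 3763913988),Int.negSucc (nat_lit 947702135),Int.ofNat (nat_lit 2985553552),Int.ofNat (nat_lit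 370370961),Int.negSucc (nat_lit 3753793395),Int.ofNat (nat_lit 2194306489),Int.negSucc (nat_lit 1627815613),Int.negSucc (nat_lit 729194404),Int.ofNat (nat_lit 5074713879),Int.negSucc (nat_lit 2294827835),Int.negSucc (nat_lit 627094152),Int.ofNat (nat_lit 1772737313),Int.negSucc (nat_lit 3556453889),Int.negSucc (nat_lit 3236212258),Int.ofNat (nat_lit 2241587955),Int.negSucc (nat_lit 2178126286),Int.ofNat (nat_lit 1139772855),Int.ofNat (nat_lit 1383484051),Int.negSucc (nat_lit 1723981039),Int.ofNat (nat_lit 1697516768),Int.ofNat (nat_lit 4098994217),Int.ofNat (nat_lit 2039464264),Int.negSucc (nat_lit 130997751),Int.ofNat (nat_lit 340266307),Int.ofNat (nat_lit 1417686896),Int.negSucc (nat_lit 375487650),Int.negSucc (nat_lit 1019632138),Int.ofNat (nat_lit 39633289),Int.ofNat (nat_lit 7286720102),Int.ofNat (nat_lit 1150326448),Int.negSucc (nat_lit 4606258561),Int.negSucc (nat_lit 2038249674),Int.negSucc (nat_lit 6671165183),Int.negSucc (nat_lit 104875425),Int.negSucc (nat_lit 149648290),Int.ofNat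 (nat_lit 82489731),Int.negSucc (nat_lit 1630237985),Int.ofNat (nat_lit 285891318),Int.ofNat (nat_lit 300872597),Int.negSucc (nat_lit 94562855),Int.negSucc (nat_lit 49361661),Int.negSucc (nat_lit 314294839),Int.ofNat (nat_lit 762754404),Int.ofNat (nat_lit 2819382596)])

/-- A row. -/
noncomputable def sr7_c1_63 : List ℕ × List ℤ :=
  ([(nat_lit 3),(nat_lit 0),(nat_lit 0),(nat_lit 0),(nat_lit 0),(nat_lit 0),(nat_lit 0),(nat_lit 0),(nat_lit 0),(nat_lit 0),(nat_lit 0),(nat_lit 0)], [Int.negSucc (nat_lit 7443600198),Int.negSucc (nat_lit 274591153),Int.ofNat (nat_lit 973337176),Int.ofNat (nat_lit 67878701),Int.ofNat (nat_lit 719521669),Int.ofNat (nat_lit 127628076),Int.ofNat (nat_lit 127017639),Int.negSucc (nat_lit 3985101534),Int.negSucc (nat_lit 1952286113),Int.negSucc (nat_lit 206693831),Int.ofNat (nat_lit 391977284),Int.ofNat (nat_lit 1379452756),Int.negSucc (nat_lit 335755620),Int.ofNat (nat_lit 328240518),Int.negSucc (nat_lit 2393999291),Int.negSucc (nat_lit 268921144),Int.negSucc (nat_lit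 402716538),Int.ofNat (nat_lit 1360978292),Int.negSucc (nat_lit 1630018130),Int.negSucc (nat_lit 1797460711),Int.negSucc (nat_lit 300309517),Int.negSucc (nat_lit 310936735),Int.negSucc (nat_lit 1140589437),Int.negSucc (nat_lit 908711559),Int.ofNat (nat_lit 61786273),Int.negSucc (nat_lit 793634860),Int.ofNat (nat_lit 1071249935),Int.ofNat (nat_lit 1017398083),Int.negSucc (nat_lit 290347831),Int.ofNat (nat_lit 373732700),Int.ofNat (nat_lit 383162868),Int.negSucc (nat_lit 919151872),Int.ofNat (nat_lit 1925738857),Int.ofNat (nat_lit 42721606),Int.negSucc (nat_lit 969464381),Int.negSucc (nat_lit 661083949),Int.negSucc (nat_lit 41526674),Int.ofNat (nat_lit 393783454),Int.negSucc (nat_lit 592631595),Int.negSucc (nat_lit 952437715),Int.negSucc (nat_lit 819779077),Int.negSucc (nat_lit 44157428),Int.ofNat (nat_lit 838738632),Int.negSucc (nat_lit 386118870),Int.ofNat (nat_lit 552380962),Int.ofNat (nat_lit 415250934),Int.ofNat (nat_lit 43208450),Int.negSucc (nat_lit 255438287),Int.ofNat (nat_lit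 146444355),Int.negSucc (nat_lit 720303750),Int.ofNat (nat_lit 22585151),Int.ofNat (nat_lit 407411340),Int.negSucc (nat_lit 945337960),Int.negSucc (nat_lit 321905764),Int.negSucc (nat_lit 648234957),Int.ofNat (nat_lit 139271726),Int.ofNat (nat_lit 17196687),Int.negSucc (nat_lit 812314097),Int.negSucc (nat_lit 74099014),Int.negSucc (nat_lit 657998694),Int.negSucc (nat_lit 165237370),Int.ofNat (nat_lit 109064704),Int.negSucc (nat_lit 91647894),Int.negSucc (nat_lit 408430178),Int.negSucc (nat_lit 253569225),Int.negSucc (nat_lit 1006761112),Int.ofNat (nat_lit 2762571197),Int.negSucc (nat_lit 53641775),Int.ofNat (nat_lit 1873049629),Int.negSucc (nat_lit 38450427),Int.ofNat (nat_lit 1119281842),Int.ofNat (nat_lit 2085713005),Int.ofNat (nat_lit 568624010),Int.negSucc (nat_lit 493275030),Int.negSucc (nat_lit 380836588),Int.ofNat (nat_lit 1942240052),Int.ofNat (nat_lit 3141383722),Int.negSucc (nat_lit 138763629),Int.ofNat (nat_lit 572275590),Int.ofNat (nat_lit 482094181),Int.negSucc (nat_lit 770093353),Int.ofNat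 (nat_lit 338333982),Int.ofNat (nat_lit 384334816),Int.ofNat (nat_lit 110913177),Int.negSucc (nat_lit 82463800),Int.ofNat (nat_lit 420524487),Int.ofNat (nat_lit 672386299),Int.ofNat (nat_lit 209753591),Int.ofNat (nat_lit 180781710),Int.ofNat (nat_lit 46948582),Int.ofNat (nat_lit 178667755),Int.ofNat (nat_lit 73338294),Int.ofNat (nat_lit 152745706),Int.ofNat (nat_lit 1858740424),Int.negSucc (nat_lit 712512263),Int.negSucc (nat_lit 357495054),Int.ofNat (nat_lit 61488224),Int.negSucc (nat_lit 172098053),Int.ofNat (nat_lit 509139374),Int.negSucc (nat_lit 436064015),Int.ofNat (nat_lit 4236154425),Int.negSucc (nat_lit 761864317),Int.negSucc (nat_lit 1328821955),Int.ofNat (nat_lit 1887810992),Int.ofNat (nat_lit 1019071411),Int.ofNat (nat_lit 727388057),Int.negSucc (nat_lit 2192348119),Int.ofNat (nat_lit 857610291),Int.negSucc (nat_lit 189949145),Int.ofNat (nat_lit 74611162),Int.ofNat (nat_lit 845786555),Int.negSucc (nat_lit 309272842),Int.negSucc (nat_lit 779492952),Int.ofNat (nat_lit 1353112995),Int.negSucc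 (nat_lit 82997406),Int.ofNat (nat_lit 690710430),Int.ofNat (nat_lit 390729277),Int.ofNat (nat_lit 176148696),Int.negSucc (nat_lit 3354118099),Int.ofNat (nat_lit 245940705),Int.negSucc (nat_lit 328524144),Int.negSucc (nat_lit 212637251),Int.ofNat (nat_lit 101465773),Int.ofNat (nat_lit 41484199),Int.negSucc (nat_lit 118910998),Int.ofNat (nat_lit 44009983),Int.negSucc (nat_lit 144667694),Int.negSucc (nat_lit 217973435),Int.negSucc (nat_lit 3469980),Int.ofNat (nat_lit 597312949)])

/-- A row. -/
noncomputable def sr7_c1_64 : List ℕ × List ℤ :=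
  ([(nat_lit 3),(nat_lit 0),(nat_lit 0),(nat_lit 0),(nat_lit 1),(nat_lit 0),(nat_lit 0),(nat_lit 0),(nat_lit 0),(nat_lit 0),(nat_lit 0),(nat_lit 0)], [Int.ofNat (nat_lit 1455243779),Int.ofNat (nat_lit 315428335),Int.negSucc (nat_lit 966937933),Int.negSucc (nat_lit 147238390),Int.negSucc (nat_lit 851876639),Int.ofNat (nat_lit 777346617),Int.negSucc (nat_lit 328952622),Int.ofNat (nat_lit 3786099275),Int.ofNat (nat_lit 10981741),Int.negSucc (nat_lit 294954592),Int.ofNat (nat_lit 1511531877),Int.negSucc (nat_lit 796242658),Int.negSucc (nat_lit 743232075),Int.negSucc (nat_lit 580296682),Int.ofNat (nat_lit 1374717295),Int.negSucc (nat_lit 196696111),Int.ofNat (nat_lit 893106571),Int.negSucc (nat_lit 1935432563),Int.ofNat (nat_lit 630560517),Int.negSucc (nat_lit 617732633),Int.negSucc (nat_lit 176700643),Int.ofNat (nat_lit 633032894),Int.ofNat (nat_lit 138360574),Int.negSucc (nat_lit 1369815760),Int.negSucc (nat_lit 361712507),Int.ofNat (nat_lit 1306807035),Int.ofNat (nat_lit 450071340),Int.ofNat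 (nat_lit 216420872),Int.negSucc (nat_lit 533040101),Int.negSucc (nat_lit 756176474),Int.ofNat (nat_lit 215061862),Int.ofNat (nat_lit 145811072),Int.negSucc (nat_lit 867517544),Int.ofNat (nat_lit 960394421),Int.ofNat (nat_lit 1098773338),Int.ofNat (nat_lit 262094303),Int.negSucc (nat_lit 72169423),Int.negSucc (nat_lit 81969831),Int.ofNat (nat_lit 8108372),Int.ofNat (nat_lit 1033382698),Int.negSucc (nat_lit 242856180),Int.negSucc (nat_lit 760446950),Int.negSucc (nat_lit 215638178),Int.negSucc (nat_lit 164236829),Int.negSucc (nat_lit 91131481),Int.negSucc (nat_lit 249011674),Int.negSucc (nat_lit 65062001),Int.ofNat (nat_lit 84542356),Int.negSucc (nat_lit 146094188),Int.ofNat (nat_lit 401443392),Int.ofNat (nat_lit 189327935),Int.negSucc (nat_lit 96314417),Int.ofNat (nat_lit 231059789),Int.ofNat (nat_lit 232479519),Int.ofNat (nat_lit 176891517),Int.negSucc (nat_lit 2865201),Int.negSucc (nat_lit 297116724),Int.ofNat (nat_lit 577861646),Int.ofNat (nat_lit 69811054),Int.ofNat (nat_lit 859236532),Int.negSucc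 (nat_lit 387668905),Int.ofNat (nat_lit 39886088),Int.ofNat (nat_lit 137229991),Int.negSucc (nat_lit 30425780),Int.ofNat (nat_lit 121116193),Int.ofNat (nat_lit 236729225),Int.negSucc (nat_lit 394064359),Int.ofNat (nat_lit 838490710),Int.ofNat (nat_lit 433736645),Int.negSucc (nat_lit 1299627883),Int.ofNat (nat_lit 60611684),Int.negSucc (nat_lit 783374824),Int.ofNat (nat_lit 176593318),Int.negSucc (nat_lit 571356735),Int.ofNat (nat_lit 239567962),Int.negSucc (nat_lit 253060110),Int.negSucc (nat_lit 985241621),Int.negSucc (nat_lit 940478017),Int.ofNat (nat_lit 1783355788),Int.negSucc (nat_lit 573436728),Int.negSucc (nat_lit 86692437),Int.negSucc (nat_lit 86588690),Int.negSucc (nat_lit 329951024),Int.negSucc (nat_lit 28901964),Int.ofNat (nat_lit 38989933),Int.negSucc (nat_lit 126942389),Int.negSucc (nat_lit 26080201),Int.negSucc (nat_lit 347604290),Int.ofNat (nat_lit 264631398),Int.ofNat (nat_lit 334189226),Int.ofNat (nat_lit 125507863),Int.negSucc (nat_lit 700506131),Int.ofNat (nat_lit 167353514),Int.negSucc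 (nat_lit 45058842),Int.negSucc (nat_lit 43837206),Int.negSucc (nat_lit 9572443),Int.ofNat (nat_lit 14599406),Int.negSucc (nat_lit 90695702),Int.negSucc (nat_lit 2912290),Int.ofNat (nat_lit 90915161),Int.negSucc (nat_lit 798401786),Int.negSucc (nat_lit 383996218),Int.ofNat (nat_lit 326885541),Int.ofNat (nat_lit 1243112716),Int.negSucc (nat_lit 138856705),Int.negSucc (nat_lit 208763324),Int.ofNat (nat_lit 215155246),Int.negSucc (nat_lit 279598759),Int.negSucc (nat_lit 6973840),Int.negSucc (nat_lit 90469839),Int.negSucc (nat_lit 73620945),Int.ofNat (nat_lit 109318642),Int.negSucc (nat_lit 82956231),Int.negSucc (nat_lit 11703144),Int.ofNat (nat_lit 234296990),Int.ofNat (nat_lit 21499249),Int.negSucc (nat_lit 110023817),Int.ofNat (nat_lit 20349195),Int.ofNat (nat_lit 196477674),Int.ofNat (nat_lit 81149792),Int.negSucc (nat_lit 409683452),Int.ofNat (nat_lit 52760440),Int.negSucc (nat_lit 223561),Int.ofNat (nat_lit 19559221),Int.negSucc (nat_lit 14877428),Int.negSucc (nat_lit 11075438),Int.ofNat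 (nat_lit 4744170),Int.ofNat (nat_lit 69401),Int.ofNat (nat_lit 19791475),Int.negSucc (nat_lit 7840152),Int.ofNat (nat_lit 83418399)])

/-- A row. -/
noncomputable def sr7_c1_65 : List ℕ × List ℤ :=
  ([(nat_lit 3),(nat_lit 0),(nat_lit 1),(nat_lit 0),(nat_lit 0),(nat_lit 0),(nat_lit 0),(nat_lit 0),(nat_lit 0),(nat_lit 0),(nat_lit 0),(nat_lit 0)], [Int.negSucc (nat_lit 4195122952),Int.ofNat (nat_lit 2092908982),Int.negSucc (nat_lit 1599307380),Int.ofNat (nat_lit 2432971738),Int.ofNat (nat_lit 639220541),Int.negSucc (nat_lit 1794506898),Int.negSucc (nat_lit 1231760952),Int.negSucc (nat_lit 1525173865),Int.negSucc (nat_lit 2780829963),Int.ofNat (nat_lit 1248473209),Int.negSucc (nat_lit 638377889),Int.ofNat (nat_lit 1889564011),Int.negSucc (nat_lit 2287201783),Int.negSucc (nat_lit 1126573279),Int.ofNat (nat_lit 927261557),Int.ofNat (nat_lit 689608145),Int.negSucc (nat_lit 490455225),Int.ofNat (nat_lit 860746271),Int.negSucc (nat_lit 1399204396),Int.negSucc (nat_lit 864685563),Int.negSucc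 (nat_lit 152949543),Int.negSucc (nat_lit 1742539222),Int.negSucc (nat_lit 978091076),Int.negSucc (nat_lit 275437656),Int.negSucc (nat_lit 740087024),Int.ofNat (nat_lit 886042644),Int.negSucc (nat_lit 14446882),Int.negSucc (nat_lit 131511619),Int.ofNat (nat_lit 1479568579),Int.negSucc (nat_lit 313328247),Int.negSucc (nat_lit 111250226),Int.negSucc (nat_lit 518270850),Int.ofNat (nat_lit 106842972),Int.negSucc (nat_lit 216852137),Int.ofNat (nat_lit 441099939),Int.negSucc (nat_lit 77446439),Int.negSucc (nat_lit 275820765),Int.negSucc (nat_lit 1295291811),Int.ofNat (nat_lit 79274775),Int.negSucc (nat_lit 1000671879),Int.negSucc (nat_lit 517980402),Int.negSucc (nat_lit 327368001),Int.ofNat (nat_lit 186129864),Int.ofNat (nat_lit 143255943),Int.ofNat (nat_lit 247363420),Int.ofNat (nat_lit 558031234),Int.ofNat (nat_lit 344201898),Int.negSucc (nat_lit 105018209),Int.negSucc (nat_lit 50221211),Int.negSucc (nat_lit 79555863),Int.negSucc (nat_lit 189090291),Int.negSucc (nat_lit 1283169506),Int.ofNat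 (nat_lit 276230238),Int.negSucc (nat_lit 213307378),Int.negSucc (nat_lit 689562526),Int.ofNat (nat_lit 483714038),Int.negSucc (nat_lit 159324874),Int.negSucc (nat_lit 430325323),Int.negSucc (nat_lit 254360046),Int.ofNat (nat_lit 576637474),Int.negSucc (nat_lit 65330773),Int.negSucc (nat_lit 281596310),Int.ofNat (nat_lit 199354344),Int.negSucc (nat_lit 426396185),Int.negSucc (nat_lit 126803743),Int.negSucc (nat_lit 761655033),Int.ofNat (nat_lit 2493954552),Int.ofNat (nat_lit 171449094),Int.ofNat (nat_lit 869217517),Int.negSucc (nat_lit 1458476998),Int.negSucc (nat_lit 301082006),Int.ofNat (nat_lit 1978315637),Int.ofNat (nat_lit 971029196),Int.negSucc (nat_lit 428794053),Int.ofNat (nat_lit 346006910),Int.ofNat (nat_lit 993337053),Int.ofNat (nat_lit 2528512564),Int.negSucc (nat_lit 1133871001),Int.ofNat (nat_lit 583834198),Int.ofNat (nat_lit 468903839),Int.ofNat (nat_lit 649527042),Int.negSucc (nat_lit 1394382418),Int.negSucc (nat_lit 64572341),Int.negSucc (nat_lit 168447417),Int.ofNat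 (nat_lit 123667638),Int.ofNat (nat_lit 171687717),Int.ofNat (nat_lit 315540591),Int.negSucc (nat_lit 25363070),Int.ofNat (nat_lit 367648633),Int.ofNat (nat_lit 754328042),Int.negSucc (nat_lit 184530381),Int.ofNat (nat_lit 412455205),Int.ofNat (nat_lit 216638599),Int.ofNat (nat_lit 762717990),Int.ofNat (nat_lit 254350185),Int.ofNat (nat_lit 184884361),Int.negSucc (nat_lit 147735380),Int.ofNat (nat_lit 202512758),Int.ofNat (nat_lit 414983013),Int.negSucc (nat_lit 33758439),Int.ofNat (nat_lit 1124662489),Int.negSucc (nat_lit 932067529),Int.negSucc (nat_lit 1274061555),Int.ofNat (nat_lit 1128013632),Int.ofNat (nat_lit 559551366),Int.ofNat (nat_lit 379662227),Int.ofNat (nat_lit 732659505),Int.ofNat (nat_lit 1383029078),Int.negSucc (nat_lit 2199990089),Int.ofNat (nat_lit 216729369),Int.ofNat (nat_lit 130658581),Int.negSucc (nat_lit 130144660),Int.negSucc (nat_lit 361828862),Int.ofNat (nat_lit 426573305),Int.ofNat (nat_lit 129126136),Int.ofNat (nat_lit 1076401111),Int.ofNat (nat_lit 38447378),Int.negSucc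 (nat_lit 303547444),Int.negSucc (nat_lit 1755788208),Int.ofNat (nat_lit 276202603),Int.negSucc (nat_lit 134049364),Int.negSucc (nat_lit 439963030),Int.negSucc (nat_lit 1776714343),Int.ofNat (nat_lit 73308205),Int.negSucc (nat_lit 12347595),Int.negSucc (nat_lit 24226381),Int.negSucc (nat_lit 65670392),Int.negSucc (nat_lit 173746598),Int.negSucc (nat_lit 57954642),Int.ofNat (nat_lit 43913193),Int.negSucc (nat_lit 117086070),Int.ofNat (nat_lit 223850874)])

/-- A row. -/
noncomputable def sr7_c1_66 : List ℕ × List ℤ :=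
  ([(nat_lit 3),(nat_lit 1),(nat_lit 0),(nat_lit 1),(nat_lit 0),(nat_lit 0),(nat_lit 0),(nat_lit 0),(nat_lit 0),(nat_lit 0),(nat_lit 0),(nat_lit 0)], [Int.negSucc (nat_lit 8349741108),Int.negSucc (nat_lit 4485890113),Int.negSucc (nat_lit 1822866532),Int.negSucc (nat_lit 2912621907),Int.negSucc (nat_lit 3034551981),Int.ofNat (nat_lit 4314540724),Int.ofNat (nat_lit 1931127109),Int.ofNat (nat_lit 6529880903),Int.ofNat (nat_lit 3045675739),Int.negSucc (nat_lit 1476348032),Int.ofNat (nat_lit 237283064),Int.negSucc (nat_lit 2156094864),Int.ofNat (nat_lit 78308751),Int.negSucc (nat_lit 940876690),Int.ofNat (nat_lit 418842625),Int.ofNat (nat_lit 655694377),Int.negSucc (nat_lit 184443107),Int.negSucc (nat_lit 368221736),Int.ofNat (nat_lit 2477053883),Int.negSucc (nat_lit 1120791168),Int.ofNat (nat_lit 336966587),Int.ofNat (nat_lit 325691361),Int.ofNat (nat_lit 1123761819),Int.ofNat (nat_lit 739749402),Int.ofNat (nat_lit 1601387814),Int.negSucc (nat_lit 428160902),Int.negSucc (nat_lit 222471726),Int.ofNat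 (nat_lit 496150143),Int.negSucc (nat_lit 1186390899),Int.ofNat (nat_lit 522088659),Int.ofNat (nat_lit 458703820),Int.negSucc (nat_lit 927261244),Int.negSucc (nat_lit 782777046),Int.ofNat (nat_lit 515434782),Int.negSucc (nat_lit 628123142),Int.negSucc (nat_lit 66846262),Int.negSucc (nat_lit 16632177),Int.ofNat (nat_lit 376191647),Int.negSucc (nat_lit 1740734414),Int.ofNat (nat_lit 2099431747),Int.negSucc (nat_lit 43122830),Int.negSucc (nat_lit 648087173),Int.negSucc (nat_lit 1133856519),Int.ofNat (nat_lit 1728248949),Int.negSucc (nat_lit 498153520),Int.negSucc (nat_lit 660681930),Int.negSucc (nat_lit 938597107),Int.negSucc (nat_lit 594396170),Int.negSucc (nat_lit 60982693),Int.ofNat (nat_lit 9698469),Int.ofNat (nat_lit 777217113),Int.ofNat (nat_lit 1001915338),Int.ofNat (nat_lit 847862687),Int.ofNat (nat_lit 452054360),Int.negSucc (nat_lit 843277526),Int.ofNat (nat_lit 25249942),Int.negSucc (nat_lit 210463352),Int.ofNat (nat_lit 92943683),Int.ofNat (nat_lit 303404358),Int.negSucc (nat_lit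 102758459),Int.negSucc (nat_lit 1357124349),Int.ofNat (nat_lit 1112521643),Int.negSucc (nat_lit 645400180),Int.ofNat (nat_lit 1957567521),Int.ofNat (nat_lit 933976239),Int.ofNat (nat_lit 390849652),Int.ofNat (nat_lit 594572942),Int.negSucc (nat_lit 1659489211),Int.negSucc (nat_lit 714639960),Int.negSucc (nat_lit 535292349),Int.ofNat (nat_lit 950075012),Int.ofNat (nat_lit 157874296),Int.ofNat (nat_lit 439522097),Int.ofNat (nat_lit 1156661717),Int.negSucc (nat_lit 25494709),Int.negSucc (nat_lit 2466082015),Int.negSucc (nat_lit 375611235),Int.negSucc (nat_lit 773754399),Int.ofNat (nat_lit 958622055),Int.ofNat (nat_lit 1072720479),Int.negSucc (nat_lit 885858226),Int.negSucc (nat_lit 1327022018),Int.ofNat (nat_lit 1310068725),Int.negSucc (nat_lit 250443794),Int.negSucc (nat_lit 983765465),Int.ofNat (nat_lit 882628095),Int.ofNat (nat_lit 122179409),Int.ofNat (nat_lit 264528849),Int.ofNat (nat_lit 3377824529),Int.ofNat (nat_lit 486058516),Int.ofNat (nat_lit 642799195),Int.negSucc (nat_lit 597782586),Int.negSucc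 (nat_lit 790233643),Int.ofNat (nat_lit 472507878),Int.ofNat (nat_lit 298688449),Int.negSucc (nat_lit 596501271),Int.ofNat (nat_lit 702974936),Int.ofNat (nat_lit 364728387),Int.negSucc (nat_lit 469510031),Int.negSucc (nat_lit 139705497),Int.ofNat (nat_lit 445372546),Int.ofNat (nat_lit 486201810),Int.ofNat (nat_lit 468544670),Int.ofNat (nat_lit 456896181),Int.negSucc (nat_lit 1750110570),Int.ofNat (nat_lit 415253014),Int.negSucc (nat_lit 716124484),Int.negSucc (nat_lit 214850644),Int.negSucc (nat_lit 616652381),Int.negSucc (nat_lit 1009716368),Int.ofNat (nat_lit 1072812212),Int.ofNat (nat_lit 4590218468),Int.negSucc (nat_lit 1570789318),Int.ofNat (nat_lit 448294935),Int.ofNat (nat_lit 110136893),Int.negSucc (nat_lit 50919988),Int.ofNat (nat_lit 257630229),Int.negSucc (nat_lit 144744476),Int.ofNat (nat_lit 625802380),Int.ofNat (nat_lit 190513597),Int.negSucc (nat_lit 652078592),Int.ofNat (nat_lit 202491495),Int.ofNat (nat_lit 584059139),Int.ofNat (nat_lit 684735499),Int.negSucc (nat_lit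 335177386),Int.negSucc (nat_lit 1595020344),Int.negSucc (nat_lit 109369383),Int.negSucc (nat_lit 108251516),Int.ofNat (nat_lit 88232078),Int.negSucc (nat_lit 72737465),Int.ofNat (nat_lit 254573341),Int.negSucc (nat_lit 85343563),Int.ofNat (nat_lit 282826588)])

/-- A row. -/
noncomputable def sr7_c1_67 : List ℕ × List ℤ :=
  ([(nat_lit 3),(nat_lit 2),(nat_lit 0),(nat_lit 0),(nat_lit 0),(nat_lit 0),(nat_lit 0),(nat_lit 0),(nat_lit 0),(nat_lit 0),(nat_lit 0),(nat_lit 0)], [Int.ofNat (nat_lit 9734913160),Int.ofNat (nat_lit 530009733),Int.ofNat (nat_lit 3385337749),Int.negSucc (nat_lit 77566682),Int.ofNat (nat_lit 2501304826),Int.negSucc (nat_lit 4042868918),Int.negSucc (nat_lit 5135454009),Int.ofNat (nat_lit 1624801077),Int.negSucc (nat_lit 146849374),Int.ofNat (nat_lit 3640533867),Int.negSucc (nat_lit 1013472368),Int.negSucc (nat_lit 1657734307),Int.negSucc (nat_lit 705081803),Int.negSucc (nat_lit 1417326058),Int.ofNat (nat_lit 6456476081),Int.ofNat (nat_lit 107862545),Int.negSucc (nat_lit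 301404591),Int.negSucc (nat_lit 1156379011),Int.ofNat (nat_lit 1448298337),Int.ofNat (nat_lit 2060540051),Int.negSucc (nat_lit 1068764340),Int.negSucc (nat_lit 1177874369),Int.ofNat (nat_lit 416143053),Int.ofNat (nat_lit 329583250),Int.negSucc (nat_lit 1049138581),Int.negSucc (nat_lit 892682283),Int.negSucc (nat_lit 4010619785),Int.negSucc (nat_lit 2095555760),Int.ofNat (nat_lit 4067841358),Int.negSucc (nat_lit 3275504202),Int.negSucc (nat_lit 2897984048),Int.ofNat (nat_lit 1272341019),Int.negSucc (nat_lit 2520092716),Int.negSucc (nat_lit 248146446),Int.negSucc (nat_lit 341134159),Int.ofNat (nat_lit 1371062646),Int.ofNat (nat_lit 303844581),Int.ofNat (nat_lit 20379062),Int.negSucc (nat_lit 2306976167),Int.negSucc (nat_lit 468272801),Int.ofNat (nat_lit 625728712),Int.negSucc (nat_lit 102688142),Int.negSucc (nat_lit 1106827622),Int.ofNat (nat_lit 567692264),Int.negSucc (nat_lit 203812117),Int.negSucc (nat_lit 4161987199),Int.negSucc (nat_lit 1063553378),Int.ofNat (nat_lit 2307083281),Int.negSucc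 (nat_lit 222249801),Int.ofNat (nat_lit 771197167),Int.negSucc (nat_lit 424206100),Int.negSucc (nat_lit 1119586079),Int.negSucc (nat_lit 189449569),Int.ofNat (nat_lit 636418497),Int.ofNat (nat_lit 1309832269),Int.ofNat (nat_lit 1050301992),Int.ofNat (nat_lit 621459314),Int.ofNat (nat_lit 6168437335),Int.ofNat (nat_lit 387569256),Int.ofNat (nat_lit 293359783),Int.negSucc (nat_lit 1178853025),Int.ofNat (nat_lit 256567063),Int.negSucc (nat_lit 1898540366),Int.negSucc (nat_lit 288037275),Int.negSucc (nat_lit 34660824),Int.ofNat (nat_lit 818105073),Int.negSucc (nat_lit 2104757755),Int.ofNat (nat_lit 249769339),Int.negSucc (nat_lit 3818959956),Int.ofNat (nat_lit 561331190),Int.negSucc (nat_lit 1639853907),Int.negSucc (nat_lit 2438763834),Int.negSucc (nat_lit 707282661),Int.negSucc (nat_lit 1639913029),Int.ofNat (nat_lit 2174235746),Int.negSucc (nat_lit 1681275373),Int.negSucc (nat_lit 1239618960),Int.negSucc (nat_lit 352401887),Int.negSucc (nat_lit 559580611),Int.negSucc (nat_lit 353075304),Int.ofNat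 (nat_lit 840619025),Int.negSucc (nat_lit 352975187),Int.ofNat (nat_lit 301757998),Int.ofNat (nat_lit 1301940037),Int.ofNat (nat_lit 455241407),Int.negSucc (nat_lit 1899698228),Int.negSucc (nat_lit 895474732),Int.negSucc (nat_lit 1972778148),Int.ofNat (nat_lit 41614847),Int.ofNat (nat_lit 5742350460),Int.negSucc (nat_lit 1363505945),Int.ofNat (nat_lit 714233679),Int.ofNat (nat_lit 1793817246),Int.negSucc (nat_lit 1817107524),Int.ofNat (nat_lit 467824579),Int.ofNat (nat_lit 1614319433),Int.ofNat (nat_lit 1267853390),Int.ofNat (nat_lit 4669322799),Int.negSucc (nat_lit 1320979371),Int.ofNat (nat_lit 4116180077),Int.negSucc (nat_lit 5295479477),Int.ofNat (nat_lit 834420871),Int.ofNat (nat_lit 49206309),Int.negSucc (nat_lit 2933504443),Int.negSucc (nat_lit 982634278),Int.negSucc (nat_lit 2401985304),Int.ofNat (nat_lit 4062860942),Int.ofNat (nat_lit 1104269246),Int.negSucc (nat_lit 2213059686),Int.negSucc (nat_lit 597115880),Int.negSucc (nat_lit 2370705062),Int.ofNat (nat_lit 1192599525),Int.ofNat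 (nat_lit 926737225),Int.negSucc (nat_lit 181332657),Int.ofNat (nat_lit 2717552198),Int.negSucc (nat_lit 5165965651),Int.negSucc (nat_lit 470682895),Int.negSucc (nat_lit 1718747579),Int.ofNat (nat_lit 5088300628),Int.negSucc (nat_lit 1020837913),Int.ofNat (nat_lit 3217391473),Int.ofNat (nat_lit 317657863),Int.negSucc (nat_lit 5929873526),Int.negSucc (nat_lit 1242426913),Int.ofNat (nat_lit 2563045756),Int.negSucc (nat_lit 2422321946),Int.negSucc (nat_lit 7752867132),Int.ofNat (nat_lit 1229303180),Int.negSucc (nat_lit 1621269002),Int.negSucc (nat_lit 85053659),Int.negSucc (nat_lit 981414693),Int.ofNat (nat_lit 1071561290),Int.ofNat (nat_lit 147214615),Int.ofNat (nat_lit 1790413439)])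

/-- A row. -/
noncomputable def sr7_c1_68 : List ℕ × List ℤ :=
  ([(nat_lit 4),(nat_lit 0),(nat_lit 0),(nat_lit 0),(nat_lit 0),(nat_lit 0),(nat_lit 0),(nat_lit 0),(nat_lit 0),(nat_lit 0),(nat_lit 0),(nat_lit 0)], [Int.ofNat (nat_lit 2918899097),Int.negSucc (nat_lit 410864879),Int.ofNat (nat_lit 1192046553),Int.negSucc (nat_lit 959759106),Int.ofNat (nat_lit 111228787),Int.ofNat (nat_lit 565687505),Int.ofNat (nat_lit 2441168305),Int.ofNat (nat_lit 752461185),Int.ofNat (nat_lit 3262699773),Int.negSucc (nat_lit 1393668933),Int.negSucc (nat_lit 871697001),Int.ofNat (nat_lit 368761904),Int.ofNat (nat_lit 1902680738),Int.ofNat (nat_lit 1880706370),Int.negSucc (nat_lit 1967952583),Int.ofNat (nat_lit 532024589),Int.ofNat (nat_lit 325595696),Int.ofNat (nat_lit 1195675501),Int.ofNat (nat_lit 1092360380),Int.ofNat (nat_lit 1232090870),Int.ofNat (nat_lit 911195809),Int.ofNat (nat_lit 661906153),Int.ofNat (nat_lit 768201268),Int.ofNat (nat_lit 1380165438),Int.ofNat (nat_lit 788840379),Int.negSucc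 (nat_lit 1664660583),Int.negSucc (nat_lit 463373740),Int.negSucc (nat_lit 765163072),Int.negSucc (nat_lit 1344904004),Int.ofNat (nat_lit 1106930720),Int.negSucc (nat_lit 168919401),Int.ofNat (nat_lit 445318305),Int.ofNat (nat_lit 93146947),Int.negSucc (nat_lit 271786005),Int.negSucc (nat_lit 114184922),Int.ofNat (nat_lit 162098113),Int.ofNat (nat_lit 537044209),Int.negSucc (nat_lit 274499105),Int.negSucc (nat_lit 814617830),Int.negSucc (nat_lit 53121154),Int.ofNat (nat_lit 463565206),Int.ofNat (nat_lit 814298829),Int.ofNat (nat_lit 21953141),Int.ofNat (nat_lit 431370922),Int.negSucc (nat_lit 121087106),Int.negSucc (nat_lit 388102740),Int.negSucc (nat_lit 262693790),Int.ofNat (nat_lit 382689752),Int.ofNat (nat_lit 47612517),Int.ofNat (nat_lit 342446264),Int.negSucc (nat_lit 318676286),Int.ofNat (nat_lit 81403863),Int.ofNat (nat_lit 788350136),Int.negSucc (nat_lit 126017269),Int.ofNat (nat_lit 357742314),Int.negSucc (nat_lit 227112706),Int.ofNat (nat_lit 275847934),Int.ofNat (nat_lit 175875026),Int.ofNat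 (nat_lit 28966263),Int.negSucc (nat_lit 237575583),Int.ofNat (nat_lit 683747838),Int.negSucc (nat_lit 378216840),Int.negSucc (nat_lit 178664504),Int.ofNat (nat_lit 294949407),Int.ofNat (nat_lit 66416433),Int.ofNat (nat_lit 387576188),Int.negSucc (nat_lit 3517546857),Int.negSucc (nat_lit 1345670141),Int.negSucc (nat_lit 1041737006),Int.ofNat (nat_lit 2079145458),Int.ofNat (nat_lit 613182831),Int.negSucc (nat_lit 2673645139),Int.negSucc (nat_lit 1042235362),Int.ofNat (nat_lit 1076023012),Int.negSucc (nat_lit 609086296),Int.negSucc (nat_lit 1369896601),Int.negSucc (nat_lit 508307046),Int.ofNat (nat_lit 1057799526),Int.negSucc (nat_lit 2002270932),Int.ofNat (nat_lit 715252183),Int.ofNat (nat_lit 504695627),Int.ofNat (nat_lit 1330574571),Int.ofNat (nat_lit 293923914),Int.ofNat (nat_lit 207085034),Int.negSucc (nat_lit 116351608),Int.ofNat (nat_lit 294911967),Int.negSucc (nat_lit 145056491),Int.negSucc (nat_lit 269251633),Int.ofNat (nat_lit 154239119),Int.negSucc (nat_lit 858964511),Int.negSucc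 (nat_lit 86273940),Int.ofNat (nat_lit 83469278),Int.negSucc (nat_lit 305057897),Int.negSucc (nat_lit 270855279),Int.negSucc (nat_lit 807682793),Int.negSucc (nat_lit 202765886),Int.negSucc (nat_lit 20538833),Int.ofNat (nat_lit 77154928),Int.negSucc (nat_lit 61057369),Int.ofNat (nat_lit 240548142),Int.ofNat (nat_lit 1433360133),Int.ofNat (nat_lit 1175112221),Int.ofNat (nat_lit 429809366),Int.negSucc (nat_lit 637721437),Int.negSucc (nat_lit 838258024),Int.ofNat (nat_lit 674373316),Int.ofNat (nat_lit 1366523315),Int.negSucc (nat_lit 526112085),Int.ofNat (nat_lit 855090993),Int.negSucc (nat_lit 196157414),Int.negSucc (nat_lit 387180472),Int.ofNat (nat_lit 369179108),Int.ofNat (nat_lit 306789226),Int.negSucc (nat_lit 27338618),Int.ofNat (nat_lit 72988840),Int.negSucc (nat_lit 905363048),Int.ofNat (nat_lit 38960898),Int.ofNat (nat_lit 125820633),Int.ofNat (nat_lit 2217843702),Int.negSucc (nat_lit 416936091),Int.ofNat (nat_lit 713792304),Int.ofNat (nat_lit 76714347),Int.negSucc (nat_lit 525298347),Int.negSucc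 (nat_lit 186027776),Int.ofNat (nat_lit 286730937),Int.negSucc (nat_lit 266247359),Int.ofNat (nat_lit 179845336),Int.ofNat (nat_lit 426438138),Int.ofNat (nat_lit 10556056),Int.negSucc (nat_lit 2073901316),Int.negSucc (nat_lit 262887662),Int.negSucc (nat_lit 8851438),Int.ofNat (nat_lit 151094323),Int.negSucc (nat_lit 463766675),Int.ofNat (nat_lit 346304932)])

/-- A row. -/
noncomputable def sr7_c1_69 : List ℕ × List ℤ :=
  ([(nat_lit 4),(nat_lit 0),(nat_lit 1),(nat_lit 0),(nat_lit 0),(nat_lit 0),(nat_lit 0),(nat_lit 0),(nat_lit 0),(nat_lit 0),(nat_lit 0),(nat_lit 0)], [Int.ofNat (nat_lit 368021775),Int.negSucc (nat_lit 971344762),Int.ofNat (nat_lit 962471749),Int.negSucc (nat_lit 1794547042),Int.negSucc (nat_lit 1457765485),Int.ofNat (nat_lit 1860581513),Int.ofNat (nat_lit 1932510546),Int.ofNat (nat_lit 459445767),Int.ofNat (nat_lit 3296670088),Int.negSucc (nat_lit 1012681135),Int.ofNat (nat_lit 184977299),Int.negSucc (nat_lit 518639377),Int.ofNat (nat_lit 2931764058),Int.ofNat (nat_lit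 1433085405),Int.negSucc (nat_lit 1108023016),Int.negSucc (nat_lit 226353434),Int.ofNat (nat_lit 108536746),Int.ofNat (nat_lit 284519396),Int.ofNat (nat_lit 1200292264),Int.ofNat (nat_lit 1233250568),Int.negSucc (nat_lit 205495847),Int.ofNat (nat_lit 1357454299),Int.ofNat (nat_lit 825655329),Int.ofNat (nat_lit 462357184),Int.ofNat (nat_lit 638421962),Int.negSucc (nat_lit 1101861377),Int.negSucc (nat_lit 66403384),Int.negSucc (nat_lit 423148506),Int.negSucc (nat_lit 1369873487),Int.ofNat (nat_lit 709210898),Int.ofNat (nat_lit 117013737),Int.ofNat (nat_lit 519720627),Int.negSucc (nat_lit 83292585),Int.negSucc (nat_lit 317991091),Int.negSucc (nat_lit 68955701),Int.ofNat (nat_lit 272750285),Int.ofNat (nat_lit 140054695),Int.ofNat (nat_lit 1168653294),Int.negSucc (nat_lit 479561141),Int.ofNat (nat_lit 161365139),Int.ofNat (nat_lit 41998035),Int.ofNat (nat_lit 567421900),Int.negSucc (nat_lit 387599454),Int.ofNat (nat_lit 487519671),Int.negSucc (nat_lit 301185263),Int.negSucc (nat_lit 459250835),Int.negSucc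 (nat_lit 133661863),Int.ofNat (nat_lit 107999018),Int.negSucc (nat_lit 22227603),Int.ofNat (nat_lit 237728463),Int.negSucc (nat_lit 76092170),Int.ofNat (nat_lit 1075522897),Int.negSucc (nat_lit 266903358),Int.ofNat (nat_lit 319731552),Int.ofNat (nat_lit 576763699),Int.negSucc (nat_lit 173434101),Int.ofNat (nat_lit 340805587),Int.ofNat (nat_lit 158235540),Int.ofNat (nat_lit 131591647),Int.negSucc (nat_lit 636161387),Int.ofNat (nat_lit 1401089),Int.negSucc (nat_lit 271536010),Int.negSucc (nat_lit 203616179),Int.ofNat (nat_lit 339883791),Int.ofNat (nat_lit 12905221),Int.ofNat (nat_lit 618204298),Int.negSucc (nat_lit 1746621980),Int.negSucc (nat_lit 1023584678),Int.negSucc (nat_lit 748677944),Int.ofNat (nat_lit 1451274619),Int.ofNat (nat_lit 1136725951),Int.negSucc (nat_lit 2512940576),Int.negSucc (nat_lit 852364206),Int.ofNat (nat_lit 841770073),Int.negSucc (nat_lit 412965100),Int.negSucc (nat_lit 695934907),Int.negSucc (nat_lit 1784317035),Int.ofNat (nat_lit 759415600),Int.negSucc (nat_lit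 1361473439),Int.ofNat (nat_lit 134773461),Int.ofNat (nat_lit 676078843),Int.ofNat (nat_lit 1902920746),Int.ofNat (nat_lit 233476657),Int.ofNat (nat_lit 132802823),Int.negSucc (nat_lit 75769532),Int.ofNat (nat_lit 86237514),Int.negSucc (nat_lit 57371065),Int.negSucc (nat_lit 23247681),Int.ofNat (nat_lit 86266239),Int.negSucc (nat_lit 210424123),Int.ofNat (nat_lit 68404964),Int.negSucc (nat_lit 344382576),Int.negSucc (nat_lit 277418186),Int.negSucc (nat_lit 600986764),Int.negSucc (nat_lit 518573739),Int.negSucc (nat_lit 181225181),Int.negSucc (nat_lit 113039920),Int.negSucc (nat_lit 218330794),Int.negSucc (nat_lit 135931799),Int.ofNat (nat_lit 31855521),Int.negSucc (nat_lit 311064003),Int.ofNat (nat_lit 1066948531),Int.ofNat (nat_lit 652624407),Int.negSucc (nat_lit 286410252),Int.negSucc (nat_lit 450105977),Int.ofNat (nat_lit 461429047),Int.ofNat (nat_lit 846367691),Int.negSucc (nat_lit 641561661),Int.ofNat (nat_lit 1927844524),Int.negSucc (nat_lit 122838707),Int.negSucc (nat_lit 117886918),Int.ofNat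 (nat_lit 122556272),Int.ofNat (nat_lit 78788216),Int.negSucc (nat_lit 141537645),Int.negSucc (nat_lit 55779321),Int.negSucc (nat_lit 541101446),Int.ofNat (nat_lit 4103549),Int.ofNat (nat_lit 204363813),Int.ofNat (nat_lit 1000845127),Int.negSucc (nat_lit 163888152),Int.negSucc (nat_lit 20867268),Int.ofNat (nat_lit 84475828),Int.ofNat (nat_lit 1016390925),Int.negSucc (nat_lit 289790924),Int.negSucc (nat_lit 6882891),Int.negSucc (nat_lit 2297765),Int.ofNat (nat_lit 54954669),Int.ofNat (nat_lit 133064030),Int.ofNat (nat_lit 47918803),Int.negSucc (nat_lit 49154554),Int.ofNat (nat_lit 102693504),Int.negSucc (nat_lit 279879876),Int.ofNat (nat_lit 9725383),Int.negSucc (nat_lit 15687806),Int.ofNat (nat_lit 3248644),Int.ofNat (nat_lit 44394759)])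

/-- A row. -/
noncomputable def sr7_c1_70 : List ℕ × List ℤ :=
  ([(nat_lit 4),(nat_lit 2),(nat_lit 0),(nat_lit 0),(nat_lit 0),(nat_lit 0),(nat_lit 0),(nat_lit 0),(nat_lit 0),(nat_lit 0),(nat_lit 0),(nat_lit 0)], [Int.negSucc (nat_lit 3352573308),Int.ofNat (nat_lit 2178498812),Int.ofNat (nat_lit 2281800598),Int.ofNat (nat_lit 1477079894),Int.ofNat (nat_lit 174570768),Int.negSucc (nat_lit 1995161170),Int.negSucc (nat_lit 360750426),Int.negSucc (nat_lit 7461415802),Int.negSucc (nat_lit 4779420569),Int.negSucc (nat_lit 1557197229),Int.ofNat (nat_lit 1144600536),Int.ofNat (nat_lit 2186240997),Int.negSucc (nat_lit 1189070922),Int.ofNat (nat_lit 2967841146),Int.negSucc (nat_lit 5667223557),Int.negSucc (nat_lit 438329998),Int.ofNat (nat_lit 1005697762),Int.ofNat (nat_lit 999783591),Int.negSucc (nat_lit 2045160334),Int.negSucc (nat_lit 1172073260),Int.negSucc (nat_lit 753733926),Int.ofNat (nat_lit 281730240),Int.negSucc (nat_lit 1145067357),Int.negSucc (nat_lit 2245004290),Int.ofNat (nat_lit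 872974810),Int.ofNat (nat_lit 780069471),Int.ofNat (nat_lit 2974092367),Int.ofNat (nat_lit 2882585135),Int.negSucc (nat_lit 2447214006),Int.ofNat (nat_lit 1633303078),Int.ofNat (nat_lit 1580800496),Int.negSucc (nat_lit 187520856),Int.ofNat (nat_lit 3462537737),Int.ofNat (nat_lit 263374333),Int.ofNat (nat_lit 304881286),Int.negSucc (nat_lit 482162177),Int.ofNat (nat_lit 530759275),Int.negSucc (nat_lit 637952613),Int.ofNat (nat_lit 1862270540),Int.negSucc (nat_lit 1501308637),Int.negSucc (nat_lit 944309604),Int.ofNat (nat_lit 103318669),Int.ofNat (nat_lit 327619124),Int.negSucc (nat_lit 1695319809),Int.ofNat (nat_lit 837037141),Int.ofNat (nat_lit 3819697874),Int.ofNat (nat_lit 1435326154),Int.negSucc (nat_lit 1164031734),Int.ofNat (nat_lit 1346966359),Int.negSucc (nat_lit 2380766566),Int.ofNat (nat_lit 330147198),Int.negSucc (nat_lit 38441779),Int.negSucc (nat_lit 1539056159),Int.negSucc (nat_lit 2383985945),Int.negSucc (nat_lit 1010648116),Int.ofNat (nat_lit 423299913),Int.negSucc (nat_lit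 207316284),Int.negSucc (nat_lit 3704950627),Int.negSucc (nat_lit 528539903),Int.negSucc (nat_lit 1444391470),Int.ofNat (nat_lit 2206441790),Int.ofNat (nat_lit 690379515),Int.ofNat (nat_lit 629977115),Int.negSucc (nat_lit 47553638),Int.ofNat (nat_lit 177151040),Int.negSucc (nat_lit 1814851159),Int.ofNat (nat_lit 1577066939),Int.ofNat (nat_lit 587411479),Int.ofNat (nat_lit 2587882898),Int.ofNat (nat_lit 460236101),Int.negSucc (nat_lit 951228841),Int.ofNat (nat_lit 3324658333),Int.negSucc (nat_lit 42052453),Int.negSucc (nat_lit 1224765641),Int.negSucc (nat_lit 1137444410),Int.ofNat (nat_lit 3251853121),Int.negSucc (nat_lit 215983690),Int.ofNat (nat_lit 1778805578),Int.negSucc (nat_lit 551526119),Int.negSucc (nat_lit 1280762115),Int.ofNat (nat_lit 806092898),Int.ofNat (nat_lit 1677432109),Int.negSucc (nat_lit 2388516857),Int.ofNat (nat_lit 13456506),Int.ofNat (nat_lit 1490183331),Int.negSucc (nat_lit 1531561266),Int.negSucc (nat_lit 1129791567),Int.ofNat (nat_lit 1029125096),Int.negSucc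 (nat_lit 3204135188),Int.negSucc (nat_lit 3851841675),Int.ofNat (nat_lit 1055915395),Int.negSucc (nat_lit 3504616255),Int.negSucc (nat_lit 1420388487),Int.ofNat (nat_lit 4124283868),Int.ofNat (nat_lit 1314464238),Int.negSucc (nat_lit 878932783),Int.negSucc (nat_lit 1830138673),Int.negSucc (nat_lit 3679393893),Int.ofNat (nat_lit 481497623),Int.negSucc (nat_lit 1296189167),Int.ofNat (nat_lit 1116779700),Int.negSucc (nat_lit 509029568),Int.ofNat (nat_lit 1291423080),Int.ofNat (nat_lit 701643108),Int.ofNat (nat_lit 2349891371),Int.ofNat (nat_lit 906436267),Int.negSucc (nat_lit 1826450500),Int.negSucc (nat_lit 867031497),Int.ofNat (nat_lit 3938150754),Int.ofNat (nat_lit 1411222409),Int.negSucc (nat_lit 295775260),Int.negSucc (nat_lit 3232204456),Int.ofNat (nat_lit 1744147749),Int.ofNat (nat_lit 4500743479),Int.ofNat (nat_lit 65220408),Int.ofNat (nat_lit 5060603053),Int.ofNat (nat_lit 465088268),Int.ofNat (nat_lit 2305061114),Int.negSucc (nat_lit 4216900569),Int.ofNat (nat_lit 65778609),Int.negSucc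 (nat_lit 1863180639),Int.negSucc (nat_lit 417398714),Int.ofNat (nat_lit 3531544580),Int.negSucc (nat_lit 441125090),Int.negSucc (nat_lit 1271873071),Int.ofNat (nat_lit 3221383069),Int.ofNat (nat_lit 4724459201),Int.negSucc (nat_lit 2331190435),Int.ofNat (nat_lit 1312044317),Int.ofNat (nat_lit 298965893),Int.ofNat (nat_lit 802859319),Int.negSucc (nat_lit 1237230465),Int.negSucc (nat_lit 974008352),Int.negSucc (nat_lit 2352220306),Int.ofNat (nat_lit 142798001),Int.ofNat (nat_lit 376030507),Int.ofNat (nat_lit 345529901)])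

/-- A row. -/
noncomputable def sr7_c1_71 : List ℕ × List ℤ :=
  ([(nat_lit 5),(nat_lit 0),(nat_lit 0),(nat_lit 0),(nat_lit 0),(nat_lit 0),(nat_lit 0),(nat_lit 0),(nat_lit 0),(nat_lit 0),(nat_lit 0),(nat_lit 0)], [Int.ofNat (nat_lit 4390332463),Int.negSucc (nat_lit 1134041099),Int.negSucc (nat_lit 1988392319),Int.ofNat (nat_lit 509080005),Int.negSucc (nat_lit 1967150881),Int.negSucc (nat_lit 90656057),Int.negSucc (nat_lit 1480834364),Int.ofNat (nat_lit 2385578334),Int.ofNat (nat_lit 221686551),Int.ofNat (nat_lit 691291916),Int.ofNat (nat_lit 133115482),Int.negSucc (nat_lit 2011235288),Int.negSucc (nat_lit 113051690),Int.negSucc (nat_lit 894303297),Int.ofNat (nat_lit 2404818206),Int.negSucc (nat_lit 194444302),Int.negSucc (nat_lit 124554574),Int.negSucc (nat_lit 1718156264),Int.ofNat (nat_lit 835505327),Int.ofNat (nat_lit 1304452171),Int.negSucc (nat_lit 418018339),Int.negSucc (nat_lit 63546418),Int.ofNat (nat_lit 836427806),Int.ofNat (nat_lit 547247203),Int.negSucc (nat_lit 211132370),Int.ofNat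 (nat_lit 1102204483),Int.negSucc (nat_lit 871281179),Int.negSucc (nat_lit 564074313),Int.ofNat (nat_lit 980071082),Int.negSucc (nat_lit 723000589),Int.negSucc (nat_lit 80575730),Int.ofNat (nat_lit 425904289),Int.negSucc (nat_lit 1332298526),Int.negSucc (nat_lit 99824038),Int.ofNat (nat_lit 10800974),Int.ofNat (nat_lit 42511917),Int.negSucc (nat_lit 229990750),Int.ofNat (nat_lit 854262818),Int.ofNat (nat_lit 1103546745),Int.ofNat (nat_lit 906227196),Int.ofNat (nat_lit 738085031),Int.negSucc (nat_lit 77050636),Int.negSucc (nat_lit 866814002),Int.ofNat (nat_lit 288645715),Int.negSucc (nat_lit 673429809),Int.negSucc (nat_lit 320512804),Int.ofNat (nat_lit 205247286),Int.negSucc (nat_lit 241042845),Int.negSucc (nat_lit 201544868),Int.ofNat (nat_lit 235553880),Int.ofNat (nat_lit 278357883),Int.ofNat (nat_lit 421040304),Int.ofNat (nat_lit 275533218),Int.ofNat (nat_lit 557592439),Int.ofNat (nat_lit 457663634),Int.negSucc (nat_lit 246998427),Int.ofNat (nat_lit 163783803),Int.ofNat (nat_lit 244733697),Int.ofNat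 (nat_lit 15783751),Int.ofNat (nat_lit 311875048),Int.negSucc (nat_lit 317356133),Int.ofNat (nat_lit 97453577),Int.ofNat (nat_lit 191229798),Int.ofNat (nat_lit 283532476),Int.ofNat (nat_lit 137157405),Int.ofNat (nat_lit 893599541),Int.negSucc (nat_lit 145227504),Int.ofNat (nat_lit 366701391),Int.negSucc (nat_lit 1701344734),Int.negSucc (nat_lit 558452863),Int.negSucc (nat_lit 1140387917),Int.negSucc (nat_lit 981493831),Int.negSucc (nat_lit 143982606),Int.ofNat (nat_lit 333643656),Int.ofNat (nat_lit 545195278),Int.negSucc (nat_lit 846685448),Int.negSucc (nat_lit 2295153733),Int.negSucc (nat_lit 91566310),Int.ofNat (nat_lit 5421058),Int.negSucc (nat_lit 758992773),Int.ofNat (nat_lit 855632872),Int.negSucc (nat_lit 1044730862),Int.negSucc (nat_lit 257236347),Int.negSucc (nat_lit 206674411),Int.ofNat (nat_lit 236998688),Int.negSucc (nat_lit 323287290),Int.negSucc (nat_lit 724644245),Int.negSucc (nat_lit 33048091),Int.negSucc (nat_lit 473022961),Int.ofNat (nat_lit 374578756),Int.negSucc (nat_lit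 243305186),Int.ofNat (nat_lit 291553055),Int.negSucc (nat_lit 136495980),Int.negSucc (nat_lit 2032721895),Int.ofNat (nat_lit 1167753208),Int.ofNat (nat_lit 517318802),Int.negSucc (nat_lit 149265338),Int.negSucc (nat_lit 13443001),Int.negSucc (nat_lit 380826927),Int.negSucc (nat_lit 5407171),Int.negSucc (nat_lit 4248118954),Int.ofNat (nat_lit 448930686),Int.ofNat (nat_lit 753894598),Int.negSucc (nat_lit 1696813183),Int.negSucc (nat_lit 563558422),Int.negSucc (nat_lit 911271969),Int.ofNat (nat_lit 1922186605),Int.negSucc (nat_lit 545615610),Int.negSucc (nat_lit 269500162),Int.ofNat (nat_lit 134554448),Int.negSucc (nat_lit 748061643),Int.negSucc (nat_lit 167357109),Int.ofNat (nat_lit 787346448),Int.negSucc (nat_lit 1839449098),Int.negSucc (nat_lit 404451460),Int.ofNat (nat_lit 252924644),Int.negSucc (nat_lit 425404049),Int.negSucc (nat_lit 453259864),Int.ofNat (nat_lit 1794173553),Int.negSucc (nat_lit 31213310),Int.negSucc (nat_lit 435536251),Int.ofNat (nat_lit 322237328),Int.ofNat (nat_lit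 900370429),Int.ofNat (nat_lit 69237859),Int.negSucc (nat_lit 125293442),Int.ofNat (nat_lit 503062845),Int.ofNat (nat_lit 241713316),Int.ofNat (nat_lit 85772243),Int.ofNat (nat_lit 92181685),Int.ofNat (nat_lit 2341420903),Int.ofNat (nat_lit 655425788),Int.negSucc (nat_lit 151320230),Int.negSucc (nat_lit 350258297),Int.ofNat (nat_lit 1057996148),Int.negSucc (nat_lit 830840784),Int.negSucc (nat_lit 33319553),Int.negSucc (nat_lit 107584459),Int.ofNat (nat_lit 61632588)])

/-- A row. -/
noncomputable def sr7_c1_72 : List ℕ × List ℤ :=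
  ([(nat_lit 6),(nat_lit 0),(nat_lit 0),(nat_lit 0),(nat_lit 0),(nat_lit 0),(nat_lit 0),(nat_lit 0),(nat_lit 0),(nat_lit 0),(nat_lit 0),(nat_lit 0)], [Int.negSucc (nat_lit 2084063751),Int.ofNat (nat_lit 964732521),Int.ofNat (nat_lit 538258319),Int.ofNat (nat_lit 157833735),Int.ofNat (nat_lit 1563465301),Int.negSucc (nat_lit 429972105),Int.negSucc (nat_lit 275625615),Int.negSucc (nat_lit 744360420),Int.negSucc (nat_lit 1590437508),Int.ofNat (nat_lit 230793973),Int.ofNat (nat_lit 255043136),Int.ofNat (nat_lit 914083990),Int.negSucc (nat_lit 1210503653),Int.negSucc (nat_lit 415227387),Int.negSucc (nat_lit 172066498),Int.negSucc (nat_lit 15819763),Int.ofNat (nat_lit 144305996),Int.ofNat (nat_lit 236227791),Int.negSucc (nat_lit 805675625),Int.negSucc (nat_lit 1323562908),Int.ofNat (nat_lit 223050663),Int.negSucc (nat_lit 308745578),Int.negSucc (nat_lit 800699333),Int.negSucc (nat_lit 850225841),Int.negSucc (nat_lit 302915281),Int.ofNat (nat_lit 268158591),Int.ofNat (nat_lit 592500639),Int.ofNat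 (nat_lit 623966946),Int.ofNat (nat_lit 109105446),Int.negSucc (nat_lit 235831785),Int.ofNat (nat_lit 36293094),Int.negSucc (nat_lit 315137372),Int.ofNat (nat_lit 520708744),Int.ofNat (nat_lit 261409134),Int.ofNat (nat_lit 169604545),Int.negSucc (nat_lit 18382981),Int.negSucc (nat_lit 35960810),Int.negSucc (nat_lit 743432444),Int.negSucc (nat_lit 240233784),Int.negSucc (nat_lit 255402510),Int.negSucc (nat_lit 426750229),Int.negSucc (nat_lit 404111852),Int.ofNat (nat_lit 490954880),Int.negSucc (nat_lit 480607650),Int.ofNat (nat_lit 456093514),Int.ofNat (nat_lit 335050220),Int.negSucc (nat_lit 41176610),Int.ofNat (nat_lit 66105672),Int.ofNat (nat_lit 63056894),Int.negSucc (nat_lit 162205361),Int.ofNat (nat_lit 13568950),Int.negSucc (nat_lit 562573520),Int.negSucc (nat_lit 224059144),Int.negSucc (nat_lit 342478182),Int.negSucc (nat_lit 414377685),Int.ofNat (nat_lit 202382511),Int.negSucc (nat_lit 304271080),Int.negSucc (nat_lit 54429068),Int.negSucc (nat_lit 41696427),Int.ofNat (nat_lit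 213960703),Int.negSucc (nat_lit 52318009),Int.ofNat (nat_lit 150768210),Int.negSucc (nat_lit 11938201),Int.negSucc (nat_lit 270146195),Int.negSucc (nat_lit 32701918),Int.negSucc (nat_lit 626457505),Int.ofNat (nat_lit 795990372),Int.ofNat (nat_lit 685027163),Int.ofNat (nat_lit 1252302113),Int.negSucc (nat_lit 689989779),Int.ofNat (nat_lit 172663537),Int.ofNat (nat_lit 1723662659),Int.ofNat (nat_lit 602471024),Int.negSucc (nat_lit 794105042),Int.ofNat (nat_lit 14430904),Int.ofNat (nat_lit 845637978),Int.ofNat (nat_lit 1331086649),Int.negSucc (nat_lit 281181153),Int.ofNat (nat_lit 1037783826),Int.ofNat (nat_lit 58856136),Int.negSucc (nat_lit 935858292),Int.negSucc (nat_lit 276711565),Int.negSucc (nat_lit 80382715),Int.ofNat (nat_lit 60061894),Int.negSucc (nat_lit 154027018),Int.ofNat (nat_lit 14074722),Int.ofNat (nat_lit 385092671),Int.ofNat (nat_lit 107388863),Int.ofNat (nat_lit 134101254),Int.ofNat (nat_lit 32570990),Int.ofNat (nat_lit 120774306),Int.negSucc (nat_lit 159304810),Int.ofNat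 (nat_lit 275313465),Int.ofNat (nat_lit 1252549274),Int.negSucc (nat_lit 289960637),Int.negSucc (nat_lit 179587011),Int.ofNat (nat_lit 178807686),Int.ofNat (nat_lit 54360290),Int.ofNat (nat_lit 190821682),Int.negSucc (nat_lit 16911988),Int.ofNat (nat_lit 1776423836),Int.negSucc (nat_lit 847777541),Int.negSucc (nat_lit 420079641),Int.ofNat (nat_lit 1098651757),Int.ofNat (nat_lit 618719314),Int.ofNat (nat_lit 14852202),Int.negSucc (nat_lit 1823900090),Int.ofNat (nat_lit 394215772),Int.negSucc (nat_lit 463072242),Int.negSucc (nat_lit 9259752),Int.ofNat (nat_lit 593841382),Int.negSucc (nat_lit 16753690),Int.negSucc (nat_lit 511081870),Int.ofNat (nat_lit 1022829297),Int.ofNat (nat_lit 285980137),Int.ofNat (nat_lit 75686840),Int.ofNat (nat_lit 184426670),Int.ofNat (nat_lit 219221473),Int.negSucc (nat_lit 1700349114),Int.ofNat (nat_lit 157737392),Int.ofNat (nat_lit 75146412),Int.negSucc (nat_lit 141206932),Int.negSucc (nat_lit 483231077),Int.ofNat (nat_lit 159283761),Int.negSucc (nat_lit 24033508),Int.negSucc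 (nat_lit 253807334),Int.negSucc (nat_lit 267464674),Int.negSucc (nat_lit 254383738),Int.negSucc (nat_lit 89404992),Int.negSucc (nat_lit 860132959),Int.negSucc (nat_lit 378199143),Int.ofNat (nat_lit 215992552),Int.ofNat (nat_lit 188944080),Int.negSucc (nat_lit 578368188),Int.ofNat (nat_lit 483136915),Int.negSucc (nat_lit 11136690),Int.ofNat (nat_lit 107552294),Int.negSucc (nat_lit 63450775),Int.ofNat (nat_lit 3640457)])

/-- A part of a triangular factor. -/
noncomputable def sr7_c1 : Rows :=
  [sr7_c1_0,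
   sr7_c1_1,
   sr7_c1_2,
   sr7_c1_3,
   sr7_c1_4,
   sr7_c1_5,
   sr7_c1_6,
   sr7_c1_7,
   sr7_c1_8,
   sr7_c1_9,
   sr7_c1_10,
   sr7_c1_11,
   sr7_c1_12,
   sr7_c1_13,
   sr7_c1_14,
   sr7_c1_15,
   sr7_c1_16,
   sr7_c1_17,
   sr7_c1_18,
   sr7_c1_19,
   sr7_c1_20,
   sr7_c1_21,
   sr7_c1_22,
   sr7_c1_23,
   sr7_c1_24,
   sr7_c1_25,
   sr7_c1_26,
   sr7_c1_27,
   sr7_c1_28,
   sr7_c1_29,
   sr7_c1_30,
   sr7_c1_31,
   sr7_c1_32,
   sr7_c1_33,
   sr7_c1_34,
   sr7_c1_35,
   sr7_c1_36,
   sr7_c1_37,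
   sr7_c1_38,
   sr7_c1_39,
   sr7_c1_40,
   sr7_c1_41,
   sr7_c1_42,
   sr7_c1_43,
   sr7_c1_44,
   sr7_c1_45,
   sr7_c1_46,
   sr7_c1_47,
   sr7_c1_48,
   sr7_c1_49,
   sr7_c1_50,
   sr7_c1_51,
   sr7_c1_52,
   sr7_c1_53,
   sr7_c1_54,
   sr7_c1_55,
   sr7_c1_56,
   sr7_c1_57,
   sr7_c1_58,
   sr7_c1_59,
   sr7_c1_60,
   sr7_c1_61,
   sr7_c1_62,
   sr7_c1_63,
   sr7_c1_64,
   sr7_c1_65,
   sr7_c1_66,
   sr7_c1_67,
   sr7_c1_68,
   sr7_c1_69,
   sr7_c1_70,
   sr7_c1_71,
   sr7_c1_72]

/-- A row. -/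
noncomputable def sr7_c2_0 : List ℕ × List ℤ :=
  ([(nat_lit 0),(nat_lit 0),(nat_lit 0),(nat_lit 0),(nat_lit 0),(nat_lit 0),(nat_lit 0),(nat_lit 0),(nat_lit 0),(nat_lit 1),(nat_lit 0),(nat_lit 0)], [Int.ofNat (nat_lit 73577661),Int.negSucc (nat_lit 70442275),Int.ofNat (nat_lit 118758045),Int.negSucc (nat_lit 71512494),Int.ofNat (nat_lit 130757082),Int.ofNat (nat_lit 3634140),Int.negSucc (nat_lit 45544983),Int.negSucc (nat_lit 36646653),Int.negSucc (nat_lit 45480194),Int.negSucc (nat_lit 26712680),Int.negSucc (nat_lit 10419982),Int.negSucc (nat_lit 28818722),Int.negSucc (nat_lit 17249855),Int.negSucc (nat_lit 13733481),Int.negSucc (nat_lit 27029906),Int.negSucc (nat_lit 4127975),Int.ofNat (nat_lit 6873546),Int.negSucc (nat_lit 26990799),Int.negSucc (nat_lit 4824443),Int.negSucc (nat_lit 2280478),Int.negSucc (nat_lit 1950722),Int.ofNat (nat_lit 10810564),Int.ofNat (nat_lit 21652744),Int.ofNat (nat_lit 6430019),Int.negSucc (nat_lit 8264817),Int.negSucc (nat_lit 16956145),Int.negSucc (nat_lit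 6757863),Int.ofNat (nat_lit 14235081),Int.ofNat (nat_lit 2540391),Int.ofNat (nat_lit 11940915),Int.ofNat (nat_lit 8259870),Int.negSucc (nat_lit 40648411),Int.negSucc (nat_lit 9215791),Int.negSucc (nat_lit 2804440),Int.negSucc (nat_lit 2400463),Int.negSucc (nat_lit 8904150),Int.negSucc (nat_lit 6137379),Int.negSucc (nat_lit 19824778),Int.ofNat (nat_lit 17428043),Int.ofNat (nat_lit 31451679),Int.negSucc (nat_lit 16881594),Int.negSucc (nat_lit 11686125),Int.ofNat (nat_lit 6632299),Int.negSucc (nat_lit 16271207),Int.ofNat (nat_lit 12868431),Int.ofNat (nat_lit 10842274),Int.negSucc (nat_lit 9301350),Int.ofNat (nat_lit 2428341),Int.ofNat (nat_lit 7639347),Int.ofNat (nat_lit 4838290),Int.ofNat (nat_lit 1090922),Int.negSucc (nat_lit 4905268),Int.negSucc (nat_lit 19647797),Int.ofNat (nat_lit 11660501),Int.ofNat (nat_lit 17448398),Int.ofNat (nat_lit 11668654),Int.negSucc (nat_lit 9883496),Int.negSucc (nat_lit 1205801),Int.ofNat (nat_lit 11415431),Int.negSucc (nat_lit 18530501),Int.ofNat (nat_lit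 20715689),Int.ofNat (nat_lit 17712300),Int.negSucc (nat_lit 9226146),Int.negSucc (nat_lit 5279637),Int.negSucc (nat_lit 2199019),Int.negSucc (nat_lit 13346144),Int.ofNat (nat_lit 1367393),Int.ofNat (nat_lit 10665646),Int.ofNat (nat_lit 9399344),Int.ofNat (nat_lit 5633304),Int.negSucc (nat_lit 39268128),Int.ofNat (nat_lit 226090),Int.negSucc (nat_lit 6689874),Int.negSucc (nat_lit 1063821),Int.ofNat (nat_lit 7922376),Int.negSucc (nat_lit 2853298),Int.ofNat (nat_lit 1976094),Int.ofNat (nat_lit 14769144),Int.negSucc (nat_lit 5762836),Int.negSucc (nat_lit 13798629),Int.negSucc (nat_lit 12870895),Int.negSucc (nat_lit 8981444),Int.ofNat (nat_lit 18592790),Int.ofNat (nat_lit 1762943),Int.negSucc (nat_lit 5141497),Int.negSucc (nat_lit 4316684),Int.negSucc (nat_lit 8490470),Int.ofNat (nat_lit 3341864),Int.negSucc (nat_lit 2365713),Int.ofNat (nat_lit 5108481),Int.ofNat (nat_lit 7188069),Int.negSucc (nat_lit 1453004),Int.ofNat (nat_lit 3228926),Int.ofNat (nat_lit 311735),Int.ofNat (nat_lit 991594),Int.negSucc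 (nat_lit 3567140),Int.negSucc (nat_lit 1171415),Int.negSucc (nat_lit 3618264),Int.ofNat (nat_lit 219530),Int.ofNat (nat_lit 1037980),Int.negSucc (nat_lit 1959192),Int.ofNat (nat_lit 14051854),Int.negSucc (nat_lit 10456848),Int.ofNat (nat_lit 4559130),Int.ofNat (nat_lit 9550798),Int.negSucc (nat_lit 262534),Int.negSucc (nat_lit 3724145),Int.ofNat (nat_lit 1944628),Int.negSucc (nat_lit 2125301),Int.ofNat (nat_lit 5337056),Int.ofNat (nat_lit 3398836),Int.ofNat (nat_lit 239655),Int.negSucc (nat_lit 11220443),Int.ofNat (nat_lit 1590853),Int.negSucc (nat_lit 3563550),Int.ofNat (nat_lit 1355221),Int.ofNat (nat_lit 4772980),Int.negSucc (nat_lit 986292),Int.ofNat (nat_lit 1573407),Int.ofNat (nat_lit 5149520),Int.ofNat (nat_lit 3070196),Int.ofNat (nat_lit 8327082),Int.ofNat (nat_lit 7102253),Int.negSucc (nat_lit 1111502),Int.ofNat (nat_lit 910362),Int.ofNat (nat_lit 1023108),Int.negSucc (nat_lit 4459471),Int.negSucc (nat_lit 3684789),Int.negSucc (nat_lit 4452102),Int.negSucc (nat_lit 6247705),Int.ofNat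 (nat_lit 867569),Int.negSucc (nat_lit 3355218),Int.ofNat (nat_lit 1497236),Int.ofNat (nat_lit 426467),Int.negSucc (nat_lit 937837),Int.ofNat (nat_lit 2022935),Int.ofNat (nat_lit 1610671),Int.ofNat (nat_lit 464175),Int.negSucc (nat_lit 2059285),Int.ofNat (nat_lit 67204326)])

/-- A row. -/
noncomputable def sr7_c2_1 : List ℕ × List ℤ :=
  ([(nat_lit 0),(nat_lit 0),(nat_lit 0),(nat_lit 0),(nat_lit 0),(nat_lit 0),(nat_lit 0),(nat_lit 1),(nat_lit 0),(nat_lit 0),(nat_lit 0),(nat_lit 0)], [Int.ofNat (nat_lit 43078789),Int.ofNat (nat_lit 149502105),Int.ofNat (nat_lit 232326599),Int.ofNat (nat_lit 40979538),Int.ofNat (nat_lit 171359588),Int.negSucc (nat_lit 153722364),Int.negSucc (nat_lit 75524682),Int.ofNat (nat_lit 101999043),Int.negSucc (nat_lit 137769194),Int.negSucc (nat_lit 24209800),Int.negSucc (nat_lit 33099654),Int.ofNat (nat_lit 43399743),Int.negSucc (nat_lit 38050127),Int.ofNat (nat_lit 29001083),Int.negSucc (nat_lit 63152595),Int.ofNat (nat_lit 69812151),Int.ofNat (nat_lit 14674400),Int.negSucc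 (nat_lit 41844117),Int.negSucc (nat_lit 46433829),Int.negSucc (nat_lit 45019327),Int.ofNat (nat_lit 29947587),Int.ofNat (nat_lit 1147443),Int.negSucc (nat_lit 38422821),Int.negSucc (nat_lit 14166134),Int.negSucc (nat_lit 10919951),Int.ofNat (nat_lit 36914584),Int.negSucc (nat_lit 24589579),Int.negSucc (nat_lit 12825690),Int.negSucc (nat_lit 11704787),Int.ofNat (nat_lit 8308990),Int.negSucc (nat_lit 1700569),Int.negSucc (nat_lit 79714384),Int.negSucc (nat_lit 60426269),Int.ofNat (nat_lit 40864609),Int.ofNat (nat_lit 50291642),Int.negSucc (nat_lit 77763178),Int.negSucc (nat_lit 14786566),Int.negSucc (nat_lit 60710032),Int.negSucc (nat_lit 5646553),Int.ofNat (nat_lit 36267426),Int.negSucc (nat_lit 943086),Int.negSucc (nat_lit 78883890),Int.negSucc (nat_lit 12061277),Int.negSucc (nat_lit 38369911),Int.ofNat (nat_lit 31133255),Int.ofNat (nat_lit 22825460),Int.ofNat (nat_lit 24340672),Int.negSucc (nat_lit 10845929),Int.ofNat (nat_lit 13321690),Int.ofNat (nat_lit 45467703),Int.ofNat (nat_lit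 11511155),Int.negSucc (nat_lit 22462912),Int.negSucc (nat_lit 50999925),Int.negSucc (nat_lit 22866550),Int.negSucc (nat_lit 6561073),Int.ofNat (nat_lit 23498558),Int.negSucc (nat_lit 34636620),Int.ofNat (nat_lit 18045509),Int.negSucc (nat_lit 49723486),Int.ofNat (nat_lit 21770799),Int.negSucc (nat_lit 35418937),Int.negSucc (nat_lit 32132001),Int.ofNat (nat_lit 3521307),Int.negSucc (nat_lit 37554233),Int.ofNat (nat_lit 3762572),Int.negSucc (nat_lit 67209768),Int.negSucc (nat_lit 15339040),Int.ofNat (nat_lit 66201641),Int.ofNat (nat_lit 62220462),Int.negSucc (nat_lit 16882178),Int.negSucc (nat_lit 44531818),Int.ofNat (nat_lit 49082917),Int.negSucc (nat_lit 15223359),Int.negSucc (nat_lit 18139218),Int.ofNat (nat_lit 7050963),Int.ofNat (nat_lit 10476844),Int.negSucc (nat_lit 20097536),Int.ofNat (nat_lit 21479123),Int.ofNat (nat_lit 24098550),Int.ofNat (nat_lit 17417755),Int.ofNat (nat_lit 6402710),Int.negSucc (nat_lit 12615983),Int.negSucc (nat_lit 23616456),Int.ofNat (nat_lit 28197208),Int.ofNat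 (nat_lit 37859889),Int.negSucc (nat_lit 18971296),Int.negSucc (nat_lit 14930407),Int.ofNat (nat_lit 20419413),Int.negSucc (nat_lit 22118042),Int.ofNat (nat_lit 13658268),Int.negSucc (nat_lit 12905972),Int.negSucc (nat_lit 5156270),Int.negSucc (nat_lit 11047775),Int.ofNat (nat_lit 3878894),Int.ofNat (nat_lit 16023597),Int.ofNat (nat_lit 12883431),Int.ofNat (nat_lit 34105121),Int.negSucc (nat_lit 5241741),Int.ofNat (nat_lit 21179718),Int.negSucc (nat_lit 9713644),Int.ofNat (nat_lit 37308619),Int.ofNat (nat_lit 11882900),Int.negSucc (nat_lit 1329197),Int.negSucc (nat_lit 8615642),Int.negSucc (nat_lit 12973082),Int.ofNat (nat_lit 5336977),Int.negSucc (nat_lit 8663982),Int.negSucc (nat_lit 4092120),Int.negSucc (nat_lit 27783186),Int.ofNat (nat_lit 12575006),Int.ofNat (nat_lit 4695175),Int.ofNat (nat_lit 13448364),Int.ofNat (nat_lit 19189152),Int.ofNat (nat_lit 1374457),Int.ofNat (nat_lit 1029891),Int.negSucc (nat_lit 14185626),Int.ofNat (nat_lit 325101),Int.negSucc (nat_lit 381457),Int.negSucc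 (nat_lit 14225064),Int.negSucc (nat_lit 36200202),Int.ofNat (nat_lit 19009390),Int.ofNat (nat_lit 6126902),Int.negSucc (nat_lit 3429516),Int.ofNat (nat_lit 4390568),Int.ofNat (nat_lit 1635270),Int.negSucc (nat_lit 16362243),Int.ofNat (nat_lit 9831326),Int.negSucc (nat_lit 20778036),Int.negSucc (nat_lit 5981086),Int.ofNat (nat_lit 2930982),Int.ofNat (nat_lit 1892876),Int.negSucc (nat_lit 1012441),Int.ofNat (nat_lit 949848),Int.negSucc (nat_lit 12873020),Int.ofNat (nat_lit 14800488),Int.ofNat (nat_lit 510590),Int.ofNat (nat_lit 23691393),Int.negSucc (nat_lit 14202563),Int.ofNat (nat_lit 19068494),Int.ofNat (nat_lit 22498165),Int.ofNat (nat_lit 248925162)])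

/-- A row. -/
noncomputable def sr7_c2_2 : List ℕ × List ℤ :=
  ([(nat_lit 0),(nat_lit 0),(nat_lit 0),(nat_lit 0),(nat_lit 0),(nat_lit 1),(nat_lit 0),(nat_lit 0),(nat_lit 0),(nat_lit 0),(nat_lit 0),(nat_lit 0)], [Int.negSucc (nat_lit 487076257),Int.ofNat (nat_lit 155899052),Int.negSucc (nat_lit 532604265),Int.ofNat (nat_lit 326472541),Int.ofNat (nat_lit 67224654),Int.ofNat (nat_lit 187862600),Int.negSucc (nat_lit 254657028),Int.negSucc (nat_lit 157939364),Int.negSucc (nat_lit 211689559),Int.ofNat (nat_lit 142245522),Int.negSucc (nat_lit 49149372),Int.negSucc (nat_lit 382017678),Int.negSucc (nat_lit 157318802),Int.ofNat (nat_lit 198588017),Int.negSucc (nat_lit 96559393),Int.negSucc (nat_lit 121430321),Int.ofNat (nat_lit 92233707),Int.negSucc (nat_lit 214565208),Int.ofNat (nat_lit 39238211),Int.ofNat (nat_lit 96817612),Int.ofNat (nat_lit 27761266),Int.ofNat (nat_lit 77428562),Int.ofNat (nat_lit 66448926),Int.ofNat (nat_lit 104123896),Int.ofNat (nat_lit 153320570),Int.negSucc (nat_lit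 85430826),Int.negSucc (nat_lit 12099208),Int.negSucc (nat_lit 17624299),Int.negSucc (nat_lit 22319882),Int.negSucc (nat_lit 27616853),Int.negSucc (nat_lit 30921262),Int.ofNat (nat_lit 61314693),Int.ofNat (nat_lit 82504369),Int.ofNat (nat_lit 62196646),Int.negSucc (nat_lit 84773961),Int.negSucc (nat_lit 48026164),Int.ofNat (nat_lit 169648563),Int.ofNat (nat_lit 3243009),Int.ofNat (nat_lit 36228943),Int.ofNat (nat_lit 80815088),Int.ofNat (nat_lit 94780282),Int.negSucc (nat_lit 37676573),Int.negSucc (nat_lit 39810996),Int.negSucc (nat_lit 153868108),Int.ofNat (nat_lit 27974636),Int.negSucc (nat_lit 67266783),Int.ofNat (nat_lit 19780651),Int.negSucc (nat_lit 64379312),Int.negSucc (nat_lit 31512371),Int.negSucc (nat_lit 61066875),Int.ofNat (nat_lit 218985874),Int.ofNat (nat_lit 44583715),Int.negSucc (nat_lit 15113390),Int.ofNat (nat_lit 34202598),Int.ofNat (nat_lit 117217159),Int.negSucc (nat_lit 39171416),Int.ofNat (nat_lit 19865565),Int.ofNat (nat_lit 63004310),Int.ofNat (nat_lit 12305231),Int.ofNat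 (nat_lit 15326630),Int.negSucc (nat_lit 37415894),Int.negSucc (nat_lit 103233336),Int.negSucc (nat_lit 26903421),Int.ofNat (nat_lit 31499735),Int.negSucc (nat_lit 16874395),Int.ofNat (nat_lit 102103976),Int.negSucc (nat_lit 62421653),Int.negSucc (nat_lit 131333713),Int.ofNat (nat_lit 52475997),Int.negSucc (nat_lit 40953345),Int.negSucc (nat_lit 100554301),Int.negSucc (nat_lit 67331626),Int.negSucc (nat_lit 53345045),Int.ofNat (nat_lit 99775027),Int.negSucc (nat_lit 37543639),Int.ofNat (nat_lit 43801),Int.negSucc (nat_lit 9607996),Int.ofNat (nat_lit 14219020),Int.ofNat (nat_lit 47479051),Int.ofNat (nat_lit 7857582),Int.ofNat (nat_lit 2087515),Int.ofNat (nat_lit 16654228),Int.negSucc (nat_lit 19684244),Int.ofNat (nat_lit 30135811),Int.ofNat (nat_lit 23731653),Int.ofNat (nat_lit 582287),Int.negSucc (nat_lit 53828370),Int.ofNat (nat_lit 17540305),Int.ofNat (nat_lit 3777542),Int.negSucc (nat_lit 7167574),Int.ofNat (nat_lit 32242364),Int.ofNat (nat_lit 13871516),Int.ofNat (nat_lit 14374547),Int.negSucc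 (nat_lit 5849760),Int.negSucc (nat_lit 42807461),Int.ofNat (nat_lit 19472830),Int.negSucc (nat_lit 10388563),Int.negSucc (nat_lit 1859293),Int.negSucc (nat_lit 18434164),Int.ofNat (nat_lit 11672812),Int.negSucc (nat_lit 41352913),Int.ofNat (nat_lit 6060858),Int.ofNat (nat_lit 22882230),Int.ofNat (nat_lit 24229086),Int.negSucc (nat_lit 18004555),Int.ofNat (nat_lit 7280552),Int.ofNat (nat_lit 108510),Int.ofNat (nat_lit 5242889),Int.negSucc (nat_lit 11448708),Int.negSucc (nat_lit 29763092),Int.ofNat (nat_lit 18909641),Int.negSucc (nat_lit 44538105),Int.negSucc (nat_lit 22137369),Int.ofNat (nat_lit 7575129),Int.negSucc (nat_lit 37901532),Int.ofNat (nat_lit 16786273),Int.ofNat (nat_lit 3116395),Int.ofNat (nat_lit 16453611),Int.negSucc (nat_lit 29921784),Int.negSucc (nat_lit 46176122),Int.negSucc (nat_lit 41851643),Int.ofNat (nat_lit 36490586),Int.ofNat (nat_lit 33568131),Int.ofNat (nat_lit 20410513),Int.negSucc (nat_lit 2728601),Int.negSucc (nat_lit 48582693),Int.negSucc (nat_lit 82203196),Int.negSucc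 (nat_lit 8593092),Int.ofNat (nat_lit 10368484),Int.ofNat (nat_lit 6531442),Int.ofNat (nat_lit 20527615),Int.negSucc (nat_lit 45033131),Int.ofNat (nat_lit 31430365),Int.ofNat (nat_lit 48408873),Int.ofNat (nat_lit 5150562),Int.ofNat (nat_lit 8109604),Int.negSucc (nat_lit 40027778),Int.negSucc (nat_lit 12911594),Int.negSucc (nat_lit 47545097),Int.negSucc (nat_lit 121281275),Int.ofNat (nat_lit 6070658),Int.ofNat (nat_lit 478338683)])

/-- A row. -/
noncomputable def sr7_c2_3 : List ℕ × List ℤ :=
  ([(nat_lit 0),(nat_lit 0),(nat_lit 0),(nat_lit 1),(nat_lit 0),(nat_lit 0),(nat_lit 0),(nat_lit 0),(nat_lit 0),(nat_lit 0),(nat_lit 0),(nat_lit 0)], [Int.ofNat (nat_lit 515046622),Int.negSucc (nat_lit 524131168),Int.ofNat (nat_lit 101934505),Int.negSucc (nat_lit 689810460),Int.negSucc (nat_lit 28120577),Int.ofNat (nat_lit 763157611),Int.negSucc (nat_lit 144730183),Int.ofNat (nat_lit 712452334),Int.ofNat (nat_lit 418691521),Int.negSucc (nat_lit 165296471),Int.ofNat (nat_lit 105231006),Int.negSucc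 (nat_lit 337390057),Int.ofNat (nat_lit 7029476),Int.negSucc (nat_lit 302106963),Int.ofNat (nat_lit 392005147),Int.negSucc (nat_lit 136947746),Int.negSucc (nat_lit 69982646),Int.negSucc (nat_lit 433632930),Int.ofNat (nat_lit 130605261),Int.negSucc (nat_lit 119055232),Int.negSucc (nat_lit 122419291),Int.ofNat (nat_lit 116237174),Int.ofNat (nat_lit 224574578),Int.negSucc (nat_lit 82596581),Int.negSucc (nat_lit 36912172),Int.ofNat (nat_lit 175438072),Int.ofNat (nat_lit 65871488),Int.negSucc (nat_lit 47939130),Int.negSucc (nat_lit 9331449),Int.negSucc (nat_lit 44477645),Int.ofNat (nat_lit 8774139),Int.ofNat (nat_lit 68358886),Int.negSucc (nat_lit 317745530),Int.negSucc (nat_lit 2560742),Int.ofNat (nat_lit 94592229),Int.ofNat (nat_lit 136745841),Int.negSucc (nat_lit 56661823),Int.ofNat (nat_lit 81618554),Int.ofNat (nat_lit 113512114),Int.ofNat (nat_lit 316326590),Int.ofNat (nat_lit 2819341),Int.negSucc (nat_lit 81950075),Int.ofNat (nat_lit 33342031),Int.ofNat (nat_lit 46389016),Int.negSucc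 (nat_lit 100970520),Int.negSucc (nat_lit 50376144),Int.negSucc (nat_lit 55229010),Int.ofNat (nat_lit 25775702),Int.ofNat (nat_lit 14085964),Int.ofNat (nat_lit 32312317),Int.ofNat (nat_lit 7983123),Int.ofNat (nat_lit 46065933),Int.negSucc (nat_lit 44640473),Int.ofNat (nat_lit 114381614),Int.ofNat (nat_lit 31028120),Int.ofNat (nat_lit 19287345),Int.negSucc (nat_lit 53012508),Int.ofNat (nat_lit 6211641),Int.ofNat (nat_lit 3819581),Int.ofNat (nat_lit 231614965),Int.negSucc (nat_lit 23303104),Int.ofNat (nat_lit 72007037),Int.ofNat (nat_lit 82597568),Int.negSucc (nat_lit 130205357),Int.ofNat (nat_lit 27144800),Int.ofNat (nat_lit 74109987),Int.ofNat (nat_lit 520993),Int.ofNat (nat_lit 166863924),Int.negSucc (nat_lit 47327557),Int.ofNat (nat_lit 7712975),Int.negSucc (nat_lit 36882900),Int.negSucc (nat_lit 46864890),Int.ofNat (nat_lit 9446192),Int.ofNat (nat_lit 44277169),Int.ofNat (nat_lit 1029547),Int.negSucc (nat_lit 109783597),Int.ofNat (nat_lit 53842660),Int.negSucc (nat_lit 12127040),Int.ofNat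 (nat_lit 41497133),Int.negSucc (nat_lit 79937279),Int.negSucc (nat_lit 20351355),Int.negSucc (nat_lit 9453562),Int.ofNat (nat_lit 74075748),Int.negSucc (nat_lit 12741934),Int.ofNat (nat_lit 20451211),Int.ofNat (nat_lit 72637490),Int.negSucc (nat_lit 14038329),Int.negSucc (nat_lit 4620168),Int.ofNat (nat_lit 669825),Int.ofNat (nat_lit 426886),Int.ofNat (nat_lit 31727445),Int.ofNat (nat_lit 4540372),Int.negSucc (nat_lit 19453050),Int.negSucc (nat_lit 12392277),Int.ofNat (nat_lit 13483045),Int.ofNat (nat_lit 14083100),Int.negSucc (nat_lit 14687331),Int.negSucc (nat_lit 15517207),Int.negSucc (nat_lit 9771953),Int.negSucc (nat_lit 363278),Int.negSucc (nat_lit 95812497),Int.ofNat (nat_lit 38778278),Int.negSucc (nat_lit 46515320),Int.ofNat (nat_lit 8394939),Int.ofNat (nat_lit 43169990),Int.negSucc (nat_lit 21425100),Int.negSucc (nat_lit 7649516),Int.ofNat (nat_lit 21567764),Int.ofNat (nat_lit 14665016),Int.negSucc (nat_lit 18704316),Int.negSucc (nat_lit 6030105),Int.ofNat (nat_lit 11006319),Int.negSucc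 (nat_lit 63400282),Int.ofNat (nat_lit 9739577),Int.ofNat (nat_lit 3144301),Int.negSucc (nat_lit 36527172),Int.ofNat (nat_lit 24979934),Int.ofNat (nat_lit 5396494),Int.negSucc (nat_lit 39607427),Int.negSucc (nat_lit 891604),Int.negSucc (nat_lit 3949629),Int.negSucc (nat_lit 15166913),Int.ofNat (nat_lit 2559802),Int.negSucc (nat_lit 1735107),Int.ofNat (nat_lit 18159307),Int.negSucc (nat_lit 28696892),Int.ofNat (nat_lit 34023478),Int.negSucc (nat_lit 4499289),Int.negSucc (nat_lit 19876752),Int.ofNat (nat_lit 5378743),Int.ofNat (nat_lit 41387506),Int.ofNat (nat_lit 13516156),Int.ofNat (nat_lit 42845801),Int.negSucc (nat_lit 13077948),Int.negSucc (nat_lit 43250855),Int.ofNat (nat_lit 7463839),Int.ofNat (nat_lit 2315816),Int.negSucc (nat_lit 5160453),Int.ofNat (nat_lit 47095654),Int.ofNat (nat_lit 164756327),Int.negSucc (nat_lit 113923051),Int.negSucc (nat_lit 208586163),Int.ofNat (nat_lit 549028774)])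

/-- A row. -/
noncomputable def sr7_c2_4 : List ℕ × List ℤ :=
  ([(nat_lit 0),(nat_lit 0),(nat_lit 0),(nat_lit 1),(nat_lit 1),(nat_lit 0),(nat_lit 0),(nat_lit 0),(nat_lit 0),(nat_lit 0),(nat_lit 0),(nat_lit 0)], [Int.ofNat (nat_lit 52249640),Int.ofNat (nat_lit 141492635),Int.ofNat (nat_lit 267042797),Int.negSucc (nat_lit 268252548),Int.negSucc (nat_lit 159072476),Int.negSucc (nat_lit 153627730),Int.ofNat (nat_lit 297525877),Int.ofNat (nat_lit 312409642),Int.ofNat (nat_lit 124615422),Int.ofNat (nat_lit 27410543),Int.negSucc (nat_lit 118426591),Int.ofNat (nat_lit 286837408),Int.ofNat (nat_lit 201381550),Int.negSucc (nat_lit 105906243),Int.ofNat (nat_lit 37294338),Int.ofNat (nat_lit 76885237),Int.ofNat (nat_lit 32608582),Int.ofNat (nat_lit 285229193),Int.ofNat (nat_lit 15940631),Int.ofNat (nat_lit 30459113),Int.ofNat (nat_lit 40115938),Int.negSucc (nat_lit 55311361),Int.negSucc (nat_lit 62584482),Int.ofNat (nat_lit 50628703),Int.negSucc (nat_lit 5601366),Int.negSucc (nat_lit 50272020),Int.negSucc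 (nat_lit 27591112),Int.ofNat (nat_lit 13365121),Int.negSucc (nat_lit 4655014),Int.ofNat (nat_lit 73461641),Int.ofNat (nat_lit 19936465),Int.negSucc (nat_lit 98239950),Int.ofNat (nat_lit 65327953),Int.negSucc (nat_lit 10504340),Int.ofNat (nat_lit 55064276),Int.ofNat (nat_lit 106069502),Int.negSucc (nat_lit 56393927),Int.ofNat (nat_lit 4555449),Int.negSucc (nat_lit 81621465),Int.negSucc (nat_lit 131970705),Int.ofNat (nat_lit 14661114),Int.ofNat (nat_lit 97353960),Int.ofNat (nat_lit 29793008),Int.ofNat (nat_lit 106629880),Int.ofNat (nat_lit 6652570),Int.ofNat (nat_lit 53962206),Int.negSucc (nat_lit 833362),Int.ofNat (nat_lit 28951577),Int.ofNat (nat_lit 7111076),Int.ofNat (nat_lit 3730457),Int.negSucc (nat_lit 51631144),Int.ofNat (nat_lit 121314842),Int.ofNat (nat_lit 128264961),Int.negSucc (nat_lit 14706037),Int.negSucc (nat_lit 75314988),Int.negSucc (nat_lit 4353908),Int.ofNat (nat_lit 24563550),Int.negSucc (nat_lit 21818735),Int.ofNat (nat_lit 64308320),Int.negSucc (nat_lit 111978440),Int.ofNat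 (nat_lit 50787125),Int.ofNat (nat_lit 14681388),Int.negSucc (nat_lit 27452209),Int.ofNat (nat_lit 7170343),Int.negSucc (nat_lit 14986110),Int.negSucc (nat_lit 41914967),Int.ofNat (nat_lit 28471899),Int.negSucc (nat_lit 52563322),Int.ofNat (nat_lit 6503479),Int.ofNat (nat_lit 42710279),Int.ofNat (nat_lit 84464379),Int.negSucc (nat_lit 19614571),Int.ofNat (nat_lit 36829192),Int.negSucc (nat_lit 45124054),Int.negSucc (nat_lit 8492695),Int.negSucc (nat_lit 3974682),Int.ofNat (nat_lit 3519685),Int.negSucc (nat_lit 21928726),Int.negSucc (nat_lit 79974721),Int.ofNat (nat_lit 32205621),Int.negSucc (nat_lit 18790948),Int.negSucc (nat_lit 4153186),Int.negSucc (nat_lit 5961959),Int.ofNat (nat_lit 5856346),Int.negSucc (nat_lit 60795884),Int.ofNat (nat_lit 27844216),Int.ofNat (nat_lit 102509274),Int.negSucc (nat_lit 33937599),Int.ofNat (nat_lit 14885681),Int.negSucc (nat_lit 4588396),Int.negSucc (nat_lit 49119183),Int.negSucc (nat_lit 7374965),Int.ofNat (nat_lit 9665474),Int.ofNat (nat_lit 6109670),Int.ofNat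 (nat_lit 3146376),Int.negSucc (nat_lit 12898057),Int.negSucc (nat_lit 18004707),Int.ofNat (nat_lit 10889162),Int.negSucc (nat_lit 11321702),Int.ofNat (nat_lit 6946782),Int.ofNat (nat_lit 24563936),Int.negSucc (nat_lit 41504447),Int.ofNat (nat_lit 43890022),Int.negSucc (nat_lit 30030411),Int.negSucc (nat_lit 3838969),Int.negSucc (nat_lit 20307948),Int.ofNat (nat_lit 23983099),Int.negSucc (nat_lit 3970906),Int.ofNat (nat_lit 19358441),Int.ofNat (nat_lit 33993094),Int.ofNat (nat_lit 2004431),Int.ofNat (nat_lit 13802893),Int.ofNat (nat_lit 901014),Int.negSucc (nat_lit 3394401),Int.ofNat (nat_lit 38508301),Int.ofNat (nat_lit 24979464),Int.negSucc (nat_lit 11134926),Int.negSucc (nat_lit 1443490),Int.ofNat (nat_lit 23581265),Int.ofNat (nat_lit 76025150),Int.negSucc (nat_lit 5551016),Int.negSucc (nat_lit 34999831),Int.negSucc (nat_lit 4904743),Int.negSucc (nat_lit 2737457),Int.negSucc (nat_lit 4239690),Int.ofNat (nat_lit 41516937),Int.negSucc (nat_lit 122173),Int.ofNat (nat_lit 22931188),Int.negSucc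 (nat_lit 7600819),Int.ofNat (nat_lit 9107469),Int.negSucc (nat_lit 49600152),Int.negSucc (nat_lit 1221153),Int.negSucc (nat_lit 8501691),Int.ofNat (nat_lit 952965),Int.ofNat (nat_lit 18329963),Int.negSucc (nat_lit 1449591),Int.negSucc (nat_lit 27767194),Int.ofNat (nat_lit 24163541),Int.negSucc (nat_lit 19453714),Int.ofNat (nat_lit 37235534),Int.negSucc (nat_lit 72617958),Int.negSucc (nat_lit 23886886),Int.negSucc (nat_lit 92745239),Int.ofNat (nat_lit 273586164)])

/-- A row. -/
noncomputable def sr7_c2_5 : List ℕ × List ℤ :=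
  ([(nat_lit 0),(nat_lit 0),(nat_lit 1),(nat_lit 0),(nat_lit 0),(nat_lit 1),(nat_lit 0),(nat_lit 0),(nat_lit 0),(nat_lit 0),(nat_lit 0),(nat_lit 0)], [Int.negSucc (nat_lit 345593813),Int.negSucc (nat_lit 112287441),Int.negSucc (nat_lit 555415862),Int.ofNat (nat_lit 428824872),Int.negSucc (nat_lit 108621692),Int.negSucc (nat_lit 23895521),Int.negSucc (nat_lit 174256906),Int.negSucc (nat_lit 43788037),Int.negSucc (nat_lit 348912651),Int.negSucc (nat_lit 114648632),Int.ofNat (nat_lit 58769128),Int.negSucc (nat_lit 269660951),Int.negSucc (nat_lit 274286169),Int.negSucc (nat_lit 36927508),Int.negSucc (nat_lit 28016059),Int.negSucc (nat_lit 21980039),Int.ofNat (nat_lit 27025356),Int.negSucc (nat_lit 245161478),Int.negSucc (nat_lit 27193113),Int.negSucc (nat_lit 16475161),Int.negSucc (nat_lit 31868846),Int.ofNat (nat_lit 41764199),Int.ofNat (nat_lit 78300907),Int.negSucc (nat_lit 71463048),Int.ofNat (nat_lit 92491536),Int.ofNat (nat_lit 78491813),Int.negSucc (nat_lit 49239368),Int.ofNat (nat_lit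 27675689),Int.negSucc (nat_lit 49820488),Int.negSucc (nat_lit 87995185),Int.ofNat (nat_lit 6613728),Int.negSucc (nat_lit 47156465),Int.ofNat (nat_lit 34677889),Int.ofNat (nat_lit 177565809),Int.ofNat (nat_lit 12121286),Int.negSucc (nat_lit 77946284),Int.ofNat (nat_lit 123352944),Int.ofNat (nat_lit 9452000),Int.ofNat (nat_lit 77425220),Int.ofNat (nat_lit 131159799),Int.ofNat (nat_lit 16316152),Int.negSucc (nat_lit 83879815),Int.ofNat (nat_lit 19970939),Int.negSucc (nat_lit 42078196),Int.negSucc (nat_lit 16318207),Int.negSucc (nat_lit 19847135),Int.ofNat (nat_lit 9621714),Int.negSucc (nat_lit 12002927),Int.negSucc (nat_lit 2857094),Int.negSucc (nat_lit 66111000),Int.ofNat (nat_lit 60072818),Int.negSucc (nat_lit 4129218),Int.ofNat (nat_lit 66537878),Int.ofNat (nat_lit 10268598),Int.negSucc (nat_lit 5003447),Int.negSucc (nat_lit 5045839),Int.ofNat (nat_lit 5948197),Int.ofNat (nat_lit 6620389),Int.ofNat (nat_lit 72281702),Int.ofNat (nat_lit 84497452),Int.ofNat (nat_lit 7533339),Int.ofNat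 (nat_lit 8048883),Int.ofNat (nat_lit 14396030),Int.ofNat (nat_lit 25741650),Int.ofNat (nat_lit 2316143),Int.ofNat (nat_lit 5770621),Int.negSucc (nat_lit 19971522),Int.ofNat (nat_lit 3905739),Int.ofNat (nat_lit 6313861),Int.negSucc (nat_lit 33541806),Int.negSucc (nat_lit 77534650),Int.ofNat (nat_lit 11819165),Int.negSucc (nat_lit 16405714),Int.ofNat (nat_lit 19496715),Int.ofNat (nat_lit 2333488),Int.ofNat (nat_lit 11180307),Int.negSucc (nat_lit 4258515),Int.ofNat (nat_lit 16612038),Int.ofNat (nat_lit 43839898),Int.negSucc (nat_lit 16722452),Int.ofNat (nat_lit 8011558),Int.ofNat (nat_lit 1112670),Int.ofNat (nat_lit 7751499),Int.ofNat (nat_lit 4979232),Int.ofNat (nat_lit 54173436),Int.negSucc (nat_lit 35877967),Int.negSucc (nat_lit 87865768),Int.ofNat (nat_lit 50180565),Int.negSucc (nat_lit 8677666),Int.ofNat (nat_lit 4552145),Int.ofNat (nat_lit 51848132),Int.negSucc (nat_lit 9870008),Int.ofNat (nat_lit 4445248),Int.negSucc (nat_lit 6493005),Int.negSucc (nat_lit 624576),Int.ofNat (nat_lit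 11989871),Int.ofNat (nat_lit 7174743),Int.negSucc (nat_lit 13044340),Int.ofNat (nat_lit 8514375),Int.ofNat (nat_lit 1383539),Int.negSucc (nat_lit 21875639),Int.ofNat (nat_lit 40754861),Int.negSucc (nat_lit 36544868),Int.ofNat (nat_lit 33372618),Int.negSucc (nat_lit 19767509),Int.ofNat (nat_lit 27311882),Int.negSucc (nat_lit 26709084),Int.ofNat (nat_lit 5162314),Int.negSucc (nat_lit 21018733),Int.negSucc (nat_lit 23585016),Int.ofNat (nat_lit 13025623),Int.negSucc (nat_lit 24257456),Int.ofNat (nat_lit 5015129),Int.negSucc (nat_lit 284413),Int.negSucc (nat_lit 23747773),Int.negSucc (nat_lit 15435929),Int.negSucc (nat_lit 7064899),Int.negSucc (nat_lit 2457332),Int.negSucc (nat_lit 20863730),Int.negSucc (nat_lit 68772052),Int.negSucc (nat_lit 13446862),Int.ofNat (nat_lit 29089558),Int.negSucc (nat_lit 3410668),Int.ofNat (nat_lit 33920077),Int.ofNat (nat_lit 16561862),Int.negSucc (nat_lit 27742494),Int.negSucc (nat_lit 11337765),Int.negSucc (nat_lit 26216515),Int.ofNat (nat_lit 11560475),Int.negSucc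 (nat_lit 8009709),Int.ofNat (nat_lit 16662965),Int.negSucc (nat_lit 29617259),Int.ofNat (nat_lit 10858833),Int.ofNat (nat_lit 4715282),Int.negSucc (nat_lit 12212781),Int.negSucc (nat_lit 18911101),Int.ofNat (nat_lit 23144310),Int.negSucc (nat_lit 17910916),Int.ofNat (nat_lit 5492657),Int.negSucc (nat_lit 16446871),Int.ofNat (nat_lit 63197526),Int.ofNat (nat_lit 81401872),Int.ofNat (nat_lit 45466020),Int.negSucc (nat_lit 182178788),Int.ofNat (nat_lit 184553391)])

/-- A row. -/
noncomputable def sr7_c2_6 : List ℕ × List ℤ :=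
  ([(nat_lit 0),(nat_lit 0),(nat_lit 1),(nat_lit 1),(nat_lit 0),(nat_lit 0),(nat_lit 0),(nat_lit 0),(nat_lit 0),(nat_lit 0),(nat_lit 0),(nat_lit 0)], [Int.ofNat (nat_lit 361989939),Int.negSucc (nat_lit 344859634),Int.ofNat (nat_lit 25491656),Int.negSucc (nat_lit 501475724),Int.ofNat (nat_lit 252734515),Int.ofNat (nat_lit 740057300),Int.negSucc (nat_lit 249160298),Int.ofNat (nat_lit 339137377),Int.ofNat (nat_lit 323255698),Int.negSucc (nat_lit 46685063),Int.ofNat (nat_lit 38835876),Int.negSucc (nat_lit 340671885),Int.negSucc (nat_lit 67515958),Int.negSucc (nat_lit 253861929),Int.ofNat (nat_lit 370172076),Int.negSucc (nat_lit 203693242),Int.negSucc (nat_lit 52884867),Int.negSucc (nat_lit 464146917),Int.ofNat (nat_lit 23346148),Int.negSucc (nat_lit 102553325),Int.negSucc (nat_lit 104586997),Int.ofNat (nat_lit 90834757),Int.ofNat (nat_lit 227016281),Int.negSucc (nat_lit 29208054),Int.negSucc (nat_lit 77465380),Int.ofNat (nat_lit 196202322),Int.ofNat (nat_lit 49312634),Int.negSucc (nat_lit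 87062251),Int.ofNat (nat_lit 2316467),Int.negSucc (nat_lit 3924922),Int.ofNat (nat_lit 1231655),Int.ofNat (nat_lit 104970326),Int.negSucc (nat_lit 333261828),Int.negSucc (nat_lit 58451317),Int.ofNat (nat_lit 151575527),Int.ofNat (nat_lit 132723369),Int.negSucc (nat_lit 26581232),Int.ofNat (nat_lit 24024992),Int.ofNat (nat_lit 136315037),Int.ofNat (nat_lit 327914616),Int.negSucc (nat_lit 20613230),Int.negSucc (nat_lit 113920574),Int.ofNat (nat_lit 35200380),Int.negSucc (nat_lit 71093725),Int.negSucc (nat_lit 63736699),Int.negSucc (nat_lit 48888307),Int.negSucc (nat_lit 50763759),Int.negSucc (nat_lit 28091051),Int.ofNat (nat_lit 15054584),Int.ofNat (nat_lit 39034609),Int.ofNat (nat_lit 73349951),Int.negSucc (nat_lit 12607087),Int.negSucc (nat_lit 158126680),Int.ofNat (nat_lit 95074716),Int.ofNat (nat_lit 100947300),Int.ofNat (nat_lit 27708460),Int.negSucc (nat_lit 47785237),Int.ofNat (nat_lit 54605529),Int.ofNat (nat_lit 4171435),Int.ofNat (nat_lit 281139761),Int.negSucc (nat_lit 55124361),Int.ofNat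 (nat_lit 26124429),Int.ofNat (nat_lit 72134679),Int.negSucc (nat_lit 202661818),Int.ofNat (nat_lit 25687270),Int.ofNat (nat_lit 70166441),Int.negSucc (nat_lit 23073118),Int.ofNat (nat_lit 147789460),Int.negSucc (nat_lit 16129295),Int.ofNat (nat_lit 1517375),Int.negSucc (nat_lit 115378834),Int.negSucc (nat_lit 28114802),Int.negSucc (nat_lit 22373290),Int.ofNat (nat_lit 33972172),Int.ofNat (nat_lit 13817102),Int.negSucc (nat_lit 40153018),Int.ofNat (nat_lit 15308589),Int.ofNat (nat_lit 42897531),Int.ofNat (nat_lit 27844829),Int.negSucc (nat_lit 96737045),Int.ofNat (nat_lit 14424306),Int.negSucc (nat_lit 46222396),Int.ofNat (nat_lit 70071624),Int.ofNat (nat_lit 31750752),Int.ofNat (nat_lit 24433595),Int.ofNat (nat_lit 66432055),Int.negSucc (nat_lit 29897359),Int.negSucc (nat_lit 6284866),Int.negSucc (nat_lit 5171403),Int.ofNat (nat_lit 7195668),Int.ofNat (nat_lit 45026776),Int.ofNat (nat_lit 14015452),Int.negSucc (nat_lit 28205822),Int.negSucc (nat_lit 31103705),Int.ofNat (nat_lit 5868348),Int.ofNat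 (nat_lit 33619313),Int.ofNat (nat_lit 8794700),Int.negSucc (nat_lit 20301775),Int.negSucc (nat_lit 1175221),Int.negSucc (nat_lit 15767040),Int.negSucc (nat_lit 85552515),Int.ofNat (nat_lit 56006531),Int.negSucc (nat_lit 46475208),Int.ofNat (nat_lit 9099844),Int.ofNat (nat_lit 48760126),Int.negSucc (nat_lit 40482591),Int.negSucc (nat_lit 16624288),Int.ofNat (nat_lit 21997946),Int.ofNat (nat_lit 39547615),Int.negSucc (nat_lit 8191116),Int.negSucc (nat_lit 1306309),Int.ofNat (nat_lit 29244363),Int.negSucc (nat_lit 95676528),Int.ofNat (nat_lit 20508798),Int.ofNat (nat_lit 4219923),Int.negSucc (nat_lit 33851595),Int.ofNat (nat_lit 25429100),Int.negSucc (nat_lit 6586791),Int.negSucc (nat_lit 61686065),Int.negSucc (nat_lit 18689022),Int.negSucc (nat_lit 21767144),Int.negSucc (nat_lit 7154143),Int.negSucc (nat_lit 7411937),Int.negSucc (nat_lit 4384090),Int.negSucc (nat_lit 2941512),Int.negSucc (nat_lit 44009849),Int.ofNat (nat_lit 7440649),Int.negSucc (nat_lit 18048778),Int.negSucc (nat_lit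 17038239),Int.negSucc (nat_lit 29659909),Int.ofNat (nat_lit 60231510),Int.negSucc (nat_lit 1409918),Int.ofNat (nat_lit 50713356),Int.ofNat (nat_lit 443778),Int.negSucc (nat_lit 30556126),Int.ofNat (nat_lit 40463979),Int.negSucc (nat_lit 23957182),Int.negSucc (nat_lit 15209776),Int.ofNat (nat_lit 25844775),Int.ofNat (nat_lit 154819719),Int.negSucc (nat_lit 12921529),Int.negSucc (nat_lit 45144578),Int.ofNat (nat_lit 384803254),Int.negSucc (nat_lit 25409324),Int.negSucc (nat_lit 62352890),Int.ofNat (nat_lit 342906028)])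

/-- A row. -/
noncomputable def sr7_c2_7 : List ℕ × List ℤ :=
  ([(nat_lit 0),(nat_lit 1),(nat_lit 0),(nat_lit 0),(nat_lit 0),(nat_lit 0),(nat_lit 0),(nat_lit 0),(nat_lit 0),(nat_lit 0),(nat_lit 0),(nat_lit 0)], [Int.negSucc (nat_lit 960501729),Int.ofNat (nat_lit 179722595),Int.ofNat (nat_lit 94502976),Int.ofNat (nat_lit 781858823),Int.ofNat (nat_lit 208562292),Int.negSucc (nat_lit 730632315),Int.negSucc (nat_lit 162849914),Int.negSucc (nat_lit 360515531),Int.negSucc (nat_lit 385929815),Int.ofNat (nat_lit 107574222),Int.negSucc (nat_lit 65090520),Int.ofNat (nat_lit 369748574),Int.ofNat (nat_lit 7912805),Int.ofNat (nat_lit 739442221),Int.negSucc (nat_lit 292669933),Int.ofNat (nat_lit 156541848),Int.ofNat (nat_lit 158053943),Int.ofNat (nat_lit 499888912),Int.ofNat (nat_lit 5578365),Int.ofNat (nat_lit 120281674),Int.ofNat (nat_lit 91091375),Int.negSucc (nat_lit 32718343),Int.negSucc (nat_lit 123127592),Int.ofNat (nat_lit 100207166),Int.ofNat (nat_lit 80613288),Int.negSucc (nat_lit 182592887),Int.negSucc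 (nat_lit 43718897),Int.ofNat (nat_lit 54935440),Int.ofNat (nat_lit 146817213),Int.ofNat (nat_lit 36405466),Int.negSucc (nat_lit 14112338),Int.negSucc (nat_lit 177220883),Int.ofNat (nat_lit 272204962),Int.negSucc (nat_lit 75132198),Int.negSucc (nat_lit 38924190),Int.negSucc (nat_lit 254547063),Int.negSucc (nat_lit 18069381),Int.negSucc (nat_lit 62690503),Int.negSucc (nat_lit 276665246),Int.negSucc (nat_lit 156984743),Int.ofNat (nat_lit 53596936),Int.ofNat (nat_lit 7994916),Int.negSucc (nat_lit 13479317),Int.ofNat (nat_lit 18944712),Int.negSucc (nat_lit 37214761),Int.ofNat (nat_lit 47293734),Int.ofNat (nat_lit 2537965),Int.negSucc (nat_lit 157901832),Int.negSucc (nat_lit 47597239),Int.negSucc (nat_lit 63081732),Int.negSucc (nat_lit 49603904),Int.ofNat (nat_lit 65448730),Int.ofNat (nat_lit 21743725),Int.negSucc (nat_lit 107401912),Int.negSucc (nat_lit 187376460),Int.negSucc (nat_lit 19224007),Int.negSucc (nat_lit 33912022),Int.negSucc (nat_lit 9463481),Int.ofNat (nat_lit 28708948),Int.negSucc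 (nat_lit 273389013),Int.ofNat (nat_lit 67963269),Int.negSucc (nat_lit 395972),Int.negSucc (nat_lit 128386085),Int.ofNat (nat_lit 1174414),Int.negSucc (nat_lit 126016168),Int.ofNat (nat_lit 19599199),Int.ofNat (nat_lit 37755536),Int.negSucc (nat_lit 186622202),Int.negSucc (nat_lit 34317431),Int.negSucc (nat_lit 9710602),Int.negSucc (nat_lit 48567852),Int.ofNat (nat_lit 25825071),Int.ofNat (nat_lit 44503673),Int.ofNat (nat_lit 50312141),Int.ofNat (nat_lit 25236922),Int.ofNat (nat_lit 30723479),Int.negSucc (nat_lit 155468875),Int.negSucc (nat_lit 9800082),Int.negSucc (nat_lit 67473014),Int.ofNat (nat_lit 15748587),Int.ofNat (nat_lit 18183635),Int.ofNat (nat_lit 14345829),Int.negSucc (nat_lit 22818556),Int.negSucc (nat_lit 21698621),Int.negSucc (nat_lit 105956594),Int.negSucc (nat_lit 182034947),Int.ofNat (nat_lit 72598050),Int.negSucc (nat_lit 40835803),Int.ofNat (nat_lit 24673304),Int.ofNat (nat_lit 211564897),Int.negSucc (nat_lit 86439015),Int.negSucc (nat_lit 3394419),Int.ofNat (nat_lit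 2311330),Int.negSucc (nat_lit 13987977),Int.negSucc (nat_lit 31107152),Int.negSucc (nat_lit 673979),Int.ofNat (nat_lit 36796155),Int.negSucc (nat_lit 73448835),Int.ofNat (nat_lit 48620443),Int.negSucc (nat_lit 73016625),Int.ofNat (nat_lit 73208821),Int.negSucc (nat_lit 46305178),Int.ofNat (nat_lit 18962044),Int.negSucc (nat_lit 28499373),Int.ofNat (nat_lit 35580903),Int.ofNat (nat_lit 16523881),Int.ofNat (nat_lit 21271911),Int.negSucc (nat_lit 14831683),Int.negSucc (nat_lit 26189841),Int.negSucc (nat_lit 50301278),Int.negSucc (nat_lit 850010),Int.negSucc (nat_lit 40658898),Int.negSucc (nat_lit 19981927),Int.negSucc (nat_lit 13142009),Int.negSucc (nat_lit 13627319),Int.ofNat (nat_lit 15954811),Int.ofNat (nat_lit 97178024),Int.negSucc (nat_lit 21026183),Int.ofNat (nat_lit 58950974),Int.negSucc (nat_lit 4139313),Int.ofNat (nat_lit 30566510),Int.ofNat (nat_lit 28956609),Int.ofNat (nat_lit 49597009),Int.negSucc (nat_lit 2086468),Int.negSucc (nat_lit 91125012),Int.ofNat (nat_lit 43809165),Int.negSucc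 (nat_lit 122300608),Int.negSucc (nat_lit 32834643),Int.ofNat (nat_lit 23909410),Int.negSucc (nat_lit 68185946),Int.ofNat (nat_lit 64553857),Int.ofNat (nat_lit 8488236),Int.negSucc (nat_lit 34158116),Int.ofNat (nat_lit 38191199),Int.negSucc (nat_lit 7095731),Int.negSucc (nat_lit 12463342),Int.negSucc (nat_lit 48437996),Int.ofNat (nat_lit 26026205),Int.negSucc (nat_lit 108669640),Int.negSucc (nat_lit 47453006),Int.ofNat (nat_lit 23367830),Int.ofNat (nat_lit 257892825),Int.negSucc (nat_lit 144059213),Int.negSucc (nat_lit 12766908),Int.negSucc (nat_lit 184964905),Int.negSucc (nat_lit 2449156),Int.ofNat (nat_lit 1087193411)])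

/-- A row. -/
noncomputable def sr7_c2_8 : List ℕ × List ℤ :=
  ([(nat_lit 0),(nat_lit 1),(nat_lit 0),(nat_lit 0),(nat_lit 0),(nat_lit 0),(nat_lit 1),(nat_lit 0),(nat_lit 0),(nat_lit 0),(nat_lit 0),(nat_lit 0)], [Int.negSucc (nat_lit 21211055),Int.negSucc (nat_lit 22644690),Int.ofNat (nat_lit 211801700),Int.negSucc (nat_lit 195963598),Int.ofNat (nat_lit 252778562),Int.ofNat (nat_lit 22948179),Int.negSucc (nat_lit 102570187),Int.negSucc (nat_lit 56083288),Int.ofNat (nat_lit 5550797),Int.ofNat (nat_lit 38564881),Int.negSucc (nat_lit 21817651),Int.negSucc (nat_lit 83401058),Int.ofNat (nat_lit 3101886),Int.ofNat (nat_lit 72912461),Int.negSucc (nat_lit 17032389),Int.negSucc (nat_lit 7183118),Int.negSucc (nat_lit 31606766),Int.negSucc (nat_lit 50760361),Int.ofNat (nat_lit 15483774),Int.ofNat (nat_lit 27285566),Int.negSucc (nat_lit 7944996),Int.ofNat (nat_lit 56336278),Int.ofNat (nat_lit 24978965),Int.ofNat (nat_lit 245221),Int.negSucc (nat_lit 13748209),Int.negSucc (nat_lit 65271114),Int.negSucc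 (nat_lit 25900302),Int.negSucc (nat_lit 15755351),Int.ofNat (nat_lit 22946156),Int.ofNat (nat_lit 13325430),Int.negSucc (nat_lit 21173184),Int.ofNat (nat_lit 76915380),Int.negSucc (nat_lit 2011042),Int.negSucc (nat_lit 53462386),Int.ofNat (nat_lit 4949000),Int.negSucc (nat_lit 57259979),Int.negSucc (nat_lit 26152341),Int.negSucc (nat_lit 31788120),Int.negSucc (nat_lit 7175696),Int.negSucc (nat_lit 13628418),Int.negSucc (nat_lit 18157975),Int.negSucc (nat_lit 63782080),Int.negSucc (nat_lit 25398334),Int.negSucc (nat_lit 84535188),Int.ofNat (nat_lit 12549254),Int.ofNat (nat_lit 7215907),Int.negSucc (nat_lit 2276126),Int.negSucc (nat_lit 11956139),Int.negSucc (nat_lit 23071037),Int.ofNat (nat_lit 73274182),Int.ofNat (nat_lit 20615776),Int.negSucc (nat_lit 15204908),Int.negSucc (nat_lit 61445824),Int.negSucc (nat_lit 19524645),Int.ofNat (nat_lit 96856513),Int.ofNat (nat_lit 28324584),Int.negSucc (nat_lit 66756672),Int.ofNat (nat_lit 3347882),Int.negSucc (nat_lit 27673703),Int.negSucc (nat_lit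 9521272),Int.ofNat (nat_lit 13173241),Int.negSucc (nat_lit 8718487),Int.negSucc (nat_lit 34435092),Int.ofNat (nat_lit 23885229),Int.ofNat (nat_lit 7407326),Int.negSucc (nat_lit 3386303),Int.ofNat (nat_lit 6570740),Int.ofNat (nat_lit 3694216),Int.ofNat (nat_lit 9138833),Int.ofNat (nat_lit 14370119),Int.negSucc (nat_lit 90171699),Int.ofNat (nat_lit 1269391),Int.negSucc (nat_lit 3566703),Int.ofNat (nat_lit 20833374),Int.ofNat (nat_lit 9962425),Int.negSucc (nat_lit 7985907),Int.negSucc (nat_lit 2028795),Int.ofNat (nat_lit 12084944),Int.negSucc (nat_lit 18283581),Int.negSucc (nat_lit 18819199),Int.negSucc (nat_lit 11976584),Int.negSucc (nat_lit 614803),Int.ofNat (nat_lit 28405399),Int.negSucc (nat_lit 18284028),Int.negSucc (nat_lit 5781223),Int.negSucc (nat_lit 17037541),Int.ofNat (nat_lit 9598952),Int.negSucc (nat_lit 1443944),Int.negSucc (nat_lit 9770419),Int.ofNat (nat_lit 17333069),Int.ofNat (nat_lit 37743852),Int.ofNat (nat_lit 4321916),Int.ofNat (nat_lit 9019400),Int.negSucc (nat_lit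 3572536),Int.ofNat (nat_lit 2969101),Int.negSucc (nat_lit 15027140),Int.ofNat (nat_lit 13852255),Int.negSucc (nat_lit 7038024),Int.ofNat (nat_lit 2521955),Int.negSucc (nat_lit 13837679),Int.ofNat (nat_lit 7403978),Int.ofNat (nat_lit 53509304),Int.negSucc (nat_lit 3818587),Int.negSucc (nat_lit 3285885),Int.ofNat (nat_lit 35339467),Int.negSucc (nat_lit 6975570),Int.negSucc (nat_lit 4033549),Int.negSucc (nat_lit 4639672),Int.negSucc (nat_lit 13617308),Int.negSucc (nat_lit 18434848),Int.negSucc (nat_lit 7116811),Int.negSucc (nat_lit 6081183),Int.negSucc (nat_lit 32585735),Int.ofNat (nat_lit 965939),Int.ofNat (nat_lit 7699348),Int.ofNat (nat_lit 16717967),Int.ofNat (nat_lit 24914297),Int.ofNat (nat_lit 230667),Int.ofNat (nat_lit 7814986),Int.ofNat (nat_lit 16904007),Int.ofNat (nat_lit 26148036),Int.ofNat (nat_lit 39199696),Int.ofNat (nat_lit 8163033),Int.ofNat (nat_lit 990233),Int.negSucc (nat_lit 16844750),Int.negSucc (nat_lit 9534905),Int.negSucc (nat_lit 18725529),Int.negSucc (nat_lit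 24149793),Int.ofNat (nat_lit 7747262),Int.negSucc (nat_lit 16769419),Int.ofNat (nat_lit 42014077),Int.ofNat (nat_lit 4700471),Int.ofNat (nat_lit 10876521),Int.negSucc (nat_lit 9791612),Int.negSucc (nat_lit 8078891),Int.ofNat (nat_lit 11683650),Int.ofNat (nat_lit 18760194),Int.negSucc (nat_lit 8587308),Int.negSucc (nat_lit 3264320),Int.ofNat (nat_lit 76186672),Int.ofNat (nat_lit 18200835),Int.negSucc (nat_lit 10423036),Int.ofNat (nat_lit 3463514),Int.negSucc (nat_lit 30941932),Int.ofNat (nat_lit 19057872),Int.ofNat (nat_lit 10341546),Int.ofNat (nat_lit 43961504),Int.ofNat (nat_lit 225675197)])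

/-- A row. -/
noncomputable def sr7_c2_9 : List ℕ × List ℤ :=
  ([(nat_lit 0),(nat_lit 1),(nat_lit 0),(nat_lit 0),(nat_lit 1),(nat_lit 0),(nat_lit 0),(nat_lit 0),(nat_lit 0),(nat_lit 0),(nat_lit 0),(nat_lit 0)], [Int.ofNat (nat_lit 1424103224),Int.ofNat (nat_lit 325368807),Int.negSucc (nat_lit 309671378),Int.ofNat (nat_lit 631054039),Int.ofNat (nat_lit 36907563),Int.ofNat (nat_lit 538345302),Int.negSucc (nat_lit 470652316),Int.negSucc (nat_lit 1061839239),Int.negSucc (nat_lit 95115924),Int.ofNat (nat_lit 525936160),Int.ofNat (nat_lit 137629568),Int.negSucc (nat_lit 344691410),Int.negSucc (nat_lit 110250863),Int.ofNat (nat_lit 494531935),Int.negSucc (nat_lit 10748173),Int.negSucc (nat_lit 331142379),Int.ofNat (nat_lit 110968498),Int.negSucc (nat_lit 482022166),Int.negSucc (nat_lit 29060224),Int.ofNat (nat_lit 92079307),Int.negSucc (nat_lit 67716542),Int.negSucc (nat_lit 35095739),Int.negSucc (nat_lit 64968429),Int.ofNat (nat_lit 278014537),Int.negSucc (nat_lit 91421966),Int.ofNat (nat_lit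 174601186),Int.ofNat (nat_lit 419184476),Int.negSucc (nat_lit 71200780),Int.ofNat (nat_lit 268964516),Int.negSucc (nat_lit 241967776),Int.negSucc (nat_lit 115015848),Int.ofNat (nat_lit 249417318),Int.negSucc (nat_lit 94634364),Int.negSucc (nat_lit 117750604),Int.negSucc (nat_lit 238534965),Int.negSucc (nat_lit 65768140),Int.ofNat (nat_lit 231271416),Int.ofNat (nat_lit 58418558),Int.ofNat (nat_lit 118320198),Int.negSucc (nat_lit 1989704),Int.ofNat (nat_lit 65999388),Int.negSucc (nat_lit 2470445),Int.negSucc (nat_lit 178790916),Int.negSucc (nat_lit 268794261),Int.negSucc (nat_lit 7762732),Int.negSucc (nat_lit 179467718),Int.ofNat (nat_lit 116058718),Int.ofNat (nat_lit 60540352),Int.negSucc (nat_lit 108780411),Int.ofNat (nat_lit 176205039),Int.ofNat (nat_lit 178974615),Int.negSucc (nat_lit 344893506),Int.negSucc (nat_lit 240945172),Int.ofNat (nat_lit 377535638),Int.ofNat (nat_lit 470807845),Int.ofNat (nat_lit 6826701),Int.ofNat (nat_lit 60310341),Int.ofNat (nat_lit 215126487),Int.negSucc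 (nat_lit 328197635),Int.ofNat (nat_lit 173594462),Int.negSucc (nat_lit 195481065),Int.negSucc (nat_lit 306685435),Int.ofNat (nat_lit 66017000),Int.ofNat (nat_lit 53856280),Int.ofNat (nat_lit 63061435),Int.ofNat (nat_lit 35151016),Int.negSucc (nat_lit 70446768),Int.ofNat (nat_lit 130145951),Int.ofNat (nat_lit 3618839),Int.negSucc (nat_lit 84640175),Int.ofNat (nat_lit 79433434),Int.ofNat (nat_lit 20787424),Int.negSucc (nat_lit 27800364),Int.ofNat (nat_lit 143912319),Int.ofNat (nat_lit 11858317),Int.ofNat (nat_lit 32113616),Int.ofNat (nat_lit 55673086),Int.ofNat (nat_lit 57935225),Int.ofNat (nat_lit 131199802),Int.ofNat (nat_lit 29772015),Int.ofNat (nat_lit 105919845),Int.ofNat (nat_lit 16610169),Int.negSucc (nat_lit 43907283),Int.negSucc (nat_lit 14223649),Int.ofNat (nat_lit 116993812),Int.ofNat (nat_lit 49166240),Int.negSucc (nat_lit 171793341),Int.negSucc (nat_lit 20545369),Int.negSucc (nat_lit 6848430),Int.negSucc (nat_lit 134328739),Int.ofNat (nat_lit 34889062),Int.ofNat (nat_lit 239650677),Int.ofNat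 (nat_lit 33274326),Int.negSucc (nat_lit 10727685),Int.ofNat (nat_lit 18583839),Int.ofNat (nat_lit 57497163),Int.negSucc (nat_lit 75618549),Int.ofNat (nat_lit 104768044),Int.negSucc (nat_lit 76680062),Int.ofNat (nat_lit 90506736),Int.negSucc (nat_lit 61206354),Int.negSucc (nat_lit 93649073),Int.ofNat (nat_lit 16504063),Int.ofNat (nat_lit 148365578),Int.negSucc (nat_lit 70726394),Int.ofNat (nat_lit 18854477),Int.negSucc (nat_lit 39713282),Int.negSucc (nat_lit 5193287),Int.negSucc (nat_lit 8880639),Int.negSucc (nat_lit 52177393),Int.negSucc (nat_lit 67322406),Int.negSucc (nat_lit 10934447),Int.ofNat (nat_lit 26068458),Int.negSucc (nat_lit 31490966),Int.negSucc (nat_lit 63411020),Int.ofNat (nat_lit 1640132),Int.negSucc (nat_lit 131245797),Int.ofNat (nat_lit 41152424),Int.negSucc (nat_lit 27217162),Int.negSucc (nat_lit 158075693),Int.ofNat (nat_lit 30413487),Int.ofNat (nat_lit 33522517),Int.ofNat (nat_lit 8847843),Int.ofNat (nat_lit 61603839),Int.ofNat (nat_lit 103560973),Int.negSucc (nat_lit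 127963718),Int.ofNat (nat_lit 74141977),Int.negSucc (nat_lit 46351598),Int.ofNat (nat_lit 51652405),Int.ofNat (nat_lit 86440080),Int.negSucc (nat_lit 52821096),Int.ofNat (nat_lit 9227595),Int.ofNat (nat_lit 82793716),Int.negSucc (nat_lit 6462851),Int.ofNat (nat_lit 26769684),Int.negSucc (nat_lit 32919859),Int.ofNat (nat_lit 57047433),Int.negSucc (nat_lit 30945888),Int.ofNat (nat_lit 85568611),Int.negSucc (nat_lit 244653908),Int.ofNat (nat_lit 18068605),Int.ofNat (nat_lit 164943414),Int.negSucc (nat_lit 55893082),Int.negSucc (nat_lit 104705225),Int.negSucc (nat_lit 22749847),Int.ofNat (nat_lit 38693388),Int.negSucc (nat_lit 472293488),Int.negSucc (nat_lit 251219493),Int.ofNat (nat_lit 803045505)])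

/-- A row. -/
noncomputable def sr7_c2_10 : List ℕ × List ℤ :=
  ([(nat_lit 0),(nat_lit 1),(nat_lit 0),(nat_lit 2),(nat_lit 0),(nat_lit 0),(nat_lit 0),(nat_lit 0),(nat_lit 0),(nat_lit 0),(nat_lit 0),(nat_lit 0)], [Int.negSucc (nat_lit 361497772),Int.ofNat (nat_lit 236885917),Int.negSucc (nat_lit 171976636),Int.ofNat (nat_lit 378394923),Int.negSucc (nat_lit 143892642),Int.negSucc (nat_lit 57359707),Int.negSucc (nat_lit 181487281),Int.negSucc (nat_lit 353795919),Int.negSucc (nat_lit 558109297),Int.ofNat (nat_lit 226022126),Int.ofNat (nat_lit 56360928),Int.negSucc (nat_lit 166848394),Int.negSucc (nat_lit 48608416),Int.ofNat (nat_lit 81865235),Int.ofNat (nat_lit 233645781),Int.negSucc (nat_lit 65327857),Int.negSucc (nat_lit 182174042),Int.negSucc (nat_lit 331017925),Int.ofNat (nat_lit 75381141),Int.ofNat (nat_lit 89510361),Int.negSucc (nat_lit 106485504),Int.ofNat (nat_lit 13940989),Int.negSucc (nat_lit 7503878),Int.ofNat (nat_lit 92691433),Int.negSucc (nat_lit 31041255),Int.ofNat (nat_lit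 133936111),Int.ofNat (nat_lit 111153021),Int.negSucc (nat_lit 37374076),Int.ofNat (nat_lit 222619114),Int.negSucc (nat_lit 269706800),Int.negSucc (nat_lit 98286242),Int.negSucc (nat_lit 45514919),Int.negSucc (nat_lit 119374865),Int.negSucc (nat_lit 28738764),Int.ofNat (nat_lit 37271083),Int.negSucc (nat_lit 17686146),Int.ofNat (nat_lit 27492441),Int.ofNat (nat_lit 114936695),Int.negSucc (nat_lit 68144980),Int.negSucc (nat_lit 18479671),Int.negSucc (nat_lit 42081301),Int.ofNat (nat_lit 11477094),Int.negSucc (nat_lit 85314504),Int.negSucc (nat_lit 45555130),Int.ofNat (nat_lit 25291525),Int.ofNat (nat_lit 2219823),Int.ofNat (nat_lit 90191387),Int.ofNat (nat_lit 45176102),Int.negSucc (nat_lit 100134102),Int.ofNat (nat_lit 110619826),Int.negSucc (nat_lit 50248367),Int.negSucc (nat_lit 71441127),Int.negSucc (nat_lit 210591638),Int.ofNat (nat_lit 64079926),Int.negSucc (nat_lit 40097371),Int.negSucc (nat_lit 26682991),Int.ofNat (nat_lit 111188512),Int.ofNat (nat_lit 44997673),Int.negSucc (nat_lit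 66986918),Int.ofNat (nat_lit 83539907),Int.negSucc (nat_lit 45264689),Int.negSucc (nat_lit 79105515),Int.negSucc (nat_lit 68790339),Int.ofNat (nat_lit 11406355),Int.negSucc (nat_lit 38974145),Int.ofNat (nat_lit 36995245),Int.negSucc (nat_lit 7653163),Int.negSucc (nat_lit 46824970),Int.negSucc (nat_lit 25034132),Int.negSucc (nat_lit 33725259),Int.ofNat (nat_lit 38591543),Int.ofNat (nat_lit 28353958),Int.ofNat (nat_lit 44394303),Int.negSucc (nat_lit 28995541),Int.negSucc (nat_lit 3520667),Int.ofNat (nat_lit 20542105),Int.ofNat (nat_lit 38707627),Int.negSucc (nat_lit 8733139),Int.ofNat (nat_lit 3072196),Int.negSucc (nat_lit 26999202),Int.ofNat (nat_lit 13194174),Int.ofNat (nat_lit 56325721),Int.ofNat (nat_lit 57714295),Int.negSucc (nat_lit 20100076),Int.ofNat (nat_lit 47661551),Int.negSucc (nat_lit 73597064),Int.negSucc (nat_lit 97747474),Int.ofNat (nat_lit 26796392),Int.ofNat (nat_lit 26051085),Int.negSucc (nat_lit 23159469),Int.ofNat (nat_lit 65557326),Int.ofNat (nat_lit 74294774),Int.ofNat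 (nat_lit 191929360),Int.ofNat (nat_lit 16100969),Int.negSucc (nat_lit 8717451),Int.negSucc (nat_lit 49549007),Int.negSucc (nat_lit 120264091),Int.ofNat (nat_lit 73466740),Int.negSucc (nat_lit 51692588),Int.ofNat (nat_lit 52795851),Int.negSucc (nat_lit 12546243),Int.negSucc (nat_lit 4659633),Int.negSucc (nat_lit 24862624),Int.ofNat (nat_lit 33160518),Int.ofNat (nat_lit 13064443),Int.ofNat (nat_lit 58418204),Int.negSucc (nat_lit 24830822),Int.ofNat (nat_lit 4241618),Int.negSucc (nat_lit 11908113),Int.negSucc (nat_lit 51142800),Int.ofNat (nat_lit 40060416),Int.negSucc (nat_lit 35901300),Int.ofNat (nat_lit 25719710),Int.negSucc (nat_lit 30730640),Int.negSucc (nat_lit 42351845),Int.ofNat (nat_lit 30503607),Int.negSucc (nat_lit 112779177),Int.ofNat (nat_lit 23465496),Int.negSucc (nat_lit 10665614),Int.ofNat (nat_lit 5534562),Int.negSucc (nat_lit 15655651),Int.ofNat (nat_lit 79124611),Int.negSucc (nat_lit 11926274),Int.negSucc (nat_lit 9701554),Int.ofNat (nat_lit 63348915),Int.negSucc (nat_lit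 48997892),Int.ofNat (nat_lit 18215901),Int.ofNat (nat_lit 15750506),Int.ofNat (nat_lit 74826047),Int.ofNat (nat_lit 18321522),Int.negSucc (nat_lit 59875124),Int.ofNat (nat_lit 29573435),Int.negSucc (nat_lit 58324864),Int.ofNat (nat_lit 301104),Int.negSucc (nat_lit 3925705),Int.negSucc (nat_lit 8900871),Int.ofNat (nat_lit 33473596),Int.negSucc (nat_lit 9826841),Int.ofNat (nat_lit 22240178),Int.negSucc (nat_lit 112705590),Int.negSucc (nat_lit 7288337),Int.ofNat (nat_lit 50461074),Int.negSucc (nat_lit 94391774),Int.negSucc (nat_lit 113027344),Int.ofNat (nat_lit 165423470),Int.negSucc (nat_lit 61218539),Int.negSucc (nat_lit 158456237),Int.negSucc (nat_lit 209692646),Int.ofNat (nat_lit 113918195),Int.ofNat (nat_lit 595689388)])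

/-- A row. -/
noncomputable def sr7_c2_11 : List ℕ × List ℤ :=
  ([(nat_lit 0),(nat_lit 1),(nat_lit 1),(nat_lit 0),(nat_lit 0),(nat_lit 0),(nat_lit 0),(nat_lit 0),(nat_lit 0),(nat_lit 0),(nat_lit 0),(nat_lit 0)], [Int.negSucc (nat_lit 327860887),Int.negSucc (nat_lit 394841348),Int.ofNat (nat_lit 261155959),Int.ofNat (nat_lit 1272253199),Int.negSucc (nat_lit 384204502),Int.negSucc (nat_lit 947352225),Int.negSucc (nat_lit 252508760),Int.ofNat (nat_lit 135577746),Int.negSucc (nat_lit 283989306),Int.negSucc (nat_lit 178010214),Int.ofNat (nat_lit 269376832),Int.ofNat (nat_lit 730035281),Int.ofNat (nat_lit 180204679),Int.ofNat (nat_lit 931111335),Int.negSucc (nat_lit 149094492),Int.ofNat (nat_lit 351547013),Int.ofNat (nat_lit 108867377),Int.ofNat (nat_lit 570560429),Int.ofNat (nat_lit 110469369),Int.ofNat (nat_lit 133089308),Int.ofNat (nat_lit 40186084),Int.negSucc (nat_lit 106320473),Int.negSucc (nat_lit 180585743),Int.negSucc (nat_lit 28967804),Int.negSucc (nat_lit 71982521),Int.ofNat (nat_lit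 173878299),Int.ofNat (nat_lit 291333624),Int.ofNat (nat_lit 191149362),Int.ofNat (nat_lit 334205578),Int.negSucc (nat_lit 38744618),Int.ofNat (nat_lit 35362158),Int.negSucc (nat_lit 524258432),Int.ofNat (nat_lit 212348968),Int.ofNat (nat_lit 29571552),Int.negSucc (nat_lit 23950228),Int.negSucc (nat_lit 475772085),Int.negSucc (nat_lit 127711257),Int.ofNat (nat_lit 88940721),Int.negSucc (nat_lit 420340767),Int.negSucc (nat_lit 183320225),Int.ofNat (nat_lit 229588072),Int.negSucc (nat_lit 20466579),Int.ofNat (nat_lit 17269747),Int.ofNat (nat_lit 440429783),Int.negSucc (nat_lit 145006057),Int.negSucc (nat_lit 28394086),Int.ofNat (nat_lit 93325606),Int.negSucc (nat_lit 75715267),Int.negSucc (nat_lit 90076318),Int.ofNat (nat_lit 93884198),Int.negSucc (nat_lit 306692232),Int.ofNat (nat_lit 8191282),Int.ofNat (nat_lit 51111227),Int.negSucc (nat_lit 116426342),Int.negSucc (nat_lit 489775961),Int.negSucc (nat_lit 13194597),Int.negSucc (nat_lit 43222813),Int.ofNat (nat_lit 3924263),Int.negSucc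 (nat_lit 218164871),Int.negSucc (nat_lit 226514366),Int.ofNat (nat_lit 49723833),Int.ofNat (nat_lit 77642217),Int.negSucc (nat_lit 76464126),Int.negSucc (nat_lit 5465573),Int.negSucc (nat_lit 211312315),Int.negSucc (nat_lit 77170459),Int.ofNat (nat_lit 37833189),Int.ofNat (nat_lit 50252273),Int.negSucc (nat_lit 129978741),Int.negSucc (nat_lit 13910864),Int.ofNat (nat_lit 146131887),Int.ofNat (nat_lit 72503233),Int.ofNat (nat_lit 121295754),Int.ofNat (nat_lit 79398886),Int.ofNat (nat_lit 46432249),Int.negSucc (nat_lit 46255752),Int.negSucc (nat_lit 88537281),Int.negSucc (nat_lit 143340314),Int.ofNat (nat_lit 73803758),Int.ofNat (nat_lit 43640540),Int.ofNat (nat_lit 12083027),Int.ofNat (nat_lit 130008827),Int.ofNat (nat_lit 1006058),Int.negSucc (nat_lit 92506522),Int.negSucc (nat_lit 36479534),Int.negSucc (nat_lit 163110451),Int.ofNat (nat_lit 107850862),Int.negSucc (nat_lit 70705896),Int.negSucc (nat_lit 43163215),Int.ofNat (nat_lit 143426129),Int.negSucc (nat_lit 95275087),Int.ofNat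 (nat_lit 76755916),Int.ofNat (nat_lit 34617313),Int.ofNat (nat_lit 69780993),Int.negSucc (nat_lit 10963529),Int.negSucc (nat_lit 46460812),Int.negSucc (nat_lit 52537782),Int.negSucc (nat_lit 27994292),Int.ofNat (nat_lit 16068463),Int.negSucc (nat_lit 41853723),Int.ofNat (nat_lit 34794028),Int.negSucc (nat_lit 168941314),Int.negSucc (nat_lit 3899229),Int.ofNat (nat_lit 30078571),Int.ofNat (nat_lit 68895287),Int.ofNat (nat_lit 82990919),Int.ofNat (nat_lit 61052075),Int.negSucc (nat_lit 15071042),Int.negSucc (nat_lit 58903451),Int.negSucc (nat_lit 139872641),Int.negSucc (nat_lit 67184674),Int.negSucc (nat_lit 39621611),Int.negSucc (nat_lit 17081936),Int.negSucc (nat_lit 73904689),Int.ofNat (nat_lit 2130774),Int.negSucc (nat_lit 22603647),Int.ofNat (nat_lit 75555883),Int.negSucc (nat_lit 28846206),Int.ofNat (nat_lit 76443440),Int.negSucc (nat_lit 80723318),Int.ofNat (nat_lit 128502326),Int.ofNat (nat_lit 28727533),Int.ofNat (nat_lit 92843855),Int.ofNat (nat_lit 21082731),Int.negSucc (nat_lit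 76576726),Int.ofNat (nat_lit 86757959),Int.negSucc (nat_lit 52342485),Int.negSucc (nat_lit 95288068),Int.ofNat (nat_lit 56507289),Int.negSucc (nat_lit 20600293),Int.ofNat (nat_lit 62870428),Int.ofNat (nat_lit 113201755),Int.negSucc (nat_lit 39254973),Int.ofNat (nat_lit 23949454),Int.negSucc (nat_lit 43776472),Int.negSucc (nat_lit 65136319),Int.ofNat (nat_lit 27426520),Int.ofNat (nat_lit 9110095),Int.negSucc (nat_lit 62428202),Int.negSucc (nat_lit 137391864),Int.ofNat (nat_lit 57344168),Int.negSucc (nat_lit 160746317),Int.ofNat (nat_lit 214158742),Int.negSucc (nat_lit 95697622),Int.negSucc (nat_lit 222488144),Int.negSucc (nat_lit 400775206),Int.ofNat (nat_lit 1182816897),Int.negSucc (nat_lit 143126402),Int.ofNat (nat_lit 329905813),Int.ofNat (nat_lit 179239925),Int.ofNat (nat_lit 854953460)])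

/-- A row. -/
noncomputable def sr7_c2_12 : List ℕ × List ℤ :=
  ([(nat_lit 0),(nat_lit 1),(nat_lit 2),(nat_lit 0),(nat_lit 0),(nat_lit 0),(nat_lit 0),(nat_lit 0),(nat_lit 0),(nat_lit 0),(nat_lit 0),(nat_lit 0)], [Int.ofNat (nat_lit 514567008),Int.negSucc (nat_lit 609713874),Int.negSucc (nat_lit 263458790),Int.ofNat (nat_lit 520961373),Int.negSucc (nat_lit 139117770),Int.ofNat (nat_lit 72049738),Int.negSucc (nat_lit 208327633),Int.ofNat (nat_lit 172783028),Int.ofNat (nat_lit 35767038),Int.negSucc (nat_lit 320893032),Int.ofNat (nat_lit 313343543),Int.negSucc (nat_lit 35391743),Int.negSucc (nat_lit 33653902),Int.ofNat (nat_lit 119022986),Int.ofNat (nat_lit 104894700),Int.ofNat (nat_lit 5497566),Int.ofNat (nat_lit 21169417),Int.negSucc (nat_lit 234337447),Int.ofNat (nat_lit 61956678),Int.negSucc (nat_lit 69422381),Int.negSucc (nat_lit 68853992),Int.ofNat (nat_lit 40521625),Int.ofNat (nat_lit 99178388),Int.negSucc (nat_lit 83658599),Int.negSucc (nat_lit 43971506),Int.ofNat (nat_lit 295427362),Int.ofNat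 (nat_lit 268689494),Int.ofNat (nat_lit 64377903),Int.negSucc (nat_lit 2419708),Int.negSucc (nat_lit 18262058),Int.ofNat (nat_lit 16239135),Int.negSucc (nat_lit 252652799),Int.negSucc (nat_lit 121223461),Int.ofNat (nat_lit 25265347),Int.ofNat (nat_lit 90656365),Int.negSucc (nat_lit 245360918),Int.negSucc (nat_lit 19676549),Int.ofNat (nat_lit 37612924),Int.negSucc (nat_lit 40188512),Int.ofNat (nat_lit 81374733),Int.ofNat (nat_lit 159798151),Int.negSucc (nat_lit 138813091),Int.ofNat (nat_lit 82279791),Int.ofNat (nat_lit 223387777),Int.negSucc (nat_lit 56547254),Int.negSucc (nat_lit 101634284),Int.ofNat (nat_lit 105739405),Int.ofNat (nat_lit 31029933),Int.negSucc (nat_lit 40972833),Int.ofNat (nat_lit 193260948),Int.negSucc (nat_lit 111250577),Int.negSucc (nat_lit 77485171),Int.negSucc (nat_lit 50515837),Int.negSucc (nat_lit 54135863),Int.negSucc (nat_lit 195345802),Int.negSucc (nat_lit 63542156),Int.negSucc (nat_lit 44593992),Int.ofNat (nat_lit 55703590),Int.negSucc (nat_lit 216499403),Int.ofNat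 (nat_lit 176606246),Int.negSucc (nat_lit 77242757),Int.ofNat (nat_lit 95451694),Int.ofNat (nat_lit 62263342),Int.negSucc (nat_lit 14676814),Int.negSucc (nat_lit 99101784),Int.negSucc (nat_lit 75956909),Int.negSucc (nat_lit 52081413),Int.ofNat (nat_lit 181149748),Int.negSucc (nat_lit 1567625),Int.negSucc (nat_lit 52399352),Int.negSucc (nat_lit 3573394),Int.ofNat (nat_lit 54781195),Int.negSucc (nat_lit 13869790),Int.ofNat (nat_lit 88602250),Int.ofNat (nat_lit 25960380),Int.negSucc (nat_lit 3900780),Int.ofNat (nat_lit 9970625),Int.negSucc (nat_lit 867248),Int.ofNat (nat_lit 105909873),Int.negSucc (nat_lit 19278814),Int.ofNat (nat_lit 43335474),Int.ofNat (nat_lit 48029046),Int.ofNat (nat_lit 56057097),Int.negSucc (nat_lit 21638152),Int.ofNat (nat_lit 28159207),Int.negSucc (nat_lit 23285945),Int.negSucc (nat_lit 44232055),Int.ofNat (nat_lit 23378827),Int.negSucc (nat_lit 14555460),Int.negSucc (nat_lit 30505419),Int.ofNat (nat_lit 39154445),Int.ofNat (nat_lit 129907443),Int.ofNat (nat_lit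 13592471),Int.ofNat (nat_lit 19678916),Int.ofNat (nat_lit 22089277),Int.negSucc (nat_lit 19312830),Int.negSucc (nat_lit 47973064),Int.ofNat (nat_lit 58777644),Int.negSucc (nat_lit 16213423),Int.ofNat (nat_lit 629722),Int.negSucc (nat_lit 31667560),Int.negSucc (nat_lit 33654816),Int.negSucc (nat_lit 55336359),Int.ofNat (nat_lit 44408895),Int.ofNat (nat_lit 55890743),Int.ofNat (nat_lit 43075794),Int.ofNat (nat_lit 51449935),Int.negSucc (nat_lit 7646700),Int.negSucc (nat_lit 41005600),Int.negSucc (nat_lit 74552332),Int.negSucc (nat_lit 48001628),Int.negSucc (nat_lit 14411905),Int.negSucc (nat_lit 57521754),Int.negSucc (nat_lit 40249688),Int.ofNat (nat_lit 14770990),Int.negSucc (nat_lit 18157055),Int.negSucc (nat_lit 20360736),Int.ofNat (nat_lit 25437271),Int.negSucc (nat_lit 11631644),Int.negSucc (nat_lit 90746659),Int.ofNat (nat_lit 77080675),Int.ofNat (nat_lit 37505375),Int.ofNat (nat_lit 76601554),Int.ofNat (nat_lit 9931828),Int.negSucc (nat_lit 3260860),Int.negSucc (nat_lit 4697047),Int.ofNat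 (nat_lit 4873916),Int.negSucc (nat_lit 82116480),Int.ofNat (nat_lit 26203932),Int.negSucc (nat_lit 23759653),Int.ofNat (nat_lit 63445442),Int.ofNat (nat_lit 63424944),Int.ofNat (nat_lit 38296460),Int.negSucc (nat_lit 7085026),Int.negSucc (nat_lit 42893432),Int.ofNat (nat_lit 17708174),Int.ofNat (nat_lit 66249674),Int.negSucc (nat_lit 39121158),Int.ofNat (nat_lit 29032664),Int.negSucc (nat_lit 80881932),Int.ofNat (nat_lit 143216432),Int.negSucc (nat_lit 131510488),Int.ofNat (nat_lit 117062291),Int.negSucc (nat_lit 179020261),Int.negSucc (nat_lit 108410577),Int.negSucc (nat_lit 20976053),Int.negSucc (nat_lit 34484454),Int.negSucc (nat_lit 69513958),Int.ofNat (nat_lit 262628279),Int.ofNat (nat_lit 145900692),Int.ofNat (nat_lit 458102961),Int.ofNat (nat_lit 440620626)])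

/-- A row. -/
noncomputable def sr7_c2_13 : List ℕ × List ℤ :=
  ([(nat_lit 0),(nat_lit 2),(nat_lit 0),(nat_lit 0),(nat_lit 0),(nat_lit 1),(nat_lit 0),(nat_lit 0),(nat_lit 0),(nat_lit 0),(nat_lit 0),(nat_lit 0)], [Int.ofNat (nat_lit 276519931),Int.negSucc (nat_lit 322712346),Int.ofNat (nat_lit 201027895),Int.negSucc (nat_lit 1160598990),Int.ofNat (nat_lit 188345290),Int.ofNat (nat_lit 216054189),Int.ofNat (nat_lit 428044430),Int.ofNat (nat_lit 783884156),Int.ofNat (nat_lit 846274015),Int.negSucc (nat_lit 399285241),Int.negSucc (nat_lit 347843846),Int.negSucc (nat_lit 62263016),Int.ofNat (nat_lit 266844518),Int.negSucc (nat_lit 498821933),Int.ofNat (nat_lit 235072601),Int.ofNat (nat_lit 23916000),Int.negSucc (nat_lit 28709763),Int.ofNat (nat_lit 111627746),Int.ofNat (nat_lit 97785668),Int.ofNat (nat_lit 49586146),Int.negSucc (nat_lit 63146228),Int.negSucc (nat_lit 25234876),Int.ofNat (nat_lit 116606529),Int.ofNat (nat_lit 214078695),Int.ofNat (nat_lit 28249477),Int.negSucc (nat_lit 126056091),Int.negSucc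 (nat_lit 222760691),Int.negSucc (nat_lit 18019635),Int.negSucc (nat_lit 125703098),Int.ofNat (nat_lit 547288212),Int.ofNat (nat_lit 136814596),Int.ofNat (nat_lit 29988906),Int.negSucc (nat_lit 28129162),Int.negSucc (nat_lit 148379027),Int.negSucc (nat_lit 8836512),Int.ofNat (nat_lit 350271595),Int.negSucc (nat_lit 243900762),Int.negSucc (nat_lit 77867010),Int.negSucc (nat_lit 50745177),Int.ofNat (nat_lit 72072413),Int.ofNat (nat_lit 50042991),Int.ofNat (nat_lit 78147958),Int.ofNat (nat_lit 199810016),Int.ofNat (nat_lit 145390440),Int.negSucc (nat_lit 108632676),Int.ofNat (nat_lit 146339895),Int.negSucc (nat_lit 164968694),Int.ofNat (nat_lit 114890765),Int.ofNat (nat_lit 164546627),Int.negSucc (nat_lit 69561711),Int.ofNat (nat_lit 90778101),Int.ofNat (nat_lit 165769011),Int.ofNat (nat_lit 234782352),Int.negSucc (nat_lit 142956835),Int.negSucc (nat_lit 47397883),Int.negSucc (nat_lit 56864915),Int.ofNat (nat_lit 190144318),Int.negSucc (nat_lit 22184869),Int.ofNat (nat_lit 70864934),Int.negSucc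 (nat_lit 110841491),Int.ofNat (nat_lit 106629044),Int.ofNat (nat_lit 180367234),Int.ofNat (nat_lit 200695096),Int.negSucc (nat_lit 23558036),Int.ofNat (nat_lit 45679439),Int.ofNat (nat_lit 105654664),Int.ofNat (nat_lit 35850941),Int.ofNat (nat_lit 12721423),Int.ofNat (nat_lit 25462245),Int.ofNat (nat_lit 114039870),Int.negSucc (nat_lit 205771874),Int.negSucc (nat_lit 32856581),Int.negSucc (nat_lit 81543919),Int.negSucc (nat_lit 43711035),Int.negSucc (nat_lit 52415518),Int.negSucc (nat_lit 3316476),Int.negSucc (nat_lit 17807773),Int.negSucc (nat_lit 11750600),Int.negSucc (nat_lit 160291160),Int.ofNat (nat_lit 23127930),Int.negSucc (nat_lit 55509917),Int.negSucc (nat_lit 57847320),Int.ofNat (nat_lit 106664855),Int.ofNat (nat_lit 53686982),Int.negSucc (nat_lit 127816362),Int.ofNat (nat_lit 78273130),Int.ofNat (nat_lit 42769154),Int.negSucc (nat_lit 11202724),Int.ofNat (nat_lit 67856953),Int.ofNat (nat_lit 11319958),Int.negSucc (nat_lit 8140328),Int.negSucc (nat_lit 20428670),Int.negSucc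 (nat_lit 74322630),Int.negSucc (nat_lit 47864441),Int.ofNat (nat_lit 15628167),Int.ofNat (nat_lit 106116792),Int.ofNat (nat_lit 41217559),Int.negSucc (nat_lit 41986076),Int.ofNat (nat_lit 110767349),Int.negSucc (nat_lit 149404436),Int.ofNat (nat_lit 37328061),Int.ofNat (nat_lit 121687940),Int.ofNat (nat_lit 8741684),Int.negSucc (nat_lit 64902948),Int.ofNat (nat_lit 190185406),Int.negSucc (nat_lit 49986790),Int.ofNat (nat_lit 49606598),Int.negSucc (nat_lit 76672259),Int.ofNat (nat_lit 22890855),Int.ofNat (nat_lit 50019852),Int.negSucc (nat_lit 30872938),Int.negSucc (nat_lit 6862022),Int.negSucc (nat_lit 107106620),Int.ofNat (nat_lit 19218909),Int.ofNat (nat_lit 109235924),Int.negSucc (nat_lit 996194),Int.ofNat (nat_lit 162940660),Int.negSucc (nat_lit 59335881),Int.ofNat (nat_lit 46162898),Int.ofNat (nat_lit 100597654),Int.ofNat (nat_lit 27409437),Int.negSucc (nat_lit 108840204),Int.ofNat (nat_lit 13103854),Int.negSucc (nat_lit 18578754),Int.negSucc (nat_lit 22584290),Int.ofNat (nat_lit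 85576436),Int.negSucc (nat_lit 94878533),Int.ofNat (nat_lit 94521682),Int.negSucc (nat_lit 85410368),Int.negSucc (nat_lit 15706749),Int.ofNat (nat_lit 85534942),Int.negSucc (nat_lit 61133317),Int.ofNat (nat_lit 12940388),Int.negSucc (nat_lit 156319881),Int.negSucc (nat_lit 79634911),Int.negSucc (nat_lit 74470544),Int.negSucc (nat_lit 118229114),Int.negSucc (nat_lit 10186715),Int.negSucc (nat_lit 2593407),Int.ofNat (nat_lit 250749260),Int.negSucc (nat_lit 3457339),Int.negSucc (nat_lit 217919869),Int.ofNat (nat_lit 165896199),Int.ofNat (nat_lit 105862587),Int.negSucc (nat_lit 54055135),Int.ofNat (nat_lit 140245973),Int.ofNat (nat_lit 177438997),Int.ofNat (nat_lit 375015388),Int.negSucc (nat_lit 180203824),Int.negSucc (nat_lit 253357993),Int.ofNat (nat_lit 179506839),Int.ofNat (nat_lit 153803923),Int.ofNat (nat_lit 864438440)])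

/-- A row. -/
noncomputable def sr7_c2_14 : List ℕ × List ℤ :=
  ([(nat_lit 0),(nat_lit 2),(nat_lit 0),(nat_lit 1),(nat_lit 0),(nat_lit 0),(nat_lit 0),(nat_lit 0),(nat_lit 0),(nat_lit 0),(nat_lit 0),(nat_lit 0)], [Int.negSucc (nat_lit 173672715),Int.negSucc (nat_lit 580834121),Int.ofNat (nat_lit 297086292),Int.ofNat (nat_lit 640859036),Int.negSucc (nat_lit 182359228),Int.negSucc (nat_lit 885085668),Int.ofNat (nat_lit 360964444),Int.negSucc (nat_lit 455260549),Int.ofNat (nat_lit 1162271658),Int.negSucc (nat_lit 634484932),Int.ofNat (nat_lit 575571093),Int.ofNat (nat_lit 1306708087),Int.negSucc (nat_lit 38052213),Int.ofNat (nat_lit 1283766519),Int.negSucc (nat_lit 2579896318),Int.ofNat (nat_lit 387931442),Int.ofNat (nat_lit 667995014),Int.ofNat (nat_lit 1324924991),Int.negSucc (nat_lit 679050376),Int.negSucc (nat_lit 646260902),Int.ofNat (nat_lit 426705281),Int.negSucc (nat_lit 97674905),Int.negSucc (nat_lit 210137493),Int.negSucc (nat_lit 1148417261),Int.ofNat (nat_lit 776936409),Int.negSucc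 (nat_lit 275874268),Int.ofNat (nat_lit 78387419),Int.ofNat (nat_lit 438594603),Int.negSucc (nat_lit 1567361565),Int.ofNat (nat_lit 1303921672),Int.ofNat (nat_lit 515651227),Int.ofNat (nat_lit 192160211),Int.ofNat (nat_lit 909912698),Int.ofNat (nat_lit 228147490),Int.ofNat (nat_lit 153059644),Int.negSucc (nat_lit 840149178),Int.ofNat (nat_lit 53592708),Int.negSucc (nat_lit 384805250),Int.ofNat (nat_lit 361824522),Int.negSucc (nat_lit 571316075),Int.negSucc (nat_lit 25799856),Int.ofNat (nat_lit 11682490),Int.negSucc (nat_lit 73183428),Int.ofNat (nat_lit 93317339),Int.ofNat (nat_lit 133175916),Int.negSucc (nat_lit 165726271),Int.ofNat (nat_lit 210666359),Int.negSucc (nat_lit 603746016),Int.ofNat (nat_lit 320864796),Int.negSucc (nat_lit 138138501),Int.negSucc (nat_lit 85475792),Int.negSucc (nat_lit 226924855),Int.ofNat (nat_lit 96861831),Int.negSucc (nat_lit 735007084),Int.ofNat (nat_lit 37717976),Int.negSucc (nat_lit 54718605),Int.negSucc (nat_lit 266716467),Int.ofNat (nat_lit 127272465),Int.negSucc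 (nat_lit 209901950),Int.ofNat (nat_lit 64491352),Int.negSucc (nat_lit 4563611),Int.negSucc (nat_lit 11123809),Int.negSucc (nat_lit 108120538),Int.ofNat (nat_lit 225216816),Int.ofNat (nat_lit 132421451),Int.negSucc (nat_lit 455501320),Int.negSucc (nat_lit 68767381),Int.ofNat (nat_lit 211015732),Int.ofNat (nat_lit 299608499),Int.negSucc (nat_lit 211285554),Int.ofNat (nat_lit 40064535),Int.ofNat (nat_lit 63310335),Int.negSucc (nat_lit 189897228),Int.ofNat (nat_lit 51126584),Int.negSucc (nat_lit 25125650),Int.negSucc (nat_lit 10740819),Int.negSucc (nat_lit 145454613),Int.ofNat (nat_lit 225745240),Int.ofNat (nat_lit 317609912),Int.ofNat (nat_lit 317605652),Int.ofNat (nat_lit 168935430),Int.negSucc (nat_lit 220252045),Int.negSucc (nat_lit 410669554),Int.ofNat (nat_lit 193497016),Int.negSucc (nat_lit 27854941),Int.negSucc (nat_lit 45840012),Int.ofNat (nat_lit 55447589),Int.ofNat (nat_lit 57430219),Int.negSucc (nat_lit 328632172),Int.negSucc (nat_lit 3044513),Int.negSucc (nat_lit 213724873),Int.negSucc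 (nat_lit 600330351),Int.negSucc (nat_lit 683832181),Int.ofNat (nat_lit 49317994),Int.negSucc (nat_lit 10353712),Int.negSucc (nat_lit 39021917),Int.ofNat (nat_lit 891447409),Int.negSucc (nat_lit 375648732),Int.ofNat (nat_lit 334406868),Int.negSucc (nat_lit 450219696),Int.ofNat (nat_lit 220649715),Int.negSucc (nat_lit 26183758),Int.ofNat (nat_lit 110229860),Int.negSucc (nat_lit 194749803),Int.negSucc (nat_lit 103739245),Int.negSucc (nat_lit 154871119),Int.negSucc (nat_lit 1095419),Int.ofNat (nat_lit 67571557),Int.negSucc (nat_lit 80929357),Int.ofNat (nat_lit 149507854),Int.negSucc (nat_lit 97249593),Int.ofNat (nat_lit 151925578),Int.ofNat (nat_lit 165199859),Int.negSucc (nat_lit 21409453),Int.ofNat (nat_lit 38580392),Int.ofNat (nat_lit 64334865),Int.ofNat (nat_lit 120624856),Int.negSucc (nat_lit 137245686),Int.ofNat (nat_lit 14843413),Int.negSucc (nat_lit 331846117),Int.ofNat (nat_lit 127869009),Int.ofNat (nat_lit 24747198),Int.negSucc (nat_lit 112082848),Int.negSucc (nat_lit 33536843),Int.negSucc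 (nat_lit 178887738),Int.negSucc (nat_lit 7945352),Int.negSucc (nat_lit 194877420),Int.negSucc (nat_lit 153668866),Int.negSucc (nat_lit 20607765),Int.negSucc (nat_lit 76206541),Int.ofNat (nat_lit 96336776),Int.ofNat (nat_lit 49147256),Int.negSucc (nat_lit 161712361),Int.negSucc (nat_lit 3058522),Int.ofNat (nat_lit 132306504),Int.ofNat (nat_lit 226259615),Int.ofNat (nat_lit 196866044),Int.negSucc (nat_lit 96784724),Int.negSucc (nat_lit 92545428),Int.negSucc (nat_lit 320299324),Int.ofNat (nat_lit 829540501),Int.negSucc (nat_lit 212790456),Int.negSucc (nat_lit 765662253),Int.negSucc (nat_lit 114390508),Int.negSucc (nat_lit 347593516),Int.ofNat (nat_lit 388996718),Int.negSucc (nat_lit 21617766),Int.ofNat (nat_lit 397654957),Int.negSucc (nat_lit 256445739),Int.negSucc (nat_lit 1199449317),Int.negSucc (nat_lit 366697466),Int.negSucc (nat_lit 242375695),Int.negSucc (nat_lit 643579428),Int.ofNat (nat_lit 1954065496)])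

/-- A row. -/
noncomputable def sr7_c2_15 : List ℕ × List ℤ :=
  ([(nat_lit 0),(nat_lit 3),(nat_lit 0),(nat_lit 0),(nat_lit 0),(nat_lit 0),(nat_lit 0),(nat_lit 0),(nat_lit 0),(nat_lit 0),(nat_lit 0),(nat_lit 0)], [Int.ofNat (nat_lit 259580533),Int.negSucc (nat_lit 120899890),Int.ofNat (nat_lit 423303854),Int.negSucc (nat_lit 2951753331),Int.negSucc (nat_lit 42816474),Int.ofNat (nat_lit 1409713846),Int.ofNat (nat_lit 753975731),Int.ofNat (nat_lit 1658802078),Int.ofNat (nat_lit 276453705),Int.ofNat (nat_lit 266024991),Int.negSucc (nat_lit 905810705),Int.negSucc (nat_lit 1065347847),Int.ofNat (nat_lit 776618246),Int.negSucc (nat_lit 2280368359),Int.ofNat (nat_lit 2733914745),Int.negSucc (nat_lit 349676282),Int.negSucc (nat_lit 703791393),Int.negSucc (nat_lit 1146427545),Int.ofNat (nat_lit 933014817),Int.ofNat (nat_lit 821302694),Int.negSucc (nat_lit 243448207),Int.ofNat (nat_lit 8343831),Int.ofNat (nat_lit 78592575),Int.ofNat (nat_lit 1598322629),Int.negSucc (nat_lit 1020753998),Int.ofNat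 (nat_lit 269150337),Int.ofNat (nat_lit 58856111),Int.negSucc (nat_lit 82480428),Int.ofNat (nat_lit 1358170114),Int.negSucc (nat_lit 219109185),Int.negSucc (nat_lit 188855921),Int.negSucc (nat_lit 200545270),Int.negSucc (nat_lit 1030948065),Int.negSucc (nat_lit 287722308),Int.ofNat (nat_lit 82437736),Int.ofNat (nat_lit 1136966400),Int.negSucc (nat_lit 630643665),Int.ofNat (nat_lit 481909990),Int.negSucc (nat_lit 313482707),Int.ofNat (nat_lit 574722753),Int.negSucc (nat_lit 36736117),Int.ofNat (nat_lit 196199212),Int.ofNat (nat_lit 168759297),Int.ofNat (nat_lit 250138603),Int.ofNat (nat_lit 61716294),Int.ofNat (nat_lit 465191802),Int.negSucc (nat_lit 681839950),Int.ofNat (nat_lit 1077010727),Int.ofNat (nat_lit 100695901),Int.ofNat (nat_lit 282469347),Int.ofNat (nat_lit 99652540),Int.ofNat (nat_lit 369247408),Int.ofNat (nat_lit 316224909),Int.ofNat (nat_lit 337138226),Int.negSucc (nat_lit 130788732),Int.ofNat (nat_lit 86976620),Int.ofNat (nat_lit 358830891),Int.negSucc (nat_lit 234297177),Int.ofNat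 (nat_lit 148920194),Int.negSucc (nat_lit 132740813),Int.ofNat (nat_lit 41924477),Int.ofNat (nat_lit 155924373),Int.ofNat (nat_lit 405872215),Int.ofNat (nat_lit 108546234),Int.negSucc (nat_lit 50467583),Int.ofNat (nat_lit 422609977),Int.ofNat (nat_lit 122693379),Int.negSucc (nat_lit 250049391),Int.negSucc (nat_lit 326403440),Int.ofNat (nat_lit 392982173),Int.negSucc (nat_lit 1110639),Int.ofNat (nat_lit 12269794),Int.ofNat (nat_lit 55531032),Int.negSucc (nat_lit 255700375),Int.negSucc (nat_lit 44116111),Int.ofNat (nat_lit 111127797),Int.ofNat (nat_lit 260453262),Int.negSucc (nat_lit 287113484),Int.negSucc (nat_lit 324976791),Int.negSucc (nat_lit 232350343),Int.negSucc (nat_lit 312524123),Int.ofNat (nat_lit 204598102),Int.ofNat (nat_lit 457115549),Int.negSucc (nat_lit 195318223),Int.negSucc (nat_lit 227548675),Int.ofNat (nat_lit 287502877),Int.negSucc (nat_lit 52172944),Int.negSucc (nat_lit 144406905),Int.ofNat (nat_lit 301966929),Int.negSucc (nat_lit 290471670),Int.ofNat (nat_lit 237094922),Int.ofNat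 (nat_lit 459610057),Int.ofNat (nat_lit 523418213),Int.negSucc (nat_lit 162845724),Int.ofNat (nat_lit 74346711),Int.negSucc (nat_lit 72640945),Int.negSucc (nat_lit 1056156370),Int.ofNat (nat_lit 791920654),Int.negSucc (nat_lit 208152428),Int.ofNat (nat_lit 452258502),Int.negSucc (nat_lit 155481979),Int.ofNat (nat_lit 162919543),Int.negSucc (nat_lit 48760530),Int.ofNat (nat_lit 45002700),Int.ofNat (nat_lit 204049679),Int.ofNat (nat_lit 134620051),Int.ofNat (nat_lit 73993852),Int.negSucc (nat_lit 166984105),Int.ofNat (nat_lit 254566134),Int.ofNat (nat_lit 10433425),Int.ofNat (nat_lit 157784706),Int.negSucc (nat_lit 52945305),Int.negSucc (nat_lit 204215376),Int.ofNat (nat_lit 224708567),Int.ofNat (nat_lit 100938885),Int.negSucc (nat_lit 46935050),Int.negSucc (nat_lit 91920179),Int.negSucc (nat_lit 42166113),Int.negSucc (nat_lit 17933166),Int.ofNat (nat_lit 512272815),Int.negSucc (nat_lit 94594765),Int.negSucc (nat_lit 33560663),Int.ofNat (nat_lit 42264129),Int.negSucc (nat_lit 1388478),Int.ofNat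 (nat_lit 179216691),Int.ofNat (nat_lit 117363628),Int.ofNat (nat_lit 309894174),Int.ofNat (nat_lit 295232570),Int.negSucc (nat_lit 240274925),Int.ofNat (nat_lit 114563823),Int.negSucc (nat_lit 72463244),Int.negSucc (nat_lit 49167235),Int.ofNat (nat_lit 35977616),Int.negSucc (nat_lit 57826748),Int.negSucc (nat_lit 118004497),Int.negSucc (nat_lit 165584165),Int.negSucc (nat_lit 191719922),Int.ofNat (nat_lit 51922314),Int.ofNat (nat_lit 112444746),Int.ofNat (nat_lit 547523194),Int.negSucc (nat_lit 894253364),Int.negSucc (nat_lit 257046828),Int.ofNat (nat_lit 575455551),Int.ofNat (nat_lit 257392973),Int.ofNat (nat_lit 94984672),Int.negSucc (nat_lit 358331702),Int.negSucc (nat_lit 1116508118),Int.ofNat (nat_lit 69522101),Int.negSucc (nat_lit 367984207),Int.ofNat (nat_lit 1147889203),Int.ofNat (nat_lit 1086203241),Int.negSucc (nat_lit 55390733),Int.ofNat (nat_lit 1301552403),Int.negSucc (nat_lit 1616503590),Int.ofNat (nat_lit 1885982217)])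

/-- A row. -/
noncomputable def sr7_c2_16 : List ℕ × List ℤ :=
  ([(nat_lit 0),(nat_lit 3),(nat_lit 1),(nat_lit 0),(nat_lit 0),(nat_lit 0),(nat_lit 0),(nat_lit 0),(nat_lit 0),(nat_lit 0),(nat_lit 0),(nat_lit 0)], [Int.ofNat (nat_lit 731433353),Int.negSucc (nat_lit 449458449),Int.ofNat (nat_lit 1266412883),Int.negSucc (nat_lit 1581866444),Int.ofNat (nat_lit 1047836047),Int.ofNat (nat_lit 577633711),Int.negSucc (nat_lit 15195879),Int.negSucc (nat_lit 181451420),Int.ofNat (nat_lit 141741543),Int.ofNat (nat_lit 45812077),Int.negSucc (nat_lit 125241745),Int.negSucc (nat_lit 192078856),Int.negSucc (nat_lit 14813443),Int.negSucc (nat_lit 318705106),Int.ofNat (nat_lit 432219),Int.negSucc (nat_lit 210256238),Int.ofNat (nat_lit 167990313),Int.negSucc (nat_lit 363827283),Int.ofNat (nat_lit 189412817),Int.ofNat (nat_lit 108425815),Int.ofNat (nat_lit 300738864),Int.ofNat (nat_lit 114773647),Int.negSucc (nat_lit 324083407),Int.ofNat (nat_lit 267683161),Int.negSucc (nat_lit 186499668),Int.negSucc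 (nat_lit 188969881),Int.ofNat (nat_lit 165532779),Int.ofNat (nat_lit 112349051),Int.negSucc (nat_lit 31024141),Int.ofNat (nat_lit 369116202),Int.ofNat (nat_lit 107144423),Int.negSucc (nat_lit 228033815),Int.negSucc (nat_lit 180451987),Int.negSucc (nat_lit 8218725),Int.ofNat (nat_lit 20992338),Int.ofNat (nat_lit 65484373),Int.negSucc (nat_lit 108267119),Int.negSucc (nat_lit 161270093),Int.ofNat (nat_lit 99381379),Int.ofNat (nat_lit 308698888),Int.negSucc (nat_lit 86398911),Int.negSucc (nat_lit 214750664),Int.negSucc (nat_lit 9580130),Int.negSucc (nat_lit 250314651),Int.ofNat (nat_lit 368414567),Int.ofNat (nat_lit 139619568),Int.negSucc (nat_lit 171601352),Int.ofNat (nat_lit 419714833),Int.ofNat (nat_lit 331005268),Int.ofNat (nat_lit 116714277),Int.ofNat (nat_lit 118256302),Int.ofNat (nat_lit 10091882),Int.ofNat (nat_lit 85705581),Int.ofNat (nat_lit 99931374),Int.ofNat (nat_lit 302327114),Int.ofNat (nat_lit 1993839),Int.negSucc (nat_lit 77278826),Int.negSucc (nat_lit 56468865),Int.ofNat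 (nat_lit 92988091),Int.negSucc (nat_lit 36061149),Int.negSucc (nat_lit 172641574),Int.negSucc (nat_lit 33099513),Int.ofNat (nat_lit 497230301),Int.ofNat (nat_lit 84134479),Int.ofNat (nat_lit 1451017),Int.negSucc (nat_lit 75208534),Int.negSucc (nat_lit 46135133),Int.ofNat (nat_lit 37653345),Int.ofNat (nat_lit 119816157),Int.negSucc (nat_lit 60006896),Int.negSucc (nat_lit 318895229),Int.ofNat (nat_lit 84348716),Int.negSucc (nat_lit 88339315),Int.negSucc (nat_lit 384471239),Int.ofNat (nat_lit 52457252),Int.ofNat (nat_lit 162631717),Int.negSucc (nat_lit 26473393),Int.ofNat (nat_lit 106065070),Int.negSucc (nat_lit 63856253),Int.negSucc (nat_lit 57614205),Int.negSucc (nat_lit 115454588),Int.negSucc (nat_lit 102384678),Int.ofNat (nat_lit 52059222),Int.ofNat (nat_lit 41412568),Int.ofNat (nat_lit 95622),Int.negSucc (nat_lit 44961122),Int.negSucc (nat_lit 73656578),Int.negSucc (nat_lit 79328418),Int.negSucc (nat_lit 77509496),Int.negSucc (nat_lit 79373270),Int.ofNat (nat_lit 110542156),Int.negSucc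 (nat_lit 32647718),Int.negSucc (nat_lit 64624252),Int.negSucc (nat_lit 59245646),Int.negSucc (nat_lit 118316487),Int.ofNat (nat_lit 96710275),Int.ofNat (nat_lit 2774296),Int.ofNat (nat_lit 75078651),Int.ofNat (nat_lit 465456125),Int.ofNat (nat_lit 14837262),Int.ofNat (nat_lit 3174269),Int.ofNat (nat_lit 230073309),Int.negSucc (nat_lit 152594411),Int.negSucc (nat_lit 10042108),Int.negSucc (nat_lit 12954798),Int.negSucc (nat_lit 15443014),Int.negSucc (nat_lit 45797366),Int.negSucc (nat_lit 108942299),Int.ofNat (nat_lit 34736911),Int.ofNat (nat_lit 202175596),Int.ofNat (nat_lit 115723921),Int.ofNat (nat_lit 66689503),Int.negSucc (nat_lit 25826393),Int.ofNat (nat_lit 167174441),Int.negSucc (nat_lit 5499113),Int.ofNat (nat_lit 35289345),Int.negSucc (nat_lit 114189230),Int.negSucc (nat_lit 5378191),Int.negSucc (nat_lit 30751039),Int.ofNat (nat_lit 72210748),Int.negSucc (nat_lit 12196305),Int.ofNat (nat_lit 34911416),Int.negSucc (nat_lit 22567787),Int.negSucc (nat_lit 15806346),Int.ofNat (nat_lit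 93790137),Int.ofNat (nat_lit 48409414),Int.ofNat (nat_lit 69049045),Int.ofNat (nat_lit 192967219),Int.negSucc (nat_lit 205650636),Int.negSucc (nat_lit 7975473),Int.negSucc (nat_lit 32021065),Int.negSucc (nat_lit 113514254),Int.negSucc (nat_lit 52322135),Int.ofNat (nat_lit 49222005),Int.ofNat (nat_lit 30317267),Int.ofNat (nat_lit 8458808),Int.negSucc (nat_lit 56652831),Int.ofNat (nat_lit 12867832),Int.ofNat (nat_lit 26149636),Int.ofNat (nat_lit 440198370),Int.negSucc (nat_lit 3285267),Int.negSucc (nat_lit 78469951),Int.negSucc (nat_lit 207539655),Int.negSucc (nat_lit 288268036),Int.ofNat (nat_lit 163994637),Int.ofNat (nat_lit 54985151),Int.negSucc (nat_lit 720642665),Int.negSucc (nat_lit 156225538),Int.negSucc (nat_lit 181270732),Int.ofNat (nat_lit 257467268),Int.negSucc (nat_lit 478594936),Int.ofNat (nat_lit 248897867),Int.ofNat (nat_lit 262370049),Int.negSucc (nat_lit 7267749),Int.ofNat (nat_lit 1228487792),Int.ofNat (nat_lit 1668579553)])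

/-- A row. -/
noncomputable def sr7_c2_17 : List ℕ × List ℤ :=
  ([(nat_lit 0),(nat_lit 5),(nat_lit 0),(nat_lit 0),(nat_lit 0),(nat_lit 0),(nat_lit 0),(nat_lit 0),(nat_lit 0),(nat_lit 0),(nat_lit 0),(nat_lit 0)], [Int.ofNat (nat_lit 867746421),Int.ofNat (nat_lit 181934658),Int.ofNat (nat_lit 182282878),Int.ofNat (nat_lit 1327038744),Int.ofNat (nat_lit 905258189),Int.negSucc (nat_lit 564205689),Int.negSucc (nat_lit 736735729),Int.negSucc (nat_lit 1501467490),Int.negSucc (nat_lit 973502232),Int.ofNat (nat_lit 171525524),Int.ofNat (nat_lit 351328999),Int.ofNat (nat_lit 160036041),Int.negSucc (nat_lit 793696912),Int.ofNat (nat_lit 990892981),Int.negSucc (nat_lit 1057190626),Int.ofNat (nat_lit 66096039),Int.ofNat (nat_lit 258869555),Int.ofNat (nat_lit 231083049),Int.negSucc (nat_lit 397304359),Int.negSucc (nat_lit 168593451),Int.ofNat (nat_lit 272451686),Int.ofNat (nat_lit 95036840),Int.negSucc (nat_lit 239747612),Int.negSucc (nat_lit 588497828),Int.ofNat (nat_lit 323416799),Int.negSucc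 (nat_lit 228300698),Int.negSucc (nat_lit 59401023),Int.ofNat (nat_lit 107875024),Int.negSucc (nat_lit 61068003),Int.negSucc (nat_lit 690528374),Int.negSucc (nat_lit 73581367),Int.ofNat (nat_lit 145615509),Int.ofNat (nat_lit 398768248),Int.ofNat (nat_lit 93325828),Int.negSucc (nat_lit 174936749),Int.negSucc (nat_lit 528351448),Int.ofNat (nat_lit 464480537),Int.negSucc (nat_lit 363742136),Int.ofNat (nat_lit 249280076),Int.negSucc (nat_lit 105677319),Int.negSucc (nat_lit 132078286),Int.negSucc (nat_lit 338411222),Int.negSucc (nat_lit 139257451),Int.negSucc (nat_lit 370649676),Int.ofNat (nat_lit 157679641),Int.negSucc (nat_lit 203954114),Int.ofNat (nat_lit 376292839),Int.negSucc (nat_lit 508193855),Int.negSucc (nat_lit 430209956),Int.negSucc (nat_lit 133260635),Int.negSucc (nat_lit 30626011),Int.negSucc (nat_lit 209086728),Int.negSucc (nat_lit 295665339),Int.ofNat (nat_lit 64133512),Int.ofNat (nat_lit 363898083),Int.ofNat (nat_lit 62206999),Int.negSucc (nat_lit 230654923),Int.ofNat (nat_lit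 64116434),Int.ofNat (nat_lit 61263686),Int.ofNat (nat_lit 21098943),Int.negSucc (nat_lit 27180661),Int.negSucc (nat_lit 138390439),Int.negSucc (nat_lit 153287442),Int.negSucc (nat_lit 167412007),Int.ofNat (nat_lit 23835170),Int.negSucc (nat_lit 258656786),Int.negSucc (nat_lit 120783699),Int.ofNat (nat_lit 144041546),Int.ofNat (nat_lit 139470260),Int.negSucc (nat_lit 159260886),Int.negSucc (nat_lit 130285929),Int.ofNat (nat_lit 45417660),Int.negSucc (nat_lit 11320197),Int.ofNat (nat_lit 67890637),Int.ofNat (nat_lit 141094085),Int.negSucc (nat_lit 28759172),Int.negSucc (nat_lit 95665707),Int.ofNat (nat_lit 126368125),Int.ofNat (nat_lit 196559634),Int.ofNat (nat_lit 58563744),Int.ofNat (nat_lit 63662353),Int.negSucc (nat_lit 89580185),Int.negSucc (nat_lit 159663320),Int.ofNat (nat_lit 78000843),Int.ofNat (nat_lit 147964199),Int.negSucc (nat_lit 119113994),Int.negSucc (nat_lit 18838503),Int.ofNat (nat_lit 169500238),Int.negSucc (nat_lit 180004107),Int.ofNat (nat_lit 93745349),Int.negSucc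 (nat_lit 69562585),Int.negSucc (nat_lit 49803486),Int.negSucc (nat_lit 74346742),Int.ofNat (nat_lit 67401514),Int.negSucc (nat_lit 29094602),Int.negSucc (nat_lit 136246637),Int.ofNat (nat_lit 240879248),Int.negSucc (nat_lit 451153929),Int.negSucc (nat_lit 77611785),Int.ofNat (nat_lit 232075243),Int.ofNat (nat_lit 63961123),Int.ofNat (nat_lit 8703298),Int.negSucc (nat_lit 82072359),Int.ofNat (nat_lit 56298403),Int.negSucc (nat_lit 142302353),Int.negSucc (nat_lit 87781982),Int.negSucc (nat_lit 112935693),Int.ofNat (nat_lit 84986696),Int.negSucc (nat_lit 187498505),Int.ofNat (nat_lit 67607524),Int.negSucc (nat_lit 63388245),Int.ofNat (nat_lit 39560917),Int.ofNat (nat_lit 66035953),Int.negSucc (nat_lit 158373458),Int.negSucc (nat_lit 97863096),Int.ofNat (nat_lit 28078354),Int.ofNat (nat_lit 23088843),Int.ofNat (nat_lit 157962954),Int.negSucc (nat_lit 4275840),Int.negSucc (nat_lit 238758818),Int.negSucc (nat_lit 3016256),Int.negSucc (nat_lit 19238543),Int.ofNat (nat_lit 73560003),Int.ofNat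 (nat_lit 39486172),Int.negSucc (nat_lit 62207820),Int.negSucc (nat_lit 42081374),Int.negSucc (nat_lit 87213347),Int.negSucc (nat_lit 102455804),Int.ofNat (nat_lit 172015991),Int.negSucc (nat_lit 59138325),Int.ofNat (nat_lit 12833486),Int.negSucc (nat_lit 68648852),Int.ofNat (nat_lit 96167923),Int.ofNat (nat_lit 33595652),Int.ofNat (nat_lit 54884529),Int.ofNat (nat_lit 31289191),Int.ofNat (nat_lit 53610855),Int.ofNat (nat_lit 14146714),Int.negSucc (nat_lit 26049335),Int.ofNat (nat_lit 9760772),Int.ofNat (nat_lit 413918004),Int.ofNat (nat_lit 198965384),Int.negSucc (nat_lit 266175153),Int.negSucc (nat_lit 219892258),Int.ofNat (nat_lit 180209020),Int.ofNat (nat_lit 45632813),Int.ofNat (nat_lit 317692378),Int.negSucc (nat_lit 80361828),Int.ofNat (nat_lit 141055373),Int.negSucc (nat_lit 808807985),Int.negSucc (nat_lit 722130592),Int.ofNat (nat_lit 43894357),Int.negSucc (nat_lit 861009681),Int.ofNat (nat_lit 454182097),Int.negSucc (nat_lit 1128566466),Int.ofNat (nat_lit 697043579),Int.ofNat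 (nat_lit 1178113066)])

/-- A row. -/
noncomputable def sr7_c2_18 : List ℕ × List ℤ :=
  ([(nat_lit 1),(nat_lit 0),(nat_lit 0),(nat_lit 0),(nat_lit 0),(nat_lit 0),(nat_lit 0),(nat_lit 1),(nat_lit 0),(nat_lit 0),(nat_lit 0),(nat_lit 0)], [Int.negSucc (nat_lit 67619497),Int.negSucc (nat_lit 125755728),Int.negSucc (nat_lit 545460494),Int.ofNat (nat_lit 32772675),Int.negSucc (nat_lit 437550426),Int.ofNat (nat_lit 225595668),Int.ofNat (nat_lit 203968157),Int.negSucc (nat_lit 130234086),Int.ofNat (nat_lit 293142682),Int.ofNat (nat_lit 64284637),Int.ofNat (nat_lit 42934593),Int.negSucc (nat_lit 32830378),Int.ofNat (nat_lit 75083224),Int.negSucc (nat_lit 76533383),Int.ofNat (nat_lit 134168938),Int.negSucc (nat_lit 103063995),Int.negSucc (nat_lit 14918351),Int.ofNat (nat_lit 122884907),Int.ofNat (nat_lit 74261308),Int.ofNat (nat_lit 82023936),Int.negSucc (nat_lit 48123554),Int.negSucc (nat_lit 40692180),Int.ofNat (nat_lit 24383181),Int.ofNat (nat_lit 21148333),Int.ofNat (nat_lit 35323845),Int.negSucc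 (nat_lit 44188960),Int.ofNat (nat_lit 31889867),Int.ofNat (nat_lit 18720895),Int.ofNat (nat_lit 13985822),Int.negSucc (nat_lit 13358430),Int.ofNat (nat_lit 1134420),Int.ofNat (nat_lit 180006888),Int.ofNat (nat_lit 149182037),Int.negSucc (nat_lit 59158539),Int.negSucc (nat_lit 97307018),Int.ofNat (nat_lit 208939771),Int.ofNat (nat_lit 50620909),Int.ofNat (nat_lit 119977859),Int.negSucc (nat_lit 14883486),Int.negSucc (nat_lit 117678495),Int.ofNat (nat_lit 25050088),Int.ofNat (nat_lit 152637340),Int.ofNat (nat_lit 32287221),Int.ofNat (nat_lit 89968529),Int.negSucc (nat_lit 59693284),Int.negSucc (nat_lit 37973758),Int.negSucc (nat_lit 27458241),Int.ofNat (nat_lit 18798288),Int.negSucc (nat_lit 20697085),Int.negSucc (nat_lit 136003248),Int.negSucc (nat_lit 1212503),Int.ofNat (nat_lit 59761110),Int.ofNat (nat_lit 117529014),Int.ofNat (nat_lit 28456004),Int.negSucc (nat_lit 14170561),Int.negSucc (nat_lit 60615408),Int.ofNat (nat_lit 82801834),Int.negSucc (nat_lit 29159514),Int.ofNat (nat_lit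 108593419),Int.negSucc (nat_lit 14932349),Int.ofNat (nat_lit 42905643),Int.ofNat (nat_lit 41110874),Int.ofNat (nat_lit 12438288),Int.ofNat (nat_lit 59066653),Int.negSucc (nat_lit 17315106),Int.ofNat (nat_lit 123942337),Int.ofNat (nat_lit 16886723),Int.negSucc (nat_lit 116822535),Int.negSucc (nat_lit 104194635),Int.ofNat (nat_lit 22006523),Int.ofNat (nat_lit 124685305),Int.negSucc (nat_lit 76563991),Int.ofNat (nat_lit 27058190),Int.ofNat (nat_lit 6759795),Int.negSucc (nat_lit 25562205),Int.negSucc (nat_lit 8601257),Int.ofNat (nat_lit 31409642),Int.negSucc (nat_lit 53119344),Int.negSucc (nat_lit 36661596),Int.negSucc (nat_lit 2468856),Int.ofNat (nat_lit 2601381),Int.ofNat (nat_lit 29695245),Int.ofNat (nat_lit 17705060),Int.negSucc (nat_lit 38997046),Int.negSucc (nat_lit 62545126),Int.ofNat (nat_lit 34346983),Int.ofNat (nat_lit 29217618),Int.negSucc (nat_lit 38345549),Int.ofNat (nat_lit 43616167),Int.negSucc (nat_lit 30629636),Int.ofNat (nat_lit 14525624),Int.ofNat (nat_lit 7104060),Int.ofNat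 (nat_lit 13744365),Int.negSucc (nat_lit 7875139),Int.negSucc (nat_lit 29404687),Int.negSucc (nat_lit 13052646),Int.negSucc (nat_lit 60476297),Int.ofNat (nat_lit 11552162),Int.negSucc (nat_lit 33115446),Int.ofNat (nat_lit 16774189),Int.negSucc (nat_lit 54457716),Int.negSucc (nat_lit 39726119),Int.ofNat (nat_lit 17229171),Int.ofNat (nat_lit 5766497),Int.ofNat (nat_lit 12381671),Int.negSucc (nat_lit 5509836),Int.ofNat (nat_lit 19640828),Int.ofNat (nat_lit 9242977),Int.ofNat (nat_lit 56509838),Int.negSucc (nat_lit 8115250),Int.negSucc (nat_lit 11639581),Int.negSucc (nat_lit 20309142),Int.negSucc (nat_lit 17671334),Int.negSucc (nat_lit 1219609),Int.negSucc (nat_lit 1556110),Int.ofNat (nat_lit 14470604),Int.negSucc (nat_lit 10973134),Int.ofNat (nat_lit 2046386),Int.ofNat (nat_lit 22417051),Int.ofNat (nat_lit 64498324),Int.negSucc (nat_lit 45671441),Int.negSucc (nat_lit 27790682),Int.negSucc (nat_lit 4518322),Int.negSucc (nat_lit 6007936),Int.ofNat (nat_lit 6266425),Int.ofNat (nat_lit 36268231),Int.negSucc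 (nat_lit 9078386),Int.ofNat (nat_lit 40858593),Int.ofNat (nat_lit 16556861),Int.ofNat (nat_lit 3151303),Int.negSucc (nat_lit 7097868),Int.ofNat (nat_lit 3288733),Int.negSucc (nat_lit 2077472),Int.ofNat (nat_lit 24817565),Int.negSucc (nat_lit 24147170),Int.negSucc (nat_lit 3855894),Int.negSucc (nat_lit 45228092),Int.ofNat (nat_lit 24036241),Int.negSucc (nat_lit 30286527),Int.negSucc (nat_lit 131780904),Int.negSucc (nat_lit 396514052),Int.ofNat (nat_lit 14093203),Int.ofNat (nat_lit 2765970),Int.ofNat (nat_lit 1693944),Int.ofNat (nat_lit 14748441),Int.ofNat (nat_lit 7472389),Int.negSucc (nat_lit 21207867),Int.negSucc (nat_lit 30332708),Int.negSucc (nat_lit 8859104),Int.ofNat (nat_lit 10101678),Int.negSucc (nat_lit 12487444),Int.negSucc (nat_lit 9606412),Int.ofNat (nat_lit 6081888),Int.negSucc (nat_lit 8302684),Int.negSucc (nat_lit 9990912),Int.ofNat (nat_lit 6493731),Int.ofNat (nat_lit 978656),Int.ofNat (nat_lit 78715576)])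

/-- A row. -/
noncomputable def sr7_c2_19 : List ℕ × List ℤ :=
  ([(nat_lit 1),(nat_lit 0),(nat_lit 0),(nat_lit 0),(nat_lit 0),(nat_lit 1),(nat_lit 0),(nat_lit 0),(nat_lit 0),(nat_lit 0),(nat_lit 0),(nat_lit 0)], [Int.ofNat (nat_lit 607761690),Int.negSucc (nat_lit 725169305),Int.ofNat (nat_lit 608183038),Int.negSucc (nat_lit 53415511),Int.negSucc (nat_lit 710842241),Int.negSucc (nat_lit 701553687),Int.ofNat (nat_lit 663021178),Int.ofNat (nat_lit 347292053),Int.negSucc (nat_lit 55812135),Int.negSucc (nat_lit 608885605),Int.ofNat (nat_lit 369709122),Int.ofNat (nat_lit 942215848),Int.ofNat (nat_lit 79840056),Int.negSucc (nat_lit 758484694),Int.ofNat (nat_lit 251594018),Int.ofNat (nat_lit 324739560),Int.negSucc (nat_lit 239434315),Int.ofNat (nat_lit 399846243),Int.negSucc (nat_lit 213759980),Int.negSucc (nat_lit 357724916),Int.negSucc (nat_lit 175592508),Int.negSucc (nat_lit 180897478),Int.negSucc (nat_lit 62820805),Int.negSucc (nat_lit 537009578),Int.negSucc (nat_lit 354731135),Int.ofNat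 (nat_lit 453313841),Int.ofNat (nat_lit 4431667),Int.ofNat (nat_lit 176174660),Int.negSucc (nat_lit 43910067),Int.negSucc (nat_lit 147967957),Int.ofNat (nat_lit 115686391),Int.negSucc (nat_lit 320245429),Int.negSucc (nat_lit 178587086),Int.ofNat (nat_lit 270714905),Int.ofNat (nat_lit 414255854),Int.negSucc (nat_lit 12995085),Int.negSucc (nat_lit 383481809),Int.ofNat (nat_lit 94002430),Int.ofNat (nat_lit 19722781),Int.negSucc (nat_lit 94986769),Int.negSucc (nat_lit 382571951),Int.ofNat (nat_lit 93129869),Int.ofNat (nat_lit 181038331),Int.ofNat (nat_lit 541815330),Int.negSucc (nat_lit 103741436),Int.ofNat (nat_lit 223680363),Int.negSucc (nat_lit 44873688),Int.ofNat (nat_lit 185916714),Int.ofNat (nat_lit 70719721),Int.ofNat (nat_lit 84528594),Int.negSucc (nat_lit 821160335),Int.negSucc (nat_lit 104182473),Int.ofNat (nat_lit 181899793),Int.negSucc (nat_lit 28716411),Int.negSucc (nat_lit 449313262),Int.ofNat (nat_lit 167054947),Int.negSucc (nat_lit 76869595),Int.negSucc (nat_lit 238770638),Int.ofNat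 (nat_lit 218145307),Int.ofNat (nat_lit 90065214),Int.ofNat (nat_lit 257247834),Int.ofNat (nat_lit 421869745),Int.ofNat (nat_lit 39911518),Int.ofNat (nat_lit 21681624),Int.ofNat (nat_lit 107279517),Int.negSucc (nat_lit 372198969),Int.ofNat (nat_lit 177866834),Int.ofNat (nat_lit 372709834),Int.negSucc (nat_lit 188711187),Int.ofNat (nat_lit 86365604),Int.ofNat (nat_lit 272264427),Int.ofNat (nat_lit 223992278),Int.ofNat (nat_lit 194042693),Int.negSucc (nat_lit 308132754),Int.ofNat (nat_lit 95459239),Int.ofNat (nat_lit 129819),Int.ofNat (nat_lit 49598396),Int.negSucc (nat_lit 25073819),Int.negSucc (nat_lit 69328549),Int.negSucc (nat_lit 89069051),Int.ofNat (nat_lit 3288008),Int.negSucc (nat_lit 43357232),Int.ofNat (nat_lit 71037193),Int.negSucc (nat_lit 131420502),Int.negSucc (nat_lit 7923100),Int.negSucc (nat_lit 68449363),Int.ofNat (nat_lit 36337907),Int.negSucc (nat_lit 1619733),Int.negSucc (nat_lit 27882526),Int.ofNat (nat_lit 31442950),Int.negSucc (nat_lit 15031670),Int.negSucc (nat_lit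 91680257),Int.negSucc (nat_lit 4089618),Int.ofNat (nat_lit 32782910),Int.ofNat (nat_lit 120040482),Int.negSucc (nat_lit 108547392),Int.negSucc (nat_lit 12789033),Int.ofNat (nat_lit 13727563),Int.ofNat (nat_lit 30971402),Int.negSucc (nat_lit 10610341),Int.ofNat (nat_lit 67193358),Int.ofNat (nat_lit 19591174),Int.negSucc (nat_lit 116975310),Int.negSucc (nat_lit 20984390),Int.negSucc (nat_lit 9773801),Int.ofNat (nat_lit 72557891),Int.negSucc (nat_lit 54664492),Int.ofNat (nat_lit 14217802),Int.ofNat (nat_lit 19504255),Int.ofNat (nat_lit 26762135),Int.ofNat (nat_lit 9101776),Int.ofNat (nat_lit 110586351),Int.ofNat (nat_lit 118929936),Int.negSucc (nat_lit 51087461),Int.ofNat (nat_lit 77734753),Int.negSucc (nat_lit 48467312),Int.negSucc (nat_lit 65257390),Int.negSucc (nat_lit 48906182),Int.ofNat (nat_lit 44527307),Int.ofNat (nat_lit 60910756),Int.ofNat (nat_lit 106392587),Int.negSucc (nat_lit 72381694),Int.negSucc (nat_lit 121327010),Int.negSucc (nat_lit 39530297),Int.ofNat (nat_lit 45603694),Int.ofNat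 (nat_lit 123523557),Int.ofNat (nat_lit 275299664),Int.ofNat (nat_lit 18602246),Int.ofNat (nat_lit 14217600),Int.negSucc (nat_lit 57408122),Int.negSucc (nat_lit 78486739),Int.ofNat (nat_lit 160271233),Int.negSucc (nat_lit 163066917),Int.negSucc (nat_lit 124295226),Int.negSucc (nat_lit 62356194),Int.negSucc (nat_lit 58035078),Int.ofNat (nat_lit 212759511),Int.ofNat (nat_lit 42607933),Int.ofNat (nat_lit 174585618),Int.ofNat (nat_lit 346066075),Int.negSucc (nat_lit 140772413),Int.negSucc (nat_lit 1408999333),Int.ofNat (nat_lit 30143051),Int.negSucc (nat_lit 336777553),Int.ofNat (nat_lit 331081498),Int.negSucc (nat_lit 46777164),Int.ofNat (nat_lit 19430165),Int.negSucc (nat_lit 56893781),Int.ofNat (nat_lit 11412925),Int.ofNat (nat_lit 103942184),Int.negSucc (nat_lit 15934568),Int.negSucc (nat_lit 85285482),Int.negSucc (nat_lit 183890447),Int.negSucc (nat_lit 10435987),Int.ofNat (nat_lit 15042027),Int.negSucc (nat_lit 7610036),Int.negSucc (nat_lit 27828709),Int.ofNat (nat_lit 1548824),Int.ofNat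 (nat_lit 268856696)])

/-- A row. -/
noncomputable def sr7_c2_20 : List ℕ × List ℤ :=
  ([(nat_lit 1),(nat_lit 0),(nat_lit 0),(nat_lit 1),(nat_lit 0),(nat_lit 0),(nat_lit 0),(nat_lit 0),(nat_lit 0),(nat_lit 0),(nat_lit 0),(nat_lit 0)], [Int.negSucc (nat_lit 1182318180),Int.ofNat (nat_lit 1612792322),Int.ofNat (nat_lit 193713739),Int.ofNat (nat_lit 1599325879),Int.ofNat (nat_lit 845205275),Int.negSucc (nat_lit 2134176326),Int.ofNat (nat_lit 505499894),Int.negSucc (nat_lit 2220003768),Int.negSucc (nat_lit 885460233),Int.ofNat (nat_lit 542621217),Int.negSucc (nat_lit 419645550),Int.ofNat (nat_lit 1169918054),Int.ofNat (nat_lit 71681054),Int.ofNat (nat_lit 621538869),Int.negSucc (nat_lit 783826988),Int.ofNat (nat_lit 314972887),Int.ofNat (nat_lit 50626082),Int.ofNat (nat_lit 1278974540),Int.negSucc (nat_lit 507054289),Int.ofNat (nat_lit 257477084),Int.ofNat (nat_lit 385565217),Int.negSucc (nat_lit 407885552),Int.negSucc (nat_lit 627795393),Int.ofNat (nat_lit 333504233),Int.negSucc (nat_lit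 231761173),Int.negSucc (nat_lit 436999477),Int.negSucc (nat_lit 255822282),Int.negSucc (nat_lit 14883348),Int.ofNat (nat_lit 160092626),Int.ofNat (nat_lit 160345696),Int.negSucc (nat_lit 71810128),Int.negSucc (nat_lit 25339219),Int.ofNat (nat_lit 638249660),Int.negSucc (nat_lit 317315002),Int.negSucc (nat_lit 74790532),Int.negSucc (nat_lit 301737322),Int.ofNat (nat_lit 18443225),Int.negSucc (nat_lit 376786760),Int.negSucc (nat_lit 268757833),Int.negSucc (nat_lit 844753430),Int.negSucc (nat_lit 162257040),Int.ofNat (nat_lit 241135669),Int.negSucc (nat_lit 145366175),Int.negSucc (nat_lit 310893683),Int.ofNat (nat_lit 290015899),Int.ofNat (nat_lit 223853836),Int.ofNat (nat_lit 93750701),Int.negSucc (nat_lit 105618272),Int.negSucc (nat_lit 16343811),Int.ofNat (nat_lit 69968037),Int.negSucc (nat_lit 11403179),Int.negSucc (nat_lit 445640135),Int.negSucc (nat_lit 869219),Int.negSucc (nat_lit 413151979),Int.ofNat (nat_lit 19768291),Int.negSucc (nat_lit 13414246),Int.ofNat (nat_lit 104959395),Int.negSucc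 (nat_lit 27343432),Int.negSucc (nat_lit 181847712),Int.negSucc (nat_lit 540262127),Int.ofNat (nat_lit 13580875),Int.negSucc (nat_lit 205995673),Int.negSucc (nat_lit 217872501),Int.ofNat (nat_lit 263040022),Int.negSucc (nat_lit 68608929),Int.negSucc (nat_lit 296699717),Int.ofNat (nat_lit 28668979),Int.negSucc (nat_lit 311803048),Int.ofNat (nat_lit 98993840),Int.ofNat (nat_lit 95410705),Int.negSucc (nat_lit 31899602),Int.ofNat (nat_lit 253604812),Int.negSucc (nat_lit 40605644),Int.negSucc (nat_lit 211705013),Int.ofNat (nat_lit 12827158),Int.ofNat (nat_lit 361119664),Int.negSucc (nat_lit 224753201),Int.ofNat (nat_lit 77543024),Int.negSucc (nat_lit 193738696),Int.ofNat (nat_lit 138572362),Int.ofNat (nat_lit 113661720),Int.negSucc (nat_lit 71511810),Int.negSucc (nat_lit 163948658),Int.ofNat (nat_lit 35141639),Int.negSucc (nat_lit 49292036),Int.negSucc (nat_lit 186918557),Int.ofNat (nat_lit 61755223),Int.negSucc (nat_lit 2120170),Int.negSucc (nat_lit 14485186),Int.ofNat (nat_lit 50546095),Int.negSucc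 (nat_lit 63679511),Int.ofNat (nat_lit 22576150),Int.ofNat (nat_lit 21679294),Int.negSucc (nat_lit 13720513),Int.ofNat (nat_lit 21167325),Int.negSucc (nat_lit 19328648),Int.ofNat (nat_lit 93017003),Int.ofNat (nat_lit 33005344),Int.ofNat (nat_lit 28151851),Int.negSucc (nat_lit 9950291),Int.ofNat (nat_lit 263224214),Int.negSucc (nat_lit 27781606),Int.ofNat (nat_lit 116034732),Int.negSucc (nat_lit 24674528),Int.negSucc (nat_lit 100176277),Int.negSucc (nat_lit 50205075),Int.ofNat (nat_lit 15382094),Int.negSucc (nat_lit 54436301),Int.negSucc (nat_lit 32232919),Int.ofNat (nat_lit 40446030),Int.ofNat (nat_lit 26908432),Int.ofNat (nat_lit 79501250),Int.ofNat (nat_lit 123393419),Int.ofNat (nat_lit 22947419),Int.ofNat (nat_lit 20947394),Int.ofNat (nat_lit 104896306),Int.ofNat (nat_lit 7379335),Int.negSucc (nat_lit 80348838),Int.ofNat (nat_lit 66595693),Int.negSucc (nat_lit 42000765),Int.ofNat (nat_lit 4644347),Int.ofNat (nat_lit 43934060),Int.negSucc (nat_lit 468821),Int.negSucc (nat_lit 8425988),Int.negSucc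 (nat_lit 108348000),Int.ofNat (nat_lit 83787987),Int.negSucc (nat_lit 77804815),Int.negSucc (nat_lit 3441334),Int.ofNat (nat_lit 40675201),Int.negSucc (nat_lit 164304922),Int.negSucc (nat_lit 63392278),Int.negSucc (nat_lit 84131344),Int.negSucc (nat_lit 140033943),Int.negSucc (nat_lit 13554059),Int.ofNat (nat_lit 179416782),Int.ofNat (nat_lit 47192044),Int.negSucc (nat_lit 42079301),Int.negSucc (nat_lit 13388197),Int.negSucc (nat_lit 168211167),Int.negSucc (nat_lit 224132139),Int.ofNat (nat_lit 575983025),Int.ofNat (nat_lit 329672940),Int.negSucc (nat_lit 1738532418),Int.negSucc (nat_lit 186399398),Int.negSucc (nat_lit 198787737),Int.ofNat (nat_lit 615091617),Int.ofNat (nat_lit 93618774),Int.ofNat (nat_lit 185417913),Int.negSucc (nat_lit 37244360),Int.negSucc (nat_lit 66951849),Int.negSucc (nat_lit 9066756),Int.ofNat (nat_lit 73788401),Int.negSucc (nat_lit 2810563),Int.negSucc (nat_lit 204340839),Int.ofNat (nat_lit 22958834),Int.negSucc (nat_lit 111637274),Int.ofNat (nat_lit 24518039),Int.negSucc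 (nat_lit 148473341),Int.ofNat (nat_lit 14191816),Int.ofNat (nat_lit 623991494)])

/-- A row. -/
noncomputable def sr7_c2_21 : List ℕ × List ℤ :=
  ([(nat_lit 1),(nat_lit 0),(nat_lit 1),(nat_lit 1),(nat_lit 0),(nat_lit 0),(nat_lit 0),(nat_lit 0),(nat_lit 0),(nat_lit 0),(nat_lit 0),(nat_lit 0)], [Int.negSucc (nat_lit 359080207),Int.ofNat (nat_lit 378411976),Int.ofNat (nat_lit 84141025),Int.ofNat (nat_lit 495071670),Int.negSucc (nat_lit 217655397),Int.negSucc (nat_lit 776979553),Int.ofNat (nat_lit 346468530),Int.negSucc (nat_lit 460625301),Int.negSucc (nat_lit 257879309),Int.ofNat (nat_lit 82233987),Int.ofNat (nat_lit 35070285),Int.ofNat (nat_lit 419945990),Int.ofNat (nat_lit 184421185),Int.ofNat (nat_lit 377859126),Int.negSucc (nat_lit 486848562),Int.ofNat (nat_lit 212034969),Int.ofNat (nat_lit 64082991),Int.ofNat (nat_lit 534010670),Int.ofNat (nat_lit 31883234),Int.ofNat (nat_lit 92952530),Int.ofNat (nat_lit 156200685),Int.negSucc (nat_lit 46564068),Int.negSucc (nat_lit 268786365),Int.ofNat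 (nat_lit 51170508),Int.ofNat (nat_lit 57607460),Int.negSucc (nat_lit 268639379),Int.negSucc (nat_lit 22961256),Int.ofNat (nat_lit 102615675),Int.negSucc (nat_lit 27706359),Int.ofNat (nat_lit 3709062),Int.negSucc (nat_lit 12210268),Int.negSucc (nat_lit 57825664),Int.ofNat (nat_lit 304993287),Int.ofNat (nat_lit 30056321),Int.negSucc (nat_lit 193935677),Int.negSucc (nat_lit 274164652),Int.negSucc (nat_lit 62764506),Int.negSucc (nat_lit 37549765),Int.negSucc (nat_lit 145160706),Int.negSucc (nat_lit 365146927),Int.negSucc (nat_lit 3458212),Int.ofNat (nat_lit 123670287),Int.negSucc (nat_lit 103110323),Int.ofNat (nat_lit 45030743),Int.ofNat (nat_lit 114227417),Int.ofNat (nat_lit 26645216),Int.ofNat (nat_lit 79700732),Int.ofNat (nat_lit 54515720),Int.negSucc (nat_lit 16378295),Int.ofNat (nat_lit 35254866),Int.negSucc (nat_lit 116725469),Int.negSucc (nat_lit 61344737),Int.ofNat (nat_lit 180356843),Int.negSucc (nat_lit 126868023),Int.negSucc (nat_lit 80976561),Int.negSucc (nat_lit 7401856),Int.negSucc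 (nat_lit 18935881),Int.negSucc (nat_lit 89526943),Int.negSucc (nat_lit 128142343),Int.negSucc (nat_lit 344340401),Int.ofNat (nat_lit 67224488),Int.negSucc (nat_lit 32300711),Int.negSucc (nat_lit 96403803),Int.ofNat (nat_lit 415338674),Int.negSucc (nat_lit 26597345),Int.negSucc (nat_lit 96714563),Int.ofNat (nat_lit 16816292),Int.negSucc (nat_lit 137888003),Int.ofNat (nat_lit 22583586),Int.negSucc (nat_lit 3574627),Int.ofNat (nat_lit 130643699),Int.ofNat (nat_lit 54896450),Int.ofNat (nat_lit 3307160),Int.negSucc (nat_lit 20413803),Int.negSucc (nat_lit 10942887),Int.ofNat (nat_lit 34816142),Int.negSucc (nat_lit 15863914),Int.negSucc (nat_lit 48713736),Int.ofNat (nat_lit 8471361),Int.ofNat (nat_lit 86231089),Int.negSucc (nat_lit 1411166),Int.ofNat (nat_lit 79402063),Int.negSucc (nat_lit 96186009),Int.negSucc (nat_lit 62617911),Int.negSucc (nat_lit 33876319),Int.negSucc (nat_lit 97425315),Int.ofNat (nat_lit 5238138),Int.ofNat (nat_lit 6612031),Int.negSucc (nat_lit 3441370),Int.negSucc (nat_lit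 2731515),Int.negSucc (nat_lit 55248035),Int.negSucc (nat_lit 3772957),Int.ofNat (nat_lit 30401276),Int.ofNat (nat_lit 49282858),Int.negSucc (nat_lit 4320224),Int.negSucc (nat_lit 59459433),Int.negSucc (nat_lit 14836521),Int.ofNat (nat_lit 38039659),Int.negSucc (nat_lit 6521684),Int.ofNat (nat_lit 23095762),Int.ofNat (nat_lit 117805309),Int.negSucc (nat_lit 65712039),Int.ofNat (nat_lit 45433037),Int.negSucc (nat_lit 18253542),Int.negSucc (nat_lit 50541006),Int.ofNat (nat_lit 57625063),Int.ofNat (nat_lit 8159036),Int.negSucc (nat_lit 27265018),Int.negSucc (nat_lit 70673158),Int.negSucc (nat_lit 6192480),Int.ofNat (nat_lit 8378920),Int.negSucc (nat_lit 31676560),Int.ofNat (nat_lit 154149929),Int.negSucc (nat_lit 27576170),Int.negSucc (nat_lit 17261522),Int.ofNat (nat_lit 40803279),Int.negSucc (nat_lit 12055689),Int.ofNat (nat_lit 14489276),Int.ofNat (nat_lit 83344158),Int.ofNat (nat_lit 17779638),Int.ofNat (nat_lit 46182410),Int.ofNat (nat_lit 19240648),Int.ofNat (nat_lit 17837713),Int.negSucc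 (nat_lit 27484042),Int.ofNat (nat_lit 2341890),Int.ofNat (nat_lit 67878988),Int.ofNat (nat_lit 12248735),Int.ofNat (nat_lit 52017670),Int.ofNat (nat_lit 14587402),Int.ofNat (nat_lit 28160931),Int.negSucc (nat_lit 61246511),Int.ofNat (nat_lit 21820807),Int.negSucc (nat_lit 100115308),Int.ofNat (nat_lit 4400186),Int.ofNat (nat_lit 36011928),Int.negSucc (nat_lit 54928843),Int.ofNat (nat_lit 59414508),Int.ofNat (nat_lit 10622157),Int.negSucc (nat_lit 28381996),Int.negSucc (nat_lit 173205941),Int.ofNat (nat_lit 25240985),Int.negSucc (nat_lit 4726402),Int.negSucc (nat_lit 507395554),Int.negSucc (nat_lit 113130696),Int.negSucc (nat_lit 109339018),Int.negSucc (nat_lit 537428459),Int.negSucc (nat_lit 2891310),Int.ofNat (nat_lit 11301052),Int.negSucc (nat_lit 2143037),Int.ofNat (nat_lit 8242264),Int.negSucc (nat_lit 14538798),Int.ofNat (nat_lit 7559037),Int.negSucc (nat_lit 22639659),Int.negSucc (nat_lit 33746536),Int.negSucc (nat_lit 11472912),Int.negSucc (nat_lit 24932988),Int.ofNat (nat_lit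 6424873),Int.ofNat (nat_lit 2055658),Int.ofNat (nat_lit 27415525),Int.ofNat (nat_lit 35501427),Int.ofNat (nat_lit 152235155)])

/-- A row. -/
noncomputable def sr7_c2_22 : List ℕ × List ℤ :=
  ([(nat_lit 1),(nat_lit 1),(nat_lit 0),(nat_lit 0),(nat_lit 0),(nat_lit 0),(nat_lit 0),(nat_lit 0),(nat_lit 0),(nat_lit 0),(nat_lit 0),(nat_lit 0)], [Int.ofNat (nat_lit 625362298),Int.negSucc (nat_lit 413709271),Int.negSucc (nat_lit 2741495726),Int.negSucc (nat_lit 1520361980),Int.negSucc (nat_lit 1021809643),Int.ofNat (nat_lit 1623398963),Int.ofNat (nat_lit 692645210),Int.ofNat (nat_lit 242185752),Int.ofNat (nat_lit 1144344925),Int.negSucc (nat_lit 713457469),Int.ofNat (nat_lit 164241581),Int.negSucc (nat_lit 1911480616),Int.negSucc (nat_lit 430988794),Int.negSucc (nat_lit 1814331692),Int.negSucc (nat_lit 40371469),Int.negSucc (nat_lit 447100623),Int.negSucc (nat_lit 70622446),Int.negSucc (nat_lit 1015064930),Int.negSucc (nat_lit 110105512),Int.ofNat (nat_lit 75190082),Int.negSucc (nat_lit 28389227),Int.ofNat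 (nat_lit 205508835),Int.ofNat (nat_lit 408596207),Int.negSucc (nat_lit 647390711),Int.ofNat (nat_lit 361288742),Int.negSucc (nat_lit 279558894),Int.negSucc (nat_lit 462590769),Int.ofNat (nat_lit 72874786),Int.negSucc (nat_lit 1131759388),Int.ofNat (nat_lit 167647341),Int.ofNat (nat_lit 139312274),Int.ofNat (nat_lit 954779576),Int.ofNat (nat_lit 196155806),Int.ofNat (nat_lit 865431418),Int.negSucc (nat_lit 754184132),Int.ofNat (nat_lit 668544036),Int.ofNat (nat_lit 583708078),Int.ofNat (nat_lit 100640859),Int.ofNat (nat_lit 1344438447),Int.negSucc (nat_lit 197279660),Int.ofNat (nat_lit 231244034),Int.ofNat (nat_lit 159110158),Int.ofNat (nat_lit 440525460),Int.ofNat (nat_lit 32071826),Int.ofNat (nat_lit 264829069),Int.negSucc (nat_lit 223222615),Int.ofNat (nat_lit 110765650),Int.ofNat (nat_lit 319666063),Int.ofNat (nat_lit 104314711),Int.negSucc (nat_lit 183649783),Int.ofNat (nat_lit 633032568),Int.ofNat (nat_lit 140134082),Int.ofNat (nat_lit 454087912),Int.negSucc (nat_lit 206252262),Int.ofNat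 (nat_lit 801408329),Int.ofNat (nat_lit 117811502),Int.ofNat (nat_lit 180918377),Int.negSucc (nat_lit 180098993),Int.ofNat (nat_lit 103315936),Int.ofNat (nat_lit 643909393),Int.ofNat (nat_lit 362655903),Int.ofNat (nat_lit 262101634),Int.ofNat (nat_lit 91901806),Int.ofNat (nat_lit 614468977),Int.ofNat (nat_lit 728279275),Int.negSucc (nat_lit 111696779),Int.negSucc (nat_lit 192576684),Int.ofNat (nat_lit 8713647),Int.ofNat (nat_lit 231877151),Int.negSucc (nat_lit 9040300),Int.ofNat (nat_lit 22439518),Int.negSucc (nat_lit 276617007),Int.negSucc (nat_lit 291000069),Int.negSucc (nat_lit 6561223),Int.negSucc (nat_lit 143860214),Int.negSucc (nat_lit 5871219),Int.ofNat (nat_lit 409738665),Int.negSucc (nat_lit 87635012),Int.ofNat (nat_lit 312866398),Int.ofNat (nat_lit 145116319),Int.negSucc (nat_lit 159573479),Int.ofNat (nat_lit 191002330),Int.negSucc (nat_lit 105470479),Int.ofNat (nat_lit 54354048),Int.ofNat (nat_lit 361714913),Int.ofNat (nat_lit 243983674),Int.negSucc (nat_lit 175069827),Int.ofNat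 (nat_lit 231070776),Int.negSucc (nat_lit 207443932),Int.negSucc (nat_lit 663205316),Int.ofNat (nat_lit 340071477),Int.negSucc (nat_lit 253973844),Int.negSucc (nat_lit 85458090),Int.ofNat (nat_lit 158477689),Int.negSucc (nat_lit 67589201),Int.negSucc (nat_lit 33512405),Int.ofNat (nat_lit 51303756),Int.ofNat (nat_lit 57447093),Int.negSucc (nat_lit 176468096),Int.ofNat (nat_lit 252908306),Int.negSucc (nat_lit 104086329),Int.ofNat (nat_lit 196968250),Int.ofNat (nat_lit 3027084),Int.ofNat (nat_lit 126381975),Int.negSucc (nat_lit 115514860),Int.ofNat (nat_lit 36263530),Int.negSucc (nat_lit 28432355),Int.ofNat (nat_lit 80198076),Int.ofNat (nat_lit 7813731),Int.ofNat (nat_lit 222872622),Int.negSucc (nat_lit 171212071),Int.negSucc (nat_lit 150897362),Int.ofNat (nat_lit 161885664),Int.ofNat (nat_lit 121597760),Int.negSucc (nat_lit 16411105),Int.negSucc (nat_lit 51926918),Int.negSucc (nat_lit 275925616),Int.ofNat (nat_lit 65910872),Int.ofNat (nat_lit 79090735),Int.ofNat (nat_lit 21359590),Int.negSucc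 (nat_lit 119987587),Int.ofNat (nat_lit 71327833),Int.negSucc (nat_lit 70013131),Int.ofNat (nat_lit 13983906),Int.ofNat (nat_lit 173280478),Int.negSucc (nat_lit 145586717),Int.ofNat (nat_lit 133365368),Int.ofNat (nat_lit 26564102),Int.negSucc (nat_lit 29778272),Int.ofNat (nat_lit 378333155),Int.negSucc (nat_lit 152852092),Int.negSucc (nat_lit 89627934),Int.ofNat (nat_lit 194027083),Int.negSucc (nat_lit 85790432),Int.negSucc (nat_lit 119936516),Int.ofNat (nat_lit 113862472),Int.ofNat (nat_lit 212108212),Int.negSucc (nat_lit 130537199),Int.ofNat (nat_lit 287162410),Int.negSucc (nat_lit 467968399),Int.negSucc (nat_lit 163842345),Int.ofNat (nat_lit 69301686),Int.negSucc (nat_lit 148180498),Int.negSucc (nat_lit 205654418),Int.ofNat (nat_lit 934676278),Int.negSucc (nat_lit 752549870),Int.negSucc (nat_lit 3445658847),Int.ofNat (nat_lit 659958399),Int.negSucc (nat_lit 673222998),Int.negSucc (nat_lit 632994232),Int.ofNat (nat_lit 377722859),Int.negSucc (nat_lit 108032648),Int.negSucc (nat_lit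 336131877),Int.ofNat (nat_lit 223876346),Int.negSucc (nat_lit 401393430),Int.negSucc (nat_lit 157663252),Int.ofNat (nat_lit 174233295),Int.ofNat (nat_lit 413871611),Int.negSucc (nat_lit 207057992),Int.negSucc (nat_lit 449338516),Int.ofNat (nat_lit 120205885),Int.ofNat (nat_lit 1247628086)])

/-- A row. -/
noncomputable def sr7_c2_23 : List ℕ × List ℤ :=
  ([(nat_lit 1),(nat_lit 1),(nat_lit 0),(nat_lit 0),(nat_lit 1),(nat_lit 0),(nat_lit 0),(nat_lit 0),(nat_lit 0),(nat_lit 0),(nat_lit 0),(nat_lit 0)], [Int.negSucc (nat_lit 1978453343),Int.negSucc (nat_lit 968973357),Int.negSucc (nat_lit 494434158),Int.negSucc (nat_lit 101371344),Int.ofNat (nat_lit 2478095),Int.negSucc (nat_lit 414826486),Int.ofNat (nat_lit 101334127),Int.ofNat (nat_lit 1320073236),Int.negSucc (nat_lit 489585295),Int.negSucc (nat_lit 1142767006),Int.ofNat (nat_lit 106349147),Int.negSucc (nat_lit 312950916),Int.negSucc (nat_lit 458032605),Int.negSucc (nat_lit 983365377),Int.ofNat (nat_lit 118195351),Int.ofNat (nat_lit 329705399),Int.negSucc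 (nat_lit 200883120),Int.negSucc (nat_lit 302042855),Int.ofNat (nat_lit 44564196),Int.negSucc (nat_lit 330163548),Int.negSucc (nat_lit 13277429),Int.ofNat (nat_lit 155884517),Int.ofNat (nat_lit 314589526),Int.negSucc (nat_lit 508280978),Int.ofNat (nat_lit 154313859),Int.ofNat (nat_lit 100797142),Int.negSucc (nat_lit 545534915),Int.ofNat (nat_lit 188657381),Int.negSucc (nat_lit 434360054),Int.ofNat (nat_lit 140384463),Int.ofNat (nat_lit 208045994),Int.negSucc (nat_lit 516890465),Int.negSucc (nat_lit 233739113),Int.ofNat (nat_lit 448805642),Int.ofNat (nat_lit 292027825),Int.negSucc (nat_lit 53385340),Int.negSucc (nat_lit 204294996),Int.negSucc (nat_lit 64440047),Int.ofNat (nat_lit 103950006),Int.ofNat (nat_lit 665180122),Int.negSucc (nat_lit 15835156),Int.negSucc (nat_lit 217948098),Int.ofNat (nat_lit 308091766),Int.ofNat (nat_lit 308655829),Int.ofNat (nat_lit 18153136),Int.ofNat (nat_lit 165386504),Int.negSucc (nat_lit 194832522),Int.negSucc (nat_lit 73845225),Int.ofNat (nat_lit 240105858),Int.negSucc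 (nat_lit 381849199),Int.negSucc (nat_lit 168122292),Int.ofNat (nat_lit 290229628),Int.ofNat (nat_lit 187686080),Int.negSucc (nat_lit 304726145),Int.negSucc (nat_lit 884677439),Int.ofNat (nat_lit 1886389),Int.negSucc (nat_lit 61705475),Int.negSucc (nat_lit 266572528),Int.ofNat (nat_lit 493105996),Int.ofNat (nat_lit 45458410),Int.ofNat (nat_lit 298316338),Int.ofNat (nat_lit 589620450),Int.ofNat (nat_lit 25543811),Int.negSucc (nat_lit 162521954),Int.negSucc (nat_lit 56052060),Int.ofNat (nat_lit 82809442),Int.negSucc (nat_lit 2775675),Int.ofNat (nat_lit 16276240),Int.ofNat (nat_lit 17780644),Int.negSucc (nat_lit 17582035),Int.negSucc (nat_lit 253477004),Int.ofNat (nat_lit 33359483),Int.negSucc (nat_lit 65966503),Int.negSucc (nat_lit 160341642),Int.ofNat (nat_lit 10566159),Int.negSucc (nat_lit 26071011),Int.negSucc (nat_lit 82739630),Int.negSucc (nat_lit 25276485),Int.ofNat (nat_lit 33209616),Int.negSucc (nat_lit 150561654),Int.negSucc (nat_lit 126755832),Int.negSucc (nat_lit 32225670),Int.ofNat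 (nat_lit 108781455),Int.ofNat (nat_lit 47971407),Int.negSucc (nat_lit 27276473),Int.negSucc (nat_lit 121983428),Int.negSucc (nat_lit 67281372),Int.ofNat (nat_lit 123738302),Int.negSucc (nat_lit 1159732),Int.ofNat (nat_lit 180840615),Int.ofNat (nat_lit 41408863),Int.negSucc (nat_lit 323790599),Int.negSucc (nat_lit 60295641),Int.ofNat (nat_lit 11163689),Int.negSucc (nat_lit 28498606),Int.negSucc (nat_lit 45668732),Int.ofNat (nat_lit 75386647),Int.negSucc (nat_lit 144486015),Int.ofNat (nat_lit 131540829),Int.negSucc (nat_lit 118101805),Int.ofNat (nat_lit 7980069),Int.ofNat (nat_lit 199363691),Int.negSucc (nat_lit 176492443),Int.negSucc (nat_lit 153943937),Int.ofNat (nat_lit 79100124),Int.ofNat (nat_lit 56396210),Int.negSucc (nat_lit 1639095),Int.ofNat (nat_lit 16141104),Int.negSucc (nat_lit 26301725),Int.negSucc (nat_lit 850125),Int.ofNat (nat_lit 132950581),Int.negSucc (nat_lit 16834274),Int.negSucc (nat_lit 12101062),Int.ofNat (nat_lit 33454453),Int.ofNat (nat_lit 3084403),Int.negSucc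 (nat_lit 112802358),Int.ofNat (nat_lit 174550558),Int.negSucc (nat_lit 55583988),Int.negSucc (nat_lit 62362609),Int.ofNat (nat_lit 69646737),Int.negSucc (nat_lit 41143557),Int.negSucc (nat_lit 30636495),Int.negSucc (nat_lit 9653456),Int.negSucc (nat_lit 116284639),Int.negSucc (nat_lit 123542135),Int.ofNat (nat_lit 124809028),Int.negSucc (nat_lit 65613184),Int.ofNat (nat_lit 68170270),Int.negSucc (nat_lit 72806765),Int.negSucc (nat_lit 148839395),Int.ofNat (nat_lit 169515602),Int.negSucc (nat_lit 10875631),Int.negSucc (nat_lit 150720006),Int.ofNat (nat_lit 47129269),Int.negSucc (nat_lit 55432961),Int.ofNat (nat_lit 24977005),Int.negSucc (nat_lit 44396512),Int.ofNat (nat_lit 13402410),Int.negSucc (nat_lit 86336810),Int.ofNat (nat_lit 315527777),Int.ofNat (nat_lit 164384568),Int.negSucc (nat_lit 201910651),Int.ofNat (nat_lit 366697881),Int.negSucc (nat_lit 526572150),Int.ofNat (nat_lit 38224227),Int.negSucc (nat_lit 73864261),Int.ofNat (nat_lit 574981210),Int.negSucc (nat_lit 62233383),Int.negSucc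 (nat_lit 1173697150),Int.ofNat (nat_lit 170954942),Int.ofNat (nat_lit 36012759),Int.ofNat (nat_lit 73191486),Int.ofNat (nat_lit 13105489),Int.negSucc (nat_lit 76748517),Int.negSucc (nat_lit 13709509),Int.ofNat (nat_lit 56472880),Int.ofNat (nat_lit 11089804),Int.ofNat (nat_lit 57031479),Int.ofNat (nat_lit 12034475),Int.negSucc (nat_lit 72840663),Int.ofNat (nat_lit 70705907),Int.negSucc (nat_lit 81326061),Int.ofNat (nat_lit 265543476)])

/-- A row. -/
noncomputable def sr7_c2_24 : List ℕ × List ℤ :=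
  ([(nat_lit 1),(nat_lit 1),(nat_lit 1),(nat_lit 0),(nat_lit 0),(nat_lit 0),(nat_lit 0),(nat_lit 0),(nat_lit 0),(nat_lit 0),(nat_lit 0),(nat_lit 0)], [Int.negSucc (nat_lit 802224787),Int.ofNat (nat_lit 466841640),Int.negSucc (nat_lit 3020637101),Int.negSucc (nat_lit 2397527866),Int.ofNat (nat_lit 638236165),Int.ofNat (nat_lit 624386695),Int.ofNat (nat_lit 1232335457),Int.negSucc (nat_lit 200033700),Int.ofNat (nat_lit 893424586),Int.negSucc (nat_lit 650565076),Int.negSucc (nat_lit 644868984),Int.negSucc (nat_lit 2389027214),Int.negSucc (nat_lit 786363853),Int.negSucc (nat_lit 2079575476),Int.negSucc (nat_lit 276391057),Int.negSucc (nat_lit 458236789),Int.negSucc (nat_lit 1191962),Int.negSucc (nat_lit 624291203),Int.negSucc (nat_lit 406393511),Int.negSucc (nat_lit 18097472),Int.ofNat (nat_lit 146774888),Int.ofNat (nat_lit 78335727),Int.ofNat (nat_lit 505893023),Int.negSucc (nat_lit 148303840),Int.ofNat (nat_lit 612355119),Int.negSucc (nat_lit 1398957833),Int.negSucc (nat_lit 1385204889),Int.ofNat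 (nat_lit 5263127),Int.negSucc (nat_lit 1594381967),Int.ofNat (nat_lit 495720027),Int.negSucc (nat_lit 62987793),Int.ofNat (nat_lit 1442667616),Int.ofNat (nat_lit 573902998),Int.ofNat (nat_lit 369475143),Int.negSucc (nat_lit 875060927),Int.ofNat (nat_lit 972947098),Int.ofNat (nat_lit 724979886),Int.negSucc (nat_lit 417890949),Int.ofNat (nat_lit 1240319298),Int.negSucc (nat_lit 594361926),Int.negSucc (nat_lit 169302743),Int.ofNat (nat_lit 539600551),Int.ofNat (nat_lit 693865991),Int.negSucc (nat_lit 602948610),Int.ofNat (nat_lit 476116643),Int.ofNat (nat_lit 16777823),Int.negSucc (nat_lit 238558572),Int.ofNat (nat_lit 133530939),Int.ofNat (nat_lit 174182941),Int.negSucc (nat_lit 319229225),Int.ofNat (nat_lit 1261816100),Int.ofNat (nat_lit 18007767),Int.ofNat (nat_lit 843644935),Int.negSucc (nat_lit 598164800),Int.ofNat (nat_lit 908570447),Int.negSucc (nat_lit 282915044),Int.ofNat (nat_lit 156877771),Int.negSucc (nat_lit 446816205),Int.ofNat (nat_lit 300605418),Int.ofNat (nat_lit 378968419),Int.ofNat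 (nat_lit 409252406),Int.ofNat (nat_lit 636699550),Int.negSucc (nat_lit 195124564),Int.ofNat (nat_lit 877379674),Int.ofNat (nat_lit 763377315),Int.negSucc (nat_lit 97410875),Int.negSucc (nat_lit 106980457),Int.negSucc (nat_lit 546972487),Int.ofNat (nat_lit 313391357),Int.ofNat (nat_lit 135724250),Int.negSucc (nat_lit 472134881),Int.negSucc (nat_lit 149819204),Int.negSucc (nat_lit 359029973),Int.ofNat (nat_lit 18508411),Int.negSucc (nat_lit 141012721),Int.ofNat (nat_lit 141023003),Int.ofNat (nat_lit 55546927),Int.ofNat (nat_lit 198300435),Int.negSucc (nat_lit 157604544),Int.ofNat (nat_lit 162189486),Int.negSucc (nat_lit 57388361),Int.negSucc (nat_lit 93151347),Int.negSucc (nat_lit 171049458),Int.ofNat (nat_lit 46924245),Int.ofNat (nat_lit 16493644),Int.negSucc (nat_lit 24319813),Int.negSucc (nat_lit 129202530),Int.ofNat (nat_lit 250087454),Int.negSucc (nat_lit 66556022),Int.negSucc (nat_lit 212599217),Int.ofNat (nat_lit 289616425),Int.negSucc (nat_lit 230911658),Int.negSucc (nat_lit 74585929),Int.negSucc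 (nat_lit 78372917),Int.ofNat (nat_lit 20776563),Int.negSucc (nat_lit 71908926),Int.ofNat (nat_lit 385434254),Int.negSucc (nat_lit 28293929),Int.negSucc (nat_lit 79122940),Int.ofNat (nat_lit 44083030),Int.ofNat (nat_lit 179059374),Int.ofNat (nat_lit 458789289),Int.ofNat (nat_lit 157043777),Int.negSucc (nat_lit 56762592),Int.negSucc (nat_lit 98270933),Int.negSucc (nat_lit 145399189),Int.ofNat (nat_lit 30160445),Int.ofNat (nat_lit 48241180),Int.negSucc (nat_lit 24668838),Int.ofNat (nat_lit 391315287),Int.ofNat (nat_lit 81738094),Int.negSucc (nat_lit 36415264),Int.ofNat (nat_lit 109767147),Int.ofNat (nat_lit 219103926),Int.negSucc (nat_lit 51510880),Int.ofNat (nat_lit 208324829),Int.negSucc (nat_lit 90953427),Int.ofNat (nat_lit 138285816),Int.ofNat (nat_lit 149425004),Int.ofNat (nat_lit 177269547),Int.negSucc (nat_lit 198628700),Int.ofNat (nat_lit 212766233),Int.negSucc (nat_lit 28452485),Int.negSucc (nat_lit 17232640),Int.ofNat (nat_lit 7729834),Int.negSucc (nat_lit 244497013),Int.negSucc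 (nat_lit 92997762),Int.negSucc (nat_lit 11014476),Int.negSucc (nat_lit 55105186),Int.ofNat (nat_lit 75074799),Int.negSucc (nat_lit 19130960),Int.negSucc (nat_lit 330540963),Int.ofNat (nat_lit 188112768),Int.negSucc (nat_lit 181265458),Int.ofNat (nat_lit 17911286),Int.ofNat (nat_lit 408817394),Int.ofNat (nat_lit 116481770),Int.negSucc (nat_lit 141814544),Int.ofNat (nat_lit 96770577),Int.negSucc (nat_lit 247284692),Int.ofNat (nat_lit 345063081),Int.ofNat (nat_lit 712580836),Int.negSucc (nat_lit 1470288940),Int.ofNat (nat_lit 6862513),Int.ofNat (nat_lit 536248524),Int.ofNat (nat_lit 67104099),Int.negSucc (nat_lit 2662139757),Int.ofNat (nat_lit 1433810503),Int.negSucc (nat_lit 1443288633),Int.negSucc (nat_lit 926467123),Int.negSucc (nat_lit 1627282347),Int.ofNat (nat_lit 809413330),Int.negSucc (nat_lit 315019345),Int.ofNat (nat_lit 202282939),Int.negSucc (nat_lit 258768801),Int.negSucc (nat_lit 565347612),Int.negSucc (nat_lit 904220),Int.ofNat (nat_lit 87730960),Int.negSucc (nat_lit 202534174),Int.ofNat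 (nat_lit 367383132),Int.negSucc (nat_lit 15360705),Int.ofNat (nat_lit 844159514),Int.negSucc (nat_lit 457745670),Int.ofNat (nat_lit 868276693)])

/-- A row. -/
noncomputable def sr7_c2_25 : List ℕ × List ℤ :=
  ([(nat_lit 1),(nat_lit 2),(nat_lit 0),(nat_lit 1),(nat_lit 0),(nat_lit 0),(nat_lit 0),(nat_lit 0),(nat_lit 0),(nat_lit 0),(nat_lit 0),(nat_lit 0)], [Int.ofNat (nat_lit 2130423155),Int.ofNat (nat_lit 58732619),Int.ofNat (nat_lit 364489672),Int.ofNat (nat_lit 98766036),Int.ofNat (nat_lit 1011554777),Int.ofNat (nat_lit 2065289721),Int.negSucc (nat_lit 913598459),Int.ofNat (nat_lit 1306881266),Int.negSucc (nat_lit 259510344),Int.ofNat (nat_lit 156137366),Int.negSucc (nat_lit 186825368),Int.negSucc (nat_lit 795148519),Int.ofNat (nat_lit 27066790),Int.negSucc (nat_lit 1370036888),Int.ofNat (nat_lit 2479531301),Int.negSucc (nat_lit 332389095),Int.ofNat (nat_lit 183093855),Int.negSucc (nat_lit 631347552),Int.ofNat (nat_lit 882140270),Int.ofNat (nat_lit 306434126),Int.negSucc (nat_lit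 10152236),Int.ofNat (nat_lit 472526001),Int.ofNat (nat_lit 341143643),Int.ofNat (nat_lit 722378359),Int.negSucc (nat_lit 866693377),Int.ofNat (nat_lit 907036136),Int.ofNat (nat_lit 56336830),Int.negSucc (nat_lit 866146921),Int.ofNat (nat_lit 1657781729),Int.negSucc (nat_lit 1678874020),Int.negSucc (nat_lit 455821238),Int.negSucc (nat_lit 528125263),Int.negSucc (nat_lit 1238904833),Int.negSucc (nat_lit 101351621),Int.ofNat (nat_lit 74809833),Int.ofNat (nat_lit 668647956),Int.ofNat (nat_lit 98303497),Int.ofNat (nat_lit 193442031),Int.negSucc (nat_lit 335644617),Int.ofNat (nat_lit 1252943385),Int.ofNat (nat_lit 190322646),Int.negSucc (nat_lit 1183971141),Int.negSucc (nat_lit 88412308),Int.negSucc (nat_lit 131623136),Int.negSucc (nat_lit 368072486),Int.ofNat (nat_lit 33861153),Int.negSucc (nat_lit 210681097),Int.ofNat (nat_lit 551400757),Int.negSucc (nat_lit 236621487),Int.negSucc (nat_lit 109017076),Int.negSucc (nat_lit 98935066),Int.ofNat (nat_lit 621524033),Int.ofNat (nat_lit 172467942),Int.ofNat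 (nat_lit 1064444532),Int.negSucc (nat_lit 45001701),Int.ofNat (nat_lit 286255908),Int.negSucc (nat_lit 651943241),Int.negSucc (nat_lit 63646700),Int.ofNat (nat_lit 583033465),Int.negSucc (nat_lit 265372472),Int.negSucc (nat_lit 526829515),Int.negSucc (nat_lit 495672056),Int.ofNat (nat_lit 762212501),Int.negSucc (nat_lit 753282981),Int.negSucc (nat_lit 311883397),Int.ofNat (nat_lit 305445892),Int.negSucc (nat_lit 66115593),Int.ofNat (nat_lit 219064661),Int.negSucc (nat_lit 260814936),Int.ofNat (nat_lit 150101378),Int.ofNat (nat_lit 125460500),Int.negSucc (nat_lit 51801600),Int.ofNat (nat_lit 22762519),Int.ofNat (nat_lit 221314432),Int.ofNat (nat_lit 187902831),Int.negSucc (nat_lit 26762297),Int.ofNat (nat_lit 72347591),Int.negSucc (nat_lit 311266786),Int.negSucc (nat_lit 53398762),Int.negSucc (nat_lit 417880082),Int.negSucc (nat_lit 186248727),Int.ofNat (nat_lit 173687156),Int.ofNat (nat_lit 359094217),Int.negSucc (nat_lit 161938193),Int.ofNat (nat_lit 74239443),Int.ofNat (nat_lit 357443098),Int.ofNat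 (nat_lit 69669614),Int.ofNat (nat_lit 37555306),Int.ofNat (nat_lit 370948768),Int.ofNat (nat_lit 45288741),Int.ofNat (nat_lit 131227026),Int.ofNat (nat_lit 712783448),Int.ofNat (nat_lit 65721468),Int.negSucc (nat_lit 125491986),Int.ofNat (nat_lit 108531728),Int.ofNat (nat_lit 327738559),Int.negSucc (nat_lit 980754744),Int.ofNat (nat_lit 288220059),Int.negSucc (nat_lit 410599162),Int.ofNat (nat_lit 721107018),Int.negSucc (nat_lit 367817820),Int.negSucc (nat_lit 211855371),Int.negSucc (nat_lit 235752138),Int.ofNat (nat_lit 246785446),Int.negSucc (nat_lit 197262446),Int.ofNat (nat_lit 127409998),Int.ofNat (nat_lit 84259632),Int.negSucc (nat_lit 73534937),Int.ofNat (nat_lit 48367235),Int.negSucc (nat_lit 55895129),Int.negSucc (nat_lit 136671157),Int.negSucc (nat_lit 129989552),Int.negSucc (nat_lit 243916024),Int.negSucc (nat_lit 10031682),Int.negSucc (nat_lit 17356354),Int.negSucc (nat_lit 447733080),Int.ofNat (nat_lit 372246925),Int.ofNat (nat_lit 168183595),Int.negSucc (nat_lit 148055539),Int.ofNat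 (nat_lit 240585219),Int.negSucc (nat_lit 222834424),Int.negSucc (nat_lit 389341444),Int.ofNat (nat_lit 289970986),Int.ofNat (nat_lit 139375545),Int.ofNat (nat_lit 68651359),Int.ofNat (nat_lit 295671867),Int.ofNat (nat_lit 297697558),Int.ofNat (nat_lit 43492680),Int.negSucc (nat_lit 261912528),Int.ofNat (nat_lit 15757717),Int.ofNat (nat_lit 123074659),Int.negSucc (nat_lit 215904153),Int.ofNat (nat_lit 715351722),Int.ofNat (nat_lit 131373857),Int.negSucc (nat_lit 182531760),Int.negSucc (nat_lit 431877044),Int.negSucc (nat_lit 387816906),Int.ofNat (nat_lit 208752904),Int.ofNat (nat_lit 109942396),Int.ofNat (nat_lit 475654987),Int.negSucc (nat_lit 900981656),Int.ofNat (nat_lit 363278651),Int.ofNat (nat_lit 1719878743),Int.ofNat (nat_lit 74105821),Int.negSucc (nat_lit 177021897),Int.negSucc (nat_lit 618789829),Int.ofNat (nat_lit 469907718),Int.negSucc (nat_lit 970788974),Int.ofNat (nat_lit 270655099),Int.negSucc (nat_lit 587613800),Int.ofNat (nat_lit 650084123),Int.ofNat (nat_lit 625261968),Int.ofNat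 (nat_lit 51110021),Int.negSucc (nat_lit 3334085362),Int.negSucc (nat_lit 422962640),Int.ofNat (nat_lit 65215878),Int.ofNat (nat_lit 290339431),Int.ofNat (nat_lit 167786446),Int.negSucc (nat_lit 156921398),Int.negSucc (nat_lit 78219764),Int.ofNat (nat_lit 346012832),Int.negSucc (nat_lit 459629561),Int.ofNat (nat_lit 462220055),Int.negSucc (nat_lit 201688614),Int.ofNat (nat_lit 920507224)])

/-- A row. -/
noncomputable def sr7_c2_26 : List ℕ × List ℤ :=
  ([(nat_lit 1),(nat_lit 3),(nat_lit 0),(nat_lit 0),(nat_lit 0),(nat_lit 0),(nat_lit 0),(nat_lit 0),(nat_lit 0),(nat_lit 0),(nat_lit 0),(nat_lit 0)], [Int.negSucc (nat_lit 306210928),Int.ofNat (nat_lit 635304510),Int.ofNat (nat_lit 582630651),Int.negSucc (nat_lit 423780772),Int.negSucc (nat_lit 477505999),Int.negSucc (nat_lit 1840539979),Int.ofNat (nat_lit 257784125),Int.negSucc (nat_lit 31353207),Int.negSucc (nat_lit 131696754),Int.ofNat (nat_lit 375479320),Int.negSucc (nat_lit 106028804),Int.ofNat (nat_lit 289841261),Int.negSucc (nat_lit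 77534582),Int.ofNat (nat_lit 903203296),Int.negSucc (nat_lit 348636476),Int.negSucc (nat_lit 77909372),Int.negSucc (nat_lit 862001420),Int.ofNat (nat_lit 289343721),Int.negSucc (nat_lit 634213555),Int.negSucc (nat_lit 630415165),Int.negSucc (nat_lit 165021593),Int.negSucc (nat_lit 580497122),Int.negSucc (nat_lit 67019910),Int.ofNat (nat_lit 180180808),Int.ofNat (nat_lit 310250205),Int.negSucc (nat_lit 1318243547),Int.negSucc (nat_lit 342854978),Int.negSucc (nat_lit 88010783),Int.negSucc (nat_lit 908012713),Int.ofNat (nat_lit 209147197),Int.negSucc (nat_lit 546533318),Int.negSucc (nat_lit 92224781),Int.ofNat (nat_lit 529884759),Int.negSucc (nat_lit 381886289),Int.negSucc (nat_lit 258671561),Int.negSucc (nat_lit 105172796),Int.ofNat (nat_lit 6446957),Int.negSucc (nat_lit 71577556),Int.negSucc (nat_lit 601756536),Int.negSucc (nat_lit 969029478),Int.ofNat (nat_lit 254934181),Int.ofNat (nat_lit 1423578965),Int.ofNat (nat_lit 566767065),Int.negSucc (nat_lit 251709687),Int.ofNat (nat_lit 196043394),Int.negSucc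 (nat_lit 519544511),Int.ofNat (nat_lit 203818132),Int.negSucc (nat_lit 38210810),Int.ofNat (nat_lit 70930197),Int.ofNat (nat_lit 183397952),Int.ofNat (nat_lit 81177046),Int.negSucc (nat_lit 269376506),Int.negSucc (nat_lit 11798955),Int.ofNat (nat_lit 103631513),Int.negSucc (nat_lit 161009377),Int.negSucc (nat_lit 1180788722),Int.ofNat (nat_lit 493372518),Int.negSucc (nat_lit 925851509),Int.negSucc (nat_lit 216428854),Int.negSucc (nat_lit 184181024),Int.ofNat (nat_lit 132692809),Int.ofNat (nat_lit 702962557),Int.ofNat (nat_lit 16241532),Int.negSucc (nat_lit 39109086),Int.negSucc (nat_lit 119634226),Int.ofNat (nat_lit 133527167),Int.ofNat (nat_lit 289329634),Int.negSucc (nat_lit 193812874),Int.ofNat (nat_lit 249403086),Int.negSucc (nat_lit 44514445),Int.negSucc (nat_lit 180067402),Int.negSucc (nat_lit 286143039),Int.ofNat (nat_lit 336419052),Int.negSucc (nat_lit 134938187),Int.negSucc (nat_lit 167357881),Int.negSucc (nat_lit 154380938),Int.negSucc (nat_lit 274546058),Int.ofNat (nat_lit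 401380360),Int.negSucc (nat_lit 586751215),Int.negSucc (nat_lit 54152757),Int.ofNat (nat_lit 289406851),Int.negSucc (nat_lit 291823358),Int.negSucc (nat_lit 342242022),Int.ofNat (nat_lit 3110318),Int.ofNat (nat_lit 313013887),Int.negSucc (nat_lit 234794275),Int.ofNat (nat_lit 336971759),Int.negSucc (nat_lit 563442978),Int.negSucc (nat_lit 24032691),Int.ofNat (nat_lit 756830891),Int.negSucc (nat_lit 263588593),Int.ofNat (nat_lit 284469007),Int.ofNat (nat_lit 302271200),Int.ofNat (nat_lit 209576857),Int.negSucc (nat_lit 314121448),Int.ofNat (nat_lit 73830340),Int.ofNat (nat_lit 710226167),Int.negSucc (nat_lit 517831377),Int.ofNat (nat_lit 629711072),Int.negSucc (nat_lit 928359198),Int.ofNat (nat_lit 145233349),Int.negSucc (nat_lit 64289968),Int.ofNat (nat_lit 224244057),Int.negSucc (nat_lit 52434228),Int.ofNat (nat_lit 310717798),Int.negSucc (nat_lit 122888478),Int.negSucc (nat_lit 86380541),Int.ofNat (nat_lit 4719156),Int.ofNat (nat_lit 45043273),Int.negSucc (nat_lit 25570777),Int.ofNat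 (nat_lit 294189109),Int.negSucc (nat_lit 80400015),Int.ofNat (nat_lit 156972244),Int.negSucc (nat_lit 318897773),Int.negSucc (nat_lit 130366794),Int.ofNat (nat_lit 384591585),Int.negSucc (nat_lit 332407994),Int.ofNat (nat_lit 950119105),Int.ofNat (nat_lit 111486210),Int.ofNat (nat_lit 115205611),Int.ofNat (nat_lit 169792465),Int.negSucc (nat_lit 13155127),Int.negSucc (nat_lit 268277666),Int.negSucc (nat_lit 115310429),Int.negSucc (nat_lit 37387314),Int.negSucc (nat_lit 148182928),Int.negSucc (nat_lit 194029532),Int.ofNat (nat_lit 164556849),Int.ofNat (nat_lit 280012265),Int.negSucc (nat_lit 74490796),Int.negSucc (nat_lit 160396848),Int.ofNat (nat_lit 239575545),Int.negSucc (nat_lit 413406164),Int.ofNat (nat_lit 167566677),Int.ofNat (nat_lit 133485749),Int.ofNat (nat_lit 148828994),Int.negSucc (nat_lit 78365147),Int.ofNat (nat_lit 9012693),Int.negSucc (nat_lit 177931057),Int.ofNat (nat_lit 282694902),Int.ofNat (nat_lit 289543862),Int.negSucc (nat_lit 120867446),Int.negSucc (nat_lit 401397232),Int.ofNat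 (nat_lit 585297719),Int.negSucc (nat_lit 617752256),Int.ofNat (nat_lit 353981148),Int.ofNat (nat_lit 2149019700),Int.ofNat (nat_lit 201548431),Int.ofNat (nat_lit 825371989),Int.ofNat (nat_lit 879340646),Int.negSucc (nat_lit 2477282165),Int.ofNat (nat_lit 1200463143),Int.ofNat (nat_lit 700340492),Int.ofNat (nat_lit 670920756),Int.negSucc (nat_lit 1450765360),Int.ofNat (nat_lit 1217291039),Int.negSucc (nat_lit 1676392285),Int.negSucc (nat_lit 784646276),Int.ofNat (nat_lit 575223694),Int.negSucc (nat_lit 39266552),Int.negSucc (nat_lit 103383315),Int.negSucc (nat_lit 1318085816),Int.negSucc (nat_lit 1409472478),Int.ofNat (nat_lit 1533745682),Int.negSucc (nat_lit 848422219),Int.ofNat (nat_lit 2548926098)])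

/-- A row. -/
noncomputable def sr7_c2_27 : List ℕ × List ℤ :=
  ([(nat_lit 2),(nat_lit 0),(nat_lit 0),(nat_lit 0),(nat_lit 0),(nat_lit 1),(nat_lit 0),(nat_lit 0),(nat_lit 0),(nat_lit 0),(nat_lit 0),(nat_lit 0)], [Int.ofNat (nat_lit 157351201),Int.ofNat (nat_lit 528194403),Int.ofNat (nat_lit 372451415),Int.negSucc (nat_lit 819506431),Int.ofNat (nat_lit 1169346790),Int.ofNat (nat_lit 754635224),Int.negSucc (nat_lit 641312618),Int.negSucc (nat_lit 303595680),Int.ofNat (nat_lit 346342647),Int.ofNat (nat_lit 607759019),Int.negSucc (nat_lit 397001891),Int.negSucc (nat_lit 830218804),Int.ofNat (nat_lit 106171928),Int.ofNat (nat_lit 754538806),Int.negSucc (nat_lit 171650681),Int.negSucc (nat_lit 274922246),Int.ofNat (nat_lit 95601685),Int.negSucc (nat_lit 391264976),Int.ofNat (nat_lit 244919676),Int.ofNat (nat_lit 305156893),Int.ofNat (nat_lit 174698446),Int.ofNat (nat_lit 187763254),Int.ofNat (nat_lit 41989439),Int.ofNat (nat_lit 568907521),Int.ofNat (nat_lit 168962996),Int.negSucc (nat_lit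 522890466),Int.ofNat (nat_lit 18705241),Int.negSucc (nat_lit 223218019),Int.ofNat (nat_lit 124662950),Int.ofNat (nat_lit 201938521),Int.negSucc (nat_lit 129104547),Int.ofNat (nat_lit 326507120),Int.negSucc (nat_lit 35752464),Int.negSucc (nat_lit 546837675),Int.negSucc (nat_lit 447472136),Int.negSucc (nat_lit 11994875),Int.ofNat (nat_lit 220785839),Int.negSucc (nat_lit 162064648),Int.negSucc (nat_lit 16737049),Int.ofNat (nat_lit 96572840),Int.ofNat (nat_lit 312401676),Int.negSucc (nat_lit 112230783),Int.negSucc (nat_lit 208346179),Int.negSucc (nat_lit 586488064),Int.ofNat (nat_lit 115217846),Int.negSucc (nat_lit 210509833),Int.ofNat (nat_lit 5387419),Int.negSucc (nat_lit 153169439),Int.negSucc (nat_lit 54488387),Int.ofNat (nat_lit 124693556),Int.ofNat (nat_lit 802859276),Int.negSucc (nat_lit 21098020),Int.negSucc (nat_lit 309547072),Int.negSucc (nat_lit 11393178),Int.ofNat (nat_lit 494180482),Int.negSucc (nat_lit 126299511),Int.ofNat (nat_lit 5239015),Int.ofNat (nat_lit 207439600),Int.negSucc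 (nat_lit 432727627),Int.negSucc (nat_lit 94153492),Int.negSucc (nat_lit 290527715),Int.negSucc (nat_lit 381145497),Int.negSucc (nat_lit 57481639),Int.negSucc (nat_lit 47378371),Int.negSucc (nat_lit 112290142),Int.ofNat (nat_lit 323911505),Int.negSucc (nat_lit 113881379),Int.negSucc (nat_lit 244460877),Int.ofNat (nat_lit 164863471),Int.negSucc (nat_lit 38556132),Int.negSucc (nat_lit 289007764),Int.negSucc (nat_lit 181608344),Int.negSucc (nat_lit 169039262),Int.ofNat (nat_lit 279039708),Int.negSucc (nat_lit 20714304),Int.negSucc (nat_lit 12727080),Int.negSucc (nat_lit 46162665),Int.ofNat (nat_lit 49427523),Int.ofNat (nat_lit 18482696),Int.ofNat (nat_lit 64806473),Int.negSucc (nat_lit 29750864),Int.ofNat (nat_lit 25763692),Int.negSucc (nat_lit 24442962),Int.ofNat (nat_lit 100502651),Int.negSucc (nat_lit 16963337),Int.ofNat (nat_lit 67013625),Int.ofNat (nat_lit 32425814),Int.negSucc (nat_lit 21738069),Int.ofNat (nat_lit 4311489),Int.negSucc (nat_lit 5537394),Int.negSucc (nat_lit 16024994),Int.ofNat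 (nat_lit 113807403),Int.negSucc (nat_lit 400846),Int.negSucc (nat_lit 34299549),Int.negSucc (nat_lit 83702627),Int.ofNat (nat_lit 86558867),Int.ofNat (nat_lit 56103791),Int.negSucc (nat_lit 22956731),Int.negSucc (nat_lit 18777627),Int.ofNat (nat_lit 6335748),Int.negSucc (nat_lit 13991814),Int.negSucc (nat_lit 1123501),Int.ofNat (nat_lit 88103110),Int.ofNat (nat_lit 4976341),Int.ofNat (nat_lit 60778003),Int.negSucc (nat_lit 123636567),Int.ofNat (nat_lit 58197909),Int.negSucc (nat_lit 17211380),Int.negSucc (nat_lit 17451086),Int.ofNat (nat_lit 15645310),Int.negSucc (nat_lit 47262509),Int.negSucc (nat_lit 65823881),Int.negSucc (nat_lit 144755854),Int.ofNat (nat_lit 62117089),Int.negSucc (nat_lit 65188495),Int.ofNat (nat_lit 51905177),Int.ofNat (nat_lit 91325106),Int.ofNat (nat_lit 43837572),Int.ofNat (nat_lit 2229871),Int.ofNat (nat_lit 3216066),Int.negSucc (nat_lit 38913460),Int.ofNat (nat_lit 104280474),Int.ofNat (nat_lit 127366019),Int.ofNat (nat_lit 13838071),Int.negSucc (nat_lit 59476711),Int.negSucc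 (nat_lit 110685128),Int.negSucc (nat_lit 241339555),Int.negSucc (nat_lit 48991131),Int.negSucc (nat_lit 40535426),Int.ofNat (nat_lit 49418952),Int.ofNat (nat_lit 94397009),Int.negSucc (nat_lit 132976814),Int.ofNat (nat_lit 184510043),Int.ofNat (nat_lit 86254441),Int.ofNat (nat_lit 74827825),Int.ofNat (nat_lit 103187722),Int.negSucc (nat_lit 195231692),Int.negSucc (nat_lit 52916962),Int.negSucc (nat_lit 154363180),Int.negSucc (nat_lit 115429007),Int.ofNat (nat_lit 201637657),Int.ofNat (nat_lit 1025468750),Int.negSucc (nat_lit 81597744),Int.ofNat (nat_lit 457042875),Int.negSucc (nat_lit 529793574),Int.ofNat (nat_lit 27185965),Int.negSucc (nat_lit 16824249),Int.ofNat (nat_lit 117635421),Int.ofNat (nat_lit 1794826),Int.negSucc (nat_lit 120199816),Int.negSucc (nat_lit 26710500),Int.ofNat (nat_lit 92284952),Int.ofNat (nat_lit 159533177),Int.ofNat (nat_lit 42095849),Int.negSucc (nat_lit 3486218),Int.negSucc (nat_lit 14045779),Int.ofNat (nat_lit 45550498),Int.negSucc (nat_lit 97602517),Int.negSucc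 (nat_lit 412321087),Int.ofNat (nat_lit 10179052),Int.negSucc (nat_lit 4325599),Int.ofNat (nat_lit 20824516),Int.negSucc (nat_lit 36586256),Int.ofNat (nat_lit 28556999),Int.ofNat (nat_lit 4281522),Int.negSucc (nat_lit 915720),Int.ofNat (nat_lit 80969296)])

/-- A row. -/
noncomputable def sr7_c2_28 : List ℕ × List ℤ :=
  ([(nat_lit 2),(nat_lit 0),(nat_lit 0),(nat_lit 1),(nat_lit 0),(nat_lit 0),(nat_lit 0),(nat_lit 0),(nat_lit 0),(nat_lit 0),(nat_lit 0),(nat_lit 0)], [Int.ofNat (nat_lit 573913309),Int.negSucc (nat_lit 795323617),Int.negSucc (nat_lit 682841935),Int.negSucc (nat_lit 439540303),Int.negSucc (nat_lit 2288134096),Int.ofNat (nat_lit 1052482069),Int.negSucc (nat_lit 175398152),Int.ofNat (nat_lit 2048915308),Int.ofNat (nat_lit 379297175),Int.negSucc (nat_lit 373698802),Int.ofNat (nat_lit 376560454),Int.negSucc (nat_lit 733623256),Int.ofNat (nat_lit 154533270),Int.ofNat (nat_lit 221565652),Int.negSucc (nat_lit 318148866),Int.ofNat (nat_lit 79475647),Int.ofNat (nat_lit 336877056),Int.negSucc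 (nat_lit 492775952),Int.ofNat (nat_lit 657111576),Int.ofNat (nat_lit 39664081),Int.negSucc (nat_lit 208077635),Int.ofNat (nat_lit 314994855),Int.ofNat (nat_lit 146672367),Int.negSucc (nat_lit 264332083),Int.ofNat (nat_lit 852804169),Int.ofNat (nat_lit 19794824),Int.ofNat (nat_lit 317705099),Int.ofNat (nat_lit 273441108),Int.negSucc (nat_lit 360839475),Int.ofNat (nat_lit 6231826),Int.ofNat (nat_lit 131492967),Int.negSucc (nat_lit 272711687),Int.ofNat (nat_lit 278067172),Int.ofNat (nat_lit 717589293),Int.negSucc (nat_lit 408803722),Int.ofNat (nat_lit 107365597),Int.ofNat (nat_lit 199570130),Int.ofNat (nat_lit 534038463),Int.negSucc (nat_lit 125766211),Int.ofNat (nat_lit 153475101),Int.ofNat (nat_lit 519804287),Int.negSucc (nat_lit 92464063),Int.ofNat (nat_lit 147908064),Int.ofNat (nat_lit 633071308),Int.negSucc (nat_lit 156656297),Int.negSucc (nat_lit 340359693),Int.ofNat (nat_lit 109359019),Int.ofNat (nat_lit 179450074),Int.ofNat (nat_lit 10430401),Int.negSucc (nat_lit 455007395),Int.ofNat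 (nat_lit 25892895),Int.ofNat (nat_lit 992847707),Int.ofNat (nat_lit 316773488),Int.ofNat (nat_lit 314464527),Int.negSucc (nat_lit 273605677),Int.negSucc (nat_lit 149657761),Int.ofNat (nat_lit 97940545),Int.ofNat (nat_lit 33648577),Int.ofNat (nat_lit 316716403),Int.negSucc (nat_lit 162567010),Int.ofNat (nat_lit 26127805),Int.ofNat (nat_lit 55274886),Int.ofNat (nat_lit 161380037),Int.ofNat (nat_lit 172989799),Int.negSucc (nat_lit 21627320),Int.ofNat (nat_lit 373878618),Int.negSucc (nat_lit 107809577),Int.negSucc (nat_lit 143591131),Int.ofNat (nat_lit 51549094),Int.negSucc (nat_lit 307764893),Int.ofNat (nat_lit 427999308),Int.negSucc (nat_lit 410511307),Int.ofNat (nat_lit 7734194),Int.ofNat (nat_lit 297394151),Int.negSucc (nat_lit 98763773),Int.negSucc (nat_lit 328641047),Int.ofNat (nat_lit 285981523),Int.negSucc (nat_lit 195945061),Int.ofNat (nat_lit 267488040),Int.ofNat (nat_lit 168542135),Int.negSucc (nat_lit 144645368),Int.ofNat (nat_lit 295722328),Int.negSucc (nat_lit 94801210),Int.ofNat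 (nat_lit 29751722),Int.negSucc (nat_lit 39810090),Int.ofNat (nat_lit 125626606),Int.negSucc (nat_lit 43585838),Int.negSucc (nat_lit 945395),Int.ofNat (nat_lit 68631527),Int.negSucc (nat_lit 175465444),Int.negSucc (nat_lit 123617101),Int.negSucc (nat_lit 48119371),Int.ofNat (nat_lit 21069280),Int.ofNat (nat_lit 108260875),Int.negSucc (nat_lit 137487606),Int.ofNat (nat_lit 45680622),Int.negSucc (nat_lit 176869736),Int.ofNat (nat_lit 23484721),Int.ofNat (nat_lit 4203031),Int.ofNat (nat_lit 16802050),Int.negSucc (nat_lit 71680674),Int.negSucc (nat_lit 225162638),Int.ofNat (nat_lit 19236703),Int.negSucc (nat_lit 46274800),Int.ofNat (nat_lit 24729573),Int.ofNat (nat_lit 180462557),Int.ofNat (nat_lit 45052104),Int.negSucc (nat_lit 6087844),Int.ofNat (nat_lit 26143524),Int.ofNat (nat_lit 53294348),Int.negSucc (nat_lit 67844044),Int.negSucc (nat_lit 289830065),Int.ofNat (nat_lit 108533264),Int.negSucc (nat_lit 100389952),Int.negSucc (nat_lit 57202913),Int.negSucc (nat_lit 116189999),Int.negSucc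 (nat_lit 154998768),Int.ofNat (nat_lit 209021517),Int.ofNat (nat_lit 43274668),Int.ofNat (nat_lit 147296380),Int.ofNat (nat_lit 30072706),Int.negSucc (nat_lit 133169651),Int.negSucc (nat_lit 53558492),Int.ofNat (nat_lit 274277),Int.ofNat (nat_lit 196812929),Int.ofNat (nat_lit 26551488),Int.ofNat (nat_lit 59238402),Int.ofNat (nat_lit 138990166),Int.negSucc (nat_lit 39917353),Int.ofNat (nat_lit 468958871),Int.negSucc (nat_lit 73233078),Int.ofNat (nat_lit 158578375),Int.ofNat (nat_lit 126102341),Int.ofNat (nat_lit 152556463),Int.negSucc (nat_lit 235837802),Int.negSucc (nat_lit 240466176),Int.ofNat (nat_lit 44955961),Int.ofNat (nat_lit 79686641),Int.ofNat (nat_lit 190439167),Int.negSucc (nat_lit 551803813),Int.negSucc (nat_lit 716418007),Int.ofNat (nat_lit 379616758),Int.ofNat (nat_lit 1482478145),Int.ofNat (nat_lit 606796905),Int.ofNat (nat_lit 201490513),Int.negSucc (nat_lit 1822163479),Int.negSucc (nat_lit 326588379),Int.negSucc (nat_lit 535241562),Int.ofNat (nat_lit 55531105),Int.ofNat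 (nat_lit 131349820),Int.ofNat (nat_lit 29091142),Int.negSucc (nat_lit 178530376),Int.ofNat (nat_lit 263924703),Int.ofNat (nat_lit 463022835),Int.negSucc (nat_lit 112842703),Int.ofNat (nat_lit 362740569),Int.negSucc (nat_lit 43158671),Int.ofNat (nat_lit 516451530),Int.negSucc (nat_lit 282166387),Int.negSucc (nat_lit 1792063175),Int.ofNat (nat_lit 222847886),Int.negSucc (nat_lit 22182994),Int.negSucc (nat_lit 18157389),Int.negSucc (nat_lit 51083191),Int.negSucc (nat_lit 106812528),Int.ofNat (nat_lit 44844568),Int.negSucc (nat_lit 44293129),Int.ofNat (nat_lit 269068664)])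

/-- A row. -/
noncomputable def sr7_c2_29 : List ℕ × List ℤ :=
  ([(nat_lit 2),(nat_lit 1),(nat_lit 0),(nat_lit 0),(nat_lit 0),(nat_lit 0),(nat_lit 0),(nat_lit 0),(nat_lit 0),(nat_lit 0),(nat_lit 0),(nat_lit 0)], [Int.ofNat (nat_lit 3206514162),Int.negSucc (nat_lit 656983371),Int.ofNat (nat_lit 5220038666),Int.negSucc (nat_lit 408780125),Int.ofNat (nat_lit 1669557429),Int.negSucc (nat_lit 246251509),Int.negSucc (nat_lit 1176493153),Int.ofNat (nat_lit 701696726),Int.negSucc (nat_lit 1378287422),Int.ofNat (nat_lit 986817316),Int.negSucc (nat_lit 156899449),Int.ofNat (nat_lit 1886529940),Int.ofNat (nat_lit 159191448),Int.ofNat (nat_lit 842742),Int.ofNat (nat_lit 1338763248),Int.ofNat (nat_lit 170238393),Int.negSucc (nat_lit 81849960),Int.negSucc (nat_lit 108428540),Int.negSucc (nat_lit 201518379),Int.negSucc (nat_lit 635298981),Int.negSucc (nat_lit 671386787),Int.negSucc (nat_lit 442770396),Int.negSucc (nat_lit 88177752),Int.ofNat (nat_lit 823277869),Int.negSucc (nat_lit 1121850229),Int.ofNat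 (nat_lit 1162479006),Int.ofNat (nat_lit 865535733),Int.negSucc (nat_lit 109327799),Int.ofNat (nat_lit 1706042163),Int.negSucc (nat_lit 803839523),Int.negSucc (nat_lit 249661909),Int.negSucc (nat_lit 1211779988),Int.negSucc (nat_lit 1346273609),Int.negSucc (nat_lit 859307361),Int.ofNat (nat_lit 1663047458),Int.ofNat (nat_lit 7565354),Int.negSucc (nat_lit 883038903),Int.negSucc (nat_lit 83148024),Int.negSucc (nat_lit 1540378294),Int.ofNat (nat_lit 1336555515),Int.negSucc (nat_lit 1172940289),Int.negSucc (nat_lit 272118333),Int.negSucc (nat_lit 676576375),Int.negSucc (nat_lit 128672778),Int.negSucc (nat_lit 343006350),Int.ofNat (nat_lit 351966240),Int.negSucc (nat_lit 615812291),Int.negSucc (nat_lit 20984241),Int.negSucc (nat_lit 126207168),Int.ofNat (nat_lit 454656942),Int.negSucc (nat_lit 1184601474),Int.negSucc (nat_lit 653503831),Int.negSucc (nat_lit 1006594382),Int.ofNat (nat_lit 1535758269),Int.negSucc (nat_lit 294388782),Int.negSucc (nat_lit 62355524),Int.negSucc (nat_lit 338471649),Int.ofNat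 (nat_lit 367963500),Int.ofNat (nat_lit 420061765),Int.negSucc (nat_lit 206098832),Int.negSucc (nat_lit 1164958691),Int.negSucc (nat_lit 45027205),Int.ofNat (nat_lit 234991982),Int.negSucc (nat_lit 1287965903),Int.negSucc (nat_lit 630793424),Int.ofNat (nat_lit 153103095),Int.ofNat (nat_lit 227744626),Int.ofNat (nat_lit 698352670),Int.negSucc (nat_lit 496905307),Int.ofNat (nat_lit 126527176),Int.negSucc (nat_lit 33654469),Int.ofNat (nat_lit 451907179),Int.ofNat (nat_lit 586651038),Int.negSucc (nat_lit 232902670),Int.ofNat (nat_lit 291534395),Int.negSucc (nat_lit 233651935),Int.negSucc (nat_lit 108202200),Int.ofNat (nat_lit 364886826),Int.negSucc (nat_lit 564075023),Int.negSucc (nat_lit 416447722),Int.ofNat (nat_lit 194081283),Int.negSucc (nat_lit 692029541),Int.ofNat (nat_lit 390547722),Int.negSucc (nat_lit 90655631),Int.negSucc (nat_lit 535197903),Int.ofNat (nat_lit 253226714),Int.ofNat (nat_lit 104028031),Int.negSucc (nat_lit 239222073),Int.ofNat (nat_lit 270400370),Int.ofNat (nat_lit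 525340481),Int.negSucc (nat_lit 197043095),Int.ofNat (nat_lit 478435084),Int.ofNat (nat_lit 159901100),Int.negSucc (nat_lit 265020976),Int.ofNat (nat_lit 321173060),Int.negSucc (nat_lit 50858422),Int.negSucc (nat_lit 209228344),Int.ofNat (nat_lit 24460851),Int.ofNat (nat_lit 151718748),Int.negSucc (nat_lit 279669408),Int.negSucc (nat_lit 131368051),Int.negSucc (nat_lit 37165726),Int.negSucc (nat_lit 76904108),Int.negSucc (nat_lit 1950600),Int.negSucc (nat_lit 58849384),Int.negSucc (nat_lit 112988011),Int.negSucc (nat_lit 86413765),Int.negSucc (nat_lit 48685400),Int.ofNat (nat_lit 12089186),Int.negSucc (nat_lit 219819577),Int.ofNat (nat_lit 436216450),Int.ofNat (nat_lit 552805927),Int.negSucc (nat_lit 350157854),Int.negSucc (nat_lit 279516257),Int.ofNat (nat_lit 59435762),Int.ofNat (nat_lit 252774791),Int.ofNat (nat_lit 175522633),Int.negSucc (nat_lit 27117081),Int.negSucc (nat_lit 381962808),Int.ofNat (nat_lit 37447231),Int.ofNat (nat_lit 9717549),Int.negSucc (nat_lit 260522711),Int.negSucc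 (nat_lit 48398817),Int.ofNat (nat_lit 82507686),Int.negSucc (nat_lit 97059179),Int.ofNat (nat_lit 70713291),Int.ofNat (nat_lit 410337820),Int.negSucc (nat_lit 6465774),Int.ofNat (nat_lit 61958832),Int.negSucc (nat_lit 562418573),Int.negSucc (nat_lit 113897036),Int.ofNat (nat_lit 127014647),Int.negSucc (nat_lit 184821547),Int.ofNat (nat_lit 6124442),Int.ofNat (nat_lit 354393276),Int.negSucc (nat_lit 144108882),Int.negSucc (nat_lit 257194022),Int.ofNat (nat_lit 198902117),Int.negSucc (nat_lit 177212904),Int.ofNat (nat_lit 1630432484),Int.negSucc (nat_lit 216480220),Int.negSucc (nat_lit 1268514971),Int.ofNat (nat_lit 1033050545),Int.ofNat (nat_lit 633023524),Int.negSucc (nat_lit 388151259),Int.ofNat (nat_lit 1543403358),Int.ofNat (nat_lit 2557469265),Int.negSucc (nat_lit 910394160),Int.ofNat (nat_lit 1619718418),Int.ofNat (nat_lit 860778349),Int.negSucc (nat_lit 1176981566),Int.ofNat (nat_lit 125217111),Int.ofNat (nat_lit 277030489),Int.negSucc (nat_lit 562561603),Int.ofNat (nat_lit 306486386),Int.ofNat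 (nat_lit 623221259),Int.negSucc (nat_lit 689612975),Int.negSucc (nat_lit 906583098),Int.ofNat (nat_lit 947582551),Int.ofNat (nat_lit 613636071),Int.negSucc (nat_lit 649970327),Int.negSucc (nat_lit 3342626792),Int.negSucc (nat_lit 590352372),Int.ofNat (nat_lit 724243333),Int.ofNat (nat_lit 68503703),Int.negSucc (nat_lit 602467962),Int.negSucc (nat_lit 413790044),Int.ofNat (nat_lit 189370274),Int.ofNat (nat_lit 981070651)])

/-- A row. -/
noncomputable def sr7_c2_30 : List ℕ × List ℤ :=
  ([(nat_lit 2),(nat_lit 1),(nat_lit 1),(nat_lit 0),(nat_lit 0),(nat_lit 0),(nat_lit 0),(nat_lit 0),(nat_lit 0),(nat_lit 0),(nat_lit 0),(nat_lit 0)], [Int.ofNat (nat_lit 528132650),Int.ofNat (nat_lit 1159889812),Int.ofNat (nat_lit 2850326137),Int.ofNat (nat_lit 1087208658),Int.negSucc (nat_lit 996495071),Int.ofNat (nat_lit 66724611),Int.negSucc (nat_lit 649242724),Int.ofNat (nat_lit 89081690),Int.negSucc (nat_lit 843983417),Int.ofNat (nat_lit 1561175012),Int.negSucc (nat_lit 279107169),Int.ofNat (nat_lit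 2173479695),Int.ofNat (nat_lit 599716207),Int.ofNat (nat_lit 791913860),Int.ofNat (nat_lit 592851857),Int.ofNat (nat_lit 194708367),Int.negSucc (nat_lit 234967133),Int.ofNat (nat_lit 596631573),Int.ofNat (nat_lit 19376603),Int.ofNat (nat_lit 23334225),Int.negSucc (nat_lit 325199935),Int.negSucc (nat_lit 274177119),Int.negSucc (nat_lit 581486574),Int.ofNat (nat_lit 268682842),Int.negSucc (nat_lit 487774855),Int.ofNat (nat_lit 1190451103),Int.ofNat (nat_lit 820731284),Int.negSucc (nat_lit 372996498),Int.ofNat (nat_lit 1556482967),Int.negSucc (nat_lit 527078815),Int.ofNat (nat_lit 8295875),Int.negSucc (nat_lit 659806010),Int.negSucc (nat_lit 374294762),Int.negSucc (nat_lit 402651473),Int.ofNat (nat_lit 1107849593),Int.ofNat (nat_lit 250504268),Int.negSucc (nat_lit 398330108),Int.ofNat (nat_lit 440861280),Int.negSucc (nat_lit 1011828858),Int.ofNat (nat_lit 558476749),Int.negSucc (nat_lit 200690773),Int.negSucc (nat_lit 282365680),Int.negSucc (nat_lit 783541021),Int.ofNat (nat_lit 90700644),Int.negSucc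 (nat_lit 492477990),Int.ofNat (nat_lit 252159301),Int.negSucc (nat_lit 23327225),Int.negSucc (nat_lit 218333240),Int.negSucc (nat_lit 103367105),Int.negSucc (nat_lit 299135018),Int.negSucc (nat_lit 972071743),Int.ofNat (nat_lit 287699084),Int.negSucc (nat_lit 1022296876),Int.ofNat (nat_lit 1022716666),Int.negSucc (nat_lit 227971602),Int.ofNat (nat_lit 398524276),Int.ofNat (nat_lit 190055093),Int.ofNat (nat_lit 529755621),Int.ofNat (nat_lit 686331430),Int.negSucc (nat_lit 324757772),Int.negSucc (nat_lit 477452385),Int.negSucc (nat_lit 1043079293),Int.ofNat (nat_lit 259789708),Int.negSucc (nat_lit 1487983618),Int.negSucc (nat_lit 541148937),Int.ofNat (nat_lit 514077448),Int.ofNat (nat_lit 187575291),Int.ofNat (nat_lit 222362506),Int.negSucc (nat_lit 219142354),Int.negSucc (nat_lit 52309481),Int.ofNat (nat_lit 544712553),Int.negSucc (nat_lit 47439468),Int.ofNat (nat_lit 392658210),Int.negSucc (nat_lit 314603053),Int.negSucc (nat_lit 7546085),Int.negSucc (nat_lit 71154629),Int.ofNat (nat_lit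 68718028),Int.negSucc (nat_lit 89793015),Int.negSucc (nat_lit 215466562),Int.negSucc (nat_lit 87803265),Int.ofNat (nat_lit 13731952),Int.negSucc (nat_lit 179660988),Int.ofNat (nat_lit 107459839),Int.ofNat (nat_lit 157790153),Int.negSucc (nat_lit 25231719),Int.ofNat (nat_lit 405275125),Int.ofNat (nat_lit 247167309),Int.negSucc (nat_lit 272536369),Int.ofNat (nat_lit 233311827),Int.ofNat (nat_lit 34927308),Int.negSucc (nat_lit 285163217),Int.negSucc (nat_lit 27461409),Int.ofNat (nat_lit 25117172),Int.negSucc (nat_lit 54063925),Int.negSucc (nat_lit 22699478),Int.ofNat (nat_lit 226542385),Int.negSucc (nat_lit 343509094),Int.negSucc (nat_lit 18607972),Int.ofNat (nat_lit 60470201),Int.negSucc (nat_lit 23327128),Int.negSucc (nat_lit 257891562),Int.negSucc (nat_lit 324536850),Int.ofNat (nat_lit 2360594),Int.negSucc (nat_lit 38516692),Int.negSucc (nat_lit 69321939),Int.negSucc (nat_lit 26997763),Int.negSucc (nat_lit 141652659),Int.negSucc (nat_lit 21430880),Int.ofNat (nat_lit 239990607),Int.negSucc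 (nat_lit 171076123),Int.ofNat (nat_lit 2538771),Int.ofNat (nat_lit 110215623),Int.negSucc (nat_lit 152104271),Int.negSucc (nat_lit 123970891),Int.ofNat (nat_lit 130235637),Int.negSucc (nat_lit 172391903),Int.negSucc (nat_lit 19647893),Int.negSucc (nat_lit 180905300),Int.negSucc (nat_lit 288639201),Int.ofNat (nat_lit 33169606),Int.negSucc (nat_lit 93905019),Int.negSucc (nat_lit 441328420),Int.negSucc (nat_lit 254790426),Int.ofNat (nat_lit 88068152),Int.ofNat (nat_lit 106154868),Int.ofNat (nat_lit 174066459),Int.ofNat (nat_lit 157551350),Int.ofNat (nat_lit 171011673),Int.ofNat (nat_lit 20273127),Int.ofNat (nat_lit 8412781),Int.negSucc (nat_lit 208836296),Int.ofNat (nat_lit 185470350),Int.negSucc (nat_lit 130889191),Int.ofNat (nat_lit 159040246),Int.ofNat (nat_lit 101183099),Int.negSucc (nat_lit 475898140),Int.negSucc (nat_lit 334960097),Int.ofNat (nat_lit 232949365),Int.negSucc (nat_lit 71594089),Int.ofNat (nat_lit 375063201),Int.negSucc (nat_lit 812179834),Int.negSucc (nat_lit 346648431),Int.ofNat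 (nat_lit 1456873305),Int.ofNat (nat_lit 833671460),Int.ofNat (nat_lit 416187379),Int.ofNat (nat_lit 941273248),Int.ofNat (nat_lit 1603629960),Int.negSucc (nat_lit 1185931657),Int.ofNat (nat_lit 1140350074),Int.ofNat (nat_lit 559753280),Int.ofNat (nat_lit 265584629),Int.negSucc (nat_lit 1633112601),Int.ofNat (nat_lit 438994449),Int.negSucc (nat_lit 175144453),Int.ofNat (nat_lit 230967414),Int.ofNat (nat_lit 630142050),Int.negSucc (nat_lit 41775210),Int.ofNat (nat_lit 42087722),Int.ofNat (nat_lit 305233864),Int.negSucc (nat_lit 576218505),Int.negSucc (nat_lit 426352280),Int.negSucc (nat_lit 1111291693),Int.ofNat (nat_lit 443183258),Int.negSucc (nat_lit 1257319214),Int.negSucc (nat_lit 34054482),Int.negSucc (nat_lit 11081227),Int.negSucc (nat_lit 129318808),Int.ofNat (nat_lit 32736398),Int.negSucc (nat_lit 20000397),Int.ofNat (nat_lit 185863759)])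

/-- A row. -/
noncomputable def sr7_c2_31 : List ℕ × List ℤ :=
  ([(nat_lit 2),(nat_lit 3),(nat_lit 0),(nat_lit 0),(nat_lit 0),(nat_lit 0),(nat_lit 0),(nat_lit 0),(nat_lit 0),(nat_lit 0),(nat_lit 0),(nat_lit 0)], [Int.negSucc (nat_lit 3315211393),Int.ofNat (nat_lit 253903391),Int.negSucc (nat_lit 4995559475),Int.ofNat (nat_lit 3200698427),Int.negSucc (nat_lit 2816511236),Int.negSucc (nat_lit 525627965),Int.ofNat (nat_lit 678870471),Int.negSucc (nat_lit 567569848),Int.ofNat (nat_lit 369584349),Int.negSucc (nat_lit 703486978),Int.ofNat (nat_lit 498206579),Int.negSucc (nat_lit 975551),Int.negSucc (nat_lit 471725046),Int.ofNat (nat_lit 1116410973),Int.negSucc (nat_lit 1673136276),Int.ofNat (nat_lit 513226512),Int.ofNat (nat_lit 840833034),Int.negSucc (nat_lit 124973202),Int.negSucc (nat_lit 449230833),Int.ofNat (nat_lit 83919015),Int.negSucc (nat_lit 344637332),Int.ofNat (nat_lit 193872972),Int.ofNat (nat_lit 133671724),Int.negSucc (nat_lit 1533324009),Int.ofNat (nat_lit 1278510127),Int.ofNat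 (nat_lit 727788166),Int.negSucc (nat_lit 334284678),Int.ofNat (nat_lit 840064014),Int.negSucc (nat_lit 1113076392),Int.ofNat (nat_lit 1083259504),Int.ofNat (nat_lit 1005146462),Int.ofNat (nat_lit 1348145554),Int.ofNat (nat_lit 867680395),Int.ofNat (nat_lit 918045754),Int.negSucc (nat_lit 82437957),Int.negSucc (nat_lit 364575232),Int.ofNat (nat_lit 341240436),Int.negSucc (nat_lit 70081722),Int.ofNat (nat_lit 937687256),Int.negSucc (nat_lit 130122047),Int.ofNat (nat_lit 53151567),Int.ofNat (nat_lit 191920133),Int.negSucc (nat_lit 464776317),Int.ofNat (nat_lit 752974491),Int.negSucc (nat_lit 506331609),Int.ofNat (nat_lit 71637668),Int.ofNat (nat_lit 962880777),Int.negSucc (nat_lit 1435524816),Int.negSucc (nat_lit 386802543),Int.negSucc (nat_lit 493262982),Int.ofNat (nat_lit 312336490),Int.negSucc (nat_lit 363134935),Int.ofNat (nat_lit 168218900),Int.negSucc (nat_lit 1175450843),Int.ofNat (nat_lit 731813),Int.ofNat (nat_lit 1203695587),Int.ofNat (nat_lit 662370647),Int.ofNat (nat_lit 1766233590),Int.negSucc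 (nat_lit 502862658),Int.ofNat (nat_lit 1016834068),Int.ofNat (nat_lit 819653567),Int.negSucc (nat_lit 282714726),Int.negSucc (nat_lit 2055256605),Int.ofNat (nat_lit 821311172),Int.ofNat (nat_lit 657512374),Int.ofNat (nat_lit 64168445),Int.negSucc (nat_lit 394393998),Int.ofNat (nat_lit 21505400),Int.negSucc (nat_lit 139751814),Int.negSucc (nat_lit 332668154),Int.ofNat (nat_lit 203590831),Int.ofNat (nat_lit 102794855),Int.negSucc (nat_lit 264479974),Int.ofNat (nat_lit 122996592),Int.negSucc (nat_lit 187735982),Int.negSucc (nat_lit 6412426),Int.ofNat (nat_lit 9995639),Int.negSucc (nat_lit 273105965),Int.ofNat (nat_lit 660747674),Int.ofNat (nat_lit 695771305),Int.ofNat (nat_lit 184327255),Int.ofNat (nat_lit 188871946),Int.negSucc (nat_lit 134557527),Int.ofNat (nat_lit 291714425),Int.negSucc (nat_lit 279411224),Int.negSucc (nat_lit 420005757),Int.negSucc (nat_lit 408747643),Int.ofNat (nat_lit 655797182),Int.negSucc (nat_lit 189351973),Int.negSucc (nat_lit 663857016),Int.negSucc (nat_lit 81079120),Int.negSucc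 (nat_lit 1206471361),Int.negSucc (nat_lit 277535894),Int.ofNat (nat_lit 99805072),Int.ofNat (nat_lit 170162683),Int.negSucc (nat_lit 309126324),Int.ofNat (nat_lit 717891146),Int.negSucc (nat_lit 294969704),Int.negSucc (nat_lit 452549221),Int.negSucc (nat_lit 286453636),Int.ofNat (nat_lit 96092878),Int.ofNat (nat_lit 66771699),Int.ofNat (nat_lit 125198214),Int.negSucc (nat_lit 162365656),Int.negSucc (nat_lit 31250026),Int.ofNat (nat_lit 37607496),Int.ofNat (nat_lit 50813036),Int.ofNat (nat_lit 217959019),Int.negSucc (nat_lit 275140442),Int.negSucc (nat_lit 372352956),Int.negSucc (nat_lit 305730015),Int.ofNat (nat_lit 137846879),Int.ofNat (nat_lit 109974216),Int.ofNat (nat_lit 233334896),Int.ofNat (nat_lit 198849377),Int.negSucc (nat_lit 8076642),Int.negSucc (nat_lit 261053706),Int.negSucc (nat_lit 1485837050),Int.ofNat (nat_lit 118065262),Int.negSucc (nat_lit 706581013),Int.ofNat (nat_lit 102710151),Int.ofNat (nat_lit 263218156),Int.negSucc (nat_lit 20404894),Int.negSucc (nat_lit 8711561),Int.negSucc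 (nat_lit 84947868),Int.negSucc (nat_lit 365973040),Int.negSucc (nat_lit 411302200),Int.negSucc (nat_lit 376551877),Int.ofNat (nat_lit 574982225),Int.ofNat (nat_lit 75502452),Int.ofNat (nat_lit 102558914),Int.ofNat (nat_lit 26029822),Int.negSucc (nat_lit 363300846),Int.negSucc (nat_lit 386964378),Int.negSucc (nat_lit 38564709),Int.ofNat (nat_lit 382260050),Int.ofNat (nat_lit 578931128),Int.negSucc (nat_lit 294761723),Int.ofNat (nat_lit 6988223),Int.negSucc (nat_lit 1827344801),Int.ofNat (nat_lit 625264940),Int.ofNat (nat_lit 179959042),Int.negSucc (nat_lit 708321260),Int.negSucc (nat_lit 900551119),Int.ofNat (nat_lit 1502540714),Int.ofNat (nat_lit 848798792),Int.negSucc (nat_lit 1214361431),Int.ofNat (nat_lit 795206246),Int.negSucc (nat_lit 609551227),Int.negSucc (nat_lit 566853362),Int.ofNat (nat_lit 2127513479),Int.negSucc (nat_lit 1796817052),Int.negSucc (nat_lit 422551989),Int.ofNat (nat_lit 3054479347),Int.negSucc (nat_lit 752943143),Int.negSucc (nat_lit 2564200872),Int.ofNat (nat_lit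 952239569),Int.ofNat (nat_lit 1316880345),Int.negSucc (nat_lit 356061394),Int.ofNat (nat_lit 191637266),Int.negSucc (nat_lit 533381140),Int.ofNat (nat_lit 2875717454),Int.ofNat (nat_lit 1649568516),Int.negSucc (nat_lit 2048027264),Int.negSucc (nat_lit 1110069319),Int.negSucc (nat_lit 3951255163),Int.negSucc (nat_lit 169428801),Int.negSucc (nat_lit 394495121),Int.negSucc (nat_lit 22432837),Int.negSucc (nat_lit 20194782),Int.ofNat (nat_lit 1153058788)])

/-- A row. -/
noncomputable def sr7_c2_32 : List ℕ × List ℤ :=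
  ([(nat_lit 3),(nat_lit 0),(nat_lit 0),(nat_lit 1),(nat_lit 0),(nat_lit 0),(nat_lit 0),(nat_lit 0),(nat_lit 0),(nat_lit 0),(nat_lit 0),(nat_lit 0)], [Int.ofNat (nat_lit 99714600),Int.negSucc (nat_lit 287161223),Int.ofNat (nat_lit 81889942),Int.negSucc (nat_lit 513199125),Int.ofNat (nat_lit 1096398447),Int.ofNat (nat_lit 398788117),Int.ofNat (nat_lit 57987569),Int.negSucc (nat_lit 139269609),Int.ofNat (nat_lit 358494244),Int.negSucc (nat_lit 65935667),Int.negSucc (nat_lit 118356430),Int.ofNat (nat_lit 47909405),Int.negSucc (nat_lit 193501540),Int.negSucc (nat_lit 835335219),Int.ofNat (nat_lit 986005919),Int.negSucc (nat_lit 246189429),Int.negSucc (nat_lit 304207626),Int.negSucc (nat_lit 190457444),Int.negSucc (nat_lit 287616093),Int.negSucc (nat_lit 181604694),Int.negSucc (nat_lit 86075127),Int.negSucc (nat_lit 115608877),Int.ofNat (nat_lit 252319337),Int.negSucc (nat_lit 32694129),Int.negSucc (nat_lit 592070265),Int.ofNat (nat_lit 357316626),Int.negSucc (nat_lit 152157173),Int.negSucc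 (nat_lit 215266584),Int.ofNat (nat_lit 197523043),Int.negSucc (nat_lit 89691883),Int.negSucc (nat_lit 31484169),Int.ofNat (nat_lit 257700862),Int.negSucc (nat_lit 549467226),Int.negSucc (nat_lit 366646643),Int.ofNat (nat_lit 458986321),Int.ofNat (nat_lit 348505372),Int.negSucc (nat_lit 151141325),Int.negSucc (nat_lit 195884670),Int.ofNat (nat_lit 241358091),Int.ofNat (nat_lit 332188306),Int.negSucc (nat_lit 316590452),Int.ofNat (nat_lit 9067871),Int.ofNat (nat_lit 55812986),Int.negSucc (nat_lit 198743034),Int.negSucc (nat_lit 115890606),Int.ofNat (nat_lit 220944352),Int.negSucc (nat_lit 158028845),Int.negSucc (nat_lit 87485675),Int.negSucc (nat_lit 11864745),Int.ofNat (nat_lit 237180264),Int.negSucc (nat_lit 76400967),Int.negSucc (nat_lit 459013111),Int.negSucc (nat_lit 121961491),Int.ofNat (nat_lit 23472705),Int.ofNat (nat_lit 117998291),Int.ofNat (nat_lit 119150687),Int.negSucc (nat_lit 81170153),Int.negSucc (nat_lit 5354154),Int.ofNat (nat_lit 57966363),Int.ofNat (nat_lit 552093678),Int.negSucc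 (nat_lit 11519513),Int.ofNat (nat_lit 100317606),Int.ofNat (nat_lit 29547123),Int.negSucc (nat_lit 511858738),Int.ofNat (nat_lit 64793647),Int.negSucc (nat_lit 123308886),Int.ofNat (nat_lit 100772249),Int.ofNat (nat_lit 272958050),Int.negSucc (nat_lit 151161785),Int.ofNat (nat_lit 234349775),Int.negSucc (nat_lit 236477501),Int.ofNat (nat_lit 181754408),Int.ofNat (nat_lit 74775693),Int.negSucc (nat_lit 203342172),Int.ofNat (nat_lit 62361852),Int.ofNat (nat_lit 78843932),Int.negSucc (nat_lit 115116892),Int.ofNat (nat_lit 88037722),Int.negSucc (nat_lit 177824724),Int.negSucc (nat_lit 183920757),Int.ofNat (nat_lit 42159482),Int.negSucc (nat_lit 247598809),Int.ofNat (nat_lit 193054968),Int.negSucc (nat_lit 38897384),Int.ofNat (nat_lit 44747670),Int.ofNat (nat_lit 43987608),Int.ofNat (nat_lit 83823653),Int.negSucc (nat_lit 28045766),Int.negSucc (nat_lit 28449927),Int.ofNat (nat_lit 107144248),Int.ofNat (nat_lit 143025672),Int.negSucc (nat_lit 6414132),Int.negSucc (nat_lit 38842065),Int.negSucc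 (nat_lit 89245368),Int.ofNat (nat_lit 103339984),Int.negSucc (nat_lit 35070697),Int.ofNat (nat_lit 90626794),Int.negSucc (nat_lit 46848608),Int.negSucc (nat_lit 18689556),Int.negSucc (nat_lit 21659934),Int.negSucc (nat_lit 132406341),Int.ofNat (nat_lit 180369739),Int.negSucc (nat_lit 51973338),Int.ofNat (nat_lit 47273803),Int.ofNat (nat_lit 23167880),Int.negSucc (nat_lit 103187427),Int.negSucc (nat_lit 25266328),Int.ofNat (nat_lit 39761867),Int.ofNat (nat_lit 32480284),Int.negSucc (nat_lit 63244650),Int.ofNat (nat_lit 38707217),Int.ofNat (nat_lit 227319713),Int.negSucc (nat_lit 211390996),Int.ofNat (nat_lit 68681147),Int.ofNat (nat_lit 81839587),Int.ofNat (nat_lit 52092717),Int.ofNat (nat_lit 96925136),Int.negSucc (nat_lit 158463901),Int.negSucc (nat_lit 71033722),Int.negSucc (nat_lit 68022626),Int.negSucc (nat_lit 75228989),Int.ofNat (nat_lit 31136630),Int.ofNat (nat_lit 38607714),Int.ofNat (nat_lit 38468512),Int.negSucc (nat_lit 115002809),Int.negSucc (nat_lit 77117572),Int.negSucc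 (nat_lit 15487042),Int.negSucc (nat_lit 147585104),Int.ofNat (nat_lit 31330114),Int.negSucc (nat_lit 313464514),Int.ofNat (nat_lit 70275076),Int.negSucc (nat_lit 97984085),Int.negSucc (nat_lit 20346983),Int.negSucc (nat_lit 148822151),Int.ofNat (nat_lit 110153772),Int.ofNat (nat_lit 210826569),Int.negSucc (nat_lit 30198396),Int.negSucc (nat_lit 47658272),Int.negSucc (nat_lit 79804977),Int.ofNat (nat_lit 551686154),Int.ofNat (nat_lit 112440315),Int.negSucc (nat_lit 582981287),Int.negSucc (nat_lit 187833115),Int.negSucc (nat_lit 241422863),Int.ofNat (nat_lit 203282766),Int.ofNat (nat_lit 1422131277),Int.ofNat (nat_lit 247256092),Int.ofNat (nat_lit 329862548),Int.negSucc (nat_lit 29001397),Int.negSucc (nat_lit 92554736),Int.ofNat (nat_lit 25739429),Int.ofNat (nat_lit 123075360),Int.negSucc (nat_lit 247551766),Int.negSucc (nat_lit 235684702),Int.ofNat (nat_lit 107386959),Int.negSucc (nat_lit 242342129),Int.negSucc (nat_lit 4377477),Int.negSucc (nat_lit 290753703),Int.ofNat (nat_lit 372985455),Int.ofNat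 (nat_lit 1226699408),Int.negSucc (nat_lit 410935319),Int.ofNat (nat_lit 26392015),Int.ofNat (nat_lit 58698740),Int.ofNat (nat_lit 52360199),Int.ofNat (nat_lit 105082954),Int.negSucc (nat_lit 74424886),Int.negSucc (nat_lit 15806280),Int.negSucc (nat_lit 390493879),Int.negSucc (nat_lit 6856035),Int.negSucc (nat_lit 11786712),Int.negSucc (nat_lit 4475273),Int.ofNat (nat_lit 62826713)])

/-- A row. -/
noncomputable def sr7_c2_33 : List ℕ × List ℤ :=
  ([(nat_lit 3),(nat_lit 1),(nat_lit 0),(nat_lit 0),(nat_lit 0),(nat_lit 0),(nat_lit 0),(nat_lit 0),(nat_lit 0),(nat_lit 0),(nat_lit 0),(nat_lit 0)], [Int.negSucc (nat_lit 2090687458),Int.ofNat (nat_lit 715314861),Int.ofNat (nat_lit 578592014),Int.ofNat (nat_lit 572723625),Int.ofNat (nat_lit 990797957),Int.negSucc (nat_lit 372927071),Int.negSucc (nat_lit 704059474),Int.negSucc (nat_lit 1466976589),Int.negSucc (nat_lit 567273770),Int.ofNat (nat_lit 456075640),Int.negSucc (nat_lit 23107731),Int.ofNat (nat_lit 16259621),Int.ofNat (nat_lit 271862272),Int.ofNat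 (nat_lit 2448495730),Int.negSucc (nat_lit 803165848),Int.ofNat (nat_lit 63299210),Int.negSucc (nat_lit 1390187123),Int.negSucc (nat_lit 359760359),Int.ofNat (nat_lit 517366737),Int.ofNat (nat_lit 111900462),Int.ofNat (nat_lit 537007025),Int.ofNat (nat_lit 595109134),Int.negSucc (nat_lit 126651180),Int.negSucc (nat_lit 1995103),Int.ofNat (nat_lit 23711304),Int.negSucc (nat_lit 295511424),Int.ofNat (nat_lit 235085235),Int.negSucc (nat_lit 509243044),Int.ofNat (nat_lit 449351385),Int.ofNat (nat_lit 255599485),Int.ofNat (nat_lit 56729596),Int.ofNat (nat_lit 122750690),Int.negSucc (nat_lit 197327176),Int.negSucc (nat_lit 1573487839),Int.negSucc (nat_lit 379157409),Int.negSucc (nat_lit 1393918412),Int.negSucc (nat_lit 110027468),Int.negSucc (nat_lit 12500355),Int.ofNat (nat_lit 395950262),Int.negSucc (nat_lit 103803832),Int.ofNat (nat_lit 785902985),Int.negSucc (nat_lit 353464666),Int.negSucc (nat_lit 385932882),Int.negSucc (nat_lit 992443961),Int.negSucc (nat_lit 223702804),Int.ofNat (nat_lit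 56790664),Int.ofNat (nat_lit 420496195),Int.negSucc (nat_lit 524377700),Int.ofNat (nat_lit 114842759),Int.ofNat (nat_lit 341806089),Int.ofNat (nat_lit 529557782),Int.negSucc (nat_lit 151137100),Int.negSucc (nat_lit 531044599),Int.negSucc (nat_lit 987143848),Int.negSucc (nat_lit 609227616),Int.ofNat (nat_lit 251143890),Int.negSucc (nat_lit 98830694),Int.ofNat (nat_lit 63691239),Int.negSucc (nat_lit 1385973831),Int.ofNat (nat_lit 278096053),Int.ofNat (nat_lit 958707250),Int.negSucc (nat_lit 990115458),Int.negSucc (nat_lit 198461900),Int.negSucc (nat_lit 416365464),Int.negSucc (nat_lit 964110423),Int.ofNat (nat_lit 217574072),Int.ofNat (nat_lit 376199369),Int.negSucc (nat_lit 67064662),Int.ofNat (nat_lit 269918480),Int.negSucc (nat_lit 13533622),Int.negSucc (nat_lit 344509635),Int.negSucc (nat_lit 31683197),Int.negSucc (nat_lit 195162738),Int.ofNat (nat_lit 336515562),Int.ofNat (nat_lit 20805455),Int.ofNat (nat_lit 194705952),Int.negSucc (nat_lit 303833866),Int.negSucc (nat_lit 60530431),Int.ofNat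 (nat_lit 314334622),Int.negSucc (nat_lit 147770437),Int.negSucc (nat_lit 78939497),Int.ofNat (nat_lit 380125782),Int.ofNat (nat_lit 87331705),Int.negSucc (nat_lit 39367997),Int.ofNat (nat_lit 696505409),Int.negSucc (nat_lit 182357241),Int.ofNat (nat_lit 43979104),Int.negSucc (nat_lit 173053943),Int.negSucc (nat_lit 791820),Int.ofNat (nat_lit 302923401),Int.negSucc (nat_lit 158056954),Int.negSucc (nat_lit 101873236),Int.ofNat (nat_lit 51143657),Int.negSucc (nat_lit 54790146),Int.negSucc (nat_lit 138271983),Int.ofNat (nat_lit 188809727),Int.ofNat (nat_lit 186542189),Int.ofNat (nat_lit 33744321),Int.negSucc (nat_lit 43636425),Int.ofNat (nat_lit 209362037),Int.negSucc (nat_lit 27874780),Int.negSucc (nat_lit 104811803),Int.negSucc (nat_lit 128878544),Int.negSucc (nat_lit 156540169),Int.ofNat (nat_lit 372505741),Int.negSucc (nat_lit 14649073),Int.negSucc (nat_lit 106611403),Int.negSucc (nat_lit 48123316),Int.ofNat (nat_lit 88335439),Int.negSucc (nat_lit 208908012),Int.negSucc (nat_lit 244338763),Int.negSucc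 (nat_lit 116054917),Int.negSucc (nat_lit 81596670),Int.ofNat (nat_lit 234178755),Int.negSucc (nat_lit 12851971),Int.negSucc (nat_lit 289995500),Int.ofNat (nat_lit 249174841),Int.negSucc (nat_lit 224429844),Int.ofNat (nat_lit 62744129),Int.negSucc (nat_lit 233738590),Int.ofNat (nat_lit 320046882),Int.ofNat (nat_lit 398505156),Int.ofNat (nat_lit 132823286),Int.negSucc (nat_lit 90651836),Int.ofNat (nat_lit 173146169),Int.negSucc (nat_lit 286823696),Int.negSucc (nat_lit 747230239),Int.negSucc (nat_lit 205644104),Int.negSucc (nat_lit 215500950),Int.negSucc (nat_lit 15794620),Int.ofNat (nat_lit 466578842),Int.negSucc (nat_lit 6206074),Int.negSucc (nat_lit 100478223),Int.negSucc (nat_lit 182851054),Int.negSucc (nat_lit 149784786),Int.negSucc (nat_lit 15350448),Int.ofNat (nat_lit 218286054),Int.negSucc (nat_lit 18941394),Int.ofNat (nat_lit 42736503),Int.ofNat (nat_lit 100378655),Int.ofNat (nat_lit 410916149),Int.ofNat (nat_lit 196662186),Int.negSucc (nat_lit 393019012),Int.negSucc (nat_lit 191991165),Int.negSucc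 (nat_lit 1152449800),Int.ofNat (nat_lit 531795905),Int.ofNat (nat_lit 1672780589),Int.negSucc (nat_lit 98443841),Int.negSucc (nat_lit 293852254),Int.ofNat (nat_lit 393715404),Int.ofNat (nat_lit 267782205),Int.negSucc (nat_lit 818443857),Int.ofNat (nat_lit 13189314),Int.ofNat (nat_lit 629933701),Int.ofNat (nat_lit 1307458483),Int.negSucc (nat_lit 1094535792),Int.ofNat (nat_lit 1044023082),Int.negSucc (nat_lit 593104999),Int.negSucc (nat_lit 649729901),Int.ofNat (nat_lit 1183527649),Int.ofNat (nat_lit 126448887),Int.ofNat (nat_lit 2220775232),Int.ofNat (nat_lit 1190430764),Int.negSucc (nat_lit 2118572554),Int.ofNat (nat_lit 124844930),Int.ofNat (nat_lit 1265995118),Int.ofNat (nat_lit 1351541192),Int.negSucc (nat_lit 1248980103),Int.negSucc (nat_lit 2661036958),Int.ofNat (nat_lit 266894959),Int.negSucc (nat_lit 360683586),Int.ofNat (nat_lit 171316800),Int.ofNat (nat_lit 306350419)])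

/-- A row. -/
noncomputable def sr7_c2_34 : List ℕ × List ℤ :=
  ([(nat_lit 4),(nat_lit 1),(nat_lit 0),(nat_lit 0),(nat_lit 0),(nat_lit 0),(nat_lit 0),(nat_lit 0),(nat_lit 0),(nat_lit 0),(nat_lit 0),(nat_lit 0)], [Int.negSucc (nat_lit 877648725),Int.negSucc (nat_lit 441727086),Int.negSucc (nat_lit 2368433356),Int.ofNat (nat_lit 283351680),Int.negSucc (nat_lit 579363790),Int.negSucc (nat_lit 423675849),Int.ofNat (nat_lit 824556139),Int.ofNat (nat_lit 257548615),Int.ofNat (nat_lit 728301183),Int.negSucc (nat_lit 1264272272),Int.ofNat (nat_lit 359373398),Int.negSucc (nat_lit 901692140),Int.negSucc (nat_lit 116473912),Int.negSucc (nat_lit 974023453),Int.negSucc (nat_lit 835989816),Int.ofNat (nat_lit 17304960),Int.ofNat (nat_lit 1469331016),Int.ofNat (nat_lit 479292565),Int.negSucc (nat_lit 172627998),Int.ofNat (nat_lit 247387502),Int.ofNat (nat_lit 216184084),Int.negSucc (nat_lit 63398869),Int.ofNat (nat_lit 120409368),Int.negSucc (nat_lit 281655987),Int.ofNat (nat_lit 689146903),Int.negSucc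 (nat_lit 694349865),Int.negSucc (nat_lit 581047800),Int.ofNat (nat_lit 637581109),Int.negSucc (nat_lit 1435758120),Int.ofNat (nat_lit 466534251),Int.ofNat (nat_lit 60745457),Int.negSucc (nat_lit 40130412),Int.ofNat (nat_lit 818137746),Int.ofNat (nat_lit 1736649940),Int.negSucc (nat_lit 653966512),Int.ofNat (nat_lit 238067805),Int.ofNat (nat_lit 326539447),Int.negSucc (nat_lit 88865041),Int.ofNat (nat_lit 341628211),Int.negSucc (nat_lit 675257576),Int.negSucc (nat_lit 12890815),Int.ofNat (nat_lit 298274260),Int.ofNat (nat_lit 641823182),Int.ofNat (nat_lit 865355930),Int.ofNat (nat_lit 624572272),Int.negSucc (nat_lit 379532046),Int.ofNat (nat_lit 70188664),Int.ofNat (nat_lit 439723503),Int.ofNat (nat_lit 77262999),Int.negSucc (nat_lit 194909085),Int.ofNat (nat_lit 182661002),Int.ofNat (nat_lit 328947061),Int.ofNat (nat_lit 853139288),Int.negSucc (nat_lit 533359206),Int.ofNat (nat_lit 267070398),Int.negSucc (nat_lit 312468259),Int.ofNat (nat_lit 117059308),Int.negSucc (nat_lit 387070923),Int.ofNat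 (nat_lit 303209183),Int.negSucc (nat_lit 623811750),Int.negSucc (nat_lit 67169050),Int.ofNat (nat_lit 1100045982),Int.negSucc (nat_lit 114751400),Int.ofNat (nat_lit 1675053937),Int.ofNat (nat_lit 1154254690),Int.negSucc (nat_lit 609595860),Int.negSucc (nat_lit 553721141),Int.negSucc (nat_lit 378065329),Int.ofNat (nat_lit 169805037),Int.negSucc (nat_lit 156584087),Int.negSucc (nat_lit 3060826),Int.negSucc (nat_lit 130053360),Int.negSucc (nat_lit 337778556),Int.ofNat (nat_lit 29222262),Int.negSucc (nat_lit 119259749),Int.ofNat (nat_lit 2603810),Int.ofNat (nat_lit 126261327),Int.negSucc (nat_lit 92871572),Int.ofNat (nat_lit 205938416),Int.ofNat (nat_lit 236122379),Int.ofNat (nat_lit 8740255),Int.ofNat (nat_lit 196478155),Int.negSucc (nat_lit 319115927),Int.ofNat (nat_lit 68118141),Int.negSucc (nat_lit 407577903),Int.negSucc (nat_lit 349045042),Int.negSucc (nat_lit 315051119),Int.ofNat (nat_lit 349288053),Int.negSucc (nat_lit 206065442),Int.negSucc (nat_lit 298288952),Int.ofNat (nat_lit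 151878700),Int.negSucc (nat_lit 75365256),Int.negSucc (nat_lit 112520154),Int.ofNat (nat_lit 203993167),Int.negSucc (nat_lit 106001665),Int.negSucc (nat_lit 157399234),Int.negSucc (nat_lit 31383098),Int.negSucc (nat_lit 41804204),Int.ofNat (nat_lit 48089018),Int.negSucc (nat_lit 90511190),Int.ofNat (nat_lit 285479195),Int.ofNat (nat_lit 129607456),Int.ofNat (nat_lit 17923658),Int.ofNat (nat_lit 90295180),Int.negSucc (nat_lit 162414446),Int.ofNat (nat_lit 47500889),Int.ofNat (nat_lit 173098987),Int.ofNat (nat_lit 45062996),Int.negSucc (nat_lit 184342073),Int.ofNat (nat_lit 267966051),Int.ofNat (nat_lit 40168035),Int.negSucc (nat_lit 338979678),Int.ofNat (nat_lit 394985232),Int.negSucc (nat_lit 48350390),Int.negSucc (nat_lit 149287993),Int.ofNat (nat_lit 40004991),Int.negSucc (nat_lit 168774263),Int.ofNat (nat_lit 301712506),Int.ofNat (nat_lit 198271345),Int.ofNat (nat_lit 123907295),Int.negSucc (nat_lit 124942655),Int.negSucc (nat_lit 15496832),Int.ofNat (nat_lit 14169173),Int.negSucc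 (nat_lit 139220140),Int.negSucc (nat_lit 195253260),Int.ofNat (nat_lit 364638043),Int.ofNat (nat_lit 294987779),Int.ofNat (nat_lit 283601775),Int.ofNat (nat_lit 91654423),Int.ofNat (nat_lit 225612804),Int.negSucc (nat_lit 140713700),Int.negSucc (nat_lit 43298501),Int.ofNat (nat_lit 81054529),Int.ofNat (nat_lit 333171715),Int.negSucc (nat_lit 129309778),Int.ofNat (nat_lit 98890310),Int.negSucc (nat_lit 110682686),Int.negSucc (nat_lit 141539989),Int.negSucc (nat_lit 70685265),Int.negSucc (nat_lit 969895459),Int.ofNat (nat_lit 409287354),Int.ofNat (nat_lit 903483134),Int.negSucc (nat_lit 634148638),Int.negSucc (nat_lit 805326284),Int.ofNat (nat_lit 78398500),Int.negSucc (nat_lit 1952806096),Int.negSucc (nat_lit 1956471604),Int.ofNat (nat_lit 240253929),Int.negSucc (nat_lit 962019807),Int.negSucc (nat_lit 475563111),Int.ofNat (nat_lit 584886176),Int.ofNat (nat_lit 1089748539),Int.negSucc (nat_lit 20804475),Int.negSucc (nat_lit 314097027),Int.negSucc (nat_lit 1239629718),Int.ofNat (nat_lit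 677574187),Int.negSucc (nat_lit 466323197),Int.ofNat (nat_lit 863739763),Int.negSucc (nat_lit 476674543),Int.negSucc (nat_lit 1479309451),Int.ofNat (nat_lit 1021137443),Int.ofNat (nat_lit 15902743),Int.negSucc (nat_lit 630506986),Int.ofNat (nat_lit 1696080277),Int.negSucc (nat_lit 212703635),Int.negSucc (nat_lit 511870232),Int.negSucc (nat_lit 706558713),Int.ofNat (nat_lit 1469287809),Int.ofNat (nat_lit 1798759832),Int.negSucc (nat_lit 361959963),Int.ofNat (nat_lit 359600775),Int.negSucc (nat_lit 408334771),Int.negSucc (nat_lit 372899724),Int.ofNat (nat_lit 43035318)])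

/-- A part of a triangular factor. -/
noncomputable def sr7_c2 : Rows :=
  [sr7_c2_0,
   sr7_c2_1,
   sr7_c2_2,
   sr7_c2_3,
   sr7_c2_4,
   sr7_c2_5,
   sr7_c2_6,
   sr7_c2_7,
   sr7_c2_8,
   sr7_c2_9,
   sr7_c2_10,
   sr7_c2_11,
   sr7_c2_12,
   sr7_c2_13,
   sr7_c2_14,
   sr7_c2_15,
   sr7_c2_16,
   sr7_c2_17,
   sr7_c2_18,
   sr7_c2_19,
   sr7_c2_20,
   sr7_c2_21,
   sr7_c2_22,
   sr7_c2_23,
   sr7_c2_24,
   sr7_c2_25,
   sr7_c2_26,
   sr7_c2_27,
   sr7_c2_28,
   sr7_c2_29,
   sr7_c2_30,
   sr7_c2_31,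
   sr7_c2_32,
   sr7_c2_33,
   sr7_c2_34]

/-- A row. -/
noncomputable def sr7_c3_0 : List ℕ × List ℤ :=
  ([(nat_lit 0),(nat_lit 0),(nat_lit 0),(nat_lit 0),(nat_lit 0),(nat_lit 0),(nat_lit 0),(nat_lit 0),(nat_lit 0),(nat_lit 0),(nat_lit 0),(nat_lit 0)], [Int.ofNat (nat_lit 89840091),Int.negSucc (nat_lit 43612967),Int.ofNat (nat_lit 301498133),Int.negSucc (nat_lit 372095397),Int.ofNat (nat_lit 181731469),Int.ofNat (nat_lit 26668785),Int.ofNat (nat_lit 95088557),Int.ofNat (nat_lit 25329727),Int.ofNat (nat_lit 215836823),Int.negSucc (nat_lit 131843575),Int.ofNat (nat_lit 45559123),Int.ofNat (nat_lit 74451096),Int.ofNat (nat_lit 66189116),Int.ofNat (nat_lit 75543847),Int.ofNat (nat_lit 34068552),Int.negSucc (nat_lit 22224653),Int.ofNat (nat_lit 68930982),Int.ofNat (nat_lit 91798065),Int.ofNat (nat_lit 6991918),Int.negSucc (nat_lit 50463839),Int.negSucc (nat_lit 10151581),Int.negSucc (nat_lit 25084523),Int.ofNat (nat_lit 17759955),Int.negSucc (nat_lit 28195173),Int.negSucc (nat_lit 43859286),Int.ofNat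 (nat_lit 35403435),Int.ofNat (nat_lit 63285417),Int.ofNat (nat_lit 16933230),Int.ofNat (nat_lit 8337612),Int.ofNat (nat_lit 11932369),Int.negSucc (nat_lit 3667026),Int.ofNat (nat_lit 15917232),Int.ofNat (nat_lit 77352651),Int.negSucc (nat_lit 70950525),Int.ofNat (nat_lit 32139933),Int.ofNat (nat_lit 136843248),Int.negSucc (nat_lit 69188193),Int.ofNat (nat_lit 18593456),Int.ofNat (nat_lit 4009532),Int.negSucc (nat_lit 67764606),Int.negSucc (nat_lit 71069120),Int.ofNat (nat_lit 31453334),Int.ofNat (nat_lit 41460202),Int.ofNat (nat_lit 29095229),Int.ofNat (nat_lit 12149124),Int.ofNat (nat_lit 13952437),Int.ofNat (nat_lit 21833647),Int.ofNat (nat_lit 35632631),Int.ofNat (nat_lit 10789637),Int.negSucc (nat_lit 23626370),Int.negSucc (nat_lit 33029525),Int.negSucc (nat_lit 6151690),Int.ofNat (nat_lit 13704529),Int.negSucc (nat_lit 217773),Int.negSucc (nat_lit 27627857),Int.ofNat (nat_lit 2083959),Int.negSucc (nat_lit 1428182),Int.negSucc (nat_lit 27932113),Int.ofNat (nat_lit 15634010),Int.ofNat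 (nat_lit 36689043),Int.ofNat (nat_lit 16954520),Int.ofNat (nat_lit 20881851),Int.negSucc (nat_lit 6329171),Int.negSucc (nat_lit 37862258),Int.negSucc (nat_lit 2780311),Int.negSucc (nat_lit 70915117),Int.negSucc (nat_lit 20630004),Int.negSucc (nat_lit 5273910),Int.negSucc (nat_lit 1463891),Int.ofNat (nat_lit 107178800),Int.ofNat (nat_lit 43984588),Int.negSucc (nat_lit 185135502),Int.ofNat (nat_lit 9646593),Int.negSucc (nat_lit 25540049),Int.ofNat (nat_lit 22370203),Int.ofNat (nat_lit 2610332),Int.ofNat (nat_lit 148352823),Int.negSucc (nat_lit 77408840),Int.ofNat (nat_lit 3327863),Int.negSucc (nat_lit 22830931),Int.negSucc (nat_lit 50956399),Int.negSucc (nat_lit 38800607),Int.ofNat (nat_lit 23194309),Int.negSucc (nat_lit 10469105),Int.negSucc (nat_lit 39532685),Int.ofNat (nat_lit 41978260),Int.ofNat (nat_lit 40401577),Int.negSucc (nat_lit 2395681),Int.ofNat (nat_lit 17964638),Int.negSucc (nat_lit 47897068),Int.ofNat (nat_lit 3083531),Int.negSucc (nat_lit 32743868),Int.negSucc (nat_lit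 2680738),Int.ofNat (nat_lit 21413618),Int.ofNat (nat_lit 14560024),Int.negSucc (nat_lit 24299426),Int.negSucc (nat_lit 37331645),Int.ofNat (nat_lit 1770750),Int.negSucc (nat_lit 23112325),Int.ofNat (nat_lit 11176190),Int.ofNat (nat_lit 12503107),Int.ofNat (nat_lit 19431845),Int.ofNat (nat_lit 57504917),Int.negSucc (nat_lit 2523590),Int.negSucc (nat_lit 28966414),Int.ofNat (nat_lit 15819637),Int.negSucc (nat_lit 16350080),Int.negSucc (nat_lit 31316082),Int.ofNat (nat_lit 8944074),Int.ofNat (nat_lit 10993312),Int.ofNat (nat_lit 21970528),Int.ofNat (nat_lit 13611193),Int.negSucc (nat_lit 29007462),Int.negSucc (nat_lit 2718914),Int.ofNat (nat_lit 54862885),Int.ofNat (nat_lit 21869190),Int.negSucc (nat_lit 8464326),Int.negSucc (nat_lit 12563845),Int.negSucc (nat_lit 64584359),Int.ofNat (nat_lit 7562716),Int.ofNat (nat_lit 4171286),Int.negSucc (nat_lit 69066464),Int.negSucc (nat_lit 37618916),Int.negSucc (nat_lit 18350370),Int.negSucc (nat_lit 4596402),Int.ofNat (nat_lit 20324193),Int.ofNat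 (nat_lit 41035895),Int.ofNat (nat_lit 25423779),Int.negSucc (nat_lit 11470725),Int.negSucc (nat_lit 10653216),Int.negSucc (nat_lit 43668271),Int.ofNat (nat_lit 14959853),Int.ofNat (nat_lit 2479556),Int.negSucc (nat_lit 24397974),Int.ofNat (nat_lit 15423695),Int.negSucc (nat_lit 8066971),Int.ofNat (nat_lit 7041042),Int.ofNat (nat_lit 4729972),Int.ofNat (nat_lit 18361729),Int.ofNat (nat_lit 25694580),Int.negSucc (nat_lit 32295661),Int.negSucc (nat_lit 45811762),Int.negSucc (nat_lit 13829141),Int.ofNat (nat_lit 44327569),Int.negSucc (nat_lit 10891861),Int.negSucc (nat_lit 10801554),Int.negSucc (nat_lit 15197053),Int.ofNat (nat_lit 14238331),Int.negSucc (nat_lit 29081062),Int.ofNat (nat_lit 5590365),Int.ofNat (nat_lit 23508842),Int.ofNat (nat_lit 5261790),Int.ofNat (nat_lit 14778003),Int.ofNat (nat_lit 2672405),Int.negSucc (nat_lit 19572824),Int.negSucc (nat_lit 17644049),Int.ofNat (nat_lit 9439949),Int.negSucc (nat_lit 10047915),Int.ofNat (nat_lit 6959790),Int.negSucc (nat_lit 3209845),Int.ofNat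 (nat_lit 1433686),Int.ofNat (nat_lit 6023912),Int.negSucc (nat_lit 8695070),Int.ofNat (nat_lit 15938649),Int.ofNat (nat_lit 2472020),Int.ofNat (nat_lit 2365971),Int.negSucc (nat_lit 11837696),Int.ofNat (nat_lit 18426419),Int.negSucc (nat_lit 11048961),Int.negSucc (nat_lit 10333637),Int.ofNat (nat_lit 3987358),Int.ofNat (nat_lit 7818291),Int.ofNat (nat_lit 12549417),Int.negSucc (nat_lit 5019281),Int.ofNat (nat_lit 414002089)])

/-- A row. -/
noncomputable def sr7_c3_1 : List ℕ × List ℤ :=
  ([(nat_lit 0),(nat_lit 0),(nat_lit 0),(nat_lit 0),(nat_lit 0),(nat_lit 0),(nat_lit 0),(nat_lit 0),(nat_lit 1),(nat_lit 0),(nat_lit 0),(nat_lit 0)], [Int.ofNat (nat_lit 91027227),Int.negSucc (nat_lit 26802427),Int.ofNat (nat_lit 48366683),Int.negSucc (nat_lit 20933913),Int.ofNat (nat_lit 78209440),Int.negSucc (nat_lit 32275975),Int.ofNat (nat_lit 11028950),Int.negSucc (nat_lit 55841296),Int.negSucc (nat_lit 46457365),Int.negSucc (nat_lit 35727935),Int.negSucc (nat_lit 30905706),Int.ofNat (nat_lit 7558171),Int.negSucc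 (nat_lit 16565696),Int.ofNat (nat_lit 652720),Int.negSucc (nat_lit 65871588),Int.negSucc (nat_lit 6471880),Int.ofNat (nat_lit 29716886),Int.ofNat (nat_lit 32507601),Int.negSucc (nat_lit 15882285),Int.ofNat (nat_lit 11065828),Int.ofNat (nat_lit 5827069),Int.negSucc (nat_lit 276044),Int.ofNat (nat_lit 1110149),Int.negSucc (nat_lit 5108825),Int.ofNat (nat_lit 9153058),Int.negSucc (nat_lit 21140919),Int.negSucc (nat_lit 13478090),Int.ofNat (nat_lit 19759866),Int.negSucc (nat_lit 13747360),Int.ofNat (nat_lit 20163383),Int.ofNat (nat_lit 9459175),Int.ofNat (nat_lit 1844575),Int.ofNat (nat_lit 53329942),Int.ofNat (nat_lit 26681687),Int.ofNat (nat_lit 12686),Int.ofNat (nat_lit 138571),Int.ofNat (nat_lit 9190305),Int.negSucc (nat_lit 25214906),Int.ofNat (nat_lit 7734730),Int.ofNat (nat_lit 10381958),Int.negSucc (nat_lit 15545690),Int.negSucc (nat_lit 2785378),Int.ofNat (nat_lit 7145915),Int.negSucc (nat_lit 8026569),Int.ofNat (nat_lit 13296307),Int.ofNat (nat_lit 21780906),Int.negSucc (nat_lit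 795297),Int.ofNat (nat_lit 1889314),Int.ofNat (nat_lit 12158986),Int.negSucc (nat_lit 20082553),Int.negSucc (nat_lit 9990035),Int.ofNat (nat_lit 10685225),Int.negSucc (nat_lit 7286484),Int.negSucc (nat_lit 1496022),Int.ofNat (nat_lit 14154489),Int.ofNat (nat_lit 6440208),Int.negSucc (nat_lit 7514820),Int.negSucc (nat_lit 5485783),Int.ofNat (nat_lit 33511395),Int.negSucc (nat_lit 26692932),Int.ofNat (nat_lit 23389055),Int.ofNat (nat_lit 9282817),Int.negSucc (nat_lit 7713869),Int.negSucc (nat_lit 8605946),Int.negSucc (nat_lit 2041592),Int.negSucc (nat_lit 15327056),Int.negSucc (nat_lit 4600092),Int.ofNat (nat_lit 4210188),Int.ofNat (nat_lit 28473140),Int.ofNat (nat_lit 18353370),Int.negSucc (nat_lit 24283870),Int.negSucc (nat_lit 2541609),Int.negSucc (nat_lit 18499139),Int.negSucc (nat_lit 12258863),Int.negSucc (nat_lit 1545121),Int.ofNat (nat_lit 796695),Int.ofNat (nat_lit 1978212),Int.ofNat (nat_lit 11741579),Int.negSucc (nat_lit 17983768),Int.negSucc (nat_lit 1033464),Int.negSucc (nat_lit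 8471285),Int.negSucc (nat_lit 10581795),Int.ofNat (nat_lit 6308522),Int.ofNat (nat_lit 5349729),Int.negSucc (nat_lit 11484324),Int.ofNat (nat_lit 32529),Int.negSucc (nat_lit 3979885),Int.negSucc (nat_lit 1024337),Int.negSucc (nat_lit 2905952),Int.ofNat (nat_lit 7554213),Int.ofNat (nat_lit 9113225),Int.negSucc (nat_lit 9931893),Int.negSucc (nat_lit 6062896),Int.negSucc (nat_lit 1578614),Int.ofNat (nat_lit 157770),Int.negSucc (nat_lit 4447645),Int.negSucc (nat_lit 4036952),Int.negSucc (nat_lit 856556),Int.negSucc (nat_lit 1652455),Int.negSucc (nat_lit 1896838),Int.ofNat (nat_lit 873893),Int.ofNat (nat_lit 36017319),Int.ofNat (nat_lit 1659730),Int.ofNat (nat_lit 2814588),Int.negSucc (nat_lit 1108136),Int.ofNat (nat_lit 2646323),Int.negSucc (nat_lit 3563829),Int.negSucc (nat_lit 61140),Int.negSucc (nat_lit 1121177),Int.ofNat (nat_lit 8236485),Int.ofNat (nat_lit 3483988),Int.negSucc (nat_lit 2098815),Int.negSucc (nat_lit 7647601),Int.ofNat (nat_lit 2068270),Int.ofNat (nat_lit 1892727),Int.ofNat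 (nat_lit 2184951),Int.ofNat (nat_lit 3158838),Int.negSucc (nat_lit 1241320),Int.ofNat (nat_lit 808438),Int.ofNat (nat_lit 2522104),Int.negSucc (nat_lit 1638006),Int.negSucc (nat_lit 6724404),Int.ofNat (nat_lit 633797),Int.negSucc (nat_lit 2631262),Int.ofNat (nat_lit 1521031),Int.ofNat (nat_lit 8212080),Int.negSucc (nat_lit 2257131),Int.ofNat (nat_lit 3317372),Int.negSucc (nat_lit 2693787),Int.negSucc (nat_lit 5143852),Int.negSucc (nat_lit 3975647),Int.negSucc (nat_lit 2662747),Int.ofNat (nat_lit 115427),Int.negSucc (nat_lit 401818),Int.negSucc (nat_lit 460217),Int.negSucc (nat_lit 2665252),Int.negSucc (nat_lit 1704675),Int.ofNat (nat_lit 2387821),Int.negSucc (nat_lit 2460829),Int.ofNat (nat_lit 8216196),Int.negSucc (nat_lit 3305219),Int.ofNat (nat_lit 2780418),Int.negSucc (nat_lit 4108060),Int.ofNat (nat_lit 2006959),Int.ofNat (nat_lit 2992263),Int.ofNat (nat_lit 626803),Int.negSucc (nat_lit 2789290),Int.negSucc (nat_lit 1074783),Int.negSucc (nat_lit 6134818),Int.negSucc (nat_lit 2317883),Int.negSucc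 (nat_lit 5035148),Int.negSucc (nat_lit 4651685),Int.ofNat (nat_lit 1829313),Int.negSucc (nat_lit 4419754),Int.ofNat (nat_lit 489051),Int.ofNat (nat_lit 1680099),Int.negSucc (nat_lit 1665290),Int.ofNat (nat_lit 7179152),Int.ofNat (nat_lit 3543937),Int.ofNat (nat_lit 1963374),Int.negSucc (nat_lit 1210159),Int.ofNat (nat_lit 1475412),Int.negSucc (nat_lit 57440),Int.ofNat (nat_lit 1308601),Int.negSucc (nat_lit 1028588),Int.ofNat (nat_lit 1165523),Int.ofNat (nat_lit 1676167),Int.ofNat (nat_lit 2940052),Int.ofNat (nat_lit 5068813),Int.ofNat (nat_lit 1017152),Int.negSucc (nat_lit 3234250),Int.negSucc (nat_lit 67778),Int.negSucc (nat_lit 2861538),Int.negSucc (nat_lit 824092),Int.ofNat (nat_lit 15012196),Int.ofNat (nat_lit 62613084)])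

/-- A row. -/
noncomputable def sr7_c3_2 : List ℕ × List ℤ :=
  ([(nat_lit 0),(nat_lit 0),(nat_lit 0),(nat_lit 0),(nat_lit 0),(nat_lit 0),(nat_lit 1),(nat_lit 0),(nat_lit 0),(nat_lit 0),(nat_lit 0),(nat_lit 0)], [Int.ofNat (nat_lit 144130208),Int.ofNat (nat_lit 226770331),Int.ofNat (nat_lit 410221933),Int.negSucc (nat_lit 35415119),Int.ofNat (nat_lit 112487077),Int.negSucc (nat_lit 300271913),Int.negSucc (nat_lit 45598718),Int.ofNat (nat_lit 169646491),Int.ofNat (nat_lit 54204077),Int.ofNat (nat_lit 11498065),Int.negSucc (nat_lit 29652364),Int.ofNat (nat_lit 165114468),Int.ofNat (nat_lit 21380147),Int.ofNat (nat_lit 92743237),Int.negSucc (nat_lit 37390019),Int.ofNat (nat_lit 184616929),Int.negSucc (nat_lit 20260080),Int.ofNat (nat_lit 61411009),Int.negSucc (nat_lit 19197086),Int.negSucc (nat_lit 4511110),Int.ofNat (nat_lit 67760109),Int.negSucc (nat_lit 65487287),Int.negSucc (nat_lit 115095031),Int.ofNat (nat_lit 36500563),Int.negSucc (nat_lit 49747374),Int.negSucc (nat_lit 5543858),Int.ofNat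 (nat_lit 9376338),Int.ofNat (nat_lit 9615617),Int.ofNat (nat_lit 51701305),Int.negSucc (nat_lit 24629686),Int.negSucc (nat_lit 29003590),Int.negSucc (nat_lit 25246819),Int.ofNat (nat_lit 42745256),Int.negSucc (nat_lit 64688206),Int.negSucc (nat_lit 16421879),Int.negSucc (nat_lit 873887),Int.negSucc (nat_lit 18261098),Int.negSucc (nat_lit 27303567),Int.negSucc (nat_lit 62694540),Int.negSucc (nat_lit 85101899),Int.ofNat (nat_lit 33285945),Int.negSucc (nat_lit 7546646),Int.negSucc (nat_lit 11948376),Int.negSucc (nat_lit 36768407),Int.ofNat (nat_lit 34524085),Int.negSucc (nat_lit 8043535),Int.ofNat (nat_lit 27491099),Int.negSucc (nat_lit 13812163),Int.negSucc (nat_lit 19657264),Int.negSucc (nat_lit 5995491),Int.ofNat (nat_lit 38627031),Int.negSucc (nat_lit 41546727),Int.ofNat (nat_lit 3464837),Int.negSucc (nat_lit 22899138),Int.negSucc (nat_lit 30098307),Int.negSucc (nat_lit 9559960),Int.negSucc (nat_lit 11043972),Int.ofNat (nat_lit 4976139),Int.negSucc (nat_lit 116281749),Int.ofNat (nat_lit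 19220729),Int.negSucc (nat_lit 44800101),Int.negSucc (nat_lit 32456817),Int.ofNat (nat_lit 2338397),Int.negSucc (nat_lit 21182356),Int.negSucc (nat_lit 4074971),Int.negSucc (nat_lit 42066910),Int.negSucc (nat_lit 8223495),Int.ofNat (nat_lit 54457945),Int.negSucc (nat_lit 32296976),Int.negSucc (nat_lit 715128),Int.ofNat (nat_lit 12884416),Int.ofNat (nat_lit 32713946),Int.ofNat (nat_lit 14658904),Int.negSucc (nat_lit 33282580),Int.ofNat (nat_lit 17237560),Int.ofNat (nat_lit 26004205),Int.negSucc (nat_lit 30532163),Int.negSucc (nat_lit 37151472),Int.ofNat (nat_lit 13899535),Int.ofNat (nat_lit 69256832),Int.ofNat (nat_lit 38279818),Int.ofNat (nat_lit 21764168),Int.negSucc (nat_lit 53324883),Int.negSucc (nat_lit 13100536),Int.ofNat (nat_lit 18034584),Int.negSucc (nat_lit 229394),Int.ofNat (nat_lit 33666109),Int.negSucc (nat_lit 9672150),Int.negSucc (nat_lit 24178909),Int.negSucc (nat_lit 22982404),Int.negSucc (nat_lit 36624052),Int.ofNat (nat_lit 13285519),Int.ofNat (nat_lit 17553848),Int.ofNat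 (nat_lit 35400908),Int.ofNat (nat_lit 14332899),Int.ofNat (nat_lit 7639897),Int.ofNat (nat_lit 21745856),Int.negSucc (nat_lit 3689292),Int.ofNat (nat_lit 22988127),Int.ofNat (nat_lit 1287629),Int.ofNat (nat_lit 51505222),Int.negSucc (nat_lit 34339514),Int.ofNat (nat_lit 46960973),Int.negSucc (nat_lit 25304301),Int.negSucc (nat_lit 24157796),Int.ofNat (nat_lit 5878042),Int.negSucc (nat_lit 808217),Int.negSucc (nat_lit 17610906),Int.negSucc (nat_lit 2548622),Int.ofNat (nat_lit 20511440),Int.ofNat (nat_lit 3491567),Int.ofNat (nat_lit 33714317),Int.ofNat (nat_lit 19638551),Int.negSucc (nat_lit 2834237),Int.ofNat (nat_lit 7620656),Int.negSucc (nat_lit 2310823),Int.negSucc (nat_lit 23670091),Int.negSucc (nat_lit 295521),Int.negSucc (nat_lit 793899),Int.negSucc (nat_lit 22269902),Int.ofNat (nat_lit 12717732),Int.negSucc (nat_lit 7454774),Int.negSucc (nat_lit 15932554),Int.negSucc (nat_lit 1053561),Int.negSucc (nat_lit 4063891),Int.negSucc (nat_lit 11644528),Int.ofNat (nat_lit 26859440),Int.negSucc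 (nat_lit 5357307),Int.ofNat (nat_lit 4222958),Int.ofNat (nat_lit 9950652),Int.negSucc (nat_lit 13847056),Int.ofNat (nat_lit 9017876),Int.negSucc (nat_lit 12101366),Int.negSucc (nat_lit 12706374),Int.ofNat (nat_lit 28530371),Int.ofNat (nat_lit 10796938),Int.ofNat (nat_lit 20266897),Int.negSucc (nat_lit 7879634),Int.ofNat (nat_lit 16453689),Int.negSucc (nat_lit 27399034),Int.ofNat (nat_lit 75454364),Int.negSucc (nat_lit 28077330),Int.negSucc (nat_lit 17109913),Int.ofNat (nat_lit 4562472),Int.negSucc (nat_lit 7353282),Int.negSucc (nat_lit 2968090),Int.negSucc (nat_lit 352320),Int.ofNat (nat_lit 30906978),Int.ofNat (nat_lit 3100915),Int.ofNat (nat_lit 12209950),Int.negSucc (nat_lit 829800),Int.negSucc (nat_lit 22486997),Int.ofNat (nat_lit 264746),Int.negSucc (nat_lit 6970513),Int.ofNat (nat_lit 11597951),Int.ofNat (nat_lit 14193130),Int.negSucc (nat_lit 6966222),Int.negSucc (nat_lit 2290778),Int.ofNat (nat_lit 2297178),Int.ofNat (nat_lit 1256769),Int.negSucc (nat_lit 17750792),Int.ofNat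 (nat_lit 5742689),Int.negSucc (nat_lit 22645655),Int.ofNat (nat_lit 18567527),Int.negSucc (nat_lit 6013001),Int.negSucc (nat_lit 11265049),Int.negSucc (nat_lit 492351),Int.negSucc (nat_lit 10270584),Int.negSucc (nat_lit 23262647),Int.negSucc (nat_lit 8778990),Int.ofNat (nat_lit 5171363),Int.ofNat (nat_lit 10469649),Int.ofNat (nat_lit 12924517),Int.ofNat (nat_lit 456235),Int.ofNat (nat_lit 46522000),Int.negSucc (nat_lit 54435727),Int.ofNat (nat_lit 253436608)])

/-- A row. -/
noncomputable def sr7_c3_3 : List ℕ × List ℤ :=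
  ([(nat_lit 0),(nat_lit 0),(nat_lit 0),(nat_lit 0),(nat_lit 1),(nat_lit 0),(nat_lit 0),(nat_lit 0),(nat_lit 0),(nat_lit 0),(nat_lit 0),(nat_lit 0)], [Int.negSucc (nat_lit 132614004),Int.negSucc (nat_lit 168971830),Int.negSucc (nat_lit 172848274),Int.negSucc (nat_lit 97816693),Int.negSucc (nat_lit 334935145),Int.ofNat (nat_lit 395791524),Int.negSucc (nat_lit 203619101),Int.ofNat (nat_lit 63947377),Int.negSucc (nat_lit 73858666),Int.ofNat (nat_lit 151888670),Int.ofNat (nat_lit 72896086),Int.negSucc (nat_lit 286952031),Int.negSucc (nat_lit 8222622),Int.ofNat (nat_lit 625226),Int.ofNat (nat_lit 14324872),Int.negSucc (nat_lit 57268111),Int.ofNat (nat_lit 56748405),Int.negSucc (nat_lit 310591015),Int.ofNat (nat_lit 87806531),Int.negSucc (nat_lit 3943266),Int.negSucc (nat_lit 97947273),Int.ofNat (nat_lit 191123734),Int.ofNat (nat_lit 79395285),Int.negSucc (nat_lit 50812446),Int.ofNat (nat_lit 91505095),Int.ofNat (nat_lit 15869200),Int.negSucc (nat_lit 1448583),Int.ofNat (nat_lit 21705999),Int.negSucc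 (nat_lit 79961507),Int.ofNat (nat_lit 28231548),Int.ofNat (nat_lit 42689384),Int.negSucc (nat_lit 23617397),Int.negSucc (nat_lit 203252871),Int.ofNat (nat_lit 93654817),Int.ofNat (nat_lit 78280206),Int.negSucc (nat_lit 99253638),Int.ofNat (nat_lit 30947973),Int.ofNat (nat_lit 74606243),Int.ofNat (nat_lit 49497041),Int.ofNat (nat_lit 158902620),Int.ofNat (nat_lit 48862876),Int.negSucc (nat_lit 116742192),Int.negSucc (nat_lit 54591541),Int.negSucc (nat_lit 63677812),Int.negSucc (nat_lit 9698427),Int.negSucc (nat_lit 66918027),Int.negSucc (nat_lit 18837172),Int.negSucc (nat_lit 35678536),Int.negSucc (nat_lit 22035464),Int.ofNat (nat_lit 75707887),Int.ofNat (nat_lit 56399272),Int.ofNat (nat_lit 90041786),Int.negSucc (nat_lit 109009947),Int.ofNat (nat_lit 60278803),Int.ofNat (nat_lit 78280713),Int.ofNat (nat_lit 19956983),Int.negSucc (nat_lit 32591803),Int.ofNat (nat_lit 88674882),Int.ofNat (nat_lit 34612773),Int.ofNat (nat_lit 28812515),Int.negSucc (nat_lit 58136100),Int.negSucc (nat_lit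 46742457),Int.negSucc (nat_lit 2888621),Int.ofNat (nat_lit 47839360),Int.negSucc (nat_lit 21993867),Int.ofNat (nat_lit 81270697),Int.negSucc (nat_lit 7561030),Int.negSucc (nat_lit 30841037),Int.ofNat (nat_lit 55341569),Int.negSucc (nat_lit 169468798),Int.negSucc (nat_lit 103685645),Int.negSucc (nat_lit 63881187),Int.negSucc (nat_lit 101934603),Int.ofNat (nat_lit 38847514),Int.ofNat (nat_lit 24430194),Int.negSucc (nat_lit 5684921),Int.negSucc (nat_lit 35793006),Int.ofNat (nat_lit 48740952),Int.ofNat (nat_lit 109172592),Int.negSucc (nat_lit 30589146),Int.negSucc (nat_lit 14834051),Int.ofNat (nat_lit 54706924),Int.ofNat (nat_lit 41833979),Int.negSucc (nat_lit 411512),Int.ofNat (nat_lit 18172573),Int.negSucc (nat_lit 18592914),Int.negSucc (nat_lit 29989163),Int.ofNat (nat_lit 21495221),Int.negSucc (nat_lit 14618239),Int.ofNat (nat_lit 40063346),Int.ofNat (nat_lit 31348250),Int.negSucc (nat_lit 12340935),Int.ofNat (nat_lit 3386987),Int.negSucc (nat_lit 10127808),Int.negSucc (nat_lit 20829638),Int.ofNat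 (nat_lit 18169664),Int.ofNat (nat_lit 42059598),Int.negSucc (nat_lit 32546253),Int.ofNat (nat_lit 18569915),Int.negSucc (nat_lit 3210138),Int.negSucc (nat_lit 70152764),Int.negSucc (nat_lit 17647566),Int.negSucc (nat_lit 58672724),Int.ofNat (nat_lit 3099063),Int.ofNat (nat_lit 54061840),Int.ofNat (nat_lit 572814),Int.ofNat (nat_lit 6353371),Int.ofNat (nat_lit 34450352),Int.ofNat (nat_lit 16381767),Int.negSucc (nat_lit 12532618),Int.negSucc (nat_lit 5470390),Int.negSucc (nat_lit 23628638),Int.negSucc (nat_lit 9453036),Int.ofNat (nat_lit 46661274),Int.negSucc (nat_lit 49214032),Int.negSucc (nat_lit 16995117),Int.ofNat (nat_lit 8643132),Int.ofNat (nat_lit 26211307),Int.negSucc (nat_lit 22386976),Int.ofNat (nat_lit 29043033),Int.negSucc (nat_lit 54901443),Int.ofNat (nat_lit 77569847),Int.ofNat (nat_lit 34545421),Int.ofNat (nat_lit 13567342),Int.ofNat (nat_lit 15629010),Int.negSucc (nat_lit 30230505),Int.negSucc (nat_lit 82861157),Int.negSucc (nat_lit 21296177),Int.negSucc (nat_lit 1951609),Int.ofNat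 (nat_lit 43230410),Int.ofNat (nat_lit 67566383),Int.negSucc (nat_lit 37422571),Int.ofNat (nat_lit 11692374),Int.ofNat (nat_lit 48577625),Int.negSucc (nat_lit 35257865),Int.ofNat (nat_lit 16281090),Int.negSucc (nat_lit 19820353),Int.negSucc (nat_lit 10034333),Int.negSucc (nat_lit 19126188),Int.negSucc (nat_lit 17165817),Int.negSucc (nat_lit 4790199),Int.ofNat (nat_lit 52257375),Int.ofNat (nat_lit 2935093),Int.negSucc (nat_lit 46881560),Int.ofNat (nat_lit 4644623),Int.ofNat (nat_lit 27169851),Int.negSucc (nat_lit 6905333),Int.negSucc (nat_lit 18143140),Int.ofNat (nat_lit 24581477),Int.negSucc (nat_lit 3708941),Int.ofNat (nat_lit 1598363),Int.ofNat (nat_lit 5380889),Int.negSucc (nat_lit 6388246),Int.negSucc (nat_lit 9176744),Int.ofNat (nat_lit 10132761),Int.ofNat (nat_lit 19652774),Int.negSucc (nat_lit 11483259),Int.ofNat (nat_lit 4437141),Int.negSucc (nat_lit 13822965),Int.negSucc (nat_lit 1131289),Int.negSucc (nat_lit 7251301),Int.ofNat (nat_lit 5307288),Int.ofNat (nat_lit 15252018),Int.negSucc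 (nat_lit 4319980),Int.ofNat (nat_lit 3439681),Int.ofNat (nat_lit 21561567),Int.ofNat (nat_lit 32851156),Int.negSucc (nat_lit 26625276),Int.ofNat (nat_lit 17013733),Int.negSucc (nat_lit 3701911),Int.ofNat (nat_lit 6426062),Int.negSucc (nat_lit 8799659),Int.negSucc (nat_lit 7418653),Int.ofNat (nat_lit 3836074),Int.negSucc (nat_lit 301879975),Int.negSucc (nat_lit 20202996),Int.negSucc (nat_lit 39708185),Int.ofNat (nat_lit 348030042)])

/-- A row. -/
noncomputable def sr7_c3_4 : List ℕ × List ℤ :=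
  ([(nat_lit 0),(nat_lit 0),(nat_lit 0),(nat_lit 1),(nat_lit 0),(nat_lit 1),(nat_lit 0),(nat_lit 0),(nat_lit 0),(nat_lit 0),(nat_lit 0),(nat_lit 0)], [Int.negSucc (nat_lit 82124519),Int.ofNat (nat_lit 215666109),Int.ofNat (nat_lit 403630036),Int.negSucc (nat_lit 89309510),Int.ofNat (nat_lit 225828478),Int.negSucc (nat_lit 10193802),Int.negSucc (nat_lit 210293954),Int.negSucc (nat_lit 317532349),Int.ofNat (nat_lit 108724168),Int.ofNat (nat_lit 148804374),Int.ofNat (nat_lit 36607840),Int.negSucc (nat_lit 6472289),Int.ofNat (nat_lit 50571195),Int.ofNat (nat_lit 145415748),Int.negSucc (nat_lit 29977683),Int.ofNat (nat_lit 12981231),Int.negSucc (nat_lit 106597819),Int.negSucc (nat_lit 59537769),Int.negSucc (nat_lit 54412199),Int.ofNat (nat_lit 5969777),Int.negSucc (nat_lit 74804589),Int.negSucc (nat_lit 20445077),Int.negSucc (nat_lit 75966400),Int.negSucc (nat_lit 475561),Int.negSucc (nat_lit 91867094),Int.negSucc (nat_lit 42437002),Int.ofNat (nat_lit 71097081),Int.negSucc (nat_lit 8595497),Int.ofNat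 (nat_lit 63053009),Int.ofNat (nat_lit 43464),Int.negSucc (nat_lit 13835262),Int.ofNat (nat_lit 62518552),Int.negSucc (nat_lit 77845999),Int.negSucc (nat_lit 137683207),Int.negSucc (nat_lit 97728096),Int.negSucc (nat_lit 39441720),Int.negSucc (nat_lit 51943447),Int.ofNat (nat_lit 14918992),Int.negSucc (nat_lit 38764097),Int.negSucc (nat_lit 50901858),Int.negSucc (nat_lit 7479799),Int.ofNat (nat_lit 11657097),Int.negSucc (nat_lit 28776082),Int.negSucc (nat_lit 106054657),Int.ofNat (nat_lit 80662815),Int.negSucc (nat_lit 38569812),Int.negSucc (nat_lit 37807185),Int.negSucc (nat_lit 20122103),Int.ofNat (nat_lit 9879390),Int.ofNat (nat_lit 34641957),Int.ofNat (nat_lit 33465135),Int.negSucc (nat_lit 114070041),Int.negSucc (nat_lit 163115560),Int.ofNat (nat_lit 37245742),Int.ofNat (nat_lit 30106708),Int.ofNat (nat_lit 24613672),Int.ofNat (nat_lit 9448002),Int.ofNat (nat_lit 8274203),Int.negSucc (nat_lit 136454360),Int.ofNat (nat_lit 16097775),Int.negSucc (nat_lit 61165478),Int.negSucc (nat_lit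 7208410),Int.negSucc (nat_lit 6887887),Int.negSucc (nat_lit 23057253),Int.ofNat (nat_lit 1695091),Int.negSucc (nat_lit 5360845),Int.ofNat (nat_lit 13305236),Int.ofNat (nat_lit 14898154),Int.ofNat (nat_lit 8970377),Int.negSucc (nat_lit 42155603),Int.negSucc (nat_lit 17154247),Int.ofNat (nat_lit 35127464),Int.negSucc (nat_lit 612555),Int.negSucc (nat_lit 10861290),Int.ofNat (nat_lit 19272317),Int.ofNat (nat_lit 21033292),Int.negSucc (nat_lit 7586586),Int.ofNat (nat_lit 10331448),Int.ofNat (nat_lit 66840104),Int.ofNat (nat_lit 12374505),Int.ofNat (nat_lit 4291574),Int.ofNat (nat_lit 25396934),Int.negSucc (nat_lit 8401876),Int.negSucc (nat_lit 7747574),Int.ofNat (nat_lit 45665945),Int.negSucc (nat_lit 25462851),Int.negSucc (nat_lit 22519297),Int.ofNat (nat_lit 4737674),Int.negSucc (nat_lit 31140337),Int.negSucc (nat_lit 2156438),Int.ofNat (nat_lit 15110906),Int.ofNat (nat_lit 11088886),Int.ofNat (nat_lit 9921798),Int.ofNat (nat_lit 19166911),Int.negSucc (nat_lit 16103413),Int.ofNat (nat_lit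 15463993),Int.ofNat (nat_lit 30326203),Int.negSucc (nat_lit 4652956),Int.ofNat (nat_lit 16956294),Int.ofNat (nat_lit 2856301),Int.ofNat (nat_lit 25736067),Int.negSucc (nat_lit 41704459),Int.negSucc (nat_lit 19830474),Int.ofNat (nat_lit 20909112),Int.ofNat (nat_lit 31330381),Int.ofNat (nat_lit 11108187),Int.negSucc (nat_lit 20208492),Int.negSucc (nat_lit 3358789),Int.ofNat (nat_lit 18626647),Int.ofNat (nat_lit 11149510),Int.negSucc (nat_lit 23521983),Int.ofNat (nat_lit 22675963),Int.ofNat (nat_lit 15215014),Int.ofNat (nat_lit 10244383),Int.negSucc (nat_lit 26418970),Int.negSucc (nat_lit 18302037),Int.negSucc (nat_lit 15095085),Int.ofNat (nat_lit 13530552),Int.negSucc (nat_lit 19754546),Int.ofNat (nat_lit 13422107),Int.ofNat (nat_lit 5524546),Int.ofNat (nat_lit 55297911),Int.ofNat (nat_lit 1001783),Int.ofNat (nat_lit 7660839),Int.ofNat (nat_lit 16029196),Int.negSucc (nat_lit 43664978),Int.ofNat (nat_lit 1350626),Int.negSucc (nat_lit 14733537),Int.ofNat (nat_lit 4911779),Int.ofNat (nat_lit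 12975150),Int.ofNat (nat_lit 32849554),Int.ofNat (nat_lit 1460351),Int.negSucc (nat_lit 10056016),Int.ofNat (nat_lit 2456335),Int.negSucc (nat_lit 8040987),Int.ofNat (nat_lit 14183349),Int.ofNat (nat_lit 18493594),Int.negSucc (nat_lit 13192344),Int.ofNat (nat_lit 26808614),Int.negSucc (nat_lit 9933702),Int.ofNat (nat_lit 61518487),Int.ofNat (nat_lit 1229453),Int.ofNat (nat_lit 7378534),Int.negSucc (nat_lit 50804575),Int.negSucc (nat_lit 15892006),Int.ofNat (nat_lit 1033819),Int.negSucc (nat_lit 11795186),Int.ofNat (nat_lit 2565007),Int.ofNat (nat_lit 12464067),Int.ofNat (nat_lit 15928949),Int.negSucc (nat_lit 12315840),Int.negSucc (nat_lit 16878934),Int.negSucc (nat_lit 5483632),Int.negSucc (nat_lit 9041342),Int.ofNat (nat_lit 13138660),Int.ofNat (nat_lit 15865831),Int.negSucc (nat_lit 13711503),Int.ofNat (nat_lit 1225768),Int.ofNat (nat_lit 26087222),Int.negSucc (nat_lit 23379531),Int.negSucc (nat_lit 16269145),Int.ofNat (nat_lit 20244862),Int.negSucc (nat_lit 30103025),Int.ofNat (nat_lit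 5727724),Int.ofNat (nat_lit 2869829),Int.negSucc (nat_lit 480447),Int.ofNat (nat_lit 33641526),Int.negSucc (nat_lit 23069894),Int.negSucc (nat_lit 4945416),Int.negSucc (nat_lit 13055206),Int.ofNat (nat_lit 3255307),Int.negSucc (nat_lit 10603340),Int.ofNat (nat_lit 19438624),Int.negSucc (nat_lit 5663418),Int.negSucc (nat_lit 65727719),Int.negSucc (nat_lit 65577319),Int.ofNat (nat_lit 82519123),Int.ofNat (nat_lit 52502177),Int.ofNat (nat_lit 215859760)])

/-- A row. -/
noncomputable def sr7_c3_5 : List ℕ × List ℤ :=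
  ([(nat_lit 0),(nat_lit 0),(nat_lit 0),(nat_lit 2),(nat_lit 0),(nat_lit 0),(nat_lit 0),(nat_lit 0),(nat_lit 0),(nat_lit 0),(nat_lit 0),(nat_lit 0)], [Int.negSucc (nat_lit 264036878),Int.negSucc (nat_lit 295024724),Int.negSucc (nat_lit 606701623),Int.ofNat (nat_lit 220060860),Int.negSucc (nat_lit 394248075),Int.ofNat (nat_lit 120580344),Int.ofNat (nat_lit 207592337),Int.ofNat (nat_lit 87885650),Int.negSucc (nat_lit 178225275),Int.negSucc (nat_lit 47078876),Int.ofNat (nat_lit 65116851),Int.ofNat (nat_lit 33273923),Int.negSucc (nat_lit 28891728),Int.negSucc (nat_lit 94742702),Int.negSucc (nat_lit 1649138),Int.negSucc (nat_lit 68896734),Int.ofNat (nat_lit 116428008),Int.ofNat (nat_lit 99860480),Int.ofNat (nat_lit 129209879),Int.negSucc (nat_lit 2095863),Int.negSucc (nat_lit 4233943),Int.ofNat (nat_lit 25820744),Int.ofNat (nat_lit 62296055),Int.negSucc (nat_lit 54788079),Int.ofNat (nat_lit 85069353),Int.ofNat (nat_lit 31294774),Int.negSucc (nat_lit 3869005),Int.ofNat (nat_lit 44349218),Int.negSucc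 (nat_lit 104670457),Int.ofNat (nat_lit 6628589),Int.ofNat (nat_lit 47871886),Int.negSucc (nat_lit 66525318),Int.ofNat (nat_lit 68827574),Int.ofNat (nat_lit 186571132),Int.negSucc (nat_lit 44934161),Int.ofNat (nat_lit 8134930),Int.ofNat (nat_lit 32439422),Int.negSucc (nat_lit 39741612),Int.ofNat (nat_lit 55936926),Int.ofNat (nat_lit 14444987),Int.negSucc (nat_lit 29311204),Int.ofNat (nat_lit 25968129),Int.negSucc (nat_lit 25957238),Int.ofNat (nat_lit 132627187),Int.negSucc (nat_lit 66185147),Int.ofNat (nat_lit 12858099),Int.ofNat (nat_lit 49853967),Int.ofNat (nat_lit 6905502),Int.ofNat (nat_lit 18518618),Int.negSucc (nat_lit 42238569),Int.negSucc (nat_lit 24047287),Int.ofNat (nat_lit 77938123),Int.ofNat (nat_lit 179300919),Int.negSucc (nat_lit 23273301),Int.ofNat (nat_lit 10695046),Int.ofNat (nat_lit 10965748),Int.ofNat (nat_lit 13400332),Int.negSucc (nat_lit 10725566),Int.ofNat (nat_lit 114251754),Int.negSucc (nat_lit 136095235),Int.ofNat (nat_lit 55227322),Int.negSucc (nat_lit 8385000),Int.negSucc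 (nat_lit 25028812),Int.ofNat (nat_lit 106047096),Int.ofNat (nat_lit 21940411),Int.ofNat (nat_lit 53879692),Int.ofNat (nat_lit 6162715),Int.negSucc (nat_lit 46445122),Int.negSucc (nat_lit 11929258),Int.negSucc (nat_lit 46121141),Int.ofNat (nat_lit 90537187),Int.negSucc (nat_lit 74066688),Int.ofNat (nat_lit 16234208),Int.ofNat (nat_lit 9013421),Int.negSucc (nat_lit 53373730),Int.negSucc (nat_lit 101056566),Int.negSucc (nat_lit 11050764),Int.ofNat (nat_lit 9865642),Int.negSucc (nat_lit 43276962),Int.negSucc (nat_lit 77098821),Int.negSucc (nat_lit 24644542),Int.negSucc (nat_lit 42388325),Int.ofNat (nat_lit 32490424),Int.ofNat (nat_lit 10612391),Int.negSucc (nat_lit 55806007),Int.ofNat (nat_lit 49041721),Int.ofNat (nat_lit 343023),Int.negSucc (nat_lit 13902514),Int.ofNat (nat_lit 52838065),Int.ofNat (nat_lit 11483428),Int.ofNat (nat_lit 9677339),Int.negSucc (nat_lit 76031279),Int.negSucc (nat_lit 26685831),Int.negSucc (nat_lit 29506468),Int.negSucc (nat_lit 5888888),Int.negSucc (nat_lit 12544911),Int.negSucc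 (nat_lit 32299013),Int.negSucc (nat_lit 11589551),Int.negSucc (nat_lit 23356062),Int.ofNat (nat_lit 742228),Int.negSucc (nat_lit 72561864),Int.ofNat (nat_lit 5525391),Int.negSucc (nat_lit 4155295),Int.ofNat (nat_lit 32203635),Int.negSucc (nat_lit 24952430),Int.ofNat (nat_lit 12187373),Int.ofNat (nat_lit 30720642),Int.ofNat (nat_lit 20331914),Int.negSucc (nat_lit 33448747),Int.negSucc (nat_lit 15349171),Int.ofNat (nat_lit 18706185),Int.negSucc (nat_lit 43019964),Int.negSucc (nat_lit 20731199),Int.negSucc (nat_lit 3191001),Int.ofNat (nat_lit 13357106),Int.ofNat (nat_lit 28221031),Int.ofNat (nat_lit 17007439),Int.negSucc (nat_lit 19580943),Int.ofNat (nat_lit 2601510),Int.negSucc (nat_lit 7004732),Int.negSucc (nat_lit 7531757),Int.negSucc (nat_lit 74265448),Int.ofNat (nat_lit 3300025),Int.negSucc (nat_lit 558592),Int.ofNat (nat_lit 226093),Int.ofNat (nat_lit 44241681),Int.negSucc (nat_lit 19496328),Int.ofNat (nat_lit 33685407),Int.negSucc (nat_lit 8757965),Int.ofNat (nat_lit 18473658),Int.negSucc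 (nat_lit 45503310),Int.ofNat (nat_lit 5331748),Int.negSucc (nat_lit 19410441),Int.ofNat (nat_lit 22048737),Int.negSucc (nat_lit 17114502),Int.negSucc (nat_lit 20621620),Int.negSucc (nat_lit 21741062),Int.ofNat (nat_lit 12647318),Int.negSucc (nat_lit 36392024),Int.negSucc (nat_lit 11012422),Int.negSucc (nat_lit 107732110),Int.ofNat (nat_lit 19254867),Int.ofNat (nat_lit 17360709),Int.ofNat (nat_lit 35106237),Int.ofNat (nat_lit 3267877),Int.negSucc (nat_lit 44466878),Int.negSucc (nat_lit 5481485),Int.negSucc (nat_lit 39584600),Int.negSucc (nat_lit 4289713),Int.ofNat (nat_lit 2682370),Int.ofNat (nat_lit 23081302),Int.ofNat (nat_lit 36507907),Int.ofNat (nat_lit 16798189),Int.ofNat (nat_lit 28947197),Int.negSucc (nat_lit 33722219),Int.negSucc (nat_lit 2452674),Int.negSucc (nat_lit 9926915),Int.ofNat (nat_lit 17855050),Int.ofNat (nat_lit 10996103),Int.ofNat (nat_lit 43329716),Int.ofNat (nat_lit 22829704),Int.negSucc (nat_lit 26302114),Int.ofNat (nat_lit 55122449),Int.negSucc (nat_lit 29301440),Int.negSucc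 (nat_lit 16772337),Int.ofNat (nat_lit 21008225),Int.negSucc (nat_lit 39487900),Int.ofNat (nat_lit 11365037),Int.ofNat (nat_lit 9521397),Int.negSucc (nat_lit 1097351),Int.ofNat (nat_lit 5055790),Int.ofNat (nat_lit 21700171),Int.negSucc (nat_lit 19488382),Int.ofNat (nat_lit 5274045),Int.negSucc (nat_lit 1966718),Int.ofNat (nat_lit 26410022),Int.negSucc (nat_lit 231319275),Int.ofNat (nat_lit 42322844),Int.negSucc (nat_lit 163839319),Int.ofNat (nat_lit 387904601)])

/-- A row. -/
noncomputable def sr7_c3_6 : List ℕ × List ℤ :=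
  ([(nat_lit 0),(nat_lit 0),(nat_lit 1),(nat_lit 0),(nat_lit 0),(nat_lit 0),(nat_lit 0),(nat_lit 0),(nat_lit 0),(nat_lit 0),(nat_lit 0),(nat_lit 0)], [Int.negSucc (nat_lit 527499784),Int.negSucc (nat_lit 274150981),Int.negSucc (nat_lit 61048661),Int.negSucc (nat_lit 808393792),Int.ofNat (nat_lit 213211187),Int.ofNat (nat_lit 593849176),Int.ofNat (nat_lit 159951625),Int.negSucc (nat_lit 255855501),Int.ofNat (nat_lit 186860871),Int.negSucc (nat_lit 68752180),Int.negSucc (nat_lit 23264138),Int.negSucc (nat_lit 32207422),Int.ofNat (nat_lit 118884687),Int.ofNat (nat_lit 86524770),Int.ofNat (nat_lit 185151467),Int.negSucc (nat_lit 224106299),Int.ofNat (nat_lit 160381814),Int.ofNat (nat_lit 82519055),Int.ofNat (nat_lit 68808612),Int.ofNat (nat_lit 100042850),Int.negSucc (nat_lit 117482528),Int.ofNat (nat_lit 47930659),Int.ofNat (nat_lit 183892331),Int.negSucc (nat_lit 58012693),Int.negSucc (nat_lit 15999496),Int.ofNat (nat_lit 156357458),Int.ofNat (nat_lit 96406724),Int.negSucc (nat_lit 17974067),Int.ofNat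 (nat_lit 17697822),Int.ofNat (nat_lit 95128343),Int.ofNat (nat_lit 27972267),Int.ofNat (nat_lit 19980501),Int.negSucc (nat_lit 85256224),Int.negSucc (nat_lit 112120621),Int.ofNat (nat_lit 224958889),Int.ofNat (nat_lit 289115173),Int.negSucc (nat_lit 204539751),Int.ofNat (nat_lit 60710315),Int.ofNat (nat_lit 104666959),Int.ofNat (nat_lit 18532760),Int.negSucc (nat_lit 156441821),Int.ofNat (nat_lit 9353584),Int.ofNat (nat_lit 17318596),Int.ofNat (nat_lit 74825929),Int.negSucc (nat_lit 18559962),Int.ofNat (nat_lit 31032854),Int.ofNat (nat_lit 81551842),Int.ofNat (nat_lit 111117491),Int.ofNat (nat_lit 27433806),Int.ofNat (nat_lit 39731799),Int.negSucc (nat_lit 81034974),Int.ofNat (nat_lit 72063055),Int.negSucc (nat_lit 104611115),Int.ofNat (nat_lit 80406059),Int.ofNat (nat_lit 26627492),Int.ofNat (nat_lit 96525613),Int.negSucc (nat_lit 19017491),Int.negSucc (nat_lit 17504534),Int.ofNat (nat_lit 172611110),Int.ofNat (nat_lit 44285785),Int.ofNat (nat_lit 21346952),Int.negSucc (nat_lit 6828994),Int.negSucc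 (nat_lit 9080569),Int.negSucc (nat_lit 28162790),Int.negSucc (nat_lit 12367332),Int.negSucc (nat_lit 61368323),Int.negSucc (nat_lit 5774438),Int.negSucc (nat_lit 88416765),Int.ofNat (nat_lit 76359146),Int.ofNat (nat_lit 92617366),Int.ofNat (nat_lit 15359157),Int.negSucc (nat_lit 373611673),Int.negSucc (nat_lit 32354593),Int.ofNat (nat_lit 33397443),Int.ofNat (nat_lit 20660604),Int.negSucc (nat_lit 53519572),Int.ofNat (nat_lit 114489655),Int.ofNat (nat_lit 19090744),Int.negSucc (nat_lit 125374074),Int.negSucc (nat_lit 118632645),Int.negSucc (nat_lit 34126159),Int.negSucc (nat_lit 166868459),Int.ofNat (nat_lit 156083993),Int.negSucc (nat_lit 3051928),Int.negSucc (nat_lit 129403437),Int.ofNat (nat_lit 112169228),Int.ofNat (nat_lit 41898022),Int.ofNat (nat_lit 15869424),Int.ofNat (nat_lit 49893809),Int.negSucc (nat_lit 23901798),Int.ofNat (nat_lit 54369981),Int.negSucc (nat_lit 121757939),Int.negSucc (nat_lit 32147538),Int.negSucc (nat_lit 56550096),Int.ofNat (nat_lit 49136925),Int.negSucc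 (nat_lit 44176802),Int.negSucc (nat_lit 62868676),Int.negSucc (nat_lit 32832625),Int.negSucc (nat_lit 76914659),Int.ofNat (nat_lit 6704154),Int.negSucc (nat_lit 141077730),Int.ofNat (nat_lit 94508197),Int.ofNat (nat_lit 68512737),Int.negSucc (nat_lit 18402857),Int.ofNat (nat_lit 1150531),Int.ofNat (nat_lit 26915774),Int.ofNat (nat_lit 13875708),Int.negSucc (nat_lit 33753312),Int.ofNat (nat_lit 12424600),Int.ofNat (nat_lit 11333501),Int.ofNat (nat_lit 37127208),Int.negSucc (nat_lit 16214213),Int.negSucc (nat_lit 111421875),Int.ofNat (nat_lit 6581502),Int.ofNat (nat_lit 101703771),Int.ofNat (nat_lit 44734227),Int.ofNat (nat_lit 14416100),Int.negSucc (nat_lit 20356001),Int.negSucc (nat_lit 164056785),Int.ofNat (nat_lit 41761269),Int.negSucc (nat_lit 29597646),Int.negSucc (nat_lit 137034922),Int.negSucc (nat_lit 71537791),Int.negSucc (nat_lit 56212275),Int.ofNat (nat_lit 9279706),Int.ofNat (nat_lit 41201889),Int.negSucc (nat_lit 6386694),Int.ofNat (nat_lit 53984562),Int.negSucc (nat_lit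 41236567),Int.ofNat (nat_lit 9125241),Int.negSucc (nat_lit 31910375),Int.negSucc (nat_lit 1955312),Int.ofNat (nat_lit 22051677),Int.negSucc (nat_lit 14809708),Int.negSucc (nat_lit 16120559),Int.negSucc (nat_lit 1620109),Int.negSucc (nat_lit 20534723),Int.ofNat (nat_lit 13338729),Int.ofNat (nat_lit 12589003),Int.ofNat (nat_lit 77384313),Int.negSucc (nat_lit 163015087),Int.negSucc (nat_lit 45096348),Int.negSucc (nat_lit 21874720),Int.ofNat (nat_lit 102881485),Int.negSucc (nat_lit 18922055),Int.ofNat (nat_lit 2728275),Int.negSucc (nat_lit 43469620),Int.negSucc (nat_lit 5838662),Int.negSucc (nat_lit 59088821),Int.ofNat (nat_lit 9034892),Int.ofNat (nat_lit 66798402),Int.ofNat (nat_lit 56977479),Int.ofNat (nat_lit 53120277),Int.ofNat (nat_lit 9530500),Int.negSucc (nat_lit 43345666),Int.negSucc (nat_lit 35098436),Int.negSucc (nat_lit 5245119),Int.negSucc (nat_lit 19861039),Int.ofNat (nat_lit 15199410),Int.negSucc (nat_lit 19713949),Int.ofNat (nat_lit 9405204),Int.ofNat (nat_lit 15273505),Int.ofNat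 (nat_lit 18272046),Int.ofNat (nat_lit 13329828),Int.ofNat (nat_lit 13412554),Int.ofNat (nat_lit 36145652),Int.negSucc (nat_lit 10965591),Int.ofNat (nat_lit 40280525),Int.ofNat (nat_lit 2260753),Int.negSucc (nat_lit 23050290),Int.ofNat (nat_lit 4682665),Int.ofNat (nat_lit 1652786),Int.ofNat (nat_lit 22364377),Int.negSucc (nat_lit 12458270),Int.ofNat (nat_lit 635624170),Int.ofNat (nat_lit 101001460),Int.negSucc (nat_lit 201643730),Int.ofNat (nat_lit 262425430),Int.negSucc (nat_lit 46240218),Int.ofNat (nat_lit 128985798),Int.ofNat (nat_lit 377359944)])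

/-- A row. -/
noncomputable def sr7_c3_7 : List ℕ × List ℤ :=
  ([(nat_lit 0),(nat_lit 0),(nat_lit 1),(nat_lit 0),(nat_lit 1),(nat_lit 0),(nat_lit 0),(nat_lit 0),(nat_lit 0),(nat_lit 0),(nat_lit 0),(nat_lit 0)], [Int.ofNat (nat_lit 46342062),Int.ofNat (nat_lit 27965678),Int.ofNat (nat_lit 27504743),Int.ofNat (nat_lit 62836462),Int.negSucc (nat_lit 135398896),Int.negSucc (nat_lit 102609657),Int.negSucc (nat_lit 73824524),Int.ofNat (nat_lit 69804404),Int.negSucc (nat_lit 50469646),Int.ofNat (nat_lit 17793750),Int.ofNat (nat_lit 9532873),Int.negSucc (nat_lit 65312459),Int.negSucc (nat_lit 56285820),Int.negSucc (nat_lit 54769659),Int.ofNat (nat_lit 15783565),Int.ofNat (nat_lit 46788987),Int.negSucc (nat_lit 39116835),Int.negSucc (nat_lit 94733551),Int.negSucc (nat_lit 33425710),Int.negSucc (nat_lit 26729458),Int.negSucc (nat_lit 35683238),Int.negSucc (nat_lit 17914612),Int.negSucc (nat_lit 22250568),Int.negSucc (nat_lit 5006458),Int.ofNat (nat_lit 8223443),Int.negSucc (nat_lit 17808256),Int.negSucc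 (nat_lit 25563111),Int.ofNat (nat_lit 29590046),Int.negSucc (nat_lit 12399631),Int.negSucc (nat_lit 24162617),Int.ofNat (nat_lit 5692529),Int.negSucc (nat_lit 30812806),Int.ofNat (nat_lit 6604587),Int.ofNat (nat_lit 46045401),Int.negSucc (nat_lit 10277653),Int.negSucc (nat_lit 13649462),Int.ofNat (nat_lit 28920922),Int.ofNat (nat_lit 31044839),Int.negSucc (nat_lit 16210188),Int.negSucc (nat_lit 16620645),Int.ofNat (nat_lit 8159195),Int.negSucc (nat_lit 389166),Int.ofNat (nat_lit 30439638),Int.negSucc (nat_lit 28275456),Int.ofNat (nat_lit 13004502),Int.ofNat (nat_lit 1123352),Int.negSucc (nat_lit 34041038),Int.negSucc (nat_lit 24365346),Int.ofNat (nat_lit 9237762),Int.negSucc (nat_lit 23592324),Int.ofNat (nat_lit 67047320),Int.negSucc (nat_lit 4440697),Int.ofNat (nat_lit 20030585),Int.ofNat (nat_lit 10817106),Int.negSucc (nat_lit 30687989),Int.negSucc (nat_lit 1826563),Int.ofNat (nat_lit 12544274),Int.negSucc (nat_lit 1423052),Int.negSucc (nat_lit 5203067),Int.ofNat (nat_lit 20040122),Int.ofNat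 (nat_lit 2767434),Int.ofNat (nat_lit 33103287),Int.negSucc (nat_lit 7376262),Int.ofNat (nat_lit 7044270),Int.negSucc (nat_lit 5903350),Int.negSucc (nat_lit 7947741),Int.ofNat (nat_lit 8785781),Int.ofNat (nat_lit 9988934),Int.negSucc (nat_lit 15176297),Int.negSucc (nat_lit 31257949),Int.negSucc (nat_lit 10749910),Int.ofNat (nat_lit 31891612),Int.negSucc (nat_lit 8364846),Int.negSucc (nat_lit 25936235),Int.ofNat (nat_lit 14265566),Int.ofNat (nat_lit 21264919),Int.ofNat (nat_lit 2715986),Int.negSucc (nat_lit 10398712),Int.ofNat (nat_lit 42096422),Int.ofNat (nat_lit 21525907),Int.negSucc (nat_lit 7579231),Int.ofNat (nat_lit 23035372),Int.negSucc (nat_lit 11786631),Int.negSucc (nat_lit 146604),Int.ofNat (nat_lit 23395804),Int.negSucc (nat_lit 31830562),Int.negSucc (nat_lit 11616032),Int.ofNat (nat_lit 1629164),Int.negSucc (nat_lit 13428747),Int.ofNat (nat_lit 5803319),Int.ofNat (nat_lit 13052176),Int.ofNat (nat_lit 10814542),Int.ofNat (nat_lit 14549757),Int.ofNat (nat_lit 24321810),Int.negSucc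 (nat_lit 13874452),Int.ofNat (nat_lit 13801831),Int.ofNat (nat_lit 13434582),Int.negSucc (nat_lit 3106981),Int.ofNat (nat_lit 15877517),Int.ofNat (nat_lit 9830608),Int.ofNat (nat_lit 26717672),Int.negSucc (nat_lit 25415273),Int.negSucc (nat_lit 8052364),Int.ofNat (nat_lit 23485010),Int.ofNat (nat_lit 8185119),Int.ofNat (nat_lit 9381349),Int.negSucc (nat_lit 19599385),Int.ofNat (nat_lit 4221784),Int.ofNat (nat_lit 17816704),Int.ofNat (nat_lit 15892726),Int.negSucc (nat_lit 3939845),Int.ofNat (nat_lit 8965574),Int.ofNat (nat_lit 17576816),Int.ofNat (nat_lit 19367464),Int.negSucc (nat_lit 21548590),Int.negSucc (nat_lit 2830845),Int.negSucc (nat_lit 13109949),Int.ofNat (nat_lit 8078389),Int.negSucc (nat_lit 5255569),Int.ofNat (nat_lit 17582655),Int.negSucc (nat_lit 10820432),Int.ofNat (nat_lit 38597405),Int.negSucc (nat_lit 6833984),Int.ofNat (nat_lit 27742499),Int.ofNat (nat_lit 20605323),Int.negSucc (nat_lit 13061780),Int.negSucc (nat_lit 3626869),Int.negSucc (nat_lit 15859927),Int.ofNat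 (nat_lit 11939837),Int.ofNat (nat_lit 10668724),Int.negSucc (nat_lit 259134),Int.negSucc (nat_lit 24011430),Int.negSucc (nat_lit 3655995),Int.ofNat (nat_lit 9781378),Int.negSucc (nat_lit 7636359),Int.negSucc (nat_lit 422620),Int.ofNat (nat_lit 11908694),Int.negSucc (nat_lit 11751743),Int.ofNat (nat_lit 6710685),Int.negSucc (nat_lit 12489493),Int.ofNat (nat_lit 48918752),Int.ofNat (nat_lit 10525138),Int.negSucc (nat_lit 6859070),Int.negSucc (nat_lit 32955342),Int.ofNat (nat_lit 3932418),Int.ofNat (nat_lit 1394088),Int.negSucc (nat_lit 8158970),Int.ofNat (nat_lit 2904765),Int.ofNat (nat_lit 4847713),Int.ofNat (nat_lit 5927915),Int.negSucc (nat_lit 10209633),Int.negSucc (nat_lit 15407357),Int.ofNat (nat_lit 402429),Int.negSucc (nat_lit 8840697),Int.ofNat (nat_lit 9691450),Int.ofNat (nat_lit 9237092),Int.negSucc (nat_lit 2072024),Int.ofNat (nat_lit 16071141),Int.negSucc (nat_lit 783676),Int.negSucc (nat_lit 2068481),Int.negSucc (nat_lit 14451073),Int.ofNat (nat_lit 5857761),Int.negSucc (nat_lit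 18752292),Int.ofNat (nat_lit 5954105),Int.negSucc (nat_lit 1148989),Int.ofNat (nat_lit 3406669),Int.ofNat (nat_lit 22959280),Int.negSucc (nat_lit 5330913),Int.negSucc (nat_lit 1784581),Int.ofNat (nat_lit 2614537),Int.ofNat (nat_lit 7400441),Int.ofNat (nat_lit 2653126),Int.ofNat (nat_lit 3867703),Int.ofNat (nat_lit 1024907),Int.negSucc (nat_lit 61422722),Int.negSucc (nat_lit 28570144),Int.ofNat (nat_lit 75026299),Int.ofNat (nat_lit 62558608),Int.ofNat (nat_lit 65856192),Int.negSucc (nat_lit 15752230),Int.negSucc (nat_lit 52405481),Int.ofNat (nat_lit 131184975)])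

/-- A row. -/
noncomputable def sr7_c3_8 : List ℕ × List ℤ :=
  ([(nat_lit 0),(nat_lit 0),(nat_lit 2),(nat_lit 0),(nat_lit 0),(nat_lit 0),(nat_lit 0),(nat_lit 0),(nat_lit 0),(nat_lit 0),(nat_lit 0),(nat_lit 0)], [Int.negSucc (nat_lit 572962294),Int.negSucc (nat_lit 217917108),Int.negSucc (nat_lit 287883662),Int.negSucc (nat_lit 444370248),Int.ofNat (nat_lit 67904292),Int.ofNat (nat_lit 537227847),Int.ofNat (nat_lit 76893112),Int.negSucc (nat_lit 262531585),Int.negSucc (nat_lit 8027984),Int.ofNat (nat_lit 42781016),Int.negSucc (nat_lit 66699357),Int.negSucc (nat_lit 87847243),Int.ofNat (nat_lit 68824301),Int.ofNat (nat_lit 16374996),Int.ofNat (nat_lit 132648330),Int.negSucc (nat_lit 186250372),Int.ofNat (nat_lit 89756704),Int.ofNat (nat_lit 11970367),Int.ofNat (nat_lit 62647077),Int.ofNat (nat_lit 141007704),Int.negSucc (nat_lit 99432196),Int.ofNat (nat_lit 78907538),Int.ofNat (nat_lit 158189502),Int.negSucc (nat_lit 29537469),Int.ofNat (nat_lit 25113031),Int.ofNat (nat_lit 110159694),Int.ofNat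 (nat_lit 39169104),Int.negSucc (nat_lit 31007029),Int.ofNat (nat_lit 10294826),Int.ofNat (nat_lit 82197737),Int.ofNat (nat_lit 33846714),Int.ofNat (nat_lit 3981485),Int.negSucc (nat_lit 142203446),Int.negSucc (nat_lit 45179145),Int.ofNat (nat_lit 183296265),Int.ofNat (nat_lit 152494189),Int.negSucc (nat_lit 137488456),Int.ofNat (nat_lit 35666035),Int.ofNat (nat_lit 88574325),Int.ofNat (nat_lit 72155758),Int.negSucc (nat_lit 87183831),Int.negSucc (nat_lit 20348646),Int.negSucc (nat_lit 19187701),Int.ofNat (nat_lit 47645930),Int.negSucc (nat_lit 28625037),Int.ofNat (nat_lit 23416526),Int.ofNat (nat_lit 62737540),Int.ofNat (nat_lit 73535958),Int.ofNat (nat_lit 17543779),Int.ofNat (nat_lit 57524980),Int.negSucc (nat_lit 54019616),Int.ofNat (nat_lit 77575308),Int.negSucc (nat_lit 119505146),Int.ofNat (nat_lit 72781645),Int.ofNat (nat_lit 46209698),Int.ofNat (nat_lit 91169009),Int.negSucc (nat_lit 18133634),Int.ofNat (nat_lit 2624938),Int.ofNat (nat_lit 150326865),Int.negSucc (nat_lit 1568577),Int.ofNat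 (nat_lit 9062234),Int.negSucc (nat_lit 24763417),Int.negSucc (nat_lit 5180612),Int.ofNat (nat_lit 8640875),Int.negSucc (nat_lit 10164977),Int.ofNat (nat_lit 3594533),Int.ofNat (nat_lit 15626525),Int.negSucc (nat_lit 78007102),Int.ofNat (nat_lit 74286478),Int.ofNat (nat_lit 707534),Int.negSucc (nat_lit 24991724),Int.negSucc (nat_lit 180950746),Int.negSucc (nat_lit 37549617),Int.ofNat (nat_lit 54357819),Int.negSucc (nat_lit 2681724),Int.negSucc (nat_lit 53545245),Int.negSucc (nat_lit 27243505),Int.ofNat (nat_lit 86006220),Int.negSucc (nat_lit 125957119),Int.negSucc (nat_lit 91075140),Int.ofNat (nat_lit 3159566),Int.negSucc (nat_lit 110901652),Int.ofNat (nat_lit 124738472),Int.ofNat (nat_lit 4811085),Int.negSucc (nat_lit 90637149),Int.ofNat (nat_lit 69593558),Int.ofNat (nat_lit 5164419),Int.ofNat (nat_lit 16397407),Int.ofNat (nat_lit 34134017),Int.ofNat (nat_lit 17984118),Int.ofNat (nat_lit 47415063),Int.negSucc (nat_lit 85933997),Int.negSucc (nat_lit 27565957),Int.negSucc (nat_lit 72856763),Int.ofNat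 (nat_lit 35236296),Int.negSucc (nat_lit 20763692),Int.negSucc (nat_lit 27130021),Int.negSucc (nat_lit 32847419),Int.negSucc (nat_lit 55382036),Int.negSucc (nat_lit 8799405),Int.negSucc (nat_lit 141262070),Int.ofNat (nat_lit 75450750),Int.ofNat (nat_lit 14849678),Int.negSucc (nat_lit 16497652),Int.ofNat (nat_lit 26152770),Int.ofNat (nat_lit 9974112),Int.ofNat (nat_lit 23455537),Int.negSucc (nat_lit 6205541),Int.ofNat (nat_lit 5740802),Int.ofNat (nat_lit 1846326),Int.ofNat (nat_lit 15386320),Int.negSucc (nat_lit 26463026),Int.negSucc (nat_lit 81396971),Int.ofNat (nat_lit 4626595),Int.ofNat (nat_lit 47146619),Int.ofNat (nat_lit 24371454),Int.ofNat (nat_lit 21686136),Int.negSucc (nat_lit 9671293),Int.negSucc (nat_lit 96849459),Int.ofNat (nat_lit 32327598),Int.negSucc (nat_lit 30641497),Int.negSucc (nat_lit 70205734),Int.negSucc (nat_lit 32356264),Int.negSucc (nat_lit 39262694),Int.ofNat (nat_lit 13026356),Int.ofNat (nat_lit 23567236),Int.negSucc (nat_lit 38604218),Int.ofNat (nat_lit 29042050),Int.negSucc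 (nat_lit 28321066),Int.ofNat (nat_lit 13522281),Int.ofNat (nat_lit 6963613),Int.negSucc (nat_lit 14660546),Int.ofNat (nat_lit 17628787),Int.ofNat (nat_lit 5871359),Int.negSucc (nat_lit 28755957),Int.ofNat (nat_lit 6764097),Int.negSucc (nat_lit 24918709),Int.ofNat (nat_lit 9763569),Int.negSucc (nat_lit 4689868),Int.ofNat (nat_lit 51138362),Int.negSucc (nat_lit 129460542),Int.negSucc (nat_lit 273986),Int.negSucc (nat_lit 7659177),Int.ofNat (nat_lit 62535078),Int.negSucc (nat_lit 10449353),Int.ofNat (nat_lit 8132882),Int.negSucc (nat_lit 28458038),Int.negSucc (nat_lit 15381408),Int.negSucc (nat_lit 32320072),Int.ofNat (nat_lit 5269102),Int.ofNat (nat_lit 36374385),Int.ofNat (nat_lit 57194512),Int.ofNat (nat_lit 36446218),Int.ofNat (nat_lit 5054465),Int.negSucc (nat_lit 22869062),Int.negSucc (nat_lit 18452521),Int.negSucc (nat_lit 13244999),Int.negSucc (nat_lit 10816119),Int.ofNat (nat_lit 9630935),Int.negSucc (nat_lit 18659268),Int.ofNat (nat_lit 7936545),Int.ofNat (nat_lit 8885632),Int.ofNat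 (nat_lit 25395616),Int.negSucc (nat_lit 3856949),Int.ofNat (nat_lit 9435410),Int.ofNat (nat_lit 30465691),Int.negSucc (nat_lit 209500),Int.ofNat (nat_lit 21598525),Int.ofNat (nat_lit 9910386),Int.negSucc (nat_lit 10852168),Int.ofNat (nat_lit 1125392),Int.negSucc (nat_lit 6994550),Int.ofNat (nat_lit 8982890),Int.negSucc (nat_lit 7687315),Int.ofNat (nat_lit 230495038),Int.ofNat (nat_lit 102785006),Int.negSucc (nat_lit 181757375),Int.ofNat (nat_lit 231365863),Int.negSucc (nat_lit 49675973),Int.ofNat (nat_lit 122056760),Int.ofNat (nat_lit 373706553),Int.negSucc (nat_lit 1193722),Int.ofNat (nat_lit 74560208)])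

/-- A row. -/
noncomputable def sr7_c3_9 : List ℕ × List ℤ :=
  ([(nat_lit 0),(nat_lit 1),(nat_lit 0),(nat_lit 0),(nat_lit 0),(nat_lit 0),(nat_lit 0),(nat_lit 1),(nat_lit 0),(nat_lit 0),(nat_lit 0),(nat_lit 0)], [Int.negSucc (nat_lit 112976984),Int.ofNat (nat_lit 64664218),Int.negSucc (nat_lit 205440247),Int.ofNat (nat_lit 70620082),Int.negSucc (nat_lit 109307797),Int.ofNat (nat_lit 110516219),Int.ofNat (nat_lit 46267013),Int.negSucc (nat_lit 24923102),Int.ofNat (nat_lit 849924),Int.negSucc (nat_lit 21721276),Int.ofNat (nat_lit 35220994),Int.negSucc (nat_lit 39940098),Int.negSucc (nat_lit 2127273),Int.negSucc (nat_lit 54249898),Int.negSucc (nat_lit 8075148),Int.negSucc (nat_lit 62123859),Int.ofNat (nat_lit 28462416),Int.negSucc (nat_lit 23186594),Int.negSucc (nat_lit 35844685),Int.negSucc (nat_lit 35323497),Int.negSucc (nat_lit 5073990),Int.ofNat (nat_lit 14440501),Int.ofNat (nat_lit 66285554),Int.negSucc (nat_lit 53874803),Int.ofNat (nat_lit 49254216),Int.ofNat (nat_lit 42935130),Int.ofNat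 (nat_lit 8814204),Int.ofNat (nat_lit 13636213),Int.negSucc (nat_lit 93665942),Int.ofNat (nat_lit 35591634),Int.ofNat (nat_lit 27172563),Int.ofNat (nat_lit 22417707),Int.negSucc (nat_lit 6159973),Int.ofNat (nat_lit 48611090),Int.ofNat (nat_lit 59662732),Int.ofNat (nat_lit 18994690),Int.negSucc (nat_lit 10875057),Int.ofNat (nat_lit 44162589),Int.ofNat (nat_lit 33934022),Int.ofNat (nat_lit 17370052),Int.negSucc (nat_lit 28965781),Int.negSucc (nat_lit 17231139),Int.ofNat (nat_lit 37024208),Int.ofNat (nat_lit 38170293),Int.ofNat (nat_lit 10242511),Int.ofNat (nat_lit 20287256),Int.negSucc (nat_lit 1772815),Int.ofNat (nat_lit 492131),Int.ofNat (nat_lit 45482500),Int.negSucc (nat_lit 17698723),Int.negSucc (nat_lit 20815412),Int.ofNat (nat_lit 6541443),Int.ofNat (nat_lit 9236504),Int.ofNat (nat_lit 7274816),Int.negSucc (nat_lit 53487864),Int.negSucc (nat_lit 401456),Int.ofNat (nat_lit 24149658),Int.negSucc (nat_lit 7273298),Int.ofNat (nat_lit 47557359),Int.ofNat (nat_lit 60718395),Int.ofNat (nat_lit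 465233),Int.ofNat (nat_lit 4915694),Int.ofNat (nat_lit 24039257),Int.ofNat (nat_lit 14060161),Int.ofNat (nat_lit 3036493),Int.negSucc (nat_lit 18483819),Int.negSucc (nat_lit 10276006),Int.ofNat (nat_lit 6086019),Int.ofNat (nat_lit 46500453),Int.negSucc (nat_lit 11160106),Int.negSucc (nat_lit 4815112),Int.ofNat (nat_lit 17772493),Int.negSucc (nat_lit 23784764),Int.negSucc (nat_lit 5882586),Int.ofNat (nat_lit 2934797),Int.negSucc (nat_lit 3446813),Int.ofNat (nat_lit 7773302),Int.ofNat (nat_lit 12884672),Int.ofNat (nat_lit 23854682),Int.negSucc (nat_lit 20987178),Int.ofNat (nat_lit 2900996),Int.negSucc (nat_lit 4319474),Int.negSucc (nat_lit 21888229),Int.ofNat (nat_lit 3949964),Int.ofNat (nat_lit 12189916),Int.ofNat (nat_lit 303464),Int.negSucc (nat_lit 43983715),Int.ofNat (nat_lit 28789997),Int.negSucc (nat_lit 4436906),Int.ofNat (nat_lit 2608009),Int.ofNat (nat_lit 10049719),Int.negSucc (nat_lit 21648998),Int.negSucc (nat_lit 20876034),Int.negSucc (nat_lit 7639641),Int.negSucc (nat_lit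 14442221),Int.ofNat (nat_lit 4467347),Int.ofNat (nat_lit 8921065),Int.negSucc (nat_lit 9181614),Int.ofNat (nat_lit 13149863),Int.ofNat (nat_lit 1437348),Int.ofNat (nat_lit 3500767),Int.ofNat (nat_lit 7403524),Int.negSucc (nat_lit 8133743),Int.ofNat (nat_lit 4710516),Int.negSucc (nat_lit 3057976),Int.ofNat (nat_lit 8068717),Int.negSucc (nat_lit 16860625),Int.negSucc (nat_lit 1777783),Int.ofNat (nat_lit 2033353),Int.ofNat (nat_lit 36381067),Int.ofNat (nat_lit 2471689),Int.ofNat (nat_lit 583983),Int.ofNat (nat_lit 19705778),Int.negSucc (nat_lit 10198503),Int.negSucc (nat_lit 4912692),Int.negSucc (nat_lit 5454329),Int.negSucc (nat_lit 5316528),Int.negSucc (nat_lit 10249274),Int.negSucc (nat_lit 11796237),Int.negSucc (nat_lit 14954131),Int.negSucc (nat_lit 20505222),Int.negSucc (nat_lit 7725654),Int.negSucc (nat_lit 8663475),Int.negSucc (nat_lit 8747284),Int.ofNat (nat_lit 11420944),Int.negSucc (nat_lit 9650955),Int.ofNat (nat_lit 299886),Int.negSucc (nat_lit 397113),Int.negSucc (nat_lit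 15216331),Int.negSucc (nat_lit 1682065),Int.negSucc (nat_lit 1601848),Int.negSucc (nat_lit 3835715),Int.ofNat (nat_lit 2951098),Int.ofNat (nat_lit 4556699),Int.negSucc (nat_lit 5717174),Int.negSucc (nat_lit 5061536),Int.negSucc (nat_lit 5705000),Int.negSucc (nat_lit 4576691),Int.ofNat (nat_lit 7678490),Int.negSucc (nat_lit 14499577),Int.ofNat (nat_lit 11609305),Int.ofNat (nat_lit 8804925),Int.ofNat (nat_lit 10146172),Int.negSucc (nat_lit 9023286),Int.ofNat (nat_lit 15084247),Int.negSucc (nat_lit 5185853),Int.negSucc (nat_lit 9031407),Int.negSucc (nat_lit 37570953),Int.negSucc (nat_lit 7089157),Int.negSucc (nat_lit 12842256),Int.negSucc (nat_lit 25493365),Int.negSucc (nat_lit 14246399),Int.negSucc (nat_lit 10899361),Int.ofNat (nat_lit 1353483),Int.negSucc (nat_lit 3477167),Int.ofNat (nat_lit 105366),Int.negSucc (nat_lit 4228565),Int.ofNat (nat_lit 831662),Int.ofNat (nat_lit 16509446),Int.negSucc (nat_lit 6281414),Int.ofNat (nat_lit 21184898),Int.ofNat (nat_lit 9264079),Int.negSucc (nat_lit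 11470530),Int.ofNat (nat_lit 2710041),Int.ofNat (nat_lit 24126681),Int.ofNat (nat_lit 3943771),Int.negSucc (nat_lit 1467646),Int.ofNat (nat_lit 7049325),Int.negSucc (nat_lit 14537543),Int.ofNat (nat_lit 8624887),Int.negSucc (nat_lit 8815241),Int.negSucc (nat_lit 15045921),Int.negSucc (nat_lit 22694115),Int.negSucc (nat_lit 10025238),Int.negSucc (nat_lit 27613416),Int.ofNat (nat_lit 11358109),Int.negSucc (nat_lit 53610189),Int.negSucc (nat_lit 15841583),Int.ofNat (nat_lit 47099743),Int.negSucc (nat_lit 8231860),Int.negSucc (nat_lit 6900255),Int.negSucc (nat_lit 47536),Int.negSucc (nat_lit 15124973),Int.ofNat (nat_lit 189547208)])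

/-- A row. -/
noncomputable def sr7_c3_10 : List ℕ × List ℤ :=
  ([(nat_lit 0),(nat_lit 1),(nat_lit 0),(nat_lit 0),(nat_lit 0),(nat_lit 1),(nat_lit 0),(nat_lit 0),(nat_lit 0),(nat_lit 0),(nat_lit 0),(nat_lit 0)], [Int.ofNat (nat_lit 928362740),Int.negSucc (nat_lit 374458587),Int.negSucc (nat_lit 342093785),Int.negSucc (nat_lit 134827339),Int.negSucc (nat_lit 9792415),Int.negSucc (nat_lit 113637436),Int.ofNat (nat_lit 511961427),Int.ofNat (nat_lit 1198254707),Int.ofNat (nat_lit 25049409),Int.negSucc (nat_lit 581064850),Int.negSucc (nat_lit 98304122),Int.negSucc (nat_lit 100416865),Int.negSucc (nat_lit 124718580),Int.negSucc (nat_lit 473573426),Int.ofNat (nat_lit 41157929),Int.ofNat (nat_lit 147147030),Int.ofNat (nat_lit 271804299),Int.ofNat (nat_lit 67085992),Int.ofNat (nat_lit 167214909),Int.negSucc (nat_lit 103442626),Int.ofNat (nat_lit 274022153),Int.ofNat (nat_lit 102577064),Int.ofNat (nat_lit 213990377),Int.negSucc (nat_lit 13083087),Int.ofNat (nat_lit 204896605),Int.ofNat (nat_lit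 56417308),Int.negSucc (nat_lit 241892670),Int.ofNat (nat_lit 130178742),Int.negSucc (nat_lit 274263983),Int.ofNat (nat_lit 72383028),Int.ofNat (nat_lit 30190627),Int.negSucc (nat_lit 62298403),Int.ofNat (nat_lit 327757367),Int.ofNat (nat_lit 384267618),Int.ofNat (nat_lit 229806329),Int.ofNat (nat_lit 131221629),Int.ofNat (nat_lit 56546386),Int.negSucc (nat_lit 143208740),Int.ofNat (nat_lit 42107721),Int.ofNat (nat_lit 203898286),Int.negSucc (nat_lit 65151601),Int.negSucc (nat_lit 64293316),Int.ofNat (nat_lit 161324580),Int.ofNat (nat_lit 181056116),Int.negSucc (nat_lit 61774017),Int.ofNat (nat_lit 99564500),Int.ofNat (nat_lit 102875779),Int.ofNat (nat_lit 39742694),Int.ofNat (nat_lit 47380973),Int.negSucc (nat_lit 162145523),Int.negSucc (nat_lit 58872949),Int.ofNat (nat_lit 268430744),Int.ofNat (nat_lit 267058063),Int.negSucc (nat_lit 296496675),Int.negSucc (nat_lit 119959242),Int.negSucc (nat_lit 10470674),Int.negSucc (nat_lit 123111820),Int.negSucc (nat_lit 113725374),Int.ofNat (nat_lit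 296639847),Int.negSucc (nat_lit 4895111),Int.ofNat (nat_lit 97205325),Int.ofNat (nat_lit 100657769),Int.ofNat (nat_lit 17064233),Int.ofNat (nat_lit 16480640),Int.negSucc (nat_lit 85835268),Int.ofNat (nat_lit 29944122),Int.negSucc (nat_lit 112403994),Int.ofNat (nat_lit 103549302),Int.ofNat (nat_lit 56016561),Int.ofNat (nat_lit 146339407),Int.negSucc (nat_lit 87722680),Int.negSucc (nat_lit 84742494),Int.negSucc (nat_lit 92553119),Int.negSucc (nat_lit 44020051),Int.negSucc (nat_lit 24571094),Int.negSucc (nat_lit 50538069),Int.ofNat (nat_lit 27105994),Int.negSucc (nat_lit 71622425),Int.negSucc (nat_lit 93972885),Int.negSucc (nat_lit 9049944),Int.negSucc (nat_lit 48869356),Int.negSucc (nat_lit 19798514),Int.negSucc (nat_lit 18293848),Int.negSucc (nat_lit 72188236),Int.negSucc (nat_lit 237672977),Int.ofNat (nat_lit 48940511),Int.ofNat (nat_lit 55970423),Int.ofNat (nat_lit 24850944),Int.ofNat (nat_lit 37358925),Int.ofNat (nat_lit 2813747),Int.negSucc (nat_lit 14605937),Int.negSucc (nat_lit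 111566286),Int.negSucc (nat_lit 33526497),Int.negSucc (nat_lit 5151155),Int.ofNat (nat_lit 14873461),Int.negSucc (nat_lit 78527483),Int.negSucc (nat_lit 40789616),Int.negSucc (nat_lit 35697899),Int.ofNat (nat_lit 10066117),Int.negSucc (nat_lit 39124616),Int.ofNat (nat_lit 71829673),Int.ofNat (nat_lit 171557174),Int.ofNat (nat_lit 65549206),Int.negSucc (nat_lit 80936576),Int.negSucc (nat_lit 88989162),Int.negSucc (nat_lit 6165274),Int.ofNat (nat_lit 40992408),Int.negSucc (nat_lit 35538948),Int.negSucc (nat_lit 29263624),Int.negSucc (nat_lit 19797947),Int.ofNat (nat_lit 115046316),Int.negSucc (nat_lit 25679725),Int.negSucc (nat_lit 64343820),Int.negSucc (nat_lit 32677693),Int.ofNat (nat_lit 66901240),Int.ofNat (nat_lit 34791127),Int.ofNat (nat_lit 30821789),Int.negSucc (nat_lit 49726581),Int.ofNat (nat_lit 13676901),Int.negSucc (nat_lit 61298533),Int.negSucc (nat_lit 58437359),Int.negSucc (nat_lit 118016766),Int.negSucc (nat_lit 33441606),Int.negSucc (nat_lit 52669865),Int.negSucc (nat_lit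 145512889),Int.ofNat (nat_lit 115352916),Int.negSucc (nat_lit 56571324),Int.ofNat (nat_lit 42327292),Int.negSucc (nat_lit 26447960),Int.negSucc (nat_lit 115315850),Int.negSucc (nat_lit 13306874),Int.ofNat (nat_lit 14243552),Int.negSucc (nat_lit 41471611),Int.negSucc (nat_lit 10936872),Int.ofNat (nat_lit 529570),Int.ofNat (nat_lit 9373220),Int.negSucc (nat_lit 53304087),Int.negSucc (nat_lit 2360845),Int.negSucc (nat_lit 94066320),Int.ofNat (nat_lit 19150537),Int.negSucc (nat_lit 101994481),Int.ofNat (nat_lit 113570453),Int.negSucc (nat_lit 60313125),Int.ofNat (nat_lit 80612828),Int.negSucc (nat_lit 25110791),Int.negSucc (nat_lit 5909077),Int.ofNat (nat_lit 34340082),Int.ofNat (nat_lit 28670019),Int.negSucc (nat_lit 170642514),Int.negSucc (nat_lit 17208017),Int.negSucc (nat_lit 6547963),Int.ofNat (nat_lit 10809823),Int.ofNat (nat_lit 34647933),Int.ofNat (nat_lit 58622476),Int.negSucc (nat_lit 17024570),Int.negSucc (nat_lit 31611558),Int.negSucc (nat_lit 9771607),Int.ofNat (nat_lit 30729957),Int.negSucc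 (nat_lit 27456429),Int.ofNat (nat_lit 44438473),Int.ofNat (nat_lit 66958703),Int.negSucc (nat_lit 82736341),Int.ofNat (nat_lit 32075991),Int.ofNat (nat_lit 20571372),Int.negSucc (nat_lit 33532419),Int.negSucc (nat_lit 14807408),Int.negSucc (nat_lit 972495),Int.ofNat (nat_lit 42387486),Int.negSucc (nat_lit 48164897),Int.ofNat (nat_lit 20237746),Int.negSucc (nat_lit 4569526),Int.negSucc (nat_lit 34464307),Int.negSucc (nat_lit 75599222),Int.ofNat (nat_lit 44946811),Int.ofNat (nat_lit 260727790),Int.ofNat (nat_lit 144347984),Int.ofNat (nat_lit 83857092),Int.negSucc (nat_lit 171393565),Int.negSucc (nat_lit 286668073),Int.ofNat (nat_lit 6835127),Int.negSucc (nat_lit 67319162),Int.negSucc (nat_lit 112554983),Int.negSucc (nat_lit 28521859),Int.ofNat (nat_lit 89394124),Int.ofNat (nat_lit 599600315)])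

/-- A row. -/
noncomputable def sr7_c3_11 : List ℕ × List ℤ :=
  ([(nat_lit 0),(nat_lit 1),(nat_lit 0),(nat_lit 1),(nat_lit 0),(nat_lit 0),(nat_lit 0),(nat_lit 0),(nat_lit 0),(nat_lit 0),(nat_lit 0),(nat_lit 0)], [Int.ofNat (nat_lit 740458199),Int.ofNat (nat_lit 887890405),Int.ofNat (nat_lit 788445740),Int.negSucc (nat_lit 1519136302),Int.ofNat (nat_lit 551556292),Int.ofNat (nat_lit 468296309),Int.negSucc (nat_lit 44524321),Int.ofNat (nat_lit 546882803),Int.ofNat (nat_lit 480782191),Int.ofNat (nat_lit 377061069),Int.negSucc (nat_lit 669638592),Int.negSucc (nat_lit 922453403),Int.ofNat (nat_lit 203784135),Int.negSucc (nat_lit 393805672),Int.ofNat (nat_lit 799239131),Int.negSucc (nat_lit 97092386),Int.negSucc (nat_lit 435466905),Int.negSucc (nat_lit 680667796),Int.negSucc (nat_lit 3475993),Int.ofNat (nat_lit 260486471),Int.negSucc (nat_lit 100176073),Int.ofNat (nat_lit 139986913),Int.ofNat (nat_lit 103288905),Int.ofNat (nat_lit 558066270),Int.ofNat (nat_lit 108491474),Int.negSucc (nat_lit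 229032499),Int.negSucc (nat_lit 409669576),Int.negSucc (nat_lit 380716565),Int.ofNat (nat_lit 561919691),Int.negSucc (nat_lit 145982343),Int.negSucc (nat_lit 186797524),Int.ofNat (nat_lit 339089170),Int.negSucc (nat_lit 639389133),Int.negSucc (nat_lit 469858950),Int.ofNat (nat_lit 265405817),Int.ofNat (nat_lit 385810790),Int.negSucc (nat_lit 125559903),Int.ofNat (nat_lit 231379796),Int.negSucc (nat_lit 148566089),Int.ofNat (nat_lit 114877222),Int.negSucc (nat_lit 31466751),Int.ofNat (nat_lit 88777581),Int.negSucc (nat_lit 56597762),Int.negSucc (nat_lit 457536933),Int.ofNat (nat_lit 34741442),Int.ofNat (nat_lit 106304049),Int.negSucc (nat_lit 352077855),Int.ofNat (nat_lit 177202144),Int.negSucc (nat_lit 8255636),Int.ofNat (nat_lit 147585664),Int.ofNat (nat_lit 274720949),Int.ofNat (nat_lit 6086611),Int.negSucc (nat_lit 300309536),Int.ofNat (nat_lit 293314697),Int.ofNat (nat_lit 161727535),Int.ofNat (nat_lit 114833248),Int.ofNat (nat_lit 24276857),Int.negSucc (nat_lit 18570145),Int.negSucc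 (nat_lit 114223300),Int.ofNat (nat_lit 319126707),Int.negSucc (nat_lit 43461534),Int.ofNat (nat_lit 23034369),Int.negSucc (nat_lit 37063349),Int.ofNat (nat_lit 95763675),Int.ofNat (nat_lit 130006852),Int.ofNat (nat_lit 78565506),Int.ofNat (nat_lit 6093263),Int.negSucc (nat_lit 4013714),Int.negSucc (nat_lit 71086705),Int.ofNat (nat_lit 153022597),Int.negSucc (nat_lit 223500121),Int.ofNat (nat_lit 351239683),Int.negSucc (nat_lit 486021),Int.negSucc (nat_lit 8980291),Int.ofNat (nat_lit 71782719),Int.ofNat (nat_lit 233818855),Int.ofNat (nat_lit 58337006),Int.ofNat (nat_lit 40137972),Int.negSucc (nat_lit 99104889),Int.ofNat (nat_lit 211453695),Int.negSucc (nat_lit 21098707),Int.ofNat (nat_lit 110504652),Int.ofNat (nat_lit 4120111),Int.negSucc (nat_lit 48785446),Int.negSucc (nat_lit 85129562),Int.negSucc (nat_lit 369795815),Int.negSucc (nat_lit 241360084),Int.ofNat (nat_lit 46660298),Int.negSucc (nat_lit 11877543),Int.ofNat (nat_lit 86282935),Int.ofNat (nat_lit 3857823),Int.ofNat (nat_lit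 281608881),Int.ofNat (nat_lit 118956863),Int.ofNat (nat_lit 39714588),Int.ofNat (nat_lit 56363383),Int.ofNat (nat_lit 536189),Int.negSucc (nat_lit 75567226),Int.ofNat (nat_lit 131170325),Int.negSucc (nat_lit 78339240),Int.ofNat (nat_lit 7423984),Int.ofNat (nat_lit 219646069),Int.negSucc (nat_lit 46078281),Int.negSucc (nat_lit 23343762),Int.negSucc (nat_lit 79192870),Int.ofNat (nat_lit 97698112),Int.negSucc (nat_lit 141933757),Int.negSucc (nat_lit 86773171),Int.ofNat (nat_lit 15709299),Int.ofNat (nat_lit 39602926),Int.ofNat (nat_lit 66083171),Int.ofNat (nat_lit 30869889),Int.ofNat (nat_lit 66601307),Int.ofNat (nat_lit 113497668),Int.ofNat (nat_lit 118623137),Int.negSucc (nat_lit 111484756),Int.negSucc (nat_lit 40041585),Int.negSucc (nat_lit 56785059),Int.ofNat (nat_lit 69431537),Int.ofNat (nat_lit 46327780),Int.ofNat (nat_lit 200375715),Int.negSucc (nat_lit 53112230),Int.ofNat (nat_lit 366914612),Int.ofNat (nat_lit 59350745),Int.ofNat (nat_lit 44347978),Int.ofNat (nat_lit 104433357),Int.negSucc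 (nat_lit 274060643),Int.ofNat (nat_lit 44861144),Int.negSucc (nat_lit 35235825),Int.ofNat (nat_lit 59142572),Int.negSucc (nat_lit 43239982),Int.ofNat (nat_lit 113318771),Int.negSucc (nat_lit 83454570),Int.ofNat (nat_lit 15859615),Int.negSucc (nat_lit 113750116),Int.ofNat (nat_lit 29348307),Int.ofNat (nat_lit 121222352),Int.ofNat (nat_lit 88023258),Int.negSucc (nat_lit 23923576),Int.ofNat (nat_lit 106715688),Int.ofNat (nat_lit 123146385),Int.ofNat (nat_lit 211876458),Int.negSucc (nat_lit 19263816),Int.negSucc (nat_lit 33628854),Int.negSucc (nat_lit 40913794),Int.ofNat (nat_lit 9903678),Int.negSucc (nat_lit 625471),Int.ofNat (nat_lit 9818537),Int.ofNat (nat_lit 123930909),Int.negSucc (nat_lit 67814753),Int.ofNat (nat_lit 6440709),Int.negSucc (nat_lit 312297439),Int.negSucc (nat_lit 58527957),Int.negSucc (nat_lit 99192982),Int.negSucc (nat_lit 22307032),Int.ofNat (nat_lit 121871955),Int.negSucc (nat_lit 84486812),Int.ofNat (nat_lit 123424397),Int.ofNat (nat_lit 86143440),Int.ofNat (nat_lit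 14775752),Int.negSucc (nat_lit 69907266),Int.negSucc (nat_lit 44479386),Int.ofNat (nat_lit 150263871),Int.negSucc (nat_lit 26992443),Int.ofNat (nat_lit 90689814),Int.ofNat (nat_lit 63039418),Int.negSucc (nat_lit 159421901),Int.ofNat (nat_lit 41166700),Int.ofNat (nat_lit 80336652),Int.ofNat (nat_lit 96818436),Int.negSucc (nat_lit 18802014),Int.ofNat (nat_lit 63703785),Int.negSucc (nat_lit 68356646),Int.ofNat (nat_lit 37487376),Int.negSucc (nat_lit 49043041),Int.negSucc (nat_lit 199508310),Int.ofNat (nat_lit 96632918),Int.ofNat (nat_lit 321571839),Int.negSucc (nat_lit 99262066),Int.ofNat (nat_lit 354164385),Int.negSucc (nat_lit 990489921),Int.negSucc (nat_lit 60450133),Int.ofNat (nat_lit 248146902),Int.ofNat (nat_lit 111699842),Int.negSucc (nat_lit 236301888),Int.ofNat (nat_lit 9534916),Int.ofNat (nat_lit 1299605884)])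

/-- A row. -/
noncomputable def sr7_c3_12 : List ℕ × List ℤ :=
  ([(nat_lit 0),(nat_lit 1),(nat_lit 1),(nat_lit 1),(nat_lit 0),(nat_lit 0),(nat_lit 0),(nat_lit 0),(nat_lit 0),(nat_lit 0),(nat_lit 0),(nat_lit 0)], [Int.ofNat (nat_lit 613943501),Int.ofNat (nat_lit 496594099),Int.negSucc (nat_lit 154940538),Int.negSucc (nat_lit 151884494),Int.negSucc (nat_lit 321869753),Int.ofNat (nat_lit 31044230),Int.negSucc (nat_lit 19435288),Int.ofNat (nat_lit 308980082),Int.ofNat (nat_lit 34478482),Int.ofNat (nat_lit 270316370),Int.negSucc (nat_lit 119429967),Int.negSucc (nat_lit 374341931),Int.negSucc (nat_lit 132832123),Int.negSucc (nat_lit 180863758),Int.ofNat (nat_lit 357914618),Int.negSucc (nat_lit 33465305),Int.negSucc (nat_lit 85520642),Int.negSucc (nat_lit 368551775),Int.ofNat (nat_lit 60497008),Int.negSucc (nat_lit 14203292),Int.ofNat (nat_lit 43775405),Int.ofNat (nat_lit 3505598),Int.ofNat (nat_lit 49568535),Int.ofNat (nat_lit 167242184),Int.ofNat (nat_lit 83118856),Int.ofNat (nat_lit 60385820),Int.negSucc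 (nat_lit 169043934),Int.negSucc (nat_lit 89623974),Int.ofNat (nat_lit 57830418),Int.negSucc (nat_lit 188972645),Int.negSucc (nat_lit 87436387),Int.ofNat (nat_lit 145305763),Int.negSucc (nat_lit 69232553),Int.negSucc (nat_lit 2884459),Int.negSucc (nat_lit 34879137),Int.ofNat (nat_lit 166004299),Int.ofNat (nat_lit 113120865),Int.ofNat (nat_lit 61618324),Int.ofNat (nat_lit 21504482),Int.negSucc (nat_lit 3608147),Int.negSucc (nat_lit 152878225),Int.ofNat (nat_lit 84473461),Int.negSucc (nat_lit 113125003),Int.negSucc (nat_lit 289048547),Int.negSucc (nat_lit 110085),Int.ofNat (nat_lit 4804459),Int.negSucc (nat_lit 78528465),Int.negSucc (nat_lit 63295418),Int.negSucc (nat_lit 1850323),Int.negSucc (nat_lit 83588350),Int.ofNat (nat_lit 268544669),Int.negSucc (nat_lit 24499858),Int.ofNat (nat_lit 133480820),Int.ofNat (nat_lit 84716527),Int.ofNat (nat_lit 169775254),Int.negSucc (nat_lit 16725456),Int.ofNat (nat_lit 41889687),Int.ofNat (nat_lit 17357970),Int.negSucc (nat_lit 37021007),Int.ofNat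 (nat_lit 168687630),Int.negSucc (nat_lit 26751712),Int.negSucc (nat_lit 129136936),Int.negSucc (nat_lit 54517290),Int.ofNat (nat_lit 33196991),Int.ofNat (nat_lit 94374085),Int.ofNat (nat_lit 132591689),Int.negSucc (nat_lit 27203963),Int.ofNat (nat_lit 54873915),Int.negSucc (nat_lit 98981984),Int.negSucc (nat_lit 7524271),Int.ofNat (nat_lit 43526219),Int.ofNat (nat_lit 83612006),Int.ofNat (nat_lit 23658594),Int.negSucc (nat_lit 117283595),Int.negSucc (nat_lit 53949307),Int.ofNat (nat_lit 9282322),Int.negSucc (nat_lit 39089759),Int.negSucc (nat_lit 28766611),Int.ofNat (nat_lit 20278684),Int.ofNat (nat_lit 60591731),Int.negSucc (nat_lit 56948659),Int.negSucc (nat_lit 11095349),Int.negSucc (nat_lit 60262469),Int.negSucc (nat_lit 6465576),Int.negSucc (nat_lit 56879458),Int.negSucc (nat_lit 132575553),Int.negSucc (nat_lit 141661860),Int.negSucc (nat_lit 66924054),Int.negSucc (nat_lit 106990088),Int.ofNat (nat_lit 41980597),Int.ofNat (nat_lit 37328562),Int.ofNat (nat_lit 11886865),Int.ofNat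 (nat_lit 56796926),Int.ofNat (nat_lit 54421029),Int.negSucc (nat_lit 16897703),Int.ofNat (nat_lit 15330178),Int.negSucc (nat_lit 4868737),Int.negSucc (nat_lit 20325496),Int.ofNat (nat_lit 13511520),Int.ofNat (nat_lit 39826170),Int.ofNat (nat_lit 68394914),Int.negSucc (nat_lit 90688496),Int.ofNat (nat_lit 20382322),Int.negSucc (nat_lit 7952148),Int.negSucc (nat_lit 40061058),Int.negSucc (nat_lit 18854319),Int.negSucc (nat_lit 71810369),Int.ofNat (nat_lit 33527058),Int.ofNat (nat_lit 44773569),Int.ofNat (nat_lit 88185611),Int.ofNat (nat_lit 86977303),Int.ofNat (nat_lit 13452436),Int.ofNat (nat_lit 85324902),Int.ofNat (nat_lit 70380495),Int.negSucc (nat_lit 62046183),Int.ofNat (nat_lit 44322470),Int.negSucc (nat_lit 76310856),Int.ofNat (nat_lit 2496330),Int.negSucc (nat_lit 4373288),Int.ofNat (nat_lit 34761067),Int.negSucc (nat_lit 68645106),Int.ofNat (nat_lit 114600908),Int.negSucc (nat_lit 59628515),Int.ofNat (nat_lit 16441339),Int.ofNat (nat_lit 47217494),Int.negSucc (nat_lit 97973370),Int.ofNat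 (nat_lit 42992108),Int.ofNat (nat_lit 49695986),Int.ofNat (nat_lit 37539204),Int.ofNat (nat_lit 39385899),Int.negSucc (nat_lit 74681478),Int.ofNat (nat_lit 5951803),Int.negSucc (nat_lit 138818186),Int.negSucc (nat_lit 20248476),Int.ofNat (nat_lit 9349783),Int.ofNat (nat_lit 58910787),Int.ofNat (nat_lit 17731830),Int.negSucc (nat_lit 24419689),Int.ofNat (nat_lit 16778056),Int.negSucc (nat_lit 31170673),Int.ofNat (nat_lit 85067010),Int.ofNat (nat_lit 55114037),Int.negSucc (nat_lit 8190608),Int.negSucc (nat_lit 39606964),Int.negSucc (nat_lit 4623516),Int.ofNat (nat_lit 18275020),Int.negSucc (nat_lit 21229836),Int.negSucc (nat_lit 14989418),Int.negSucc (nat_lit 48776978),Int.negSucc (nat_lit 7257567),Int.negSucc (nat_lit 92846071),Int.negSucc (nat_lit 109149426),Int.negSucc (nat_lit 23870365),Int.ofNat (nat_lit 31860439),Int.ofNat (nat_lit 29221073),Int.ofNat (nat_lit 29972519),Int.negSucc (nat_lit 2435757),Int.ofNat (nat_lit 78788281),Int.ofNat (nat_lit 31122528),Int.ofNat (nat_lit 6876039),Int.negSucc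 (nat_lit 33108114),Int.ofNat (nat_lit 26920590),Int.ofNat (nat_lit 20470832),Int.ofNat (nat_lit 83882839),Int.negSucc (nat_lit 23600351),Int.ofNat (nat_lit 13577826),Int.ofNat (nat_lit 22221134),Int.ofNat (nat_lit 26584585),Int.negSucc (nat_lit 39908602),Int.negSucc (nat_lit 16361396),Int.ofNat (nat_lit 40690826),Int.negSucc (nat_lit 43315474),Int.negSucc (nat_lit 19083563),Int.negSucc (nat_lit 11144081),Int.negSucc (nat_lit 144269948),Int.ofNat (nat_lit 30148030),Int.ofNat (nat_lit 72243890),Int.ofNat (nat_lit 13556534),Int.ofNat (nat_lit 57577454),Int.ofNat (nat_lit 76568826),Int.negSucc (nat_lit 179472692),Int.ofNat (nat_lit 254100294),Int.ofNat (nat_lit 19576441),Int.negSucc (nat_lit 22750481),Int.ofNat (nat_lit 142922649),Int.ofNat (nat_lit 255446718),Int.ofNat (nat_lit 651027764)])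

/-- A row. -/
noncomputable def sr7_c3_13 : List ℕ × List ℤ :=
  ([(nat_lit 0),(nat_lit 2),(nat_lit 0),(nat_lit 0),(nat_lit 0),(nat_lit 0),(nat_lit 0),(nat_lit 0),(nat_lit 0),(nat_lit 0),(nat_lit 0),(nat_lit 0)], [Int.negSucc (nat_lit 1890669865),Int.negSucc (nat_lit 1566227459),Int.negSucc (nat_lit 97130029),Int.ofNat (nat_lit 1298684496),Int.negSucc (nat_lit 458992987),Int.ofNat (nat_lit 171963343),Int.negSucc (nat_lit 349554972),Int.negSucc (nat_lit 838024813),Int.negSucc (nat_lit 587265075),Int.negSucc (nat_lit 564527485),Int.ofNat (nat_lit 1222391601),Int.ofNat (nat_lit 1067706327),Int.negSucc (nat_lit 481345458),Int.ofNat (nat_lit 1343216708),Int.negSucc (nat_lit 1804449785),Int.ofNat (nat_lit 69312449),Int.ofNat (nat_lit 775913906),Int.ofNat (nat_lit 555087865),Int.ofNat (nat_lit 118397380),Int.negSucc (nat_lit 313894130),Int.ofNat (nat_lit 86820610),Int.negSucc (nat_lit 11477051),Int.negSucc (nat_lit 82498692),Int.negSucc (nat_lit 1590293032),Int.ofNat (nat_lit 267269701),Int.ofNat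 (nat_lit 322492686),Int.ofNat (nat_lit 1720376190),Int.ofNat (nat_lit 996336919),Int.negSucc (nat_lit 1131878429),Int.ofNat (nat_lit 364641501),Int.ofNat (nat_lit 430677065),Int.negSucc (nat_lit 462324246),Int.ofNat (nat_lit 826856495),Int.ofNat (nat_lit 806766969),Int.negSucc (nat_lit 122194271),Int.negSucc (nat_lit 685018548),Int.ofNat (nat_lit 124005035),Int.negSucc (nat_lit 306509934),Int.ofNat (nat_lit 465731349),Int.ofNat (nat_lit 84197475),Int.ofNat (nat_lit 129929484),Int.negSucc (nat_lit 12233001),Int.negSucc (nat_lit 186115087),Int.ofNat (nat_lit 446829808),Int.negSucc (nat_lit 52197374),Int.negSucc (nat_lit 195650625),Int.ofNat (nat_lit 550752888),Int.negSucc (nat_lit 235222225),Int.ofNat (nat_lit 116079319),Int.negSucc (nat_lit 351494708),Int.negSucc (nat_lit 239754394),Int.negSucc (nat_lit 60256238),Int.ofNat (nat_lit 146078894),Int.negSucc (nat_lit 128836029),Int.negSucc (nat_lit 312102515),Int.negSucc (nat_lit 5704399),Int.negSucc (nat_lit 409518211),Int.ofNat (nat_lit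 200935101),Int.ofNat (nat_lit 48695517),Int.negSucc (nat_lit 213505022),Int.ofNat (nat_lit 29008361),Int.ofNat (nat_lit 147150967),Int.ofNat (nat_lit 50345813),Int.negSucc (nat_lit 113421494),Int.negSucc (nat_lit 20947422),Int.negSucc (nat_lit 81432710),Int.ofNat (nat_lit 177873343),Int.ofNat (nat_lit 131811565),Int.ofNat (nat_lit 228478708),Int.negSucc (nat_lit 376832109),Int.ofNat (nat_lit 76231675),Int.ofNat (nat_lit 52315457),Int.ofNat (nat_lit 30421772),Int.ofNat (nat_lit 63986578),Int.negSucc (nat_lit 175519246),Int.negSucc (nat_lit 235092257),Int.negSucc (nat_lit 498325829),Int.ofNat (nat_lit 242588266),Int.ofNat (nat_lit 18164058),Int.negSucc (nat_lit 173979588),Int.ofNat (nat_lit 232138097),Int.negSucc (nat_lit 92539841),Int.negSucc (nat_lit 65512969),Int.negSucc (nat_lit 49752784),Int.negSucc (nat_lit 9136845),Int.ofNat (nat_lit 344343151),Int.ofNat (nat_lit 256016344),Int.negSucc (nat_lit 93190643),Int.negSucc (nat_lit 150802184),Int.negSucc (nat_lit 396465330),Int.ofNat (nat_lit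 240332542),Int.negSucc (nat_lit 1174161039),Int.negSucc (nat_lit 244224849),Int.ofNat (nat_lit 78102431),Int.negSucc (nat_lit 153270122),Int.ofNat (nat_lit 9023016),Int.ofNat (nat_lit 373781341),Int.negSucc (nat_lit 603475044),Int.ofNat (nat_lit 53340654),Int.negSucc (nat_lit 249245101),Int.negSucc (nat_lit 145281432),Int.negSucc (nat_lit 26957265),Int.negSucc (nat_lit 66871036),Int.ofNat (nat_lit 147756552),Int.negSucc (nat_lit 1757311),Int.negSucc (nat_lit 23476009),Int.ofNat (nat_lit 146223731),Int.ofNat (nat_lit 98227230),Int.negSucc (nat_lit 144758473),Int.negSucc (nat_lit 103583461),Int.negSucc (nat_lit 44184183),Int.negSucc (nat_lit 97651676),Int.negSucc (nat_lit 33262342),Int.negSucc (nat_lit 47169318),Int.negSucc (nat_lit 37836142),Int.ofNat (nat_lit 17380270),Int.ofNat (nat_lit 73514352),Int.negSucc (nat_lit 66138040),Int.ofNat (nat_lit 36462517),Int.negSucc (nat_lit 250878736),Int.ofNat (nat_lit 72769942),Int.negSucc (nat_lit 91477451),Int.negSucc (nat_lit 147350453),Int.negSucc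 (nat_lit 94343340),Int.negSucc (nat_lit 41699314),Int.ofNat (nat_lit 59628902),Int.negSucc (nat_lit 378360248),Int.negSucc (nat_lit 96110870),Int.negSucc (nat_lit 13590710),Int.negSucc (nat_lit 55011518),Int.ofNat (nat_lit 52997999),Int.ofNat (nat_lit 96585597),Int.negSucc (nat_lit 147896644),Int.ofNat (nat_lit 113661016),Int.negSucc (nat_lit 22181304),Int.ofNat (nat_lit 43241130),Int.ofNat (nat_lit 16527280),Int.ofNat (nat_lit 8488190),Int.negSucc (nat_lit 149746636),Int.negSucc (nat_lit 117447224),Int.negSucc (nat_lit 239738924),Int.ofNat (nat_lit 117241053),Int.ofNat (nat_lit 66786269),Int.negSucc (nat_lit 7044552),Int.ofNat (nat_lit 30960018),Int.ofNat (nat_lit 73088044),Int.ofNat (nat_lit 19622063),Int.negSucc (nat_lit 82224927),Int.negSucc (nat_lit 2887229),Int.negSucc (nat_lit 85792413),Int.ofNat (nat_lit 55733812),Int.ofNat (nat_lit 2209277),Int.negSucc (nat_lit 59658631),Int.ofNat (nat_lit 300681764),Int.negSucc (nat_lit 57696043),Int.ofNat (nat_lit 164605828),Int.negSucc (nat_lit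 437613421),Int.negSucc (nat_lit 30848084),Int.negSucc (nat_lit 93099163),Int.ofNat (nat_lit 85485403),Int.ofNat (nat_lit 9238752),Int.negSucc (nat_lit 97223061),Int.ofNat (nat_lit 54553414),Int.negSucc (nat_lit 89098622),Int.negSucc (nat_lit 6567992),Int.negSucc (nat_lit 2956145),Int.ofNat (nat_lit 31536066),Int.negSucc (nat_lit 42090615),Int.negSucc (nat_lit 101127512),Int.ofNat (nat_lit 122920382),Int.negSucc (nat_lit 72019891),Int.negSucc (nat_lit 16593451),Int.negSucc (nat_lit 50574926),Int.ofNat (nat_lit 54604464),Int.negSucc (nat_lit 298928331),Int.negSucc (nat_lit 100270364),Int.ofNat (nat_lit 93535238),Int.negSucc (nat_lit 314690329),Int.negSucc (nat_lit 15728314),Int.ofNat (nat_lit 956342110),Int.ofNat (nat_lit 821883598),Int.negSucc (nat_lit 74139334),Int.negSucc (nat_lit 67535312),Int.ofNat (nat_lit 86309660),Int.ofNat (nat_lit 217142878),Int.negSucc (nat_lit 878544623),Int.ofNat (nat_lit 244990957),Int.ofNat (nat_lit 1975783078)])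

/-- A row. -/
noncomputable def sr7_c3_14 : List ℕ × List ℤ :=
  ([(nat_lit 0),(nat_lit 2),(nat_lit 0),(nat_lit 0),(nat_lit 1),(nat_lit 0),(nat_lit 0),(nat_lit 0),(nat_lit 0),(nat_lit 0),(nat_lit 0),(nat_lit 0)], [Int.negSucc (nat_lit 253199191),Int.ofNat (nat_lit 273200183),Int.ofNat (nat_lit 374421959),Int.negSucc (nat_lit 732175312),Int.ofNat (nat_lit 344637047),Int.ofNat (nat_lit 61636582),Int.ofNat (nat_lit 230033504),Int.ofNat (nat_lit 272834784),Int.ofNat (nat_lit 461754513),Int.negSucc (nat_lit 189637666),Int.negSucc (nat_lit 270432457),Int.ofNat (nat_lit 117374175),Int.ofNat (nat_lit 259007787),Int.negSucc (nat_lit 75479264),Int.negSucc (nat_lit 139522132),Int.ofNat (nat_lit 205009975),Int.ofNat (nat_lit 221608623),Int.ofNat (nat_lit 200610308),Int.ofNat (nat_lit 2638229),Int.ofNat (nat_lit 61082237),Int.ofNat (nat_lit 65239315),Int.ofNat (nat_lit 48286368),Int.negSucc (nat_lit 95445931),Int.ofNat (nat_lit 124115610),Int.ofNat (nat_lit 211593262),Int.negSucc (nat_lit 92405754),Int.negSucc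 (nat_lit 174256319),Int.ofNat (nat_lit 246917265),Int.negSucc (nat_lit 270680725),Int.ofNat (nat_lit 426754333),Int.ofNat (nat_lit 107434439),Int.negSucc (nat_lit 32240488),Int.ofNat (nat_lit 183542512),Int.negSucc (nat_lit 52474101),Int.ofNat (nat_lit 128877020),Int.ofNat (nat_lit 271710936),Int.negSucc (nat_lit 29443042),Int.ofNat (nat_lit 8175443),Int.negSucc (nat_lit 88277468),Int.ofNat (nat_lit 86808058),Int.ofNat (nat_lit 183474705),Int.negSucc (nat_lit 156648755),Int.ofNat (nat_lit 51656164),Int.ofNat (nat_lit 124329356),Int.ofNat (nat_lit 72601996),Int.ofNat (nat_lit 146640518),Int.ofNat (nat_lit 53978608),Int.ofNat (nat_lit 91191761),Int.ofNat (nat_lit 39565684),Int.negSucc (nat_lit 38141903),Int.negSucc (nat_lit 28427609),Int.ofNat (nat_lit 101910798),Int.ofNat (nat_lit 45918037),Int.negSucc (nat_lit 190697002),Int.ofNat (nat_lit 83077048),Int.ofNat (nat_lit 21741938),Int.ofNat (nat_lit 127244378),Int.negSucc (nat_lit 29144961),Int.ofNat (nat_lit 78417902),Int.negSucc (nat_lit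 175008687),Int.negSucc (nat_lit 102870124),Int.negSucc (nat_lit 59060079),Int.ofNat (nat_lit 176057720),Int.ofNat (nat_lit 12491756),Int.ofNat (nat_lit 4543950),Int.negSucc (nat_lit 50136838),Int.negSucc (nat_lit 4150422),Int.negSucc (nat_lit 84738174),Int.ofNat (nat_lit 199871185),Int.ofNat (nat_lit 22936532),Int.negSucc (nat_lit 226766269),Int.negSucc (nat_lit 18925329),Int.negSucc (nat_lit 113065644),Int.negSucc (nat_lit 80280568),Int.ofNat (nat_lit 15688768),Int.ofNat (nat_lit 7711145),Int.negSucc (nat_lit 33588182),Int.ofNat (nat_lit 15284374),Int.negSucc (nat_lit 71242772),Int.ofNat (nat_lit 54509627),Int.negSucc (nat_lit 47650622),Int.negSucc (nat_lit 16620147),Int.negSucc (nat_lit 113298295),Int.ofNat (nat_lit 40923008),Int.negSucc (nat_lit 13417723),Int.ofNat (nat_lit 78633349),Int.negSucc (nat_lit 840113),Int.ofNat (nat_lit 50943490),Int.ofNat (nat_lit 7062110),Int.ofNat (nat_lit 6754188),Int.negSucc (nat_lit 106818750),Int.negSucc (nat_lit 111689069),Int.negSucc (nat_lit 35219883),Int.ofNat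 (nat_lit 38492954),Int.ofNat (nat_lit 4979135),Int.negSucc (nat_lit 8468546),Int.ofNat (nat_lit 48764887),Int.negSucc (nat_lit 7473365),Int.ofNat (nat_lit 81134799),Int.negSucc (nat_lit 66604314),Int.ofNat (nat_lit 94890591),Int.ofNat (nat_lit 174016274),Int.ofNat (nat_lit 52218419),Int.negSucc (nat_lit 123083284),Int.ofNat (nat_lit 35508565),Int.ofNat (nat_lit 49441378),Int.ofNat (nat_lit 46392558),Int.negSucc (nat_lit 59999891),Int.ofNat (nat_lit 70578990),Int.ofNat (nat_lit 22506672),Int.negSucc (nat_lit 44315934),Int.ofNat (nat_lit 3418841),Int.negSucc (nat_lit 72573430),Int.negSucc (nat_lit 104715127),Int.ofNat (nat_lit 69630803),Int.negSucc (nat_lit 10453136),Int.ofNat (nat_lit 37883992),Int.negSucc (nat_lit 35816964),Int.ofNat (nat_lit 8109977),Int.negSucc (nat_lit 66441218),Int.ofNat (nat_lit 8333488),Int.negSucc (nat_lit 164563197),Int.negSucc (nat_lit 93115874),Int.negSucc (nat_lit 24270714),Int.negSucc (nat_lit 34984042),Int.ofNat (nat_lit 102280282),Int.negSucc (nat_lit 98054024),Int.ofNat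 (nat_lit 44539191),Int.negSucc (nat_lit 80821297),Int.ofNat (nat_lit 30276935),Int.ofNat (nat_lit 19623781),Int.negSucc (nat_lit 40747551),Int.negSucc (nat_lit 2124741),Int.negSucc (nat_lit 159028515),Int.negSucc (nat_lit 73467887),Int.negSucc (nat_lit 101985013),Int.negSucc (nat_lit 90098664),Int.negSucc (nat_lit 28138578),Int.ofNat (nat_lit 25984716),Int.negSucc (nat_lit 2416148),Int.ofNat (nat_lit 101807623),Int.negSucc (nat_lit 82344260),Int.negSucc (nat_lit 30934905),Int.ofNat (nat_lit 3765660),Int.ofNat (nat_lit 20930830),Int.ofNat (nat_lit 572594),Int.negSucc (nat_lit 12854456),Int.ofNat (nat_lit 31496922),Int.ofNat (nat_lit 34211814),Int.ofNat (nat_lit 31207659),Int.ofNat (nat_lit 18492211),Int.negSucc (nat_lit 22565737),Int.ofNat (nat_lit 119948230),Int.negSucc (nat_lit 77682074),Int.ofNat (nat_lit 29357989),Int.ofNat (nat_lit 3148384),Int.ofNat (nat_lit 16148922),Int.ofNat (nat_lit 26548938),Int.ofNat (nat_lit 51993301),Int.ofNat (nat_lit 22567083),Int.negSucc (nat_lit 47382382),Int.negSucc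 (nat_lit 7045289),Int.negSucc (nat_lit 85126768),Int.negSucc (nat_lit 38195513),Int.negSucc (nat_lit 40429287),Int.ofNat (nat_lit 13235249),Int.ofNat (nat_lit 19959432),Int.ofNat (nat_lit 39970078),Int.negSucc (nat_lit 40908639),Int.negSucc (nat_lit 17320654),Int.negSucc (nat_lit 16516007),Int.ofNat (nat_lit 6705970),Int.ofNat (nat_lit 10106188),Int.ofNat (nat_lit 10677124),Int.ofNat (nat_lit 47744734),Int.ofNat (nat_lit 175373271),Int.ofNat (nat_lit 25520392),Int.ofNat (nat_lit 53184874),Int.negSucc (nat_lit 35109234),Int.negSucc (nat_lit 122663967),Int.ofNat (nat_lit 66927359),Int.negSucc (nat_lit 76426526),Int.negSucc (nat_lit 48486003),Int.ofNat (nat_lit 119951624),Int.negSucc (nat_lit 59284268),Int.negSucc (nat_lit 212762490),Int.negSucc (nat_lit 172127722),Int.negSucc (nat_lit 335139921),Int.ofNat (nat_lit 916043209)])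

/-- A row. -/
noncomputable def sr7_c3_15 : List ℕ × List ℤ :=
  ([(nat_lit 0),(nat_lit 2),(nat_lit 1),(nat_lit 0),(nat_lit 0),(nat_lit 0),(nat_lit 0),(nat_lit 0),(nat_lit 0),(nat_lit 0),(nat_lit 0),(nat_lit 0)], [Int.negSucc (nat_lit 2040600513),Int.negSucc (nat_lit 1094058072),Int.ofNat (nat_lit 143275712),Int.ofNat (nat_lit 672975194),Int.negSucc (nat_lit 39843620),Int.ofNat (nat_lit 6502231),Int.negSucc (nat_lit 277153705),Int.negSucc (nat_lit 970088448),Int.negSucc (nat_lit 1031342715),Int.negSucc (nat_lit 227938911),Int.ofNat (nat_lit 371394738),Int.ofNat (nat_lit 777300670),Int.negSucc (nat_lit 331669108),Int.ofNat (nat_lit 1175518962),Int.negSucc (nat_lit 1485348596),Int.ofNat (nat_lit 141897923),Int.ofNat (nat_lit 403554026),Int.ofNat (nat_lit 548256574),Int.negSucc (nat_lit 11565652),Int.ofNat (nat_lit 145341075),Int.negSucc (nat_lit 83636427),Int.negSucc (nat_lit 17916528),Int.negSucc (nat_lit 168051720),Int.negSucc (nat_lit 1125010238),Int.ofNat (nat_lit 190136663),Int.ofNat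 (nat_lit 6799767),Int.ofNat (nat_lit 1137357855),Int.ofNat (nat_lit 740714378),Int.ofNat (nat_lit 19201653),Int.ofNat (nat_lit 367990418),Int.ofNat (nat_lit 563944495),Int.negSucc (nat_lit 283969853),Int.ofNat (nat_lit 462260292),Int.ofNat (nat_lit 541186289),Int.negSucc (nat_lit 62495679),Int.negSucc (nat_lit 474276227),Int.ofNat (nat_lit 237112),Int.negSucc (nat_lit 168361193),Int.ofNat (nat_lit 270442832),Int.ofNat (nat_lit 168203661),Int.ofNat (nat_lit 262067304),Int.ofNat (nat_lit 92092061),Int.negSucc (nat_lit 24830273),Int.ofNat (nat_lit 341220714),Int.negSucc (nat_lit 136014654),Int.negSucc (nat_lit 2430025),Int.ofNat (nat_lit 248760291),Int.negSucc (nat_lit 62585450),Int.ofNat (nat_lit 92616463),Int.negSucc (nat_lit 317399757),Int.negSucc (nat_lit 313136102),Int.ofNat (nat_lit 23669686),Int.negSucc (nat_lit 129337097),Int.ofNat (nat_lit 46274813),Int.negSucc (nat_lit 338086894),Int.ofNat (nat_lit 130387035),Int.negSucc (nat_lit 305143105),Int.ofNat (nat_lit 119791123),Int.ofNat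 (nat_lit 88151499),Int.negSucc (nat_lit 295579453),Int.ofNat (nat_lit 215594801),Int.ofNat (nat_lit 296229581),Int.negSucc (nat_lit 46416195),Int.negSucc (nat_lit 47829798),Int.ofNat (nat_lit 25727632),Int.negSucc (nat_lit 65797930),Int.ofNat (nat_lit 189298500),Int.negSucc (nat_lit 74767730),Int.ofNat (nat_lit 191307937),Int.negSucc (nat_lit 173647158),Int.negSucc (nat_lit 100582202),Int.ofNat (nat_lit 161883936),Int.ofNat (nat_lit 39366878),Int.ofNat (nat_lit 206868607),Int.negSucc (nat_lit 104163400),Int.negSucc (nat_lit 70998529),Int.negSucc (nat_lit 214807663),Int.ofNat (nat_lit 250563032),Int.negSucc (nat_lit 69991280),Int.negSucc (nat_lit 104468019),Int.ofNat (nat_lit 205514647),Int.ofNat (nat_lit 93568929),Int.negSucc (nat_lit 17442081),Int.negSucc (nat_lit 74341133),Int.negSucc (nat_lit 38609120),Int.ofNat (nat_lit 112653493),Int.ofNat (nat_lit 167712484),Int.negSucc (nat_lit 41169171),Int.ofNat (nat_lit 51554860),Int.negSucc (nat_lit 226908153),Int.ofNat (nat_lit 149227152),Int.negSucc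 (nat_lit 923451285),Int.negSucc (nat_lit 143040586),Int.negSucc (nat_lit 143781261),Int.ofNat (nat_lit 101664261),Int.ofNat (nat_lit 17415385),Int.ofNat (nat_lit 284080914),Int.negSucc (nat_lit 420506253),Int.negSucc (nat_lit 125048443),Int.negSucc (nat_lit 443250838),Int.negSucc (nat_lit 9114906),Int.ofNat (nat_lit 1364823),Int.negSucc (nat_lit 157256384),Int.ofNat (nat_lit 105405474),Int.ofNat (nat_lit 102333330),Int.negSucc (nat_lit 154566001),Int.ofNat (nat_lit 52999224),Int.ofNat (nat_lit 115927277),Int.negSucc (nat_lit 107488462),Int.negSucc (nat_lit 135217889),Int.negSucc (nat_lit 94280824),Int.negSucc (nat_lit 40572618),Int.negSucc (nat_lit 13111610),Int.negSucc (nat_lit 59185192),Int.negSucc (nat_lit 148868148),Int.ofNat (nat_lit 38004488),Int.ofNat (nat_lit 124510795),Int.negSucc (nat_lit 38613663),Int.ofNat (nat_lit 106914398),Int.negSucc (nat_lit 72177314),Int.ofNat (nat_lit 41630905),Int.ofNat (nat_lit 101769005),Int.ofNat (nat_lit 1746674),Int.negSucc (nat_lit 49639690),Int.ofNat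 (nat_lit 23353442),Int.negSucc (nat_lit 55608866),Int.negSucc (nat_lit 310118322),Int.negSucc (nat_lit 178836249),Int.ofNat (nat_lit 5675749),Int.negSucc (nat_lit 65182959),Int.ofNat (nat_lit 176318240),Int.ofNat (nat_lit 16785232),Int.negSucc (nat_lit 23573932),Int.ofNat (nat_lit 41164533),Int.ofNat (nat_lit 1524410),Int.ofNat (nat_lit 27354397),Int.ofNat (nat_lit 22381786),Int.ofNat (nat_lit 46043893),Int.negSucc (nat_lit 101297666),Int.ofNat (nat_lit 39235150),Int.negSucc (nat_lit 190403442),Int.ofNat (nat_lit 31921072),Int.ofNat (nat_lit 120630210),Int.ofNat (nat_lit 77696844),Int.ofNat (nat_lit 70479184),Int.ofNat (nat_lit 14901884),Int.ofNat (nat_lit 219876459),Int.ofNat (nat_lit 59731626),Int.negSucc (nat_lit 29448711),Int.negSucc (nat_lit 85491689),Int.negSucc (nat_lit 12017912),Int.negSucc (nat_lit 178951862),Int.negSucc (nat_lit 183547833),Int.ofNat (nat_lit 144683636),Int.negSucc (nat_lit 32750582),Int.ofNat (nat_lit 119054602),Int.negSucc (nat_lit 240278858),Int.negSucc (nat_lit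 17011728),Int.negSucc (nat_lit 119842251),Int.ofNat (nat_lit 61005889),Int.ofNat (nat_lit 8630588),Int.ofNat (nat_lit 11892533),Int.ofNat (nat_lit 11259556),Int.negSucc (nat_lit 95613566),Int.ofNat (nat_lit 35139924),Int.negSucc (nat_lit 168139865),Int.ofNat (nat_lit 12341730),Int.negSucc (nat_lit 1447261),Int.ofNat (nat_lit 10885758),Int.ofNat (nat_lit 173551115),Int.negSucc (nat_lit 40131430),Int.negSucc (nat_lit 51648665),Int.negSucc (nat_lit 37096478),Int.ofNat (nat_lit 21404243),Int.negSucc (nat_lit 385596413),Int.ofNat (nat_lit 10822650),Int.negSucc (nat_lit 13912006),Int.negSucc (nat_lit 357672366),Int.ofNat (nat_lit 23076475),Int.ofNat (nat_lit 42946727),Int.ofNat (nat_lit 649002673),Int.negSucc (nat_lit 255554604),Int.ofNat (nat_lit 417297217),Int.negSucc (nat_lit 173919333),Int.negSucc (nat_lit 125105631),Int.ofNat (nat_lit 255887791),Int.negSucc (nat_lit 392775776),Int.ofNat (nat_lit 1808059989),Int.negSucc (nat_lit 6894994),Int.ofNat (nat_lit 1035345923)])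

/-- A row. -/
noncomputable def sr7_c3_16 : List ℕ × List ℤ :=
  ([(nat_lit 0),(nat_lit 3),(nat_lit 0),(nat_lit 1),(nat_lit 0),(nat_lit 0),(nat_lit 0),(nat_lit 0),(nat_lit 0),(nat_lit 0),(nat_lit 0),(nat_lit 0)], [Int.negSucc (nat_lit 1228612689),Int.negSucc (nat_lit 743173633),Int.negSucc (nat_lit 1989415786),Int.ofNat (nat_lit 1048465640),Int.negSucc (nat_lit 1377052291),Int.ofNat (nat_lit 479501756),Int.ofNat (nat_lit 419782878),Int.ofNat (nat_lit 301250077),Int.ofNat (nat_lit 369191845),Int.negSucc (nat_lit 242842827),Int.ofNat (nat_lit 272490034),Int.negSucc (nat_lit 105250651),Int.negSucc (nat_lit 161059337),Int.ofNat (nat_lit 70875443),Int.negSucc (nat_lit 325640662),Int.negSucc (nat_lit 112133503),Int.ofNat (nat_lit 111951706),Int.negSucc (nat_lit 360898570),Int.ofNat (nat_lit 17099166),Int.negSucc (nat_lit 253524559),Int.ofNat (nat_lit 78972972),Int.ofNat (nat_lit 191095204),Int.ofNat (nat_lit 399214940),Int.ofNat (nat_lit 36974671),Int.ofNat (nat_lit 411086061),Int.ofNat (nat_lit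 410848192),Int.negSucc (nat_lit 242746286),Int.ofNat (nat_lit 196169741),Int.negSucc (nat_lit 587786540),Int.ofNat (nat_lit 475245986),Int.negSucc (nat_lit 250908757),Int.ofNat (nat_lit 53218537),Int.ofNat (nat_lit 181694484),Int.ofNat (nat_lit 172493585),Int.ofNat (nat_lit 283658021),Int.negSucc (nat_lit 209475394),Int.ofNat (nat_lit 12502471),Int.ofNat (nat_lit 97915104),Int.ofNat (nat_lit 448179731),Int.ofNat (nat_lit 304582574),Int.negSucc (nat_lit 172535315),Int.negSucc (nat_lit 26971927),Int.ofNat (nat_lit 159222770),Int.ofNat (nat_lit 564299071),Int.negSucc (nat_lit 175902988),Int.ofNat (nat_lit 76233418),Int.ofNat (nat_lit 67643569),Int.negSucc (nat_lit 739184300),Int.negSucc (nat_lit 603188580),Int.ofNat (nat_lit 89109051),Int.negSucc (nat_lit 326930929),Int.negSucc (nat_lit 19485178),Int.ofNat (nat_lit 125553969),Int.negSucc (nat_lit 247751776),Int.negSucc (nat_lit 76220086),Int.negSucc (nat_lit 172551966),Int.ofNat (nat_lit 652341453),Int.negSucc (nat_lit 65306283),Int.ofNat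 (nat_lit 44039332),Int.ofNat (nat_lit 182821777),Int.ofNat (nat_lit 191433970),Int.negSucc (nat_lit 54363242),Int.negSucc (nat_lit 544890391),Int.ofNat (nat_lit 118184483),Int.negSucc (nat_lit 23680351),Int.ofNat (nat_lit 34844937),Int.negSucc (nat_lit 133599944),Int.negSucc (nat_lit 61073298),Int.negSucc (nat_lit 5280680),Int.negSucc (nat_lit 32588978),Int.ofNat (nat_lit 112349396),Int.negSucc (nat_lit 139039082),Int.negSucc (nat_lit 141942506),Int.ofNat (nat_lit 266255537),Int.negSucc (nat_lit 62224530),Int.negSucc (nat_lit 195298846),Int.ofNat (nat_lit 131026677),Int.ofNat (nat_lit 66513671),Int.ofNat (nat_lit 237495398),Int.negSucc (nat_lit 23441303),Int.ofNat (nat_lit 59910795),Int.negSucc (nat_lit 27028701),Int.ofNat (nat_lit 29960691),Int.ofNat (nat_lit 61590128),Int.negSucc (nat_lit 64159743),Int.ofNat (nat_lit 93190929),Int.negSucc (nat_lit 314660656),Int.ofNat (nat_lit 76812660),Int.negSucc (nat_lit 8251212),Int.negSucc (nat_lit 41360066),Int.negSucc (nat_lit 88001120),Int.ofNat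 (nat_lit 80580127),Int.ofNat (nat_lit 46595939),Int.negSucc (nat_lit 215555692),Int.ofNat (nat_lit 66052449),Int.negSucc (nat_lit 378041924),Int.negSucc (nat_lit 304630507),Int.ofNat (nat_lit 61062701),Int.negSucc (nat_lit 54352939),Int.ofNat (nat_lit 22763525),Int.negSucc (nat_lit 95911735),Int.ofNat (nat_lit 65249947),Int.ofNat (nat_lit 54182640),Int.negSucc (nat_lit 162678058),Int.ofNat (nat_lit 70495467),Int.ofNat (nat_lit 93680383),Int.ofNat (nat_lit 24312407),Int.ofNat (nat_lit 107384927),Int.ofNat (nat_lit 13017359),Int.negSucc (nat_lit 159908777),Int.ofNat (nat_lit 8315459),Int.negSucc (nat_lit 160082184),Int.negSucc (nat_lit 148969281),Int.negSucc (nat_lit 227834059),Int.ofNat (nat_lit 77708848),Int.ofNat (nat_lit 164669570),Int.ofNat (nat_lit 65124512),Int.ofNat (nat_lit 5443600),Int.ofNat (nat_lit 36569431),Int.negSucc (nat_lit 195984653),Int.ofNat (nat_lit 90453184),Int.negSucc (nat_lit 135991398),Int.negSucc (nat_lit 30323398),Int.negSucc (nat_lit 2498045),Int.negSucc (nat_lit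 78947617),Int.ofNat (nat_lit 20974179),Int.negSucc (nat_lit 8807760),Int.ofNat (nat_lit 7401345),Int.ofNat (nat_lit 157118155),Int.negSucc (nat_lit 27371618),Int.negSucc (nat_lit 42289838),Int.ofNat (nat_lit 196833117),Int.negSucc (nat_lit 86749616),Int.ofNat (nat_lit 28299431),Int.negSucc (nat_lit 29358911),Int.ofNat (nat_lit 86738682),Int.ofNat (nat_lit 151780137),Int.negSucc (nat_lit 58168968),Int.negSucc (nat_lit 52292506),Int.negSucc (nat_lit 103703807),Int.ofNat (nat_lit 29557623),Int.negSucc (nat_lit 115479119),Int.ofNat (nat_lit 36793692),Int.negSucc (nat_lit 53225578),Int.ofNat (nat_lit 65081056),Int.ofNat (nat_lit 20125275),Int.negSucc (nat_lit 25257035),Int.ofNat (nat_lit 32837199),Int.ofNat (nat_lit 58560665),Int.ofNat (nat_lit 26397449),Int.ofNat (nat_lit 301116497),Int.ofNat (nat_lit 56775467),Int.ofNat (nat_lit 134360633),Int.ofNat (nat_lit 303999959),Int.ofNat (nat_lit 33609012),Int.negSucc (nat_lit 382874893),Int.ofNat (nat_lit 203651202),Int.ofNat (nat_lit 167557706),Int.ofNat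 (nat_lit 110792696),Int.negSucc (nat_lit 7291078),Int.negSucc (nat_lit 21425018),Int.negSucc (nat_lit 116154098),Int.negSucc (nat_lit 98460104),Int.ofNat (nat_lit 35310999),Int.negSucc (nat_lit 155981530),Int.ofNat (nat_lit 191373334),Int.negSucc (nat_lit 42566382),Int.ofNat (nat_lit 20734051),Int.negSucc (nat_lit 16507255),Int.ofNat (nat_lit 115766021),Int.ofNat (nat_lit 31058733),Int.ofNat (nat_lit 1057973),Int.negSucc (nat_lit 42064254),Int.ofNat (nat_lit 41213348),Int.ofNat (nat_lit 287378928),Int.negSucc (nat_lit 211361585),Int.negSucc (nat_lit 435601161),Int.negSucc (nat_lit 183026749),Int.negSucc (nat_lit 719709546),Int.ofNat (nat_lit 181805924),Int.negSucc (nat_lit 53379584),Int.negSucc (nat_lit 21433800),Int.ofNat (nat_lit 3383929),Int.ofNat (nat_lit 418075396),Int.negSucc (nat_lit 220798849),Int.negSucc (nat_lit 570083308),Int.ofNat (nat_lit 324868246),Int.negSucc (nat_lit 484173242),Int.ofNat (nat_lit 468239199),Int.ofNat (nat_lit 348244916),Int.ofNat (nat_lit 2007118852)])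

/-- A row. -/
noncomputable def sr7_c3_17 : List ℕ × List ℤ :=
  ([(nat_lit 0),(nat_lit 4),(nat_lit 0),(nat_lit 0),(nat_lit 0),(nat_lit 0),(nat_lit 0),(nat_lit 0),(nat_lit 0),(nat_lit 0),(nat_lit 0),(nat_lit 0)], [Int.ofNat (nat_lit 2144949948),Int.ofNat (nat_lit 67459711),Int.ofNat (nat_lit 1350536774),Int.negSucc (nat_lit 768671180),Int.ofNat (nat_lit 1032597017),Int.negSucc (nat_lit 495175787),Int.ofNat (nat_lit 303222310),Int.ofNat (nat_lit 148965967),Int.ofNat (nat_lit 24973695),Int.negSucc (nat_lit 266422538),Int.negSucc (nat_lit 718067094),Int.negSucc (nat_lit 62122713),Int.ofNat (nat_lit 593016957),Int.negSucc (nat_lit 596596425),Int.ofNat (nat_lit 284925057),Int.ofNat (nat_lit 118109666),Int.negSucc (nat_lit 126810451),Int.ofNat (nat_lit 431642933),Int.ofNat (nat_lit 99692734),Int.ofNat (nat_lit 500039589),Int.negSucc (nat_lit 199352762),Int.ofNat (nat_lit 20706248),Int.ofNat (nat_lit 174572202),Int.negSucc (nat_lit 212482772),Int.negSucc (nat_lit 176570493),Int.negSucc (nat_lit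 415571716),Int.negSucc (nat_lit 503141333),Int.ofNat (nat_lit 45986457),Int.ofNat (nat_lit 1035212405),Int.ofNat (nat_lit 542310259),Int.ofNat (nat_lit 1447188145),Int.ofNat (nat_lit 224989077),Int.negSucc (nat_lit 313383342),Int.negSucc (nat_lit 356835109),Int.negSucc (nat_lit 84493749),Int.ofNat (nat_lit 401059459),Int.negSucc (nat_lit 115658588),Int.ofNat (nat_lit 43649922),Int.negSucc (nat_lit 581065028),Int.negSucc (nat_lit 239139174),Int.ofNat (nat_lit 74342824),Int.ofNat (nat_lit 42535976),Int.ofNat (nat_lit 41491094),Int.negSucc (nat_lit 208317860),Int.negSucc (nat_lit 18803448),Int.ofNat (nat_lit 66379732),Int.negSucc (nat_lit 344891078),Int.ofNat (nat_lit 357834540),Int.ofNat (nat_lit 312922446),Int.negSucc (nat_lit 28100691),Int.ofNat (nat_lit 57871833),Int.ofNat (nat_lit 77700526),Int.negSucc (nat_lit 98683628),Int.negSucc (nat_lit 16037391),Int.negSucc (nat_lit 31537433),Int.ofNat (nat_lit 288501083),Int.negSucc (nat_lit 144004653),Int.ofNat (nat_lit 105821264),Int.ofNat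 (nat_lit 128892843),Int.negSucc (nat_lit 84800761),Int.ofNat (nat_lit 112292980),Int.ofNat (nat_lit 66433852),Int.ofNat (nat_lit 34220521),Int.ofNat (nat_lit 37351691),Int.negSucc (nat_lit 68173058),Int.ofNat (nat_lit 50947587),Int.negSucc (nat_lit 56658132),Int.negSucc (nat_lit 17631696),Int.negSucc (nat_lit 300557326),Int.ofNat (nat_lit 306897208),Int.negSucc (nat_lit 30137014),Int.ofNat (nat_lit 33185579),Int.ofNat (nat_lit 117744794),Int.negSucc (nat_lit 46914487),Int.ofNat (nat_lit 140996661),Int.ofNat (nat_lit 142064520),Int.ofNat (nat_lit 337649107),Int.negSucc (nat_lit 121489753),Int.negSucc (nat_lit 125563881),Int.ofNat (nat_lit 20103209),Int.negSucc (nat_lit 136153744),Int.ofNat (nat_lit 128236018),Int.ofNat (nat_lit 104525294),Int.negSucc (nat_lit 20314240),Int.negSucc (nat_lit 121694534),Int.negSucc (nat_lit 238867268),Int.ofNat (nat_lit 75089305),Int.ofNat (nat_lit 28017084),Int.ofNat (nat_lit 202556936),Int.ofNat (nat_lit 574865108),Int.negSucc (nat_lit 99689260),Int.ofNat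 (nat_lit 320570542),Int.ofNat (nat_lit 174069362),Int.negSucc (nat_lit 132440241),Int.ofNat (nat_lit 260003069),Int.ofNat (nat_lit 116634916),Int.ofNat (nat_lit 40170976),Int.ofNat (nat_lit 134715613),Int.negSucc (nat_lit 28618525),Int.negSucc (nat_lit 361817633),Int.ofNat (nat_lit 152316109),Int.negSucc (nat_lit 16118356),Int.negSucc (nat_lit 36750061),Int.negSucc (nat_lit 17061138),Int.negSucc (nat_lit 59028786),Int.negSucc (nat_lit 113401300),Int.negSucc (nat_lit 109113082),Int.negSucc (nat_lit 83197686),Int.ofNat (nat_lit 51426904),Int.ofNat (nat_lit 32461500),Int.ofNat (nat_lit 26215089),Int.ofNat (nat_lit 114094329),Int.ofNat (nat_lit 79291115),Int.ofNat (nat_lit 30890167),Int.negSucc (nat_lit 75338493),Int.ofNat (nat_lit 9857808),Int.negSucc (nat_lit 43582539),Int.ofNat (nat_lit 120781743),Int.ofNat (nat_lit 13586384),Int.ofNat (nat_lit 260728337),Int.negSucc (nat_lit 110577858),Int.ofNat (nat_lit 174489358),Int.ofNat (nat_lit 170242934),Int.ofNat (nat_lit 62721920),Int.ofNat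 (nat_lit 2872224),Int.negSucc (nat_lit 24967785),Int.ofNat (nat_lit 243779658),Int.negSucc (nat_lit 42768919),Int.negSucc (nat_lit 80284135),Int.negSucc (nat_lit 19022363),Int.ofNat (nat_lit 45414485),Int.negSucc (nat_lit 132558612),Int.ofNat (nat_lit 149585463),Int.negSucc (nat_lit 70651846),Int.ofNat (nat_lit 42610972),Int.negSucc (nat_lit 67453860),Int.negSucc (nat_lit 45732391),Int.ofNat (nat_lit 61609579),Int.ofNat (nat_lit 68237747),Int.ofNat (nat_lit 105230232),Int.negSucc (nat_lit 58967261),Int.negSucc (nat_lit 4308912),Int.negSucc (nat_lit 65701519),Int.ofNat (nat_lit 102835897),Int.negSucc (nat_lit 57667523),Int.negSucc (nat_lit 54232002),Int.ofNat (nat_lit 73464940),Int.ofNat (nat_lit 93167176),Int.negSucc (nat_lit 118057404),Int.negSucc (nat_lit 43694254),Int.negSucc (nat_lit 10628812),Int.negSucc (nat_lit 220756174),Int.negSucc (nat_lit 218917911),Int.negSucc (nat_lit 339907429),Int.negSucc (nat_lit 46578828),Int.negSucc (nat_lit 160578750),Int.ofNat (nat_lit 553184626),Int.negSucc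 (nat_lit 56596856),Int.negSucc (nat_lit 31683879),Int.negSucc (nat_lit 24271368),Int.ofNat (nat_lit 55344835),Int.ofNat (nat_lit 66486156),Int.ofNat (nat_lit 41108195),Int.ofNat (nat_lit 20450103),Int.ofNat (nat_lit 62871164),Int.negSucc (nat_lit 156922721),Int.negSucc (nat_lit 30669294),Int.negSucc (nat_lit 28087445),Int.ofNat (nat_lit 73806406),Int.negSucc (nat_lit 82397114),Int.ofNat (nat_lit 39621815),Int.ofNat (nat_lit 9031265),Int.ofNat (nat_lit 8946486),Int.negSucc (nat_lit 39491587),Int.negSucc (nat_lit 23432411),Int.ofNat (nat_lit 150228725),Int.negSucc (nat_lit 15157115),Int.ofNat (nat_lit 132730519),Int.ofNat (nat_lit 179085446),Int.negSucc (nat_lit 801716417),Int.negSucc (nat_lit 570864310),Int.negSucc (nat_lit 164359757),Int.ofNat (nat_lit 431138271),Int.negSucc (nat_lit 362191659),Int.ofNat (nat_lit 56251662),Int.ofNat (nat_lit 966782348),Int.negSucc (nat_lit 470574540),Int.negSucc (nat_lit 970321190),Int.negSucc (nat_lit 611625855),Int.ofNat (nat_lit 967214301),Int.negSucc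 (nat_lit 1011413061),Int.ofNat (nat_lit 1226209111)])

/-- A row. -/
noncomputable def sr7_c3_18 : List ℕ × List ℤ :=
  ([(nat_lit 1),(nat_lit 0),(nat_lit 0),(nat_lit 0),(nat_lit 0),(nat_lit 0),(nat_lit 0),(nat_lit 0),(nat_lit 0),(nat_lit 0),(nat_lit 0),(nat_lit 0)], [Int.ofNat (nat_lit 734192631),Int.ofNat (nat_lit 824254718),Int.negSucc (nat_lit 108754287),Int.ofNat (nat_lit 493075476),Int.ofNat (nat_lit 540524543),Int.negSucc (nat_lit 540326081),Int.ofNat (nat_lit 231095345),Int.ofNat (nat_lit 25269848),Int.ofNat (nat_lit 232004707),Int.ofNat (nat_lit 500306973),Int.negSucc (nat_lit 843609141),Int.ofNat (nat_lit 376397324),Int.ofNat (nat_lit 299212893),Int.negSucc (nat_lit 130575482),Int.ofNat (nat_lit 106625536),Int.ofNat (nat_lit 386787312),Int.negSucc (nat_lit 411411760),Int.ofNat (nat_lit 387609909),Int.ofNat (nat_lit 167081494),Int.ofNat (nat_lit 617471832),Int.ofNat (nat_lit 454955140),Int.negSucc (nat_lit 183826040),Int.negSucc (nat_lit 333918536),Int.ofNat (nat_lit 820418253),Int.negSucc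 (nat_lit 152173037),Int.negSucc (nat_lit 326973407),Int.negSucc (nat_lit 458789393),Int.negSucc (nat_lit 418835964),Int.ofNat (nat_lit 458832469),Int.ofNat (nat_lit 95820157),Int.negSucc (nat_lit 208263061),Int.ofNat (nat_lit 239610608),Int.negSucc (nat_lit 524835081),Int.negSucc (nat_lit 663128061),Int.negSucc (nat_lit 389221749),Int.negSucc (nat_lit 224615815),Int.ofNat (nat_lit 79420706),Int.negSucc (nat_lit 297828016),Int.negSucc (nat_lit 33995876),Int.ofNat (nat_lit 25121292),Int.ofNat (nat_lit 514582267),Int.ofNat (nat_lit 63272159),Int.negSucc (nat_lit 300350748),Int.ofNat (nat_lit 619049),Int.negSucc (nat_lit 33194525),Int.negSucc (nat_lit 28692774),Int.negSucc (nat_lit 49291019),Int.negSucc (nat_lit 20407825),Int.negSucc (nat_lit 158717395),Int.ofNat (nat_lit 362492779),Int.negSucc (nat_lit 98763534),Int.negSucc (nat_lit 111051100),Int.negSucc (nat_lit 17591686),Int.negSucc (nat_lit 10575468),Int.ofNat (nat_lit 112013627),Int.negSucc (nat_lit 109840284),Int.ofNat (nat_lit 56772671),Int.ofNat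 (nat_lit 109222050),Int.negSucc (nat_lit 360557557),Int.negSucc (nat_lit 309695306),Int.negSucc (nat_lit 69250900),Int.negSucc (nat_lit 303519693),Int.ofNat (nat_lit 28922307),Int.ofNat (nat_lit 130587702),Int.negSucc (nat_lit 40349915),Int.ofNat (nat_lit 312233567),Int.negSucc (nat_lit 44404882),Int.ofNat (nat_lit 86481146),Int.negSucc (nat_lit 248248313),Int.negSucc (nat_lit 156678704),Int.negSucc (nat_lit 152851289),Int.ofNat (nat_lit 710299350),Int.ofNat (nat_lit 90210754),Int.ofNat (nat_lit 193435134),Int.negSucc (nat_lit 80228291),Int.ofNat (nat_lit 57782801),Int.negSucc (nat_lit 859403836),Int.ofNat (nat_lit 270422675),Int.negSucc (nat_lit 412019261),Int.ofNat (nat_lit 391484191),Int.ofNat (nat_lit 505383641),Int.negSucc (nat_lit 10366130),Int.negSucc (nat_lit 99725294),Int.negSucc (nat_lit 10107974),Int.ofNat (nat_lit 136807438),Int.negSucc (nat_lit 80870879),Int.negSucc (nat_lit 27299864),Int.ofNat (nat_lit 19713245),Int.negSucc (nat_lit 95209158),Int.ofNat (nat_lit 193025617),Int.negSucc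 (nat_lit 213168655),Int.ofNat (nat_lit 459722442),Int.ofNat (nat_lit 34388046),Int.negSucc (nat_lit 169123883),Int.ofNat (nat_lit 90959661),Int.ofNat (nat_lit 93420258),Int.ofNat (nat_lit 115108744),Int.ofNat (nat_lit 80607439),Int.ofNat (nat_lit 46911525),Int.negSucc (nat_lit 42797526),Int.negSucc (nat_lit 204750812),Int.negSucc (nat_lit 12362955),Int.negSucc (nat_lit 59215583),Int.negSucc (nat_lit 485991686),Int.ofNat (nat_lit 51792200),Int.negSucc (nat_lit 148961055),Int.ofNat (nat_lit 143310374),Int.ofNat (nat_lit 95432481),Int.negSucc (nat_lit 77872865),Int.negSucc (nat_lit 95564131),Int.negSucc (nat_lit 43830768),Int.ofNat (nat_lit 11960499),Int.ofNat (nat_lit 45495069),Int.negSucc (nat_lit 52643504),Int.negSucc (nat_lit 134548194),Int.negSucc (nat_lit 101648865),Int.ofNat (nat_lit 45769210),Int.ofNat (nat_lit 32415360),Int.ofNat (nat_lit 328301598),Int.negSucc (nat_lit 6691449),Int.negSucc (nat_lit 43141857),Int.ofNat (nat_lit 255032707),Int.ofNat (nat_lit 122921402),Int.ofNat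 (nat_lit 41534239),Int.negSucc (nat_lit 49433234),Int.negSucc (nat_lit 86596158),Int.negSucc (nat_lit 73184782),Int.negSucc (nat_lit 56017238),Int.ofNat (nat_lit 60151786),Int.negSucc (nat_lit 119593173),Int.ofNat (nat_lit 189329418),Int.negSucc (nat_lit 27634913),Int.negSucc (nat_lit 21785555),Int.ofNat (nat_lit 24282500),Int.ofNat (nat_lit 41905438),Int.ofNat (nat_lit 90832876),Int.negSucc (nat_lit 69497573),Int.ofNat (nat_lit 4923583),Int.negSucc (nat_lit 94845596),Int.negSucc (nat_lit 107946908),Int.ofNat (nat_lit 103349459),Int.ofNat (nat_lit 69365751),Int.ofNat (nat_lit 24669196),Int.negSucc (nat_lit 47088239),Int.negSucc (nat_lit 65203917),Int.ofNat (nat_lit 63453487),Int.ofNat (nat_lit 89143051),Int.ofNat (nat_lit 58542850),Int.ofNat (nat_lit 106367590),Int.negSucc (nat_lit 47961951),Int.negSucc (nat_lit 128916131),Int.negSucc (nat_lit 6194633),Int.negSucc (nat_lit 89306964),Int.negSucc (nat_lit 16632082),Int.ofNat (nat_lit 114319796),Int.ofNat (nat_lit 46600010),Int.ofNat (nat_lit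 18081016),Int.ofNat (nat_lit 27180979),Int.negSucc (nat_lit 87855064),Int.ofNat (nat_lit 42495671),Int.negSucc (nat_lit 14821853),Int.negSucc (nat_lit 26875912),Int.ofNat (nat_lit 53304338),Int.negSucc (nat_lit 10398097),Int.negSucc (nat_lit 30794661),Int.negSucc (nat_lit 87488112),Int.negSucc (nat_lit 13796344),Int.negSucc (nat_lit 96866870),Int.ofNat (nat_lit 26967577),Int.ofNat (nat_lit 8009614),Int.negSucc (nat_lit 19260933),Int.negSucc (nat_lit 24458871),Int.negSucc (nat_lit 99656263),Int.ofNat (nat_lit 32129918),Int.negSucc (nat_lit 1406663340),Int.negSucc (nat_lit 38614265),Int.ofNat (nat_lit 433387895),Int.negSucc (nat_lit 312831565),Int.negSucc (nat_lit 227257209),Int.negSucc (nat_lit 332518292),Int.ofNat (nat_lit 239881938),Int.negSucc (nat_lit 353181098),Int.ofNat (nat_lit 39507321),Int.negSucc (nat_lit 120786177),Int.negSucc (nat_lit 35938775),Int.ofNat (nat_lit 152533778),Int.ofNat (nat_lit 37394935),Int.negSucc (nat_lit 257655508),Int.ofNat (nat_lit 49109623),Int.negSucc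 (nat_lit 59522741),Int.negSucc (nat_lit 36842761),Int.negSucc (nat_lit 6607705),Int.ofNat (nat_lit 748733369)])

/-- A row. -/
noncomputable def sr7_c3_19 : List ℕ × List ℤ :=
  ([(nat_lit 1),(nat_lit 0),(nat_lit 0),(nat_lit 0),(nat_lit 0),(nat_lit 0),(nat_lit 1),(nat_lit 0),(nat_lit 0),(nat_lit 0),(nat_lit 0),(nat_lit 0)], [Int.negSucc (nat_lit 304344102),Int.negSucc (nat_lit 253320012),Int.negSucc (nat_lit 623014674),Int.negSucc (nat_lit 151207657),Int.negSucc (nat_lit 180832048),Int.ofNat (nat_lit 595384176),Int.ofNat (nat_lit 73663354),Int.negSucc (nat_lit 51442861),Int.ofNat (nat_lit 129907859),Int.ofNat (nat_lit 19805772),Int.ofNat (nat_lit 46006132),Int.negSucc (nat_lit 349647286),Int.ofNat (nat_lit 43152719),Int.negSucc (nat_lit 250004374),Int.ofNat (nat_lit 291744618),Int.negSucc (nat_lit 285335461),Int.negSucc (nat_lit 27537179),Int.negSucc (nat_lit 185145561),Int.ofNat (nat_lit 84343173),Int.negSucc (nat_lit 1740073),Int.negSucc (nat_lit 120538565),Int.ofNat (nat_lit 115358185),Int.ofNat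 (nat_lit 197684185),Int.negSucc (nat_lit 6586257),Int.ofNat (nat_lit 38485862),Int.ofNat (nat_lit 26836932),Int.negSucc (nat_lit 23857867),Int.negSucc (nat_lit 63366361),Int.negSucc (nat_lit 54397762),Int.ofNat (nat_lit 21180326),Int.ofNat (nat_lit 26790513),Int.ofNat (nat_lit 55921098),Int.negSucc (nat_lit 223120630),Int.ofNat (nat_lit 23649614),Int.ofNat (nat_lit 22170040),Int.ofNat (nat_lit 86454826),Int.negSucc (nat_lit 13468452),Int.ofNat (nat_lit 84316323),Int.ofNat (nat_lit 91699076),Int.ofNat (nat_lit 142608429),Int.negSucc (nat_lit 38101580),Int.ofNat (nat_lit 29969549),Int.ofNat (nat_lit 24833909),Int.ofNat (nat_lit 58506203),Int.negSucc (nat_lit 54551080),Int.negSucc (nat_lit 14611785),Int.negSucc (nat_lit 61640917),Int.ofNat (nat_lit 26350177),Int.ofNat (nat_lit 16423061),Int.ofNat (nat_lit 67169664),Int.negSucc (nat_lit 7496479),Int.ofNat (nat_lit 58061940),Int.ofNat (nat_lit 18721157),Int.ofNat (nat_lit 42213191),Int.ofNat (nat_lit 37563706),Int.ofNat (nat_lit 9914472),Int.ofNat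 (nat_lit 35340039),Int.negSucc (nat_lit 2512349),Int.ofNat (nat_lit 144287239),Int.ofNat (nat_lit 22175855),Int.ofNat (nat_lit 45437201),Int.ofNat (nat_lit 52961503),Int.ofNat (nat_lit 4720398),Int.ofNat (nat_lit 55521653),Int.ofNat (nat_lit 8675281),Int.ofNat (nat_lit 95892705),Int.ofNat (nat_lit 16906619),Int.negSucc (nat_lit 79953501),Int.ofNat (nat_lit 1024739),Int.negSucc (nat_lit 19970017),Int.ofNat (nat_lit 1383388),Int.negSucc (nat_lit 37392167),Int.ofNat (nat_lit 4826661),Int.ofNat (nat_lit 53551098),Int.negSucc (nat_lit 18914858),Int.negSucc (nat_lit 31080716),Int.ofNat (nat_lit 39146236),Int.ofNat (nat_lit 24438302),Int.negSucc (nat_lit 4109),Int.negSucc (nat_lit 95047252),Int.negSucc (nat_lit 57911963),Int.negSucc (nat_lit 13303247),Int.ofNat (nat_lit 73360669),Int.ofNat (nat_lit 11541095),Int.negSucc (nat_lit 16354207),Int.negSucc (nat_lit 10032756),Int.negSucc (nat_lit 45144244),Int.ofNat (nat_lit 14850168),Int.ofNat (nat_lit 35543920),Int.ofNat (nat_lit 27737103),Int.ofNat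 (nat_lit 50779499),Int.negSucc (nat_lit 1350842),Int.negSucc (nat_lit 8369282),Int.negSucc (nat_lit 45234380),Int.negSucc (nat_lit 24375856),Int.negSucc (nat_lit 5958640),Int.negSucc (nat_lit 24620892),Int.ofNat (nat_lit 5901338),Int.negSucc (nat_lit 29573431),Int.ofNat (nat_lit 3020959),Int.negSucc (nat_lit 65311272),Int.negSucc (nat_lit 3023937),Int.negSucc (nat_lit 76128384),Int.ofNat (nat_lit 35641613),Int.ofNat (nat_lit 55790684),Int.negSucc (nat_lit 18669641),Int.ofNat (nat_lit 3179936),Int.ofNat (nat_lit 35119392),Int.ofNat (nat_lit 15252385),Int.negSucc (nat_lit 35618817),Int.negSucc (nat_lit 9371216),Int.negSucc (nat_lit 40997966),Int.negSucc (nat_lit 23143808),Int.ofNat (nat_lit 10219273),Int.negSucc (nat_lit 15104705),Int.negSucc (nat_lit 424251),Int.ofNat (nat_lit 30412252),Int.ofNat (nat_lit 5835575),Int.ofNat (nat_lit 5197354),Int.ofNat (nat_lit 59676720),Int.negSucc (nat_lit 21247171),Int.ofNat (nat_lit 32089317),Int.ofNat (nat_lit 29370799),Int.ofNat (nat_lit 8986823),Int.ofNat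 (nat_lit 5053753),Int.ofNat (nat_lit 10290924),Int.negSucc (nat_lit 41854569),Int.ofNat (nat_lit 2342631),Int.negSucc (nat_lit 2201777),Int.negSucc (nat_lit 11199114),Int.ofNat (nat_lit 31631649),Int.negSucc (nat_lit 12743546),Int.ofNat (nat_lit 19248396),Int.ofNat (nat_lit 20939337),Int.negSucc (nat_lit 46999394),Int.ofNat (nat_lit 1058366),Int.negSucc (nat_lit 28026423),Int.ofNat (nat_lit 4242357),Int.negSucc (nat_lit 24113403),Int.ofNat (nat_lit 44546907),Int.negSucc (nat_lit 101294496),Int.ofNat (nat_lit 36996471),Int.ofNat (nat_lit 24116918),Int.negSucc (nat_lit 8345618),Int.ofNat (nat_lit 3568066),Int.ofNat (nat_lit 3571568),Int.ofNat (nat_lit 754490),Int.negSucc (nat_lit 50550776),Int.negSucc (nat_lit 6875488),Int.negSucc (nat_lit 10821741),Int.ofNat (nat_lit 1817479),Int.ofNat (nat_lit 38073546),Int.negSucc (nat_lit 3753403),Int.ofNat (nat_lit 12683944),Int.negSucc (nat_lit 12774930),Int.negSucc (nat_lit 20963969),Int.ofNat (nat_lit 11656797),Int.ofNat (nat_lit 4948568),Int.negSucc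 (nat_lit 10716211),Int.negSucc (nat_lit 450113),Int.ofNat (nat_lit 26214909),Int.negSucc (nat_lit 6466685),Int.ofNat (nat_lit 30867079),Int.negSucc (nat_lit 19540400),Int.ofNat (nat_lit 7879945),Int.ofNat (nat_lit 13650042),Int.ofNat (nat_lit 7772793),Int.ofNat (nat_lit 9031421),Int.ofNat (nat_lit 29273096),Int.ofNat (nat_lit 11895958),Int.negSucc (nat_lit 1259013),Int.negSucc (nat_lit 15592278),Int.negSucc (nat_lit 14819542),Int.ofNat (nat_lit 1607425),Int.negSucc (nat_lit 96959513),Int.negSucc (nat_lit 5600607),Int.negSucc (nat_lit 351577304),Int.ofNat (nat_lit 11158929),Int.ofNat (nat_lit 25811637),Int.negSucc (nat_lit 11994580),Int.negSucc (nat_lit 2224566),Int.ofNat (nat_lit 17379154),Int.ofNat (nat_lit 2312710),Int.negSucc (nat_lit 15748637),Int.ofNat (nat_lit 650789),Int.ofNat (nat_lit 21040082),Int.ofNat (nat_lit 10216480),Int.negSucc (nat_lit 1371536),Int.negSucc (nat_lit 6148099),Int.negSucc (nat_lit 6106138),Int.negSucc (nat_lit 4197807),Int.ofNat (nat_lit 1570067),Int.negSucc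 (nat_lit 587176),Int.ofNat (nat_lit 70353878)])

/-- A row. -/
noncomputable def sr7_c3_20 : List ℕ × List ℤ :=
  ([(nat_lit 1),(nat_lit 0),(nat_lit 0),(nat_lit 0),(nat_lit 1),(nat_lit 0),(nat_lit 0),(nat_lit 0),(nat_lit 0),(nat_lit 0),(nat_lit 0),(nat_lit 0)], [Int.ofNat (nat_lit 363741365),Int.negSucc (nat_lit 161486580),Int.negSucc (nat_lit 727925799),Int.ofNat (nat_lit 1287052668),Int.ofNat (nat_lit 111272342),Int.negSucc (nat_lit 1082911642),Int.ofNat (nat_lit 467617455),Int.negSucc (nat_lit 621680043),Int.negSucc (nat_lit 710386676),Int.negSucc (nat_lit 584341998),Int.negSucc (nat_lit 22637477),Int.ofNat (nat_lit 511723463),Int.negSucc (nat_lit 481159099),Int.negSucc (nat_lit 225918962),Int.negSucc (nat_lit 303565761),Int.negSucc (nat_lit 87480867),Int.negSucc (nat_lit 115084149),Int.ofNat (nat_lit 588583583),Int.negSucc (nat_lit 475247412),Int.negSucc (nat_lit 117521799),Int.ofNat (nat_lit 60950943),Int.negSucc (nat_lit 538358803),Int.negSucc (nat_lit 7852602),Int.negSucc (nat_lit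 150355899),Int.negSucc (nat_lit 84899163),Int.ofNat (nat_lit 76072060),Int.negSucc (nat_lit 32686999),Int.ofNat (nat_lit 120046738),Int.negSucc (nat_lit 4534958),Int.negSucc (nat_lit 146630496),Int.negSucc (nat_lit 21727208),Int.negSucc (nat_lit 63357046),Int.ofNat (nat_lit 787851616),Int.ofNat (nat_lit 292468755),Int.negSucc (nat_lit 112623589),Int.ofNat (nat_lit 36215314),Int.ofNat (nat_lit 76277330),Int.negSucc (nat_lit 195255972),Int.negSucc (nat_lit 5904179),Int.negSucc (nat_lit 301820354),Int.negSucc (nat_lit 234302499),Int.ofNat (nat_lit 332911654),Int.ofNat (nat_lit 303267459),Int.ofNat (nat_lit 235793502),Int.negSucc (nat_lit 35424550),Int.ofNat (nat_lit 233171577),Int.negSucc (nat_lit 9436237),Int.ofNat (nat_lit 60376987),Int.ofNat (nat_lit 162470256),Int.negSucc (nat_lit 449935674),Int.negSucc (nat_lit 172315093),Int.negSucc (nat_lit 192692534),Int.ofNat (nat_lit 396004739),Int.negSucc (nat_lit 86251253),Int.negSucc (nat_lit 331215619),Int.negSucc (nat_lit 23605467),Int.ofNat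 (nat_lit 70399142),Int.negSucc (nat_lit 319172320),Int.ofNat (nat_lit 234010749),Int.ofNat (nat_lit 18780816),Int.ofNat (nat_lit 360099635),Int.ofNat (nat_lit 348671962),Int.negSucc (nat_lit 4624583),Int.negSucc (nat_lit 133789539),Int.ofNat (nat_lit 84201763),Int.negSucc (nat_lit 286804664),Int.ofNat (nat_lit 57916067),Int.ofNat (nat_lit 71403036),Int.negSucc (nat_lit 15260812),Int.ofNat (nat_lit 444077813),Int.ofNat (nat_lit 278402071),Int.ofNat (nat_lit 184748143),Int.ofNat (nat_lit 187908838),Int.negSucc (nat_lit 109451160),Int.negSucc (nat_lit 84266779),Int.negSucc (nat_lit 39243754),Int.ofNat (nat_lit 196782621),Int.negSucc (nat_lit 27875004),Int.negSucc (nat_lit 282403864),Int.negSucc (nat_lit 69109597),Int.negSucc (nat_lit 43310614),Int.negSucc (nat_lit 210779059),Int.negSucc (nat_lit 39772354),Int.ofNat (nat_lit 44081029),Int.negSucc (nat_lit 68538662),Int.negSucc (nat_lit 376461),Int.negSucc (nat_lit 35914950),Int.negSucc (nat_lit 53518475),Int.ofNat (nat_lit 38721719),Int.negSucc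 (nat_lit 48184836),Int.ofNat (nat_lit 27708361),Int.negSucc (nat_lit 50461666),Int.negSucc (nat_lit 63217566),Int.negSucc (nat_lit 9801614),Int.ofNat (nat_lit 21949329),Int.negSucc (nat_lit 64783179),Int.negSucc (nat_lit 172565242),Int.ofNat (nat_lit 90372107),Int.negSucc (nat_lit 77111918),Int.ofNat (nat_lit 28294170),Int.ofNat (nat_lit 133340150),Int.ofNat (nat_lit 141527872),Int.ofNat (nat_lit 55436090),Int.ofNat (nat_lit 124736180),Int.negSucc (nat_lit 144084285),Int.ofNat (nat_lit 69136153),Int.negSucc (nat_lit 73049782),Int.negSucc (nat_lit 70062775),Int.negSucc (nat_lit 58232607),Int.ofNat (nat_lit 41255468),Int.ofNat (nat_lit 24458074),Int.ofNat (nat_lit 20081662),Int.ofNat (nat_lit 42731587),Int.negSucc (nat_lit 100762197),Int.ofNat (nat_lit 86894596),Int.ofNat (nat_lit 49626973),Int.negSucc (nat_lit 6729572),Int.negSucc (nat_lit 71740327),Int.ofNat (nat_lit 4018304),Int.negSucc (nat_lit 98362252),Int.ofNat (nat_lit 153424481),Int.negSucc (nat_lit 207009751),Int.negSucc (nat_lit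 92068386),Int.negSucc (nat_lit 24957066),Int.ofNat (nat_lit 44729035),Int.ofNat (nat_lit 110754997),Int.ofNat (nat_lit 227494163),Int.ofNat (nat_lit 71030652),Int.ofNat (nat_lit 9549171),Int.negSucc (nat_lit 155286545),Int.negSucc (nat_lit 242752488),Int.ofNat (nat_lit 96696328),Int.negSucc (nat_lit 51770027),Int.negSucc (nat_lit 79291707),Int.ofNat (nat_lit 21601574),Int.negSucc (nat_lit 107954032),Int.ofNat (nat_lit 74060858),Int.ofNat (nat_lit 38420759),Int.ofNat (nat_lit 59883611),Int.ofNat (nat_lit 59559486),Int.negSucc (nat_lit 47485950),Int.negSucc (nat_lit 63850364),Int.ofNat (nat_lit 39469857),Int.ofNat (nat_lit 74238310),Int.ofNat (nat_lit 41739618),Int.negSucc (nat_lit 70432430),Int.ofNat (nat_lit 1285781),Int.negSucc (nat_lit 20278973),Int.negSucc (nat_lit 92189842),Int.negSucc (nat_lit 10540306),Int.negSucc (nat_lit 10533405),Int.negSucc (nat_lit 5530602),Int.ofNat (nat_lit 24954074),Int.ofNat (nat_lit 40106571),Int.negSucc (nat_lit 53512759),Int.negSucc (nat_lit 66172906),Int.ofNat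 (nat_lit 27897125),Int.ofNat (nat_lit 15283914),Int.ofNat (nat_lit 64126758),Int.negSucc (nat_lit 32134119),Int.ofNat (nat_lit 48642566),Int.negSucc (nat_lit 9093825),Int.negSucc (nat_lit 37570470),Int.negSucc (nat_lit 32482673),Int.ofNat (nat_lit 6085715),Int.negSucc (nat_lit 27801092),Int.negSucc (nat_lit 56740473),Int.ofNat (nat_lit 95841525),Int.negSucc (nat_lit 11050017),Int.ofNat (nat_lit 45860459),Int.negSucc (nat_lit 24411446),Int.ofNat (nat_lit 2792381),Int.ofNat (nat_lit 27769571),Int.negSucc (nat_lit 18249136),Int.ofNat (nat_lit 765489714),Int.ofNat (nat_lit 235112668),Int.negSucc (nat_lit 258297835),Int.negSucc (nat_lit 953713834),Int.ofNat (nat_lit 74574532),Int.ofNat (nat_lit 130095379),Int.negSucc (nat_lit 111008583),Int.ofNat (nat_lit 247958270),Int.ofNat (nat_lit 1028768),Int.ofNat (nat_lit 89644985),Int.ofNat (nat_lit 48017464),Int.negSucc (nat_lit 101719687),Int.ofNat (nat_lit 51120621),Int.ofNat (nat_lit 51492524),Int.negSucc (nat_lit 162988481),Int.ofNat (nat_lit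 26371236),Int.ofNat (nat_lit 49318529),Int.negSucc (nat_lit 19928039),Int.negSucc (nat_lit 141525440),Int.negSucc (nat_lit 128930795),Int.ofNat (nat_lit 247787792)])

/-- A row. -/
noncomputable def sr7_c3_21 : List ℕ × List ℤ :=
  ([(nat_lit 1),(nat_lit 0),(nat_lit 0),(nat_lit 2),(nat_lit 0),(nat_lit 0),(nat_lit 0),(nat_lit 0),(nat_lit 0),(nat_lit 0),(nat_lit 0),(nat_lit 0)], [Int.ofNat (nat_lit 549545274),Int.ofNat (nat_lit 68514467),Int.ofNat (nat_lit 295107667),Int.ofNat (nat_lit 302104187),Int.ofNat (nat_lit 150447197),Int.negSucc (nat_lit 353599975),Int.negSucc (nat_lit 323726571),Int.negSucc (nat_lit 301090417),Int.negSucc (nat_lit 371195498),Int.ofNat (nat_lit 34649039),Int.negSucc (nat_lit 79513807),Int.negSucc (nat_lit 86615009),Int.negSucc (nat_lit 177403140),Int.ofNat (nat_lit 136717616),Int.negSucc (nat_lit 158282817),Int.ofNat (nat_lit 38577924),Int.negSucc (nat_lit 164532992),Int.negSucc (nat_lit 162976350),Int.negSucc (nat_lit 274515206),Int.ofNat (nat_lit 10180779),Int.negSucc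 (nat_lit 13550053),Int.negSucc (nat_lit 66562461),Int.negSucc (nat_lit 17754272),Int.ofNat (nat_lit 38423606),Int.negSucc (nat_lit 877521),Int.negSucc (nat_lit 24663054),Int.negSucc (nat_lit 66918954),Int.negSucc (nat_lit 8251914),Int.ofNat (nat_lit 145216333),Int.negSucc (nat_lit 72566591),Int.negSucc (nat_lit 65443760),Int.ofNat (nat_lit 32960906),Int.ofNat (nat_lit 80303229),Int.negSucc (nat_lit 81726740),Int.ofNat (nat_lit 67559846),Int.negSucc (nat_lit 86588141),Int.ofNat (nat_lit 104598724),Int.ofNat (nat_lit 35562793),Int.negSucc (nat_lit 38135008),Int.negSucc (nat_lit 4498835),Int.ofNat (nat_lit 54143228),Int.negSucc (nat_lit 27307059),Int.ofNat (nat_lit 75800794),Int.negSucc (nat_lit 143906483),Int.negSucc (nat_lit 14964243),Int.ofNat (nat_lit 17977886),Int.negSucc (nat_lit 66666608),Int.negSucc (nat_lit 32283411),Int.negSucc (nat_lit 47748712),Int.negSucc (nat_lit 55693810),Int.negSucc (nat_lit 3651837),Int.negSucc (nat_lit 83101349),Int.negSucc (nat_lit 269221432),Int.ofNat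 (nat_lit 40949790),Int.negSucc (nat_lit 51139842),Int.negSucc (nat_lit 34666053),Int.ofNat (nat_lit 34488463),Int.ofNat (nat_lit 2034591),Int.ofNat (nat_lit 38149097),Int.ofNat (nat_lit 180199760),Int.negSucc (nat_lit 23228136),Int.ofNat (nat_lit 45548179),Int.ofNat (nat_lit 77314281),Int.negSucc (nat_lit 218608065),Int.negSucc (nat_lit 43630772),Int.negSucc (nat_lit 58151389),Int.negSucc (nat_lit 489358),Int.ofNat (nat_lit 46819122),Int.ofNat (nat_lit 20021284),Int.ofNat (nat_lit 82762628),Int.negSucc (nat_lit 146874256),Int.ofNat (nat_lit 86904885),Int.negSucc (nat_lit 54883627),Int.ofNat (nat_lit 50980488),Int.ofNat (nat_lit 57951512),Int.ofNat (nat_lit 113581968),Int.ofNat (nat_lit 51074877),Int.ofNat (nat_lit 15407950),Int.ofNat (nat_lit 38946165),Int.ofNat (nat_lit 38152693),Int.ofNat (nat_lit 34621678),Int.ofNat (nat_lit 46464115),Int.ofNat (nat_lit 2314667),Int.negSucc (nat_lit 5757658),Int.ofNat (nat_lit 54352344),Int.negSucc (nat_lit 68312177),Int.negSucc (nat_lit 20433148),Int.ofNat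 (nat_lit 37917384),Int.negSucc (nat_lit 61639140),Int.negSucc (nat_lit 5155285),Int.negSucc (nat_lit 2424138),Int.ofNat (nat_lit 114269674),Int.ofNat (nat_lit 23887682),Int.ofNat (nat_lit 2685707),Int.ofNat (nat_lit 14929455),Int.ofNat (nat_lit 11403765),Int.ofNat (nat_lit 26042791),Int.ofNat (nat_lit 20321681),Int.ofNat (nat_lit 16625494),Int.negSucc (nat_lit 719661),Int.ofNat (nat_lit 66856086),Int.ofNat (nat_lit 26104879),Int.negSucc (nat_lit 12431591),Int.negSucc (nat_lit 43262660),Int.ofNat (nat_lit 7449092),Int.negSucc (nat_lit 35638609),Int.negSucc (nat_lit 42895268),Int.negSucc (nat_lit 28214382),Int.ofNat (nat_lit 24693173),Int.negSucc (nat_lit 5346499),Int.negSucc (nat_lit 13880516),Int.ofNat (nat_lit 30887664),Int.ofNat (nat_lit 39648166),Int.ofNat (nat_lit 250129),Int.negSucc (nat_lit 40835167),Int.negSucc (nat_lit 27762890),Int.negSucc (nat_lit 1444163),Int.ofNat (nat_lit 21262791),Int.negSucc (nat_lit 5130677),Int.negSucc (nat_lit 22313555),Int.ofNat (nat_lit 18110903),Int.ofNat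 (nat_lit 103272142),Int.negSucc (nat_lit 3590642),Int.ofNat (nat_lit 6008863),Int.ofNat (nat_lit 5988069),Int.negSucc (nat_lit 53593524),Int.ofNat (nat_lit 18598952),Int.negSucc (nat_lit 59813094),Int.ofNat (nat_lit 15982932),Int.negSucc (nat_lit 45604280),Int.ofNat (nat_lit 90033915),Int.negSucc (nat_lit 16920590),Int.ofNat (nat_lit 60976968),Int.negSucc (nat_lit 36238196),Int.ofNat (nat_lit 25872526),Int.ofNat (nat_lit 2926941),Int.ofNat (nat_lit 17920433),Int.negSucc (nat_lit 7266355),Int.ofNat (nat_lit 41037303),Int.ofNat (nat_lit 17474966),Int.ofNat (nat_lit 100100001),Int.ofNat (nat_lit 4857393),Int.negSucc (nat_lit 20254625),Int.negSucc (nat_lit 21867227),Int.ofNat (nat_lit 22356837),Int.ofNat (nat_lit 81498431),Int.ofNat (nat_lit 20917839),Int.ofNat (nat_lit 67848468),Int.ofNat (nat_lit 1531318),Int.negSucc (nat_lit 34682378),Int.negSucc (nat_lit 29598671),Int.negSucc (nat_lit 54273149),Int.negSucc (nat_lit 25590509),Int.negSucc (nat_lit 24920955),Int.ofNat (nat_lit 36687576),Int.negSucc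 (nat_lit 15493220),Int.ofNat (nat_lit 27250508),Int.negSucc (nat_lit 44697475),Int.negSucc (nat_lit 48809319),Int.negSucc (nat_lit 47030973),Int.negSucc (nat_lit 26897689),Int.ofNat (nat_lit 24300200),Int.negSucc (nat_lit 66437281),Int.ofNat (nat_lit 29716747),Int.ofNat (nat_lit 32366491),Int.negSucc (nat_lit 28447418),Int.ofNat (nat_lit 50875316),Int.ofNat (nat_lit 28720491),Int.negSucc (nat_lit 11886572),Int.ofNat (nat_lit 19332440),Int.negSucc (nat_lit 21466675),Int.negSucc (nat_lit 22317217),Int.ofNat (nat_lit 21126708),Int.negSucc (nat_lit 6194963),Int.ofNat (nat_lit 31759486),Int.ofNat (nat_lit 21822635),Int.ofNat (nat_lit 187428804),Int.negSucc (nat_lit 107684484),Int.ofNat (nat_lit 45148190),Int.negSucc (nat_lit 601074134),Int.negSucc (nat_lit 33877388),Int.ofNat (nat_lit 19247432),Int.negSucc (nat_lit 6857320),Int.ofNat (nat_lit 48179869),Int.ofNat (nat_lit 45110233),Int.negSucc (nat_lit 40594017),Int.ofNat (nat_lit 13020210),Int.ofNat (nat_lit 16549107),Int.negSucc (nat_lit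 54244783),Int.ofNat (nat_lit 23702483),Int.ofNat (nat_lit 15777696),Int.negSucc (nat_lit 3505457),Int.negSucc (nat_lit 29974323),Int.negSucc (nat_lit 63854201),Int.ofNat (nat_lit 77713327),Int.ofNat (nat_lit 180940823)])

/-- A row. -/
noncomputable def sr7_c3_22 : List ℕ × List ℤ :=
  ([(nat_lit 1),(nat_lit 0),(nat_lit 1),(nat_lit 0),(nat_lit 0),(nat_lit 0),(nat_lit 0),(nat_lit 0),(nat_lit 0),(nat_lit 0),(nat_lit 0),(nat_lit 0)], [Int.ofNat (nat_lit 2198894904),Int.ofNat (nat_lit 1107682183),Int.ofNat (nat_lit 1053836220),Int.ofNat (nat_lit 1249825439),Int.ofNat (nat_lit 764860538),Int.negSucc (nat_lit 1962692943),Int.ofNat (nat_lit 418843710),Int.ofNat (nat_lit 639733701),Int.ofNat (nat_lit 302271581),Int.ofNat (nat_lit 32295025),Int.negSucc (nat_lit 668769316),Int.ofNat (nat_lit 732399262),Int.ofNat (nat_lit 277137817),Int.negSucc (nat_lit 82517271),Int.negSucc (nat_lit 464759069),Int.ofNat (nat_lit 806923031),Int.negSucc (nat_lit 563786607),Int.ofNat (nat_lit 690552486),Int.ofNat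 (nat_lit 26271114),Int.ofNat (nat_lit 184079417),Int.ofNat (nat_lit 764425867),Int.negSucc (nat_lit 306265316),Int.negSucc (nat_lit 667168519),Int.ofNat (nat_lit 869792903),Int.negSucc (nat_lit 194178146),Int.negSucc (nat_lit 675613633),Int.negSucc (nat_lit 481811114),Int.negSucc (nat_lit 253332707),Int.ofNat (nat_lit 341663748),Int.negSucc (nat_lit 70523060),Int.negSucc (nat_lit 250927007),Int.ofNat (nat_lit 221431684),Int.ofNat (nat_lit 164034061),Int.negSucc (nat_lit 535051701),Int.negSucc (nat_lit 886429979),Int.negSucc (nat_lit 509711320),Int.ofNat (nat_lit 309454990),Int.negSucc (nat_lit 503440884),Int.negSucc (nat_lit 290796894),Int.negSucc (nat_lit 247963761),Int.ofNat (nat_lit 610424551),Int.ofNat (nat_lit 154167065),Int.negSucc (nat_lit 186073305),Int.negSucc (nat_lit 10132647),Int.ofNat (nat_lit 24620856),Int.ofNat (nat_lit 52939672),Int.negSucc (nat_lit 132320083),Int.negSucc (nat_lit 158177998),Int.negSucc (nat_lit 139337142),Int.ofNat (nat_lit 126048185),Int.negSucc (nat_lit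 114464615),Int.negSucc (nat_lit 266107269),Int.ofNat (nat_lit 254847854),Int.negSucc (nat_lit 258790530),Int.negSucc (nat_lit 94794839),Int.negSucc (nat_lit 295597444),Int.ofNat (nat_lit 85814873),Int.negSucc (nat_lit 76438365),Int.negSucc (nat_lit 615463300),Int.negSucc (nat_lit 439713902),Int.negSucc (nat_lit 9013369),Int.negSucc (nat_lit 198831271),Int.ofNat (nat_lit 26602193),Int.ofNat (nat_lit 166818490),Int.negSucc (nat_lit 18015786),Int.ofNat (nat_lit 187123663),Int.negSucc (nat_lit 52295405),Int.ofNat (nat_lit 285931755),Int.negSucc (nat_lit 390972780),Int.ofNat (nat_lit 106607813),Int.negSucc (nat_lit 40296484),Int.ofNat (nat_lit 1061325638),Int.ofNat (nat_lit 212532133),Int.ofNat (nat_lit 11060466),Int.negSucc (nat_lit 84800838),Int.ofNat (nat_lit 185488404),Int.negSucc (nat_lit 589775033),Int.negSucc (nat_lit 11436027),Int.negSucc (nat_lit 200067410),Int.ofNat (nat_lit 541355480),Int.ofNat (nat_lit 285950945),Int.ofNat (nat_lit 302665980),Int.negSucc (nat_lit 370152137),Int.negSucc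 (nat_lit 41657803),Int.ofNat (nat_lit 252716525),Int.negSucc (nat_lit 199272752),Int.negSucc (nat_lit 22990574),Int.negSucc (nat_lit 11338007),Int.negSucc (nat_lit 153367153),Int.ofNat (nat_lit 68497165),Int.negSucc (nat_lit 316971847),Int.ofNat (nat_lit 625772326),Int.ofNat (nat_lit 82595033),Int.ofNat (nat_lit 40980433),Int.negSucc (nat_lit 1095099),Int.ofNat (nat_lit 81537286),Int.ofNat (nat_lit 108104507),Int.ofNat (nat_lit 162260773),Int.ofNat (nat_lit 124025794),Int.negSucc (nat_lit 42615330),Int.ofNat (nat_lit 247207516),Int.negSucc (nat_lit 103853858),Int.negSucc (nat_lit 15302564),Int.negSucc (nat_lit 428618925),Int.negSucc (nat_lit 84791013),Int.negSucc (nat_lit 168771107),Int.ofNat (nat_lit 1165575),Int.ofNat (nat_lit 19069321),Int.negSucc (nat_lit 99954721),Int.negSucc (nat_lit 106263252),Int.negSucc (nat_lit 42500277),Int.ofNat (nat_lit 109231503),Int.ofNat (nat_lit 195680776),Int.negSucc (nat_lit 98526753),Int.negSucc (nat_lit 202603088),Int.negSucc (nat_lit 136932282),Int.ofNat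 (nat_lit 11794394),Int.ofNat (nat_lit 10616330),Int.ofNat (nat_lit 472507078),Int.negSucc (nat_lit 97845590),Int.ofNat (nat_lit 53520976),Int.ofNat (nat_lit 328811418),Int.ofNat (nat_lit 216248610),Int.ofNat (nat_lit 95814742),Int.negSucc (nat_lit 96070878),Int.negSucc (nat_lit 92366081),Int.ofNat (nat_lit 136619903),Int.negSucc (nat_lit 87316487),Int.ofNat (nat_lit 124212099),Int.negSucc (nat_lit 223330753),Int.ofNat (nat_lit 141977106),Int.ofNat (nat_lit 31047098),Int.negSucc (nat_lit 83022996),Int.negSucc (nat_lit 64242821),Int.ofNat (nat_lit 144366128),Int.ofNat (nat_lit 49525017),Int.ofNat (nat_lit 26214896),Int.negSucc (nat_lit 13891260),Int.negSucc (nat_lit 61309865),Int.negSucc (nat_lit 168751381),Int.ofNat (nat_lit 356367021),Int.ofNat (nat_lit 27910633),Int.ofNat (nat_lit 18228397),Int.negSucc (nat_lit 112018856),Int.negSucc (nat_lit 72842727),Int.ofNat (nat_lit 1892335),Int.ofNat (nat_lit 138453161),Int.ofNat (nat_lit 138914887),Int.ofNat (nat_lit 119986019),Int.negSucc (nat_lit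 42116474),Int.negSucc (nat_lit 253572045),Int.negSucc (nat_lit 123616897),Int.negSucc (nat_lit 156209679),Int.negSucc (nat_lit 10697199),Int.ofNat (nat_lit 148201836),Int.ofNat (nat_lit 39189723),Int.ofNat (nat_lit 66758522),Int.ofNat (nat_lit 41278058),Int.negSucc (nat_lit 70726310),Int.ofNat (nat_lit 46370832),Int.negSucc (nat_lit 7452169),Int.negSucc (nat_lit 73845578),Int.negSucc (nat_lit 19384471),Int.ofNat (nat_lit 824637),Int.negSucc (nat_lit 60199244),Int.negSucc (nat_lit 182655934),Int.negSucc (nat_lit 45452119),Int.negSucc (nat_lit 112327827),Int.negSucc (nat_lit 31269222),Int.ofNat (nat_lit 27905506),Int.negSucc (nat_lit 41039081),Int.ofNat (nat_lit 17361269),Int.negSucc (nat_lit 115679023),Int.ofNat (nat_lit 44280646),Int.negSucc (nat_lit 1388169250),Int.negSucc (nat_lit 180659131),Int.ofNat (nat_lit 864587830),Int.negSucc (nat_lit 1238833502),Int.negSucc (nat_lit 124871095),Int.negSucc (nat_lit 602111874),Int.negSucc (nat_lit 604859335),Int.negSucc (nat_lit 409456677),Int.ofNat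 (nat_lit 251731446),Int.negSucc (nat_lit 107946186),Int.ofNat (nat_lit 62506596),Int.ofNat (nat_lit 207503096),Int.ofNat (nat_lit 2719458),Int.negSucc (nat_lit 242100740),Int.ofNat (nat_lit 49762452),Int.negSucc (nat_lit 152599149),Int.negSucc (nat_lit 26598311),Int.ofNat (nat_lit 49213303),Int.ofNat (nat_lit 697463826),Int.negSucc (nat_lit 51269617),Int.ofNat (nat_lit 59343380),Int.ofNat (nat_lit 99946754),Int.ofNat (nat_lit 319598026)])

/-- A row. -/
noncomputable def sr7_c3_23 : List ℕ × List ℤ :=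
  ([(nat_lit 1),(nat_lit 0),(nat_lit 2),(nat_lit 0),(nat_lit 0),(nat_lit 0),(nat_lit 0),(nat_lit 0),(nat_lit 0),(nat_lit 0),(nat_lit 0),(nat_lit 0)], [Int.ofNat (nat_lit 648054458),Int.ofNat (nat_lit 77470463),Int.negSucc (nat_lit 19012686),Int.ofNat (nat_lit 922233040),Int.negSucc (nat_lit 258691087),Int.negSucc (nat_lit 741773537),Int.negSucc (nat_lit 96582967),Int.ofNat (nat_lit 97038119),Int.negSucc (nat_lit 364131764),Int.negSucc (nat_lit 86561516),Int.ofNat (nat_lit 103427179),Int.ofNat (nat_lit 43461772),Int.negSucc (nat_lit 248675878),Int.ofNat (nat_lit 50379433),Int.negSucc (nat_lit 383742700),Int.ofNat (nat_lit 158556720),Int.negSucc (nat_lit 124659484),Int.negSucc (nat_lit 36354566),Int.negSucc (nat_lit 132249136),Int.negSucc (nat_lit 199146432),Int.ofNat (nat_lit 116390866),Int.negSucc (nat_lit 87677261),Int.negSucc (nat_lit 149159506),Int.ofNat (nat_lit 23600964),Int.ofNat (nat_lit 31029569),Int.negSucc (nat_lit 150439018),Int.negSucc (nat_lit 70963248),Int.ofNat (nat_lit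 74589306),Int.negSucc (nat_lit 52303229),Int.negSucc (nat_lit 121509685),Int.negSucc (nat_lit 35983872),Int.negSucc (nat_lit 10617519),Int.ofNat (nat_lit 277843103),Int.ofNat (nat_lit 159121082),Int.negSucc (nat_lit 260778063),Int.negSucc (nat_lit 336285506),Int.ofNat (nat_lit 232928468),Int.negSucc (nat_lit 85881398),Int.negSucc (nat_lit 63622396),Int.negSucc (nat_lit 19454024),Int.ofNat (nat_lit 134567588),Int.ofNat (nat_lit 19485450),Int.ofNat (nat_lit 23863912),Int.negSucc (nat_lit 70391027),Int.ofNat (nat_lit 508889),Int.negSucc (nat_lit 17237181),Int.negSucc (nat_lit 64086189),Int.negSucc (nat_lit 106937165),Int.negSucc (nat_lit 6923764),Int.negSucc (nat_lit 129143976),Int.ofNat (nat_lit 24799513),Int.negSucc (nat_lit 120123805),Int.ofNat (nat_lit 158687421),Int.negSucc (nat_lit 94433140),Int.negSucc (nat_lit 79252838),Int.negSucc (nat_lit 104122851),Int.ofNat (nat_lit 999367),Int.negSucc (nat_lit 38064965),Int.negSucc (nat_lit 115955951),Int.ofNat (nat_lit 12306035),Int.ofNat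 (nat_lit 10895355),Int.ofNat (nat_lit 26430000),Int.ofNat (nat_lit 28701531),Int.ofNat (nat_lit 23882168),Int.ofNat (nat_lit 12491001),Int.negSucc (nat_lit 17936915),Int.negSucc (nat_lit 4887303),Int.ofNat (nat_lit 93129307),Int.negSucc (nat_lit 45600473),Int.ofNat (nat_lit 30339132),Int.ofNat (nat_lit 4913997),Int.ofNat (nat_lit 247875188),Int.ofNat (nat_lit 15025750),Int.negSucc (nat_lit 32918862),Int.negSucc (nat_lit 9011613),Int.ofNat (nat_lit 53394847),Int.ofNat (nat_lit 65278123),Int.negSucc (nat_lit 54323422),Int.ofNat (nat_lit 147827487),Int.ofNat (nat_lit 63190018),Int.negSucc (nat_lit 32463482),Int.ofNat (nat_lit 105972507),Int.negSucc (nat_lit 121964471),Int.negSucc (nat_lit 8186158),Int.ofNat (nat_lit 111901864),Int.negSucc (nat_lit 94348312),Int.negSucc (nat_lit 61935588),Int.negSucc (nat_lit 9000327),Int.negSucc (nat_lit 57640162),Int.negSucc (nat_lit 17204207),Int.negSucc (nat_lit 48923809),Int.ofNat (nat_lit 117650023),Int.ofNat (nat_lit 12114825),Int.ofNat (nat_lit 63319398),Int.negSucc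 (nat_lit 57119663),Int.ofNat (nat_lit 16434208),Int.ofNat (nat_lit 25319051),Int.ofNat (nat_lit 51792244),Int.ofNat (nat_lit 60321647),Int.ofNat (nat_lit 6040534),Int.ofNat (nat_lit 179415090),Int.negSucc (nat_lit 57832224),Int.negSucc (nat_lit 44840428),Int.ofNat (nat_lit 10254014),Int.negSucc (nat_lit 41441354),Int.negSucc (nat_lit 9562491),Int.negSucc (nat_lit 53337821),Int.negSucc (nat_lit 4437436),Int.negSucc (nat_lit 32665222),Int.negSucc (nat_lit 22482206),Int.negSucc (nat_lit 19172044),Int.ofNat (nat_lit 28272564),Int.ofNat (nat_lit 118758015),Int.negSucc (nat_lit 16706915),Int.negSucc (nat_lit 90628643),Int.negSucc (nat_lit 41205548),Int.negSucc (nat_lit 3145478),Int.ofNat (nat_lit 6135551),Int.ofNat (nat_lit 114480878),Int.negSucc (nat_lit 68810017),Int.ofNat (nat_lit 61165630),Int.ofNat (nat_lit 97327248),Int.ofNat (nat_lit 50601833),Int.ofNat (nat_lit 40718196),Int.negSucc (nat_lit 2495957),Int.negSucc (nat_lit 40433985),Int.ofNat (nat_lit 64640234),Int.negSucc (nat_lit 27262579),Int.ofNat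 (nat_lit 33802561),Int.negSucc (nat_lit 46481158),Int.ofNat (nat_lit 29245034),Int.ofNat (nat_lit 27122799),Int.negSucc (nat_lit 25632911),Int.negSucc (nat_lit 19933534),Int.ofNat (nat_lit 43255710),Int.negSucc (nat_lit 40096228),Int.ofNat (nat_lit 40395959),Int.negSucc (nat_lit 11327041),Int.ofNat (nat_lit 12591522),Int.negSucc (nat_lit 56746302),Int.ofNat (nat_lit 150219420),Int.ofNat (nat_lit 14447925),Int.ofNat (nat_lit 21738836),Int.negSucc (nat_lit 88292867),Int.ofNat (nat_lit 19197843),Int.negSucc (nat_lit 13717800),Int.ofNat (nat_lit 38555320),Int.ofNat (nat_lit 19661844),Int.ofNat (nat_lit 43175491),Int.negSucc (nat_lit 24808407),Int.negSucc (nat_lit 73145177),Int.negSucc (nat_lit 98220241),Int.negSucc (nat_lit 47982783),Int.ofNat (nat_lit 4220850),Int.ofNat (nat_lit 27895710),Int.ofNat (nat_lit 13715094),Int.ofNat (nat_lit 17069116),Int.ofNat (nat_lit 5175817),Int.ofNat (nat_lit 3403002),Int.ofNat (nat_lit 13532703),Int.ofNat (nat_lit 2052827),Int.negSucc (nat_lit 19343641),Int.negSucc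 (nat_lit 26027772),Int.negSucc (nat_lit 8677526),Int.negSucc (nat_lit 5018376),Int.negSucc (nat_lit 45086258),Int.ofNat (nat_lit 3317868),Int.negSucc (nat_lit 22483364),Int.negSucc (nat_lit 11174218),Int.ofNat (nat_lit 5612908),Int.negSucc (nat_lit 18263218),Int.ofNat (nat_lit 7200106),Int.negSucc (nat_lit 11146166),Int.ofNat (nat_lit 5700409),Int.negSucc (nat_lit 278632862),Int.negSucc (nat_lit 66286896),Int.ofNat (nat_lit 135398907),Int.negSucc (nat_lit 401580420),Int.ofNat (nat_lit 81109569),Int.negSucc (nat_lit 164281647),Int.negSucc (nat_lit 510695391),Int.negSucc (nat_lit 102952430),Int.negSucc (nat_lit 115014103),Int.ofNat (nat_lit 40062735),Int.ofNat (nat_lit 43638500),Int.negSucc (nat_lit 5287355),Int.ofNat (nat_lit 22018215),Int.negSucc (nat_lit 2108232),Int.negSucc (nat_lit 31014956),Int.negSucc (nat_lit 2393498),Int.ofNat (nat_lit 10845399),Int.ofNat (nat_lit 2263225),Int.negSucc (nat_lit 17675823),Int.negSucc (nat_lit 63818130),Int.ofNat (nat_lit 93912399),Int.ofNat (nat_lit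 99087255),Int.ofNat (nat_lit 72278197),Int.ofNat (nat_lit 108043551)])

/-- A row. -/
noncomputable def sr7_c3_24 : List ℕ × List ℤ :=
  ([(nat_lit 1),(nat_lit 1),(nat_lit 0),(nat_lit 0),(nat_lit 0),(nat_lit 1),(nat_lit 0),(nat_lit 0),(nat_lit 0),(nat_lit 0),(nat_lit 0),(nat_lit 0)], [Int.negSucc (nat_lit 1283962075),Int.ofNat (nat_lit 87380245),Int.ofNat (nat_lit 94350885),Int.ofNat (nat_lit 393515362),Int.negSucc (nat_lit 390302790),Int.ofNat (nat_lit 84765410),Int.negSucc (nat_lit 345576209),Int.negSucc (nat_lit 832507896),Int.ofNat (nat_lit 97988535),Int.ofNat (nat_lit 708744417),Int.ofNat (nat_lit 161544742),Int.ofNat (nat_lit 556672056),Int.ofNat (nat_lit 353381616),Int.ofNat (nat_lit 638039553),Int.ofNat (nat_lit 207434018),Int.negSucc (nat_lit 93024135),Int.negSucc (nat_lit 243670910),Int.ofNat (nat_lit 288063602),Int.ofNat (nat_lit 34724383),Int.ofNat (nat_lit 174423395),Int.negSucc (nat_lit 136225271),Int.negSucc (nat_lit 106844776),Int.negSucc (nat_lit 326057970),Int.ofNat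 (nat_lit 80867772),Int.negSucc (nat_lit 249581010),Int.ofNat (nat_lit 44215652),Int.ofNat (nat_lit 319855963),Int.negSucc (nat_lit 372281045),Int.ofNat (nat_lit 531484636),Int.negSucc (nat_lit 233764677),Int.negSucc (nat_lit 121445747),Int.negSucc (nat_lit 60646645),Int.negSucc (nat_lit 509951430),Int.negSucc (nat_lit 546104133),Int.negSucc (nat_lit 169372647),Int.negSucc (nat_lit 216034849),Int.negSucc (nat_lit 32848316),Int.ofNat (nat_lit 175622459),Int.negSucc (nat_lit 151734602),Int.negSucc (nat_lit 372352521),Int.ofNat (nat_lit 186795460),Int.ofNat (nat_lit 105147549),Int.negSucc (nat_lit 375003228),Int.ofNat (nat_lit 133473),Int.negSucc (nat_lit 174948652),Int.negSucc (nat_lit 184805153),Int.negSucc (nat_lit 890693),Int.negSucc (nat_lit 24700785),Int.negSucc (nat_lit 280951617),Int.ofNat (nat_lit 405491690),Int.negSucc (nat_lit 67738063),Int.negSucc (nat_lit 155082234),Int.negSucc (nat_lit 51093949),Int.ofNat (nat_lit 263307627),Int.ofNat (nat_lit 163951036),Int.negSucc (nat_lit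 62153759),Int.ofNat (nat_lit 125142499),Int.ofNat (nat_lit 211916540),Int.negSucc (nat_lit 353131339),Int.negSucc (nat_lit 145239925),Int.negSucc (nat_lit 192107349),Int.negSucc (nat_lit 334013496),Int.negSucc (nat_lit 55302850),Int.negSucc (nat_lit 6472348),Int.ofNat (nat_lit 90362487),Int.negSucc (nat_lit 17034128),Int.ofNat (nat_lit 143069169),Int.negSucc (nat_lit 200928163),Int.negSucc (nat_lit 314256108),Int.negSucc (nat_lit 155242864),Int.ofNat (nat_lit 306655500),Int.negSucc (nat_lit 4069276),Int.ofNat (nat_lit 278552690),Int.ofNat (nat_lit 168248711),Int.negSucc (nat_lit 17055234),Int.ofNat (nat_lit 18574643),Int.negSucc (nat_lit 71140551),Int.negSucc (nat_lit 11618677),Int.negSucc (nat_lit 19007122),Int.ofNat (nat_lit 46624487),Int.ofNat (nat_lit 116355896),Int.ofNat (nat_lit 12570055),Int.ofNat (nat_lit 51557172),Int.ofNat (nat_lit 96952329),Int.ofNat (nat_lit 264932294),Int.ofNat (nat_lit 12171601),Int.ofNat (nat_lit 88783567),Int.negSucc (nat_lit 124489266),Int.ofNat (nat_lit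 41720877),Int.negSucc (nat_lit 36252956),Int.negSucc (nat_lit 90275837),Int.ofNat (nat_lit 221936987),Int.ofNat (nat_lit 82483756),Int.negSucc (nat_lit 19779059),Int.ofNat (nat_lit 71171804),Int.ofNat (nat_lit 98242022),Int.negSucc (nat_lit 17513607),Int.ofNat (nat_lit 84512845),Int.negSucc (nat_lit 89868585),Int.ofNat (nat_lit 53038194),Int.negSucc (nat_lit 220082301),Int.negSucc (nat_lit 307885981),Int.negSucc (nat_lit 32201120),Int.ofNat (nat_lit 33619020),Int.ofNat (nat_lit 72406086),Int.negSucc (nat_lit 55783987),Int.ofNat (nat_lit 44644821),Int.ofNat (nat_lit 84949850),Int.negSucc (nat_lit 11679912),Int.negSucc (nat_lit 112053619),Int.negSucc (nat_lit 151297575),Int.negSucc (nat_lit 10383972),Int.ofNat (nat_lit 68786874),Int.ofNat (nat_lit 33516728),Int.negSucc (nat_lit 37484217),Int.negSucc (nat_lit 3247929),Int.negSucc (nat_lit 3458109),Int.ofNat (nat_lit 64705895),Int.ofNat (nat_lit 75635722),Int.ofNat (nat_lit 96004188),Int.ofNat (nat_lit 127082182),Int.ofNat (nat_lit 82195645),Int.ofNat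 (nat_lit 81160795),Int.ofNat (nat_lit 94692889),Int.ofNat (nat_lit 171604371),Int.negSucc (nat_lit 81441698),Int.ofNat (nat_lit 86772050),Int.negSucc (nat_lit 34481444),Int.ofNat (nat_lit 70642335),Int.ofNat (nat_lit 171125472),Int.negSucc (nat_lit 74771238),Int.negSucc (nat_lit 613897),Int.ofNat (nat_lit 83140807),Int.negSucc (nat_lit 3697431),Int.ofNat (nat_lit 19403426),Int.negSucc (nat_lit 24978429),Int.ofNat (nat_lit 66027060),Int.ofNat (nat_lit 41274460),Int.ofNat (nat_lit 74176466),Int.negSucc (nat_lit 11497883),Int.negSucc (nat_lit 25548277),Int.negSucc (nat_lit 209001579),Int.ofNat (nat_lit 79359181),Int.ofNat (nat_lit 36533465),Int.ofNat (nat_lit 32597813),Int.ofNat (nat_lit 2405226),Int.ofNat (nat_lit 19354137),Int.ofNat (nat_lit 5435092),Int.ofNat (nat_lit 268115502),Int.ofNat (nat_lit 10129614),Int.ofNat (nat_lit 125258719),Int.ofNat (nat_lit 93884047),Int.negSucc (nat_lit 44408459),Int.negSucc (nat_lit 44358084),Int.negSucc (nat_lit 1643986),Int.negSucc (nat_lit 7272332),Int.ofNat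 (nat_lit 63555970),Int.negSucc (nat_lit 98389389),Int.negSucc (nat_lit 60625166),Int.ofNat (nat_lit 11547234),Int.negSucc (nat_lit 91614156),Int.ofNat (nat_lit 51454850),Int.ofNat (nat_lit 48373549),Int.negSucc (nat_lit 50939065),Int.ofNat (nat_lit 26850422),Int.ofNat (nat_lit 3724926),Int.negSucc (nat_lit 142791355),Int.negSucc (nat_lit 47566526),Int.ofNat (nat_lit 67818326),Int.negSucc (nat_lit 15264733),Int.ofNat (nat_lit 40737963),Int.ofNat (nat_lit 116372080),Int.ofNat (nat_lit 74422349),Int.negSucc (nat_lit 60734142),Int.negSucc (nat_lit 248735682),Int.negSucc (nat_lit 311656266),Int.negSucc (nat_lit 244368073),Int.ofNat (nat_lit 151934973),Int.negSucc (nat_lit 243991504),Int.ofNat (nat_lit 23513951),Int.ofNat (nat_lit 117168541),Int.ofNat (nat_lit 140204861),Int.ofNat (nat_lit 93728890),Int.negSucc (nat_lit 461943787),Int.negSucc (nat_lit 972851220),Int.ofNat (nat_lit 20395116),Int.negSucc (nat_lit 20662727),Int.ofNat (nat_lit 25508221),Int.negSucc (nat_lit 23136664),Int.ofNat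 (nat_lit 30317958),Int.ofNat (nat_lit 16936011),Int.negSucc (nat_lit 2963479),Int.ofNat (nat_lit 106353295),Int.ofNat (nat_lit 58763447),Int.negSucc (nat_lit 50610969),Int.negSucc (nat_lit 1060874),Int.negSucc (nat_lit 36426109),Int.negSucc (nat_lit 60526475),Int.ofNat (nat_lit 216188693)])

/-- A row. -/
noncomputable def sr7_c3_25 : List ℕ × List ℤ :=
  ([(nat_lit 1),(nat_lit 1),(nat_lit 0),(nat_lit 1),(nat_lit 0),(nat_lit 0),(nat_lit 0),(nat_lit 0),(nat_lit 0),(nat_lit 0),(nat_lit 0),(nat_lit 0)], [Int.negSucc (nat_lit 1356744351),Int.ofNat (nat_lit 706288156),Int.ofNat (nat_lit 2655247426),Int.ofNat (nat_lit 3146387317),Int.ofNat (nat_lit 1620416686),Int.negSucc (nat_lit 1833887161),Int.negSucc (nat_lit 2329230386),Int.negSucc (nat_lit 4392200968),Int.negSucc (nat_lit 292943296),Int.ofNat (nat_lit 82887415),Int.ofNat (nat_lit 1852592404),Int.ofNat (nat_lit 3031672500),Int.negSucc (nat_lit 333755913),Int.ofNat (nat_lit 2376398729),Int.negSucc (nat_lit 2408199350),Int.ofNat (nat_lit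 340378712),Int.ofNat (nat_lit 608271005),Int.ofNat (nat_lit 1340652296),Int.negSucc (nat_lit 1335807439),Int.negSucc (nat_lit 725022490),Int.ofNat (nat_lit 57369831),Int.negSucc (nat_lit 793024932),Int.negSucc (nat_lit 868674550),Int.negSucc (nat_lit 1875985050),Int.negSucc (nat_lit 987879276),Int.ofNat (nat_lit 790608887),Int.ofNat (nat_lit 1771260193),Int.ofNat (nat_lit 661394198),Int.negSucc (nat_lit 758835731),Int.ofNat (nat_lit 240927130),Int.ofNat (nat_lit 400041220),Int.negSucc (nat_lit 541915956),Int.ofNat (nat_lit 1517659605),Int.negSucc (nat_lit 199304134),Int.negSucc (nat_lit 525905087),Int.negSucc (nat_lit 1128388846),Int.ofNat (nat_lit 6307886),Int.negSucc (nat_lit 217673933),Int.negSucc (nat_lit 286994902),Int.negSucc (nat_lit 1024801288),Int.negSucc (nat_lit 122393145),Int.negSucc (nat_lit 538697187),Int.ofNat (nat_lit 26021789),Int.negSucc (nat_lit 97676259),Int.ofNat (nat_lit 552133361),Int.negSucc (nat_lit 286645762),Int.ofNat (nat_lit 716650123),Int.negSucc (nat_lit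 474961774),Int.ofNat (nat_lit 174131403),Int.negSucc (nat_lit 184840530),Int.negSucc (nat_lit 398384771),Int.negSucc (nat_lit 618544853),Int.negSucc (nat_lit 388823125),Int.negSucc (nat_lit 564338616),Int.negSucc (nat_lit 121615863),Int.negSucc (nat_lit 426689388),Int.negSucc (nat_lit 204950535),Int.ofNat (nat_lit 302627948),Int.negSucc (nat_lit 779968998),Int.negSucc (nat_lit 62338837),Int.negSucc (nat_lit 488366985),Int.negSucc (nat_lit 317438798),Int.ofNat (nat_lit 239983268),Int.negSucc (nat_lit 1405790068),Int.negSucc (nat_lit 525698194),Int.negSucc (nat_lit 779865692),Int.ofNat (nat_lit 118916920),Int.ofNat (nat_lit 192327263),Int.ofNat (nat_lit 617193024),Int.negSucc (nat_lit 407442472),Int.ofNat (nat_lit 389367253),Int.negSucc (nat_lit 450151504),Int.ofNat (nat_lit 37625327),Int.negSucc (nat_lit 369409533),Int.ofNat (nat_lit 17920768),Int.negSucc (nat_lit 88134314),Int.negSucc (nat_lit 212015145),Int.negSucc (nat_lit 26997645),Int.ofNat (nat_lit 568618622),Int.negSucc (nat_lit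 234554393),Int.ofNat (nat_lit 76406291),Int.negSucc (nat_lit 251081758),Int.negSucc (nat_lit 320249252),Int.ofNat (nat_lit 226817266),Int.ofNat (nat_lit 758632763),Int.ofNat (nat_lit 543740411),Int.ofNat (nat_lit 363146286),Int.negSucc (nat_lit 280109800),Int.negSucc (nat_lit 540236618),Int.negSucc (nat_lit 182083119),Int.ofNat (nat_lit 67607008),Int.negSucc (nat_lit 679720735),Int.negSucc (nat_lit 274077014),Int.ofNat (nat_lit 169642369),Int.negSucc (nat_lit 208483396),Int.ofNat (nat_lit 251460957),Int.ofNat (nat_lit 422147983),Int.negSucc (nat_lit 330023102),Int.ofNat (nat_lit 393824175),Int.ofNat (nat_lit 23155373),Int.negSucc (nat_lit 243311012),Int.negSucc (nat_lit 32985036),Int.ofNat (nat_lit 94289718),Int.ofNat (nat_lit 442706393),Int.negSucc (nat_lit 60345501),Int.ofNat (nat_lit 484301788),Int.negSucc (nat_lit 118596145),Int.negSucc (nat_lit 149584672),Int.ofNat (nat_lit 179360056),Int.ofNat (nat_lit 186525840),Int.negSucc (nat_lit 360341081),Int.ofNat (nat_lit 19230757),Int.negSucc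 (nat_lit 33438357),Int.negSucc (nat_lit 274929610),Int.ofNat (nat_lit 219066412),Int.negSucc (nat_lit 21668127),Int.negSucc (nat_lit 129421710),Int.negSucc (nat_lit 77107240),Int.negSucc (nat_lit 405883299),Int.negSucc (nat_lit 435488929),Int.ofNat (nat_lit 212541303),Int.negSucc (nat_lit 683281806),Int.negSucc (nat_lit 247705616),Int.negSucc (nat_lit 195285805),Int.negSucc (nat_lit 55308212),Int.ofNat (nat_lit 503172407),Int.ofNat (nat_lit 66541427),Int.ofNat (nat_lit 80919693),Int.negSucc (nat_lit 166015818),Int.ofNat (nat_lit 271869795),Int.negSucc (nat_lit 491240211),Int.ofNat (nat_lit 217120760),Int.negSucc (nat_lit 295742298),Int.ofNat (nat_lit 288551834),Int.negSucc (nat_lit 41331994),Int.negSucc (nat_lit 303842234),Int.negSucc (nat_lit 170296113),Int.negSucc (nat_lit 5184072),Int.ofNat (nat_lit 13660533),Int.negSucc (nat_lit 307573210),Int.ofNat (nat_lit 247150491),Int.negSucc (nat_lit 168108286),Int.ofNat (nat_lit 117105505),Int.negSucc (nat_lit 232086296),Int.ofNat (nat_lit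 63984191),Int.ofNat (nat_lit 281731464),Int.negSucc (nat_lit 76466763),Int.negSucc (nat_lit 384450664),Int.ofNat (nat_lit 306937172),Int.ofNat (nat_lit 136553426),Int.ofNat (nat_lit 748633823),Int.negSucc (nat_lit 97961026),Int.ofNat (nat_lit 225119211),Int.negSucc (nat_lit 242871682),Int.negSucc (nat_lit 211734396),Int.ofNat (nat_lit 493403630),Int.negSucc (nat_lit 348657215),Int.negSucc (nat_lit 361082657),Int.ofNat (nat_lit 108723414),Int.negSucc (nat_lit 117597764),Int.negSucc (nat_lit 140898658),Int.negSucc (nat_lit 58628262),Int.negSucc (nat_lit 208985270),Int.negSucc (nat_lit 240385173),Int.negSucc (nat_lit 12074817),Int.ofNat (nat_lit 511237153),Int.ofNat (nat_lit 133701919),Int.negSucc (nat_lit 339730392),Int.negSucc (nat_lit 173983759),Int.negSucc (nat_lit 46643679),Int.negSucc (nat_lit 251461488),Int.ofNat (nat_lit 72611033),Int.ofNat (nat_lit 82239065),Int.ofNat (nat_lit 56006439),Int.ofNat (nat_lit 121073740),Int.negSucc (nat_lit 261359982),Int.negSucc (nat_lit 45043441),Int.ofNat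 (nat_lit 543879217),Int.ofNat (nat_lit 1014559114),Int.ofNat (nat_lit 1131965531),Int.ofNat (nat_lit 341581004),Int.negSucc (nat_lit 65794743),Int.negSucc (nat_lit 327195600),Int.ofNat (nat_lit 798122452),Int.negSucc (nat_lit 660252082),Int.negSucc (nat_lit 3782857592),Int.ofNat (nat_lit 896203981),Int.negSucc (nat_lit 94116817),Int.ofNat (nat_lit 136232667),Int.negSucc (nat_lit 80703784),Int.negSucc (nat_lit 481373193),Int.ofNat (nat_lit 67150048),Int.negSucc (nat_lit 483311954),Int.negSucc (nat_lit 159583732),Int.ofNat (nat_lit 54874673),Int.negSucc (nat_lit 538335938),Int.negSucc (nat_lit 215487407),Int.negSucc (nat_lit 301356897),Int.ofNat (nat_lit 100953004),Int.ofNat (nat_lit 925093198)])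

/-- A row. -/
noncomputable def sr7_c3_26 : List ℕ × List ℤ :=
  ([(nat_lit 1),(nat_lit 2),(nat_lit 0),(nat_lit 0),(nat_lit 0),(nat_lit 0),(nat_lit 0),(nat_lit 0),(nat_lit 0),(nat_lit 0),(nat_lit 0),(nat_lit 0)], [Int.ofNat (nat_lit 2952781750),Int.ofNat (nat_lit 1156285934),Int.negSucc (nat_lit 3774263638),Int.negSucc (nat_lit 1192376971),Int.negSucc (nat_lit 1155294930),Int.ofNat (nat_lit 798841863),Int.ofNat (nat_lit 2055388194),Int.ofNat (nat_lit 3520787915),Int.negSucc (nat_lit 83259608),Int.ofNat (nat_lit 785015338),Int.negSucc (nat_lit 2499222530),Int.negSucc (nat_lit 3063478301),Int.ofNat (nat_lit 886174229),Int.negSucc (nat_lit 3910541482),Int.ofNat (nat_lit 4580450889),Int.negSucc (nat_lit 767102634),Int.negSucc (nat_lit 1609805559),Int.negSucc (nat_lit 998590410),Int.ofNat (nat_lit 708687197),Int.ofNat (nat_lit 516450508),Int.negSucc (nat_lit 15950490),Int.ofNat (nat_lit 687850693),Int.ofNat (nat_lit 1069657346),Int.ofNat (nat_lit 3789153808),Int.negSucc (nat_lit 767407553),Int.negSucc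 (nat_lit 431470508),Int.negSucc (nat_lit 4274931662),Int.negSucc (nat_lit 2336704969),Int.ofNat (nat_lit 2350150796),Int.negSucc (nat_lit 1149487869),Int.negSucc (nat_lit 721607936),Int.ofNat (nat_lit 700551020),Int.negSucc (nat_lit 1735348608),Int.negSucc (nat_lit 642706681),Int.ofNat (nat_lit 410495654),Int.ofNat (nat_lit 1222632406),Int.negSucc (nat_lit 118658339),Int.ofNat (nat_lit 340424799),Int.negSucc (nat_lit 256774393),Int.ofNat (nat_lit 480190965),Int.negSucc (nat_lit 485879231),Int.ofNat (nat_lit 44201440),Int.ofNat (nat_lit 657008800),Int.negSucc (nat_lit 318386596),Int.negSucc (nat_lit 633675208),Int.ofNat (nat_lit 321788436),Int.negSucc (nat_lit 370250117),Int.ofNat (nat_lit 180060699),Int.negSucc (nat_lit 85472679),Int.ofNat (nat_lit 753776035),Int.ofNat (nat_lit 298631484),Int.ofNat (nat_lit 733572706),Int.ofNat (nat_lit 518771098),Int.ofNat (nat_lit 170200072),Int.ofNat (nat_lit 481375662),Int.ofNat (nat_lit 117504913),Int.ofNat (nat_lit 795124378),Int.negSucc (nat_lit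 1020973452),Int.ofNat (nat_lit 848968041),Int.negSucc (nat_lit 5917868),Int.ofNat (nat_lit 660080984),Int.negSucc (nat_lit 396309588),Int.negSucc (nat_lit 117785773),Int.ofNat (nat_lit 797198429),Int.ofNat (nat_lit 27049508),Int.ofNat (nat_lit 522352659),Int.negSucc (nat_lit 401913152),Int.negSucc (nat_lit 500876568),Int.negSucc (nat_lit 778787258),Int.ofNat (nat_lit 1015584282),Int.ofNat (nat_lit 64741185),Int.negSucc (nat_lit 508406148),Int.negSucc (nat_lit 174967723),Int.ofNat (nat_lit 308012309),Int.ofNat (nat_lit 258556187),Int.ofNat (nat_lit 18265071),Int.ofNat (nat_lit 1691578627),Int.negSucc (nat_lit 752350931),Int.negSucc (nat_lit 75150282),Int.negSucc (nat_lit 205796972),Int.negSucc (nat_lit 967748863),Int.ofNat (nat_lit 411315082),Int.ofNat (nat_lit 717754241),Int.negSucc (nat_lit 27587164),Int.negSucc (nat_lit 432324227),Int.negSucc (nat_lit 422414180),Int.negSucc (nat_lit 223993784),Int.ofNat (nat_lit 349097942),Int.ofNat (nat_lit 895515256),Int.ofNat (nat_lit 616196820),Int.negSucc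 (nat_lit 416853347),Int.ofNat (nat_lit 2543294935),Int.ofNat (nat_lit 403913025),Int.negSucc (nat_lit 787618302),Int.ofNat (nat_lit 431523233),Int.negSucc (nat_lit 117208928),Int.negSucc (nat_lit 1030314094),Int.ofNat (nat_lit 1255951973),Int.negSucc (nat_lit 296467422),Int.ofNat (nat_lit 374109046),Int.ofNat (nat_lit 332322237),Int.ofNat (nat_lit 94911794),Int.negSucc (nat_lit 55274027),Int.negSucc (nat_lit 75082496),Int.negSucc (nat_lit 218634098),Int.negSucc (nat_lit 53854076),Int.negSucc (nat_lit 187973107),Int.negSucc (nat_lit 219970842),Int.ofNat (nat_lit 91214632),Int.negSucc (nat_lit 189506423),Int.ofNat (nat_lit 323949109),Int.ofNat (nat_lit 92664775),Int.negSucc (nat_lit 136521405),Int.negSucc (nat_lit 161783339),Int.negSucc (nat_lit 159603757),Int.ofNat (nat_lit 215465404),Int.ofNat (nat_lit 169957453),Int.negSucc (nat_lit 248982752),Int.negSucc (nat_lit 147721204),Int.ofNat (nat_lit 611025236),Int.negSucc (nat_lit 387938253),Int.negSucc (nat_lit 111918569),Int.ofNat (nat_lit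 913276368),Int.ofNat (nat_lit 351403682),Int.negSucc (nat_lit 291018789),Int.ofNat (nat_lit 369635209),Int.ofNat (nat_lit 1115168547),Int.ofNat (nat_lit 154240829),Int.ofNat (nat_lit 74360211),Int.ofNat (nat_lit 8749793),Int.ofNat (nat_lit 170534765),Int.negSucc (nat_lit 307941658),Int.ofNat (nat_lit 732205489),Int.negSucc (nat_lit 216833221),Int.negSucc (nat_lit 109749847),Int.negSucc (nat_lit 281834968),Int.negSucc (nat_lit 235158351),Int.ofNat (nat_lit 75220868),Int.ofNat (nat_lit 62749649),Int.ofNat (nat_lit 333828194),Int.negSucc (nat_lit 370376112),Int.ofNat (nat_lit 122967764),Int.negSucc (nat_lit 207485427),Int.ofNat (nat_lit 321754184),Int.negSucc (nat_lit 209698358),Int.negSucc (nat_lit 286457256),Int.ofNat (nat_lit 58694681),Int.ofNat (nat_lit 49938391),Int.negSucc (nat_lit 168590844),Int.ofNat (nat_lit 97373709),Int.ofNat (nat_lit 136241210),Int.ofNat (nat_lit 127741000),Int.ofNat (nat_lit 166513610),Int.negSucc (nat_lit 483793594),Int.negSucc (nat_lit 118302741),Int.negSucc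 (nat_lit 424655247),Int.ofNat (nat_lit 902722013),Int.ofNat (nat_lit 20954392),Int.negSucc (nat_lit 47249112),Int.ofNat (nat_lit 94109727),Int.ofNat (nat_lit 243135911),Int.negSucc (nat_lit 50084544),Int.ofNat (nat_lit 266863194),Int.ofNat (nat_lit 99067856),Int.ofNat (nat_lit 73909971),Int.ofNat (nat_lit 251845969),Int.negSucc (nat_lit 159575594),Int.ofNat (nat_lit 101575302),Int.ofNat (nat_lit 22621135),Int.negSucc (nat_lit 312506054),Int.ofNat (nat_lit 128178830),Int.ofNat (nat_lit 192041674),Int.negSucc (nat_lit 4520402),Int.negSucc (nat_lit 83715953),Int.ofNat (nat_lit 1317498443),Int.ofNat (nat_lit 83630542),Int.negSucc (nat_lit 907075952),Int.ofNat (nat_lit 588762409),Int.negSucc (nat_lit 1557581605),Int.negSucc (nat_lit 606120572),Int.negSucc (nat_lit 2261460670),Int.negSucc (nat_lit 431370404),Int.ofNat (nat_lit 540331117),Int.negSucc (nat_lit 396259340),Int.ofNat (nat_lit 549901801),Int.ofNat (nat_lit 1485558090),Int.negSucc (nat_lit 1468178008),Int.negSucc (nat_lit 4127881727),Int.negSucc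 (nat_lit 1275189511),Int.ofNat (nat_lit 627467088),Int.ofNat (nat_lit 45307748),Int.ofNat (nat_lit 265776623),Int.negSucc (nat_lit 241937900),Int.ofNat (nat_lit 463243142),Int.negSucc (nat_lit 316681856),Int.ofNat (nat_lit 913075649),Int.ofNat (nat_lit 937469494),Int.ofNat (nat_lit 427719084),Int.negSucc (nat_lit 281057599),Int.negSucc (nat_lit 446984496),Int.ofNat (nat_lit 1858992334)])

/-- A row. -/
noncomputable def sr7_c3_27 : List ℕ × List ℤ :=
  ([(nat_lit 1),(nat_lit 2),(nat_lit 1),(nat_lit 0),(nat_lit 0),(nat_lit 0),(nat_lit 0),(nat_lit 0),(nat_lit 0),(nat_lit 0),(nat_lit 0),(nat_lit 0)], [Int.ofNat (nat_lit 1711731099),Int.ofNat (nat_lit 877918203),Int.ofNat (nat_lit 357434614),Int.negSucc (nat_lit 594836566),Int.ofNat (nat_lit 1792051481),Int.ofNat (nat_lit 744435588),Int.ofNat (nat_lit 114213338),Int.negSucc (nat_lit 418434370),Int.ofNat (nat_lit 1433522814),Int.ofNat (nat_lit 105448609),Int.negSucc (nat_lit 135954250),Int.negSucc (nat_lit 395804374),Int.ofNat (nat_lit 999067984),Int.negSucc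 (nat_lit 1048966092),Int.ofNat (nat_lit 1487834619),Int.negSucc (nat_lit 860274267),Int.negSucc (nat_lit 337809108),Int.ofNat (nat_lit 145305411),Int.negSucc (nat_lit 197834910),Int.negSucc (nat_lit 120812503),Int.ofNat (nat_lit 93752559),Int.ofNat (nat_lit 100101875),Int.ofNat (nat_lit 465940993),Int.ofNat (nat_lit 1186046373),Int.negSucc (nat_lit 802387402),Int.negSucc (nat_lit 321622824),Int.negSucc (nat_lit 1023101930),Int.negSucc (nat_lit 1279973309),Int.negSucc (nat_lit 40155172),Int.negSucc (nat_lit 203131497),Int.negSucc (nat_lit 669374914),Int.ofNat (nat_lit 452007955),Int.negSucc (nat_lit 802461300),Int.negSucc (nat_lit 984831314),Int.ofNat (nat_lit 217871009),Int.ofNat (nat_lit 435231873),Int.negSucc (nat_lit 439960460),Int.ofNat (nat_lit 74979825),Int.negSucc (nat_lit 348715961),Int.negSucc (nat_lit 370718621),Int.negSucc (nat_lit 400526652),Int.negSucc (nat_lit 413600867),Int.ofNat (nat_lit 174847490),Int.negSucc (nat_lit 130283148),Int.ofNat (nat_lit 168818219),Int.negSucc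 (nat_lit 94130463),Int.negSucc (nat_lit 63954391),Int.ofNat (nat_lit 385959468),Int.ofNat (nat_lit 60215044),Int.ofNat (nat_lit 723126501),Int.negSucc (nat_lit 167338866),Int.ofNat (nat_lit 62459986),Int.negSucc (nat_lit 241494889),Int.negSucc (nat_lit 96526032),Int.ofNat (nat_lit 395106265),Int.negSucc (nat_lit 165121744),Int.ofNat (nat_lit 115976295),Int.negSucc (nat_lit 64481458),Int.ofNat (nat_lit 70324128),Int.ofNat (nat_lit 61052696),Int.negSucc (nat_lit 269382609),Int.negSucc (nat_lit 387704336),Int.ofNat (nat_lit 271448100),Int.negSucc (nat_lit 375945870),Int.negSucc (nat_lit 255456527),Int.negSucc (nat_lit 353676152),Int.negSucc (nat_lit 193161337),Int.negSucc (nat_lit 29177750),Int.ofNat (nat_lit 37135949),Int.ofNat (nat_lit 311436163),Int.ofNat (nat_lit 189081065),Int.negSucc (nat_lit 389723592),Int.negSucc (nat_lit 170919477),Int.ofNat (nat_lit 113960968),Int.ofNat (nat_lit 263851543),Int.ofNat (nat_lit 60565457),Int.ofNat (nat_lit 526471530),Int.negSucc (nat_lit 288780655),Int.ofNat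 (nat_lit 82527622),Int.negSucc (nat_lit 178285279),Int.negSucc (nat_lit 260750499),Int.negSucc (nat_lit 258044416),Int.ofNat (nat_lit 327390203),Int.ofNat (nat_lit 90234510),Int.ofNat (nat_lit 171407691),Int.ofNat (nat_lit 86339088),Int.negSucc (nat_lit 46741487),Int.ofNat (nat_lit 277544548),Int.ofNat (nat_lit 128362001),Int.ofNat (nat_lit 220484826),Int.negSucc (nat_lit 177834181),Int.ofNat (nat_lit 1249369232),Int.negSucc (nat_lit 25196804),Int.negSucc (nat_lit 184417423),Int.negSucc (nat_lit 359384464),Int.negSucc (nat_lit 71477252),Int.negSucc (nat_lit 450063714),Int.ofNat (nat_lit 646440047),Int.ofNat (nat_lit 125981230),Int.ofNat (nat_lit 575665632),Int.negSucc (nat_lit 135816504),Int.ofNat (nat_lit 193368554),Int.ofNat (nat_lit 133530887),Int.ofNat (nat_lit 18158169),Int.negSucc (nat_lit 117661978),Int.ofNat (nat_lit 180473076),Int.ofNat (nat_lit 81591466),Int.negSucc (nat_lit 224153768),Int.negSucc (nat_lit 93740576),Int.negSucc (nat_lit 15949337),Int.negSucc (nat_lit 67612032),Int.negSucc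 (nat_lit 39468335),Int.negSucc (nat_lit 53224224),Int.negSucc (nat_lit 115709646),Int.ofNat (nat_lit 197375549),Int.negSucc (nat_lit 353080124),Int.ofNat (nat_lit 162665686),Int.negSucc (nat_lit 5189683),Int.negSucc (nat_lit 171999296),Int.ofNat (nat_lit 136313836),Int.ofNat (nat_lit 11435262),Int.negSucc (nat_lit 392786397),Int.ofNat (nat_lit 266747918),Int.ofNat (nat_lit 70301060),Int.negSucc (nat_lit 143751179),Int.ofNat (nat_lit 354957749),Int.ofNat (nat_lit 365592459),Int.ofNat (nat_lit 191946852),Int.negSucc (nat_lit 72174709),Int.negSucc (nat_lit 107880063),Int.negSucc (nat_lit 126367168),Int.negSucc (nat_lit 95048004),Int.ofNat (nat_lit 520753452),Int.ofNat (nat_lit 80304182),Int.negSucc (nat_lit 51578325),Int.negSucc (nat_lit 199300942),Int.negSucc (nat_lit 193747326),Int.ofNat (nat_lit 47480793),Int.ofNat (nat_lit 84761961),Int.ofNat (nat_lit 28532720),Int.negSucc (nat_lit 41762322),Int.ofNat (nat_lit 9585775),Int.negSucc (nat_lit 115221595),Int.ofNat (nat_lit 28480680),Int.negSucc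 (nat_lit 85529859),Int.negSucc (nat_lit 73530345),Int.negSucc (nat_lit 265543404),Int.negSucc (nat_lit 218988035),Int.ofNat (nat_lit 4793577),Int.ofNat (nat_lit 58626264),Int.ofNat (nat_lit 82185794),Int.ofNat (nat_lit 412411722),Int.ofNat (nat_lit 210955874),Int.negSucc (nat_lit 223299533),Int.negSucc (nat_lit 121143786),Int.negSucc (nat_lit 244613431),Int.ofNat (nat_lit 306311644),Int.negSucc (nat_lit 134017690),Int.ofNat (nat_lit 25949632),Int.negSucc (nat_lit 80049220),Int.ofNat (nat_lit 120653359),Int.negSucc (nat_lit 59202433),Int.ofNat (nat_lit 69721180),Int.ofNat (nat_lit 845255),Int.ofNat (nat_lit 171250141),Int.ofNat (nat_lit 206015434),Int.negSucc (nat_lit 63662277),Int.negSucc (nat_lit 84627432),Int.ofNat (nat_lit 160088206),Int.negSucc (nat_lit 412068609),Int.negSucc (nat_lit 130691309),Int.ofNat (nat_lit 165829170),Int.negSucc (nat_lit 2767881),Int.negSucc (nat_lit 66871179),Int.ofNat (nat_lit 848293272),Int.negSucc (nat_lit 54406395),Int.negSucc (nat_lit 523732285),Int.ofNat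 (nat_lit 254577225),Int.negSucc (nat_lit 133340592),Int.negSucc (nat_lit 210755863),Int.negSucc (nat_lit 710834918),Int.negSucc (nat_lit 390494914),Int.negSucc (nat_lit 752495016),Int.ofNat (nat_lit 725673543),Int.ofNat (nat_lit 98891688),Int.negSucc (nat_lit 900168290),Int.negSucc (nat_lit 1011985696),Int.negSucc (nat_lit 2302835525),Int.negSucc (nat_lit 895345643),Int.negSucc (nat_lit 1642172482),Int.negSucc (nat_lit 92258733),Int.ofNat (nat_lit 21482234),Int.negSucc (nat_lit 25552796),Int.ofNat (nat_lit 112046032),Int.ofNat (nat_lit 94367780),Int.ofNat (nat_lit 144106552),Int.ofNat (nat_lit 72297777),Int.ofNat (nat_lit 322805374),Int.negSucc (nat_lit 203057011),Int.ofNat (nat_lit 312384315),Int.ofNat (nat_lit 405210425),Int.ofNat (nat_lit 976696037)])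

/-- A row. -/
noncomputable def sr7_c3_28 : List ℕ × List ℤ :=
  ([(nat_lit 1),(nat_lit 4),(nat_lit 0),(nat_lit 0),(nat_lit 0),(nat_lit 0),(nat_lit 0),(nat_lit 0),(nat_lit 0),(nat_lit 0),(nat_lit 0),(nat_lit 0)], [Int.negSucc (nat_lit 1248343738),Int.ofNat (nat_lit 779774521),Int.ofNat (nat_lit 3302097670),Int.negSucc (nat_lit 273024604),Int.ofNat (nat_lit 2529751410),Int.negSucc (nat_lit 464841472),Int.negSucc (nat_lit 1684646417),Int.negSucc (nat_lit 2790287562),Int.ofNat (nat_lit 317243701),Int.ofNat (nat_lit 121477788),Int.ofNat (nat_lit 1402399739),Int.ofNat (nat_lit 1772011823),Int.negSucc (nat_lit 107227577),Int.ofNat (nat_lit 1657865337),Int.negSucc (nat_lit 1237662312),Int.ofNat (nat_lit 133918101),Int.ofNat (nat_lit 174655580),Int.ofNat (nat_lit 1206193692),Int.negSucc (nat_lit 1101457965),Int.negSucc (nat_lit 725715979),Int.ofNat (nat_lit 252027838),Int.negSucc (nat_lit 821099914),Int.negSucc (nat_lit 980169673),Int.negSucc (nat_lit 296772055),Int.negSucc (nat_lit 717661849),Int.negSucc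 (nat_lit 156408103),Int.ofNat (nat_lit 2193342946),Int.ofNat (nat_lit 140326152),Int.negSucc (nat_lit 1163417678),Int.negSucc (nat_lit 1042627030),Int.negSucc (nat_lit 1657936128),Int.negSucc (nat_lit 872348887),Int.ofNat (nat_lit 727053880),Int.ofNat (nat_lit 1118979),Int.negSucc (nat_lit 563132265),Int.negSucc (nat_lit 481349571),Int.ofNat (nat_lit 46189027),Int.negSucc (nat_lit 36792161),Int.negSucc (nat_lit 188931192),Int.negSucc (nat_lit 875518561),Int.ofNat (nat_lit 210399142),Int.ofNat (nat_lit 21431088),Int.negSucc (nat_lit 278384977),Int.negSucc (nat_lit 374958375),Int.ofNat (nat_lit 512678092),Int.negSucc (nat_lit 38295298),Int.ofNat (nat_lit 336093525),Int.ofNat (nat_lit 1210897029),Int.ofNat (nat_lit 2067281949),Int.negSucc (nat_lit 104925074),Int.ofNat (nat_lit 176923442),Int.negSucc (nat_lit 356009104),Int.negSucc (nat_lit 635780288),Int.ofNat (nat_lit 27335126),Int.negSucc (nat_lit 48787025),Int.negSucc (nat_lit 327677071),Int.negSucc (nat_lit 1306895507),Int.ofNat (nat_lit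 183776254),Int.negSucc (nat_lit 750438241),Int.negSucc (nat_lit 372026865),Int.negSucc (nat_lit 716809788),Int.ofNat (nat_lit 128120140),Int.ofNat (nat_lit 1172598189),Int.negSucc (nat_lit 718069894),Int.negSucc (nat_lit 316687),Int.negSucc (nat_lit 588345290),Int.ofNat (nat_lit 280689923),Int.ofNat (nat_lit 233780417),Int.ofNat (nat_lit 780545010),Int.negSucc (nat_lit 501180632),Int.ofNat (nat_lit 329661898),Int.ofNat (nat_lit 273197883),Int.ofNat (nat_lit 198819396),Int.negSucc (nat_lit 312025665),Int.ofNat (nat_lit 8000447),Int.ofNat (nat_lit 119121092),Int.negSucc (nat_lit 775248955),Int.ofNat (nat_lit 133889669),Int.negSucc (nat_lit 66259944),Int.ofNat (nat_lit 59601741),Int.ofNat (nat_lit 214426629),Int.negSucc (nat_lit 293297681),Int.negSucc (nat_lit 518081883),Int.negSucc (nat_lit 49657464),Int.ofNat (nat_lit 497929577),Int.ofNat (nat_lit 232996239),Int.ofNat (nat_lit 390279716),Int.negSucc (nat_lit 80495119),Int.negSucc (nat_lit 530043090),Int.negSucc (nat_lit 830279647),Int.ofNat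 (nat_lit 209666019),Int.negSucc (nat_lit 760201437),Int.negSucc (nat_lit 589390066),Int.ofNat (nat_lit 820835849),Int.negSucc (nat_lit 683990418),Int.ofNat (nat_lit 200578378),Int.ofNat (nat_lit 376608702),Int.negSucc (nat_lit 381268100),Int.negSucc (nat_lit 253404972),Int.ofNat (nat_lit 702314589),Int.negSucc (nat_lit 66070334),Int.negSucc (nat_lit 207385988),Int.ofNat (nat_lit 158477750),Int.ofNat (nat_lit 343004504),Int.ofNat (nat_lit 18564373),Int.ofNat (nat_lit 208476082),Int.ofNat (nat_lit 87606727),Int.ofNat (nat_lit 96818911),Int.negSucc (nat_lit 59509629),Int.ofNat (nat_lit 208543261),Int.negSucc (nat_lit 225062317),Int.ofNat (nat_lit 121805070),Int.ofNat (nat_lit 147837332),Int.ofNat (nat_lit 318924865),Int.ofNat (nat_lit 87103927),Int.negSucc (nat_lit 454684768),Int.ofNat (nat_lit 24739428),Int.negSucc (nat_lit 482424415),Int.negSucc (nat_lit 98449530),Int.negSucc (nat_lit 316702572),Int.ofNat (nat_lit 157191149),Int.negSucc (nat_lit 96905563),Int.negSucc (nat_lit 309283150),Int.negSucc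 (nat_lit 136537316),Int.ofNat (nat_lit 135232517),Int.negSucc (nat_lit 77759109),Int.negSucc (nat_lit 346683333),Int.ofNat (nat_lit 45310854),Int.ofNat (nat_lit 155725715),Int.ofNat (nat_lit 54840440),Int.negSucc (nat_lit 260906294),Int.ofNat (nat_lit 93724419),Int.negSucc (nat_lit 226456735),Int.ofNat (nat_lit 279049997),Int.ofNat (nat_lit 109499732),Int.ofNat (nat_lit 145532955),Int.ofNat (nat_lit 34018757),Int.ofNat (nat_lit 13037152),Int.negSucc (nat_lit 5122344),Int.negSucc (nat_lit 139596697),Int.ofNat (nat_lit 382691761),Int.ofNat (nat_lit 94919031),Int.ofNat (nat_lit 233208540),Int.negSucc (nat_lit 138744214),Int.negSucc (nat_lit 28030550),Int.negSucc (nat_lit 8118878),Int.negSucc (nat_lit 61122433),Int.negSucc (nat_lit 430050034),Int.ofNat (nat_lit 263410509),Int.negSucc (nat_lit 47162328),Int.negSucc (nat_lit 430911504),Int.ofNat (nat_lit 391612193),Int.negSucc (nat_lit 60435604),Int.ofNat (nat_lit 176926414),Int.negSucc (nat_lit 296030588),Int.ofNat (nat_lit 564272128),Int.negSucc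 (nat_lit 1162293319),Int.negSucc (nat_lit 201983041),Int.ofNat (nat_lit 14972974),Int.negSucc (nat_lit 123211727),Int.negSucc (nat_lit 73864618),Int.negSucc (nat_lit 71440177),Int.negSucc (nat_lit 153329760),Int.negSucc (nat_lit 43920905),Int.ofNat (nat_lit 96061749),Int.ofNat (nat_lit 235893666),Int.ofNat (nat_lit 146857854),Int.negSucc (nat_lit 26030995),Int.negSucc (nat_lit 17047984),Int.ofNat (nat_lit 23443837),Int.negSucc (nat_lit 86742145),Int.negSucc (nat_lit 126849252),Int.ofNat (nat_lit 43376144),Int.ofNat (nat_lit 29622709),Int.negSucc (nat_lit 337672131),Int.negSucc (nat_lit 58771544),Int.ofNat (nat_lit 563076819),Int.negSucc (nat_lit 273989811),Int.ofNat (nat_lit 1518246671),Int.ofNat (nat_lit 937896185),Int.ofNat (nat_lit 1279035449),Int.ofNat (nat_lit 325361851),Int.negSucc (nat_lit 869259840),Int.ofNat (nat_lit 667448362),Int.negSucc (nat_lit 22728351),Int.negSucc (nat_lit 455481375),Int.ofNat (nat_lit 92869298),Int.ofNat (nat_lit 2594626218),Int.ofNat (nat_lit 567011398),Int.negSucc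 (nat_lit 2654181876),Int.negSucc (nat_lit 1400920433),Int.negSucc (nat_lit 2165909146),Int.ofNat (nat_lit 156120186),Int.negSucc (nat_lit 281669388),Int.negSucc (nat_lit 140507527),Int.negSucc (nat_lit 1269528286),Int.negSucc (nat_lit 214018164),Int.negSucc (nat_lit 171405820),Int.ofNat (nat_lit 71465194),Int.negSucc (nat_lit 6195632),Int.negSucc (nat_lit 835458661),Int.ofNat (nat_lit 698076823),Int.ofNat (nat_lit 2419532164)])

/-- A row. -/
noncomputable def sr7_c3_29 : List ℕ × List ℤ :=
  ([(nat_lit 2),(nat_lit 0),(nat_lit 0),(nat_lit 0),(nat_lit 0),(nat_lit 0),(nat_lit 0),(nat_lit 0),(nat_lit 0),(nat_lit 0),(nat_lit 0),(nat_lit 0)], [Int.negSucc (nat_lit 2719130488),Int.negSucc (nat_lit 1425423177),Int.negSucc (nat_lit 690940073),Int.ofNat (nat_lit 412261845),Int.negSucc (nat_lit 2629088422),Int.ofNat (nat_lit 1424903714),Int.negSucc (nat_lit 1570564087),Int.ofNat (nat_lit 468470919),Int.negSucc (nat_lit 1272275592),Int.negSucc (nat_lit 495450284),Int.ofNat (nat_lit 2481103397),Int.negSucc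 (nat_lit 1705911012),Int.negSucc (nat_lit 972467587),Int.negSucc (nat_lit 299801574),Int.negSucc (nat_lit 213606352),Int.negSucc (nat_lit 707550380),Int.ofNat (nat_lit 684387454),Int.negSucc (nat_lit 1970732276),Int.negSucc (nat_lit 437814480),Int.negSucc (nat_lit 1740917370),Int.negSucc (nat_lit 1237652376),Int.ofNat (nat_lit 798030027),Int.ofNat (nat_lit 656710420),Int.negSucc (nat_lit 2319751531),Int.ofNat (nat_lit 661378284),Int.ofNat (nat_lit 654307649),Int.ofNat (nat_lit 1021501065),Int.ofNat (nat_lit 1170297705),Int.negSucc (nat_lit 1430199371),Int.negSucc (nat_lit 397878739),Int.ofNat (nat_lit 665271360),Int.negSucc (nat_lit 849886094),Int.ofNat (nat_lit 851072617),Int.ofNat (nat_lit 2236537949),Int.ofNat (nat_lit 711747365),Int.negSucc (nat_lit 145211468),Int.ofNat (nat_lit 144778932),Int.ofNat (nat_lit 989384579),Int.negSucc (nat_lit 147141984),Int.ofNat (nat_lit 323275620),Int.negSucc (nat_lit 987756988),Int.negSucc (nat_lit 434630902),Int.ofNat (nat_lit 633035964),Int.negSucc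 (nat_lit 266724456),Int.ofNat (nat_lit 142747888),Int.negSucc (nat_lit 96081924),Int.negSucc (nat_lit 100514144),Int.negSucc (nat_lit 253223704),Int.ofNat (nat_lit 373194475),Int.negSucc (nat_lit 833936554),Int.ofNat (nat_lit 649333429),Int.ofNat (nat_lit 350418477),Int.negSucc (nat_lit 45103462),Int.negSucc (nat_lit 19425257),Int.negSucc (nat_lit 190188743),Int.ofNat (nat_lit 222761049),Int.negSucc (nat_lit 106445826),Int.negSucc (nat_lit 56159460),Int.ofNat (nat_lit 573692537),Int.ofNat (nat_lit 663067724),Int.negSucc (nat_lit 113497821),Int.ofNat (nat_lit 802352200),Int.negSucc (nat_lit 36492819),Int.negSucc (nat_lit 46477904),Int.ofNat (nat_lit 168913240),Int.negSucc (nat_lit 417371886),Int.ofNat (nat_lit 327447690),Int.negSucc (nat_lit 144522155),Int.ofNat (nat_lit 696087674),Int.negSucc (nat_lit 475942376),Int.ofNat (nat_lit 236234700),Int.negSucc (nat_lit 684444893),Int.negSucc (nat_lit 226562539),Int.negSucc (nat_lit 563709720),Int.ofNat (nat_lit 113269363),Int.negSucc (nat_lit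 73724386),Int.ofNat (nat_lit 1492958678),Int.negSucc (nat_lit 481282960),Int.ofNat (nat_lit 1537573419),Int.negSucc (nat_lit 919581467),Int.negSucc (nat_lit 1241774169),Int.ofNat (nat_lit 589319089),Int.negSucc (nat_lit 119512259),Int.ofNat (nat_lit 77499878),Int.negSucc (nat_lit 7259849),Int.negSucc (nat_lit 115296257),Int.negSucc (nat_lit 172723568),Int.negSucc (nat_lit 79853572),Int.ofNat (nat_lit 142579871),Int.negSucc (nat_lit 262840407),Int.ofNat (nat_lit 540359895),Int.negSucc (nat_lit 1134611355),Int.ofNat (nat_lit 13376910),Int.ofNat (nat_lit 506960058),Int.negSucc (nat_lit 419542093),Int.negSucc (nat_lit 71967120),Int.ofNat (nat_lit 12719063),Int.negSucc (nat_lit 243130971),Int.ofNat (nat_lit 120995826),Int.ofNat (nat_lit 51861783),Int.ofNat (nat_lit 736989457),Int.negSucc (nat_lit 368398556),Int.negSucc (nat_lit 210287660),Int.ofNat (nat_lit 1539372271),Int.ofNat (nat_lit 97319856),Int.ofNat (nat_lit 326742327),Int.negSucc (nat_lit 414928647),Int.negSucc (nat_lit 89001087),Int.ofNat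 (nat_lit 322250555),Int.ofNat (nat_lit 245094435),Int.negSucc (nat_lit 67619504),Int.negSucc (nat_lit 90247264),Int.ofNat (nat_lit 163819897),Int.ofNat (nat_lit 164433704),Int.ofNat (nat_lit 51810069),Int.ofNat (nat_lit 139627188),Int.negSucc (nat_lit 158721189),Int.ofNat (nat_lit 12713777),Int.negSucc (nat_lit 476958596),Int.negSucc (nat_lit 15120474),Int.ofNat (nat_lit 54416340),Int.negSucc (nat_lit 230227144),Int.negSucc (nat_lit 36106842),Int.ofNat (nat_lit 4162690),Int.ofNat (nat_lit 135297122),Int.ofNat (nat_lit 110885781),Int.negSucc (nat_lit 81790317),Int.negSucc (nat_lit 29343662),Int.negSucc (nat_lit 105557931),Int.ofNat (nat_lit 679034465),Int.negSucc (nat_lit 247142017),Int.negSucc (nat_lit 4909892),Int.negSucc (nat_lit 38474100),Int.ofNat (nat_lit 141916265),Int.negSucc (nat_lit 251859660),Int.negSucc (nat_lit 200059951),Int.ofNat (nat_lit 244413814),Int.negSucc (nat_lit 79426487),Int.ofNat (nat_lit 178750944),Int.ofNat (nat_lit 111620306),Int.ofNat (nat_lit 93130420),Int.ofNat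 (nat_lit 10486306),Int.ofNat (nat_lit 1556313),Int.negSucc (nat_lit 247011057),Int.ofNat (nat_lit 283655472),Int.negSucc (nat_lit 170193254),Int.negSucc (nat_lit 116938119),Int.negSucc (nat_lit 304248907),Int.negSucc (nat_lit 43874294),Int.ofNat (nat_lit 156894750),Int.ofNat (nat_lit 217515014),Int.negSucc (nat_lit 82629960),Int.ofNat (nat_lit 160357908),Int.negSucc (nat_lit 7097256),Int.negSucc (nat_lit 171236147),Int.ofNat (nat_lit 36495047),Int.negSucc (nat_lit 114165493),Int.negSucc (nat_lit 18493194),Int.ofNat (nat_lit 223175865),Int.negSucc (nat_lit 113413038),Int.ofNat (nat_lit 45658807),Int.negSucc (nat_lit 7001500),Int.negSucc (nat_lit 133779326),Int.negSucc (nat_lit 71961470),Int.ofNat (nat_lit 47185907),Int.ofNat (nat_lit 235412282),Int.ofNat (nat_lit 95265579),Int.ofNat (nat_lit 126662319),Int.negSucc (nat_lit 53675212),Int.ofNat (nat_lit 65849833),Int.ofNat (nat_lit 38787230),Int.ofNat (nat_lit 28049591),Int.ofNat (nat_lit 236609627),Int.negSucc (nat_lit 49258298),Int.ofNat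 (nat_lit 902017154),Int.negSucc (nat_lit 228189320),Int.negSucc (nat_lit 1026694042),Int.ofNat (nat_lit 907336948),Int.ofNat (nat_lit 863710578),Int.ofNat (nat_lit 810023255),Int.negSucc (nat_lit 929595593),Int.ofNat (nat_lit 988245554),Int.negSucc (nat_lit 233006179),Int.ofNat (nat_lit 385821271),Int.ofNat (nat_lit 44168125),Int.negSucc (nat_lit 421952890),Int.negSucc (nat_lit 64473555),Int.ofNat (nat_lit 673218035),Int.ofNat (nat_lit 38614659),Int.ofNat (nat_lit 230083862),Int.ofNat (nat_lit 30385299),Int.ofNat (nat_lit 23693672),Int.negSucc (nat_lit 2494705798),Int.ofNat (nat_lit 279378374),Int.negSucc (nat_lit 235894618),Int.negSucc (nat_lit 227748011),Int.ofNat (nat_lit 123539323),Int.ofNat (nat_lit 4937361),Int.negSucc (nat_lit 32644537),Int.ofNat (nat_lit 55845466),Int.negSucc (nat_lit 113012387),Int.negSucc (nat_lit 197401742),Int.negSucc (nat_lit 3287093),Int.ofNat (nat_lit 344244468)])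

/-- A row. -/
noncomputable def sr7_c3_30 : List ℕ × List ℤ :=
  ([(nat_lit 2),(nat_lit 0),(nat_lit 0),(nat_lit 0),(nat_lit 1),(nat_lit 0),(nat_lit 0),(nat_lit 0),(nat_lit 0),(nat_lit 0),(nat_lit 0),(nat_lit 0)], [Int.negSucc (nat_lit 323960651),Int.ofNat (nat_lit 262576296),Int.ofNat (nat_lit 927406863),Int.negSucc (nat_lit 1248840593),Int.ofNat (nat_lit 260280306),Int.ofNat (nat_lit 735011863),Int.negSucc (nat_lit 259218858),Int.ofNat (nat_lit 575238029),Int.ofNat (nat_lit 741329917),Int.ofNat (nat_lit 492659431),Int.negSucc (nat_lit 70444568),Int.negSucc (nat_lit 242073202),Int.ofNat (nat_lit 488700009),Int.ofNat (nat_lit 414824616),Int.ofNat (nat_lit 169389436),Int.ofNat (nat_lit 123673450),Int.ofNat (nat_lit 80687462),Int.negSucc (nat_lit 280751157),Int.ofNat (nat_lit 460934780),Int.ofNat (nat_lit 163095846),Int.ofNat (nat_lit 91381749),Int.ofNat (nat_lit 424198148),Int.negSucc (nat_lit 72666026),Int.ofNat (nat_lit 248513556),Int.ofNat (nat_lit 13407475),Int.negSucc (nat_lit 113112796),Int.ofNat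 (nat_lit 48924675),Int.negSucc (nat_lit 192444639),Int.ofNat (nat_lit 101772854),Int.ofNat (nat_lit 107404486),Int.negSucc (nat_lit 49574928),Int.ofNat (nat_lit 145458320),Int.negSucc (nat_lit 588322114),Int.negSucc (nat_lit 428559220),Int.ofNat (nat_lit 49117262),Int.negSucc (nat_lit 41657424),Int.negSucc (nat_lit 105839841),Int.ofNat (nat_lit 90102194),Int.negSucc (nat_lit 10365270),Int.ofNat (nat_lit 217613486),Int.ofNat (nat_lit 213810284),Int.negSucc (nat_lit 274335557),Int.negSucc (nat_lit 335958787),Int.negSucc (nat_lit 237630380),Int.ofNat (nat_lit 35678841),Int.negSucc (nat_lit 189273036),Int.ofNat (nat_lit 70919688),Int.negSucc (nat_lit 43406412),Int.negSucc (nat_lit 174384673),Int.ofNat (nat_lit 441624365),Int.ofNat (nat_lit 104932564),Int.ofNat (nat_lit 87219553),Int.negSucc (nat_lit 368500126),Int.ofNat (nat_lit 1244700),Int.ofNat (nat_lit 347698091),Int.ofNat (nat_lit 10635799),Int.negSucc (nat_lit 77843146),Int.ofNat (nat_lit 250076932),Int.negSucc (nat_lit 312084903),Int.negSucc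 (nat_lit 33578673),Int.negSucc (nat_lit 365550145),Int.negSucc (nat_lit 400081588),Int.negSucc (nat_lit 2228922),Int.ofNat (nat_lit 116939894),Int.negSucc (nat_lit 80546303),Int.ofNat (nat_lit 250653850),Int.negSucc (nat_lit 71499249),Int.negSucc (nat_lit 29215086),Int.negSucc (nat_lit 33476222),Int.negSucc (nat_lit 258637021),Int.negSucc (nat_lit 222407816),Int.negSucc (nat_lit 138264716),Int.negSucc (nat_lit 115005760),Int.ofNat (nat_lit 101118955),Int.ofNat (nat_lit 58861692),Int.ofNat (nat_lit 43871847),Int.negSucc (nat_lit 186490644),Int.ofNat (nat_lit 4683898),Int.ofNat (nat_lit 170937326),Int.ofNat (nat_lit 111627639),Int.ofNat (nat_lit 89811095),Int.ofNat (nat_lit 156472972),Int.ofNat (nat_lit 20105496),Int.negSucc (nat_lit 53077829),Int.ofNat (nat_lit 47453050),Int.ofNat (nat_lit 35265872),Int.ofNat (nat_lit 72515201),Int.ofNat (nat_lit 40865846),Int.negSucc (nat_lit 31738545),Int.ofNat (nat_lit 1622163),Int.negSucc (nat_lit 58343005),Int.ofNat (nat_lit 91317807),Int.ofNat (nat_lit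 55935015),Int.ofNat (nat_lit 5670102),Int.ofNat (nat_lit 4725708),Int.ofNat (nat_lit 43502854),Int.ofNat (nat_lit 144796416),Int.negSucc (nat_lit 67748061),Int.ofNat (nat_lit 52475107),Int.negSucc (nat_lit 33624976),Int.negSucc (nat_lit 79891152),Int.negSucc (nat_lit 90366505),Int.ofNat (nat_lit 19113365),Int.negSucc (nat_lit 159245868),Int.ofNat (nat_lit 87861156),Int.negSucc (nat_lit 91069573),Int.ofNat (nat_lit 80508722),Int.ofNat (nat_lit 17400269),Int.ofNat (nat_lit 21843444),Int.negSucc (nat_lit 39701819),Int.negSucc (nat_lit 14441702),Int.ofNat (nat_lit 1114379),Int.negSucc (nat_lit 53398730),Int.ofNat (nat_lit 49840663),Int.negSucc (nat_lit 42641026),Int.negSucc (nat_lit 29893565),Int.ofNat (nat_lit 6259445),Int.ofNat (nat_lit 45815827),Int.ofNat (nat_lit 29272026),Int.ofNat (nat_lit 37363286),Int.negSucc (nat_lit 100245502),Int.ofNat (nat_lit 161216039),Int.ofNat (nat_lit 70771573),Int.ofNat (nat_lit 6704034),Int.negSucc (nat_lit 92694270),Int.negSucc (nat_lit 109809721),Int.negSucc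 (nat_lit 150709437),Int.negSucc (nat_lit 71513376),Int.negSucc (nat_lit 610275),Int.ofNat (nat_lit 111678449),Int.ofNat (nat_lit 233353785),Int.negSucc (nat_lit 54025761),Int.ofNat (nat_lit 61300378),Int.ofNat (nat_lit 22673298),Int.ofNat (nat_lit 38169348),Int.ofNat (nat_lit 114578746),Int.negSucc (nat_lit 53551463),Int.negSucc (nat_lit 38413876),Int.negSucc (nat_lit 48411725),Int.negSucc (nat_lit 53951113),Int.ofNat (nat_lit 49176113),Int.ofNat (nat_lit 10815023),Int.negSucc (nat_lit 48682682),Int.negSucc (nat_lit 22723128),Int.negSucc (nat_lit 57040758),Int.ofNat (nat_lit 48713984),Int.ofNat (nat_lit 9157929),Int.ofNat (nat_lit 74705845),Int.ofNat (nat_lit 84401913),Int.negSucc (nat_lit 460336),Int.ofNat (nat_lit 3508518),Int.negSucc (nat_lit 9649325),Int.negSucc (nat_lit 28605173),Int.negSucc (nat_lit 23213718),Int.ofNat (nat_lit 47044970),Int.ofNat (nat_lit 45667600),Int.negSucc (nat_lit 19751989),Int.negSucc (nat_lit 30933391),Int.negSucc (nat_lit 54268939),Int.ofNat (nat_lit 44584967),Int.negSucc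 (nat_lit 49433372),Int.ofNat (nat_lit 3927080),Int.ofNat (nat_lit 15387372),Int.ofNat (nat_lit 45581157),Int.negSucc (nat_lit 8919698),Int.ofNat (nat_lit 1209709),Int.ofNat (nat_lit 14872425),Int.negSucc (nat_lit 74643371),Int.negSucc (nat_lit 7328316),Int.negSucc (nat_lit 56217273),Int.ofNat (nat_lit 8045097),Int.ofNat (nat_lit 8577316),Int.negSucc (nat_lit 28834298),Int.ofNat (nat_lit 14716499),Int.negSucc (nat_lit 435637798),Int.negSucc (nat_lit 172128455),Int.ofNat (nat_lit 366712129),Int.ofNat (nat_lit 607489553),Int.negSucc (nat_lit 123042583),Int.negSucc (nat_lit 150030751),Int.ofNat (nat_lit 149213353),Int.negSucc (nat_lit 380649117),Int.negSucc (nat_lit 11445214),Int.negSucc (nat_lit 96507085),Int.negSucc (nat_lit 48269096),Int.ofNat (nat_lit 137907551),Int.negSucc (nat_lit 44107958),Int.negSucc (nat_lit 32592554),Int.ofNat (nat_lit 137749903),Int.negSucc (nat_lit 29959514),Int.negSucc (nat_lit 44770625),Int.ofNat (nat_lit 30331512),Int.ofNat (nat_lit 194577181),Int.ofNat (nat_lit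 78166272),Int.negSucc (nat_lit 324719840),Int.ofNat (nat_lit 56171794),Int.ofNat (nat_lit 3257696),Int.ofNat (nat_lit 23494036),Int.negSucc (nat_lit 5989586),Int.negSucc (nat_lit 19572578),Int.ofNat (nat_lit 7045485),Int.ofNat (nat_lit 3076082),Int.ofNat (nat_lit 16603004),Int.negSucc (nat_lit 11752778),Int.ofNat (nat_lit 65782355)])

/-- A row. -/
noncomputable def sr7_c3_31 : List ℕ × List ℤ :=
  ([(nat_lit 2),(nat_lit 0),(nat_lit 1),(nat_lit 0),(nat_lit 0),(nat_lit 0),(nat_lit 0),(nat_lit 0),(nat_lit 0),(nat_lit 0),(nat_lit 0),(nat_lit 0)], [Int.negSucc (nat_lit 2345122370),Int.negSucc (nat_lit 429009556),Int.negSucc (nat_lit 1228131818),Int.ofNat (nat_lit 519846701),Int.negSucc (nat_lit 2394154744),Int.ofNat (nat_lit 1320187428),Int.negSucc (nat_lit 1779853203),Int.ofNat (nat_lit 333063215),Int.negSucc (nat_lit 837889376),Int.ofNat (nat_lit 269371424),Int.ofNat (nat_lit 1758627724),Int.negSucc (nat_lit 1284205212),Int.negSucc (nat_lit 963587635),Int.negSucc (nat_lit 201375343),Int.ofNat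 (nat_lit 474054296),Int.negSucc (nat_lit 434803007),Int.ofNat (nat_lit 450041317),Int.negSucc (nat_lit 1892231828),Int.negSucc (nat_lit 297796791),Int.negSucc (nat_lit 1102213655),Int.negSucc (nat_lit 1034444143),Int.ofNat (nat_lit 339939250),Int.ofNat (nat_lit 422681645),Int.negSucc (nat_lit 1620105869),Int.ofNat (nat_lit 351540623),Int.ofNat (nat_lit 804511827),Int.ofNat (nat_lit 719289634),Int.ofNat (nat_lit 624372290),Int.negSucc (nat_lit 707891415),Int.negSucc (nat_lit 355389202),Int.ofNat (nat_lit 360793941),Int.negSucc (nat_lit 638922127),Int.negSucc (nat_lit 92218605),Int.ofNat (nat_lit 1394649261),Int.ofNat (nat_lit 729388723),Int.negSucc (nat_lit 35570999),Int.ofNat (nat_lit 181522646),Int.ofNat (nat_lit 917357054),Int.negSucc (nat_lit 11582895),Int.ofNat (nat_lit 286635308),Int.negSucc (nat_lit 552637386),Int.negSucc (nat_lit 313080225),Int.ofNat (nat_lit 346820538),Int.negSucc (nat_lit 353060015),Int.ofNat (nat_lit 106993224),Int.negSucc (nat_lit 368818904),Int.negSucc (nat_lit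 96974954),Int.negSucc (nat_lit 185972088),Int.ofNat (nat_lit 129935013),Int.negSucc (nat_lit 408008662),Int.ofNat (nat_lit 713047950),Int.ofNat (nat_lit 115357588),Int.ofNat (nat_lit 36510412),Int.ofNat (nat_lit 98363875),Int.negSucc (nat_lit 47688131),Int.ofNat (nat_lit 98309123),Int.negSucc (nat_lit 59462812),Int.ofNat (nat_lit 320123129),Int.ofNat (nat_lit 200544345),Int.ofNat (nat_lit 888888488),Int.negSucc (nat_lit 222122293),Int.ofNat (nat_lit 444553671),Int.ofNat (nat_lit 10996228),Int.negSucc (nat_lit 247324131),Int.ofNat (nat_lit 129419907),Int.negSucc (nat_lit 191425983),Int.ofNat (nat_lit 124286587),Int.negSucc (nat_lit 181663047),Int.ofNat (nat_lit 396712649),Int.negSucc (nat_lit 714369972),Int.ofNat (nat_lit 174332693),Int.negSucc (nat_lit 646528410),Int.negSucc (nat_lit 179705858),Int.negSucc (nat_lit 266521370),Int.ofNat (nat_lit 111405475),Int.negSucc (nat_lit 108569469),Int.ofNat (nat_lit 880382690),Int.negSucc (nat_lit 288195780),Int.ofNat (nat_lit 1224619438),Int.negSucc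 (nat_lit 563192962),Int.negSucc (nat_lit 505970104),Int.ofNat (nat_lit 198330221),Int.negSucc (nat_lit 92839805),Int.ofNat (nat_lit 60841818),Int.ofNat (nat_lit 117336207),Int.negSucc (nat_lit 69872249),Int.negSucc (nat_lit 89186968),Int.negSucc (nat_lit 92513521),Int.ofNat (nat_lit 106823582),Int.negSucc (nat_lit 126130945),Int.ofNat (nat_lit 325820566),Int.negSucc (nat_lit 802196019),Int.ofNat (nat_lit 42079650),Int.ofNat (nat_lit 300119885),Int.negSucc (nat_lit 214495312),Int.ofNat (nat_lit 46662249),Int.ofNat (nat_lit 96789213),Int.negSucc (nat_lit 167857514),Int.ofNat (nat_lit 147347714),Int.ofNat (nat_lit 87927102),Int.ofNat (nat_lit 292198721),Int.negSucc (nat_lit 461404132),Int.negSucc (nat_lit 220460788),Int.ofNat (nat_lit 1011032323),Int.ofNat (nat_lit 158726154),Int.ofNat (nat_lit 252211712),Int.negSucc (nat_lit 107003771),Int.ofNat (nat_lit 90054344),Int.ofNat (nat_lit 172204953),Int.ofNat (nat_lit 201882463),Int.negSucc (nat_lit 98520608),Int.negSucc (nat_lit 108871130),Int.ofNat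 (nat_lit 193238665),Int.ofNat (nat_lit 173969313),Int.ofNat (nat_lit 35014807),Int.ofNat (nat_lit 100481573),Int.negSucc (nat_lit 162450576),Int.ofNat (nat_lit 81624666),Int.negSucc (nat_lit 266506322),Int.ofNat (nat_lit 14231450),Int.ofNat (nat_lit 73963574),Int.negSucc (nat_lit 151588660),Int.negSucc (nat_lit 197960081),Int.ofNat (nat_lit 19224214),Int.ofNat (nat_lit 154447754),Int.negSucc (nat_lit 1789312),Int.negSucc (nat_lit 215603096),Int.negSucc (nat_lit 13556093),Int.negSucc (nat_lit 111017752),Int.ofNat (nat_lit 537148357),Int.negSucc (nat_lit 226178098),Int.ofNat (nat_lit 8451235),Int.ofNat (nat_lit 19511715),Int.ofNat (nat_lit 197178329),Int.negSucc (nat_lit 192956067),Int.negSucc (nat_lit 141288849),Int.ofNat (nat_lit 116670383),Int.negSucc (nat_lit 54917095),Int.ofNat (nat_lit 115155548),Int.negSucc (nat_lit 9053086),Int.ofNat (nat_lit 111100964),Int.ofNat (nat_lit 29630221),Int.ofNat (nat_lit 35231716),Int.negSucc (nat_lit 224966977),Int.ofNat (nat_lit 231469580),Int.negSucc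 (nat_lit 73998723),Int.negSucc (nat_lit 80792941),Int.negSucc (nat_lit 290679467),Int.ofNat (nat_lit 63783426),Int.ofNat (nat_lit 100820095),Int.ofNat (nat_lit 262867430),Int.negSucc (nat_lit 58597628),Int.ofNat (nat_lit 96876993),Int.negSucc (nat_lit 30746126),Int.negSucc (nat_lit 110581303),Int.ofNat (nat_lit 107698691),Int.negSucc (nat_lit 116818400),Int.negSucc (nat_lit 45970060),Int.ofNat (nat_lit 118404508),Int.negSucc (nat_lit 7643175),Int.negSucc (nat_lit 5125515),Int.ofNat (nat_lit 53425024),Int.negSucc (nat_lit 44104239),Int.negSucc (nat_lit 73298691),Int.ofNat (nat_lit 55978542),Int.ofNat (nat_lit 216039580),Int.ofNat (nat_lit 118982425),Int.ofNat (nat_lit 33119277),Int.negSucc (nat_lit 5541373),Int.ofNat (nat_lit 31092376),Int.ofNat (nat_lit 90391959),Int.negSucc (nat_lit 35810476),Int.ofNat (nat_lit 189326264),Int.negSucc (nat_lit 36510927),Int.ofNat (nat_lit 188014410),Int.negSucc (nat_lit 413656079),Int.negSucc (nat_lit 768273953),Int.ofNat (nat_lit 1496978556),Int.ofNat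 (nat_lit 569283935),Int.ofNat (nat_lit 703619450),Int.negSucc (nat_lit 644957780),Int.ofNat (nat_lit 701670667),Int.negSucc (nat_lit 735776252),Int.ofNat (nat_lit 234229810),Int.negSucc (nat_lit 178249459),Int.negSucc (nat_lit 414950755),Int.ofNat (nat_lit 90410162),Int.ofNat (nat_lit 455448713),Int.ofNat (nat_lit 22913122),Int.ofNat (nat_lit 345715103),Int.negSucc (nat_lit 17298351),Int.negSucc (nat_lit 144840625),Int.negSucc (nat_lit 1721080984),Int.ofNat (nat_lit 340342457),Int.negSucc (nat_lit 269288085),Int.negSucc (nat_lit 305627666),Int.negSucc (nat_lit 740652436),Int.ofNat (nat_lit 167699780),Int.ofNat (nat_lit 30857653),Int.ofNat (nat_lit 30464364),Int.negSucc (nat_lit 95896356),Int.negSucc (nat_lit 157381947),Int.negSucc (nat_lit 29471765),Int.ofNat (nat_lit 110603282),Int.negSucc (nat_lit 93714899),Int.ofNat (nat_lit 195675466)])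

/-- A row. -/
noncomputable def sr7_c3_32 : List ℕ × List ℤ :=
  ([(nat_lit 2),(nat_lit 1),(nat_lit 0),(nat_lit 1),(nat_lit 0),(nat_lit 0),(nat_lit 0),(nat_lit 0),(nat_lit 0),(nat_lit 0),(nat_lit 0),(nat_lit 0)], [Int.negSucc (nat_lit 1631826077),Int.negSucc (nat_lit 1301162632),Int.negSucc (nat_lit 2684357043),Int.negSucc (nat_lit 3863104086),Int.negSucc (nat_lit 1421649607),Int.ofNat (nat_lit 2915677553),Int.ofNat (nat_lit 3057973726),Int.ofNat (nat_lit 4676710942),Int.ofNat (nat_lit 1647749047),Int.negSucc (nat_lit 511146667),Int.negSucc (nat_lit 1128696274),Int.negSucc (nat_lit 2595075735),Int.ofNat (nat_lit 808120698),Int.negSucc (nat_lit 2076552992),Int.ofNat (nat_lit 1766808845),Int.negSucc (nat_lit 372655790),Int.negSucc (nat_lit 3017449),Int.negSucc (nat_lit 748768605),Int.ofNat (nat_lit 2105578707),Int.ofNat (nat_lit 390582047),Int.negSucc (nat_lit 19115869),Int.ofNat (nat_lit 1290210630),Int.ofNat (nat_lit 873262760),Int.ofNat (nat_lit 1374272061),Int.ofNat (nat_lit 799310353),Int.negSucc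 (nat_lit 771167362),Int.negSucc (nat_lit 1172843763),Int.negSucc (nat_lit 370360567),Int.negSucc (nat_lit 387065982),Int.ofNat (nat_lit 276776605),Int.negSucc (nat_lit 87337775),Int.ofNat (nat_lit 487243823),Int.negSucc (nat_lit 1509478468),Int.ofNat (nat_lit 579696008),Int.ofNat (nat_lit 551617874),Int.ofNat (nat_lit 658402248),Int.negSucc (nat_lit 502185694),Int.ofNat (nat_lit 31044659),Int.ofNat (nat_lit 612165461),Int.ofNat (nat_lit 1339642205),Int.ofNat (nat_lit 21102236),Int.ofNat (nat_lit 2972290),Int.negSucc (nat_lit 114142788),Int.ofNat (nat_lit 601499646),Int.negSucc (nat_lit 193448766),Int.ofNat (nat_lit 41163938),Int.negSucc (nat_lit 302222049),Int.ofNat (nat_lit 360105098),Int.ofNat (nat_lit 85208760),Int.ofNat (nat_lit 548712701),Int.ofNat (nat_lit 81317035),Int.ofNat (nat_lit 568632687),Int.ofNat (nat_lit 603398397),Int.ofNat (nat_lit 119420973),Int.ofNat (nat_lit 205114433),Int.ofNat (nat_lit 679747031),Int.negSucc (nat_lit 126789155),Int.negSucc (nat_lit 383355077),Int.ofNat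 (nat_lit 502458627),Int.negSucc (nat_lit 342309195),Int.ofNat (nat_lit 324220903),Int.ofNat (nat_lit 150281532),Int.negSucc (nat_lit 354277368),Int.ofNat (nat_lit 2251156212),Int.ofNat (nat_lit 460385809),Int.ofNat (nat_lit 655841836),Int.negSucc (nat_lit 160141431),Int.negSucc (nat_lit 166713815),Int.negSucc (nat_lit 386972922),Int.ofNat (nat_lit 137527085),Int.negSucc (nat_lit 369253565),Int.ofNat (nat_lit 164346239),Int.negSucc (nat_lit 157439690),Int.ofNat (nat_lit 186900144),Int.negSucc (nat_lit 359432),Int.negSucc (nat_lit 151139241),Int.ofNat (nat_lit 95378345),Int.ofNat (nat_lit 61953955),Int.negSucc (nat_lit 336489522),Int.ofNat (nat_lit 97310550),Int.negSucc (nat_lit 141833565),Int.ofNat (nat_lit 205759672),Int.ofNat (nat_lit 302482732),Int.negSucc (nat_lit 243131486),Int.negSucc (nat_lit 638521484),Int.negSucc (nat_lit 82974626),Int.negSucc (nat_lit 150864130),Int.ofNat (nat_lit 367898489),Int.ofNat (nat_lit 662060141),Int.ofNat (nat_lit 77533548),Int.ofNat (nat_lit 51344922),Int.ofNat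 (nat_lit 307331797),Int.ofNat (nat_lit 130627918),Int.negSucc (nat_lit 127104988),Int.negSucc (nat_lit 4777622),Int.negSucc (nat_lit 258486665),Int.negSucc (nat_lit 231684771),Int.ofNat (nat_lit 115455279),Int.negSucc (nat_lit 247699222),Int.negSucc (nat_lit 49948681),Int.ofNat (nat_lit 162386909),Int.ofNat (nat_lit 203999102),Int.negSucc (nat_lit 138640884),Int.negSucc (nat_lit 313701087),Int.ofNat (nat_lit 116888416),Int.negSucc (nat_lit 245229776),Int.ofNat (nat_lit 240030040),Int.ofNat (nat_lit 78302063),Int.negSucc (nat_lit 196491779),Int.negSucc (nat_lit 136677208),Int.ofNat (nat_lit 305603526),Int.negSucc (nat_lit 1346359),Int.negSucc (nat_lit 344694284),Int.ofNat (nat_lit 178488575),Int.negSucc (nat_lit 83815130),Int.negSucc (nat_lit 42007441),Int.ofNat (nat_lit 201356011),Int.ofNat (nat_lit 504152),Int.ofNat (nat_lit 351594866),Int.ofNat (nat_lit 285503386),Int.negSucc (nat_lit 274064402),Int.ofNat (nat_lit 396957084),Int.ofNat (nat_lit 200730194),Int.ofNat (nat_lit 157001581),Int.negSucc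 (nat_lit 180798733),Int.negSucc (nat_lit 312093548),Int.negSucc (nat_lit 193914365),Int.negSucc (nat_lit 83945340),Int.ofNat (nat_lit 49420431),Int.negSucc (nat_lit 265602697),Int.ofNat (nat_lit 581338484),Int.negSucc (nat_lit 158917765),Int.ofNat (nat_lit 349886137),Int.negSucc (nat_lit 128955398),Int.negSucc (nat_lit 64594330),Int.ofNat (nat_lit 257158446),Int.ofNat (nat_lit 104247985),Int.negSucc (nat_lit 24151914),Int.negSucc (nat_lit 105795291),Int.ofNat (nat_lit 169219442),Int.negSucc (nat_lit 377773623),Int.ofNat (nat_lit 213556293),Int.negSucc (nat_lit 89279104),Int.ofNat (nat_lit 63021169),Int.negSucc (nat_lit 194034362),Int.negSucc (nat_lit 458160599),Int.negSucc (nat_lit 43970735),Int.ofNat (nat_lit 219473824),Int.negSucc (nat_lit 249975427),Int.negSucc (nat_lit 60915545),Int.negSucc (nat_lit 565391568),Int.ofNat (nat_lit 164209349),Int.negSucc (nat_lit 89244836),Int.ofNat (nat_lit 246214366),Int.ofNat (nat_lit 97725861),Int.negSucc (nat_lit 352298397),Int.ofNat (nat_lit 118462531),Int.ofNat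 (nat_lit 426848866),Int.ofNat (nat_lit 6933067),Int.ofNat (nat_lit 153287016),Int.ofNat (nat_lit 248516375),Int.negSucc (nat_lit 88066103),Int.ofNat (nat_lit 119707008),Int.ofNat (nat_lit 163254769),Int.negSucc (nat_lit 88976305),Int.negSucc (nat_lit 388045259),Int.negSucc (nat_lit 80600022),Int.ofNat (nat_lit 141610728),Int.ofNat (nat_lit 69386759),Int.negSucc (nat_lit 5345652),Int.ofNat (nat_lit 208702521),Int.negSucc (nat_lit 78205853),Int.negSucc (nat_lit 117608102),Int.ofNat (nat_lit 1546097),Int.negSucc (nat_lit 29935464),Int.ofNat (nat_lit 128718285),Int.ofNat (nat_lit 106983484),Int.negSucc (nat_lit 274708444),Int.negSucc (nat_lit 517665500),Int.ofNat (nat_lit 589780598),Int.negSucc (nat_lit 206834308),Int.negSucc (nat_lit 510564418),Int.ofNat (nat_lit 186051246),Int.negSucc (nat_lit 374940998),Int.ofNat (nat_lit 779557148),Int.ofNat (nat_lit 2793628774),Int.negSucc (nat_lit 1559001631),Int.ofNat (nat_lit 84253235),Int.ofNat (nat_lit 61043164),Int.negSucc (nat_lit 95563509),Int.ofNat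 (nat_lit 396755818),Int.negSucc (nat_lit 78640981),Int.ofNat (nat_lit 701033022),Int.ofNat (nat_lit 239574582),Int.negSucc (nat_lit 428251089),Int.negSucc (nat_lit 39085091),Int.ofNat (nat_lit 461886758),Int.ofNat (nat_lit 572638678),Int.negSucc (nat_lit 434583537),Int.negSucc (nat_lit 1351034926),Int.negSucc (nat_lit 65391698),Int.negSucc (nat_lit 2394279),Int.ofNat (nat_lit 63703293),Int.negSucc (nat_lit 107244308),Int.ofNat (nat_lit 167831381),Int.negSucc (nat_lit 20704770),Int.ofNat (nat_lit 281755991)])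

/-- A row. -/
noncomputable def sr7_c3_33 : List ℕ × List ℤ :=
  ([(nat_lit 2),(nat_lit 2),(nat_lit 0),(nat_lit 0),(nat_lit 0),(nat_lit 0),(nat_lit 0),(nat_lit 0),(nat_lit 0),(nat_lit 0),(nat_lit 0),(nat_lit 0)], [Int.ofNat (nat_lit 5189614594),Int.ofNat (nat_lit 273802206),Int.ofNat (nat_lit 1330308657),Int.ofNat (nat_lit 35118939),Int.ofNat (nat_lit 400795466),Int.negSucc (nat_lit 3447115444),Int.negSucc (nat_lit 197809412),Int.ofNat (nat_lit 591581885),Int.negSucc (nat_lit 730770550),Int.negSucc (nat_lit 364173864),Int.negSucc (nat_lit 444677349),Int.ofNat (nat_lit 1258564084),Int.negSucc (nat_lit 883815284),Int.ofNat (nat_lit 393920223),Int.negSucc (nat_lit 469619143),Int.ofNat (nat_lit 1297167100),Int.ofNat (nat_lit 712807286),Int.ofNat (nat_lit 261179058),Int.negSucc (nat_lit 19114331),Int.ofNat (nat_lit 770570155),Int.ofNat (nat_lit 73978661),Int.negSucc (nat_lit 1553060673),Int.negSucc (nat_lit 1333110491),Int.negSucc (nat_lit 133419538),Int.ofNat (nat_lit 765352727),Int.negSucc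 (nat_lit 940473633),Int.ofNat (nat_lit 14828829),Int.ofNat (nat_lit 378353321),Int.ofNat (nat_lit 425340153),Int.negSucc (nat_lit 278128178),Int.negSucc (nat_lit 1195057953),Int.negSucc (nat_lit 175966305),Int.negSucc (nat_lit 126774287),Int.ofNat (nat_lit 142564079),Int.negSucc (nat_lit 793976916),Int.ofNat (nat_lit 760718310),Int.ofNat (nat_lit 668792997),Int.negSucc (nat_lit 315601340),Int.negSucc (nat_lit 831919634),Int.negSucc (nat_lit 636243619),Int.ofNat (nat_lit 934921735),Int.ofNat (nat_lit 868686091),Int.negSucc (nat_lit 539118159),Int.ofNat (nat_lit 340500183),Int.ofNat (nat_lit 209533423),Int.negSucc (nat_lit 881206504),Int.negSucc (nat_lit 1434269389),Int.ofNat (nat_lit 1073963192),Int.negSucc (nat_lit 1481567727),Int.negSucc (nat_lit 575882458),Int.negSucc (nat_lit 226855389),Int.negSucc (nat_lit 185249403),Int.ofNat (nat_lit 56388138),Int.ofNat (nat_lit 205134444),Int.negSucc (nat_lit 67295461),Int.negSucc (nat_lit 459897874),Int.ofNat (nat_lit 32406226),Int.ofNat (nat_lit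 1832168057),Int.ofNat (nat_lit 69143919),Int.negSucc (nat_lit 336475440),Int.negSucc (nat_lit 532967118),Int.ofNat (nat_lit 668404376),Int.negSucc (nat_lit 119740069),Int.negSucc (nat_lit 769020652),Int.ofNat (nat_lit 388236259),Int.ofNat (nat_lit 143449092),Int.negSucc (nat_lit 276892288),Int.ofNat (nat_lit 199194854),Int.negSucc (nat_lit 528858665),Int.negSucc (nat_lit 418365311),Int.ofNat (nat_lit 72274168),Int.negSucc (nat_lit 578646127),Int.ofNat (nat_lit 340018750),Int.ofNat (nat_lit 140438059),Int.negSucc (nat_lit 181235324),Int.ofNat (nat_lit 226312385),Int.negSucc (nat_lit 1475646182),Int.ofNat (nat_lit 146583949),Int.negSucc (nat_lit 696315797),Int.ofNat (nat_lit 709443837),Int.ofNat (nat_lit 1429391137),Int.negSucc (nat_lit 991073853),Int.negSucc (nat_lit 456805703),Int.ofNat (nat_lit 57001778),Int.ofNat (nat_lit 80655535),Int.ofNat (nat_lit 159064135),Int.ofNat (nat_lit 157285816),Int.negSucc (nat_lit 340419876),Int.negSucc (nat_lit 234639718),Int.ofNat (nat_lit 511813127),Int.negSucc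 (nat_lit 530473314),Int.negSucc (nat_lit 52504326),Int.ofNat (nat_lit 416328735),Int.ofNat (nat_lit 548561526),Int.negSucc (nat_lit 116975445),Int.negSucc (nat_lit 44204179),Int.ofNat (nat_lit 45084506),Int.ofNat (nat_lit 412178888),Int.ofNat (nat_lit 120770881),Int.ofNat (nat_lit 547804451),Int.negSucc (nat_lit 1230431383),Int.negSucc (nat_lit 12481119),Int.ofNat (nat_lit 332200787),Int.negSucc (nat_lit 1009752180),Int.negSucc (nat_lit 139345907),Int.negSucc (nat_lit 351783863),Int.ofNat (nat_lit 593579305),Int.ofNat (nat_lit 318760267),Int.negSucc (nat_lit 408707727),Int.ofNat (nat_lit 62808696),Int.negSucc (nat_lit 80682806),Int.negSucc (nat_lit 237360331),Int.ofNat (nat_lit 297757326),Int.ofNat (nat_lit 612105199),Int.ofNat (nat_lit 445856218),Int.negSucc (nat_lit 960037097),Int.negSucc (nat_lit 58535592),Int.ofNat (nat_lit 991931335),Int.ofNat (nat_lit 876409274),Int.negSucc (nat_lit 63154759),Int.ofNat (nat_lit 563547035),Int.ofNat (nat_lit 96625710),Int.negSucc (nat_lit 1252683544),Int.negSucc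 (nat_lit 215400313),Int.ofNat (nat_lit 635155171),Int.negSucc (nat_lit 640552343),Int.negSucc (nat_lit 1269016717),Int.ofNat (nat_lit 451062396),Int.negSucc (nat_lit 189384890),Int.negSucc (nat_lit 166021749),Int.negSucc (nat_lit 639496901),Int.ofNat (nat_lit 282451631),Int.negSucc (nat_lit 87635085),Int.ofNat (nat_lit 372542837),Int.ofNat (nat_lit 381777554),Int.ofNat (nat_lit 114136004),Int.negSucc (nat_lit 196763736),Int.ofNat (nat_lit 107401711),Int.negSucc (nat_lit 76863864),Int.negSucc (nat_lit 116336785),Int.ofNat (nat_lit 176327617),Int.negSucc (nat_lit 27032676),Int.ofNat (nat_lit 91858799),Int.ofNat (nat_lit 314399121),Int.ofNat (nat_lit 19914587),Int.negSucc (nat_lit 54469247),Int.negSucc (nat_lit 29073856),Int.ofNat (nat_lit 391043956),Int.negSucc (nat_lit 77172729),Int.negSucc (nat_lit 148257802),Int.negSucc (nat_lit 449646952),Int.ofNat (nat_lit 183780716),Int.negSucc (nat_lit 211211725),Int.ofNat (nat_lit 190948218),Int.ofNat (nat_lit 363496860),Int.negSucc (nat_lit 117207222),Int.negSucc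 (nat_lit 49806374),Int.negSucc (nat_lit 23180382),Int.negSucc (nat_lit 171755020),Int.negSucc (nat_lit 213660514),Int.negSucc (nat_lit 75622394),Int.negSucc (nat_lit 129020589),Int.ofNat (nat_lit 54271845),Int.ofNat (nat_lit 232899447),Int.negSucc (nat_lit 195061923),Int.negSucc (nat_lit 1079435136),Int.negSucc (nat_lit 257236766),Int.ofNat (nat_lit 272231526),Int.ofNat (nat_lit 542912476),Int.ofNat (nat_lit 86888153),Int.ofNat (nat_lit 314353792),Int.negSucc (nat_lit 278684851),Int.negSucc (nat_lit 196909109),Int.ofNat (nat_lit 22504459),Int.negSucc (nat_lit 622083854),Int.ofNat (nat_lit 246513509),Int.ofNat (nat_lit 181755692),Int.negSucc (nat_lit 166883876),Int.negSucc (nat_lit 809115673),Int.negSucc (nat_lit 1170139536),Int.ofNat (nat_lit 510277794),Int.negSucc (nat_lit 50418479),Int.negSucc (nat_lit 1136460583),Int.negSucc (nat_lit 838290331),Int.negSucc (nat_lit 518185548),Int.ofNat (nat_lit 1081953348),Int.ofNat (nat_lit 517793326),Int.ofNat (nat_lit 68397622),Int.ofNat (nat_lit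 800580061),Int.negSucc (nat_lit 1516284811),Int.ofNat (nat_lit 22922922),Int.negSucc (nat_lit 1585856333),Int.ofNat (nat_lit 1715618183),Int.negSucc (nat_lit 554607049),Int.ofNat (nat_lit 1224457659),Int.negSucc (nat_lit 88752227),Int.negSucc (nat_lit 2882645803),Int.ofNat (nat_lit 136476845),Int.ofNat (nat_lit 831869980),Int.negSucc (nat_lit 773540446),Int.negSucc (nat_lit 3900987687),Int.ofNat (nat_lit 1312817920),Int.negSucc (nat_lit 1130560549),Int.negSucc (nat_lit 64896743),Int.negSucc (nat_lit 839927526),Int.ofNat (nat_lit 771232881),Int.ofNat (nat_lit 313332157),Int.ofNat (nat_lit 1375422909)])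

/-- A row. -/
noncomputable def sr7_c3_34 : List ℕ × List ℤ :=
  ([(nat_lit 3),(nat_lit 0),(nat_lit 0),(nat_lit 0),(nat_lit 0),(nat_lit 0),(nat_lit 0),(nat_lit 0),(nat_lit 0),(nat_lit 0),(nat_lit 0),(nat_lit 0)], [Int.ofNat (nat_lit 1866018775),Int.ofNat (nat_lit 371739855),Int.ofNat (nat_lit 696947962),Int.negSucc (nat_lit 780577944),Int.ofNat (nat_lit 2885609931),Int.negSucc (nat_lit 950269402),Int.ofNat (nat_lit 1801056745),Int.negSucc (nat_lit 1233851004),Int.ofNat (nat_lit 760771386),Int.negSucc (nat_lit 103940083),Int.negSucc (nat_lit 2242409254),Int.ofNat (nat_lit 1743769082),Int.ofNat (nat_lit 590778146),Int.ofNat (nat_lit 432982438),Int.negSucc (nat_lit 12079630),Int.ofNat (nat_lit 202660136),Int.negSucc (nat_lit 282376784),Int.ofNat (nat_lit 2202213697),Int.ofNat (nat_lit 179512460),Int.ofNat (nat_lit 1392775497),Int.ofNat (nat_lit 913775267),Int.negSucc (nat_lit 772367521),Int.negSucc (nat_lit 180348992),Int.ofNat (nat_lit 1788642237),Int.negSucc (nat_lit 503662128),Int.negSucc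 (nat_lit 415523258),Int.negSucc (nat_lit 659965224),Int.negSucc (nat_lit 889619422),Int.ofNat (nat_lit 1041866868),Int.ofNat (nat_lit 502976042),Int.negSucc (nat_lit 497027162),Int.ofNat (nat_lit 684716568),Int.negSucc (nat_lit 219764990),Int.negSucc (nat_lit 1662723987),Int.negSucc (nat_lit 17623735),Int.ofNat (nat_lit 527871345),Int.negSucc (nat_lit 269926070),Int.negSucc (nat_lit 1174459742),Int.ofNat (nat_lit 261669321),Int.negSucc (nat_lit 540301552),Int.ofNat (nat_lit 314198910),Int.ofNat (nat_lit 427930613),Int.negSucc (nat_lit 347995420),Int.ofNat (nat_lit 398868058),Int.negSucc (nat_lit 111778616),Int.ofNat (nat_lit 391050023),Int.ofNat (nat_lit 198878727),Int.ofNat (nat_lit 413133107),Int.negSucc (nat_lit 195345824),Int.ofNat (nat_lit 494640324),Int.negSucc (nat_lit 740994989),Int.negSucc (nat_lit 385893710),Int.ofNat (nat_lit 30842408),Int.negSucc (nat_lit 57782041),Int.ofNat (nat_lit 127959880),Int.ofNat (nat_lit 90427388),Int.ofNat (nat_lit 5345155),Int.negSucc (nat_lit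 231306839),Int.ofNat (nat_lit 67866128),Int.negSucc (nat_lit 511572903),Int.ofNat (nat_lit 478679318),Int.negSucc (nat_lit 554172383),Int.negSucc (nat_lit 32121387),Int.negSucc (nat_lit 136900432),Int.negSucc (nat_lit 125199078),Int.ofNat (nat_lit 15401124),Int.negSucc (nat_lit 393634675),Int.negSucc (nat_lit 61177626),Int.negSucc (nat_lit 501698753),Int.ofNat (nat_lit 960728754),Int.negSucc (nat_lit 186661549),Int.negSucc (nat_lit 2791119),Int.ofNat (nat_lit 123820324),Int.ofNat (nat_lit 475447632),Int.negSucc (nat_lit 40433835),Int.negSucc (nat_lit 85203318),Int.negSucc (nat_lit 444478999),Int.ofNat (nat_lit 383867584),Int.negSucc (nat_lit 1616158297),Int.ofNat (nat_lit 540717066),Int.ofNat (nat_lit 777134818),Int.negSucc (nat_lit 869519849),Int.ofNat (nat_lit 423294967),Int.negSucc (nat_lit 48982864),Int.negSucc (nat_lit 307772799),Int.ofNat (nat_lit 272742860),Int.ofNat (nat_lit 236016468),Int.ofNat (nat_lit 123199927),Int.ofNat (nat_lit 6568243),Int.ofNat (nat_lit 21271966),Int.negSucc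 (nat_lit 271443557),Int.ofNat (nat_lit 694330625),Int.negSucc (nat_lit 122251993),Int.negSucc (nat_lit 358273906),Int.ofNat (nat_lit 357663147),Int.negSucc (nat_lit 83509357),Int.negSucc (nat_lit 235336115),Int.ofNat (nat_lit 138689363),Int.negSucc (nat_lit 243232345),Int.negSucc (nat_lit 14220284),Int.negSucc (nat_lit 523949495),Int.ofNat (nat_lit 662707916),Int.ofNat (nat_lit 263709637),Int.negSucc (nat_lit 1152141568),Int.negSucc (nat_lit 204100213),Int.negSucc (nat_lit 136563517),Int.ofNat (nat_lit 492798291),Int.ofNat (nat_lit 75853739),Int.negSucc (nat_lit 492557845),Int.negSucc (nat_lit 159747865),Int.ofNat (nat_lit 166508761),Int.ofNat (nat_lit 107592669),Int.negSucc (nat_lit 372988139),Int.negSucc (nat_lit 34947073),Int.ofNat (nat_lit 134925608),Int.ofNat (nat_lit 15455140),Int.ofNat (nat_lit 188373001),Int.negSucc (nat_lit 41457839),Int.ofNat (nat_lit 121035009),Int.ofNat (nat_lit 41660693),Int.ofNat (nat_lit 83461948),Int.negSucc (nat_lit 131708035),Int.negSucc (nat_lit 344795898),Int.negSucc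 (nat_lit 37399894),Int.negSucc (nat_lit 85011114),Int.negSucc (nat_lit 14569311),Int.ofNat (nat_lit 196656176),Int.ofNat (nat_lit 87519662),Int.ofNat (nat_lit 44441628),Int.negSucc (nat_lit 1106330186),Int.negSucc (nat_lit 92345084),Int.ofNat (nat_lit 8034381),Int.ofNat (nat_lit 183256591),Int.negSucc (nat_lit 344729097),Int.ofNat (nat_lit 315826997),Int.ofNat (nat_lit 162329248),Int.negSucc (nat_lit 244993293),Int.ofNat (nat_lit 79067359),Int.negSucc (nat_lit 127453539),Int.ofNat (nat_lit 91758609),Int.negSucc (nat_lit 321773737),Int.ofNat (nat_lit 11915835),Int.negSucc (nat_lit 73685230),Int.ofNat (nat_lit 374277762),Int.negSucc (nat_lit 240936525),Int.ofNat (nat_lit 185645239),Int.negSucc (nat_lit 27075638),Int.ofNat (nat_lit 281251481),Int.negSucc (nat_lit 188161173),Int.negSucc (nat_lit 106171612),Int.negSucc (nat_lit 74107744),Int.ofNat (nat_lit 198758632),Int.negSucc (nat_lit 48773645),Int.ofNat (nat_lit 54208728),Int.ofNat (nat_lit 38773655),Int.negSucc (nat_lit 174684816),Int.ofNat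 (nat_lit 107531170),Int.negSucc (nat_lit 395733),Int.negSucc (nat_lit 154329868),Int.ofNat (nat_lit 102316539),Int.negSucc (nat_lit 44079292),Int.ofNat (nat_lit 89022456),Int.ofNat (nat_lit 124124572),Int.ofNat (nat_lit 65154790),Int.negSucc (nat_lit 16133212),Int.negSucc (nat_lit 148014439),Int.negSucc (nat_lit 62661325),Int.negSucc (nat_lit 441136),Int.ofNat (nat_lit 47457917),Int.negSucc (nat_lit 66408453),Int.negSucc (nat_lit 11838248),Int.negSucc (nat_lit 3164770),Int.negSucc (nat_lit 164682725),Int.ofNat (nat_lit 14825187),Int.ofNat (nat_lit 1038719208),Int.ofNat (nat_lit 522876474),Int.ofNat (nat_lit 393958060),Int.negSucc (nat_lit 609044648),Int.negSucc (nat_lit 744695234),Int.negSucc (nat_lit 330251650),Int.ofNat (nat_lit 863019265),Int.negSucc (nat_lit 433667684),Int.ofNat (nat_lit 441589085),Int.negSucc (nat_lit 345594902),Int.ofNat (nat_lit 75809144),Int.ofNat (nat_lit 330619012),Int.negSucc (nat_lit 157150383),Int.negSucc (nat_lit 191963288),Int.negSucc (nat_lit 104368973),Int.negSucc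 (nat_lit 433511399),Int.ofNat (nat_lit 104833109),Int.ofNat (nat_lit 36568427),Int.ofNat (nat_lit 1876321369),Int.negSucc (nat_lit 419975409),Int.ofNat (nat_lit 431196816),Int.ofNat (nat_lit 211576805),Int.negSucc (nat_lit 272113786),Int.negSucc (nat_lit 117833669),Int.ofNat (nat_lit 27601399),Int.negSucc (nat_lit 172490798),Int.ofNat (nat_lit 9678179),Int.ofNat (nat_lit 426597319),Int.negSucc (nat_lit 42319356),Int.negSucc (nat_lit 1065302865),Int.negSucc (nat_lit 178205981),Int.ofNat (nat_lit 136062918),Int.ofNat (nat_lit 73204530),Int.negSucc (nat_lit 306999590),Int.ofNat (nat_lit 272830230)])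

/-- A row. -/
noncomputable def sr7_c3_35 : List ℕ × List ℤ :=
  ([(nat_lit 3),(nat_lit 0),(nat_lit 1),(nat_lit 0),(nat_lit 0),(nat_lit 0),(nat_lit 0),(nat_lit 0),(nat_lit 0),(nat_lit 0),(nat_lit 0),(nat_lit 0)], [Int.ofNat (nat_lit 470141301),Int.negSucc (nat_lit 264283954),Int.ofNat (nat_lit 571488692),Int.negSucc (nat_lit 1871457838),Int.ofNat (nat_lit 1655114797),Int.ofNat (nat_lit 628617509),Int.ofNat (nat_lit 1273915925),Int.negSucc (nat_lit 402257097),Int.ofNat (nat_lit 1040551603),Int.negSucc (nat_lit 144185434),Int.negSucc (nat_lit 1120925627),Int.ofNat (nat_lit 473524492),Int.ofNat (nat_lit 898350431),Int.negSucc (nat_lit 54569236),Int.ofNat (nat_lit 381420748),Int.negSucc (nat_lit 197755219),Int.negSucc (nat_lit 37650487),Int.ofNat (nat_lit 1052464102),Int.ofNat (nat_lit 343782044),Int.ofNat (nat_lit 910523437),Int.ofNat (nat_lit 300412016),Int.negSucc (nat_lit 6390838),Int.ofNat (nat_lit 124899415),Int.ofNat (nat_lit 838826789),Int.negSucc (nat_lit 210478260),Int.negSucc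 (nat_lit 213314836),Int.negSucc (nat_lit 317634718),Int.negSucc (nat_lit 440191223),Int.ofNat (nat_lit 378284403),Int.ofNat (nat_lit 402374056),Int.negSucc (nat_lit 124629808),Int.ofNat (nat_lit 456317653),Int.negSucc (nat_lit 325226625),Int.negSucc (nat_lit 925017569),Int.ofNat (nat_lit 95647750),Int.ofNat (nat_lit 620331407),Int.negSucc (nat_lit 465306006),Int.negSucc (nat_lit 348915933),Int.ofNat (nat_lit 184510072),Int.negSucc (nat_lit 90491414),Int.negSucc (nat_lit 7776809),Int.ofNat (nat_lit 152975871),Int.negSucc (nat_lit 164234110),Int.ofNat (nat_lit 342199421),Int.negSucc (nat_lit 83648135),Int.ofNat (nat_lit 289338702),Int.ofNat (nat_lit 123258649),Int.ofNat (nat_lit 298985922),Int.negSucc (nat_lit 38654090),Int.ofNat (nat_lit 382279180),Int.negSucc (nat_lit 459280115),Int.ofNat (nat_lit 162523698),Int.negSucc (nat_lit 260098903),Int.ofNat (nat_lit 152599911),Int.ofNat (nat_lit 177450372),Int.ofNat (nat_lit 159978511),Int.ofNat (nat_lit 22631137),Int.negSucc (nat_lit 198613143),Int.ofNat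 (nat_lit 250534389),Int.negSucc (nat_lit 485333359),Int.ofNat (nat_lit 193251481),Int.negSucc (nat_lit 214448631),Int.negSucc (nat_lit 48081911),Int.ofNat (nat_lit 124187867),Int.negSucc (nat_lit 101426940),Int.ofNat (nat_lit 119166442),Int.negSucc (nat_lit 70671943),Int.negSucc (nat_lit 51848042),Int.negSucc (nat_lit 141871499),Int.ofNat (nat_lit 463590858),Int.negSucc (nat_lit 136750643),Int.negSucc (nat_lit 136600447),Int.ofNat (nat_lit 32640454),Int.ofNat (nat_lit 193682313),Int.negSucc (nat_lit 19657867),Int.negSucc (nat_lit 23991932),Int.negSucc (nat_lit 445879235),Int.ofNat (nat_lit 235225773),Int.negSucc (nat_lit 924879884),Int.ofNat (nat_lit 153890619),Int.ofNat (nat_lit 272015318),Int.negSucc (nat_lit 312317850),Int.ofNat (nat_lit 325140025),Int.negSucc (nat_lit 9847716),Int.negSucc (nat_lit 278545954),Int.ofNat (nat_lit 179563422),Int.ofNat (nat_lit 144592337),Int.ofNat (nat_lit 93903074),Int.ofNat (nat_lit 39947144),Int.ofNat (nat_lit 86015954),Int.negSucc (nat_lit 33183632),Int.ofNat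 (nat_lit 253440816),Int.negSucc (nat_lit 66884304),Int.negSucc (nat_lit 269016579),Int.ofNat (nat_lit 189917112),Int.negSucc (nat_lit 82196080),Int.negSucc (nat_lit 140125336),Int.ofNat (nat_lit 3891149),Int.negSucc (nat_lit 201382455),Int.negSucc (nat_lit 49380212),Int.negSucc (nat_lit 457375108),Int.ofNat (nat_lit 439462835),Int.ofNat (nat_lit 182637238),Int.negSucc (nat_lit 542792557),Int.negSucc (nat_lit 27449925),Int.negSucc (nat_lit 112188643),Int.ofNat (nat_lit 136799645),Int.negSucc (nat_lit 50024993),Int.negSucc (nat_lit 18078346),Int.negSucc (nat_lit 77149893),Int.ofNat (nat_lit 113575328),Int.ofNat (nat_lit 16816254),Int.negSucc (nat_lit 348273619),Int.negSucc (nat_lit 51733480),Int.ofNat (nat_lit 122251735),Int.ofNat (nat_lit 19798743),Int.ofNat (nat_lit 111637421),Int.negSucc (nat_lit 61331871),Int.negSucc (nat_lit 76531758),Int.ofNat (nat_lit 129411874),Int.negSucc (nat_lit 165700388),Int.negSucc (nat_lit 61038091),Int.ofNat (nat_lit 27895843),Int.negSucc (nat_lit 61942431),Int.negSucc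 (nat_lit 86419923),Int.ofNat (nat_lit 74333858),Int.ofNat (nat_lit 32246575),Int.ofNat (nat_lit 28014634),Int.ofNat (nat_lit 19952058),Int.negSucc (nat_lit 292074733),Int.ofNat (nat_lit 85105999),Int.negSucc (nat_lit 77793166),Int.ofNat (nat_lit 61048963),Int.negSucc (nat_lit 100192021),Int.ofNat (nat_lit 26744878),Int.ofNat (nat_lit 173437298),Int.negSucc (nat_lit 153583519),Int.ofNat (nat_lit 52627789),Int.negSucc (nat_lit 83345140),Int.ofNat (nat_lit 129330160),Int.negSucc (nat_lit 360980882),Int.negSucc (nat_lit 19698623),Int.negSucc (nat_lit 49762934),Int.ofNat (nat_lit 261767310),Int.negSucc (nat_lit 154825371),Int.ofNat (nat_lit 88113656),Int.negSucc (nat_lit 38307558),Int.ofNat (nat_lit 137685202),Int.negSucc (nat_lit 166317531),Int.negSucc (nat_lit 36670388),Int.negSucc (nat_lit 27493459),Int.ofNat (nat_lit 198561633),Int.ofNat (nat_lit 22121086),Int.ofNat (nat_lit 16287284),Int.negSucc (nat_lit 186012),Int.negSucc (nat_lit 111163391),Int.ofNat (nat_lit 52706356),Int.ofNat (nat_lit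 47880681),Int.negSucc (nat_lit 92204971),Int.negSucc (nat_lit 9233485),Int.negSucc (nat_lit 5657941),Int.ofNat (nat_lit 33613175),Int.ofNat (nat_lit 45108776),Int.ofNat (nat_lit 93289531),Int.negSucc (nat_lit 15027170),Int.negSucc (nat_lit 48039985),Int.negSucc (nat_lit 50639033),Int.ofNat (nat_lit 42276648),Int.ofNat (nat_lit 44145645),Int.negSucc (nat_lit 26396959),Int.negSucc (nat_lit 25046245),Int.ofNat (nat_lit 11540608),Int.negSucc (nat_lit 92087909),Int.ofNat (nat_lit 9972695),Int.ofNat (nat_lit 619152456),Int.ofNat (nat_lit 405764755),Int.ofNat (nat_lit 116275054),Int.negSucc (nat_lit 268482955),Int.negSucc (nat_lit 398821857),Int.negSucc (nat_lit 197993372),Int.ofNat (nat_lit 1080076431),Int.negSucc (nat_lit 67088465),Int.ofNat (nat_lit 563730118),Int.negSucc (nat_lit 180255400),Int.ofNat (nat_lit 73326803),Int.ofNat (nat_lit 220573469),Int.negSucc (nat_lit 150518117),Int.negSucc (nat_lit 202589142),Int.negSucc (nat_lit 6506051),Int.negSucc (nat_lit 187521557),Int.ofNat (nat_lit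 30841528),Int.ofNat (nat_lit 103983730),Int.ofNat (nat_lit 1046405542),Int.negSucc (nat_lit 159603907),Int.ofNat (nat_lit 120698858),Int.ofNat (nat_lit 63653560),Int.ofNat (nat_lit 341447100),Int.negSucc (nat_lit 367283792),Int.negSucc (nat_lit 51036526),Int.negSucc (nat_lit 49557735),Int.ofNat (nat_lit 85490216),Int.ofNat (nat_lit 135146312),Int.ofNat (nat_lit 11147610),Int.negSucc (nat_lit 128748448),Int.ofNat (nat_lit 74264762),Int.negSucc (nat_lit 259005319),Int.ofNat (nat_lit 1867115),Int.negSucc (nat_lit 16807164),Int.ofNat (nat_lit 8636615),Int.ofNat (nat_lit 47390985)])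

/-- A row. -/
noncomputable def sr7_c3_36 : List ℕ × List ℤ :=
  ([(nat_lit 3),(nat_lit 2),(nat_lit 0),(nat_lit 0),(nat_lit 0),(nat_lit 0),(nat_lit 0),(nat_lit 0),(nat_lit 0),(nat_lit 0),(nat_lit 0),(nat_lit 0)], [Int.negSucc (nat_lit 4120886337),Int.negSucc (nat_lit 455462653),Int.ofNat (nat_lit 2280620937),Int.ofNat (nat_lit 1994490706),Int.negSucc (nat_lit 631147669),Int.ofNat (nat_lit 381777721),Int.negSucc (nat_lit 2322874929),Int.negSucc (nat_lit 3607846138),Int.negSucc (nat_lit 486216569),Int.ofNat (nat_lit 706509245),Int.ofNat (nat_lit 1786790014),Int.ofNat (nat_lit 1689415158),Int.negSucc (nat_lit 139439296),Int.ofNat (nat_lit 2917129952),Int.negSucc (nat_lit 2843897138),Int.ofNat (nat_lit 153413175),Int.negSucc (nat_lit 143644288),Int.ofNat (nat_lit 448582594),Int.negSucc (nat_lit 1578615261),Int.negSucc (nat_lit 888247942),Int.ofNat (nat_lit 45373312),Int.ofNat (nat_lit 267959284),Int.negSucc (nat_lit 374060337),Int.negSucc (nat_lit 2176002624),Int.ofNat (nat_lit 244889306),Int.ofNat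 (nat_lit 1322919702),Int.ofNat (nat_lit 2549405096),Int.ofNat (nat_lit 1442209827),Int.negSucc (nat_lit 927146857),Int.ofNat (nat_lit 777598978),Int.ofNat (nat_lit 1558182680),Int.negSucc (nat_lit 221781292),Int.ofNat (nat_lit 1865487682),Int.negSucc (nat_lit 426468225),Int.negSucc (nat_lit 180751814),Int.negSucc (nat_lit 1594058157),Int.ofNat (nat_lit 78103385),Int.ofNat (nat_lit 233646182),Int.ofNat (nat_lit 206659237),Int.negSucc (nat_lit 419355148),Int.negSucc (nat_lit 135012406),Int.negSucc (nat_lit 114322398),Int.negSucc (nat_lit 207999780),Int.negSucc (nat_lit 704135376),Int.negSucc (nat_lit 60309495),Int.ofNat (nat_lit 1268741818),Int.ofNat (nat_lit 1392491410),Int.negSucc (nat_lit 1344332676),Int.ofNat (nat_lit 696756567),Int.negSucc (nat_lit 349778678),Int.ofNat (nat_lit 475624854),Int.negSucc (nat_lit 606127557),Int.negSucc (nat_lit 396904679),Int.negSucc (nat_lit 3113195),Int.negSucc (nat_lit 323374001),Int.ofNat (nat_lit 166437809),Int.negSucc (nat_lit 331496132),Int.negSucc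 (nat_lit 1133750761),Int.negSucc (nat_lit 1052051860),Int.ofNat (nat_lit 676921213),Int.negSucc (nat_lit 234346930),Int.negSucc (nat_lit 554909565),Int.ofNat (nat_lit 335880776),Int.negSucc (nat_lit 368040448),Int.negSucc (nat_lit 478956002),Int.negSucc (nat_lit 368395336),Int.ofNat (nat_lit 668397088),Int.ofNat (nat_lit 236944273),Int.ofNat (nat_lit 755172752),Int.negSucc (nat_lit 237191122),Int.negSucc (nat_lit 37935427),Int.ofNat (nat_lit 1255799893),Int.ofNat (nat_lit 86665103),Int.negSucc (nat_lit 469390577),Int.negSucc (nat_lit 61645092),Int.ofNat (nat_lit 15880285),Int.ofNat (nat_lit 137809435),Int.ofNat (nat_lit 321136472),Int.ofNat (nat_lit 685789381),Int.negSucc (nat_lit 238191146),Int.negSucc (nat_lit 551396836),Int.ofNat (nat_lit 904303631),Int.negSucc (nat_lit 440343745),Int.ofNat (nat_lit 97959587),Int.ofNat (nat_lit 322149303),Int.negSucc (nat_lit 289669725),Int.negSucc (nat_lit 76509591),Int.negSucc (nat_lit 224247080),Int.negSucc (nat_lit 789454093),Int.negSucc (nat_lit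 802559014),Int.ofNat (nat_lit 531091194),Int.negSucc (nat_lit 1352348358),Int.negSucc (nat_lit 499892172),Int.ofNat (nat_lit 396480688),Int.ofNat (nat_lit 263138470),Int.ofNat (nat_lit 160731564),Int.ofNat (nat_lit 680216371),Int.negSucc (nat_lit 1139480786),Int.ofNat (nat_lit 109367768),Int.negSucc (nat_lit 882354713),Int.ofNat (nat_lit 1075680630),Int.negSucc (nat_lit 409695841),Int.negSucc (nat_lit 64432660),Int.ofNat (nat_lit 739727249),Int.ofNat (nat_lit 240726825),Int.ofNat (nat_lit 420132285),Int.negSucc (nat_lit 685805267),Int.negSucc (nat_lit 186199942),Int.ofNat (nat_lit 650157286),Int.ofNat (nat_lit 66542384),Int.negSucc (nat_lit 139882171),Int.ofNat (nat_lit 277308406),Int.ofNat (nat_lit 394907634),Int.negSucc (nat_lit 378730278),Int.negSucc (nat_lit 281083079),Int.ofNat (nat_lit 1257542024),Int.negSucc (nat_lit 387848560),Int.negSucc (nat_lit 610012399),Int.negSucc (nat_lit 761301702),Int.negSucc (nat_lit 460789658),Int.negSucc (nat_lit 77875405),Int.ofNat (nat_lit 148522917),Int.ofNat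 (nat_lit 354932136),Int.negSucc (nat_lit 106265986),Int.negSucc (nat_lit 67939387),Int.ofNat (nat_lit 133772941),Int.ofNat (nat_lit 632376054),Int.negSucc (nat_lit 733974581),Int.ofNat (nat_lit 271918288),Int.ofNat (nat_lit 465999116),Int.ofNat (nat_lit 282559356),Int.negSucc (nat_lit 60465180),Int.negSucc (nat_lit 1047042836),Int.negSucc (nat_lit 669877098),Int.negSucc (nat_lit 95923708),Int.ofNat (nat_lit 274369252),Int.ofNat (nat_lit 804816918),Int.negSucc (nat_lit 206797353),Int.ofNat (nat_lit 238780682),Int.negSucc (nat_lit 149404069),Int.ofNat (nat_lit 493315446),Int.negSucc (nat_lit 555805332),Int.negSucc (nat_lit 22186808),Int.negSucc (nat_lit 490799119),Int.ofNat (nat_lit 319278162),Int.ofNat (nat_lit 487325106),Int.ofNat (nat_lit 118655156),Int.negSucc (nat_lit 101788264),Int.ofNat (nat_lit 431296059),Int.ofNat (nat_lit 93442692),Int.ofNat (nat_lit 464529883),Int.negSucc (nat_lit 403341012),Int.ofNat (nat_lit 36840724),Int.negSucc (nat_lit 16193315),Int.negSucc (nat_lit 29295960),Int.ofNat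 (nat_lit 336629453),Int.negSucc (nat_lit 285641032),Int.negSucc (nat_lit 69494811),Int.ofNat (nat_lit 387525519),Int.ofNat (nat_lit 223986774),Int.negSucc (nat_lit 369528921),Int.ofNat (nat_lit 370743750),Int.negSucc (nat_lit 306851952),Int.negSucc (nat_lit 234689907),Int.ofNat (nat_lit 53900216),Int.ofNat (nat_lit 880801057),Int.ofNat (nat_lit 162644368),Int.negSucc (nat_lit 353556963),Int.negSucc (nat_lit 613963589),Int.ofNat (nat_lit 243421217),Int.negSucc (nat_lit 378593433),Int.ofNat (nat_lit 369161701),Int.ofNat (nat_lit 356402759),Int.negSucc (nat_lit 29946468),Int.negSucc (nat_lit 616022842),Int.negSucc (nat_lit 301770695),Int.ofNat (nat_lit 589577325),Int.negSucc (nat_lit 214441263),Int.ofNat (nat_lit 1446045253),Int.negSucc (nat_lit 222697356),Int.ofNat (nat_lit 1149524198),Int.ofNat (nat_lit 1317879212),Int.ofNat (nat_lit 962141304),Int.ofNat (nat_lit 365795229),Int.negSucc (nat_lit 837732465),Int.negSucc (nat_lit 1934941165),Int.ofNat (nat_lit 2074563982),Int.ofNat (nat_lit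 2430032737),Int.ofNat (nat_lit 1299629399),Int.ofNat (nat_lit 1558987060),Int.ofNat (nat_lit 115131969),Int.ofNat (nat_lit 1739924895),Int.negSucc (nat_lit 1869944764),Int.negSucc (nat_lit 60785980),Int.negSucc (nat_lit 503392696),Int.ofNat (nat_lit 38322807),Int.ofNat (nat_lit 1895618561),Int.negSucc (nat_lit 1377159459),Int.ofNat (nat_lit 304481670),Int.ofNat (nat_lit 1916639968),Int.ofNat (nat_lit 1867988985),Int.negSucc (nat_lit 2402044201),Int.ofNat (nat_lit 759644139),Int.ofNat (nat_lit 415080349),Int.ofNat (nat_lit 771228685),Int.negSucc (nat_lit 1172275118),Int.negSucc (nat_lit 1278342827),Int.negSucc (nat_lit 1904362373),Int.ofNat (nat_lit 244628415),Int.ofNat (nat_lit 352356612),Int.ofNat (nat_lit 373556383)])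

/-- A row. -/
noncomputable def sr7_c3_37 : List ℕ × List ℤ :=
  ([(nat_lit 4),(nat_lit 0),(nat_lit 0),(nat_lit 0),(nat_lit 0),(nat_lit 0),(nat_lit 0),(nat_lit 0),(nat_lit 0),(nat_lit 0),(nat_lit 0),(nat_lit 0)], [Int.ofNat (nat_lit 1210027660),Int.negSucc (nat_lit 86142976),Int.negSucc (nat_lit 612102713),Int.negSucc (nat_lit 256298360),Int.negSucc (nat_lit 594475504),Int.ofNat (nat_lit 158036442),Int.ofNat (nat_lit 48197787),Int.ofNat (nat_lit 412274709),Int.ofNat (nat_lit 467756978),Int.ofNat (nat_lit 168945435),Int.negSucc (nat_lit 66179801),Int.negSucc (nat_lit 124185920),Int.ofNat (nat_lit 353982114),Int.ofNat (nat_lit 204475748),Int.ofNat (nat_lit 175676371),Int.negSucc (nat_lit 48992407),Int.negSucc (nat_lit 4078796),Int.negSucc (nat_lit 238084557),Int.ofNat (nat_lit 305145373),Int.ofNat (nat_lit 576041192),Int.ofNat (nat_lit 36896740),Int.negSucc (nat_lit 13831201),Int.negSucc (nat_lit 171516368),Int.ofNat (nat_lit 282711322),Int.negSucc (nat_lit 227678163),Int.ofNat (nat_lit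 114740742),Int.negSucc (nat_lit 210894756),Int.negSucc (nat_lit 257799628),Int.ofNat (nat_lit 376071942),Int.negSucc (nat_lit 104029145),Int.negSucc (nat_lit 140953131),Int.ofNat (nat_lit 227318885),Int.negSucc (nat_lit 440033212),Int.negSucc (nat_lit 435108190),Int.negSucc (nat_lit 471028207),Int.negSucc (nat_lit 149591948),Int.ofNat (nat_lit 29999816),Int.ofNat (nat_lit 437885345),Int.ofNat (nat_lit 222226418),Int.ofNat (nat_lit 355814464),Int.ofNat (nat_lit 494061285),Int.ofNat (nat_lit 97641461),Int.negSucc (nat_lit 231208635),Int.ofNat (nat_lit 6144495),Int.negSucc (nat_lit 196009940),Int.negSucc (nat_lit 413458985),Int.ofNat (nat_lit 42466401),Int.negSucc (nat_lit 18188959),Int.negSucc (nat_lit 88614156),Int.ofNat (nat_lit 231558856),Int.negSucc (nat_lit 66927469),Int.ofNat (nat_lit 395812604),Int.ofNat (nat_lit 2094454),Int.ofNat (nat_lit 346258634),Int.ofNat (nat_lit 163390185),Int.negSucc (nat_lit 405214615),Int.ofNat (nat_lit 131067353),Int.ofNat (nat_lit 345490590),Int.negSucc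 (nat_lit 191848417),Int.negSucc (nat_lit 41219001),Int.negSucc (nat_lit 250387095),Int.negSucc (nat_lit 186249209),Int.ofNat (nat_lit 23281474),Int.negSucc (nat_lit 118517759),Int.negSucc (nat_lit 105816914),Int.ofNat (nat_lit 371256203),Int.ofNat (nat_lit 39507211),Int.ofNat (nat_lit 155354889),Int.negSucc (nat_lit 56736166),Int.negSucc (nat_lit 228503780),Int.ofNat (nat_lit 57766377),Int.negSucc (nat_lit 172645104),Int.negSucc (nat_lit 25624223),Int.ofNat (nat_lit 201320818),Int.negSucc (nat_lit 67214698),Int.ofNat (nat_lit 63098785),Int.negSucc (nat_lit 991132162),Int.ofNat (nat_lit 90333999),Int.negSucc (nat_lit 93497319),Int.ofNat (nat_lit 187953606),Int.ofNat (nat_lit 513325467),Int.negSucc (nat_lit 46359770),Int.ofNat (nat_lit 26513151),Int.negSucc (nat_lit 2277311),Int.ofNat (nat_lit 139886472),Int.ofNat (nat_lit 18267109),Int.ofNat (nat_lit 32616882),Int.negSucc (nat_lit 80737945),Int.negSucc (nat_lit 101152824),Int.ofNat (nat_lit 248596813),Int.negSucc (nat_lit 186500060),Int.ofNat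 (nat_lit 279415743),Int.negSucc (nat_lit 1206148),Int.negSucc (nat_lit 406539401),Int.ofNat (nat_lit 186274918),Int.ofNat (nat_lit 92842404),Int.ofNat (nat_lit 37587086),Int.ofNat (nat_lit 90938356),Int.negSucc (nat_lit 85127986),Int.negSucc (nat_lit 16696749),Int.negSucc (nat_lit 757858786),Int.negSucc (nat_lit 14830861),Int.ofNat (nat_lit 107324076),Int.negSucc (nat_lit 423017084),Int.ofNat (nat_lit 47704238),Int.negSucc (nat_lit 222786927),Int.negSucc (nat_lit 130063622),Int.negSucc (nat_lit 81965125),Int.ofNat (nat_lit 265162444),Int.negSucc (nat_lit 123398399),Int.negSucc (nat_lit 18058320),Int.negSucc (nat_lit 131297272),Int.ofNat (nat_lit 34969873),Int.negSucc (nat_lit 214145938),Int.negSucc (nat_lit 97514117),Int.negSucc (nat_lit 142151198),Int.ofNat (nat_lit 16721520),Int.negSucc (nat_lit 67912316),Int.ofNat (nat_lit 154455657),Int.ofNat (nat_lit 18731723),Int.negSucc (nat_lit 233268792),Int.ofNat (nat_lit 186476448),Int.ofNat (nat_lit 541119647),Int.negSucc (nat_lit 19125392),Int.negSucc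 (nat_lit 18078520),Int.ofNat (nat_lit 31905463),Int.negSucc (nat_lit 78613901),Int.ofNat (nat_lit 76102475),Int.ofNat (nat_lit 48870168),Int.ofNat (nat_lit 640327738),Int.ofNat (nat_lit 322142158),Int.negSucc (nat_lit 10427380),Int.negSucc (nat_lit 104272578),Int.ofNat (nat_lit 333664097),Int.negSucc (nat_lit 174048470),Int.negSucc (nat_lit 16690011),Int.negSucc (nat_lit 140778035),Int.ofNat (nat_lit 94929108),Int.negSucc (nat_lit 46750283),Int.negSucc (nat_lit 158187007),Int.negSucc (nat_lit 153630501),Int.negSucc (nat_lit 58756790),Int.ofNat (nat_lit 152422111),Int.ofNat (nat_lit 99319456),Int.negSucc (nat_lit 82039445),Int.negSucc (nat_lit 230751),Int.ofNat (nat_lit 90610077),Int.ofNat (nat_lit 46022622),Int.ofNat (nat_lit 132682691),Int.negSucc (nat_lit 135772651),Int.negSucc (nat_lit 32598854),Int.negSucc (nat_lit 4324894),Int.negSucc (nat_lit 76588049),Int.negSucc (nat_lit 11118792),Int.ofNat (nat_lit 18657172),Int.ofNat (nat_lit 98627877),Int.ofNat (nat_lit 13713917),Int.ofNat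 (nat_lit 20068308),Int.negSucc (nat_lit 108933473),Int.negSucc (nat_lit 3734153),Int.negSucc (nat_lit 21068206),Int.negSucc (nat_lit 27722751),Int.ofNat (nat_lit 33628438),Int.ofNat (nat_lit 86548714),Int.ofNat (nat_lit 15696178),Int.negSucc (nat_lit 43915435),Int.negSucc (nat_lit 63689640),Int.negSucc (nat_lit 44423332),Int.ofNat (nat_lit 100273404),Int.negSucc (nat_lit 60657591),Int.negSucc (nat_lit 17587178),Int.negSucc (nat_lit 36220709),Int.negSucc (nat_lit 92045017),Int.ofNat (nat_lit 9568297),Int.negSucc (nat_lit 773854510),Int.ofNat (nat_lit 86475003),Int.ofNat (nat_lit 335593378),Int.negSucc (nat_lit 156588707),Int.negSucc (nat_lit 451901756),Int.negSucc (nat_lit 282109010),Int.ofNat (nat_lit 524342915),Int.negSucc (nat_lit 567676280),Int.negSucc (nat_lit 222598458),Int.negSucc (nat_lit 114922524),Int.negSucc (nat_lit 209609024),Int.negSucc (nat_lit 32533552),Int.ofNat (nat_lit 294290549),Int.negSucc (nat_lit 568970643),Int.negSucc (nat_lit 241904281),Int.ofNat (nat_lit 427044622),Int.negSucc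 (nat_lit 74317373),Int.negSucc (nat_lit 121023241),Int.ofNat (nat_lit 1144172370),Int.negSucc (nat_lit 152659490),Int.negSucc (nat_lit 86400647),Int.ofNat (nat_lit 191236662),Int.ofNat (nat_lit 37949432),Int.ofNat (nat_lit 1022366),Int.ofNat (nat_lit 78375979),Int.ofNat (nat_lit 170455616),Int.ofNat (nat_lit 520424682),Int.negSucc (nat_lit 59685372),Int.ofNat (nat_lit 194163616),Int.ofNat (nat_lit 962664437),Int.ofNat (nat_lit 445648784),Int.negSucc (nat_lit 443747008),Int.negSucc (nat_lit 140940441),Int.ofNat (nat_lit 707423346),Int.negSucc (nat_lit 706193487),Int.ofNat (nat_lit 4719271),Int.negSucc (nat_lit 113100971),Int.ofNat (nat_lit 53551097)])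

/-- A row. -/
noncomputable def sr7_c3_38 : List ℕ × List ℤ :=
  ([(nat_lit 5),(nat_lit 0),(nat_lit 0),(nat_lit 0),(nat_lit 0),(nat_lit 0),(nat_lit 0),(nat_lit 0),(nat_lit 0),(nat_lit 0),(nat_lit 0),(nat_lit 0)], [Int.negSucc (nat_lit 1049654964),Int.ofNat (nat_lit 358714118),Int.ofNat (nat_lit 385058100),Int.ofNat (nat_lit 938675428),Int.negSucc (nat_lit 432138757),Int.negSucc (nat_lit 497611795),Int.negSucc (nat_lit 658158159),Int.ofNat (nat_lit 151993111),Int.negSucc (nat_lit 726584355),Int.ofNat (nat_lit 16432306),Int.ofNat (nat_lit 643158540),Int.negSucc (nat_lit 208582304),Int.negSucc (nat_lit 489224311),Int.negSucc (nat_lit 95679752),Int.negSucc (nat_lit 418884627),Int.ofNat (nat_lit 267634698),Int.negSucc (nat_lit 29407852),Int.negSucc (nat_lit 380109226),Int.negSucc (nat_lit 292786748),Int.negSucc (nat_lit 829251969),Int.negSucc (nat_lit 87086207),Int.ofNat (nat_lit 130842034),Int.negSucc (nat_lit 62398152),Int.negSucc (nat_lit 568585984),Int.ofNat (nat_lit 279340349),Int.negSucc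 (nat_lit 94373323),Int.ofNat (nat_lit 260252253),Int.ofNat (nat_lit 423231045),Int.negSucc (nat_lit 442827868),Int.negSucc (nat_lit 141163774),Int.ofNat (nat_lit 173610475),Int.negSucc (nat_lit 369603942),Int.ofNat (nat_lit 461387726),Int.ofNat (nat_lit 659101860),Int.ofNat (nat_lit 47905588),Int.negSucc (nat_lit 326877311),Int.ofNat (nat_lit 168430413),Int.negSucc (nat_lit 49942057),Int.negSucc (nat_lit 318929864),Int.negSucc (nat_lit 115571775),Int.negSucc (nat_lit 204743713),Int.negSucc (nat_lit 188515161),Int.ofNat (nat_lit 186293482),Int.negSucc (nat_lit 199384428),Int.ofNat (nat_lit 185069562),Int.ofNat (nat_lit 123006325),Int.negSucc (nat_lit 87218880),Int.negSucc (nat_lit 189556206),Int.ofNat (nat_lit 68651207),Int.negSucc (nat_lit 300125143),Int.ofNat (nat_lit 261093869),Int.negSucc (nat_lit 284987750),Int.ofNat (nat_lit 49906492),Int.negSucc (nat_lit 309227564),Int.negSucc (nat_lit 214271291),Int.ofNat (nat_lit 154066551),Int.negSucc (nat_lit 98612838),Int.negSucc (nat_lit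 131969672),Int.negSucc (nat_lit 147372254),Int.ofNat (nat_lit 143445979),Int.negSucc (nat_lit 65994070),Int.ofNat (nat_lit 194404609),Int.ofNat (nat_lit 18839281),Int.ofNat (nat_lit 161538992),Int.ofNat (nat_lit 105270546),Int.negSucc (nat_lit 250397370),Int.ofNat (nat_lit 85314311),Int.negSucc (nat_lit 9391881),Int.ofNat (nat_lit 143508855),Int.negSucc (nat_lit 185952141),Int.ofNat (nat_lit 8438450),Int.ofNat (nat_lit 363723238),Int.ofNat (nat_lit 17423889),Int.negSucc (nat_lit 274155122),Int.ofNat (nat_lit 36169557),Int.ofNat (nat_lit 36364246),Int.ofNat (nat_lit 656557039),Int.negSucc (nat_lit 172127841),Int.ofNat (nat_lit 584447753),Int.negSucc (nat_lit 163263141),Int.negSucc (nat_lit 491989491),Int.ofNat (nat_lit 359058685),Int.negSucc (nat_lit 274790795),Int.negSucc (nat_lit 8762529),Int.ofNat (nat_lit 94505374),Int.negSucc (nat_lit 134648813),Int.negSucc (nat_lit 126536870),Int.ofNat (nat_lit 7007191),Int.ofNat (nat_lit 9289800),Int.negSucc (nat_lit 157327333),Int.ofNat (nat_lit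 99236808),Int.negSucc (nat_lit 253009208),Int.ofNat (nat_lit 68147593),Int.ofNat (nat_lit 399735030),Int.negSucc (nat_lit 231531641),Int.negSucc (nat_lit 4085139),Int.ofNat (nat_lit 107237774),Int.negSucc (nat_lit 53238693),Int.ofNat (nat_lit 185628810),Int.ofNat (nat_lit 10729320),Int.ofNat (nat_lit 758569308),Int.negSucc (nat_lit 272144285),Int.negSucc (nat_lit 144111394),Int.ofNat (nat_lit 509144807),Int.ofNat (nat_lit 3763928),Int.ofNat (nat_lit 167350386),Int.negSucc (nat_lit 89904289),Int.ofNat (nat_lit 16065792),Int.negSucc (nat_lit 65699817),Int.ofNat (nat_lit 113582406),Int.negSucc (nat_lit 64807822),Int.ofNat (nat_lit 85724654),Int.ofNat (nat_lit 191072074),Int.ofNat (nat_lit 121776254),Int.negSucc (nat_lit 22334402),Int.ofNat (nat_lit 55594079),Int.negSucc (nat_lit 77570493),Int.ofNat (nat_lit 69850052),Int.negSucc (nat_lit 45517050),Int.negSucc (nat_lit 97696519),Int.ofNat (nat_lit 171710432),Int.negSucc (nat_lit 16800050),Int.negSucc (nat_lit 238684101),Int.ofNat (nat_lit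 30863619),Int.ofNat (nat_lit 29948453),Int.negSucc (nat_lit 66487930),Int.ofNat (nat_lit 23099481),Int.negSucc (nat_lit 86808029),Int.negSucc (nat_lit 33816085),Int.negSucc (nat_lit 80955456),Int.negSucc (nat_lit 133405188),Int.ofNat (nat_lit 47869068),Int.negSucc (nat_lit 32925948),Int.negSucc (nat_lit 134914799),Int.ofNat (nat_lit 76516483),Int.negSucc (nat_lit 75109482),Int.ofNat (nat_lit 219841009),Int.negSucc (nat_lit 99970792),Int.ofNat (nat_lit 81390761),Int.ofNat (nat_lit 13729567),Int.ofNat (nat_lit 347553022),Int.ofNat (nat_lit 5443529),Int.negSucc (nat_lit 86962990),Int.negSucc (nat_lit 226003122),Int.ofNat (nat_lit 121625328),Int.negSucc (nat_lit 81024284),Int.negSucc (nat_lit 6890902),Int.negSucc (nat_lit 80050949),Int.ofNat (nat_lit 53129167),Int.ofNat (nat_lit 115923896),Int.negSucc (nat_lit 17652530),Int.negSucc (nat_lit 143602267),Int.ofNat (nat_lit 35471085),Int.negSucc (nat_lit 15897530),Int.ofNat (nat_lit 20002114),Int.ofNat (nat_lit 14673435),Int.negSucc (nat_lit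 35793666),Int.negSucc (nat_lit 36196394),Int.ofNat (nat_lit 137609242),Int.negSucc (nat_lit 29369691),Int.ofNat (nat_lit 31589453),Int.negSucc (nat_lit 51218948),Int.negSucc (nat_lit 68219887),Int.negSucc (nat_lit 106864437),Int.negSucc (nat_lit 16775166),Int.ofNat (nat_lit 34567579),Int.ofNat (nat_lit 41498694),Int.negSucc (nat_lit 5474165),Int.negSucc (nat_lit 118781930),Int.ofNat (nat_lit 59230691),Int.negSucc (nat_lit 5999295),Int.ofNat (nat_lit 33207127),Int.ofNat (nat_lit 105662611),Int.negSucc (nat_lit 5341119),Int.negSucc (nat_lit 180808677),Int.negSucc (nat_lit 290283004),Int.negSucc (nat_lit 100479435),Int.ofNat (nat_lit 88956258),Int.ofNat (nat_lit 528704518),Int.ofNat (nat_lit 144359487),Int.negSucc (nat_lit 768693783),Int.ofNat (nat_lit 245445454),Int.negSucc (nat_lit 64306733),Int.ofNat (nat_lit 209394222),Int.ofNat (nat_lit 125499278),Int.negSucc (nat_lit 37080448),Int.negSucc (nat_lit 75435594),Int.ofNat (nat_lit 337123061),Int.ofNat (nat_lit 223181402),Int.negSucc (nat_lit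 167466772),Int.negSucc (nat_lit 21720225),Int.ofNat (nat_lit 56920089),Int.negSucc (nat_lit 1279129374),Int.ofNat (nat_lit 227665137),Int.negSucc (nat_lit 114165570),Int.negSucc (nat_lit 131986806),Int.ofNat (nat_lit 119494725),Int.ofNat (nat_lit 203686992),Int.negSucc (nat_lit 54078212),Int.negSucc (nat_lit 33407724),Int.negSucc (nat_lit 408173073),Int.negSucc (nat_lit 147893025),Int.negSucc (nat_lit 130383645),Int.negSucc (nat_lit 224086763),Int.negSucc (nat_lit 247547522),Int.ofNat (nat_lit 370751742),Int.ofNat (nat_lit 64814068),Int.negSucc (nat_lit 382483093),Int.ofNat (nat_lit 427128223),Int.negSucc (nat_lit 52430231),Int.ofNat (nat_lit 112329844),Int.negSucc (nat_lit 56223935),Int.ofNat (nat_lit 4510812)])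

/-- A part of a triangular factor. -/
noncomputable def sr7_c3 : Rows :=
  [sr7_c3_0,
   sr7_c3_1,
   sr7_c3_2,
   sr7_c3_3,
   sr7_c3_4,
   sr7_c3_5,
   sr7_c3_6,
   sr7_c3_7,
   sr7_c3_8,
   sr7_c3_9,
   sr7_c3_10,
   sr7_c3_11,
   sr7_c3_12,
   sr7_c3_13,
   sr7_c3_14,
   sr7_c3_15,
   sr7_c3_16,
   sr7_c3_17,
   sr7_c3_18,
   sr7_c3_19,
   sr7_c3_20,
   sr7_c3_21,
   sr7_c3_22,
   sr7_c3_23,
   sr7_c3_24,
   sr7_c3_25,
   sr7_c3_26,
   sr7_c3_27,
   sr7_c3_28,
   sr7_c3_29,
   sr7_c3_30,
   sr7_c3_31,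
   sr7_c3_32,
   sr7_c3_33,
   sr7_c3_34,
   sr7_c3_35,
   sr7_c3_36,
   sr7_c3_37,
   sr7_c3_38]

/-- A row. -/
noncomputable def sr7_c4_0 : List ℕ × List ℤ :=
  ([(nat_lit 0),(nat_lit 0),(nat_lit 0),(nat_lit 0),(nat_lit 0),(nat_lit 0),(nat_lit 0),(nat_lit 1),(nat_lit 0),(nat_lit 0),(nat_lit 0),(nat_lit 0)], [Int.negSucc (nat_lit 227592808),Int.ofNat (nat_lit 7018207),Int.negSucc (nat_lit 193957038),Int.negSucc (nat_lit 169393536),Int.negSucc (nat_lit 100231427),Int.ofNat (nat_lit 208585389),Int.ofNat (nat_lit 85601768),Int.ofNat (nat_lit 268210282),Int.ofNat (nat_lit 131686731),Int.negSucc (nat_lit 8030654),Int.negSucc (nat_lit 6089039),Int.negSucc (nat_lit 123688591),Int.ofNat (nat_lit 26373328),Int.negSucc (nat_lit 119127669),Int.ofNat (nat_lit 158135032),Int.negSucc (nat_lit 45460833),Int.ofNat (nat_lit 9418841),Int.negSucc (nat_lit 103361791),Int.ofNat (nat_lit 63341851),Int.negSucc (nat_lit 18187030),Int.ofNat (nat_lit 5098747),Int.ofNat (nat_lit 63151256),Int.ofNat (nat_lit 63846547),Int.ofNat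 (nat_lit 18929476),Int.ofNat (nat_lit 8086916),Int.ofNat (nat_lit 41198357),Int.negSucc (nat_lit 25969881),Int.negSucc (nat_lit 38671048),Int.negSucc (nat_lit 48465404),Int.negSucc (nat_lit 1411326),Int.negSucc (nat_lit 3578021),Int.ofNat (nat_lit 19301053),Int.negSucc (nat_lit 123561835),Int.ofNat (nat_lit 34330541),Int.ofNat (nat_lit 66935720),Int.ofNat (nat_lit 32739332),Int.negSucc (nat_lit 28404394),Int.ofNat (nat_lit 24341600),Int.ofNat (nat_lit 36966723),Int.ofNat (nat_lit 97780043),Int.ofNat (nat_lit 14718063),Int.negSucc (nat_lit 21394086),Int.negSucc (nat_lit 2263483),Int.ofNat (nat_lit 11031845),Int.negSucc (nat_lit 11655427),Int.negSucc (nat_lit 13701981),Int.negSucc (nat_lit 4837621),Int.ofNat (nat_lit 7124189),Int.negSucc (nat_lit 6410836),Int.ofNat (nat_lit 67133525),Int.ofNat (nat_lit 21032938),Int.ofNat (nat_lit 27129836),Int.ofNat (nat_lit 41080361),Int.negSucc (nat_lit 4327025),Int.negSucc (nat_lit 1578670),Int.ofNat (nat_lit 4713406),Int.negSucc (nat_lit 5740995),Int.negSucc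 (nat_lit 3765766),Int.ofNat (nat_lit 25612786),Int.ofNat (nat_lit 69405352),Int.negSucc (nat_lit 7928793),Int.negSucc (nat_lit 7623789),Int.ofNat (nat_lit 10249996),Int.ofNat (nat_lit 35512308),Int.ofNat (nat_lit 22659042),Int.ofNat (nat_lit 35270735),Int.negSucc (nat_lit 10198925),Int.negSucc (nat_lit 3410986),Int.ofNat (nat_lit 1153428),Int.negSucc (nat_lit 4199943),Int.negSucc (nat_lit 1403985),Int.negSucc (nat_lit 513193),Int.negSucc (nat_lit 3955873),Int.negSucc (nat_lit 9691762),Int.ofNat (nat_lit 3627123),Int.negSucc (nat_lit 3041180),Int.negSucc (nat_lit 7607843),Int.negSucc (nat_lit 8405563),Int.ofNat (nat_lit 9441608),Int.negSucc (nat_lit 1284338),Int.negSucc (nat_lit 1621504),Int.ofNat (nat_lit 3339796),Int.negSucc (nat_lit 2853430),Int.negSucc (nat_lit 3995984),Int.ofNat (nat_lit 2985319),Int.ofNat (nat_lit 908994),Int.ofNat (nat_lit 4607524),Int.ofNat (nat_lit 5485356),Int.negSucc (nat_lit 2393051),Int.negSucc (nat_lit 1744988),Int.negSucc (nat_lit 485689),Int.negSucc (nat_lit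 1032252),Int.ofNat (nat_lit 218823),Int.negSucc (nat_lit 2891891),Int.negSucc (nat_lit 3445785),Int.negSucc (nat_lit 2624965),Int.ofNat (nat_lit 5457862),Int.negSucc (nat_lit 3419061),Int.ofNat (nat_lit 3762322),Int.negSucc (nat_lit 2335965),Int.ofNat (nat_lit 1843730),Int.ofNat (nat_lit 8588355),Int.negSucc (nat_lit 2725073),Int.negSucc (nat_lit 4069270),Int.ofNat (nat_lit 7539655),Int.negSucc (nat_lit 1111289),Int.ofNat (nat_lit 1957968),Int.ofNat (nat_lit 1889910),Int.negSucc (nat_lit 2932523),Int.negSucc (nat_lit 5358685),Int.ofNat (nat_lit 3388118),Int.negSucc (nat_lit 1769605),Int.negSucc (nat_lit 5632721),Int.ofNat (nat_lit 321854),Int.ofNat (nat_lit 7706376),Int.ofNat (nat_lit 1772920),Int.ofNat (nat_lit 5429400),Int.ofNat (nat_lit 626303),Int.ofNat (nat_lit 187165),Int.negSucc (nat_lit 5113169),Int.negSucc (nat_lit 5090363),Int.ofNat (nat_lit 1678961),Int.ofNat (nat_lit 2728445),Int.negSucc (nat_lit 1294615),Int.negSucc (nat_lit 13778650),Int.ofNat (nat_lit 854248),Int.negSucc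 (nat_lit 6325838),Int.ofNat (nat_lit 332155),Int.negSucc (nat_lit 848291),Int.negSucc (nat_lit 6511786),Int.ofNat (nat_lit 8479788),Int.ofNat (nat_lit 5396963),Int.ofNat (nat_lit 969717),Int.ofNat (nat_lit 522816),Int.negSucc (nat_lit 10471332),Int.ofNat (nat_lit 10419345),Int.negSucc (nat_lit 1231567),Int.negSucc (nat_lit 14056331),Int.negSucc (nat_lit 5709421),Int.negSucc (nat_lit 3805527),Int.ofNat (nat_lit 1489090),Int.ofNat (nat_lit 2795821),Int.ofNat (nat_lit 1454197),Int.negSucc (nat_lit 2409922),Int.negSucc (nat_lit 353625),Int.negSucc (nat_lit 421139),Int.negSucc (nat_lit 500866),Int.ofNat (nat_lit 31316),Int.negSucc (nat_lit 4032498),Int.negSucc (nat_lit 2472052),Int.negSucc (nat_lit 18500),Int.ofNat (nat_lit 1592048),Int.ofNat (nat_lit 185675),Int.ofNat (nat_lit 2438665),Int.ofNat (nat_lit 2103255),Int.ofNat (nat_lit 225726),Int.negSucc (nat_lit 1280518),Int.negSucc (nat_lit 1456052),Int.negSucc (nat_lit 1866769),Int.negSucc (nat_lit 1149943),Int.ofNat (nat_lit 4899761),Int.negSucc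 (nat_lit 229702),Int.ofNat (nat_lit 775800),Int.ofNat (nat_lit 2459032),Int.negSucc (nat_lit 3138366),Int.negSucc (nat_lit 635526),Int.negSucc (nat_lit 183620),Int.negSucc (nat_lit 4609734),Int.negSucc (nat_lit 795216),Int.negSucc (nat_lit 15552),Int.ofNat (nat_lit 1106525),Int.negSucc (nat_lit 1099399),Int.negSucc (nat_lit 307813),Int.ofNat (nat_lit 5502460),Int.negSucc (nat_lit 2066244),Int.negSucc (nat_lit 3215328),Int.negSucc (nat_lit 1105705),Int.ofNat (nat_lit 822822),Int.negSucc (nat_lit 156729),Int.ofNat (nat_lit 2668623),Int.negSucc (nat_lit 1230526),Int.negSucc (nat_lit 130589),Int.negSucc (nat_lit 556799),Int.ofNat (nat_lit 6731512),Int.ofNat (nat_lit 3411779),Int.ofNat (nat_lit 905416),Int.ofNat (nat_lit 809398),Int.negSucc (nat_lit 2189833),Int.negSucc (nat_lit 129933),Int.negSucc (nat_lit 1009123),Int.negSucc (nat_lit 1467966),Int.negSucc (nat_lit 537969),Int.ofNat (nat_lit 1776578),Int.ofNat (nat_lit 7638837),Int.negSucc (nat_lit 342708),Int.negSucc (nat_lit 2614410),Int.ofNat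 (nat_lit 2097001),Int.negSucc (nat_lit 1164498),Int.negSucc (nat_lit 811677),Int.negSucc (nat_lit 2085195),Int.negSucc (nat_lit 1587605),Int.negSucc (nat_lit 712758),Int.negSucc (nat_lit 2949027),Int.negSucc (nat_lit 2719496),Int.ofNat (nat_lit 3713526),Int.ofNat (nat_lit 2055695),Int.negSucc (nat_lit 2974365),Int.negSucc (nat_lit 1469605),Int.negSucc (nat_lit 4648915),Int.ofNat (nat_lit 2453929),Int.ofNat (nat_lit 796731),Int.negSucc (nat_lit 6560842),Int.negSucc (nat_lit 3423472),Int.ofNat (nat_lit 53068545)])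

/-- A row. -/
noncomputable def sr7_c4_1 : List ℕ × List ℤ :=
  ([(nat_lit 0),(nat_lit 0),(nat_lit 0),(nat_lit 0),(nat_lit 0),(nat_lit 1),(nat_lit 0),(nat_lit 0),(nat_lit 0),(nat_lit 0),(nat_lit 0),(nat_lit 0)], [Int.ofNat (nat_lit 351176470),Int.negSucc (nat_lit 37430549),Int.ofNat (nat_lit 260727793),Int.ofNat (nat_lit 110806591),Int.ofNat (nat_lit 244182489),Int.negSucc (nat_lit 100359379),Int.negSucc (nat_lit 104873995),Int.negSucc (nat_lit 379684687),Int.ofNat (nat_lit 1437147),Int.negSucc (nat_lit 94823576),Int.ofNat (nat_lit 85869530),Int.ofNat (nat_lit 109589980),Int.negSucc (nat_lit 31530167),Int.ofNat (nat_lit 119836921),Int.negSucc (nat_lit 233148194),Int.ofNat (nat_lit 6052459),Int.ofNat (nat_lit 56392067),Int.ofNat (nat_lit 76134256),Int.negSucc (nat_lit 64461844),Int.negSucc (nat_lit 29547326),Int.negSucc (nat_lit 3955923),Int.negSucc (nat_lit 56053416),Int.negSucc (nat_lit 40008953),Int.negSucc (nat_lit 103882695),Int.negSucc (nat_lit 14334133),Int.negSucc (nat_lit 31107972),Int.ofNat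 (nat_lit 84412336),Int.ofNat (nat_lit 92265444),Int.negSucc (nat_lit 30907843),Int.ofNat (nat_lit 58857670),Int.ofNat (nat_lit 37775263),Int.negSucc (nat_lit 6158105),Int.ofNat (nat_lit 162932905),Int.negSucc (nat_lit 18980268),Int.negSucc (nat_lit 67678808),Int.negSucc (nat_lit 27607025),Int.ofNat (nat_lit 39574882),Int.negSucc (nat_lit 25943001),Int.ofNat (nat_lit 3022009),Int.negSucc (nat_lit 61183298),Int.negSucc (nat_lit 17304192),Int.ofNat (nat_lit 1818093),Int.ofNat (nat_lit 20145707),Int.negSucc (nat_lit 19294070),Int.ofNat (nat_lit 38810623),Int.negSucc (nat_lit 12862895),Int.negSucc (nat_lit 1429839),Int.negSucc (nat_lit 11128280),Int.ofNat (nat_lit 31253272),Int.negSucc (nat_lit 67756986),Int.negSucc (nat_lit 25524049),Int.negSucc (nat_lit 37068760),Int.negSucc (nat_lit 23689033),Int.ofNat (nat_lit 10145011),Int.negSucc (nat_lit 22074177),Int.negSucc (nat_lit 34184230),Int.negSucc (nat_lit 6291506),Int.ofNat (nat_lit 21429146),Int.negSucc (nat_lit 19403622),Int.negSucc (nat_lit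 40093463),Int.ofNat (nat_lit 40289805),Int.ofNat (nat_lit 48167925),Int.negSucc (nat_lit 4299177),Int.negSucc (nat_lit 63500549),Int.negSucc (nat_lit 8222657),Int.negSucc (nat_lit 76127711),Int.negSucc (nat_lit 11789941),Int.ofNat (nat_lit 22611323),Int.ofNat (nat_lit 50789334),Int.ofNat (nat_lit 13644932),Int.negSucc (nat_lit 20331344),Int.negSucc (nat_lit 17588714),Int.negSucc (nat_lit 2878772),Int.negSucc (nat_lit 10947789),Int.ofNat (nat_lit 18242191),Int.ofNat (nat_lit 5508720),Int.ofNat (nat_lit 10205777),Int.negSucc (nat_lit 1686511),Int.ofNat (nat_lit 25215156),Int.negSucc (nat_lit 14127219),Int.ofNat (nat_lit 3145176),Int.negSucc (nat_lit 12031161),Int.ofNat (nat_lit 10223482),Int.negSucc (nat_lit 10431015),Int.ofNat (nat_lit 8885978),Int.ofNat (nat_lit 1711245),Int.negSucc (nat_lit 2135794),Int.ofNat (nat_lit 11409843),Int.negSucc (nat_lit 3060606),Int.negSucc (nat_lit 9388822),Int.ofNat (nat_lit 176176),Int.negSucc (nat_lit 29608357),Int.negSucc (nat_lit 13347671),Int.ofNat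 (nat_lit 524673),Int.negSucc (nat_lit 3111507),Int.negSucc (nat_lit 6557778),Int.negSucc (nat_lit 3966044),Int.negSucc (nat_lit 2545347),Int.ofNat (nat_lit 2670533),Int.negSucc (nat_lit 8175919),Int.negSucc (nat_lit 13521570),Int.ofNat (nat_lit 26250334),Int.negSucc (nat_lit 17881887),Int.ofNat (nat_lit 4946551),Int.ofNat (nat_lit 381464),Int.ofNat (nat_lit 1203046),Int.negSucc (nat_lit 15237118),Int.ofNat (nat_lit 7887682),Int.ofNat (nat_lit 2266947),Int.ofNat (nat_lit 3261119),Int.negSucc (nat_lit 6255567),Int.negSucc (nat_lit 431769),Int.ofNat (nat_lit 8079994),Int.negSucc (nat_lit 1632352),Int.ofNat (nat_lit 8111773),Int.negSucc (nat_lit 2403512),Int.ofNat (nat_lit 4578235),Int.negSucc (nat_lit 3404949),Int.negSucc (nat_lit 13292961),Int.ofNat (nat_lit 2059597),Int.negSucc (nat_lit 11646229),Int.negSucc (nat_lit 1045753),Int.ofNat (nat_lit 15683031),Int.negSucc (nat_lit 8576458),Int.ofNat (nat_lit 2728947),Int.ofNat (nat_lit 1027706),Int.negSucc (nat_lit 3111047),Int.ofNat (nat_lit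 12765298),Int.negSucc (nat_lit 6471580),Int.negSucc (nat_lit 15620587),Int.negSucc (nat_lit 13611809),Int.ofNat (nat_lit 1191060),Int.negSucc (nat_lit 21788489),Int.ofNat (nat_lit 18435028),Int.negSucc (nat_lit 3002162),Int.negSucc (nat_lit 16410657),Int.ofNat (nat_lit 1598859),Int.ofNat (nat_lit 20015049),Int.negSucc (nat_lit 592108),Int.ofNat (nat_lit 13173960),Int.negSucc (nat_lit 23766814),Int.negSucc (nat_lit 19282853),Int.ofNat (nat_lit 4729255),Int.negSucc (nat_lit 23189080),Int.ofNat (nat_lit 9284625),Int.ofNat (nat_lit 7952780),Int.negSucc (nat_lit 56091),Int.negSucc (nat_lit 16522809),Int.negSucc (nat_lit 7108377),Int.negSucc (nat_lit 5406972),Int.negSucc (nat_lit 656550),Int.ofNat (nat_lit 13362422),Int.negSucc (nat_lit 5470447),Int.ofNat (nat_lit 2854911),Int.negSucc (nat_lit 5821871),Int.negSucc (nat_lit 2675678),Int.ofNat (nat_lit 1149724),Int.negSucc (nat_lit 7608893),Int.negSucc (nat_lit 16646990),Int.negSucc (nat_lit 2089845),Int.ofNat (nat_lit 9493307),Int.ofNat (nat_lit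 1205421),Int.ofNat (nat_lit 9593568),Int.negSucc (nat_lit 3680758),Int.negSucc (nat_lit 5799110),Int.ofNat (nat_lit 873257),Int.negSucc (nat_lit 8105400),Int.negSucc (nat_lit 703596),Int.ofNat (nat_lit 10158829),Int.ofNat (nat_lit 5415097),Int.negSucc (nat_lit 623821),Int.negSucc (nat_lit 6527441),Int.negSucc (nat_lit 14837534),Int.negSucc (nat_lit 2380720),Int.ofNat (nat_lit 6789252),Int.negSucc (nat_lit 817881),Int.negSucc (nat_lit 18104239),Int.negSucc (nat_lit 9119928),Int.ofNat (nat_lit 11986964),Int.negSucc (nat_lit 7962055),Int.negSucc (nat_lit 1349892),Int.negSucc (nat_lit 2967704),Int.negSucc (nat_lit 2442334),Int.ofNat (nat_lit 8074145),Int.negSucc (nat_lit 7522783),Int.negSucc (nat_lit 1147876),Int.negSucc (nat_lit 3343888),Int.ofNat (nat_lit 9561703),Int.negSucc (nat_lit 5269472),Int.negSucc (nat_lit 3803104),Int.ofNat (nat_lit 3695251),Int.ofNat (nat_lit 2382581),Int.ofNat (nat_lit 5412473),Int.negSucc (nat_lit 5268795),Int.negSucc (nat_lit 7388691),Int.negSucc (nat_lit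 8981564),Int.negSucc (nat_lit 12586905),Int.ofNat (nat_lit 8276045),Int.ofNat (nat_lit 1916109),Int.ofNat (nat_lit 8251797),Int.ofNat (nat_lit 9938027),Int.negSucc (nat_lit 6870897),Int.negSucc (nat_lit 3833814),Int.ofNat (nat_lit 17867759),Int.negSucc (nat_lit 5108922),Int.negSucc (nat_lit 8136485),Int.ofNat (nat_lit 5648822),Int.ofNat (nat_lit 1073064),Int.ofNat (nat_lit 9220933),Int.negSucc (nat_lit 4215023),Int.ofNat (nat_lit 2597656),Int.ofNat (nat_lit 8067474),Int.ofNat (nat_lit 10725229),Int.ofNat (nat_lit 4301027),Int.ofNat (nat_lit 159413829)])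

/-- A row. -/
noncomputable def sr7_c4_2 : List ℕ × List ℤ :=
  ([(nat_lit 0),(nat_lit 0),(nat_lit 0),(nat_lit 1),(nat_lit 0),(nat_lit 0),(nat_lit 0),(nat_lit 0),(nat_lit 0),(nat_lit 0),(nat_lit 0),(nat_lit 0)], [Int.ofNat (nat_lit 636986501),Int.negSucc (nat_lit 96892539),Int.ofNat (nat_lit 299168330),Int.ofNat (nat_lit 33196043),Int.negSucc (nat_lit 79982518),Int.negSucc (nat_lit 190279119),Int.ofNat (nat_lit 29826286),Int.ofNat (nat_lit 125481030),Int.negSucc (nat_lit 5211892),Int.negSucc (nat_lit 74468506),Int.ofNat (nat_lit 42648295),Int.ofNat (nat_lit 71461829),Int.ofNat (nat_lit 58256531),Int.ofNat (nat_lit 66460635),Int.negSucc (nat_lit 75782729),Int.ofNat (nat_lit 75416076),Int.negSucc (nat_lit 7882770),Int.ofNat (nat_lit 83401916),Int.ofNat (nat_lit 66697424),Int.negSucc (nat_lit 20483428),Int.negSucc (nat_lit 20240304),Int.ofNat (nat_lit 14946888),Int.negSucc (nat_lit 31991203),Int.negSucc (nat_lit 20585007),Int.ofNat (nat_lit 23218228),Int.negSucc (nat_lit 23254829),Int.ofNat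 (nat_lit 12772330),Int.ofNat (nat_lit 21788674),Int.ofNat (nat_lit 23878880),Int.negSucc (nat_lit 19096999),Int.negSucc (nat_lit 289055),Int.negSucc (nat_lit 15026733),Int.ofNat (nat_lit 68633502),Int.negSucc (nat_lit 23444084),Int.negSucc (nat_lit 19607282),Int.negSucc (nat_lit 19495422),Int.ofNat (nat_lit 16670824),Int.ofNat (nat_lit 2671406),Int.negSucc (nat_lit 70316241),Int.negSucc (nat_lit 95693719),Int.negSucc (nat_lit 649164),Int.negSucc (nat_lit 5449004),Int.negSucc (nat_lit 18415694),Int.ofNat (nat_lit 48551394),Int.negSucc (nat_lit 20304827),Int.ofNat (nat_lit 36053713),Int.ofNat (nat_lit 20506237),Int.negSucc (nat_lit 8165395),Int.negSucc (nat_lit 13532785),Int.negSucc (nat_lit 21060655),Int.negSucc (nat_lit 51313789),Int.ofNat (nat_lit 36117609),Int.negSucc (nat_lit 40188316),Int.negSucc (nat_lit 12330252),Int.negSucc (nat_lit 23070393),Int.ofNat (nat_lit 3865060),Int.negSucc (nat_lit 29267225),Int.ofNat (nat_lit 6782646),Int.negSucc (nat_lit 8795518),Int.negSucc (nat_lit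 31713427),Int.negSucc (nat_lit 24641533),Int.negSucc (nat_lit 22657519),Int.negSucc (nat_lit 16017174),Int.ofNat (nat_lit 9496363),Int.negSucc (nat_lit 54117445),Int.negSucc (nat_lit 25332844),Int.ofNat (nat_lit 18067259),Int.ofNat (nat_lit 53007636),Int.negSucc (nat_lit 38902176),Int.ofNat (nat_lit 10383514),Int.ofNat (nat_lit 19851203),Int.negSucc (nat_lit 12767306),Int.negSucc (nat_lit 10330),Int.ofNat (nat_lit 7388443),Int.negSucc (nat_lit 7394169),Int.negSucc (nat_lit 10714279),Int.ofNat (nat_lit 32160024),Int.negSucc (nat_lit 14862237),Int.ofNat (nat_lit 3187424),Int.ofNat (nat_lit 14762113),Int.negSucc (nat_lit 31803603),Int.ofNat (nat_lit 33976238),Int.ofNat (nat_lit 2927323),Int.negSucc (nat_lit 1496277),Int.negSucc (nat_lit 13617685),Int.negSucc (nat_lit 4740175),Int.ofNat (nat_lit 6684104),Int.negSucc (nat_lit 12017525),Int.ofNat (nat_lit 28408886),Int.ofNat (nat_lit 13020577),Int.ofNat (nat_lit 7768443),Int.ofNat (nat_lit 24685475),Int.ofNat (nat_lit 13979275),Int.ofNat (nat_lit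 14619867),Int.ofNat (nat_lit 7934536),Int.negSucc (nat_lit 14805411),Int.negSucc (nat_lit 11246046),Int.ofNat (nat_lit 14744591),Int.negSucc (nat_lit 479305),Int.ofNat (nat_lit 7873457),Int.ofNat (nat_lit 26957071),Int.negSucc (nat_lit 20814936),Int.ofNat (nat_lit 14460927),Int.negSucc (nat_lit 15219916),Int.negSucc (nat_lit 14643036),Int.ofNat (nat_lit 3632078),Int.ofNat (nat_lit 15557234),Int.negSucc (nat_lit 18302620),Int.ofNat (nat_lit 6598215),Int.ofNat (nat_lit 10122582),Int.ofNat (nat_lit 5320984),Int.ofNat (nat_lit 1503110),Int.ofNat (nat_lit 8992368),Int.ofNat (nat_lit 6885446),Int.negSucc (nat_lit 10582818),Int.negSucc (nat_lit 11368884),Int.negSucc (nat_lit 14933763),Int.ofNat (nat_lit 7383078),Int.ofNat (nat_lit 10333999),Int.ofNat (nat_lit 26966189),Int.ofNat (nat_lit 21981436),Int.negSucc (nat_lit 2801116),Int.negSucc (nat_lit 7777520),Int.negSucc (nat_lit 1384736),Int.ofNat (nat_lit 13344776),Int.negSucc (nat_lit 12602967),Int.ofNat (nat_lit 18252905),Int.negSucc (nat_lit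 26374049),Int.ofNat (nat_lit 1694331),Int.ofNat (nat_lit 20333770),Int.ofNat (nat_lit 17003651),Int.ofNat (nat_lit 19233462),Int.ofNat (nat_lit 13140804),Int.negSucc (nat_lit 17124158),Int.ofNat (nat_lit 1608617),Int.ofNat (nat_lit 20982040),Int.ofNat (nat_lit 23750804),Int.ofNat (nat_lit 4986979),Int.ofNat (nat_lit 24247055),Int.ofNat (nat_lit 2970542),Int.negSucc (nat_lit 1035211),Int.negSucc (nat_lit 39408059),Int.negSucc (nat_lit 18919613),Int.ofNat (nat_lit 7918423),Int.negSucc (nat_lit 10656691),Int.negSucc (nat_lit 10907599),Int.negSucc (nat_lit 16648083),Int.ofNat (nat_lit 1776174),Int.ofNat (nat_lit 11614870),Int.ofNat (nat_lit 5510038),Int.negSucc (nat_lit 14433750),Int.negSucc (nat_lit 5899452),Int.negSucc (nat_lit 4944711),Int.negSucc (nat_lit 17405533),Int.negSucc (nat_lit 5937612),Int.ofNat (nat_lit 1184962),Int.negSucc (nat_lit 144305),Int.ofNat (nat_lit 16448529),Int.ofNat (nat_lit 13281495),Int.negSucc (nat_lit 19748844),Int.negSucc (nat_lit 1970673),Int.negSucc (nat_lit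 2867200),Int.negSucc (nat_lit 6377458),Int.ofNat (nat_lit 12974671),Int.ofNat (nat_lit 13745419),Int.negSucc (nat_lit 11443746),Int.ofNat (nat_lit 8980451),Int.negSucc (nat_lit 10405671),Int.negSucc (nat_lit 22355117),Int.negSucc (nat_lit 14631078),Int.ofNat (nat_lit 6640126),Int.ofNat (nat_lit 24764877),Int.ofNat (nat_lit 6117390),Int.negSucc (nat_lit 18126168),Int.ofNat (nat_lit 16470267),Int.ofNat (nat_lit 4412198),Int.ofNat (nat_lit 4733853),Int.negSucc (nat_lit 11794017),Int.negSucc (nat_lit 13119173),Int.ofNat (nat_lit 5125802),Int.negSucc (nat_lit 19754618),Int.ofNat (nat_lit 288041),Int.ofNat (nat_lit 5887862),Int.negSucc (nat_lit 23933147),Int.ofNat (nat_lit 4653854),Int.ofNat (nat_lit 9426775),Int.negSucc (nat_lit 3025556),Int.negSucc (nat_lit 1930225),Int.ofNat (nat_lit 3717669),Int.negSucc (nat_lit 9476101),Int.ofNat (nat_lit 6945621),Int.ofNat (nat_lit 11089099),Int.ofNat (nat_lit 8075508),Int.ofNat (nat_lit 2908546),Int.negSucc (nat_lit 8976388),Int.ofNat (nat_lit 10942476),Int.ofNat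 (nat_lit 12335740),Int.negSucc (nat_lit 5537340),Int.negSucc (nat_lit 1230814),Int.negSucc (nat_lit 26161113),Int.negSucc (nat_lit 8164963),Int.ofNat (nat_lit 15066671),Int.negSucc (nat_lit 944557),Int.negSucc (nat_lit 4159277),Int.ofNat (nat_lit 343034),Int.negSucc (nat_lit 14766225),Int.negSucc (nat_lit 10133564),Int.ofNat (nat_lit 1395375),Int.ofNat (nat_lit 560868),Int.ofNat (nat_lit 926228),Int.ofNat (nat_lit 8839769),Int.negSucc (nat_lit 5313771),Int.negSucc (nat_lit 8827334),Int.negSucc (nat_lit 84737406),Int.negSucc (nat_lit 27745879),Int.ofNat (nat_lit 266192504)])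

/-- A row. -/
noncomputable def sr7_c4_3 : List ℕ × List ℤ :=
  ([(nat_lit 0),(nat_lit 0),(nat_lit 1),(nat_lit 1),(nat_lit 0),(nat_lit 0),(nat_lit 0),(nat_lit 0),(nat_lit 0),(nat_lit 0),(nat_lit 0),(nat_lit 0)], [Int.ofNat (nat_lit 158604489),Int.negSucc (nat_lit 5628333),Int.ofNat (nat_lit 52425440),Int.negSucc (nat_lit 104279146),Int.ofNat (nat_lit 8326608),Int.ofNat (nat_lit 29907180),Int.negSucc (nat_lit 19875745),Int.ofNat (nat_lit 75579951),Int.ofNat (nat_lit 31979807),Int.negSucc (nat_lit 1264697),Int.negSucc (nat_lit 4605793),Int.negSucc (nat_lit 65513254),Int.ofNat (nat_lit 5766295),Int.negSucc (nat_lit 14034982),Int.ofNat (nat_lit 51064441),Int.ofNat (nat_lit 1283346),Int.negSucc (nat_lit 7368484),Int.negSucc (nat_lit 45990671),Int.ofNat (nat_lit 16161282),Int.negSucc (nat_lit 280252),Int.negSucc (nat_lit 14946553),Int.ofNat (nat_lit 16052425),Int.ofNat (nat_lit 14328130),Int.ofNat (nat_lit 8864875),Int.ofNat (nat_lit 4590028),Int.ofNat (nat_lit 3348438),Int.negSucc (nat_lit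 4630956),Int.negSucc (nat_lit 18499446),Int.negSucc (nat_lit 2302644),Int.ofNat (nat_lit 6045665),Int.negSucc (nat_lit 1354061),Int.ofNat (nat_lit 11578258),Int.negSucc (nat_lit 47953722),Int.negSucc (nat_lit 19136803),Int.ofNat (nat_lit 1961874),Int.ofNat (nat_lit 19256254),Int.negSucc (nat_lit 5745438),Int.ofNat (nat_lit 8040158),Int.negSucc (nat_lit 6105270),Int.negSucc (nat_lit 1998311),Int.negSucc (nat_lit 17269271),Int.negSucc (nat_lit 14127849),Int.ofNat (nat_lit 7039386),Int.negSucc (nat_lit 9385311),Int.negSucc (nat_lit 4033258),Int.ofNat (nat_lit 17384209),Int.ofNat (nat_lit 10406082),Int.ofNat (nat_lit 251347),Int.negSucc (nat_lit 2675374),Int.ofNat (nat_lit 23852719),Int.ofNat (nat_lit 20705576),Int.ofNat (nat_lit 4866436),Int.negSucc (nat_lit 28232029),Int.negSucc (nat_lit 6390087),Int.ofNat (nat_lit 15856262),Int.ofNat (nat_lit 10564133),Int.negSucc (nat_lit 24536206),Int.ofNat (nat_lit 9983996),Int.negSucc (nat_lit 6817875),Int.ofNat (nat_lit 42113704),Int.negSucc (nat_lit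 24122400),Int.negSucc (nat_lit 14181944),Int.ofNat (nat_lit 3580503),Int.negSucc (nat_lit 4127412),Int.negSucc (nat_lit 7229968),Int.ofNat (nat_lit 2756116),Int.negSucc (nat_lit 1095452),Int.ofNat (nat_lit 17361447),Int.negSucc (nat_lit 4639658),Int.negSucc (nat_lit 6594608),Int.negSucc (nat_lit 7033465),Int.ofNat (nat_lit 3466680),Int.negSucc (nat_lit 10944362),Int.negSucc (nat_lit 7281737),Int.ofNat (nat_lit 5692524),Int.ofNat (nat_lit 2012184),Int.ofNat (nat_lit 7486635),Int.negSucc (nat_lit 2039092),Int.ofNat (nat_lit 4579612),Int.ofNat (nat_lit 6969171),Int.negSucc (nat_lit 13757607),Int.negSucc (nat_lit 943853),Int.negSucc (nat_lit 8893867),Int.ofNat (nat_lit 1382731),Int.negSucc (nat_lit 7535203),Int.negSucc (nat_lit 2729674),Int.ofNat (nat_lit 2054011),Int.negSucc (nat_lit 513143),Int.negSucc (nat_lit 589629),Int.ofNat (nat_lit 3684000),Int.ofNat (nat_lit 8106957),Int.ofNat (nat_lit 2391404),Int.negSucc (nat_lit 150097),Int.ofNat (nat_lit 9867257),Int.negSucc (nat_lit 4782512),Int.negSucc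 (nat_lit 8857235),Int.ofNat (nat_lit 4831742),Int.negSucc (nat_lit 1549951),Int.ofNat (nat_lit 10704476),Int.negSucc (nat_lit 612918),Int.ofNat (nat_lit 13786531),Int.negSucc (nat_lit 4663027),Int.negSucc (nat_lit 475906),Int.negSucc (nat_lit 4578965),Int.negSucc (nat_lit 1410213),Int.ofNat (nat_lit 11699133),Int.ofNat (nat_lit 4026765),Int.negSucc (nat_lit 12876445),Int.ofNat (nat_lit 8024704),Int.ofNat (nat_lit 15136433),Int.ofNat (nat_lit 10021541),Int.ofNat (nat_lit 9425343),Int.ofNat (nat_lit 3332685),Int.negSucc (nat_lit 2462802),Int.ofNat (nat_lit 751486),Int.ofNat (nat_lit 2729193),Int.negSucc (nat_lit 6602595),Int.ofNat (nat_lit 1879621),Int.ofNat (nat_lit 5318828),Int.ofNat (nat_lit 8540722),Int.ofNat (nat_lit 5618870),Int.negSucc (nat_lit 2512557),Int.negSucc (nat_lit 3228703),Int.negSucc (nat_lit 8341079),Int.negSucc (nat_lit 5449598),Int.negSucc (nat_lit 6028439),Int.negSucc (nat_lit 3870643),Int.negSucc (nat_lit 23549468),Int.negSucc (nat_lit 2926849),Int.ofNat (nat_lit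 4519396),Int.ofNat (nat_lit 13994899),Int.ofNat (nat_lit 9714453),Int.ofNat (nat_lit 2415155),Int.negSucc (nat_lit 11758917),Int.ofNat (nat_lit 5431529),Int.ofNat (nat_lit 26195991),Int.ofNat (nat_lit 4192942),Int.negSucc (nat_lit 9196348),Int.ofNat (nat_lit 417347),Int.ofNat (nat_lit 3045312),Int.ofNat (nat_lit 8133610),Int.negSucc (nat_lit 10095607),Int.negSucc (nat_lit 7518367),Int.ofNat (nat_lit 8223353),Int.negSucc (nat_lit 7363621),Int.negSucc (nat_lit 6643118),Int.negSucc (nat_lit 7963554),Int.ofNat (nat_lit 278346),Int.negSucc (nat_lit 4668227),Int.negSucc (nat_lit 1894247),Int.negSucc (nat_lit 7911778),Int.ofNat (nat_lit 458633),Int.negSucc (nat_lit 2444242),Int.negSucc (nat_lit 5409687),Int.ofNat (nat_lit 2387203),Int.ofNat (nat_lit 3942605),Int.negSucc (nat_lit 2382095),Int.ofNat (nat_lit 7935324),Int.ofNat (nat_lit 8874877),Int.negSucc (nat_lit 7640409),Int.negSucc (nat_lit 33471),Int.ofNat (nat_lit 2918759),Int.negSucc (nat_lit 2352124),Int.ofNat (nat_lit 13061367),Int.ofNat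 (nat_lit 5724998),Int.negSucc (nat_lit 7732582),Int.ofNat (nat_lit 7701663),Int.negSucc (nat_lit 22392633),Int.negSucc (nat_lit 7266787),Int.negSucc (nat_lit 9012265),Int.negSucc (nat_lit 2179142),Int.ofNat (nat_lit 16665313),Int.negSucc (nat_lit 3556296),Int.negSucc (nat_lit 3101421),Int.ofNat (nat_lit 2550586),Int.ofNat (nat_lit 176086),Int.ofNat (nat_lit 11918753),Int.ofNat (nat_lit 2254199),Int.negSucc (nat_lit 2980250),Int.ofNat (nat_lit 7539),Int.negSucc (nat_lit 5648636),Int.ofNat (nat_lit 2638073),Int.negSucc (nat_lit 827928),Int.negSucc (nat_lit 886602),Int.ofNat (nat_lit 3741404),Int.ofNat (nat_lit 3960493),Int.ofNat (nat_lit 2503277),Int.negSucc (nat_lit 3210153),Int.ofNat (nat_lit 2599642),Int.negSucc (nat_lit 1914048),Int.negSucc (nat_lit 3289524),Int.ofNat (nat_lit 2427838),Int.negSucc (nat_lit 4151192),Int.ofNat (nat_lit 4374257),Int.negSucc (nat_lit 4102267),Int.ofNat (nat_lit 2970070),Int.ofNat (nat_lit 1045350),Int.ofNat (nat_lit 12561),Int.negSucc (nat_lit 3265345),Int.negSucc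 (nat_lit 7736638),Int.negSucc (nat_lit 3936757),Int.ofNat (nat_lit 9444027),Int.negSucc (nat_lit 4362451),Int.negSucc (nat_lit 3481712),Int.ofNat (nat_lit 4992261),Int.negSucc (nat_lit 12132765),Int.negSucc (nat_lit 13057006),Int.negSucc (nat_lit 3144696),Int.ofNat (nat_lit 2810206),Int.negSucc (nat_lit 1815473),Int.ofNat (nat_lit 9714121),Int.negSucc (nat_lit 8359071),Int.negSucc (nat_lit 5659101),Int.negSucc (nat_lit 6920505),Int.negSucc (nat_lit 4011411),Int.ofNat (nat_lit 58971258),Int.ofNat (nat_lit 106353141)])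

/-- A row. -/
noncomputable def sr7_c4_4 : List ℕ × List ℤ :=
  ([(nat_lit 0),(nat_lit 1),(nat_lit 0),(nat_lit 0),(nat_lit 0),(nat_lit 0),(nat_lit 0),(nat_lit 0),(nat_lit 0),(nat_lit 0),(nat_lit 0),(nat_lit 0)], [Int.negSucc (nat_lit 40785811),Int.negSucc (nat_lit 170175395),Int.negSucc (nat_lit 13228343),Int.ofNat (nat_lit 36030618),Int.negSucc (nat_lit 359023711),Int.negSucc (nat_lit 401429933),Int.ofNat (nat_lit 265207968),Int.ofNat (nat_lit 604811413),Int.negSucc (nat_lit 236798141),Int.negSucc (nat_lit 251862907),Int.negSucc (nat_lit 136009861),Int.ofNat (nat_lit 111702487),Int.negSucc (nat_lit 26637137),Int.negSucc (nat_lit 492805285),Int.negSucc (nat_lit 138935439),Int.ofNat (nat_lit 262914528),Int.ofNat (nat_lit 27725870),Int.ofNat (nat_lit 177674576),Int.negSucc (nat_lit 43836174),Int.negSucc (nat_lit 23939800),Int.ofNat (nat_lit 95201798),Int.negSucc (nat_lit 19929335),Int.negSucc (nat_lit 5815187),Int.negSucc (nat_lit 4629944),Int.ofNat (nat_lit 159893220),Int.negSucc (nat_lit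 60557752),Int.negSucc (nat_lit 152761241),Int.ofNat (nat_lit 95282972),Int.negSucc (nat_lit 37565522),Int.negSucc (nat_lit 3441134),Int.ofNat (nat_lit 45472138),Int.negSucc (nat_lit 145597708),Int.ofNat (nat_lit 169607937),Int.ofNat (nat_lit 202924816),Int.ofNat (nat_lit 47865565),Int.negSucc (nat_lit 58407224),Int.ofNat (nat_lit 2933696),Int.ofNat (nat_lit 11653236),Int.negSucc (nat_lit 136363092),Int.ofNat (nat_lit 832032),Int.ofNat (nat_lit 116039746),Int.negSucc (nat_lit 28101613),Int.ofNat (nat_lit 66945140),Int.ofNat (nat_lit 71718102),Int.negSucc (nat_lit 23526742),Int.ofNat (nat_lit 127147688),Int.negSucc (nat_lit 27846035),Int.negSucc (nat_lit 1398),Int.ofNat (nat_lit 43616337),Int.negSucc (nat_lit 106714633),Int.negSucc (nat_lit 56651467),Int.ofNat (nat_lit 187241506),Int.ofNat (nat_lit 131257041),Int.negSucc (nat_lit 27160922),Int.negSucc (nat_lit 269489883),Int.ofNat (nat_lit 12723171),Int.negSucc (nat_lit 28187982),Int.negSucc (nat_lit 82402162),Int.ofNat (nat_lit 188873215),Int.negSucc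 (nat_lit 99231940),Int.ofNat (nat_lit 68948183),Int.ofNat (nat_lit 63901466),Int.negSucc (nat_lit 29309160),Int.ofNat (nat_lit 112766118),Int.negSucc (nat_lit 217245239),Int.negSucc (nat_lit 41717086),Int.ofNat (nat_lit 24477555),Int.negSucc (nat_lit 27577580),Int.ofNat (nat_lit 10002534),Int.negSucc (nat_lit 13773291),Int.negSucc (nat_lit 62175285),Int.ofNat (nat_lit 21344930),Int.negSucc (nat_lit 30398700),Int.negSucc (nat_lit 44861266),Int.ofNat (nat_lit 63268317),Int.ofNat (nat_lit 28675343),Int.ofNat (nat_lit 74076442),Int.negSucc (nat_lit 61028024),Int.negSucc (nat_lit 32182544),Int.ofNat (nat_lit 2834317),Int.negSucc (nat_lit 7324582),Int.ofNat (nat_lit 41417267),Int.ofNat (nat_lit 13100677),Int.negSucc (nat_lit 61956693),Int.negSucc (nat_lit 138002649),Int.ofNat (nat_lit 65949260),Int.ofNat (nat_lit 86637398),Int.negSucc (nat_lit 6586807),Int.ofNat (nat_lit 35094665),Int.negSucc (nat_lit 61216158),Int.ofNat (nat_lit 32746040),Int.negSucc (nat_lit 35998543),Int.ofNat (nat_lit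 11704792),Int.ofNat (nat_lit 59392910),Int.ofNat (nat_lit 11306046),Int.negSucc (nat_lit 35811579),Int.ofNat (nat_lit 2806023),Int.negSucc (nat_lit 15349808),Int.ofNat (nat_lit 8672983),Int.ofNat (nat_lit 26319888),Int.ofNat (nat_lit 33246346),Int.ofNat (nat_lit 55938877),Int.ofNat (nat_lit 11981700),Int.negSucc (nat_lit 24717031),Int.negSucc (nat_lit 26765521),Int.ofNat (nat_lit 41808467),Int.ofNat (nat_lit 3180873),Int.negSucc (nat_lit 23127599),Int.ofNat (nat_lit 39908296),Int.negSucc (nat_lit 17448233),Int.ofNat (nat_lit 18128096),Int.ofNat (nat_lit 38545867),Int.ofNat (nat_lit 8882311),Int.negSucc (nat_lit 6346166),Int.ofNat (nat_lit 21991038),Int.ofNat (nat_lit 14398050),Int.ofNat (nat_lit 37557782),Int.negSucc (nat_lit 3057251),Int.ofNat (nat_lit 17447089),Int.ofNat (nat_lit 60440148),Int.ofNat (nat_lit 257465),Int.negSucc (nat_lit 33444755),Int.ofNat (nat_lit 13781635),Int.negSucc (nat_lit 8364648),Int.negSucc (nat_lit 14556993),Int.ofNat (nat_lit 28773046),Int.negSucc (nat_lit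 18417600),Int.negSucc (nat_lit 5328243),Int.ofNat (nat_lit 6654032),Int.negSucc (nat_lit 5832827),Int.ofNat (nat_lit 17611177),Int.negSucc (nat_lit 1768228),Int.negSucc (nat_lit 18058137),Int.negSucc (nat_lit 26220914),Int.negSucc (nat_lit 2524666),Int.negSucc (nat_lit 62508509),Int.ofNat (nat_lit 44672636),Int.ofNat (nat_lit 95873699),Int.ofNat (nat_lit 17704093),Int.ofNat (nat_lit 1838721),Int.negSucc (nat_lit 74617694),Int.negSucc (nat_lit 2431629),Int.negSucc (nat_lit 50853457),Int.ofNat (nat_lit 26098800),Int.ofNat (nat_lit 1153086),Int.negSucc (nat_lit 39550344),Int.ofNat (nat_lit 34578703),Int.ofNat (nat_lit 48354961),Int.negSucc (nat_lit 58056847),Int.negSucc (nat_lit 1273428),Int.ofNat (nat_lit 2515846),Int.ofNat (nat_lit 6211037),Int.ofNat (nat_lit 17828321),Int.negSucc (nat_lit 55526488),Int.ofNat (nat_lit 39389664),Int.ofNat (nat_lit 10918627),Int.ofNat (nat_lit 14370688),Int.ofNat (nat_lit 9789782),Int.ofNat (nat_lit 9849253),Int.ofNat (nat_lit 1138061),Int.ofNat (nat_lit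 18270529),Int.negSucc (nat_lit 69106048),Int.negSucc (nat_lit 18721382),Int.negSucc (nat_lit 22623382),Int.negSucc (nat_lit 16660412),Int.ofNat (nat_lit 9504776),Int.ofNat (nat_lit 5727133),Int.negSucc (nat_lit 41891238),Int.negSucc (nat_lit 55888450),Int.ofNat (nat_lit 3302560),Int.negSucc (nat_lit 68671340),Int.ofNat (nat_lit 10945786),Int.ofNat (nat_lit 1752853),Int.negSucc (nat_lit 20303842),Int.ofNat (nat_lit 27240532),Int.ofNat (nat_lit 50995253),Int.ofNat (nat_lit 5505394),Int.negSucc (nat_lit 7900004),Int.negSucc (nat_lit 47027295),Int.negSucc (nat_lit 18895954),Int.negSucc (nat_lit 2170709),Int.ofNat (nat_lit 14533501),Int.negSucc (nat_lit 11143355),Int.negSucc (nat_lit 16072660),Int.ofNat (nat_lit 43222950),Int.ofNat (nat_lit 39592353),Int.negSucc (nat_lit 69348702),Int.negSucc (nat_lit 55373179),Int.negSucc (nat_lit 35884765),Int.ofNat (nat_lit 349225),Int.negSucc (nat_lit 4268135),Int.ofNat (nat_lit 5594747),Int.ofNat (nat_lit 21786125),Int.ofNat (nat_lit 8782395),Int.negSucc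 (nat_lit 22177994),Int.ofNat (nat_lit 23000869),Int.ofNat (nat_lit 20767379),Int.negSucc (nat_lit 7439227),Int.ofNat (nat_lit 15978366),Int.negSucc (nat_lit 39392091),Int.negSucc (nat_lit 15727834),Int.ofNat (nat_lit 5984364),Int.ofNat (nat_lit 21158032),Int.negSucc (nat_lit 4626829),Int.negSucc (nat_lit 6253483),Int.negSucc (nat_lit 23145938),Int.negSucc (nat_lit 12341249),Int.negSucc (nat_lit 37980597),Int.negSucc (nat_lit 50734801),Int.negSucc (nat_lit 146651),Int.ofNat (nat_lit 54438188),Int.ofNat (nat_lit 669231),Int.ofNat (nat_lit 48610351),Int.ofNat (nat_lit 58438063),Int.negSucc (nat_lit 27816754),Int.negSucc (nat_lit 12365903),Int.ofNat (nat_lit 98779598),Int.ofNat (nat_lit 721093242)])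

/-- A row. -/
noncomputable def sr7_c4_5 : List ℕ × List ℤ :=
  ([(nat_lit 0),(nat_lit 1),(nat_lit 0),(nat_lit 0),(nat_lit 1),(nat_lit 0),(nat_lit 0),(nat_lit 0),(nat_lit 0),(nat_lit 0),(nat_lit 0),(nat_lit 0)], [Int.ofNat (nat_lit 194869359),Int.ofNat (nat_lit 151259121),Int.negSucc (nat_lit 435334741),Int.negSucc (nat_lit 58218140),Int.negSucc (nat_lit 239003914),Int.negSucc (nat_lit 67174987),Int.ofNat (nat_lit 102627681),Int.ofNat (nat_lit 188977839),Int.negSucc (nat_lit 60514138),Int.negSucc (nat_lit 48379052),Int.negSucc (nat_lit 103332570),Int.negSucc (nat_lit 280229424),Int.negSucc (nat_lit 138132138),Int.negSucc (nat_lit 270028286),Int.ofNat (nat_lit 207579685),Int.negSucc (nat_lit 5289181),Int.negSucc (nat_lit 68678825),Int.negSucc (nat_lit 248972155),Int.negSucc (nat_lit 41825355),Int.ofNat (nat_lit 16561722),Int.negSucc (nat_lit 93937041),Int.negSucc (nat_lit 132595803),Int.negSucc (nat_lit 1933138),Int.ofNat (nat_lit 97974588),Int.negSucc (nat_lit 29874096),Int.negSucc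 (nat_lit 21297706),Int.negSucc (nat_lit 88843429),Int.ofNat (nat_lit 88553423),Int.negSucc (nat_lit 13087927),Int.ofNat (nat_lit 12069795),Int.ofNat (nat_lit 29668534),Int.negSucc (nat_lit 27907247),Int.negSucc (nat_lit 31331466),Int.ofNat (nat_lit 97729100),Int.negSucc (nat_lit 160570599),Int.ofNat (nat_lit 180655209),Int.ofNat (nat_lit 62509492),Int.ofNat (nat_lit 8393234),Int.ofNat (nat_lit 80434074),Int.ofNat (nat_lit 71668342),Int.ofNat (nat_lit 76574791),Int.ofNat (nat_lit 170776239),Int.ofNat (nat_lit 115848369),Int.negSucc (nat_lit 4764194),Int.ofNat (nat_lit 35672337),Int.negSucc (nat_lit 12059172),Int.negSucc (nat_lit 85807834),Int.ofNat (nat_lit 63123474),Int.ofNat (nat_lit 66471559),Int.negSucc (nat_lit 123164815),Int.ofNat (nat_lit 154776896),Int.negSucc (nat_lit 51252032),Int.ofNat (nat_lit 168497182),Int.ofNat (nat_lit 83017230),Int.negSucc (nat_lit 22931032),Int.negSucc (nat_lit 53006164),Int.ofNat (nat_lit 93494215),Int.negSucc (nat_lit 26446395),Int.ofNat (nat_lit 24260599),Int.ofNat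 (nat_lit 79417742),Int.ofNat (nat_lit 135254753),Int.ofNat (nat_lit 198193301),Int.ofNat (nat_lit 32927693),Int.ofNat (nat_lit 6054347),Int.ofNat (nat_lit 65592218),Int.ofNat (nat_lit 109333036),Int.negSucc (nat_lit 11647562),Int.ofNat (nat_lit 10200069),Int.negSucc (nat_lit 6760515),Int.negSucc (nat_lit 3723415),Int.ofNat (nat_lit 44631982),Int.ofNat (nat_lit 16884847),Int.ofNat (nat_lit 16340679),Int.negSucc (nat_lit 30691953),Int.negSucc (nat_lit 9118891),Int.ofNat (nat_lit 5572711),Int.negSucc (nat_lit 6611927),Int.negSucc (nat_lit 4571731),Int.ofNat (nat_lit 3918555),Int.ofNat (nat_lit 5950768),Int.ofNat (nat_lit 1676346),Int.negSucc (nat_lit 8331880),Int.negSucc (nat_lit 46962097),Int.ofNat (nat_lit 23870057),Int.ofNat (nat_lit 18517366),Int.ofNat (nat_lit 2662731),Int.negSucc (nat_lit 16969728),Int.ofNat (nat_lit 7085013),Int.negSucc (nat_lit 3216823),Int.negSucc (nat_lit 3152523),Int.negSucc (nat_lit 13769534),Int.negSucc (nat_lit 3129516),Int.ofNat (nat_lit 4919958),Int.ofNat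 (nat_lit 10826259),Int.negSucc (nat_lit 1334579),Int.ofNat (nat_lit 18385417),Int.ofNat (nat_lit 11681122),Int.negSucc (nat_lit 3431846),Int.ofNat (nat_lit 16587431),Int.ofNat (nat_lit 9363958),Int.ofNat (nat_lit 8465930),Int.negSucc (nat_lit 43503668),Int.ofNat (nat_lit 1291240),Int.ofNat (nat_lit 7493946),Int.negSucc (nat_lit 28473845),Int.negSucc (nat_lit 162533),Int.negSucc (nat_lit 10823587),Int.ofNat (nat_lit 11338823),Int.ofNat (nat_lit 6549982),Int.ofNat (nat_lit 25536768),Int.ofNat (nat_lit 22496869),Int.ofNat (nat_lit 12256480),Int.ofNat (nat_lit 46919398),Int.ofNat (nat_lit 10087959),Int.negSucc (nat_lit 5743246),Int.negSucc (nat_lit 302867),Int.negSucc (nat_lit 29665426),Int.negSucc (nat_lit 3506535),Int.ofNat (nat_lit 14800590),Int.negSucc (nat_lit 18131171),Int.negSucc (nat_lit 27704971),Int.negSucc (nat_lit 6539073),Int.negSucc (nat_lit 17920420),Int.ofNat (nat_lit 25927523),Int.ofNat (nat_lit 19817609),Int.negSucc (nat_lit 19086544),Int.ofNat (nat_lit 27452576),Int.ofNat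 (nat_lit 11923490),Int.negSucc (nat_lit 9648041),Int.ofNat (nat_lit 23576431),Int.negSucc (nat_lit 49833864),Int.negSucc (nat_lit 18945331),Int.negSucc (nat_lit 21986011),Int.ofNat (nat_lit 175958),Int.ofNat (nat_lit 20332060),Int.negSucc (nat_lit 7036214),Int.negSucc (nat_lit 14665372),Int.negSucc (nat_lit 11591226),Int.negSucc (nat_lit 515766),Int.negSucc (nat_lit 11421665),Int.ofNat (nat_lit 27174719),Int.negSucc (nat_lit 6008253),Int.ofNat (nat_lit 4331433),Int.ofNat (nat_lit 3653428),Int.ofNat (nat_lit 2614116),Int.negSucc (nat_lit 2132897),Int.negSucc (nat_lit 12049407),Int.negSucc (nat_lit 16071923),Int.negSucc (nat_lit 1923797),Int.negSucc (nat_lit 6999661),Int.negSucc (nat_lit 5493538),Int.negSucc (nat_lit 15662012),Int.negSucc (nat_lit 3941052),Int.negSucc (nat_lit 2260729),Int.ofNat (nat_lit 4204710),Int.ofNat (nat_lit 9769801),Int.negSucc (nat_lit 7654137),Int.negSucc (nat_lit 2766196),Int.ofNat (nat_lit 11493984),Int.negSucc (nat_lit 251564),Int.ofNat (nat_lit 10808135),Int.ofNat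 (nat_lit 8105257),Int.negSucc (nat_lit 13823839),Int.ofNat (nat_lit 6737002),Int.negSucc (nat_lit 9609898),Int.negSucc (nat_lit 3296587),Int.negSucc (nat_lit 12043923),Int.negSucc (nat_lit 8926050),Int.negSucc (nat_lit 5321295),Int.negSucc (nat_lit 4267940),Int.ofNat (nat_lit 764378),Int.negSucc (nat_lit 3080571),Int.negSucc (nat_lit 368980),Int.ofNat (nat_lit 298150),Int.negSucc (nat_lit 582555),Int.negSucc (nat_lit 7547443),Int.ofNat (nat_lit 12468094),Int.ofNat (nat_lit 1751150),Int.ofNat (nat_lit 8226737),Int.ofNat (nat_lit 11494077),Int.negSucc (nat_lit 5676560),Int.ofNat (nat_lit 4040981),Int.negSucc (nat_lit 5162269),Int.ofNat (nat_lit 9854179),Int.negSucc (nat_lit 8838952),Int.ofNat (nat_lit 3158030),Int.ofNat (nat_lit 13844198),Int.negSucc (nat_lit 8664556),Int.negSucc (nat_lit 12791910),Int.ofNat (nat_lit 3197620),Int.negSucc (nat_lit 16862310),Int.negSucc (nat_lit 8416460),Int.negSucc (nat_lit 13988074),Int.negSucc (nat_lit 1349124),Int.ofNat (nat_lit 6577887),Int.negSucc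 (nat_lit 1220930),Int.negSucc (nat_lit 5893327),Int.negSucc (nat_lit 6857592),Int.negSucc (nat_lit 15011127),Int.negSucc (nat_lit 4380717),Int.negSucc (nat_lit 3281233),Int.ofNat (nat_lit 1192595),Int.negSucc (nat_lit 9797047),Int.negSucc (nat_lit 12253410),Int.ofNat (nat_lit 5991221),Int.ofNat (nat_lit 4616967),Int.negSucc (nat_lit 21229137),Int.ofNat (nat_lit 12196102),Int.ofNat (nat_lit 1555579),Int.ofNat (nat_lit 501974),Int.negSucc (nat_lit 6396916),Int.ofNat (nat_lit 4362079),Int.negSucc (nat_lit 10300848),Int.ofNat (nat_lit 27504067),Int.ofNat (nat_lit 355520),Int.negSucc (nat_lit 37869831),Int.ofNat (nat_lit 24749391),Int.negSucc (nat_lit 47868771),Int.ofNat (nat_lit 171836424)])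

/-- A row. -/
noncomputable def sr7_c4_6 : List ℕ × List ℤ :=
  ([(nat_lit 0),(nat_lit 1),(nat_lit 1),(nat_lit 0),(nat_lit 0),(nat_lit 0),(nat_lit 0),(nat_lit 0),(nat_lit 0),(nat_lit 0),(nat_lit 0),(nat_lit 0)], [Int.ofNat (nat_lit 58981190),Int.negSucc (nat_lit 503625084),Int.negSucc (nat_lit 292033872),Int.ofNat (nat_lit 335885174),Int.negSucc (nat_lit 872419283),Int.negSucc (nat_lit 275909230),Int.ofNat (nat_lit 362661338),Int.ofNat (nat_lit 843997643),Int.negSucc (nat_lit 328320324),Int.negSucc (nat_lit 246388337),Int.negSucc (nat_lit 680793),Int.ofNat (nat_lit 165803423),Int.ofNat (nat_lit 46220798),Int.negSucc (nat_lit 422418664),Int.negSucc (nat_lit 187854826),Int.ofNat (nat_lit 230492204),Int.ofNat (nat_lit 55703030),Int.ofNat (nat_lit 185851576),Int.ofNat (nat_lit 161956551),Int.negSucc (nat_lit 106340081),Int.ofNat (nat_lit 54702957),Int.ofNat (nat_lit 162943898),Int.ofNat (nat_lit 45559175),Int.negSucc (nat_lit 35329273),Int.ofNat (nat_lit 232670992),Int.ofNat (nat_lit 53536795),Int.negSucc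 (nat_lit 98864905),Int.ofNat (nat_lit 101716666),Int.negSucc (nat_lit 58797314),Int.negSucc (nat_lit 41362706),Int.ofNat (nat_lit 60072702),Int.negSucc (nat_lit 201119676),Int.ofNat (nat_lit 70830675),Int.ofNat (nat_lit 250488925),Int.ofNat (nat_lit 147028820),Int.negSucc (nat_lit 204456661),Int.negSucc (nat_lit 9089180),Int.ofNat (nat_lit 55296278),Int.negSucc (nat_lit 161417096),Int.ofNat (nat_lit 84528636),Int.ofNat (nat_lit 226984799),Int.negSucc (nat_lit 134474194),Int.negSucc (nat_lit 44566381),Int.ofNat (nat_lit 202431884),Int.negSucc (nat_lit 108309089),Int.ofNat (nat_lit 94680497),Int.ofNat (nat_lit 32240464),Int.negSucc (nat_lit 20044479),Int.negSucc (nat_lit 22604668),Int.negSucc (nat_lit 37636352),Int.negSucc (nat_lit 186951424),Int.ofNat (nat_lit 252305074),Int.ofNat (nat_lit 137121260),Int.negSucc (nat_lit 3050125),Int.negSucc (nat_lit 324429210),Int.ofNat (nat_lit 32695036),Int.negSucc (nat_lit 54776638),Int.negSucc (nat_lit 39966625),Int.ofNat (nat_lit 248511069),Int.negSucc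 (nat_lit 154961667),Int.ofNat (nat_lit 8991433),Int.negSucc (nat_lit 38553851),Int.negSucc (nat_lit 38917410),Int.ofNat (nat_lit 226190215),Int.negSucc (nat_lit 290827622),Int.ofNat (nat_lit 35574432),Int.ofNat (nat_lit 37273837),Int.negSucc (nat_lit 11150021),Int.negSucc (nat_lit 61566020),Int.negSucc (nat_lit 64254529),Int.negSucc (nat_lit 24892305),Int.negSucc (nat_lit 9101336),Int.negSucc (nat_lit 44848122),Int.ofNat (nat_lit 55078363),Int.ofNat (nat_lit 47977472),Int.negSucc (nat_lit 22413710),Int.ofNat (nat_lit 56554243),Int.negSucc (nat_lit 30847829),Int.negSucc (nat_lit 15048927),Int.negSucc (nat_lit 8830050),Int.negSucc (nat_lit 2626212),Int.ofNat (nat_lit 88863255),Int.ofNat (nat_lit 64540709),Int.negSucc (nat_lit 58497404),Int.negSucc (nat_lit 144176108),Int.ofNat (nat_lit 80398404),Int.ofNat (nat_lit 90391070),Int.negSucc (nat_lit 32344975),Int.ofNat (nat_lit 103524841),Int.negSucc (nat_lit 21726864),Int.ofNat (nat_lit 9844252),Int.ofNat (nat_lit 19689526),Int.ofNat (nat_lit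 44970655),Int.ofNat (nat_lit 15672704),Int.ofNat (nat_lit 68822468),Int.negSucc (nat_lit 45138910),Int.negSucc (nat_lit 25096626),Int.ofNat (nat_lit 11643618),Int.negSucc (nat_lit 19720379),Int.ofNat (nat_lit 10392886),Int.negSucc (nat_lit 13704827),Int.ofNat (nat_lit 26419216),Int.ofNat (nat_lit 4434339),Int.negSucc (nat_lit 81178048),Int.negSucc (nat_lit 10545415),Int.ofNat (nat_lit 48785310),Int.ofNat (nat_lit 63264220),Int.negSucc (nat_lit 11651028),Int.ofNat (nat_lit 23364057),Int.negSucc (nat_lit 62990515),Int.negSucc (nat_lit 7536629),Int.negSucc (nat_lit 12353935),Int.negSucc (nat_lit 12110556),Int.negSucc (nat_lit 4746004),Int.negSucc (nat_lit 5046390),Int.negSucc (nat_lit 8015118),Int.ofNat (nat_lit 39752451),Int.ofNat (nat_lit 4842392),Int.ofNat (nat_lit 30134410),Int.ofNat (nat_lit 65762390),Int.ofNat (nat_lit 38342626),Int.negSucc (nat_lit 22842726),Int.ofNat (nat_lit 13017628),Int.ofNat (nat_lit 697939),Int.ofNat (nat_lit 833504),Int.ofNat (nat_lit 27962935),Int.negSucc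 (nat_lit 14266121),Int.negSucc (nat_lit 16537242),Int.ofNat (nat_lit 8475501),Int.ofNat (nat_lit 10530926),Int.ofNat (nat_lit 59591726),Int.ofNat (nat_lit 34856571),Int.ofNat (nat_lit 21148447),Int.negSucc (nat_lit 30704087),Int.negSucc (nat_lit 39596962),Int.negSucc (nat_lit 68900241),Int.ofNat (nat_lit 72649864),Int.ofNat (nat_lit 119658837),Int.ofNat (nat_lit 48775697),Int.negSucc (nat_lit 29995149),Int.negSucc (nat_lit 150047308),Int.ofNat (nat_lit 2871815),Int.negSucc (nat_lit 38721120),Int.ofNat (nat_lit 26628362),Int.negSucc (nat_lit 23259310),Int.negSucc (nat_lit 56670735),Int.ofNat (nat_lit 30191378),Int.ofNat (nat_lit 30273420),Int.ofNat (nat_lit 17098713),Int.ofNat (nat_lit 8781737),Int.ofNat (nat_lit 17339387),Int.ofNat (nat_lit 36891359),Int.ofNat (nat_lit 16205229),Int.negSucc (nat_lit 68447335),Int.ofNat (nat_lit 25538293),Int.ofNat (nat_lit 793964),Int.ofNat (nat_lit 3448649),Int.ofNat (nat_lit 12627702),Int.ofNat (nat_lit 24942862),Int.negSucc (nat_lit 26431955),Int.ofNat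 (nat_lit 18828768),Int.negSucc (nat_lit 92052327),Int.ofNat (nat_lit 3403499),Int.negSucc (nat_lit 57946889),Int.negSucc (nat_lit 5536613),Int.negSucc (nat_lit 9044253),Int.negSucc (nat_lit 1865440),Int.negSucc (nat_lit 27415409),Int.negSucc (nat_lit 67369040),Int.negSucc (nat_lit 6913901),Int.negSucc (nat_lit 35309318),Int.ofNat (nat_lit 14472626),Int.ofNat (nat_lit 25578832),Int.negSucc (nat_lit 42838568),Int.negSucc (nat_lit 23667184),Int.ofNat (nat_lit 32375957),Int.negSucc (nat_lit 56023924),Int.ofNat (nat_lit 16003970),Int.negSucc (nat_lit 93479020),Int.ofNat (nat_lit 32113598),Int.negSucc (nat_lit 2840202),Int.negSucc (nat_lit 12836063),Int.ofNat (nat_lit 35136809),Int.negSucc (nat_lit 49588134),Int.ofNat (nat_lit 8772885),Int.ofNat (nat_lit 27337690),Int.negSucc (nat_lit 85656975),Int.negSucc (nat_lit 30667392),Int.negSucc (nat_lit 31521964),Int.negSucc (nat_lit 38772398),Int.ofNat (nat_lit 31377797),Int.ofNat (nat_lit 45893239),Int.ofNat (nat_lit 49235784),Int.ofNat (nat_lit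 4521712),Int.negSucc (nat_lit 6683507),Int.ofNat (nat_lit 46225400),Int.ofNat (nat_lit 31909943),Int.negSucc (nat_lit 16857241),Int.ofNat (nat_lit 20562386),Int.negSucc (nat_lit 65053566),Int.negSucc (nat_lit 8745390),Int.ofNat (nat_lit 6645119),Int.ofNat (nat_lit 23168318),Int.negSucc (nat_lit 14746165),Int.negSucc (nat_lit 7290342),Int.negSucc (nat_lit 11251167),Int.negSucc (nat_lit 1977337),Int.negSucc (nat_lit 32951660),Int.negSucc (nat_lit 76912151),Int.negSucc (nat_lit 4920824),Int.ofNat (nat_lit 55898296),Int.negSucc (nat_lit 4729574),Int.ofNat (nat_lit 48574140),Int.negSucc (nat_lit 52939541),Int.negSucc (nat_lit 95522731),Int.ofNat (nat_lit 275435832),Int.negSucc (nat_lit 25123115),Int.ofNat (nat_lit 635121250),Int.negSucc (nat_lit 112614905),Int.ofNat (nat_lit 415657024)])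

/-- A row. -/
noncomputable def sr7_c4_7 : List ℕ × List ℤ :=
  ([(nat_lit 0),(nat_lit 2),(nat_lit 0),(nat_lit 1),(nat_lit 0),(nat_lit 0),(nat_lit 0),(nat_lit 0),(nat_lit 0),(nat_lit 0),(nat_lit 0),(nat_lit 0)], [Int.ofNat (nat_lit 144965796),Int.ofNat (nat_lit 212218328),Int.negSucc (nat_lit 776309941),Int.ofNat (nat_lit 88722855),Int.negSucc (nat_lit 688261906),Int.negSucc (nat_lit 243360087),Int.ofNat (nat_lit 301631835),Int.ofNat (nat_lit 582953246),Int.negSucc (nat_lit 240142820),Int.ofNat (nat_lit 20171744),Int.negSucc (nat_lit 160807348),Int.negSucc (nat_lit 359028186),Int.negSucc (nat_lit 244895079),Int.negSucc (nat_lit 326061846),Int.ofNat (nat_lit 308985420),Int.ofNat (nat_lit 132015249),Int.negSucc (nat_lit 42243995),Int.negSucc (nat_lit 389310753),Int.ofNat (nat_lit 28059090),Int.ofNat (nat_lit 8860886),Int.negSucc (nat_lit 75501170),Int.negSucc (nat_lit 213983572),Int.negSucc (nat_lit 104184269),Int.ofNat (nat_lit 172286876),Int.ofNat (nat_lit 6657517),Int.negSucc (nat_lit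 107970223),Int.negSucc (nat_lit 175572651),Int.negSucc (nat_lit 19886830),Int.negSucc (nat_lit 49962745),Int.negSucc (nat_lit 92295840),Int.ofNat (nat_lit 53485444),Int.negSucc (nat_lit 175914622),Int.negSucc (nat_lit 82884099),Int.ofNat (nat_lit 212330541),Int.negSucc (nat_lit 269917724),Int.ofNat (nat_lit 203196767),Int.ofNat (nat_lit 167707846),Int.ofNat (nat_lit 6945526),Int.ofNat (nat_lit 81371042),Int.negSucc (nat_lit 37633016),Int.ofNat (nat_lit 52834792),Int.ofNat (nat_lit 162484640),Int.ofNat (nat_lit 152911245),Int.negSucc (nat_lit 8419611),Int.ofNat (nat_lit 55038789),Int.negSucc (nat_lit 30767559),Int.negSucc (nat_lit 42369369),Int.ofNat (nat_lit 63643464),Int.negSucc (nat_lit 6381477),Int.negSucc (nat_lit 193829305),Int.ofNat (nat_lit 338894298),Int.negSucc (nat_lit 69497538),Int.ofNat (nat_lit 398737896),Int.ofNat (nat_lit 46505372),Int.negSucc (nat_lit 74211090),Int.negSucc (nat_lit 72400250),Int.ofNat (nat_lit 133214307),Int.negSucc (nat_lit 57904420),Int.negSucc (nat_lit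 36808500),Int.ofNat (nat_lit 169762712),Int.ofNat (nat_lit 35013265),Int.ofNat (nat_lit 162490625),Int.ofNat (nat_lit 14700591),Int.ofNat (nat_lit 106641220),Int.ofNat (nat_lit 5360459),Int.ofNat (nat_lit 106108126),Int.negSucc (nat_lit 19801432),Int.ofNat (nat_lit 18071453),Int.negSucc (nat_lit 111715848),Int.negSucc (nat_lit 55029188),Int.ofNat (nat_lit 117012367),Int.ofNat (nat_lit 69401388),Int.ofNat (nat_lit 23085301),Int.negSucc (nat_lit 132723870),Int.negSucc (nat_lit 10406322),Int.ofNat (nat_lit 12018337),Int.negSucc (nat_lit 31990986),Int.ofNat (nat_lit 28799419),Int.ofNat (nat_lit 35294382),Int.ofNat (nat_lit 24511535),Int.ofNat (nat_lit 6919693),Int.ofNat (nat_lit 5450393),Int.negSucc (nat_lit 154314742),Int.ofNat (nat_lit 77018256),Int.ofNat (nat_lit 74404428),Int.negSucc (nat_lit 18375671),Int.negSucc (nat_lit 59596868),Int.ofNat (nat_lit 21577080),Int.ofNat (nat_lit 2691481),Int.ofNat (nat_lit 42519046),Int.negSucc (nat_lit 48948500),Int.ofNat (nat_lit 31803212),Int.ofNat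 (nat_lit 58087657),Int.ofNat (nat_lit 79113580),Int.negSucc (nat_lit 44652023),Int.ofNat (nat_lit 116389943),Int.ofNat (nat_lit 55880713),Int.negSucc (nat_lit 58414892),Int.ofNat (nat_lit 71692323),Int.ofNat (nat_lit 38538471),Int.ofNat (nat_lit 50390451),Int.negSucc (nat_lit 136353051),Int.negSucc (nat_lit 17823087),Int.negSucc (nat_lit 2167173),Int.negSucc (nat_lit 132723236),Int.ofNat (nat_lit 7157339),Int.negSucc (nat_lit 52351340),Int.ofNat (nat_lit 8287523),Int.ofNat (nat_lit 16514822),Int.ofNat (nat_lit 148310676),Int.ofNat (nat_lit 66912852),Int.ofNat (nat_lit 49555885),Int.ofNat (nat_lit 122207081),Int.ofNat (nat_lit 71718762),Int.negSucc (nat_lit 95950405),Int.ofNat (nat_lit 6334229),Int.negSucc (nat_lit 146184077),Int.ofNat (nat_lit 22588631),Int.ofNat (nat_lit 44991704),Int.negSucc (nat_lit 34240921),Int.negSucc (nat_lit 81000977),Int.negSucc (nat_lit 34241720),Int.negSucc (nat_lit 73249108),Int.ofNat (nat_lit 103885037),Int.ofNat (nat_lit 53727414),Int.negSucc (nat_lit 83229462),Int.ofNat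 (nat_lit 81601350),Int.negSucc (nat_lit 12460901),Int.negSucc (nat_lit 64760470),Int.ofNat (nat_lit 68267912),Int.negSucc (nat_lit 74131425),Int.negSucc (nat_lit 61262451),Int.negSucc (nat_lit 6267921),Int.ofNat (nat_lit 31735952),Int.ofNat (nat_lit 86988309),Int.ofNat (nat_lit 51115398),Int.ofNat (nat_lit 34144439),Int.negSucc (nat_lit 28796973),Int.ofNat (nat_lit 12524974),Int.negSucc (nat_lit 51193137),Int.ofNat (nat_lit 165588811),Int.ofNat (nat_lit 31967752),Int.negSucc (nat_lit 11836421),Int.negSucc (nat_lit 8509615),Int.negSucc (nat_lit 9507762),Int.negSucc (nat_lit 17114507),Int.negSucc (nat_lit 64044408),Int.negSucc (nat_lit 59600770),Int.negSucc (nat_lit 48833591),Int.negSucc (nat_lit 43805902),Int.negSucc (nat_lit 74060560),Int.negSucc (nat_lit 69838155),Int.negSucc (nat_lit 87909991),Int.negSucc (nat_lit 20497328),Int.ofNat (nat_lit 54342368),Int.ofNat (nat_lit 55118779),Int.negSucc (nat_lit 60731666),Int.negSucc (nat_lit 20766098),Int.negSucc (nat_lit 451758),Int.negSucc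 (nat_lit 9163259),Int.ofNat (nat_lit 44301985),Int.ofNat (nat_lit 7173253),Int.negSucc (nat_lit 61684223),Int.ofNat (nat_lit 43195619),Int.negSucc (nat_lit 26275640),Int.negSucc (nat_lit 56617074),Int.negSucc (nat_lit 13536120),Int.negSucc (nat_lit 106207253),Int.negSucc (nat_lit 37318097),Int.negSucc (nat_lit 15045255),Int.ofNat (nat_lit 50015672),Int.ofNat (nat_lit 23064966),Int.ofNat (nat_lit 30057712),Int.ofNat (nat_lit 25745599),Int.negSucc (nat_lit 21478734),Int.negSucc (nat_lit 41053668),Int.ofNat (nat_lit 120147462),Int.ofNat (nat_lit 44402648),Int.ofNat (nat_lit 49490515),Int.ofNat (nat_lit 43947797),Int.negSucc (nat_lit 55603271),Int.ofNat (nat_lit 13880991),Int.ofNat (nat_lit 4318575),Int.ofNat (nat_lit 34322969),Int.ofNat (nat_lit 18868273),Int.ofNat (nat_lit 20781153),Int.ofNat (nat_lit 10340064),Int.negSucc (nat_lit 37541575),Int.negSucc (nat_lit 31384099),Int.ofNat (nat_lit 22865248),Int.negSucc (nat_lit 58862965),Int.negSucc (nat_lit 6517669),Int.negSucc (nat_lit 5262844),Int.ofNat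 (nat_lit 19934551),Int.negSucc (nat_lit 5563766),Int.ofNat (nat_lit 450752),Int.ofNat (nat_lit 13406871),Int.negSucc (nat_lit 11656413),Int.ofNat (nat_lit 8561550),Int.negSucc (nat_lit 43409230),Int.negSucc (nat_lit 52478569),Int.negSucc (nat_lit 1215108),Int.negSucc (nat_lit 65908603),Int.negSucc (nat_lit 57677993),Int.ofNat (nat_lit 21201881),Int.negSucc (nat_lit 8736624),Int.negSucc (nat_lit 27405785),Int.negSucc (nat_lit 14445053),Int.negSucc (nat_lit 46961222),Int.negSucc (nat_lit 12631408),Int.negSucc (nat_lit 29646771),Int.negSucc (nat_lit 1190523),Int.negSucc (nat_lit 12080098),Int.ofNat (nat_lit 136200546),Int.negSucc (nat_lit 147467620),Int.negSucc (nat_lit 2038106),Int.ofNat (nat_lit 167308234),Int.negSucc (nat_lit 288610959),Int.ofNat (nat_lit 253502463),Int.negSucc (nat_lit 4573525),Int.ofNat (nat_lit 662055788)])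

/-- A row. -/
noncomputable def sr7_c4_8 : List ℕ × List ℤ :=
  ([(nat_lit 0),(nat_lit 3),(nat_lit 0),(nat_lit 0),(nat_lit 0),(nat_lit 0),(nat_lit 0),(nat_lit 0),(nat_lit 0),(nat_lit 0),(nat_lit 0),(nat_lit 0)], [Int.negSucc (nat_lit 284018319),Int.negSucc (nat_lit 520037731),Int.ofNat (nat_lit 1238984745),Int.ofNat (nat_lit 73581275),Int.ofNat (nat_lit 733896267),Int.ofNat (nat_lit 363824079),Int.negSucc (nat_lit 515258356),Int.negSucc (nat_lit 657920462),Int.ofNat (nat_lit 363820787),Int.negSucc (nat_lit 296983692),Int.ofNat (nat_lit 481568806),Int.ofNat (nat_lit 372834448),Int.ofNat (nat_lit 349267491),Int.ofNat (nat_lit 835193373),Int.negSucc (nat_lit 635113142),Int.ofNat (nat_lit 116133068),Int.ofNat (nat_lit 208621749),Int.ofNat (nat_lit 221952752),Int.ofNat (nat_lit 385182653),Int.negSucc (nat_lit 103873117),Int.negSucc (nat_lit 4937450),Int.ofNat (nat_lit 434773470),Int.ofNat (nat_lit 360314067),Int.negSucc (nat_lit 342954796),Int.ofNat (nat_lit 96385402),Int.ofNat (nat_lit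 110818751),Int.ofNat (nat_lit 436363149),Int.ofNat (nat_lit 328749775),Int.negSucc (nat_lit 219957312),Int.ofNat (nat_lit 514905498),Int.ofNat (nat_lit 191444493),Int.ofNat (nat_lit 94046395),Int.ofNat (nat_lit 125067680),Int.negSucc (nat_lit 277171252),Int.ofNat (nat_lit 146470750),Int.negSucc (nat_lit 319149599),Int.negSucc (nat_lit 199198283),Int.negSucc (nat_lit 40764364),Int.ofNat (nat_lit 9005797),Int.ofNat (nat_lit 98049010),Int.ofNat (nat_lit 14218658),Int.negSucc (nat_lit 314507697),Int.negSucc (nat_lit 252842873),Int.ofNat (nat_lit 144537668),Int.ofNat (nat_lit 1973423),Int.negSucc (nat_lit 88181499),Int.ofNat (nat_lit 252608707),Int.negSucc (nat_lit 131907920),Int.ofNat (nat_lit 4897556),Int.ofNat (nat_lit 163633958),Int.negSucc (nat_lit 290465780),Int.negSucc (nat_lit 67292621),Int.negSucc (nat_lit 328922303),Int.negSucc (nat_lit 90625826),Int.ofNat (nat_lit 38133981),Int.ofNat (nat_lit 122092680),Int.negSucc (nat_lit 149072553),Int.ofNat (nat_lit 176032457),Int.negSucc (nat_lit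 93229746),Int.negSucc (nat_lit 208772419),Int.negSucc (nat_lit 61131123),Int.negSucc (nat_lit 160209540),Int.ofNat (nat_lit 3365540),Int.negSucc (nat_lit 42472006),Int.ofNat (nat_lit 58554923),Int.negSucc (nat_lit 53091425),Int.ofNat (nat_lit 44352005),Int.negSucc (nat_lit 24544644),Int.negSucc (nat_lit 411283),Int.ofNat (nat_lit 119921959),Int.negSucc (nat_lit 197685371),Int.negSucc (nat_lit 70127583),Int.negSucc (nat_lit 55647964),Int.ofNat (nat_lit 211699850),Int.negSucc (nat_lit 14387056),Int.negSucc (nat_lit 36467542),Int.negSucc (nat_lit 149832722),Int.negSucc (nat_lit 21429052),Int.ofNat (nat_lit 10784802),Int.negSucc (nat_lit 116246461),Int.ofNat (nat_lit 30214743),Int.ofNat (nat_lit 61743141),Int.ofNat (nat_lit 73253558),Int.negSucc (nat_lit 339300699),Int.negSucc (nat_lit 16134120),Int.negSucc (nat_lit 19698726),Int.ofNat (nat_lit 29265508),Int.ofNat (nat_lit 25398751),Int.ofNat (nat_lit 42610122),Int.ofNat (nat_lit 18113903),Int.negSucc (nat_lit 16081126),Int.negSucc (nat_lit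 53142252),Int.ofNat (nat_lit 46068845),Int.negSucc (nat_lit 37866922),Int.ofNat (nat_lit 112554945),Int.negSucc (nat_lit 173238146),Int.negSucc (nat_lit 28694947),Int.negSucc (nat_lit 138867319),Int.ofNat (nat_lit 26914811),Int.negSucc (nat_lit 214921562),Int.negSucc (nat_lit 129911664),Int.ofNat (nat_lit 111763715),Int.negSucc (nat_lit 75943955),Int.negSucc (nat_lit 99022437),Int.ofNat (nat_lit 143651731),Int.negSucc (nat_lit 38959971),Int.ofNat (nat_lit 97736011),Int.ofNat (nat_lit 32893153),Int.negSucc (nat_lit 79303141),Int.negSucc (nat_lit 157995688),Int.negSucc (nat_lit 81088864),Int.negSucc (nat_lit 58604107),Int.negSucc (nat_lit 162733422),Int.negSucc (nat_lit 79571644),Int.ofNat (nat_lit 38550697),Int.ofNat (nat_lit 6024411),Int.ofNat (nat_lit 99562680),Int.negSucc (nat_lit 94982909),Int.negSucc (nat_lit 15087937),Int.negSucc (nat_lit 21750418),Int.ofNat (nat_lit 114381863),Int.ofNat (nat_lit 95610102),Int.ofNat (nat_lit 30726452),Int.negSucc (nat_lit 64920218),Int.negSucc (nat_lit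 21371922),Int.ofNat (nat_lit 35801385),Int.negSucc (nat_lit 101765085),Int.negSucc (nat_lit 24335058),Int.negSucc (nat_lit 36227542),Int.negSucc (nat_lit 82215496),Int.ofNat (nat_lit 149172554),Int.ofNat (nat_lit 54397401),Int.ofNat (nat_lit 69532593),Int.negSucc (nat_lit 19812929),Int.negSucc (nat_lit 108394051),Int.negSucc (nat_lit 26016711),Int.negSucc (nat_lit 3551533),Int.ofNat (nat_lit 228481),Int.ofNat (nat_lit 8718285),Int.ofNat (nat_lit 58988895),Int.negSucc (nat_lit 124336353),Int.negSucc (nat_lit 54986318),Int.ofNat (nat_lit 104461106),Int.negSucc (nat_lit 81324578),Int.ofNat (nat_lit 20022924),Int.ofNat (nat_lit 20727985),Int.ofNat (nat_lit 98462967),Int.ofNat (nat_lit 68053344),Int.ofNat (nat_lit 45392000),Int.ofNat (nat_lit 75968700),Int.ofNat (nat_lit 91241314),Int.ofNat (nat_lit 107247320),Int.ofNat (nat_lit 11096070),Int.negSucc (nat_lit 57443284),Int.negSucc (nat_lit 49512916),Int.negSucc (nat_lit 157986563),Int.negSucc (nat_lit 17669353),Int.ofNat (nat_lit 5969111),Int.negSucc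 (nat_lit 19506894),Int.negSucc (nat_lit 26550953),Int.negSucc (nat_lit 69484326),Int.ofNat (nat_lit 45059745),Int.ofNat (nat_lit 100975413),Int.negSucc (nat_lit 60342145),Int.ofNat (nat_lit 1990844),Int.negSucc (nat_lit 295989),Int.ofNat (nat_lit 8156792),Int.ofNat (nat_lit 98492309),Int.ofNat (nat_lit 43772163),Int.ofNat (nat_lit 23837821),Int.ofNat (nat_lit 66456459),Int.negSucc (nat_lit 44756684),Int.ofNat (nat_lit 5241893),Int.negSucc (nat_lit 23762057),Int.negSucc (nat_lit 48428669),Int.negSucc (nat_lit 18510707),Int.negSucc (nat_lit 60336926),Int.negSucc (nat_lit 18044431),Int.negSucc (nat_lit 94454489),Int.ofNat (nat_lit 20894826),Int.ofNat (nat_lit 39151818),Int.negSucc (nat_lit 105653082),Int.ofNat (nat_lit 110877003),Int.negSucc (nat_lit 58498140),Int.negSucc (nat_lit 14502022),Int.ofNat (nat_lit 44920425),Int.negSucc (nat_lit 21184616),Int.ofNat (nat_lit 135407999),Int.ofNat (nat_lit 42594878),Int.ofNat (nat_lit 56184608),Int.ofNat (nat_lit 90132888),Int.ofNat (nat_lit 29442534),Int.ofNat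 (nat_lit 30125384),Int.negSucc (nat_lit 17663661),Int.ofNat (nat_lit 40222892),Int.ofNat (nat_lit 22539127),Int.negSucc (nat_lit 6161684),Int.ofNat (nat_lit 24960372),Int.negSucc (nat_lit 14988636),Int.ofNat (nat_lit 35486756),Int.ofNat (nat_lit 55808407),Int.negSucc (nat_lit 38164500),Int.negSucc (nat_lit 28948481),Int.ofNat (nat_lit 17157016),Int.ofNat (nat_lit 12588073),Int.ofNat (nat_lit 60580008),Int.ofNat (nat_lit 49585994),Int.negSucc (nat_lit 8089418),Int.ofNat (nat_lit 3937823),Int.negSucc (nat_lit 30962527),Int.negSucc (nat_lit 49668783),Int.ofNat (nat_lit 2422147),Int.negSucc (nat_lit 4446004),Int.negSucc (nat_lit 280219645),Int.ofNat (nat_lit 206990273),Int.ofNat (nat_lit 68321891),Int.negSucc (nat_lit 159895368),Int.negSucc (nat_lit 489089154),Int.negSucc (nat_lit 480261728),Int.ofNat (nat_lit 720587977),Int.negSucc (nat_lit 382464658),Int.ofNat (nat_lit 1026002584)])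

/-- A row. -/
noncomputable def sr7_c4_9 : List ℕ × List ℤ :=
  ([(nat_lit 1),(nat_lit 0),(nat_lit 0),(nat_lit 0),(nat_lit 0),(nat_lit 1),(nat_lit 0),(nat_lit 0),(nat_lit 0),(nat_lit 0),(nat_lit 0),(nat_lit 0)], [Int.negSucc (nat_lit 412452664),Int.ofNat (nat_lit 16377524),Int.negSucc (nat_lit 193479829),Int.negSucc (nat_lit 14888426),Int.negSucc (nat_lit 276806447),Int.ofNat (nat_lit 10662896),Int.ofNat (nat_lit 71929607),Int.ofNat (nat_lit 352352541),Int.negSucc (nat_lit 127167179),Int.ofNat (nat_lit 177167608),Int.negSucc (nat_lit 110436087),Int.negSucc (nat_lit 41542887),Int.ofNat (nat_lit 45771398),Int.negSucc (nat_lit 46141483),Int.ofNat (nat_lit 204532950),Int.ofNat (nat_lit 16475983),Int.negSucc (nat_lit 99376448),Int.negSucc (nat_lit 16857808),Int.ofNat (nat_lit 60156589),Int.ofNat (nat_lit 58781708),Int.ofNat (nat_lit 4078540),Int.ofNat (nat_lit 69526368),Int.ofNat (nat_lit 16941267),Int.ofNat (nat_lit 136172229),Int.ofNat (nat_lit 20685383),Int.ofNat (nat_lit 24667868),Int.negSucc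 (nat_lit 96018911),Int.negSucc (nat_lit 130999242),Int.ofNat (nat_lit 96722101),Int.negSucc (nat_lit 103653661),Int.negSucc (nat_lit 63241393),Int.ofNat (nat_lit 1750395),Int.negSucc (nat_lit 165149574),Int.negSucc (nat_lit 7898320),Int.ofNat (nat_lit 84022336),Int.negSucc (nat_lit 32865542),Int.negSucc (nat_lit 61337972),Int.ofNat (nat_lit 21305075),Int.negSucc (nat_lit 44797750),Int.ofNat (nat_lit 28773576),Int.ofNat (nat_lit 12587017),Int.negSucc (nat_lit 11914645),Int.negSucc (nat_lit 60304229),Int.ofNat (nat_lit 15956515),Int.negSucc (nat_lit 59525666),Int.ofNat (nat_lit 30745527),Int.ofNat (nat_lit 18119695),Int.ofNat (nat_lit 2827743),Int.negSucc (nat_lit 57492195),Int.ofNat (nat_lit 82322195),Int.negSucc (nat_lit 9907977),Int.ofNat (nat_lit 39956108),Int.negSucc (nat_lit 28423621),Int.negSucc (nat_lit 16169093),Int.ofNat (nat_lit 51789493),Int.ofNat (nat_lit 71102249),Int.negSucc (nat_lit 1283207),Int.negSucc (nat_lit 30074875),Int.ofNat (nat_lit 16569141),Int.negSucc (nat_lit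 14420645),Int.negSucc (nat_lit 75186875),Int.negSucc (nat_lit 106351837),Int.negSucc (nat_lit 10872036),Int.ofNat (nat_lit 81659427),Int.negSucc (nat_lit 13008614),Int.ofNat (nat_lit 87989849),Int.ofNat (nat_lit 30592397),Int.negSucc (nat_lit 27029075),Int.negSucc (nat_lit 80392997),Int.negSucc (nat_lit 20528527),Int.ofNat (nat_lit 23753308),Int.ofNat (nat_lit 24353707),Int.ofNat (nat_lit 12138441),Int.ofNat (nat_lit 42272633),Int.negSucc (nat_lit 26604599),Int.negSucc (nat_lit 8374578),Int.negSucc (nat_lit 4022088),Int.ofNat (nat_lit 17846511),Int.negSucc (nat_lit 46047495),Int.ofNat (nat_lit 17694989),Int.negSucc (nat_lit 1707006),Int.ofNat (nat_lit 18914948),Int.negSucc (nat_lit 1165367),Int.ofNat (nat_lit 16574630),Int.negSucc (nat_lit 18723003),Int.negSucc (nat_lit 995938),Int.negSucc (nat_lit 2159759),Int.negSucc (nat_lit 21007409),Int.ofNat (nat_lit 11874127),Int.ofNat (nat_lit 15765131),Int.ofNat (nat_lit 3866934),Int.ofNat (nat_lit 49069125),Int.ofNat (nat_lit 20530089),Int.negSucc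 (nat_lit 897079),Int.ofNat (nat_lit 10739283),Int.ofNat (nat_lit 13857049),Int.negSucc (nat_lit 2875203),Int.ofNat (nat_lit 9516483),Int.negSucc (nat_lit 12910944),Int.ofNat (nat_lit 13838791),Int.ofNat (nat_lit 14734833),Int.negSucc (nat_lit 44318312),Int.ofNat (nat_lit 29386989),Int.negSucc (nat_lit 2622972),Int.ofNat (nat_lit 4892792),Int.ofNat (nat_lit 1892084),Int.ofNat (nat_lit 24896549),Int.negSucc (nat_lit 14167825),Int.negSucc (nat_lit 389014),Int.negSucc (nat_lit 15733234),Int.negSucc (nat_lit 1793009),Int.negSucc (nat_lit 1062529),Int.negSucc (nat_lit 15605097),Int.negSucc (nat_lit 938150),Int.negSucc (nat_lit 18377782),Int.ofNat (nat_lit 1033743),Int.negSucc (nat_lit 4861796),Int.ofNat (nat_lit 7110312),Int.ofNat (nat_lit 19622620),Int.negSucc (nat_lit 1916867),Int.ofNat (nat_lit 29435123),Int.ofNat (nat_lit 4142039),Int.negSucc (nat_lit 23432510),Int.ofNat (nat_lit 11784131),Int.ofNat (nat_lit 732440),Int.negSucc (nat_lit 4101046),Int.ofNat (nat_lit 7627445),Int.negSucc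 (nat_lit 20778205),Int.ofNat (nat_lit 13738044),Int.ofNat (nat_lit 27775964),Int.ofNat (nat_lit 17641471),Int.negSucc (nat_lit 548824),Int.ofNat (nat_lit 33990502),Int.negSucc (nat_lit 32193513),Int.ofNat (nat_lit 4710387),Int.ofNat (nat_lit 13983580),Int.ofNat (nat_lit 5225489),Int.negSucc (nat_lit 17385257),Int.ofNat (nat_lit 9678531),Int.negSucc (nat_lit 17608146),Int.ofNat (nat_lit 26735122),Int.ofNat (nat_lit 28162117),Int.negSucc (nat_lit 6193547),Int.ofNat (nat_lit 34866145),Int.negSucc (nat_lit 12155622),Int.negSucc (nat_lit 11461427),Int.ofNat (nat_lit 4718352),Int.ofNat (nat_lit 29152954),Int.ofNat (nat_lit 20438027),Int.ofNat (nat_lit 12818045),Int.ofNat (nat_lit 5799891),Int.negSucc (nat_lit 15355405),Int.ofNat (nat_lit 9991533),Int.negSucc (nat_lit 5461174),Int.ofNat (nat_lit 6360217),Int.negSucc (nat_lit 5571),Int.ofNat (nat_lit 1709135),Int.ofNat (nat_lit 7898107),Int.ofNat (nat_lit 25857587),Int.ofNat (nat_lit 4698456),Int.negSucc (nat_lit 21910075),Int.negSucc (nat_lit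 5539488),Int.negSucc (nat_lit 14954087),Int.negSucc (nat_lit 2249422),Int.ofNat (nat_lit 13110394),Int.ofNat (nat_lit 637127),Int.ofNat (nat_lit 5509857),Int.ofNat (nat_lit 8159837),Int.negSucc (nat_lit 21042174),Int.negSucc (nat_lit 7897062),Int.negSucc (nat_lit 3326847),Int.ofNat (nat_lit 8899081),Int.ofNat (nat_lit 26103461),Int.negSucc (nat_lit 4499617),Int.negSucc (nat_lit 9380720),Int.ofNat (nat_lit 6015036),Int.ofNat (nat_lit 24819602),Int.ofNat (nat_lit 13545104),Int.negSucc (nat_lit 24022256),Int.ofNat (nat_lit 6937409),Int.ofNat (nat_lit 5085428),Int.ofNat (nat_lit 4194606),Int.ofNat (nat_lit 5718043),Int.negSucc (nat_lit 24313335),Int.ofNat (nat_lit 8459987),Int.ofNat (nat_lit 790431),Int.ofNat (nat_lit 1097374),Int.negSucc (nat_lit 10205605),Int.ofNat (nat_lit 7391021),Int.ofNat (nat_lit 6515220),Int.ofNat (nat_lit 572659),Int.negSucc (nat_lit 807454),Int.negSucc (nat_lit 9629184),Int.negSucc (nat_lit 2387912),Int.ofNat (nat_lit 10495143),Int.ofNat (nat_lit 19671719),Int.ofNat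 (nat_lit 18785050),Int.negSucc (nat_lit 10192742),Int.ofNat (nat_lit 2708059),Int.negSucc (nat_lit 10093919),Int.negSucc (nat_lit 12965966),Int.ofNat (nat_lit 9549567),Int.ofNat (nat_lit 12579907),Int.negSucc (nat_lit 23646245),Int.ofNat (nat_lit 1261399),Int.ofNat (nat_lit 7010521),Int.ofNat (nat_lit 1376604),Int.negSucc (nat_lit 1458344),Int.negSucc (nat_lit 7530088),Int.ofNat (nat_lit 3680508),Int.negSucc (nat_lit 5177841),Int.negSucc (nat_lit 4613640),Int.negSucc (nat_lit 12546095),Int.negSucc (nat_lit 76437625),Int.negSucc (nat_lit 255615315),Int.ofNat (nat_lit 9120736),Int.negSucc (nat_lit 1879785),Int.ofNat (nat_lit 17695713),Int.negSucc (nat_lit 11293728),Int.ofNat (nat_lit 13092106),Int.negSucc (nat_lit 1900921),Int.ofNat (nat_lit 1829459),Int.ofNat (nat_lit 53647560)])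

/-- A row. -/
noncomputable def sr7_c4_10 : List ℕ × List ℤ :=
  ([(nat_lit 1),(nat_lit 0),(nat_lit 0),(nat_lit 1),(nat_lit 0),(nat_lit 0),(nat_lit 0),(nat_lit 0),(nat_lit 0),(nat_lit 0),(nat_lit 0),(nat_lit 0)], [Int.negSucc (nat_lit 2173934005),Int.ofNat (nat_lit 417081268),Int.negSucc (nat_lit 1036079474),Int.negSucc (nat_lit 699529785),Int.ofNat (nat_lit 217899912),Int.ofNat (nat_lit 895597017),Int.negSucc (nat_lit 6846632),Int.ofNat (nat_lit 281394177),Int.ofNat (nat_lit 276231185),Int.ofNat (nat_lit 366806490),Int.negSucc (nat_lit 271258697),Int.negSucc (nat_lit 540040404),Int.negSucc (nat_lit 86541697),Int.negSucc (nat_lit 418271302),Int.ofNat (nat_lit 707448321),Int.negSucc (nat_lit 269992294),Int.negSucc (nat_lit 37116223),Int.negSucc (nat_lit 436613050),Int.negSucc (nat_lit 61590450),Int.ofNat (nat_lit 107252305),Int.ofNat (nat_lit 82724553),Int.ofNat (nat_lit 82229964),Int.ofNat (nat_lit 186594018),Int.ofNat (nat_lit 234864628),Int.negSucc (nat_lit 93463313),Int.ofNat (nat_lit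 91398020),Int.negSucc (nat_lit 163610785),Int.negSucc (nat_lit 269300085),Int.negSucc (nat_lit 35465809),Int.ofNat (nat_lit 35157419),Int.negSucc (nat_lit 69597317),Int.ofNat (nat_lit 152813323),Int.negSucc (nat_lit 574931917),Int.negSucc (nat_lit 23205117),Int.ofNat (nat_lit 128389944),Int.ofNat (nat_lit 179795739),Int.negSucc (nat_lit 136108122),Int.negSucc (nat_lit 9763474),Int.ofNat (nat_lit 227622299),Int.ofNat (nat_lit 413828783),Int.negSucc (nat_lit 45829138),Int.negSucc (nat_lit 4122680),Int.ofNat (nat_lit 21433910),Int.negSucc (nat_lit 180004184),Int.ofNat (nat_lit 30094871),Int.negSucc (nat_lit 51035211),Int.negSucc (nat_lit 55641162),Int.ofNat (nat_lit 42459203),Int.negSucc (nat_lit 8823004),Int.ofNat (nat_lit 274665467),Int.ofNat (nat_lit 263915806),Int.negSucc (nat_lit 59794666),Int.ofNat (nat_lit 82673376),Int.ofNat (nat_lit 10378706),Int.ofNat (nat_lit 169867286),Int.ofNat (nat_lit 45220900),Int.ofNat (nat_lit 36976801),Int.negSucc (nat_lit 22374315),Int.negSucc (nat_lit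 6574714),Int.ofNat (nat_lit 244686626),Int.negSucc (nat_lit 34811105),Int.negSucc (nat_lit 33403225),Int.ofNat (nat_lit 53724791),Int.ofNat (nat_lit 10255106),Int.ofNat (nat_lit 185544705),Int.ofNat (nat_lit 187461449),Int.negSucc (nat_lit 52423907),Int.negSucc (nat_lit 162538707),Int.ofNat (nat_lit 71511941),Int.negSucc (nat_lit 47768935),Int.negSucc (nat_lit 92629324),Int.ofNat (nat_lit 69274180),Int.negSucc (nat_lit 20808299),Int.negSucc (nat_lit 49282143),Int.negSucc (nat_lit 5253114),Int.ofNat (nat_lit 37504217),Int.negSucc (nat_lit 114087684),Int.ofNat (nat_lit 32324240),Int.negSucc (nat_lit 37605278),Int.negSucc (nat_lit 3564683),Int.ofNat (nat_lit 54015055),Int.negSucc (nat_lit 101949643),Int.negSucc (nat_lit 26595080),Int.ofNat (nat_lit 10420060),Int.ofNat (nat_lit 13633046),Int.ofNat (nat_lit 7413590),Int.ofNat (nat_lit 16402318),Int.ofNat (nat_lit 32044470),Int.negSucc (nat_lit 90567683),Int.negSucc (nat_lit 24789637),Int.negSucc (nat_lit 7509972),Int.negSucc (nat_lit 42939273),Int.negSucc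 (nat_lit 29655203),Int.negSucc (nat_lit 33092135),Int.negSucc (nat_lit 25650745),Int.ofNat (nat_lit 32569296),Int.ofNat (nat_lit 61277275),Int.negSucc (nat_lit 61183083),Int.ofNat (nat_lit 29400127),Int.negSucc (nat_lit 22835083),Int.negSucc (nat_lit 35300605),Int.ofNat (nat_lit 61798184),Int.negSucc (nat_lit 24169840),Int.ofNat (nat_lit 26438397),Int.ofNat (nat_lit 50052067),Int.ofNat (nat_lit 11752978),Int.negSucc (nat_lit 13569650),Int.ofNat (nat_lit 36821985),Int.negSucc (nat_lit 22678528),Int.negSucc (nat_lit 17253188),Int.ofNat (nat_lit 12080113),Int.ofNat (nat_lit 7709827),Int.negSucc (nat_lit 50585073),Int.negSucc (nat_lit 26394337),Int.ofNat (nat_lit 48990211),Int.ofNat (nat_lit 54407630),Int.ofNat (nat_lit 42807159),Int.negSucc (nat_lit 18032437),Int.negSucc (nat_lit 6453128),Int.negSucc (nat_lit 66805485),Int.negSucc (nat_lit 50769819),Int.ofNat (nat_lit 20089925),Int.ofNat (nat_lit 15248678),Int.negSucc (nat_lit 7264536),Int.negSucc (nat_lit 83852320),Int.ofNat (nat_lit 37413087),Int.negSucc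 (nat_lit 87153078),Int.ofNat (nat_lit 3714129),Int.negSucc (nat_lit 2882276),Int.negSucc (nat_lit 51184985),Int.ofNat (nat_lit 2059738),Int.negSucc (nat_lit 56864815),Int.negSucc (nat_lit 5513689),Int.negSucc (nat_lit 1506145),Int.ofNat (nat_lit 17747705),Int.ofNat (nat_lit 1796719),Int.negSucc (nat_lit 84318025),Int.negSucc (nat_lit 69929871),Int.negSucc (nat_lit 97419475),Int.ofNat (nat_lit 411849),Int.ofNat (nat_lit 44196811),Int.ofNat (nat_lit 124287011),Int.ofNat (nat_lit 37694639),Int.ofNat (nat_lit 10607377),Int.ofNat (nat_lit 25142411),Int.ofNat (nat_lit 26157374),Int.ofNat (nat_lit 52095944),Int.ofNat (nat_lit 34091784),Int.negSucc (nat_lit 43408397),Int.negSucc (nat_lit 11013568),Int.ofNat (nat_lit 51301773),Int.ofNat (nat_lit 14836826),Int.ofNat (nat_lit 30476322),Int.ofNat (nat_lit 46381298),Int.ofNat (nat_lit 29646035),Int.ofNat (nat_lit 5862208),Int.negSucc (nat_lit 3382117),Int.negSucc (nat_lit 39061597),Int.negSucc (nat_lit 25291086),Int.ofNat (nat_lit 60652649),Int.negSucc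 (nat_lit 40180396),Int.ofNat (nat_lit 6971324),Int.ofNat (nat_lit 2531039),Int.negSucc (nat_lit 9228276),Int.negSucc (nat_lit 35725149),Int.ofNat (nat_lit 24148252),Int.ofNat (nat_lit 8646379),Int.negSucc (nat_lit 6355051),Int.ofNat (nat_lit 52085715),Int.ofNat (nat_lit 38655425),Int.negSucc (nat_lit 48660800),Int.negSucc (nat_lit 40227709),Int.negSucc (nat_lit 19866846),Int.ofNat (nat_lit 67306550),Int.negSucc (nat_lit 50552341),Int.negSucc (nat_lit 9382002),Int.ofNat (nat_lit 28441161),Int.ofNat (nat_lit 45047304),Int.ofNat (nat_lit 27953736),Int.negSucc (nat_lit 25034426),Int.ofNat (nat_lit 60783170),Int.ofNat (nat_lit 2973582),Int.negSucc (nat_lit 22320412),Int.ofNat (nat_lit 66777726),Int.ofNat (nat_lit 5087679),Int.negSucc (nat_lit 40902214),Int.ofNat (nat_lit 24322721),Int.negSucc (nat_lit 9116305),Int.ofNat (nat_lit 5119737),Int.ofNat (nat_lit 30268431),Int.negSucc (nat_lit 37680424),Int.negSucc (nat_lit 38446781),Int.negSucc (nat_lit 46754605),Int.ofNat (nat_lit 8492847),Int.ofNat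 (nat_lit 18671584),Int.negSucc (nat_lit 20597274),Int.negSucc (nat_lit 28855161),Int.ofNat (nat_lit 3960920),Int.negSucc (nat_lit 3513124),Int.ofNat (nat_lit 65383932),Int.ofNat (nat_lit 5797965),Int.negSucc (nat_lit 31252060),Int.negSucc (nat_lit 587027),Int.negSucc (nat_lit 16596191),Int.ofNat (nat_lit 20763389),Int.ofNat (nat_lit 46835299),Int.ofNat (nat_lit 423627),Int.negSucc (nat_lit 15592361),Int.negSucc (nat_lit 16320859),Int.ofNat (nat_lit 2460201),Int.negSucc (nat_lit 15023062),Int.negSucc (nat_lit 12490285),Int.ofNat (nat_lit 9232517),Int.ofNat (nat_lit 288382208),Int.negSucc (nat_lit 80274122),Int.negSucc (nat_lit 742074048),Int.ofNat (nat_lit 209519279),Int.negSucc (nat_lit 4938004),Int.negSucc (nat_lit 35892425),Int.negSucc (nat_lit 9126463),Int.negSucc (nat_lit 79857155),Int.ofNat (nat_lit 24422004),Int.negSucc (nat_lit 11433231),Int.ofNat (nat_lit 185508009)])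

/-- A row. -/
noncomputable def sr7_c4_11 : List ℕ × List ℤ :=
  ([(nat_lit 1),(nat_lit 1),(nat_lit 0),(nat_lit 0),(nat_lit 0),(nat_lit 0),(nat_lit 0),(nat_lit 0),(nat_lit 0),(nat_lit 0),(nat_lit 0),(nat_lit 0)], [Int.ofNat (nat_lit 39771643),Int.ofNat (nat_lit 375099189),Int.ofNat (nat_lit 406383012),Int.ofNat (nat_lit 748456329),Int.ofNat (nat_lit 1533559186),Int.ofNat (nat_lit 591814597),Int.negSucc (nat_lit 1043058769),Int.negSucc (nat_lit 2779020064),Int.ofNat (nat_lit 267485498),Int.ofNat (nat_lit 662066098),Int.ofNat (nat_lit 502390230),Int.ofNat (nat_lit 503904062),Int.ofNat (nat_lit 4782038),Int.ofNat (nat_lit 1649814508),Int.negSucc (nat_lit 377283372),Int.negSucc (nat_lit 579252469),Int.ofNat (nat_lit 177578440),Int.ofNat (nat_lit 104573969),Int.negSucc (nat_lit 183328217),Int.ofNat (nat_lit 4427987),Int.negSucc (nat_lit 128830689),Int.negSucc (nat_lit 60777978),Int.negSucc (nat_lit 225674830),Int.negSucc (nat_lit 262898962),Int.negSucc (nat_lit 486908188),Int.ofNat (nat_lit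 214669595),Int.ofNat (nat_lit 604380372),Int.negSucc (nat_lit 118979199),Int.ofNat (nat_lit 125294207),Int.ofNat (nat_lit 74240614),Int.negSucc (nat_lit 69533673),Int.ofNat (nat_lit 219441333),Int.negSucc (nat_lit 49345637),Int.negSucc (nat_lit 530538306),Int.negSucc (nat_lit 43470548),Int.negSucc (nat_lit 157127426),Int.ofNat (nat_lit 20723110),Int.negSucc (nat_lit 171187588),Int.ofNat (nat_lit 154017928),Int.negSucc (nat_lit 183240493),Int.negSucc (nat_lit 243361459),Int.negSucc (nat_lit 140042973),Int.negSucc (nat_lit 176434049),Int.negSucc (nat_lit 235007627),Int.ofNat (nat_lit 182210336),Int.negSucc (nat_lit 380518658),Int.ofNat (nat_lit 157776168),Int.ofNat (nat_lit 3195962),Int.negSucc (nat_lit 140678079),Int.ofNat (nat_lit 238000593),Int.negSucc (nat_lit 59320145),Int.negSucc (nat_lit 495675663),Int.negSucc (nat_lit 384725939),Int.ofNat (nat_lit 111985023),Int.ofNat (nat_lit 550794598),Int.negSucc (nat_lit 96742196),Int.negSucc (nat_lit 15881021),Int.ofNat (nat_lit 348858254),Int.negSucc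 (nat_lit 482975703),Int.negSucc (nat_lit 49447134),Int.negSucc (nat_lit 149271746),Int.negSucc (nat_lit 208666461),Int.ofNat (nat_lit 60960643),Int.negSucc (nat_lit 441801767),Int.ofNat (nat_lit 428798156),Int.negSucc (nat_lit 229626356),Int.negSucc (nat_lit 102294484),Int.ofNat (nat_lit 41089133),Int.ofNat (nat_lit 115934506),Int.negSucc (nat_lit 33145203),Int.ofNat (nat_lit 78950536),Int.negSucc (nat_lit 51844348),Int.ofNat (nat_lit 66241232),Int.ofNat (nat_lit 132781412),Int.negSucc (nat_lit 102604928),Int.negSucc (nat_lit 64691757),Int.negSucc (nat_lit 260662382),Int.ofNat (nat_lit 221367185),Int.ofNat (nat_lit 82465140),Int.negSucc (nat_lit 11619160),Int.ofNat (nat_lit 130235873),Int.negSucc (nat_lit 172032316),Int.ofNat (nat_lit 57118240),Int.ofNat (nat_lit 170265020),Int.ofNat (nat_lit 365820735),Int.negSucc (nat_lit 115713739),Int.negSucc (nat_lit 157894818),Int.ofNat (nat_lit 4580278),Int.negSucc (nat_lit 129467738),Int.ofNat (nat_lit 156578372),Int.negSucc (nat_lit 174191493),Int.ofNat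 (nat_lit 75816777),Int.negSucc (nat_lit 57746425),Int.negSucc (nat_lit 235812182),Int.ofNat (nat_lit 13810837),Int.ofNat (nat_lit 131383680),Int.ofNat (nat_lit 18731273),Int.ofNat (nat_lit 55116215),Int.negSucc (nat_lit 46968016),Int.negSucc (nat_lit 89318035),Int.negSucc (nat_lit 207336975),Int.negSucc (nat_lit 16544622),Int.negSucc (nat_lit 95106869),Int.ofNat (nat_lit 62990852),Int.ofNat (nat_lit 109344683),Int.negSucc (nat_lit 80069776),Int.ofNat (nat_lit 18961742),Int.ofNat (nat_lit 90244977),Int.negSucc (nat_lit 129597357),Int.negSucc (nat_lit 20896958),Int.negSucc (nat_lit 182370245),Int.negSucc (nat_lit 101841261),Int.negSucc (nat_lit 61508348),Int.negSucc (nat_lit 36020434),Int.negSucc (nat_lit 18296017),Int.negSucc (nat_lit 23889743),Int.negSucc (nat_lit 53845469),Int.negSucc (nat_lit 2540355),Int.negSucc (nat_lit 137827748),Int.negSucc (nat_lit 198117181),Int.ofNat (nat_lit 41853623),Int.ofNat (nat_lit 42217866),Int.ofNat (nat_lit 12750485),Int.negSucc (nat_lit 14304332),Int.ofNat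 (nat_lit 20126868),Int.negSucc (nat_lit 10919908),Int.ofNat (nat_lit 2602927),Int.ofNat (nat_lit 83906017),Int.negSucc (nat_lit 47706058),Int.negSucc (nat_lit 43880526),Int.negSucc (nat_lit 47297651),Int.ofNat (nat_lit 19208404),Int.ofNat (nat_lit 46705736),Int.ofNat (nat_lit 91784484),Int.negSucc (nat_lit 59198843),Int.ofNat (nat_lit 53766971),Int.negSucc (nat_lit 102060576),Int.negSucc (nat_lit 150554124),Int.negSucc (nat_lit 9427166),Int.ofNat (nat_lit 4455385),Int.ofNat (nat_lit 123595188),Int.ofNat (nat_lit 63022486),Int.ofNat (nat_lit 171215875),Int.negSucc (nat_lit 91570000),Int.ofNat (nat_lit 21171612),Int.ofNat (nat_lit 117654694),Int.negSucc (nat_lit 45257825),Int.negSucc (nat_lit 130508761),Int.ofNat (nat_lit 171392481),Int.negSucc (nat_lit 6532010),Int.ofNat (nat_lit 68008952),Int.ofNat (nat_lit 51899396),Int.negSucc (nat_lit 20580224),Int.ofNat (nat_lit 124383143),Int.negSucc (nat_lit 87271662),Int.ofNat (nat_lit 2064430),Int.negSucc (nat_lit 63987700),Int.negSucc (nat_lit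 113987560),Int.negSucc (nat_lit 69132556),Int.negSucc (nat_lit 42554893),Int.negSucc (nat_lit 61604809),Int.ofNat (nat_lit 118934741),Int.ofNat (nat_lit 80033549),Int.ofNat (nat_lit 11516164),Int.ofNat (nat_lit 15546139),Int.negSucc (nat_lit 44680608),Int.negSucc (nat_lit 82169528),Int.ofNat (nat_lit 146669108),Int.ofNat (nat_lit 146634720),Int.ofNat (nat_lit 698341),Int.ofNat (nat_lit 208167131),Int.negSucc (nat_lit 71252438),Int.ofNat (nat_lit 17882748),Int.ofNat (nat_lit 10248734),Int.negSucc (nat_lit 128626185),Int.negSucc (nat_lit 149863152),Int.negSucc (nat_lit 92593443),Int.ofNat (nat_lit 76305880),Int.ofNat (nat_lit 143246095),Int.ofNat (nat_lit 50243293),Int.ofNat (nat_lit 77679436),Int.negSucc (nat_lit 76413929),Int.ofNat (nat_lit 43753618),Int.ofNat (nat_lit 41058203),Int.negSucc (nat_lit 142553018),Int.negSucc (nat_lit 236789949),Int.ofNat (nat_lit 131729274),Int.ofNat (nat_lit 161704536),Int.ofNat (nat_lit 97380703),Int.negSucc (nat_lit 65831473),Int.negSucc (nat_lit 28841824),Int.negSucc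 (nat_lit 6462673),Int.negSucc (nat_lit 43502512),Int.negSucc (nat_lit 53341706),Int.ofNat (nat_lit 37264367),Int.negSucc (nat_lit 101734099),Int.negSucc (nat_lit 118420946),Int.ofNat (nat_lit 29384237),Int.ofNat (nat_lit 11872013),Int.ofNat (nat_lit 140307139),Int.ofNat (nat_lit 45738420),Int.negSucc (nat_lit 51330206),Int.negSucc (nat_lit 76629432),Int.ofNat (nat_lit 52999743),Int.negSucc (nat_lit 9337464),Int.ofNat (nat_lit 67379869),Int.ofNat (nat_lit 64392443),Int.ofNat (nat_lit 72452363),Int.ofNat (nat_lit 110176836),Int.negSucc (nat_lit 31809025),Int.negSucc (nat_lit 170123470),Int.ofNat (nat_lit 17933713),Int.negSucc (nat_lit 93960033),Int.negSucc (nat_lit 36150963),Int.ofNat (nat_lit 357460796),Int.negSucc (nat_lit 273591426),Int.negSucc (nat_lit 369925820),Int.negSucc (nat_lit 1836276055),Int.negSucc (nat_lit 283381139),Int.ofNat (nat_lit 476703630),Int.ofNat (nat_lit 19281356),Int.negSucc (nat_lit 288118723),Int.negSucc (nat_lit 251547600),Int.ofNat (nat_lit 103210218),Int.ofNat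 (nat_lit 594241931)])

/-- A row. -/
noncomputable def sr7_c4_12 : List ℕ × List ℤ :=
  ([(nat_lit 1),(nat_lit 1),(nat_lit 1),(nat_lit 0),(nat_lit 0),(nat_lit 0),(nat_lit 0),(nat_lit 0),(nat_lit 0),(nat_lit 0),(nat_lit 0),(nat_lit 0)], [Int.negSucc (nat_lit 713965469),Int.ofNat (nat_lit 887618502),Int.ofNat (nat_lit 1022565902),Int.negSucc (nat_lit 488326543),Int.ofNat (nat_lit 1860730249),Int.ofNat (nat_lit 596585861),Int.negSucc (nat_lit 599968943),Int.negSucc (nat_lit 1715498395),Int.ofNat (nat_lit 760079912),Int.ofNat (nat_lit 486848784),Int.ofNat (nat_lit 117735763),Int.ofNat (nat_lit 202402450),Int.ofNat (nat_lit 167985676),Int.ofNat (nat_lit 917184850),Int.ofNat (nat_lit 17543988),Int.negSucc (nat_lit 383664772),Int.ofNat (nat_lit 86176071),Int.ofNat (nat_lit 121629310),Int.negSucc (nat_lit 218947499),Int.ofNat (nat_lit 133587213),Int.ofNat (nat_lit 129274458),Int.negSucc (nat_lit 129582492),Int.negSucc (nat_lit 113000020),Int.negSucc (nat_lit 67751967),Int.negSucc (nat_lit 391480844),Int.negSucc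 (nat_lit 80426668),Int.ofNat (nat_lit 269269811),Int.negSucc (nat_lit 234097702),Int.ofNat (nat_lit 99395091),Int.ofNat (nat_lit 78505589),Int.negSucc (nat_lit 125762697),Int.ofNat (nat_lit 396542752),Int.negSucc (nat_lit 36278545),Int.negSucc (nat_lit 499518374),Int.negSucc (nat_lit 57800104),Int.ofNat (nat_lit 183247011),Int.negSucc (nat_lit 80172171),Int.negSucc (nat_lit 120262640),Int.ofNat (nat_lit 177229020),Int.negSucc (nat_lit 230419816),Int.negSucc (nat_lit 447656036),Int.ofNat (nat_lit 41434519),Int.negSucc (nat_lit 121147479),Int.negSucc (nat_lit 375739168),Int.ofNat (nat_lit 180352549),Int.negSucc (nat_lit 186716149),Int.ofNat (nat_lit 14541363),Int.negSucc (nat_lit 11729090),Int.negSucc (nat_lit 21249401),Int.ofNat (nat_lit 182333837),Int.ofNat (nat_lit 80782097),Int.negSucc (nat_lit 346667156),Int.negSucc (nat_lit 347089628),Int.negSucc (nat_lit 38483094),Int.ofNat (nat_lit 544091502),Int.negSucc (nat_lit 38745138),Int.ofNat (nat_lit 16088436),Int.ofNat (nat_lit 100869947),Int.negSucc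 (nat_lit 406903297),Int.ofNat (nat_lit 65864192),Int.negSucc (nat_lit 67665652),Int.negSucc (nat_lit 127593505),Int.ofNat (nat_lit 16988084),Int.negSucc (nat_lit 372329898),Int.ofNat (nat_lit 432115321),Int.negSucc (nat_lit 243418734),Int.negSucc (nat_lit 73435003),Int.negSucc (nat_lit 46471544),Int.ofNat (nat_lit 131952668),Int.ofNat (nat_lit 111709800),Int.ofNat (nat_lit 11815984),Int.negSucc (nat_lit 14123359),Int.ofNat (nat_lit 63780010),Int.negSucc (nat_lit 88516098),Int.negSucc (nat_lit 69864005),Int.ofNat (nat_lit 24562500),Int.negSucc (nat_lit 112755560),Int.ofNat (nat_lit 20831676),Int.ofNat (nat_lit 36476574),Int.negSucc (nat_lit 7391975),Int.ofNat (nat_lit 34789835),Int.negSucc (nat_lit 122952431),Int.negSucc (nat_lit 48923122),Int.ofNat (nat_lit 51727143),Int.ofNat (nat_lit 221019048),Int.negSucc (nat_lit 104658531),Int.negSucc (nat_lit 104780173),Int.ofNat (nat_lit 49918446),Int.negSucc (nat_lit 155028155),Int.ofNat (nat_lit 11558242),Int.negSucc (nat_lit 33953015),Int.negSucc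 (nat_lit 53306022),Int.negSucc (nat_lit 73890413),Int.negSucc (nat_lit 60484348),Int.negSucc (nat_lit 92729724),Int.ofNat (nat_lit 60632787),Int.ofNat (nat_lit 29189305),Int.negSucc (nat_lit 21529438),Int.ofNat (nat_lit 4285204),Int.negSucc (nat_lit 25416426),Int.negSucc (nat_lit 20094622),Int.ofNat (nat_lit 38808359),Int.negSucc (nat_lit 15534377),Int.ofNat (nat_lit 114200617),Int.ofNat (nat_lit 37346287),Int.negSucc (nat_lit 105274523),Int.negSucc (nat_lit 99519743),Int.ofNat (nat_lit 51106609),Int.negSucc (nat_lit 66022058),Int.ofNat (nat_lit 51660990),Int.negSucc (nat_lit 13394510),Int.negSucc (nat_lit 13675595),Int.negSucc (nat_lit 15240757),Int.ofNat (nat_lit 12971676),Int.ofNat (nat_lit 30125441),Int.ofNat (nat_lit 9050813),Int.negSucc (nat_lit 9830864),Int.negSucc (nat_lit 13176997),Int.negSucc (nat_lit 81326568),Int.negSucc (nat_lit 111069016),Int.negSucc (nat_lit 78392092),Int.ofNat (nat_lit 42861748),Int.ofNat (nat_lit 15202557),Int.negSucc (nat_lit 7606780),Int.negSucc (nat_lit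 18600389),Int.negSucc (nat_lit 9465021),Int.negSucc (nat_lit 3945514),Int.ofNat (nat_lit 82328151),Int.negSucc (nat_lit 3756543),Int.negSucc (nat_lit 62157727),Int.negSucc (nat_lit 85360119),Int.negSucc (nat_lit 63608363),Int.negSucc (nat_lit 18044840),Int.ofNat (nat_lit 88583949),Int.ofNat (nat_lit 29199751),Int.ofNat (nat_lit 56479027),Int.negSucc (nat_lit 119640361),Int.negSucc (nat_lit 168142767),Int.negSucc (nat_lit 93791220),Int.ofNat (nat_lit 46381569),Int.ofNat (nat_lit 173676740),Int.ofNat (nat_lit 24870597),Int.ofNat (nat_lit 78105426),Int.negSucc (nat_lit 66995049),Int.ofNat (nat_lit 56562496),Int.ofNat (nat_lit 111102987),Int.negSucc (nat_lit 16337588),Int.negSucc (nat_lit 46725448),Int.negSucc (nat_lit 32827897),Int.negSucc (nat_lit 12917710),Int.ofNat (nat_lit 3459441),Int.negSucc (nat_lit 30028264),Int.negSucc (nat_lit 23614079),Int.ofNat (nat_lit 123350814),Int.negSucc (nat_lit 41196363),Int.negSucc (nat_lit 17114896),Int.ofNat (nat_lit 2664602),Int.negSucc (nat_lit 43648226),Int.negSucc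 (nat_lit 77579086),Int.ofNat (nat_lit 50558685),Int.negSucc (nat_lit 27865908),Int.ofNat (nat_lit 119905710),Int.ofNat (nat_lit 19091761),Int.ofNat (nat_lit 54411081),Int.negSucc (nat_lit 11841530),Int.ofNat (nat_lit 37047948),Int.negSucc (nat_lit 3054109),Int.ofNat (nat_lit 98090392),Int.ofNat (nat_lit 125873632),Int.ofNat (nat_lit 47224395),Int.ofNat (nat_lit 58846478),Int.negSucc (nat_lit 73937593),Int.negSucc (nat_lit 38657938),Int.ofNat (nat_lit 89997681),Int.ofNat (nat_lit 30284164),Int.negSucc (nat_lit 52578636),Int.ofNat (nat_lit 30092060),Int.negSucc (nat_lit 33582649),Int.ofNat (nat_lit 143722464),Int.negSucc (nat_lit 48512905),Int.ofNat (nat_lit 21485034),Int.ofNat (nat_lit 4658300),Int.negSucc (nat_lit 47172199),Int.ofNat (nat_lit 96870149),Int.negSucc (nat_lit 14139296),Int.negSucc (nat_lit 49646454),Int.ofNat (nat_lit 107451753),Int.ofNat (nat_lit 54493601),Int.ofNat (nat_lit 42737715),Int.ofNat (nat_lit 52117601),Int.negSucc (nat_lit 25112941),Int.negSucc (nat_lit 68920032),Int.negSucc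 (nat_lit 47149530),Int.ofNat (nat_lit 469572),Int.ofNat (nat_lit 9273049),Int.negSucc (nat_lit 89446994),Int.negSucc (nat_lit 46426321),Int.ofNat (nat_lit 24757262),Int.negSucc (nat_lit 20754429),Int.ofNat (nat_lit 112863245),Int.ofNat (nat_lit 22736554),Int.negSucc (nat_lit 39377902),Int.negSucc (nat_lit 23520035),Int.ofNat (nat_lit 41094902),Int.negSucc (nat_lit 2884329),Int.ofNat (nat_lit 55829657),Int.ofNat (nat_lit 29675084),Int.ofNat (nat_lit 44531285),Int.ofNat (nat_lit 93112538),Int.ofNat (nat_lit 19712502),Int.negSucc (nat_lit 100990459),Int.ofNat (nat_lit 7479168),Int.negSucc (nat_lit 56219125),Int.ofNat (nat_lit 225864053),Int.ofNat (nat_lit 233320533),Int.negSucc (nat_lit 534570432),Int.negSucc (nat_lit 252408439),Int.negSucc (nat_lit 859443016),Int.ofNat (nat_lit 12141098),Int.negSucc (nat_lit 610338622),Int.negSucc (nat_lit 16984229),Int.negSucc (nat_lit 6559060),Int.negSucc (nat_lit 75570926),Int.ofNat (nat_lit 25030423),Int.negSucc (nat_lit 3984447),Int.ofNat (nat_lit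 151076235)])

/-- A row. -/
noncomputable def sr7_c4_13 : List ℕ × List ℤ :=
  ([(nat_lit 1),(nat_lit 3),(nat_lit 0),(nat_lit 0),(nat_lit 0),(nat_lit 0),(nat_lit 0),(nat_lit 0),(nat_lit 0),(nat_lit 0),(nat_lit 0),(nat_lit 0)], [Int.ofNat (nat_lit 862787491),Int.ofNat (nat_lit 599050320),Int.negSucc (nat_lit 519162480),Int.negSucc (nat_lit 810237896),Int.ofNat (nat_lit 83658634),Int.negSucc (nat_lit 138563446),Int.ofNat (nat_lit 48210565),Int.ofNat (nat_lit 300394804),Int.ofNat (nat_lit 209530262),Int.ofNat (nat_lit 325746705),Int.negSucc (nat_lit 480522267),Int.negSucc (nat_lit 330521059),Int.negSucc (nat_lit 79348877),Int.negSucc (nat_lit 1017730662),Int.ofNat (nat_lit 817536494),Int.negSucc (nat_lit 467744816),Int.negSucc (nat_lit 401424191),Int.ofNat (nat_lit 7886990),Int.negSucc (nat_lit 794045557),Int.ofNat (nat_lit 106863907),Int.ofNat (nat_lit 104664817),Int.negSucc (nat_lit 420344210),Int.negSucc (nat_lit 251140060),Int.ofNat (nat_lit 408695292),Int.negSucc (nat_lit 310141946),Int.negSucc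 (nat_lit 22460880),Int.negSucc (nat_lit 456481967),Int.negSucc (nat_lit 92204854),Int.ofNat (nat_lit 397752408),Int.negSucc (nat_lit 472015517),Int.negSucc (nat_lit 385105481),Int.ofNat (nat_lit 259171915),Int.negSucc (nat_lit 217174369),Int.ofNat (nat_lit 139906227),Int.ofNat (nat_lit 52147444),Int.ofNat (nat_lit 329207900),Int.ofNat (nat_lit 59959877),Int.ofNat (nat_lit 148146888),Int.negSucc (nat_lit 96999024),Int.ofNat (nat_lit 38189334),Int.ofNat (nat_lit 9479530),Int.ofNat (nat_lit 503364797),Int.ofNat (nat_lit 271480384),Int.negSucc (nat_lit 249131546),Int.negSucc (nat_lit 5508221),Int.ofNat (nat_lit 163729776),Int.negSucc (nat_lit 449391933),Int.ofNat (nat_lit 111622268),Int.ofNat (nat_lit 263893641),Int.ofNat (nat_lit 72706897),Int.ofNat (nat_lit 59919993),Int.ofNat (nat_lit 124402674),Int.ofNat (nat_lit 2587973),Int.ofNat (nat_lit 198409570),Int.ofNat (nat_lit 108142207),Int.negSucc (nat_lit 110853843),Int.negSucc (nat_lit 160803684),Int.negSucc (nat_lit 25927616),Int.ofNat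 (nat_lit 56797107),Int.ofNat (nat_lit 243546752),Int.ofNat (nat_lit 182520171),Int.ofNat (nat_lit 143650296),Int.ofNat (nat_lit 26385864),Int.negSucc (nat_lit 50270652),Int.negSucc (nat_lit 22328823),Int.negSucc (nat_lit 14928831),Int.negSucc (nat_lit 81510348),Int.ofNat (nat_lit 67249326),Int.ofNat (nat_lit 192713327),Int.negSucc (nat_lit 84445263),Int.ofNat (nat_lit 200848072),Int.negSucc (nat_lit 48500464),Int.ofNat (nat_lit 103460256),Int.negSucc (nat_lit 65732605),Int.ofNat (nat_lit 80228211),Int.ofNat (nat_lit 50476728),Int.ofNat (nat_lit 297424600),Int.negSucc (nat_lit 110958570),Int.negSucc (nat_lit 5065259),Int.ofNat (nat_lit 171756810),Int.negSucc (nat_lit 48957391),Int.negSucc (nat_lit 84184935),Int.ofNat (nat_lit 37983392),Int.ofNat (nat_lit 447992618),Int.negSucc (nat_lit 17176992),Int.ofNat (nat_lit 72832427),Int.ofNat (nat_lit 84793661),Int.negSucc (nat_lit 96485645),Int.negSucc (nat_lit 151009467),Int.negSucc (nat_lit 160176117),Int.ofNat (nat_lit 114562999),Int.ofNat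 (nat_lit 51693758),Int.negSucc (nat_lit 165162635),Int.negSucc (nat_lit 95381996),Int.negSucc (nat_lit 87606105),Int.negSucc (nat_lit 158277326),Int.negSucc (nat_lit 17397483),Int.ofNat (nat_lit 377548534),Int.negSucc (nat_lit 138325322),Int.ofNat (nat_lit 270570922),Int.ofNat (nat_lit 116860038),Int.negSucc (nat_lit 51008808),Int.ofNat (nat_lit 221629683),Int.ofNat (nat_lit 162011888),Int.negSucc (nat_lit 16520498),Int.ofNat (nat_lit 17488743),Int.negSucc (nat_lit 80819156),Int.negSucc (nat_lit 64821040),Int.ofNat (nat_lit 107387191),Int.negSucc (nat_lit 56633081),Int.ofNat (nat_lit 65597885),Int.ofNat (nat_lit 40380821),Int.ofNat (nat_lit 142153970),Int.ofNat (nat_lit 15043311),Int.ofNat (nat_lit 135380082),Int.negSucc (nat_lit 6942842),Int.ofNat (nat_lit 161896586),Int.ofNat (nat_lit 30075618),Int.negSucc (nat_lit 61230612),Int.ofNat (nat_lit 78363394),Int.negSucc (nat_lit 70308812),Int.negSucc (nat_lit 112235059),Int.ofNat (nat_lit 29979922),Int.negSucc (nat_lit 83335558),Int.negSucc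 (nat_lit 51281648),Int.negSucc (nat_lit 7219510),Int.ofNat (nat_lit 31250800),Int.ofNat (nat_lit 83987334),Int.ofNat (nat_lit 226640477),Int.ofNat (nat_lit 30730325),Int.negSucc (nat_lit 178140881),Int.ofNat (nat_lit 45792965),Int.negSucc (nat_lit 223434824),Int.ofNat (nat_lit 32163777),Int.ofNat (nat_lit 94634300),Int.ofNat (nat_lit 57784604),Int.negSucc (nat_lit 23209628),Int.ofNat (nat_lit 31578693),Int.negSucc (nat_lit 62729411),Int.negSucc (nat_lit 43182047),Int.negSucc (nat_lit 60277044),Int.ofNat (nat_lit 4640997),Int.negSucc (nat_lit 120723694),Int.ofNat (nat_lit 137091844),Int.negSucc (nat_lit 52184581),Int.negSucc (nat_lit 11671172),Int.negSucc (nat_lit 60296060),Int.ofNat (nat_lit 23820917),Int.ofNat (nat_lit 39409162),Int.negSucc (nat_lit 41788972),Int.negSucc (nat_lit 33840531),Int.negSucc (nat_lit 102288575),Int.ofNat (nat_lit 143471865),Int.ofNat (nat_lit 126822810),Int.negSucc (nat_lit 68904416),Int.ofNat (nat_lit 157998661),Int.ofNat (nat_lit 143321848),Int.ofNat (nat_lit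 69687830),Int.ofNat (nat_lit 67413236),Int.ofNat (nat_lit 49721430),Int.ofNat (nat_lit 81002333),Int.negSucc (nat_lit 114018118),Int.negSucc (nat_lit 41807910),Int.ofNat (nat_lit 69986478),Int.ofNat (nat_lit 33256076),Int.ofNat (nat_lit 166055388),Int.negSucc (nat_lit 13278592),Int.negSucc (nat_lit 47071976),Int.ofNat (nat_lit 87848000),Int.negSucc (nat_lit 44317666),Int.negSucc (nat_lit 180297720),Int.ofNat (nat_lit 93948803),Int.negSucc (nat_lit 4785290),Int.ofNat (nat_lit 20168217),Int.ofNat (nat_lit 135208001),Int.ofNat (nat_lit 54835819),Int.negSucc (nat_lit 120339847),Int.negSucc (nat_lit 78128321),Int.ofNat (nat_lit 41536220),Int.negSucc (nat_lit 84978568),Int.ofNat (nat_lit 24127445),Int.ofNat (nat_lit 151047815),Int.negSucc (nat_lit 207992453),Int.ofNat (nat_lit 45090011),Int.negSucc (nat_lit 36129920),Int.negSucc (nat_lit 100011594),Int.ofNat (nat_lit 102402813),Int.negSucc (nat_lit 126943353),Int.negSucc (nat_lit 46919257),Int.negSucc (nat_lit 145355254),Int.negSucc (nat_lit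 60861830),Int.negSucc (nat_lit 106785683),Int.negSucc (nat_lit 45252039),Int.ofNat (nat_lit 12843367),Int.negSucc (nat_lit 8740514),Int.negSucc (nat_lit 36579282),Int.negSucc (nat_lit 38103565),Int.negSucc (nat_lit 45319730),Int.negSucc (nat_lit 19835368),Int.ofNat (nat_lit 42886744),Int.negSucc (nat_lit 45455035),Int.ofNat (nat_lit 117332089),Int.ofNat (nat_lit 208602881),Int.ofNat (nat_lit 84277136),Int.negSucc (nat_lit 81189964),Int.negSucc (nat_lit 75997860),Int.negSucc (nat_lit 113752334),Int.ofNat (nat_lit 91092956),Int.ofNat (nat_lit 118246804),Int.ofNat (nat_lit 176072645),Int.ofNat (nat_lit 231671015),Int.negSucc (nat_lit 27945809),Int.ofNat (nat_lit 5620750),Int.ofNat (nat_lit 406395451),Int.ofNat (nat_lit 72080468),Int.negSucc (nat_lit 46472735),Int.negSucc (nat_lit 111969078),Int.ofNat (nat_lit 1278530522),Int.ofNat (nat_lit 484989119),Int.negSucc (nat_lit 1340899613),Int.negSucc (nat_lit 1012854123),Int.negSucc (nat_lit 1704193813),Int.negSucc (nat_lit 17514859),Int.negSucc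 (nat_lit 215503136),Int.negSucc (nat_lit 49532831),Int.negSucc (nat_lit 55263720),Int.ofNat (nat_lit 859328305)])

/-- A row. -/
noncomputable def sr7_c4_14 : List ℕ × List ℤ :=
  ([(nat_lit 2),(nat_lit 0),(nat_lit 0),(nat_lit 1),(nat_lit 0),(nat_lit 0),(nat_lit 0),(nat_lit 0),(nat_lit 0),(nat_lit 0),(nat_lit 0),(nat_lit 0)], [Int.ofNat (nat_lit 1447729583),Int.negSucc (nat_lit 326463196),Int.ofNat (nat_lit 565557810),Int.ofNat (nat_lit 766892989),Int.negSucc (nat_lit 261296453),Int.negSucc (nat_lit 648439650),Int.ofNat (nat_lit 92533452),Int.negSucc (nat_lit 435561741),Int.negSucc (nat_lit 195885665),Int.negSucc (nat_lit 400367565),Int.ofNat (nat_lit 281058751),Int.ofNat (nat_lit 501418315),Int.ofNat (nat_lit 28254608),Int.ofNat (nat_lit 291510091),Int.negSucc (nat_lit 677167990),Int.ofNat (nat_lit 171457820),Int.ofNat (nat_lit 89725199),Int.ofNat (nat_lit 355916159),Int.negSucc (nat_lit 2142228),Int.negSucc (nat_lit 129535997),Int.negSucc (nat_lit 67356930),Int.negSucc (nat_lit 116361955),Int.negSucc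 (nat_lit 137394356),Int.negSucc (nat_lit 275197586),Int.ofNat (nat_lit 79474461),Int.negSucc (nat_lit 37363258),Int.ofNat (nat_lit 178436500),Int.ofNat (nat_lit 327624595),Int.negSucc (nat_lit 63485238),Int.ofNat (nat_lit 7353454),Int.ofNat (nat_lit 104236163),Int.negSucc (nat_lit 173681114),Int.ofNat (nat_lit 579820240),Int.ofNat (nat_lit 134532652),Int.negSucc (nat_lit 89351264),Int.negSucc (nat_lit 122103048),Int.ofNat (nat_lit 153123098),Int.ofNat (nat_lit 39857088),Int.negSucc (nat_lit 120886959),Int.negSucc (nat_lit 290966144),Int.ofNat (nat_lit 98395238),Int.ofNat (nat_lit 27047162),Int.ofNat (nat_lit 28354306),Int.ofNat (nat_lit 182395262),Int.negSucc (nat_lit 3772569),Int.negSucc (nat_lit 32550956),Int.ofNat (nat_lit 4856100),Int.negSucc (nat_lit 25509197),Int.ofNat (nat_lit 53219836),Int.negSucc (nat_lit 309087439),Int.negSucc (nat_lit 255000824),Int.ofNat (nat_lit 26640177),Int.ofNat (nat_lit 14050063),Int.ofNat (nat_lit 12222264),Int.negSucc (nat_lit 220520232),Int.negSucc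 (nat_lit 101620074),Int.ofNat (nat_lit 49507915),Int.ofNat (nat_lit 10118385),Int.ofNat (nat_lit 74251931),Int.negSucc (nat_lit 215383187),Int.ofNat (nat_lit 132123482),Int.ofNat (nat_lit 135596254),Int.negSucc (nat_lit 15552668),Int.negSucc (nat_lit 20240497),Int.negSucc (nat_lit 102812972),Int.negSucc (nat_lit 171544321),Int.ofNat (nat_lit 17911366),Int.ofNat (nat_lit 96008478),Int.negSucc (nat_lit 8341952),Int.ofNat (nat_lit 50782810),Int.ofNat (nat_lit 106098644),Int.negSucc (nat_lit 76088978),Int.ofNat (nat_lit 26309332),Int.ofNat (nat_lit 26088989),Int.ofNat (nat_lit 18548174),Int.negSucc (nat_lit 35566393),Int.ofNat (nat_lit 77052955),Int.negSucc (nat_lit 37317503),Int.ofNat (nat_lit 58121230),Int.negSucc (nat_lit 25998502),Int.negSucc (nat_lit 6464384),Int.ofNat (nat_lit 75654005),Int.ofNat (nat_lit 25826424),Int.negSucc (nat_lit 20521491),Int.ofNat (nat_lit 19061136),Int.ofNat (nat_lit 1393891),Int.negSucc (nat_lit 29673739),Int.negSucc (nat_lit 14811292),Int.ofNat (nat_lit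 63044239),Int.negSucc (nat_lit 111956),Int.negSucc (nat_lit 14555108),Int.ofNat (nat_lit 1639127),Int.ofNat (nat_lit 8420362),Int.ofNat (nat_lit 4411955),Int.ofNat (nat_lit 15374898),Int.negSucc (nat_lit 18201126),Int.negSucc (nat_lit 58841698),Int.ofNat (nat_lit 54638883),Int.negSucc (nat_lit 39126346),Int.ofNat (nat_lit 12936230),Int.negSucc (nat_lit 9746171),Int.negSucc (nat_lit 30498410),Int.ofNat (nat_lit 988836),Int.negSucc (nat_lit 10315513),Int.negSucc (nat_lit 38327794),Int.negSucc (nat_lit 35934371),Int.negSucc (nat_lit 13414975),Int.negSucc (nat_lit 1024443),Int.ofNat (nat_lit 9449593),Int.negSucc (nat_lit 4019974),Int.negSucc (nat_lit 25647242),Int.negSucc (nat_lit 21993252),Int.ofNat (nat_lit 49618310),Int.ofNat (nat_lit 25463988),Int.negSucc (nat_lit 35114136),Int.negSucc (nat_lit 55357512),Int.negSucc (nat_lit 18834738),Int.ofNat (nat_lit 7493851),Int.negSucc (nat_lit 15587666),Int.ofNat (nat_lit 31443220),Int.ofNat (nat_lit 7168668),Int.negSucc (nat_lit 18152089),Int.ofNat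 (nat_lit 2182735),Int.ofNat (nat_lit 12280746),Int.ofNat (nat_lit 80586903),Int.negSucc (nat_lit 12595643),Int.ofNat (nat_lit 79281980),Int.ofNat (nat_lit 73520003),Int.ofNat (nat_lit 2177886),Int.ofNat (nat_lit 19593904),Int.negSucc (nat_lit 42203856),Int.ofNat (nat_lit 40229761),Int.negSucc (nat_lit 20090677),Int.ofNat (nat_lit 45446844),Int.negSucc (nat_lit 40086918),Int.negSucc (nat_lit 51773833),Int.ofNat (nat_lit 48347990),Int.ofNat (nat_lit 81060488),Int.ofNat (nat_lit 76764553),Int.negSucc (nat_lit 14362666),Int.negSucc (nat_lit 67088065),Int.negSucc (nat_lit 87252692),Int.negSucc (nat_lit 10123293),Int.negSucc (nat_lit 39420640),Int.negSucc (nat_lit 15274291),Int.negSucc (nat_lit 14839321),Int.negSucc (nat_lit 40175708),Int.negSucc (nat_lit 58911310),Int.ofNat (nat_lit 29481102),Int.negSucc (nat_lit 1413158),Int.negSucc (nat_lit 42026172),Int.negSucc (nat_lit 10784275),Int.negSucc (nat_lit 27785384),Int.negSucc (nat_lit 25302947),Int.negSucc (nat_lit 29962309),Int.negSucc (nat_lit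 9497265),Int.ofNat (nat_lit 4304571),Int.ofNat (nat_lit 21990100),Int.ofNat (nat_lit 1358743),Int.negSucc (nat_lit 40504715),Int.ofNat (nat_lit 77919856),Int.ofNat (nat_lit 38738),Int.ofNat (nat_lit 16078094),Int.negSucc (nat_lit 15298688),Int.ofNat (nat_lit 13525349),Int.negSucc (nat_lit 6691491),Int.negSucc (nat_lit 32971594),Int.ofNat (nat_lit 37666433),Int.negSucc (nat_lit 14799764),Int.negSucc (nat_lit 22985329),Int.ofNat (nat_lit 63917445),Int.negSucc (nat_lit 9041548),Int.ofNat (nat_lit 12229189),Int.negSucc (nat_lit 46262421),Int.ofNat (nat_lit 33431558),Int.negSucc (nat_lit 2135940),Int.negSucc (nat_lit 62647286),Int.negSucc (nat_lit 42347828),Int.negSucc (nat_lit 3348094),Int.ofNat (nat_lit 32570793),Int.negSucc (nat_lit 45718137),Int.negSucc (nat_lit 7173894),Int.ofNat (nat_lit 17024050),Int.negSucc (nat_lit 30139188),Int.negSucc (nat_lit 16830392),Int.ofNat (nat_lit 37888872),Int.negSucc (nat_lit 29016174),Int.ofNat (nat_lit 13539250),Int.negSucc (nat_lit 15193799),Int.negSucc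 (nat_lit 25667409),Int.ofNat (nat_lit 34942959),Int.ofNat (nat_lit 27812594),Int.ofNat (nat_lit 57050127),Int.negSucc (nat_lit 5571851),Int.negSucc (nat_lit 3936755),Int.negSucc (nat_lit 5431704),Int.ofNat (nat_lit 16772431),Int.ofNat (nat_lit 3787196),Int.ofNat (nat_lit 3536228),Int.negSucc (nat_lit 35922340),Int.ofNat (nat_lit 13409317),Int.ofNat (nat_lit 10390643),Int.negSucc (nat_lit 3408628),Int.ofNat (nat_lit 30782375),Int.negSucc (nat_lit 24606825),Int.negSucc (nat_lit 25083841),Int.ofNat (nat_lit 18342473),Int.ofNat (nat_lit 23736355),Int.ofNat (nat_lit 15522496),Int.negSucc (nat_lit 1816704),Int.ofNat (nat_lit 5133368),Int.ofNat (nat_lit 20264252),Int.ofNat (nat_lit 1827743),Int.negSucc (nat_lit 130522134),Int.ofNat (nat_lit 200512553),Int.ofNat (nat_lit 455584482),Int.negSucc (nat_lit 364793449),Int.negSucc (nat_lit 2651239),Int.ofNat (nat_lit 62419968),Int.negSucc (nat_lit 21257),Int.ofNat (nat_lit 84102071),Int.negSucc (nat_lit 42041816),Int.negSucc (nat_lit 41981053),Int.negSucc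 (nat_lit 273703379),Int.negSucc (nat_lit 10943192),Int.negSucc (nat_lit 6138611),Int.negSucc (nat_lit 5494252),Int.ofNat (nat_lit 49902122)])

/-- A row. -/
noncomputable def sr7_c4_15 : List ℕ × List ℤ :=
  ([(nat_lit 2),(nat_lit 1),(nat_lit 0),(nat_lit 0),(nat_lit 0),(nat_lit 0),(nat_lit 0),(nat_lit 0),(nat_lit 0),(nat_lit 0),(nat_lit 0),(nat_lit 0)], [Int.ofNat (nat_lit 755260370),Int.negSucc (nat_lit 488511358),Int.ofNat (nat_lit 1560906339),Int.negSucc (nat_lit 616971264),Int.negSucc (nat_lit 344168099),Int.ofNat (nat_lit 129073067),Int.ofNat (nat_lit 559639941),Int.ofNat (nat_lit 690351908),Int.ofNat (nat_lit 238421339),Int.negSucc (nat_lit 309204858),Int.ofNat (nat_lit 113357582),Int.negSucc (nat_lit 175192658),Int.ofNat (nat_lit 396353531),Int.ofNat (nat_lit 205581033),Int.negSucc (nat_lit 291153216),Int.ofNat (nat_lit 30717839),Int.negSucc (nat_lit 272159420),Int.ofNat (nat_lit 87698334),Int.ofNat (nat_lit 475143093),Int.ofNat (nat_lit 47413713),Int.ofNat (nat_lit 34942366),Int.ofNat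 (nat_lit 288960270),Int.ofNat (nat_lit 250023183),Int.negSucc (nat_lit 13912020),Int.ofNat (nat_lit 380252849),Int.negSucc (nat_lit 341449610),Int.negSucc (nat_lit 27642541),Int.negSucc (nat_lit 62746436),Int.ofNat (nat_lit 49091406),Int.negSucc (nat_lit 234494751),Int.negSucc (nat_lit 62134277),Int.ofNat (nat_lit 262214470),Int.ofNat (nat_lit 377536095),Int.negSucc (nat_lit 45989300),Int.ofNat (nat_lit 12571867),Int.ofNat (nat_lit 11349699),Int.negSucc (nat_lit 65528397),Int.ofNat (nat_lit 294493864),Int.ofNat (nat_lit 64105186),Int.negSucc (nat_lit 213654492),Int.negSucc (nat_lit 246510914),Int.ofNat (nat_lit 87238046),Int.negSucc (nat_lit 329505472),Int.ofNat (nat_lit 57202682),Int.negSucc (nat_lit 343944546),Int.ofNat (nat_lit 149028986),Int.negSucc (nat_lit 32138650),Int.negSucc (nat_lit 211760032),Int.ofNat (nat_lit 4088291),Int.negSucc (nat_lit 198896203),Int.negSucc (nat_lit 385932995),Int.ofNat (nat_lit 143532142),Int.negSucc (nat_lit 566473521),Int.negSucc (nat_lit 325879554),Int.ofNat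 (nat_lit 249290314),Int.ofNat (nat_lit 194171264),Int.ofNat (nat_lit 111883171),Int.negSucc (nat_lit 374341995),Int.ofNat (nat_lit 221421060),Int.negSucc (nat_lit 132484023),Int.negSucc (nat_lit 47745705),Int.negSucc (nat_lit 152246928),Int.negSucc (nat_lit 139693740),Int.ofNat (nat_lit 193924757),Int.ofNat (nat_lit 5395351),Int.ofNat (nat_lit 183241507),Int.ofNat (nat_lit 164435898),Int.ofNat (nat_lit 44516110),Int.negSucc (nat_lit 192543921),Int.ofNat (nat_lit 279998373),Int.ofNat (nat_lit 111966801),Int.negSucc (nat_lit 153441755),Int.ofNat (nat_lit 22452310),Int.ofNat (nat_lit 49395824),Int.negSucc (nat_lit 12906984),Int.negSucc (nat_lit 27685285),Int.ofNat (nat_lit 379703967),Int.negSucc (nat_lit 186618704),Int.ofNat (nat_lit 17386930),Int.negSucc (nat_lit 127115370),Int.negSucc (nat_lit 232959622),Int.ofNat (nat_lit 230707056),Int.ofNat (nat_lit 15864005),Int.negSucc (nat_lit 200999379),Int.negSucc (nat_lit 169859164),Int.negSucc (nat_lit 70516354),Int.negSucc (nat_lit 160536425),Int.ofNat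 (nat_lit 14575062),Int.ofNat (nat_lit 189644024),Int.negSucc (nat_lit 92684934),Int.ofNat (nat_lit 293946901),Int.negSucc (nat_lit 94230144),Int.ofNat (nat_lit 4665682),Int.ofNat (nat_lit 225543546),Int.negSucc (nat_lit 108185811),Int.negSucc (nat_lit 114701083),Int.negSucc (nat_lit 218347570),Int.ofNat (nat_lit 29865437),Int.negSucc (nat_lit 85341595),Int.ofNat (nat_lit 76794968),Int.ofNat (nat_lit 218549939),Int.negSucc (nat_lit 112598988),Int.ofNat (nat_lit 121753020),Int.ofNat (nat_lit 56118883),Int.negSucc (nat_lit 44136206),Int.negSucc (nat_lit 113705585),Int.negSucc (nat_lit 137755676),Int.negSucc (nat_lit 80005143),Int.ofNat (nat_lit 113968735),Int.ofNat (nat_lit 31229600),Int.ofNat (nat_lit 203828440),Int.negSucc (nat_lit 37230889),Int.ofNat (nat_lit 32717391),Int.ofNat (nat_lit 121740216),Int.negSucc (nat_lit 110203339),Int.negSucc (nat_lit 104532697),Int.ofNat (nat_lit 11627139),Int.ofNat (nat_lit 58567028),Int.ofNat (nat_lit 153135309),Int.ofNat (nat_lit 193261489),Int.negSucc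 (nat_lit 93010193),Int.ofNat (nat_lit 115547830),Int.ofNat (nat_lit 236153),Int.ofNat (nat_lit 39692960),Int.ofNat (nat_lit 68902085),Int.negSucc (nat_lit 24360360),Int.ofNat (nat_lit 100260602),Int.ofNat (nat_lit 9551696),Int.ofNat (nat_lit 139073586),Int.ofNat (nat_lit 42970189),Int.negSucc (nat_lit 17856401),Int.negSucc (nat_lit 1079129),Int.negSucc (nat_lit 19073984),Int.ofNat (nat_lit 67829979),Int.ofNat (nat_lit 72524908),Int.ofNat (nat_lit 53966779),Int.negSucc (nat_lit 9516288),Int.negSucc (nat_lit 25976709),Int.negSucc (nat_lit 65726680),Int.ofNat (nat_lit 23999290),Int.negSucc (nat_lit 136767654),Int.negSucc (nat_lit 182952958),Int.negSucc (nat_lit 131351097),Int.negSucc (nat_lit 10158994),Int.negSucc (nat_lit 42822922),Int.negSucc (nat_lit 40574803),Int.negSucc (nat_lit 56038602),Int.negSucc (nat_lit 12539259),Int.negSucc (nat_lit 110294361),Int.ofNat (nat_lit 37065441),Int.negSucc (nat_lit 177968021),Int.negSucc (nat_lit 94688191),Int.negSucc (nat_lit 87335785),Int.ofNat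 (nat_lit 20464153),Int.negSucc (nat_lit 46773971),Int.negSucc (nat_lit 126081205),Int.ofNat (nat_lit 129475964),Int.ofNat (nat_lit 230593473),Int.ofNat (nat_lit 25168459),Int.ofNat (nat_lit 121819783),Int.ofNat (nat_lit 155411004),Int.ofNat (nat_lit 79508159),Int.negSucc (nat_lit 20168758),Int.negSucc (nat_lit 13653708),Int.ofNat (nat_lit 69085749),Int.ofNat (nat_lit 120313181),Int.ofNat (nat_lit 109067123),Int.ofNat (nat_lit 31509141),Int.negSucc (nat_lit 7680585),Int.ofNat (nat_lit 31371666),Int.negSucc (nat_lit 66075368),Int.negSucc (nat_lit 160140),Int.negSucc (nat_lit 145943396),Int.ofNat (nat_lit 81048932),Int.ofNat (nat_lit 234685376),Int.ofNat (nat_lit 138691770),Int.ofNat (nat_lit 43153813),Int.negSucc (nat_lit 219509449),Int.negSucc (nat_lit 74055190),Int.negSucc (nat_lit 45692189),Int.negSucc (nat_lit 186248702),Int.ofNat (nat_lit 94915884),Int.negSucc (nat_lit 36959651),Int.negSucc (nat_lit 64794084),Int.ofNat (nat_lit 93719412),Int.ofNat (nat_lit 441695930),Int.negSucc (nat_lit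 57980338),Int.negSucc (nat_lit 58052714),Int.negSucc (nat_lit 65625333),Int.ofNat (nat_lit 156402928),Int.ofNat (nat_lit 211791336),Int.ofNat (nat_lit 31417366),Int.ofNat (nat_lit 73896570),Int.ofNat (nat_lit 28945939),Int.ofNat (nat_lit 10912619),Int.ofNat (nat_lit 94900582),Int.ofNat (nat_lit 190258641),Int.ofNat (nat_lit 22489124),Int.negSucc (nat_lit 74010014),Int.negSucc (nat_lit 110872504),Int.ofNat (nat_lit 58584939),Int.ofNat (nat_lit 62862550),Int.ofNat (nat_lit 123067754),Int.ofNat (nat_lit 15747451),Int.negSucc (nat_lit 21282113),Int.negSucc (nat_lit 84123813),Int.ofNat (nat_lit 46124059),Int.ofNat (nat_lit 48738118),Int.ofNat (nat_lit 93454380),Int.ofNat (nat_lit 47446771),Int.ofNat (nat_lit 84836533),Int.ofNat (nat_lit 27993102),Int.ofNat (nat_lit 32783854),Int.negSucc (nat_lit 580611666),Int.negSucc (nat_lit 288618968),Int.ofNat (nat_lit 799845214),Int.negSucc (nat_lit 306423280),Int.ofNat (nat_lit 918569468),Int.ofNat (nat_lit 494182683),Int.negSucc (nat_lit 1383571290),Int.ofNat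 (nat_lit 124853887),Int.ofNat (nat_lit 640597124),Int.ofNat (nat_lit 733218893),Int.negSucc (nat_lit 818072439),Int.negSucc (nat_lit 1628185918),Int.ofNat (nat_lit 270849835),Int.negSucc (nat_lit 277799374),Int.ofNat (nat_lit 136924153),Int.ofNat (nat_lit 211379040)])

/-- A row. -/
noncomputable def sr7_c4_16 : List ℕ × List ℤ :=
  ([(nat_lit 3),(nat_lit 1),(nat_lit 0),(nat_lit 0),(nat_lit 0),(nat_lit 0),(nat_lit 0),(nat_lit 0),(nat_lit 0),(nat_lit 0),(nat_lit 0),(nat_lit 0)], [Int.negSucc (nat_lit 224437514),Int.ofNat (nat_lit 151055760),Int.negSucc (nat_lit 2224253801),Int.negSucc (nat_lit 222486116),Int.negSucc (nat_lit 1261479088),Int.negSucc (nat_lit 804618190),Int.ofNat (nat_lit 124756353),Int.ofNat (nat_lit 2179957200),Int.negSucc (nat_lit 834856747),Int.ofNat (nat_lit 8119330),Int.negSucc (nat_lit 749077575),Int.negSucc (nat_lit 777491216),Int.negSucc (nat_lit 572100179),Int.negSucc (nat_lit 1662897199),Int.ofNat (nat_lit 1076311193),Int.ofNat (nat_lit 479892191),Int.negSucc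 (nat_lit 167999462),Int.negSucc (nat_lit 600724068),Int.negSucc (nat_lit 267604432),Int.ofNat (nat_lit 79162511),Int.negSucc (nat_lit 127596863),Int.negSucc (nat_lit 257752811),Int.negSucc (nat_lit 46524270),Int.ofNat (nat_lit 543763180),Int.ofNat (nat_lit 7784802),Int.ofNat (nat_lit 116121806),Int.negSucc (nat_lit 654878920),Int.ofNat (nat_lit 16293665),Int.ofNat (nat_lit 37730499),Int.ofNat (nat_lit 84560626),Int.ofNat (nat_lit 54829389),Int.negSucc (nat_lit 394252772),Int.negSucc (nat_lit 682958329),Int.ofNat (nat_lit 355126740),Int.negSucc (nat_lit 185800660),Int.ofNat (nat_lit 147171525),Int.ofNat (nat_lit 23203672),Int.negSucc (nat_lit 202997370),Int.negSucc (nat_lit 171461125),Int.ofNat (nat_lit 454398841),Int.ofNat (nat_lit 435596909),Int.ofNat (nat_lit 189346729),Int.ofNat (nat_lit 504912965),Int.ofNat (nat_lit 95851530),Int.ofNat (nat_lit 156761881),Int.ofNat (nat_lit 276078743),Int.negSucc (nat_lit 94821999),Int.ofNat (nat_lit 242087135),Int.ofNat (nat_lit 69910076),Int.ofNat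 (nat_lit 41023580),Int.ofNat (nat_lit 743522277),Int.ofNat (nat_lit 200029021),Int.ofNat (nat_lit 955815451),Int.ofNat (nat_lit 313712879),Int.negSucc (nat_lit 539482455),Int.ofNat (nat_lit 13731772),Int.negSucc (nat_lit 133147900),Int.ofNat (nat_lit 55669162),Int.ofNat (nat_lit 21439084),Int.ofNat (nat_lit 327354158),Int.ofNat (nat_lit 49702974),Int.ofNat (nat_lit 286302184),Int.ofNat (nat_lit 71211324),Int.ofNat (nat_lit 255373219),Int.negSucc (nat_lit 382847250),Int.ofNat (nat_lit 288815629),Int.negSucc (nat_lit 16656636),Int.ofNat (nat_lit 3643073),Int.negSucc (nat_lit 34700386),Int.negSucc (nat_lit 296282172),Int.negSucc (nat_lit 203579577),Int.ofNat (nat_lit 270542791),Int.negSucc (nat_lit 62930625),Int.negSucc (nat_lit 76525787),Int.ofNat (nat_lit 41468459),Int.ofNat (nat_lit 92462442),Int.negSucc (nat_lit 161257180),Int.ofNat (nat_lit 85190792),Int.negSucc (nat_lit 160094160),Int.ofNat (nat_lit 183926275),Int.ofNat (nat_lit 71619234),Int.negSucc (nat_lit 100479556),Int.negSucc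 (nat_lit 110938981),Int.ofNat (nat_lit 131161377),Int.negSucc (nat_lit 153099098),Int.ofNat (nat_lit 137067490),Int.ofNat (nat_lit 267833458),Int.negSucc (nat_lit 32115687),Int.negSucc (nat_lit 63972933),Int.ofNat (nat_lit 26320873),Int.negSucc (nat_lit 120858178),Int.ofNat (nat_lit 115526976),Int.ofNat (nat_lit 89138199),Int.ofNat (nat_lit 11894686),Int.ofNat (nat_lit 122283271),Int.ofNat (nat_lit 32016564),Int.ofNat (nat_lit 225491665),Int.negSucc (nat_lit 96391550),Int.ofNat (nat_lit 160924947),Int.ofNat (nat_lit 2981778),Int.ofNat (nat_lit 14045527),Int.ofNat (nat_lit 509405),Int.negSucc (nat_lit 8064629),Int.negSucc (nat_lit 117152898),Int.negSucc (nat_lit 58352031),Int.ofNat (nat_lit 240933420),Int.ofNat (nat_lit 167718063),Int.negSucc (nat_lit 38779063),Int.ofNat (nat_lit 11015994),Int.ofNat (nat_lit 30271301),Int.negSucc (nat_lit 8534514),Int.ofNat (nat_lit 151818331),Int.ofNat (nat_lit 29902607),Int.negSucc (nat_lit 100994545),Int.ofNat (nat_lit 89644001),Int.ofNat (nat_lit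 151599339),Int.negSucc (nat_lit 39834238),Int.negSucc (nat_lit 49417376),Int.ofNat (nat_lit 28330989),Int.negSucc (nat_lit 22841756),Int.ofNat (nat_lit 130896111),Int.negSucc (nat_lit 144701301),Int.negSucc (nat_lit 77647688),Int.negSucc (nat_lit 2568965),Int.negSucc (nat_lit 73032409),Int.negSucc (nat_lit 45465169),Int.negSucc (nat_lit 81706982),Int.negSucc (nat_lit 242108393),Int.negSucc (nat_lit 113885253),Int.ofNat (nat_lit 77007196),Int.ofNat (nat_lit 90674368),Int.negSucc (nat_lit 24721163),Int.ofNat (nat_lit 11724632),Int.negSucc (nat_lit 250500486),Int.ofNat (nat_lit 29217771),Int.negSucc (nat_lit 22614664),Int.ofNat (nat_lit 155914613),Int.ofNat (nat_lit 106129486),Int.ofNat (nat_lit 110071619),Int.negSucc (nat_lit 15406973),Int.ofNat (nat_lit 142381117),Int.ofNat (nat_lit 115952128),Int.negSucc (nat_lit 23327625),Int.ofNat (nat_lit 149562076),Int.ofNat (nat_lit 25029639),Int.negSucc (nat_lit 64039789),Int.ofNat (nat_lit 87827416),Int.ofNat (nat_lit 177556732),Int.ofNat (nat_lit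 22607220),Int.negSucc (nat_lit 4248099),Int.ofNat (nat_lit 126096925),Int.ofNat (nat_lit 35820279),Int.ofNat (nat_lit 111890379),Int.negSucc (nat_lit 133772791),Int.ofNat (nat_lit 125185116),Int.ofNat (nat_lit 125199053),Int.negSucc (nat_lit 85122007),Int.negSucc (nat_lit 127044226),Int.ofNat (nat_lit 94800855),Int.negSucc (nat_lit 97208571),Int.negSucc (nat_lit 220730032),Int.negSucc (nat_lit 163701460),Int.negSucc (nat_lit 99861966),Int.ofNat (nat_lit 43148332),Int.negSucc (nat_lit 45428095),Int.negSucc (nat_lit 117160091),Int.negSucc (nat_lit 3944594),Int.negSucc (nat_lit 204631472),Int.negSucc (nat_lit 178670215),Int.negSucc (nat_lit 55636247),Int.negSucc (nat_lit 159736170),Int.ofNat (nat_lit 142090941),Int.ofNat (nat_lit 170049249),Int.negSucc (nat_lit 132377859),Int.negSucc (nat_lit 141832420),Int.negSucc (nat_lit 5908543),Int.ofNat (nat_lit 129848404),Int.ofNat (nat_lit 186459516),Int.negSucc (nat_lit 87795833),Int.negSucc (nat_lit 12116179),Int.ofNat (nat_lit 124214610),Int.negSucc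 (nat_lit 20458643),Int.ofNat (nat_lit 10384235),Int.negSucc (nat_lit 21448802),Int.ofNat (nat_lit 25328346),Int.negSucc (nat_lit 263671373),Int.ofNat (nat_lit 3729221),Int.negSucc (nat_lit 68208072),Int.ofNat (nat_lit 5907633),Int.negSucc (nat_lit 81224915),Int.negSucc (nat_lit 200517838),Int.negSucc (nat_lit 24487352),Int.negSucc (nat_lit 106093502),Int.negSucc (nat_lit 9577470),Int.negSucc (nat_lit 39171292),Int.ofNat (nat_lit 50790469),Int.negSucc (nat_lit 92015631),Int.negSucc (nat_lit 60074294),Int.ofNat (nat_lit 49773830),Int.negSucc (nat_lit 19634742),Int.negSucc (nat_lit 128546038),Int.negSucc (nat_lit 1197444),Int.negSucc (nat_lit 52465848),Int.negSucc (nat_lit 109640658),Int.ofNat (nat_lit 50382822),Int.ofNat (nat_lit 17976641),Int.negSucc (nat_lit 130440259),Int.negSucc (nat_lit 118664275),Int.negSucc (nat_lit 181730903),Int.negSucc (nat_lit 28275366),Int.ofNat (nat_lit 47293765),Int.negSucc (nat_lit 34726179),Int.ofNat (nat_lit 18931414),Int.ofNat (nat_lit 283930881),Int.negSucc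 (nat_lit 372651758),Int.negSucc (nat_lit 402885753),Int.ofNat (nat_lit 1061520190),Int.ofNat (nat_lit 374865657),Int.negSucc (nat_lit 166820512),Int.ofNat (nat_lit 1101190565),Int.negSucc (nat_lit 171038171),Int.negSucc (nat_lit 272950884),Int.negSucc (nat_lit 288075917),Int.ofNat (nat_lit 1014222761),Int.ofNat (nat_lit 1124295095),Int.negSucc (nat_lit 373419511),Int.ofNat (nat_lit 287808075),Int.negSucc (nat_lit 325848517),Int.negSucc (nat_lit 257827690),Int.ofNat (nat_lit 37065682)])

/-- A part of a triangular factor. -/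
noncomputable def sr7_c4 : Rows :=
  [sr7_c4_0,
   sr7_c4_1,
   sr7_c4_2,
   sr7_c4_3,
   sr7_c4_4,
   sr7_c4_5,
   sr7_c4_6,
   sr7_c4_7,
   sr7_c4_8,
   sr7_c4_9,
   sr7_c4_10,
   sr7_c4_11,
   sr7_c4_12,
   sr7_c4_13,
   sr7_c4_14,
   sr7_c4_15,
   sr7_c4_16]

/-- A row. -/
noncomputable def sr7_c5_0 : List ℕ × List ℤ :=
  ([(nat_lit 0),(nat_lit 0),(nat_lit 0),(nat_lit 0),(nat_lit 0),(nat_lit 0),(nat_lit 0),(nat_lit 0),(nat_lit 0),(nat_lit 0),(nat_lit 0),(nat_lit 0)], [Int.negSucc (nat_lit 300647990),Int.ofNat (nat_lit 130116864),Int.negSucc (nat_lit 95262671),Int.negSucc (nat_lit 174322549),Int.ofNat (nat_lit 36494126),Int.negSucc (nat_lit 130883876),Int.ofNat (nat_lit 166880204),Int.ofNat (nat_lit 89507641),Int.ofNat (nat_lit 25224938),Int.negSucc (nat_lit 24260251),Int.negSucc (nat_lit 133626169),Int.ofNat (nat_lit 9287682),Int.ofNat (nat_lit 57417745),Int.negSucc (nat_lit 126697576),Int.ofNat (nat_lit 114204541),Int.ofNat (nat_lit 38045420),Int.negSucc (nat_lit 54149714),Int.ofNat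 (nat_lit 83678492),Int.ofNat (nat_lit 6641213),Int.ofNat (nat_lit 94358759),Int.ofNat (nat_lit 22779443),Int.negSucc (nat_lit 46276951),Int.negSucc (nat_lit 39313360),Int.ofNat (nat_lit 86537081),Int.ofNat (nat_lit 5608117),Int.negSucc (nat_lit 57247283),Int.negSucc (nat_lit 108517357),Int.negSucc (nat_lit 41213833),Int.ofNat (nat_lit 42223873),Int.negSucc (nat_lit 4167341),Int.negSucc (nat_lit 25056604),Int.ofNat (nat_lit 16857798),Int.ofNat (nat_lit 13577710),Int.negSucc (nat_lit 40567138),Int.negSucc (nat_lit 39822219),Int.ofNat (nat_lit 93985237),Int.negSucc (nat_lit 11071848),Int.ofNat (nat_lit 351318),Int.negSucc (nat_lit 54145922),Int.negSucc (nat_lit 60041064),Int.ofNat (nat_lit 11093102),Int.ofNat (nat_lit 51025325),Int.ofNat (nat_lit 11467952),Int.ofNat (nat_lit 8445005),Int.negSucc (nat_lit 5838267),Int.ofNat (nat_lit 49711145),Int.negSucc (nat_lit 16262766),Int.ofNat (nat_lit 23326112),Int.negSucc (nat_lit 1163700),Int.negSucc (nat_lit 14318334),Int.ofNat (nat_lit 39742533),Int.ofNat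 (nat_lit 11789590),Int.ofNat (nat_lit 35926651),Int.negSucc (nat_lit 27305305),Int.negSucc (nat_lit 16445038),Int.ofNat (nat_lit 1395122),Int.ofNat (nat_lit 45023930),Int.negSucc (nat_lit 39673202),Int.ofNat (nat_lit 13454402),Int.negSucc (nat_lit 23953908),Int.negSucc (nat_lit 13888557),Int.ofNat (nat_lit 5248021),Int.negSucc (nat_lit 10419050),Int.ofNat (nat_lit 12998904),Int.negSucc (nat_lit 23899831),Int.ofNat (nat_lit 7447924),Int.ofNat (nat_lit 61998439),Int.negSucc (nat_lit 38722149),Int.negSucc (nat_lit 10697964),Int.ofNat (nat_lit 15322623),Int.ofNat (nat_lit 7649322),Int.ofNat (nat_lit 24976606),Int.ofNat (nat_lit 31435961),Int.negSucc (nat_lit 30978205),Int.negSucc (nat_lit 4839736),Int.ofNat (nat_lit 16742865),Int.negSucc (nat_lit 61245591),Int.negSucc (nat_lit 10085656),Int.negSucc (nat_lit 82562992),Int.ofNat (nat_lit 27551811),Int.ofNat (nat_lit 12900130),Int.ofNat (nat_lit 2067733),Int.ofNat (nat_lit 3442186),Int.ofNat (nat_lit 1408242),Int.negSucc (nat_lit 25611116),Int.negSucc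 (nat_lit 10466495),Int.negSucc (nat_lit 4544388),Int.ofNat (nat_lit 10050289),Int.ofNat (nat_lit 4351738),Int.ofNat (nat_lit 33245081),Int.negSucc (nat_lit 2136382),Int.ofNat (nat_lit 18043132),Int.ofNat (nat_lit 9270961),Int.ofNat (nat_lit 1582450),Int.negSucc (nat_lit 8854661),Int.negSucc (nat_lit 3580623),Int.negSucc (nat_lit 4588440),Int.ofNat (nat_lit 9309359),Int.negSucc (nat_lit 4179865),Int.ofNat (nat_lit 12596224),Int.ofNat (nat_lit 23177861),Int.ofNat (nat_lit 5249066),Int.ofNat (nat_lit 24143437),Int.ofNat (nat_lit 2875747),Int.negSucc (nat_lit 16909274),Int.negSucc (nat_lit 1847664),Int.ofNat (nat_lit 2184554),Int.negSucc (nat_lit 17837477),Int.ofNat (nat_lit 4171510),Int.ofNat (nat_lit 10575616),Int.negSucc (nat_lit 1548781),Int.negSucc (nat_lit 4656431),Int.ofNat (nat_lit 9051765),Int.ofNat (nat_lit 5868053),Int.ofNat (nat_lit 2829871),Int.ofNat (nat_lit 8117845),Int.negSucc (nat_lit 8664294),Int.ofNat (nat_lit 377877),Int.ofNat (nat_lit 19415700),Int.ofNat (nat_lit 15956457),Int.ofNat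 (nat_lit 659127),Int.ofNat (nat_lit 1857674),Int.negSucc (nat_lit 7660461),Int.ofNat (nat_lit 15535782),Int.negSucc (nat_lit 3062523),Int.negSucc (nat_lit 4233800),Int.ofNat (nat_lit 3078982),Int.negSucc (nat_lit 5089852),Int.ofNat (nat_lit 4933076),Int.ofNat (nat_lit 22287924),Int.negSucc (nat_lit 612446),Int.negSucc (nat_lit 16945105),Int.ofNat (nat_lit 10616182),Int.negSucc (nat_lit 12406536),Int.ofNat (nat_lit 18582870),Int.ofNat (nat_lit 7712256),Int.negSucc (nat_lit 6019478),Int.negSucc (nat_lit 14126037),Int.negSucc (nat_lit 6697348),Int.ofNat (nat_lit 2047192),Int.ofNat (nat_lit 19449284),Int.negSucc (nat_lit 7177330),Int.negSucc (nat_lit 6181663),Int.ofNat (nat_lit 12316044),Int.ofNat (nat_lit 13447019),Int.negSucc (nat_lit 12171680),Int.negSucc (nat_lit 10906791),Int.ofNat (nat_lit 16408069),Int.negSucc (nat_lit 24978225),Int.ofNat (nat_lit 3366574),Int.negSucc (nat_lit 1167013),Int.ofNat (nat_lit 12484452),Int.ofNat (nat_lit 8348053),Int.negSucc (nat_lit 8142437),Int.ofNat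 (nat_lit 4296782),Int.negSucc (nat_lit 9625329),Int.ofNat (nat_lit 6277940),Int.ofNat (nat_lit 14713890),Int.negSucc (nat_lit 1215242),Int.ofNat (nat_lit 20182536),Int.negSucc (nat_lit 8362537),Int.negSucc (nat_lit 2183586),Int.negSucc (nat_lit 14571969),Int.ofNat (nat_lit 9871996),Int.ofNat (nat_lit 2956971),Int.ofNat (nat_lit 7835459),Int.ofNat (nat_lit 3406405),Int.ofNat (nat_lit 1447822),Int.negSucc (nat_lit 1527855),Int.negSucc (nat_lit 6432652),Int.negSucc (nat_lit 6723996),Int.ofNat (nat_lit 9065099),Int.negSucc (nat_lit 4843861),Int.ofNat (nat_lit 522145),Int.ofNat (nat_lit 27200469),Int.ofNat (nat_lit 22430893),Int.ofNat (nat_lit 10933399),Int.ofNat (nat_lit 11146797),Int.negSucc (nat_lit 4916950),Int.negSucc (nat_lit 13903438),Int.negSucc (nat_lit 10079151),Int.ofNat (nat_lit 892680),Int.negSucc (nat_lit 18725250),Int.negSucc (nat_lit 2341268),Int.ofNat (nat_lit 7719510),Int.ofNat (nat_lit 10360716),Int.negSucc (nat_lit 4451194),Int.negSucc (nat_lit 20678570),Int.ofNat (nat_lit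 7190579),Int.ofNat (nat_lit 7548664),Int.negSucc (nat_lit 4104261),Int.negSucc (nat_lit 5003393),Int.ofNat (nat_lit 8731647),Int.ofNat (nat_lit 7928827),Int.negSucc (nat_lit 11668570),Int.ofNat (nat_lit 4961204),Int.ofNat (nat_lit 8787885),Int.negSucc (nat_lit 1308607),Int.negSucc (nat_lit 592860),Int.ofNat (nat_lit 1594094),Int.negSucc (nat_lit 12372818),Int.negSucc (nat_lit 1768195),Int.ofNat (nat_lit 2254461),Int.negSucc (nat_lit 5314223),Int.ofNat (nat_lit 5176812),Int.negSucc (nat_lit 2168735),Int.negSucc (nat_lit 1972113),Int.ofNat (nat_lit 4665756),Int.ofNat (nat_lit 1260636),Int.ofNat (nat_lit 7692310),Int.negSucc (nat_lit 4521633),Int.negSucc (nat_lit 4397038),Int.negSucc (nat_lit 9611971),Int.negSucc (nat_lit 13758363),Int.negSucc (nat_lit 10811243),Int.negSucc (nat_lit 2069169),Int.ofNat (nat_lit 6810041),Int.ofNat (nat_lit 37624353),Int.ofNat (nat_lit 16235618),Int.negSucc (nat_lit 27708884),Int.negSucc (nat_lit 3925147),Int.ofNat (nat_lit 7052648),Int.negSucc (nat_lit 5721479),Int.ofNat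 (nat_lit 7965048),Int.ofNat (nat_lit 22965043),Int.negSucc (nat_lit 1967869),Int.negSucc (nat_lit 525024),Int.ofNat (nat_lit 4561565),Int.negSucc (nat_lit 584894),Int.ofNat (nat_lit 769518),Int.ofNat (nat_lit 234759238)])

/-- A row. -/
noncomputable def sr7_c5_1 : List ℕ × List ℤ :=
  ([(nat_lit 0),(nat_lit 0),(nat_lit 0),(nat_lit 0),(nat_lit 0),(nat_lit 0),(nat_lit 1),(nat_lit 0),(nat_lit 0),(nat_lit 0),(nat_lit 0),(nat_lit 0)], [Int.ofNat (nat_lit 12885628),Int.negSucc (nat_lit 33359090),Int.negSucc (nat_lit 132098713),Int.negSucc (nat_lit 155880452),Int.ofNat (nat_lit 11623339),Int.ofNat (nat_lit 166367727),Int.ofNat (nat_lit 72874422),Int.ofNat (nat_lit 197035938),Int.ofNat (nat_lit 100583241),Int.negSucc (nat_lit 39207923),Int.negSucc (nat_lit 8988220),Int.negSucc (nat_lit 109073552),Int.ofNat (nat_lit 15863296),Int.negSucc (nat_lit 105254324),Int.ofNat (nat_lit 123661350),Int.negSucc (nat_lit 44922219),Int.ofNat (nat_lit 17123430),Int.negSucc (nat_lit 74272988),Int.ofNat (nat_lit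 54331670),Int.negSucc (nat_lit 10973686),Int.ofNat (nat_lit 4707034),Int.ofNat (nat_lit 49848837),Int.ofNat (nat_lit 52070059),Int.ofNat (nat_lit 6555403),Int.ofNat (nat_lit 3273967),Int.ofNat (nat_lit 31362880),Int.negSucc (nat_lit 22255043),Int.negSucc (nat_lit 18665162),Int.negSucc (nat_lit 31092654),Int.ofNat (nat_lit 3941840),Int.ofNat (nat_lit 1285995),Int.ofNat (nat_lit 28597493),Int.negSucc (nat_lit 80411379),Int.ofNat (nat_lit 12393673),Int.ofNat (nat_lit 48830466),Int.ofNat (nat_lit 40817630),Int.negSucc (nat_lit 21820366),Int.ofNat (nat_lit 1699654),Int.ofNat (nat_lit 22783393),Int.ofNat (nat_lit 72866909),Int.ofNat (nat_lit 4264356),Int.negSucc (nat_lit 24639101),Int.negSucc (nat_lit 1288118),Int.negSucc (nat_lit 286828),Int.negSucc (nat_lit 7156429),Int.negSucc (nat_lit 4808796),Int.negSucc (nat_lit 4256192),Int.ofNat (nat_lit 11357019),Int.negSucc (nat_lit 3783639),Int.ofNat (nat_lit 37008588),Int.ofNat (nat_lit 12810714),Int.ofNat (nat_lit 23156472),Int.ofNat (nat_lit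 16912728),Int.negSucc (nat_lit 3402376),Int.ofNat (nat_lit 15866243),Int.ofNat (nat_lit 9061673),Int.negSucc (nat_lit 10309161),Int.negSucc (nat_lit 6829278),Int.ofNat (nat_lit 32949747),Int.ofNat (nat_lit 51371388),Int.negSucc (nat_lit 4841946),Int.ofNat (nat_lit 310260),Int.ofNat (nat_lit 9072263),Int.ofNat (nat_lit 26243779),Int.ofNat (nat_lit 936984),Int.ofNat (nat_lit 24642898),Int.negSucc (nat_lit 12521721),Int.ofNat (nat_lit 30314927),Int.ofNat (nat_lit 7770922),Int.ofNat (nat_lit 4393849),Int.negSucc (nat_lit 20097994),Int.ofNat (nat_lit 201268),Int.negSucc (nat_lit 6847949),Int.negSucc (nat_lit 7380543),Int.ofNat (nat_lit 5965856),Int.negSucc (nat_lit 3916907),Int.negSucc (nat_lit 7724734),Int.negSucc (nat_lit 462436),Int.negSucc (nat_lit 114566),Int.negSucc (nat_lit 10358281),Int.negSucc (nat_lit 8380732),Int.negSucc (nat_lit 1100776),Int.ofNat (nat_lit 13798820),Int.ofNat (nat_lit 697572),Int.negSucc (nat_lit 7517439),Int.negSucc (nat_lit 780212),Int.negSucc (nat_lit 3972332),Int.ofNat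 (nat_lit 4141689),Int.negSucc (nat_lit 379310),Int.ofNat (nat_lit 11301647),Int.ofNat (nat_lit 20258652),Int.negSucc (nat_lit 1987289),Int.negSucc (nat_lit 13954),Int.negSucc (nat_lit 3437910),Int.negSucc (nat_lit 1500950),Int.negSucc (nat_lit 5404710),Int.negSucc (nat_lit 604088),Int.negSucc (nat_lit 2902015),Int.ofNat (nat_lit 1141788),Int.negSucc (nat_lit 1397252),Int.ofNat (nat_lit 4504270),Int.ofNat (nat_lit 19736716),Int.negSucc (nat_lit 7161544),Int.negSucc (nat_lit 3641701),Int.ofNat (nat_lit 9524121),Int.ofNat (nat_lit 2846518),Int.ofNat (nat_lit 5780336),Int.negSucc (nat_lit 1562232),Int.negSucc (nat_lit 2881814),Int.negSucc (nat_lit 3316617),Int.ofNat (nat_lit 3789379),Int.negSucc (nat_lit 3268254),Int.negSucc (nat_lit 14891025),Int.ofNat (nat_lit 2045803),Int.ofNat (nat_lit 3694753),Int.ofNat (nat_lit 95574),Int.ofNat (nat_lit 4953934),Int.ofNat (nat_lit 1863732),Int.ofNat (nat_lit 1956477),Int.negSucc (nat_lit 5355330),Int.negSucc (nat_lit 7678914),Int.ofNat (nat_lit 6760340),Int.ofNat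 (nat_lit 5208992),Int.ofNat (nat_lit 270061),Int.negSucc (nat_lit 10465257),Int.ofNat (nat_lit 4044085),Int.negSucc (nat_lit 9290262),Int.negSucc (nat_lit 5434099),Int.negSucc (nat_lit 195496),Int.negSucc (nat_lit 8559375),Int.ofNat (nat_lit 6107151),Int.ofNat (nat_lit 2377489),Int.ofNat (nat_lit 2420975),Int.negSucc (nat_lit 2816179),Int.negSucc (nat_lit 12831190),Int.ofNat (nat_lit 10003488),Int.negSucc (nat_lit 375821),Int.negSucc (nat_lit 13586732),Int.negSucc (nat_lit 6843922),Int.ofNat (nat_lit 9153114),Int.negSucc (nat_lit 3406778),Int.ofNat (nat_lit 2922508),Int.ofNat (nat_lit 610908),Int.negSucc (nat_lit 2975560),Int.ofNat (nat_lit 2326266),Int.ofNat (nat_lit 291528),Int.negSucc (nat_lit 100665),Int.ofNat (nat_lit 268238),Int.negSucc (nat_lit 5470099),Int.ofNat (nat_lit 3131634),Int.negSucc (nat_lit 192484),Int.ofNat (nat_lit 2459604),Int.negSucc (nat_lit 19751),Int.ofNat (nat_lit 581937),Int.ofNat (nat_lit 999213),Int.negSucc (nat_lit 2451669),Int.ofNat (nat_lit 637337),Int.ofNat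 (nat_lit 13620277),Int.negSucc (nat_lit 21907),Int.ofNat (nat_lit 2819297),Int.ofNat (nat_lit 1507670),Int.negSucc (nat_lit 2341038),Int.negSucc (nat_lit 2520034),Int.ofNat (nat_lit 1746418),Int.negSucc (nat_lit 2758058),Int.ofNat (nat_lit 1766355),Int.ofNat (nat_lit 2423575),Int.negSucc (nat_lit 2285039),Int.ofNat (nat_lit 364354),Int.ofNat (nat_lit 594680),Int.negSucc (nat_lit 1189925),Int.negSucc (nat_lit 443180),Int.ofNat (nat_lit 368923),Int.ofNat (nat_lit 4620707),Int.ofNat (nat_lit 837792),Int.ofNat (nat_lit 11564916),Int.ofNat (nat_lit 587641),Int.ofNat (nat_lit 3184920),Int.negSucc (nat_lit 1193294),Int.ofNat (nat_lit 999059),Int.ofNat (nat_lit 368039),Int.ofNat (nat_lit 2797237),Int.negSucc (nat_lit 774929),Int.ofNat (nat_lit 56409),Int.ofNat (nat_lit 4096987),Int.ofNat (nat_lit 3468722),Int.ofNat (nat_lit 648170),Int.negSucc (nat_lit 3440988),Int.ofNat (nat_lit 2797580),Int.ofNat (nat_lit 735226),Int.ofNat (nat_lit 550208),Int.ofNat (nat_lit 461303),Int.ofNat (nat_lit 1998854),Int.ofNat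 (nat_lit 14594027),Int.ofNat (nat_lit 998308),Int.negSucc (nat_lit 1697450),Int.ofNat (nat_lit 2332416),Int.negSucc (nat_lit 2435270),Int.negSucc (nat_lit 259831),Int.negSucc (nat_lit 1375453),Int.negSucc (nat_lit 3114441),Int.negSucc (nat_lit 218743),Int.negSucc (nat_lit 2256799),Int.negSucc (nat_lit 2012884),Int.ofNat (nat_lit 4809814),Int.negSucc (nat_lit 625689),Int.ofNat (nat_lit 98663),Int.negSucc (nat_lit 2619428),Int.negSucc (nat_lit 2756985),Int.ofNat (nat_lit 5173422),Int.ofNat (nat_lit 1201472),Int.negSucc (nat_lit 7284240),Int.negSucc (nat_lit 3853087),Int.ofNat (nat_lit 1510451),Int.negSucc (nat_lit 3133166),Int.ofNat (nat_lit 178708),Int.negSucc (nat_lit 3794139),Int.ofNat (nat_lit 550939),Int.ofNat (nat_lit 327377),Int.ofNat (nat_lit 1933915),Int.negSucc (nat_lit 3358031),Int.negSucc (nat_lit 1434874),Int.ofNat (nat_lit 2350254),Int.negSucc (nat_lit 528602),Int.negSucc (nat_lit 509804),Int.ofNat (nat_lit 1546120),Int.ofNat (nat_lit 187095),Int.ofNat (nat_lit 1381263),Int.ofNat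 (nat_lit 1990965),Int.ofNat (nat_lit 2188516),Int.ofNat (nat_lit 3541170),Int.ofNat (nat_lit 57261782)])

/-- A row. -/
noncomputable def sr7_c5_2 : List ℕ × List ℤ :=
  ([(nat_lit 0),(nat_lit 0),(nat_lit 0),(nat_lit 0),(nat_lit 1),(nat_lit 0),(nat_lit 0),(nat_lit 0),(nat_lit 0),(nat_lit 0),(nat_lit 0),(nat_lit 0)], [Int.ofNat (nat_lit 117311540),Int.negSucc (nat_lit 158329239),Int.ofNat (nat_lit 295523974),Int.ofNat (nat_lit 251290721),Int.negSucc (nat_lit 779228),Int.ofNat (nat_lit 42405918),Int.negSucc (nat_lit 238624913),Int.negSucc (nat_lit 296922663),Int.negSucc (nat_lit 74016187),Int.ofNat (nat_lit 66112599),Int.ofNat (nat_lit 169511845),Int.ofNat (nat_lit 127245692),Int.negSucc (nat_lit 50815983),Int.ofNat (nat_lit 282252986),Int.negSucc (nat_lit 288394638),Int.ofNat (nat_lit 15743595),Int.ofNat (nat_lit 49503817),Int.ofNat (nat_lit 6138561),Int.negSucc (nat_lit 31107881),Int.negSucc (nat_lit 62105350),Int.ofNat (nat_lit 6789321),Int.ofNat (nat_lit 43392748),Int.negSucc (nat_lit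 2355096),Int.negSucc (nat_lit 119146559),Int.ofNat (nat_lit 16561715),Int.ofNat (nat_lit 35288015),Int.ofNat (nat_lit 132109453),Int.ofNat (nat_lit 46016881),Int.negSucc (nat_lit 43254908),Int.ofNat (nat_lit 24936690),Int.ofNat (nat_lit 19807213),Int.negSucc (nat_lit 35304494),Int.ofNat (nat_lit 34601486),Int.ofNat (nat_lit 4764696),Int.ofNat (nat_lit 49838237),Int.negSucc (nat_lit 184407270),Int.ofNat (nat_lit 14972890),Int.negSucc (nat_lit 7308507),Int.ofNat (nat_lit 38726187),Int.ofNat (nat_lit 13434872),Int.negSucc (nat_lit 24616046),Int.negSucc (nat_lit 93262017),Int.negSucc (nat_lit 42671493),Int.negSucc (nat_lit 4900865),Int.ofNat (nat_lit 13160730),Int.negSucc (nat_lit 49739051),Int.ofNat (nat_lit 48391947),Int.negSucc (nat_lit 54559692),Int.negSucc (nat_lit 15267997),Int.ofNat (nat_lit 17142750),Int.negSucc (nat_lit 79517109),Int.negSucc (nat_lit 35042010),Int.negSucc (nat_lit 102268240),Int.ofNat (nat_lit 9580202),Int.ofNat (nat_lit 25599200),Int.ofNat (nat_lit 632630),Int.negSucc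 (nat_lit 73703098),Int.ofNat (nat_lit 49608086),Int.negSucc (nat_lit 54425176),Int.negSucc (nat_lit 7951555),Int.negSucc (nat_lit 14472878),Int.negSucc (nat_lit 41987487),Int.ofNat (nat_lit 1486677),Int.negSucc (nat_lit 26156193),Int.ofNat (nat_lit 10094894),Int.negSucc (nat_lit 54569050),Int.negSucc (nat_lit 29680279),Int.ofNat (nat_lit 5014458),Int.ofNat (nat_lit 24508324),Int.negSucc (nat_lit 44044805),Int.negSucc (nat_lit 31002896),Int.negSucc (nat_lit 3750411),Int.negSucc (nat_lit 49597135),Int.ofNat (nat_lit 42373377),Int.ofNat (nat_lit 13454073),Int.negSucc (nat_lit 11977195),Int.ofNat (nat_lit 23698094),Int.ofNat (nat_lit 28396343),Int.ofNat (nat_lit 90327475),Int.negSucc (nat_lit 3020806),Int.ofNat (nat_lit 25209166),Int.ofNat (nat_lit 3794308),Int.negSucc (nat_lit 13167657),Int.negSucc (nat_lit 12431169),Int.ofNat (nat_lit 32158138),Int.negSucc (nat_lit 1767751),Int.ofNat (nat_lit 10039864),Int.negSucc (nat_lit 3589927),Int.negSucc (nat_lit 14374452),Int.negSucc (nat_lit 34561043),Int.negSucc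 (nat_lit 16725958),Int.negSucc (nat_lit 14383115),Int.negSucc (nat_lit 15604119),Int.ofNat (nat_lit 3079418),Int.ofNat (nat_lit 5898490),Int.negSucc (nat_lit 3548947),Int.ofNat (nat_lit 5857665),Int.negSucc (nat_lit 10646402),Int.ofNat (nat_lit 6716500),Int.negSucc (nat_lit 13053822),Int.negSucc (nat_lit 25955898),Int.negSucc (nat_lit 1567189),Int.negSucc (nat_lit 27234048),Int.negSucc (nat_lit 19476843),Int.ofNat (nat_lit 9252772),Int.ofNat (nat_lit 5023053),Int.ofNat (nat_lit 421976),Int.ofNat (nat_lit 13802390),Int.negSucc (nat_lit 8395847),Int.negSucc (nat_lit 11573304),Int.negSucc (nat_lit 3182259),Int.ofNat (nat_lit 10298559),Int.negSucc (nat_lit 10655796),Int.negSucc (nat_lit 8930824),Int.negSucc (nat_lit 7161966),Int.negSucc (nat_lit 8377843),Int.ofNat (nat_lit 4165137),Int.ofNat (nat_lit 1433278),Int.negSucc (nat_lit 25681180),Int.negSucc (nat_lit 12535083),Int.negSucc (nat_lit 8248960),Int.negSucc (nat_lit 1091336),Int.ofNat (nat_lit 6837464),Int.negSucc (nat_lit 33037578),Int.negSucc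 (nat_lit 366556),Int.negSucc (nat_lit 6306171),Int.negSucc (nat_lit 3357096),Int.negSucc (nat_lit 1408607),Int.negSucc (nat_lit 4271930),Int.negSucc (nat_lit 20558570),Int.ofNat (nat_lit 13144711),Int.ofNat (nat_lit 24691217),Int.negSucc (nat_lit 9713449),Int.ofNat (nat_lit 16075884),Int.negSucc (nat_lit 12517297),Int.negSucc (nat_lit 4135400),Int.ofNat (nat_lit 14827449),Int.ofNat (nat_lit 17555974),Int.ofNat (nat_lit 14261264),Int.negSucc (nat_lit 6877287),Int.negSucc (nat_lit 6638624),Int.ofNat (nat_lit 5648668),Int.ofNat (nat_lit 7986388),Int.negSucc (nat_lit 19118749),Int.negSucc (nat_lit 21525327),Int.ofNat (nat_lit 7733871),Int.negSucc (nat_lit 1348608),Int.negSucc (nat_lit 7001749),Int.ofNat (nat_lit 25194284),Int.negSucc (nat_lit 3097126),Int.ofNat (nat_lit 5449738),Int.negSucc (nat_lit 3618813),Int.negSucc (nat_lit 13820549),Int.ofNat (nat_lit 11513905),Int.negSucc (nat_lit 238859),Int.negSucc (nat_lit 3224335),Int.negSucc (nat_lit 5635983),Int.negSucc (nat_lit 30692440),Int.negSucc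 (nat_lit 8453482),Int.negSucc (nat_lit 18599461),Int.ofNat (nat_lit 1833353),Int.ofNat (nat_lit 5129542),Int.ofNat (nat_lit 10355399),Int.negSucc (nat_lit 691875),Int.ofNat (nat_lit 3561423),Int.negSucc (nat_lit 6871271),Int.ofNat (nat_lit 2814557),Int.negSucc (nat_lit 8917638),Int.ofNat (nat_lit 945287),Int.negSucc (nat_lit 1049656),Int.ofNat (nat_lit 9191846),Int.negSucc (nat_lit 4849456),Int.negSucc (nat_lit 2911447),Int.negSucc (nat_lit 6672243),Int.negSucc (nat_lit 9457158),Int.negSucc (nat_lit 29571260),Int.negSucc (nat_lit 6904728),Int.negSucc (nat_lit 569616),Int.ofNat (nat_lit 8062169),Int.ofNat (nat_lit 966406),Int.ofNat (nat_lit 359399),Int.negSucc (nat_lit 7799194),Int.ofNat (nat_lit 17327445),Int.ofNat (nat_lit 6463592),Int.negSucc (nat_lit 4157161),Int.negSucc (nat_lit 13877051),Int.negSucc (nat_lit 163775),Int.ofNat (nat_lit 25143297),Int.negSucc (nat_lit 11592536),Int.negSucc (nat_lit 5738729),Int.ofNat (nat_lit 14537848),Int.ofNat (nat_lit 5549632),Int.negSucc (nat_lit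 3429175),Int.negSucc (nat_lit 23861982),Int.ofNat (nat_lit 12260261),Int.negSucc (nat_lit 2150181),Int.negSucc (nat_lit 12873499),Int.ofNat (nat_lit 7319367),Int.negSucc (nat_lit 3101032),Int.ofNat (nat_lit 2795316),Int.ofNat (nat_lit 20725782),Int.ofNat (nat_lit 1992298),Int.ofNat (nat_lit 1862427),Int.ofNat (nat_lit 10392646),Int.negSucc (nat_lit 10615517),Int.negSucc (nat_lit 7723502),Int.ofNat (nat_lit 6528403),Int.ofNat (nat_lit 71481),Int.ofNat (nat_lit 3672272),Int.negSucc (nat_lit 5800300),Int.ofNat (nat_lit 4870388),Int.ofNat (nat_lit 10346347),Int.ofNat (nat_lit 14087813),Int.ofNat (nat_lit 5838689),Int.ofNat (nat_lit 6396639),Int.negSucc (nat_lit 18687504),Int.ofNat (nat_lit 3763253),Int.negSucc (nat_lit 12206871),Int.negSucc (nat_lit 21451491),Int.ofNat (nat_lit 17245193),Int.ofNat (nat_lit 7008050),Int.ofNat (nat_lit 2104365),Int.negSucc (nat_lit 2114385),Int.negSucc (nat_lit 6640139),Int.negSucc (nat_lit 14378714),Int.negSucc (nat_lit 1090752),Int.negSucc (nat_lit 7615968),Int.negSucc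 (nat_lit 2695953),Int.negSucc (nat_lit 1770535),Int.negSucc (nat_lit 5217765),Int.negSucc (nat_lit 110542435),Int.negSucc (nat_lit 77367241),Int.ofNat (nat_lit 160560464)])

/-- A row. -/
noncomputable def sr7_c5_3 : List ℕ × List ℤ :=
  ([(nat_lit 0),(nat_lit 0),(nat_lit 0),(nat_lit 2),(nat_lit 0),(nat_lit 0),(nat_lit 0),(nat_lit 0),(nat_lit 0),(nat_lit 0),(nat_lit 0),(nat_lit 0)], [Int.negSucc (nat_lit 279281353),Int.negSucc (nat_lit 43605919),Int.negSucc (nat_lit 62246447),Int.ofNat (nat_lit 140146277),Int.negSucc (nat_lit 182667255),Int.ofNat (nat_lit 9919271),Int.negSucc (nat_lit 85685044),Int.negSucc (nat_lit 76377636),Int.negSucc (nat_lit 42208982),Int.ofNat (nat_lit 76126285),Int.ofNat (nat_lit 47961897),Int.ofNat (nat_lit 18111260),Int.negSucc (nat_lit 58869369),Int.ofNat (nat_lit 114781103),Int.negSucc (nat_lit 104651201),Int.ofNat (nat_lit 21384632),Int.negSucc (nat_lit 16335812),Int.negSucc (nat_lit 12022210),Int.negSucc (nat_lit 11763017),Int.negSucc (nat_lit 12721629),Int.negSucc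 (nat_lit 19237969),Int.ofNat (nat_lit 20690139),Int.negSucc (nat_lit 12294949),Int.negSucc (nat_lit 12400847),Int.ofNat (nat_lit 22981287),Int.ofNat (nat_lit 9017627),Int.ofNat (nat_lit 19262568),Int.negSucc (nat_lit 4182465),Int.negSucc (nat_lit 11970715),Int.negSucc (nat_lit 10516591),Int.negSucc (nat_lit 8882114),Int.negSucc (nat_lit 22137095),Int.negSucc (nat_lit 8886229),Int.ofNat (nat_lit 35430194),Int.ofNat (nat_lit 28241277),Int.negSucc (nat_lit 94766992),Int.ofNat (nat_lit 14823283),Int.ofNat (nat_lit 34166273),Int.ofNat (nat_lit 26330749),Int.ofNat (nat_lit 28588145),Int.ofNat (nat_lit 1137073),Int.negSucc (nat_lit 15694949),Int.negSucc (nat_lit 14293249),Int.negSucc (nat_lit 8124539),Int.negSucc (nat_lit 13772999),Int.negSucc (nat_lit 22314666),Int.ofNat (nat_lit 17644684),Int.negSucc (nat_lit 25127924),Int.negSucc (nat_lit 5925212),Int.ofNat (nat_lit 671583),Int.ofNat (nat_lit 5127761),Int.negSucc (nat_lit 1929233),Int.negSucc (nat_lit 942626),Int.ofNat (nat_lit 2298824),Int.negSucc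 (nat_lit 9923888),Int.negSucc (nat_lit 317466),Int.negSucc (nat_lit 37819204),Int.ofNat (nat_lit 14042050),Int.negSucc (nat_lit 39734118),Int.ofNat (nat_lit 26134121),Int.negSucc (nat_lit 11928973),Int.negSucc (nat_lit 27608225),Int.negSucc (nat_lit 8990457),Int.ofNat (nat_lit 31214703),Int.ofNat (nat_lit 18731196),Int.negSucc (nat_lit 10428708),Int.negSucc (nat_lit 2749047),Int.negSucc (nat_lit 49590122),Int.negSucc (nat_lit 6324797),Int.negSucc (nat_lit 23098074),Int.ofNat (nat_lit 5207096),Int.ofNat (nat_lit 2854341),Int.negSucc (nat_lit 11668667),Int.ofNat (nat_lit 22557310),Int.negSucc (nat_lit 1565654),Int.ofNat (nat_lit 4764730),Int.ofNat (nat_lit 9568313),Int.ofNat (nat_lit 2940194),Int.ofNat (nat_lit 36880210),Int.ofNat (nat_lit 24227100),Int.ofNat (nat_lit 17687307),Int.ofNat (nat_lit 6572813),Int.negSucc (nat_lit 14362827),Int.negSucc (nat_lit 16029458),Int.ofNat (nat_lit 22466781),Int.negSucc (nat_lit 12034417),Int.ofNat (nat_lit 13350629),Int.ofNat (nat_lit 2627148),Int.negSucc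 (nat_lit 42535),Int.negSucc (nat_lit 17029364),Int.negSucc (nat_lit 24932448),Int.ofNat (nat_lit 3956622),Int.negSucc (nat_lit 5654006),Int.ofNat (nat_lit 2117404),Int.ofNat (nat_lit 4749786),Int.ofNat (nat_lit 8633095),Int.ofNat (nat_lit 8688741),Int.negSucc (nat_lit 1625816),Int.ofNat (nat_lit 237273),Int.negSucc (nat_lit 3476323),Int.negSucc (nat_lit 19990444),Int.negSucc (nat_lit 22836397),Int.negSucc (nat_lit 9083769),Int.negSucc (nat_lit 1160634),Int.ofNat (nat_lit 701903),Int.negSucc (nat_lit 2533795),Int.negSucc (nat_lit 9408329),Int.ofNat (nat_lit 4426689),Int.ofNat (nat_lit 512877),Int.ofNat (nat_lit 1791046),Int.negSucc (nat_lit 8613863),Int.ofNat (nat_lit 1546090),Int.ofNat (nat_lit 8018831),Int.ofNat (nat_lit 764400),Int.negSucc (nat_lit 14050105),Int.ofNat (nat_lit 622965),Int.ofNat (nat_lit 4079178),Int.negSucc (nat_lit 1552991),Int.ofNat (nat_lit 970155),Int.negSucc (nat_lit 6037159),Int.ofNat (nat_lit 3263090),Int.negSucc (nat_lit 1029064),Int.negSucc (nat_lit 586460),Int.negSucc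 (nat_lit 15009280),Int.ofNat (nat_lit 2813075),Int.negSucc (nat_lit 10584053),Int.ofNat (nat_lit 557455),Int.ofNat (nat_lit 3387145),Int.ofNat (nat_lit 2143621),Int.ofNat (nat_lit 5160891),Int.ofNat (nat_lit 11713974),Int.ofNat (nat_lit 5769702),Int.ofNat (nat_lit 4519233),Int.ofNat (nat_lit 2943314),Int.negSucc (nat_lit 1081310),Int.negSucc (nat_lit 6098233),Int.ofNat (nat_lit 3792450),Int.ofNat (nat_lit 12302276),Int.ofNat (nat_lit 11039212),Int.negSucc (nat_lit 19298920),Int.ofNat (nat_lit 4672336),Int.ofNat (nat_lit 2721019),Int.ofNat (nat_lit 4633548),Int.negSucc (nat_lit 15543463),Int.negSucc (nat_lit 9253642),Int.negSucc (nat_lit 816116),Int.ofNat (nat_lit 2154234),Int.ofNat (nat_lit 6093464),Int.ofNat (nat_lit 16156539),Int.negSucc (nat_lit 631910),Int.ofNat (nat_lit 4844960),Int.negSucc (nat_lit 4494106),Int.negSucc (nat_lit 3578008),Int.ofNat (nat_lit 3329258),Int.ofNat (nat_lit 2415792),Int.ofNat (nat_lit 1008046),Int.negSucc (nat_lit 5444320),Int.negSucc (nat_lit 24570786),Int.negSucc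 (nat_lit 10335240),Int.negSucc (nat_lit 6387008),Int.negSucc (nat_lit 1084474),Int.ofNat (nat_lit 5052120),Int.ofNat (nat_lit 3022095),Int.ofNat (nat_lit 6194605),Int.ofNat (nat_lit 2191419),Int.negSucc (nat_lit 1422094),Int.ofNat (nat_lit 6275667),Int.negSucc (nat_lit 1658725),Int.negSucc (nat_lit 4439348),Int.negSucc (nat_lit 3709240),Int.ofNat (nat_lit 7784216),Int.negSucc (nat_lit 7644704),Int.ofNat (nat_lit 1474190),Int.negSucc (nat_lit 5104119),Int.negSucc (nat_lit 7276158),Int.negSucc (nat_lit 16662800),Int.negSucc (nat_lit 2172618),Int.ofNat (nat_lit 2494829),Int.ofNat (nat_lit 8335278),Int.negSucc (nat_lit 1760805),Int.ofNat (nat_lit 5568952),Int.negSucc (nat_lit 802991),Int.ofNat (nat_lit 7355510),Int.ofNat (nat_lit 996271),Int.negSucc (nat_lit 6403305),Int.negSucc (nat_lit 7332899),Int.ofNat (nat_lit 144815),Int.ofNat (nat_lit 8980526),Int.negSucc (nat_lit 5220623),Int.negSucc (nat_lit 4609128),Int.ofNat (nat_lit 8353409),Int.negSucc (nat_lit 2684810),Int.negSucc (nat_lit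 2056509),Int.negSucc (nat_lit 19490868),Int.ofNat (nat_lit 1143171),Int.ofNat (nat_lit 5457727),Int.negSucc (nat_lit 7452530),Int.ofNat (nat_lit 10564092),Int.negSucc (nat_lit 793420),Int.ofNat (nat_lit 901995),Int.ofNat (nat_lit 10157002),Int.negSucc (nat_lit 1505851),Int.ofNat (nat_lit 7689254),Int.ofNat (nat_lit 2744643),Int.negSucc (nat_lit 3022969),Int.ofNat (nat_lit 4594614),Int.ofNat (nat_lit 4100701),Int.ofNat (nat_lit 2178003),Int.negSucc (nat_lit 6077749),Int.negSucc (nat_lit 5667284),Int.ofNat (nat_lit 121974),Int.ofNat (nat_lit 5816775),Int.ofNat (nat_lit 9090406),Int.ofNat (nat_lit 626038),Int.ofNat (nat_lit 7752553),Int.negSucc (nat_lit 16761718),Int.ofNat (nat_lit 7063660),Int.negSucc (nat_lit 3231188),Int.negSucc (nat_lit 10353147),Int.ofNat (nat_lit 13219876),Int.ofNat (nat_lit 281326),Int.ofNat (nat_lit 3177157),Int.negSucc (nat_lit 8777349),Int.ofNat (nat_lit 5279724),Int.negSucc (nat_lit 7074718),Int.ofNat (nat_lit 668769),Int.negSucc (nat_lit 11780552),Int.ofNat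 (nat_lit 6834053),Int.ofNat (nat_lit 4302102),Int.ofNat (nat_lit 45240),Int.negSucc (nat_lit 22532838),Int.negSucc (nat_lit 68383148),Int.ofNat (nat_lit 55344615),Int.ofNat (nat_lit 122687106)])

/-- A row. -/
noncomputable def sr7_c5_4 : List ℕ × List ℤ :=
  ([(nat_lit 0),(nat_lit 0),(nat_lit 1),(nat_lit 0),(nat_lit 0),(nat_lit 0),(nat_lit 0),(nat_lit 0),(nat_lit 0),(nat_lit 0),(nat_lit 0),(nat_lit 0)], [Int.negSucc (nat_lit 501268033),Int.ofNat (nat_lit 103449279),Int.ofNat (nat_lit 144312397),Int.negSucc (nat_lit 154266011),Int.negSucc (nat_lit 41110113),Int.negSucc (nat_lit 203149562),Int.ofNat (nat_lit 109206096),Int.ofNat (nat_lit 5564209),Int.ofNat (nat_lit 40907219),Int.ofNat (nat_lit 36220197),Int.negSucc (nat_lit 70766198),Int.ofNat (nat_lit 117045895),Int.ofNat (nat_lit 78820451),Int.ofNat (nat_lit 37082575),Int.negSucc (nat_lit 32213561),Int.ofNat (nat_lit 92244965),Int.negSucc (nat_lit 71724349),Int.ofNat (nat_lit 151367567),Int.negSucc (nat_lit 21599545),Int.ofNat (nat_lit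 68566916),Int.ofNat (nat_lit 24607212),Int.negSucc (nat_lit 32624980),Int.negSucc (nat_lit 86834039),Int.ofNat (nat_lit 51515604),Int.ofNat (nat_lit 28469431),Int.negSucc (nat_lit 85391497),Int.negSucc (nat_lit 74111839),Int.negSucc (nat_lit 41023205),Int.ofNat (nat_lit 27269098),Int.negSucc (nat_lit 17602353),Int.negSucc (nat_lit 39198614),Int.ofNat (nat_lit 14476263),Int.ofNat (nat_lit 77684956),Int.negSucc (nat_lit 54272411),Int.negSucc (nat_lit 28041906),Int.ofNat (nat_lit 3641623),Int.ofNat (nat_lit 1233146),Int.ofNat (nat_lit 31357452),Int.negSucc (nat_lit 76852580),Int.negSucc (nat_lit 125199310),Int.negSucc (nat_lit 27849293),Int.ofNat (nat_lit 17767294),Int.ofNat (nat_lit 11204104),Int.ofNat (nat_lit 3529470),Int.ofNat (nat_lit 999537),Int.ofNat (nat_lit 53407204),Int.ofNat (nat_lit 13305555),Int.negSucc (nat_lit 5599459),Int.negSucc (nat_lit 3248488),Int.negSucc (nat_lit 21442035),Int.ofNat (nat_lit 24466034),Int.ofNat (nat_lit 16885920),Int.ofNat (nat_lit 15732719),Int.negSucc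 (nat_lit 58465217),Int.negSucc (nat_lit 18382778),Int.ofNat (nat_lit 1944691),Int.ofNat (nat_lit 6483354),Int.negSucc (nat_lit 33555432),Int.negSucc (nat_lit 57300336),Int.negSucc (nat_lit 5779450),Int.negSucc (nat_lit 54341845),Int.negSucc (nat_lit 30715789),Int.negSucc (nat_lit 14970517),Int.ofNat (nat_lit 28713707),Int.negSucc (nat_lit 33184361),Int.negSucc (nat_lit 58749274),Int.ofNat (nat_lit 80713287),Int.negSucc (nat_lit 87053526),Int.negSucc (nat_lit 21475822),Int.ofNat (nat_lit 24696663),Int.ofNat (nat_lit 10052267),Int.ofNat (nat_lit 38964502),Int.ofNat (nat_lit 33330679),Int.negSucc (nat_lit 43620458),Int.negSucc (nat_lit 4713754),Int.ofNat (nat_lit 36921383),Int.negSucc (nat_lit 8919319),Int.negSucc (nat_lit 26112441),Int.negSucc (nat_lit 35864916),Int.ofNat (nat_lit 56618672),Int.ofNat (nat_lit 11242876),Int.ofNat (nat_lit 47294722),Int.negSucc (nat_lit 27079307),Int.negSucc (nat_lit 3571375),Int.negSucc (nat_lit 9400820),Int.negSucc (nat_lit 19364525),Int.ofNat (nat_lit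 19975018),Int.ofNat (nat_lit 13299661),Int.negSucc (nat_lit 5316490),Int.ofNat (nat_lit 6975761),Int.negSucc (nat_lit 22164499),Int.ofNat (nat_lit 19361766),Int.ofNat (nat_lit 6983767),Int.ofNat (nat_lit 27201425),Int.negSucc (nat_lit 17552936),Int.negSucc (nat_lit 8760459),Int.ofNat (nat_lit 5915313),Int.ofNat (nat_lit 11714512),Int.ofNat (nat_lit 2075243),Int.ofNat (nat_lit 14594693),Int.ofNat (nat_lit 46506647),Int.negSucc (nat_lit 13238383),Int.ofNat (nat_lit 24786609),Int.ofNat (nat_lit 1483854),Int.negSucc (nat_lit 35523853),Int.ofNat (nat_lit 1152848),Int.negSucc (nat_lit 19874078),Int.negSucc (nat_lit 26688653),Int.ofNat (nat_lit 20090972),Int.ofNat (nat_lit 25860151),Int.negSucc (nat_lit 6195339),Int.ofNat (nat_lit 15689604),Int.ofNat (nat_lit 18179341),Int.ofNat (nat_lit 1181836),Int.ofNat (nat_lit 4964711),Int.ofNat (nat_lit 13847373),Int.negSucc (nat_lit 20142807),Int.negSucc (nat_lit 4064986),Int.ofNat (nat_lit 16273598),Int.ofNat (nat_lit 22185345),Int.ofNat (nat_lit 2218480),Int.negSucc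 (nat_lit 13398262),Int.negSucc (nat_lit 15263669),Int.negSucc (nat_lit 6135783),Int.ofNat (nat_lit 166951),Int.negSucc (nat_lit 17326631),Int.ofNat (nat_lit 18716476),Int.negSucc (nat_lit 16320176),Int.ofNat (nat_lit 6205030),Int.ofNat (nat_lit 31865702),Int.ofNat (nat_lit 13096866),Int.ofNat (nat_lit 2243502),Int.ofNat (nat_lit 5735337),Int.negSucc (nat_lit 20954694),Int.ofNat (nat_lit 31012039),Int.ofNat (nat_lit 16826677),Int.ofNat (nat_lit 5701433),Int.negSucc (nat_lit 4539312),Int.ofNat (nat_lit 9415284),Int.negSucc (nat_lit 7325110),Int.ofNat (nat_lit 45537982),Int.negSucc (nat_lit 46152212),Int.negSucc (nat_lit 21803255),Int.ofNat (nat_lit 6064305),Int.ofNat (nat_lit 5349959),Int.negSucc (nat_lit 15816659),Int.negSucc (nat_lit 16441992),Int.ofNat (nat_lit 33406728),Int.negSucc (nat_lit 14195553),Int.ofNat (nat_lit 4920617),Int.negSucc (nat_lit 3748654),Int.ofNat (nat_lit 11512017),Int.ofNat (nat_lit 1385446),Int.negSucc (nat_lit 4313472),Int.ofNat (nat_lit 7935226),Int.negSucc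 (nat_lit 11501286),Int.ofNat (nat_lit 6238779),Int.negSucc (nat_lit 5923150),Int.negSucc (nat_lit 4214039),Int.ofNat (nat_lit 12706200),Int.negSucc (nat_lit 14538918),Int.ofNat (nat_lit 2186247),Int.negSucc (nat_lit 32036696),Int.ofNat (nat_lit 19257954),Int.ofNat (nat_lit 9048939),Int.ofNat (nat_lit 6444689),Int.ofNat (nat_lit 18048421),Int.negSucc (nat_lit 6317007),Int.negSucc (nat_lit 14398410),Int.negSucc (nat_lit 12999511),Int.negSucc (nat_lit 11484183),Int.ofNat (nat_lit 14518730),Int.negSucc (nat_lit 8618636),Int.negSucc (nat_lit 8126153),Int.ofNat (nat_lit 52776252),Int.ofNat (nat_lit 6390719),Int.ofNat (nat_lit 31535039),Int.negSucc (nat_lit 14836874),Int.ofNat (nat_lit 3682133),Int.negSucc (nat_lit 25234965),Int.negSucc (nat_lit 11379522),Int.ofNat (nat_lit 9510732),Int.negSucc (nat_lit 27837675),Int.ofNat (nat_lit 1204178),Int.ofNat (nat_lit 10816228),Int.ofNat (nat_lit 7861957),Int.negSucc (nat_lit 7592611),Int.negSucc (nat_lit 17392019),Int.ofNat (nat_lit 5564874),Int.ofNat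 (nat_lit 8541914),Int.ofNat (nat_lit 150664),Int.negSucc (nat_lit 10972385),Int.ofNat (nat_lit 6332382),Int.negSucc (nat_lit 10402804),Int.negSucc (nat_lit 19075861),Int.ofNat (nat_lit 8605920),Int.ofNat (nat_lit 9619009),Int.ofNat (nat_lit 6470104),Int.negSucc (nat_lit 4560148),Int.negSucc (nat_lit 1245054),Int.negSucc (nat_lit 13747753),Int.ofNat (nat_lit 1089625),Int.ofNat (nat_lit 6869363),Int.negSucc (nat_lit 3156972),Int.ofNat (nat_lit 3371576),Int.negSucc (nat_lit 9554113),Int.negSucc (nat_lit 3347241),Int.ofNat (nat_lit 11006477),Int.ofNat (nat_lit 8049439),Int.ofNat (nat_lit 617900),Int.ofNat (nat_lit 9578962),Int.negSucc (nat_lit 3694226),Int.negSucc (nat_lit 6708415),Int.negSucc (nat_lit 21026616),Int.negSucc (nat_lit 6123929),Int.negSucc (nat_lit 6728942),Int.ofNat (nat_lit 23299718),Int.ofNat (nat_lit 55692401),Int.ofNat (nat_lit 19395358),Int.negSucc (nat_lit 59422680),Int.ofNat (nat_lit 2140005),Int.ofNat (nat_lit 8367269),Int.negSucc (nat_lit 22250371),Int.ofNat (nat_lit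 14044218),Int.ofNat (nat_lit 38690812),Int.negSucc (nat_lit 7142190),Int.negSucc (nat_lit 4955691),Int.ofNat (nat_lit 6709552),Int.negSucc (nat_lit 1968171),Int.negSucc (nat_lit 2160891),Int.ofNat (nat_lit 237895116),Int.negSucc (nat_lit 89127271),Int.ofNat (nat_lit 76225418),Int.ofNat (nat_lit 65651580),Int.ofNat (nat_lit 158843487)])

/-- A row. -/
noncomputable def sr7_c5_5 : List ℕ × List ℤ :=
  ([(nat_lit 0),(nat_lit 0),(nat_lit 2),(nat_lit 0),(nat_lit 0),(nat_lit 0),(nat_lit 0),(nat_lit 0),(nat_lit 0),(nat_lit 0),(nat_lit 0),(nat_lit 0)], [Int.negSucc (nat_lit 289346875),Int.negSucc (nat_lit 38672721),Int.ofNat (nat_lit 5569249),Int.ofNat (nat_lit 80504547),Int.negSucc (nat_lit 187047620),Int.ofNat (nat_lit 68662911),Int.negSucc (nat_lit 74396490),Int.negSucc (nat_lit 24694538),Int.negSucc (nat_lit 10081005),Int.ofNat (nat_lit 132782898),Int.ofNat (nat_lit 65565368),Int.ofNat (nat_lit 54639953),Int.negSucc (nat_lit 2918133),Int.ofNat (nat_lit 145828260),Int.negSucc (nat_lit 72218566),Int.ofNat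 (nat_lit 22624923),Int.negSucc (nat_lit 12391057),Int.negSucc (nat_lit 5498875),Int.ofNat (nat_lit 14592298),Int.negSucc (nat_lit 16065754),Int.negSucc (nat_lit 7503781),Int.ofNat (nat_lit 47271118),Int.negSucc (nat_lit 9064027),Int.negSucc (nat_lit 20040667),Int.ofNat (nat_lit 32239366),Int.ofNat (nat_lit 24821001),Int.ofNat (nat_lit 33584721),Int.negSucc (nat_lit 30074349),Int.negSucc (nat_lit 9228163),Int.negSucc (nat_lit 19399326),Int.negSucc (nat_lit 16428740),Int.ofNat (nat_lit 6176963),Int.negSucc (nat_lit 29139661),Int.negSucc (nat_lit 1672034),Int.ofNat (nat_lit 59621528),Int.negSucc (nat_lit 101456862),Int.ofNat (nat_lit 2182785),Int.ofNat (nat_lit 38291337),Int.ofNat (nat_lit 3588143),Int.ofNat (nat_lit 2357486),Int.negSucc (nat_lit 11840257),Int.negSucc (nat_lit 64191918),Int.negSucc (nat_lit 30274717),Int.negSucc (nat_lit 2933153),Int.negSucc (nat_lit 10111448),Int.negSucc (nat_lit 21098523),Int.ofNat (nat_lit 43239326),Int.negSucc (nat_lit 28773452),Int.negSucc (nat_lit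 22587264),Int.ofNat (nat_lit 36895111),Int.negSucc (nat_lit 4352250),Int.ofNat (nat_lit 3334226),Int.negSucc (nat_lit 20619035),Int.negSucc (nat_lit 12886654),Int.ofNat (nat_lit 14812456),Int.ofNat (nat_lit 14964853),Int.negSucc (nat_lit 49083827),Int.ofNat (nat_lit 21891875),Int.negSucc (nat_lit 54980510),Int.ofNat (nat_lit 47832390),Int.negSucc (nat_lit 56682599),Int.negSucc (nat_lit 66517223),Int.ofNat (nat_lit 7399786),Int.ofNat (nat_lit 40672651),Int.ofNat (nat_lit 906883),Int.negSucc (nat_lit 19538537),Int.negSucc (nat_lit 2424365),Int.negSucc (nat_lit 43163488),Int.negSucc (nat_lit 13790901),Int.negSucc (nat_lit 32387656),Int.negSucc (nat_lit 5729522),Int.ofNat (nat_lit 7208442),Int.negSucc (nat_lit 8796009),Int.ofNat (nat_lit 20741020),Int.negSucc (nat_lit 1970992),Int.ofNat (nat_lit 2323773),Int.ofNat (nat_lit 25310562),Int.ofNat (nat_lit 3871490),Int.ofNat (nat_lit 49572724),Int.ofNat (nat_lit 19482783),Int.ofNat (nat_lit 26226881),Int.ofNat (nat_lit 26364623),Int.negSucc (nat_lit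 22095531),Int.negSucc (nat_lit 10924751),Int.ofNat (nat_lit 19008847),Int.negSucc (nat_lit 3647349),Int.ofNat (nat_lit 24116648),Int.ofNat (nat_lit 2154012),Int.ofNat (nat_lit 3231657),Int.negSucc (nat_lit 18641342),Int.negSucc (nat_lit 20457416),Int.ofNat (nat_lit 11283536),Int.negSucc (nat_lit 1342989),Int.ofNat (nat_lit 6550182),Int.ofNat (nat_lit 2326942),Int.ofNat (nat_lit 1159485),Int.ofNat (nat_lit 9791721),Int.negSucc (nat_lit 780068),Int.ofNat (nat_lit 5131878),Int.negSucc (nat_lit 2559001),Int.negSucc (nat_lit 8103126),Int.negSucc (nat_lit 23970421),Int.negSucc (nat_lit 7588746),Int.negSucc (nat_lit 13093385),Int.negSucc (nat_lit 5857981),Int.ofNat (nat_lit 2813817),Int.negSucc (nat_lit 3035616),Int.ofNat (nat_lit 316160),Int.ofNat (nat_lit 7686914),Int.ofNat (nat_lit 4726059),Int.negSucc (nat_lit 5592873),Int.ofNat (nat_lit 9508638),Int.negSucc (nat_lit 2234613),Int.negSucc (nat_lit 5563258),Int.negSucc (nat_lit 4168902),Int.ofNat (nat_lit 5959549),Int.negSucc (nat_lit 5204350),Int.negSucc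 (nat_lit 1543147),Int.negSucc (nat_lit 3078619),Int.negSucc (nat_lit 2619806),Int.ofNat (nat_lit 3296349),Int.negSucc (nat_lit 10148407),Int.negSucc (nat_lit 9831788),Int.negSucc (nat_lit 20118584),Int.negSucc (nat_lit 300495),Int.negSucc (nat_lit 14184603),Int.ofNat (nat_lit 2018119),Int.negSucc (nat_lit 13433504),Int.negSucc (nat_lit 1587837),Int.ofNat (nat_lit 4560382),Int.ofNat (nat_lit 24220143),Int.ofNat (nat_lit 23518566),Int.ofNat (nat_lit 5114883),Int.negSucc (nat_lit 2734650),Int.ofNat (nat_lit 1157251),Int.ofNat (nat_lit 12728713),Int.ofNat (nat_lit 3313746),Int.ofNat (nat_lit 9145706),Int.ofNat (nat_lit 11174271),Int.negSucc (nat_lit 22901325),Int.ofNat (nat_lit 3051117),Int.negSucc (nat_lit 5967255),Int.ofNat (nat_lit 598107),Int.negSucc (nat_lit 971036),Int.negSucc (nat_lit 16970211),Int.negSucc (nat_lit 2433596),Int.ofNat (nat_lit 2817544),Int.ofNat (nat_lit 11157985),Int.ofNat (nat_lit 19368506),Int.ofNat (nat_lit 1759850),Int.ofNat (nat_lit 7997048),Int.ofNat (nat_lit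 1524422),Int.negSucc (nat_lit 8641449),Int.ofNat (nat_lit 2409137),Int.ofNat (nat_lit 2979251),Int.ofNat (nat_lit 2647153),Int.negSucc (nat_lit 3497680),Int.negSucc (nat_lit 22764006),Int.negSucc (nat_lit 2403584),Int.negSucc (nat_lit 15038359),Int.negSucc (nat_lit 3869706),Int.ofNat (nat_lit 1200085),Int.negSucc (nat_lit 8381801),Int.ofNat (nat_lit 950111),Int.ofNat (nat_lit 6422514),Int.negSucc (nat_lit 2872863),Int.ofNat (nat_lit 12628695),Int.negSucc (nat_lit 7736134),Int.negSucc (nat_lit 9415494),Int.negSucc (nat_lit 4423468),Int.ofNat (nat_lit 1152831),Int.negSucc (nat_lit 108982),Int.ofNat (nat_lit 877082),Int.negSucc (nat_lit 6429006),Int.negSucc (nat_lit 4230400),Int.negSucc (nat_lit 25632601),Int.ofNat (nat_lit 1654836),Int.ofNat (nat_lit 624885),Int.ofNat (nat_lit 147148),Int.ofNat (nat_lit 660982),Int.ofNat (nat_lit 4182160),Int.negSucc (nat_lit 813752),Int.ofNat (nat_lit 8017620),Int.ofNat (nat_lit 3336890),Int.negSucc (nat_lit 3946870),Int.negSucc (nat_lit 5969902),Int.negSucc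 (nat_lit 4818943),Int.ofNat (nat_lit 6553733),Int.negSucc (nat_lit 4685584),Int.negSucc (nat_lit 2913995),Int.ofNat (nat_lit 4413026),Int.negSucc (nat_lit 2560658),Int.negSucc (nat_lit 2200166),Int.negSucc (nat_lit 18036313),Int.ofNat (nat_lit 490070),Int.ofNat (nat_lit 7037935),Int.negSucc (nat_lit 2276556),Int.ofNat (nat_lit 6475650),Int.negSucc (nat_lit 4496678),Int.negSucc (nat_lit 2951479),Int.ofNat (nat_lit 3614004),Int.ofNat (nat_lit 1758409),Int.ofNat (nat_lit 3202832),Int.negSucc (nat_lit 639656),Int.ofNat (nat_lit 1412835),Int.negSucc (nat_lit 855612),Int.ofNat (nat_lit 325161),Int.ofNat (nat_lit 4604861),Int.negSucc (nat_lit 429681),Int.negSucc (nat_lit 11656308),Int.ofNat (nat_lit 13566226),Int.negSucc (nat_lit 3241599),Int.ofNat (nat_lit 2543300),Int.negSucc (nat_lit 1451858),Int.negSucc (nat_lit 3452170),Int.negSucc (nat_lit 2486022),Int.ofNat (nat_lit 9928942),Int.ofNat (nat_lit 4435987),Int.negSucc (nat_lit 7290816),Int.ofNat (nat_lit 7827424),Int.ofNat (nat_lit 6718207),Int.ofNat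 (nat_lit 3650344),Int.negSucc (nat_lit 11300656),Int.negSucc (nat_lit 486060),Int.ofNat (nat_lit 4221824),Int.negSucc (nat_lit 2558390),Int.negSucc (nat_lit 3890684),Int.negSucc (nat_lit 362145),Int.negSucc (nat_lit 1479128),Int.negSucc (nat_lit 1973782),Int.negSucc (nat_lit 21021471),Int.negSucc (nat_lit 69317600),Int.ofNat (nat_lit 73609531),Int.ofNat (nat_lit 67192578),Int.ofNat (nat_lit 69111288),Int.ofNat (nat_lit 74695902)])

/-- A row. -/
noncomputable def sr7_c5_6 : List ℕ × List ℤ :=
  ([(nat_lit 0),(nat_lit 1),(nat_lit 0),(nat_lit 0),(nat_lit 0),(nat_lit 1),(nat_lit 0),(nat_lit 0),(nat_lit 0),(nat_lit 0),(nat_lit 0),(nat_lit 0)], [Int.ofNat (nat_lit 147164804),Int.ofNat (nat_lit 50248280),Int.ofNat (nat_lit 366293707),Int.ofNat (nat_lit 29985947),Int.ofNat (nat_lit 317809719),Int.negSucc (nat_lit 519517),Int.negSucc (nat_lit 31142278),Int.negSucc (nat_lit 166547383),Int.ofNat (nat_lit 116005916),Int.negSucc (nat_lit 4030504),Int.ofNat (nat_lit 72399182),Int.ofNat (nat_lit 221670606),Int.ofNat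 (nat_lit 114147040),Int.ofNat (nat_lit 166231347),Int.negSucc (nat_lit 100850662),Int.negSucc (nat_lit 1004413),Int.ofNat (nat_lit 59294118),Int.ofNat (nat_lit 224714093),Int.ofNat (nat_lit 9670965),Int.negSucc (nat_lit 13931690),Int.ofNat (nat_lit 69794984),Int.ofNat (nat_lit 40929833),Int.negSucc (nat_lit 51155079),Int.negSucc (nat_lit 108369368),Int.negSucc (nat_lit 13000661),Int.ofNat (nat_lit 30260350),Int.ofNat (nat_lit 71865626),Int.negSucc (nat_lit 29565243),Int.ofNat (nat_lit 389485),Int.ofNat (nat_lit 7363491),Int.negSucc (nat_lit 11450472),Int.ofNat (nat_lit 40598868),Int.ofNat (nat_lit 53506052),Int.negSucc (nat_lit 75127154),Int.ofNat (nat_lit 76029195),Int.negSucc (nat_lit 68677248),Int.negSucc (nat_lit 42265195),Int.negSucc (nat_lit 31074046),Int.negSucc (nat_lit 59803095),Int.negSucc (nat_lit 87466817),Int.negSucc (nat_lit 61625279),Int.negSucc (nat_lit 102435087),Int.negSucc (nat_lit 71091085),Int.ofNat (nat_lit 4238926),Int.negSucc (nat_lit 874319),Int.ofNat (nat_lit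 101425),Int.ofNat (nat_lit 65630655),Int.negSucc (nat_lit 22523371),Int.negSucc (nat_lit 40480464),Int.ofNat (nat_lit 60316195),Int.negSucc (nat_lit 117431818),Int.negSucc (nat_lit 8966365),Int.negSucc (nat_lit 126893674),Int.negSucc (nat_lit 89729055),Int.ofNat (nat_lit 71662874),Int.ofNat (nat_lit 33153981),Int.negSucc (nat_lit 50903174),Int.ofNat (nat_lit 4448936),Int.negSucc (nat_lit 30701190),Int.negSucc (nat_lit 46907547),Int.negSucc (nat_lit 93968821),Int.negSucc (nat_lit 82217926),Int.negSucc (nat_lit 6173530),Int.negSucc (nat_lit 40717957),Int.negSucc (nat_lit 51011359),Int.negSucc (nat_lit 91541338),Int.negSucc (nat_lit 8015649),Int.ofNat (nat_lit 53329306),Int.ofNat (nat_lit 29007724),Int.ofNat (nat_lit 11480643),Int.negSucc (nat_lit 11391424),Int.ofNat (nat_lit 13888888),Int.negSucc (nat_lit 1641039),Int.negSucc (nat_lit 9235408),Int.ofNat (nat_lit 13316533),Int.negSucc (nat_lit 8060518),Int.negSucc (nat_lit 25526217),Int.negSucc (nat_lit 2863117),Int.negSucc (nat_lit 3953427),Int.negSucc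 (nat_lit 7992124),Int.negSucc (nat_lit 2329396),Int.negSucc (nat_lit 2189387),Int.ofNat (nat_lit 7127810),Int.negSucc (nat_lit 3891215),Int.negSucc (nat_lit 2123908),Int.negSucc (nat_lit 3159590),Int.ofNat (nat_lit 2665800),Int.ofNat (nat_lit 14182947),Int.negSucc (nat_lit 4261431),Int.ofNat (nat_lit 17703336),Int.ofNat (nat_lit 13905221),Int.negSucc (nat_lit 11860858),Int.negSucc (nat_lit 9135315),Int.negSucc (nat_lit 5200874),Int.negSucc (nat_lit 749412),Int.negSucc (nat_lit 6097552),Int.negSucc (nat_lit 3071942),Int.ofNat (nat_lit 449273),Int.negSucc (nat_lit 3193074),Int.negSucc (nat_lit 2203416),Int.ofNat (nat_lit 8366330),Int.ofNat (nat_lit 18197370),Int.negSucc (nat_lit 1025450),Int.ofNat (nat_lit 1880883),Int.ofNat (nat_lit 9682947),Int.ofNat (nat_lit 2869488),Int.ofNat (nat_lit 10247834),Int.negSucc (nat_lit 5587466),Int.negSucc (nat_lit 8293028),Int.negSucc (nat_lit 13905182),Int.negSucc (nat_lit 16796393),Int.negSucc (nat_lit 7792361),Int.negSucc (nat_lit 20280127),Int.negSucc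 (nat_lit 10489799),Int.negSucc (nat_lit 30058),Int.negSucc (nat_lit 4307367),Int.ofNat (nat_lit 6408639),Int.ofNat (nat_lit 3205867),Int.negSucc (nat_lit 2935891),Int.negSucc (nat_lit 17257019),Int.ofNat (nat_lit 2481698),Int.ofNat (nat_lit 16372796),Int.ofNat (nat_lit 4719943),Int.ofNat (nat_lit 3901600),Int.negSucc (nat_lit 28301787),Int.ofNat (nat_lit 3592867),Int.negSucc (nat_lit 10577672),Int.negSucc (nat_lit 11968482),Int.ofNat (nat_lit 4047687),Int.negSucc (nat_lit 8311800),Int.ofNat (nat_lit 5875029),Int.ofNat (nat_lit 8686555),Int.ofNat (nat_lit 1746890),Int.negSucc (nat_lit 2420694),Int.negSucc (nat_lit 20513427),Int.ofNat (nat_lit 10232782),Int.ofNat (nat_lit 17527387),Int.negSucc (nat_lit 3434288),Int.ofNat (nat_lit 6807021),Int.ofNat (nat_lit 5310114),Int.ofNat (nat_lit 19908867),Int.negSucc (nat_lit 21483378),Int.ofNat (nat_lit 2178160),Int.negSucc (nat_lit 16048925),Int.ofNat (nat_lit 3052677),Int.negSucc (nat_lit 2739862),Int.negSucc (nat_lit 746925),Int.negSucc (nat_lit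 6482251),Int.negSucc (nat_lit 2155958),Int.ofNat (nat_lit 9021570),Int.ofNat (nat_lit 2558503),Int.ofNat (nat_lit 13120155),Int.negSucc (nat_lit 1993204),Int.ofNat (nat_lit 12597850),Int.negSucc (nat_lit 8047286),Int.negSucc (nat_lit 11496255),Int.ofNat (nat_lit 10082223),Int.ofNat (nat_lit 14276357),Int.ofNat (nat_lit 879126),Int.ofNat (nat_lit 7900534),Int.negSucc (nat_lit 7685978),Int.ofNat (nat_lit 10396727),Int.negSucc (nat_lit 11424539),Int.negSucc (nat_lit 9627538),Int.ofNat (nat_lit 12441889),Int.ofNat (nat_lit 1048573),Int.ofNat (nat_lit 7806914),Int.ofNat (nat_lit 8307851),Int.ofNat (nat_lit 17918205),Int.negSucc (nat_lit 5409170),Int.ofNat (nat_lit 3418751),Int.ofNat (nat_lit 5607049),Int.negSucc (nat_lit 70177),Int.ofNat (nat_lit 514054),Int.ofNat (nat_lit 5361004),Int.ofNat (nat_lit 5055741),Int.ofNat (nat_lit 1366251),Int.negSucc (nat_lit 1036132),Int.ofNat (nat_lit 7030140),Int.negSucc (nat_lit 2096493),Int.ofNat (nat_lit 1626942),Int.negSucc (nat_lit 2556426),Int.negSucc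 (nat_lit 6040543),Int.ofNat (nat_lit 7723062),Int.ofNat (nat_lit 6199004),Int.negSucc (nat_lit 1331029),Int.negSucc (nat_lit 3921952),Int.ofNat (nat_lit 1369124),Int.ofNat (nat_lit 5215798),Int.ofNat (nat_lit 6830076),Int.ofNat (nat_lit 15940612),Int.ofNat (nat_lit 2774305),Int.ofNat (nat_lit 5429998),Int.ofNat (nat_lit 13672394),Int.negSucc (nat_lit 3071681),Int.negSucc (nat_lit 3425610),Int.negSucc (nat_lit 4081605),Int.negSucc (nat_lit 5125342),Int.ofNat (nat_lit 18101908),Int.ofNat (nat_lit 10496233),Int.ofNat (nat_lit 5239739),Int.negSucc (nat_lit 667175),Int.ofNat (nat_lit 1709196),Int.ofNat (nat_lit 12167431),Int.ofNat (nat_lit 3818406),Int.ofNat (nat_lit 3531344),Int.ofNat (nat_lit 21511736),Int.negSucc (nat_lit 1773576),Int.ofNat (nat_lit 7879664),Int.ofNat (nat_lit 9044745),Int.ofNat (nat_lit 8449254),Int.negSucc (nat_lit 6162197),Int.ofNat (nat_lit 3432233),Int.negSucc (nat_lit 7296461),Int.ofNat (nat_lit 15496747),Int.negSucc (nat_lit 2959408),Int.negSucc (nat_lit 9771880),Int.negSucc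 (nat_lit 9598420),Int.negSucc (nat_lit 4528934),Int.negSucc (nat_lit 5457642),Int.negSucc (nat_lit 4609654),Int.negSucc (nat_lit 5156054),Int.ofNat (nat_lit 4226820),Int.negSucc (nat_lit 6232415),Int.negSucc (nat_lit 12465740),Int.negSucc (nat_lit 13580243),Int.negSucc (nat_lit 6150020),Int.negSucc (nat_lit 2616330),Int.negSucc (nat_lit 1090580),Int.ofNat (nat_lit 902329),Int.ofNat (nat_lit 44345342),Int.ofNat (nat_lit 57265643),Int.negSucc (nat_lit 10655560),Int.ofNat (nat_lit 7353199),Int.negSucc (nat_lit 24254939),Int.negSucc (nat_lit 28024281),Int.ofNat (nat_lit 150031388)])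

/-- A row. -/
noncomputable def sr7_c5_7 : List ℕ × List ℤ :=
  ([(nat_lit 0),(nat_lit 1),(nat_lit 0),(nat_lit 1),(nat_lit 0),(nat_lit 0),(nat_lit 0),(nat_lit 0),(nat_lit 0),(nat_lit 0),(nat_lit 0),(nat_lit 0)], [Int.ofNat (nat_lit 960412029),Int.ofNat (nat_lit 20636870),Int.ofNat (nat_lit 361602836),Int.negSucc (nat_lit 46997211),Int.ofNat (nat_lit 576449624),Int.ofNat (nat_lit 604377635),Int.negSucc (nat_lit 88731452),Int.negSucc (nat_lit 275248545),Int.ofNat (nat_lit 385757859),Int.negSucc (nat_lit 205051656),Int.ofNat (nat_lit 306798242),Int.ofNat (nat_lit 87781274),Int.ofNat (nat_lit 128862692),Int.ofNat (nat_lit 268468967),Int.negSucc (nat_lit 103084466),Int.negSucc (nat_lit 199036047),Int.ofNat (nat_lit 236755602),Int.negSucc (nat_lit 205491935),Int.ofNat (nat_lit 65202411),Int.negSucc (nat_lit 126466114),Int.ofNat (nat_lit 80888766),Int.ofNat (nat_lit 42264075),Int.ofNat (nat_lit 145628385),Int.negSucc (nat_lit 269136033),Int.negSucc (nat_lit 18719803),Int.ofNat (nat_lit 230706617),Int.ofNat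 (nat_lit 403455655),Int.ofNat (nat_lit 113482753),Int.negSucc (nat_lit 183791554),Int.ofNat (nat_lit 108872472),Int.ofNat (nat_lit 98670436),Int.ofNat (nat_lit 109571507),Int.ofNat (nat_lit 74473980),Int.negSucc (nat_lit 120036261),Int.ofNat (nat_lit 127705156),Int.ofNat (nat_lit 63890852),Int.negSucc (nat_lit 30776209),Int.negSucc (nat_lit 41584728),Int.ofNat (nat_lit 114762399),Int.ofNat (nat_lit 42036565),Int.negSucc (nat_lit 32455772),Int.negSucc (nat_lit 46035134),Int.negSucc (nat_lit 110571413),Int.ofNat (nat_lit 22934844),Int.negSucc (nat_lit 4663040),Int.negSucc (nat_lit 168999890),Int.ofNat (nat_lit 68968060),Int.ofNat (nat_lit 9098284),Int.ofNat (nat_lit 1057062),Int.ofNat (nat_lit 54859036),Int.negSucc (nat_lit 123960138),Int.negSucc (nat_lit 112825606),Int.negSucc (nat_lit 119867613),Int.ofNat (nat_lit 83651349),Int.ofNat (nat_lit 60770193),Int.negSucc (nat_lit 70930574),Int.ofNat (nat_lit 4463184),Int.ofNat (nat_lit 85160917),Int.negSucc (nat_lit 48228702),Int.ofNat (nat_lit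 25645110),Int.negSucc (nat_lit 9803342),Int.negSucc (nat_lit 80156341),Int.ofNat (nat_lit 66600582),Int.negSucc (nat_lit 182033370),Int.ofNat (nat_lit 116393900),Int.ofNat (nat_lit 2704489),Int.negSucc (nat_lit 93651414),Int.ofNat (nat_lit 203305191),Int.ofNat (nat_lit 111364466),Int.negSucc (nat_lit 19963404),Int.ofNat (nat_lit 79071316),Int.negSucc (nat_lit 111321918),Int.negSucc (nat_lit 17732645),Int.ofNat (nat_lit 47005431),Int.ofNat (nat_lit 27857324),Int.negSucc (nat_lit 112801144),Int.negSucc (nat_lit 32218787),Int.ofNat (nat_lit 28208698),Int.ofNat (nat_lit 30185139),Int.negSucc (nat_lit 56699778),Int.ofNat (nat_lit 34916183),Int.negSucc (nat_lit 50050391),Int.negSucc (nat_lit 5037926),Int.ofNat (nat_lit 2020240),Int.ofNat (nat_lit 7878577),Int.ofNat (nat_lit 71815836),Int.negSucc (nat_lit 100585170),Int.negSucc (nat_lit 35129068),Int.negSucc (nat_lit 10465385),Int.negSucc (nat_lit 43088667),Int.ofNat (nat_lit 35576775),Int.negSucc (nat_lit 97518756),Int.negSucc (nat_lit 53955933),Int.negSucc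 (nat_lit 12783641),Int.ofNat (nat_lit 5237305),Int.negSucc (nat_lit 46431949),Int.negSucc (nat_lit 43612351),Int.ofNat (nat_lit 4062761),Int.negSucc (nat_lit 18218702),Int.negSucc (nat_lit 53822386),Int.negSucc (nat_lit 38606253),Int.ofNat (nat_lit 44452348),Int.ofNat (nat_lit 67380774),Int.ofNat (nat_lit 870365),Int.negSucc (nat_lit 20166264),Int.negSucc (nat_lit 5291504),Int.ofNat (nat_lit 42768847),Int.negSucc (nat_lit 8750062),Int.negSucc (nat_lit 64040699),Int.negSucc (nat_lit 66133964),Int.ofNat (nat_lit 46670345),Int.negSucc (nat_lit 63001976),Int.negSucc (nat_lit 36897267),Int.negSucc (nat_lit 51007388),Int.ofNat (nat_lit 34428390),Int.negSucc (nat_lit 3812231),Int.negSucc (nat_lit 716972),Int.negSucc (nat_lit 5085409),Int.negSucc (nat_lit 96813731),Int.negSucc (nat_lit 79324231),Int.ofNat (nat_lit 8602326),Int.negSucc (nat_lit 28107965),Int.ofNat (nat_lit 32544749),Int.negSucc (nat_lit 18986685),Int.ofNat (nat_lit 1767938),Int.negSucc (nat_lit 1422122),Int.ofNat (nat_lit 6555939),Int.ofNat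 (nat_lit 45368554),Int.ofNat (nat_lit 6993896),Int.negSucc (nat_lit 53611464),Int.negSucc (nat_lit 62275643),Int.ofNat (nat_lit 40780466),Int.negSucc (nat_lit 71182582),Int.ofNat (nat_lit 48101599),Int.ofNat (nat_lit 22713801),Int.ofNat (nat_lit 26186211),Int.negSucc (nat_lit 24543189),Int.negSucc (nat_lit 44197488),Int.negSucc (nat_lit 58316351),Int.negSucc (nat_lit 18140157),Int.negSucc (nat_lit 27281282),Int.ofNat (nat_lit 34807465),Int.ofNat (nat_lit 8666603),Int.ofNat (nat_lit 4929067),Int.ofNat (nat_lit 11961576),Int.ofNat (nat_lit 32917505),Int.ofNat (nat_lit 18998464),Int.negSucc (nat_lit 74808685),Int.negSucc (nat_lit 34127962),Int.negSucc (nat_lit 6528790),Int.ofNat (nat_lit 4227228),Int.ofNat (nat_lit 27077921),Int.ofNat (nat_lit 6990490),Int.ofNat (nat_lit 96141919),Int.negSucc (nat_lit 25739861),Int.negSucc (nat_lit 47020188),Int.ofNat (nat_lit 23852882),Int.ofNat (nat_lit 14200791),Int.ofNat (nat_lit 34581799),Int.negSucc (nat_lit 31080939),Int.ofNat (nat_lit 49444276),Int.negSucc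 (nat_lit 14258072),Int.ofNat (nat_lit 71993401),Int.negSucc (nat_lit 61587306),Int.negSucc (nat_lit 39528775),Int.negSucc (nat_lit 13964781),Int.negSucc (nat_lit 86544245),Int.ofNat (nat_lit 33136544),Int.ofNat (nat_lit 45188722),Int.ofNat (nat_lit 31955236),Int.ofNat (nat_lit 52201508),Int.negSucc (nat_lit 19782824),Int.negSucc (nat_lit 34689136),Int.ofNat (nat_lit 21030727),Int.ofNat (nat_lit 2031932),Int.negSucc (nat_lit 54546710),Int.ofNat (nat_lit 9856552),Int.negSucc (nat_lit 28017088),Int.negSucc (nat_lit 27429130),Int.ofNat (nat_lit 39084352),Int.ofNat (nat_lit 11561185),Int.negSucc (nat_lit 27488645),Int.ofNat (nat_lit 3254842),Int.ofNat (nat_lit 19292473),Int.ofNat (nat_lit 29124364),Int.ofNat (nat_lit 1252082),Int.ofNat (nat_lit 31477634),Int.ofNat (nat_lit 68369668),Int.ofNat (nat_lit 20807587),Int.ofNat (nat_lit 12676425),Int.ofNat (nat_lit 27922316),Int.ofNat (nat_lit 49810858),Int.ofNat (nat_lit 16079586),Int.negSucc (nat_lit 15269549),Int.ofNat (nat_lit 28548471),Int.negSucc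 (nat_lit 49468735),Int.negSucc (nat_lit 23318030),Int.negSucc (nat_lit 20780729),Int.negSucc (nat_lit 3810553),Int.ofNat (nat_lit 56918831),Int.ofNat (nat_lit 38179329),Int.negSucc (nat_lit 31906175),Int.negSucc (nat_lit 1514953),Int.ofNat (nat_lit 27494660),Int.negSucc (nat_lit 39156251),Int.negSucc (nat_lit 15047914),Int.negSucc (nat_lit 17716296),Int.ofNat (nat_lit 50152697),Int.ofNat (nat_lit 74479457),Int.ofNat (nat_lit 14573369),Int.negSucc (nat_lit 12695395),Int.negSucc (nat_lit 1541661),Int.negSucc (nat_lit 39821301),Int.ofNat (nat_lit 9137959),Int.ofNat (nat_lit 28840464),Int.negSucc (nat_lit 56656453),Int.negSucc (nat_lit 52571767),Int.negSucc (nat_lit 120347003),Int.negSucc (nat_lit 6825817),Int.ofNat (nat_lit 41230489),Int.negSucc (nat_lit 17674663),Int.negSucc (nat_lit 39303578),Int.ofNat (nat_lit 65938824),Int.negSucc (nat_lit 106904231),Int.negSucc (nat_lit 43575428),Int.ofNat (nat_lit 25825579),Int.ofNat (nat_lit 3714197),Int.ofNat (nat_lit 18699013),Int.negSucc (nat_lit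 32801217),Int.negSucc (nat_lit 19312470),Int.negSucc (nat_lit 146653675),Int.ofNat (nat_lit 102579834),Int.negSucc (nat_lit 86122178),Int.negSucc (nat_lit 382890174),Int.negSucc (nat_lit 117941787),Int.negSucc (nat_lit 106250497),Int.ofNat (nat_lit 62940365),Int.ofNat (nat_lit 569183457)])

/-- A row. -/
noncomputable def sr7_c5_8 : List ℕ × List ℤ :=
  ([(nat_lit 0),(nat_lit 2),(nat_lit 0),(nat_lit 0),(nat_lit 0),(nat_lit 0),(nat_lit 0),(nat_lit 0),(nat_lit 0),(nat_lit 0),(nat_lit 0),(nat_lit 0)], [Int.negSucc (nat_lit 940282286),Int.ofNat (nat_lit 267652087),Int.negSucc (nat_lit 989541098),Int.negSucc (nat_lit 3410943),Int.negSucc (nat_lit 787838081),Int.negSucc (nat_lit 780449725),Int.negSucc (nat_lit 60166789),Int.ofNat (nat_lit 552338733),Int.negSucc (nat_lit 1045209606),Int.ofNat (nat_lit 505810430),Int.negSucc (nat_lit 613208052),Int.negSucc (nat_lit 437981611),Int.negSucc (nat_lit 363903155),Int.negSucc (nat_lit 538509164),Int.ofNat (nat_lit 561609111),Int.ofNat (nat_lit 191083484),Int.negSucc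 (nat_lit 407184038),Int.ofNat (nat_lit 41690987),Int.negSucc (nat_lit 181637874),Int.ofNat (nat_lit 253370766),Int.negSucc (nat_lit 167626454),Int.negSucc (nat_lit 27793332),Int.negSucc (nat_lit 63343286),Int.ofNat (nat_lit 403408178),Int.ofNat (nat_lit 60458391),Int.negSucc (nat_lit 127832449),Int.negSucc (nat_lit 866034098),Int.negSucc (nat_lit 153746946),Int.ofNat (nat_lit 608928566),Int.negSucc (nat_lit 375375656),Int.negSucc (nat_lit 196156337),Int.negSucc (nat_lit 97161145),Int.negSucc (nat_lit 15269729),Int.ofNat (nat_lit 198876126),Int.negSucc (nat_lit 97468437),Int.ofNat (nat_lit 100790099),Int.ofNat (nat_lit 62657251),Int.ofNat (nat_lit 35513906),Int.negSucc (nat_lit 171227890),Int.negSucc (nat_lit 22883646),Int.negSucc (nat_lit 52742626),Int.negSucc (nat_lit 35506378),Int.ofNat (nat_lit 258564859),Int.negSucc (nat_lit 165056485),Int.ofNat (nat_lit 48733289),Int.ofNat (nat_lit 304286335),Int.negSucc (nat_lit 160237955),Int.ofNat (nat_lit 72708467),Int.ofNat (nat_lit 133640589),Int.negSucc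 (nat_lit 128873485),Int.ofNat (nat_lit 211178397),Int.ofNat (nat_lit 215398138),Int.ofNat (nat_lit 26633857),Int.negSucc (nat_lit 135350740),Int.ofNat (nat_lit 1048462),Int.ofNat (nat_lit 121387497),Int.ofNat (nat_lit 25557392),Int.negSucc (nat_lit 96893054),Int.ofNat (nat_lit 179963569),Int.ofNat (nat_lit 10215725),Int.ofNat (nat_lit 59795657),Int.ofNat (nat_lit 120715403),Int.negSucc (nat_lit 62118620),Int.ofNat (nat_lit 271451848),Int.negSucc (nat_lit 203017796),Int.ofNat (nat_lit 28353792),Int.negSucc (nat_lit 15965496),Int.negSucc (nat_lit 256848191),Int.negSucc (nat_lit 87199774),Int.negSucc (nat_lit 95012462),Int.negSucc (nat_lit 118438967),Int.ofNat (nat_lit 87051824),Int.negSucc (nat_lit 16866327),Int.negSucc (nat_lit 30830688),Int.ofNat (nat_lit 7757174),Int.ofNat (nat_lit 58536933),Int.ofNat (nat_lit 175255585),Int.negSucc (nat_lit 29442503),Int.ofNat (nat_lit 28337395),Int.ofNat (nat_lit 12063131),Int.negSucc (nat_lit 85634308),Int.ofNat (nat_lit 129810687),Int.negSucc (nat_lit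 28237726),Int.ofNat (nat_lit 68296619),Int.negSucc (nat_lit 54168618),Int.negSucc (nat_lit 123973186),Int.ofNat (nat_lit 7343579),Int.ofNat (nat_lit 63763649),Int.ofNat (nat_lit 45044227),Int.ofNat (nat_lit 166084596),Int.ofNat (nat_lit 50339510),Int.ofNat (nat_lit 98037195),Int.ofNat (nat_lit 87385354),Int.negSucc (nat_lit 37358553),Int.ofNat (nat_lit 131930401),Int.ofNat (nat_lit 60751789),Int.ofNat (nat_lit 35183319),Int.ofNat (nat_lit 71280890),Int.negSucc (nat_lit 43039391),Int.ofNat (nat_lit 91096272),Int.ofNat (nat_lit 79182137),Int.negSucc (nat_lit 52977457),Int.negSucc (nat_lit 32322871),Int.ofNat (nat_lit 50140952),Int.ofNat (nat_lit 7459305),Int.ofNat (nat_lit 33477205),Int.negSucc (nat_lit 102057033),Int.negSucc (nat_lit 2358336),Int.ofNat (nat_lit 82709005),Int.ofNat (nat_lit 116979468),Int.negSucc (nat_lit 29790182),Int.ofNat (nat_lit 74661949),Int.ofNat (nat_lit 56213424),Int.ofNat (nat_lit 34820190),Int.negSucc (nat_lit 39863166),Int.ofNat (nat_lit 45297686),Int.negSucc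 (nat_lit 59888423),Int.negSucc (nat_lit 50167548),Int.ofNat (nat_lit 92403051),Int.ofNat (nat_lit 76295238),Int.negSucc (nat_lit 62119247),Int.ofNat (nat_lit 14867161),Int.negSucc (nat_lit 55753044),Int.ofNat (nat_lit 41626166),Int.ofNat (nat_lit 15542335),Int.negSucc (nat_lit 13213947),Int.ofNat (nat_lit 12573163),Int.negSucc (nat_lit 43576131),Int.ofNat (nat_lit 13381651),Int.ofNat (nat_lit 76353319),Int.ofNat (nat_lit 35642996),Int.negSucc (nat_lit 77590611),Int.ofNat (nat_lit 43353346),Int.negSucc (nat_lit 51988671),Int.negSucc (nat_lit 11996200),Int.ofNat (nat_lit 11880082),Int.ofNat (nat_lit 87527169),Int.ofNat (nat_lit 53760357),Int.ofNat (nat_lit 72586457),Int.ofNat (nat_lit 24232458),Int.ofNat (nat_lit 62273060),Int.negSucc (nat_lit 436923),Int.ofNat (nat_lit 28772926),Int.ofNat (nat_lit 6688891),Int.negSucc (nat_lit 11162204),Int.negSucc (nat_lit 88774937),Int.negSucc (nat_lit 11066051),Int.ofNat (nat_lit 82077997),Int.negSucc (nat_lit 29988238),Int.ofNat (nat_lit 5101437),Int.negSucc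 (nat_lit 20736954),Int.negSucc (nat_lit 95933858),Int.ofNat (nat_lit 24216693),Int.negSucc (nat_lit 83290516),Int.negSucc (nat_lit 3207705),Int.ofNat (nat_lit 120634896),Int.ofNat (nat_lit 13539290),Int.ofNat (nat_lit 23905170),Int.ofNat (nat_lit 10462286),Int.ofNat (nat_lit 16389445),Int.ofNat (nat_lit 21644617),Int.ofNat (nat_lit 8395604),Int.negSucc (nat_lit 102687555),Int.ofNat (nat_lit 96295076),Int.ofNat (nat_lit 18791416),Int.ofNat (nat_lit 25409702),Int.ofNat (nat_lit 103085797),Int.negSucc (nat_lit 52165574),Int.negSucc (nat_lit 74706717),Int.negSucc (nat_lit 71600477),Int.negSucc (nat_lit 99682547),Int.ofNat (nat_lit 46556753),Int.ofNat (nat_lit 40324522),Int.negSucc (nat_lit 27767594),Int.ofNat (nat_lit 19721504),Int.ofNat (nat_lit 110537876),Int.negSucc (nat_lit 19001857),Int.ofNat (nat_lit 45092296),Int.ofNat (nat_lit 44069154),Int.negSucc (nat_lit 38049743),Int.ofNat (nat_lit 9788333),Int.ofNat (nat_lit 115583025),Int.negSucc (nat_lit 45681971),Int.ofNat (nat_lit 13932358),Int.ofNat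 (nat_lit 28457217),Int.ofNat (nat_lit 86385442),Int.ofNat (nat_lit 9107905),Int.negSucc (nat_lit 123190615),Int.ofNat (nat_lit 11182791),Int.negSucc (nat_lit 2005206),Int.negSucc (nat_lit 21639395),Int.negSucc (nat_lit 72457543),Int.negSucc (nat_lit 43047718),Int.ofNat (nat_lit 22891483),Int.ofNat (nat_lit 9669682),Int.ofNat (nat_lit 37977310),Int.ofNat (nat_lit 3218237),Int.ofNat (nat_lit 11602007),Int.negSucc (nat_lit 216972),Int.negSucc (nat_lit 77202542),Int.negSucc (nat_lit 80118011),Int.ofNat (nat_lit 40470223),Int.ofNat (nat_lit 56048715),Int.negSucc (nat_lit 27411244),Int.ofNat (nat_lit 23313806),Int.ofNat (nat_lit 29384814),Int.ofNat (nat_lit 33507941),Int.negSucc (nat_lit 5891225),Int.negSucc (nat_lit 83600124),Int.ofNat (nat_lit 30303326),Int.ofNat (nat_lit 34897856),Int.ofNat (nat_lit 6383262),Int.ofNat (nat_lit 52127079),Int.negSucc (nat_lit 8165625),Int.negSucc (nat_lit 79620836),Int.ofNat (nat_lit 27890973),Int.ofNat (nat_lit 27342584),Int.ofNat (nat_lit 166526280),Int.ofNat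 (nat_lit 66765135),Int.negSucc (nat_lit 36140860),Int.negSucc (nat_lit 26334192),Int.negSucc (nat_lit 46018198),Int.negSucc (nat_lit 111922605),Int.ofNat (nat_lit 39716252),Int.ofNat (nat_lit 86762922),Int.negSucc (nat_lit 89683974),Int.ofNat (nat_lit 76330881),Int.negSucc (nat_lit 20220454),Int.ofNat (nat_lit 52730155),Int.ofNat (nat_lit 11106974),Int.negSucc (nat_lit 10927109),Int.ofNat (nat_lit 66732634),Int.negSucc (nat_lit 131662224),Int.ofNat (nat_lit 563914692),Int.ofNat (nat_lit 525337651),Int.ofNat (nat_lit 6808623),Int.negSucc (nat_lit 90218940),Int.negSucc (nat_lit 472565691),Int.ofNat (nat_lit 955779886)])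

/-- A row. -/
noncomputable def sr7_c5_9 : List ℕ × List ℤ :=
  ([(nat_lit 0),(nat_lit 2),(nat_lit 1),(nat_lit 0),(nat_lit 0),(nat_lit 0),(nat_lit 0),(nat_lit 0),(nat_lit 0),(nat_lit 0),(nat_lit 0),(nat_lit 0)], [Int.negSucc (nat_lit 334281989),Int.negSucc (nat_lit 183910378),Int.negSucc (nat_lit 401474011),Int.ofNat (nat_lit 135860044),Int.negSucc (nat_lit 367607086),Int.ofNat (nat_lit 155750882),Int.negSucc (nat_lit 59613428),Int.ofNat (nat_lit 171619478),Int.negSucc (nat_lit 411601319),Int.negSucc (nat_lit 97747024),Int.ofNat (nat_lit 61510704),Int.negSucc (nat_lit 293120313),Int.negSucc (nat_lit 164247471),Int.negSucc (nat_lit 119841078),Int.ofNat (nat_lit 96477020),Int.negSucc (nat_lit 26001987),Int.negSucc (nat_lit 21439425),Int.negSucc (nat_lit 294396826),Int.ofNat (nat_lit 25533818),Int.ofNat (nat_lit 33467668),Int.negSucc (nat_lit 193434010),Int.ofNat (nat_lit 95396606),Int.ofNat (nat_lit 183420225),Int.negSucc (nat_lit 128827311),Int.ofNat (nat_lit 221630013),Int.ofNat (nat_lit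 233613567),Int.negSucc (nat_lit 31095978),Int.ofNat (nat_lit 178973197),Int.negSucc (nat_lit 91526452),Int.negSucc (nat_lit 868197),Int.ofNat (nat_lit 78636665),Int.negSucc (nat_lit 192298673),Int.negSucc (nat_lit 13747955),Int.ofNat (nat_lit 194461694),Int.ofNat (nat_lit 60789783),Int.negSucc (nat_lit 51873861),Int.ofNat (nat_lit 32227513),Int.ofNat (nat_lit 60584676),Int.ofNat (nat_lit 61025160),Int.ofNat (nat_lit 98144836),Int.negSucc (nat_lit 15964654),Int.negSucc (nat_lit 77262377),Int.ofNat (nat_lit 32698817),Int.ofNat (nat_lit 28247728),Int.ofNat (nat_lit 69196076),Int.negSucc (nat_lit 15670302),Int.ofNat (nat_lit 34055603),Int.ofNat (nat_lit 75240776),Int.ofNat (nat_lit 59133103),Int.negSucc (nat_lit 33230252),Int.ofNat (nat_lit 50590525),Int.ofNat (nat_lit 6752752),Int.negSucc (nat_lit 75696371),Int.ofNat (nat_lit 61605947),Int.negSucc (nat_lit 84698639),Int.ofNat (nat_lit 22689664),Int.negSucc (nat_lit 7908408),Int.ofNat (nat_lit 40803500),Int.ofNat (nat_lit 114337727),Int.ofNat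 (nat_lit 106875432),Int.ofNat (nat_lit 91084572),Int.ofNat (nat_lit 110032101),Int.ofNat (nat_lit 84098111),Int.ofNat (nat_lit 178541067),Int.ofNat (nat_lit 4648423),Int.ofNat (nat_lit 3693153),Int.negSucc (nat_lit 25065841),Int.negSucc (nat_lit 2570124),Int.ofNat (nat_lit 51293906),Int.negSucc (nat_lit 55756078),Int.negSucc (nat_lit 64151230),Int.ofNat (nat_lit 36047103),Int.negSucc (nat_lit 25588685),Int.ofNat (nat_lit 48964845),Int.ofNat (nat_lit 76129851),Int.negSucc (nat_lit 50794857),Int.negSucc (nat_lit 53576607),Int.ofNat (nat_lit 39426182),Int.ofNat (nat_lit 104791461),Int.negSucc (nat_lit 75379964),Int.ofNat (nat_lit 51104426),Int.ofNat (nat_lit 41339452),Int.negSucc (nat_lit 53335746),Int.ofNat (nat_lit 8658530),Int.negSucc (nat_lit 1372232),Int.negSucc (nat_lit 33340360),Int.negSucc (nat_lit 38552284),Int.ofNat (nat_lit 61417043),Int.ofNat (nat_lit 15263331),Int.ofNat (nat_lit 71969395),Int.ofNat (nat_lit 113749540),Int.ofNat (nat_lit 31952877),Int.ofNat (nat_lit 31876598),Int.ofNat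 (nat_lit 56114856),Int.ofNat (nat_lit 106071880),Int.ofNat (nat_lit 13384806),Int.ofNat (nat_lit 6180039),Int.negSucc (nat_lit 3204866),Int.ofNat (nat_lit 9247138),Int.ofNat (nat_lit 37177998),Int.negSucc (nat_lit 53211963),Int.ofNat (nat_lit 17279746),Int.negSucc (nat_lit 30506500),Int.negSucc (nat_lit 24675078),Int.negSucc (nat_lit 31233355),Int.ofNat (nat_lit 37542307),Int.negSucc (nat_lit 31842846),Int.negSucc (nat_lit 15383120),Int.negSucc (nat_lit 26563585),Int.ofNat (nat_lit 25664900),Int.ofNat (nat_lit 45232936),Int.ofNat (nat_lit 11793359),Int.ofNat (nat_lit 17950577),Int.negSucc (nat_lit 2948497),Int.negSucc (nat_lit 24312563),Int.ofNat (nat_lit 13053215),Int.negSucc (nat_lit 108644719),Int.negSucc (nat_lit 21312755),Int.negSucc (nat_lit 5959834),Int.negSucc (nat_lit 59405596),Int.negSucc (nat_lit 43455421),Int.ofNat (nat_lit 25340732),Int.negSucc (nat_lit 22381755),Int.ofNat (nat_lit 3250931),Int.ofNat (nat_lit 58761641),Int.negSucc (nat_lit 54757483),Int.ofNat (nat_lit 685653),Int.negSucc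 (nat_lit 13702951),Int.negSucc (nat_lit 49773437),Int.ofNat (nat_lit 7524546),Int.negSucc (nat_lit 8104992),Int.negSucc (nat_lit 32394016),Int.ofNat (nat_lit 12599409),Int.ofNat (nat_lit 43555088),Int.ofNat (nat_lit 26273228),Int.ofNat (nat_lit 45119060),Int.ofNat (nat_lit 123763429),Int.ofNat (nat_lit 20709834),Int.ofNat (nat_lit 41570838),Int.ofNat (nat_lit 11199991),Int.ofNat (nat_lit 24656139),Int.ofNat (nat_lit 8804365),Int.ofNat (nat_lit 54827421),Int.negSucc (nat_lit 65384023),Int.ofNat (nat_lit 10650927),Int.ofNat (nat_lit 2058089),Int.negSucc (nat_lit 49321619),Int.negSucc (nat_lit 13552322),Int.negSucc (nat_lit 22279639),Int.negSucc (nat_lit 1623314),Int.negSucc (nat_lit 40243721),Int.ofNat (nat_lit 21252769),Int.negSucc (nat_lit 30485044),Int.negSucc (nat_lit 53010768),Int.ofNat (nat_lit 55356969),Int.negSucc (nat_lit 3023483),Int.ofNat (nat_lit 24576549),Int.negSucc (nat_lit 8900559),Int.ofNat (nat_lit 29212523),Int.negSucc (nat_lit 34816751),Int.ofNat (nat_lit 93549644),Int.negSucc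 (nat_lit 4565101),Int.ofNat (nat_lit 4793403),Int.ofNat (nat_lit 9106720),Int.negSucc (nat_lit 25689340),Int.negSucc (nat_lit 24647075),Int.negSucc (nat_lit 11390361),Int.negSucc (nat_lit 75855100),Int.negSucc (nat_lit 14820852),Int.negSucc (nat_lit 34248086),Int.ofNat (nat_lit 35584295),Int.ofNat (nat_lit 37074985),Int.ofNat (nat_lit 26870936),Int.negSucc (nat_lit 11993324),Int.negSucc (nat_lit 503842),Int.ofNat (nat_lit 24467272),Int.ofNat (nat_lit 34562515),Int.ofNat (nat_lit 59584249),Int.negSucc (nat_lit 4360192),Int.ofNat (nat_lit 19551836),Int.ofNat (nat_lit 13367088),Int.ofNat (nat_lit 47564509),Int.ofNat (nat_lit 30449460),Int.ofNat (nat_lit 15376669),Int.ofNat (nat_lit 14760755),Int.ofNat (nat_lit 60508547),Int.ofNat (nat_lit 22519983),Int.negSucc (nat_lit 26024626),Int.negSucc (nat_lit 26529261),Int.negSucc (nat_lit 1832557),Int.negSucc (nat_lit 33038977),Int.ofNat (nat_lit 27612147),Int.ofNat (nat_lit 4784377),Int.negSucc (nat_lit 20894826),Int.ofNat (nat_lit 64496634),Int.ofNat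 (nat_lit 7714094),Int.negSucc (nat_lit 4382081),Int.ofNat (nat_lit 933255),Int.ofNat (nat_lit 1779653),Int.negSucc (nat_lit 43763894),Int.ofNat (nat_lit 15350259),Int.negSucc (nat_lit 32974611),Int.ofNat (nat_lit 21838433),Int.negSucc (nat_lit 27642283),Int.ofNat (nat_lit 2310660),Int.ofNat (nat_lit 36049896),Int.negSucc (nat_lit 2350637),Int.ofNat (nat_lit 21794550),Int.negSucc (nat_lit 60090769),Int.ofNat (nat_lit 17317841),Int.negSucc (nat_lit 31732887),Int.ofNat (nat_lit 8590966),Int.ofNat (nat_lit 18109210),Int.negSucc (nat_lit 7347245),Int.negSucc (nat_lit 48276924),Int.negSucc (nat_lit 4850138),Int.negSucc (nat_lit 32016751),Int.negSucc (nat_lit 8169735),Int.ofNat (nat_lit 22224600),Int.ofNat (nat_lit 61763659),Int.ofNat (nat_lit 38670794),Int.ofNat (nat_lit 36863384),Int.negSucc (nat_lit 42253394),Int.negSucc (nat_lit 71762049),Int.negSucc (nat_lit 7892184),Int.negSucc (nat_lit 48440086),Int.ofNat (nat_lit 67673085),Int.ofNat (nat_lit 26124720),Int.ofNat (nat_lit 21817052),Int.negSucc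 (nat_lit 8963902),Int.negSucc (nat_lit 37932713),Int.ofNat (nat_lit 84050802),Int.ofNat (nat_lit 17887952),Int.ofNat (nat_lit 99118315),Int.negSucc (nat_lit 26302550),Int.ofNat (nat_lit 181167024),Int.negSucc (nat_lit 82507867),Int.ofNat (nat_lit 153739078),Int.ofNat (nat_lit 485037924),Int.ofNat (nat_lit 639389060)])

/-- A row. -/
noncomputable def sr7_c5_10 : List ℕ × List ℤ :=
  ([(nat_lit 0),(nat_lit 4),(nat_lit 0),(nat_lit 0),(nat_lit 0),(nat_lit 0),(nat_lit 0),(nat_lit 0),(nat_lit 0),(nat_lit 0),(nat_lit 0),(nat_lit 0)], [Int.ofNat (nat_lit 99211323),Int.negSucc (nat_lit 201513714),Int.negSucc (nat_lit 218917702),Int.ofNat (nat_lit 308897336),Int.negSucc (nat_lit 197800365),Int.ofNat (nat_lit 436795504),Int.ofNat (nat_lit 330776641),Int.ofNat (nat_lit 222708149),Int.ofNat (nat_lit 392070380),Int.negSucc (nat_lit 109720726),Int.ofNat (nat_lit 354633395),Int.ofNat (nat_lit 361863949),Int.ofNat (nat_lit 59610605),Int.ofNat (nat_lit 270793700),Int.negSucc (nat_lit 220274165),Int.ofNat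 (nat_lit 229820868),Int.ofNat (nat_lit 169124723),Int.negSucc (nat_lit 65388560),Int.ofNat (nat_lit 262247664),Int.negSucc (nat_lit 179839091),Int.ofNat (nat_lit 122922883),Int.negSucc (nat_lit 27607062),Int.negSucc (nat_lit 583241189),Int.negSucc (nat_lit 306539049),Int.negSucc (nat_lit 6408108),Int.ofNat (nat_lit 212400794),Int.ofNat (nat_lit 280158671),Int.ofNat (nat_lit 46854818),Int.negSucc (nat_lit 372365163),Int.negSucc (nat_lit 83134915),Int.negSucc (nat_lit 141395456),Int.ofNat (nat_lit 35108046),Int.negSucc (nat_lit 101351313),Int.negSucc (nat_lit 7984841),Int.ofNat (nat_lit 120216516),Int.negSucc (nat_lit 102972957),Int.negSucc (nat_lit 42861524),Int.negSucc (nat_lit 49262110),Int.ofNat (nat_lit 96553318),Int.ofNat (nat_lit 222770604),Int.ofNat (nat_lit 190438376),Int.negSucc (nat_lit 35254708),Int.negSucc (nat_lit 111758943),Int.ofNat (nat_lit 160723578),Int.negSucc (nat_lit 108841764),Int.negSucc (nat_lit 193675053),Int.ofNat (nat_lit 126786682),Int.ofNat (nat_lit 1906459),Int.negSucc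 (nat_lit 377116346),Int.ofNat (nat_lit 132733030),Int.negSucc (nat_lit 52626582),Int.negSucc (nat_lit 117566566),Int.ofNat (nat_lit 46920745),Int.ofNat (nat_lit 58362688),Int.negSucc (nat_lit 117460458),Int.negSucc (nat_lit 147878053),Int.ofNat (nat_lit 35802756),Int.negSucc (nat_lit 35622506),Int.negSucc (nat_lit 108916396),Int.ofNat (nat_lit 95303616),Int.negSucc (nat_lit 62205606),Int.ofNat (nat_lit 14314400),Int.ofNat (nat_lit 168544707),Int.negSucc (nat_lit 85198728),Int.ofNat (nat_lit 136101414),Int.ofNat (nat_lit 61359568),Int.negSucc (nat_lit 7197233),Int.ofNat (nat_lit 194501735),Int.ofNat (nat_lit 57052493),Int.negSucc (nat_lit 100849658),Int.negSucc (nat_lit 1007944),Int.negSucc (nat_lit 3868927),Int.ofNat (nat_lit 22236294),Int.ofNat (nat_lit 2983810),Int.ofNat (nat_lit 11287456),Int.negSucc (nat_lit 15263505),Int.negSucc (nat_lit 177604992),Int.negSucc (nat_lit 61779646),Int.ofNat (nat_lit 83098619),Int.negSucc (nat_lit 13238925),Int.ofNat (nat_lit 53952822),Int.negSucc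 (nat_lit 7126547),Int.negSucc (nat_lit 25141404),Int.negSucc (nat_lit 13536063),Int.ofNat (nat_lit 83506699),Int.ofNat (nat_lit 129228844),Int.ofNat (nat_lit 171015595),Int.negSucc (nat_lit 11981427),Int.negSucc (nat_lit 6019465),Int.negSucc (nat_lit 142118799),Int.negSucc (nat_lit 264204504),Int.negSucc (nat_lit 115280509),Int.negSucc (nat_lit 69006845),Int.negSucc (nat_lit 759124),Int.negSucc (nat_lit 45060546),Int.ofNat (nat_lit 6789568),Int.ofNat (nat_lit 3677352),Int.negSucc (nat_lit 110468096),Int.ofNat (nat_lit 69874033),Int.ofNat (nat_lit 27384426),Int.negSucc (nat_lit 12572437),Int.ofNat (nat_lit 28958237),Int.negSucc (nat_lit 24701293),Int.negSucc (nat_lit 90773653),Int.ofNat (nat_lit 54182762),Int.negSucc (nat_lit 39609231),Int.ofNat (nat_lit 65967527),Int.negSucc (nat_lit 19772874),Int.negSucc (nat_lit 37277811),Int.negSucc (nat_lit 100204497),Int.ofNat (nat_lit 12250911),Int.ofNat (nat_lit 7912055),Int.negSucc (nat_lit 47557347),Int.negSucc (nat_lit 8674039),Int.negSucc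 (nat_lit 16015550),Int.negSucc (nat_lit 92072),Int.ofNat (nat_lit 14255428),Int.ofNat (nat_lit 11728245),Int.negSucc (nat_lit 45657164),Int.negSucc (nat_lit 79051413),Int.ofNat (nat_lit 29332045),Int.ofNat (nat_lit 64370233),Int.ofNat (nat_lit 47269414),Int.negSucc (nat_lit 24468058),Int.negSucc (nat_lit 18044305),Int.negSucc (nat_lit 11014147),Int.negSucc (nat_lit 35531426),Int.negSucc (nat_lit 36027815),Int.negSucc (nat_lit 72986681),Int.negSucc (nat_lit 42216979),Int.ofNat (nat_lit 38722771),Int.ofNat (nat_lit 23511295),Int.negSucc (nat_lit 3804432),Int.ofNat (nat_lit 8079644),Int.negSucc (nat_lit 5285064),Int.ofNat (nat_lit 4559238),Int.negSucc (nat_lit 26748546),Int.negSucc (nat_lit 34967099),Int.negSucc (nat_lit 31412378),Int.negSucc (nat_lit 63507845),Int.negSucc (nat_lit 15872390),Int.negSucc (nat_lit 27664186),Int.ofNat (nat_lit 6263244),Int.negSucc (nat_lit 13410235),Int.ofNat (nat_lit 21451248),Int.ofNat (nat_lit 111095371),Int.ofNat (nat_lit 56511096),Int.ofNat (nat_lit 77855459),Int.negSucc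 (nat_lit 37653608),Int.negSucc (nat_lit 41275232),Int.ofNat (nat_lit 2408331),Int.ofNat (nat_lit 50710933),Int.ofNat (nat_lit 22704837),Int.ofNat (nat_lit 121172943),Int.ofNat (nat_lit 103888680),Int.ofNat (nat_lit 24564525),Int.ofNat (nat_lit 8921644),Int.negSucc (nat_lit 21129640),Int.negSucc (nat_lit 26213624),Int.ofNat (nat_lit 4948249),Int.negSucc (nat_lit 25940712),Int.ofNat (nat_lit 29320018),Int.ofNat (nat_lit 29462110),Int.negSucc (nat_lit 82520442),Int.negSucc (nat_lit 39880533),Int.negSucc (nat_lit 109774455),Int.negSucc (nat_lit 48027941),Int.negSucc (nat_lit 18411288),Int.ofNat (nat_lit 972386),Int.ofNat (nat_lit 46730117),Int.ofNat (nat_lit 84512872),Int.negSucc (nat_lit 25036651),Int.ofNat (nat_lit 22133743),Int.ofNat (nat_lit 31808232),Int.negSucc (nat_lit 58215756),Int.negSucc (nat_lit 172563968),Int.ofNat (nat_lit 26120653),Int.negSucc (nat_lit 11732641),Int.negSucc (nat_lit 60108307),Int.negSucc (nat_lit 25080867),Int.negSucc (nat_lit 1484888),Int.negSucc (nat_lit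 96543866),Int.ofNat (nat_lit 44285497),Int.negSucc (nat_lit 53391330),Int.negSucc (nat_lit 5392707),Int.negSucc (nat_lit 33026524),Int.negSucc (nat_lit 53081923),Int.ofNat (nat_lit 69303803),Int.ofNat (nat_lit 38788970),Int.ofNat (nat_lit 74970411),Int.ofNat (nat_lit 28835335),Int.ofNat (nat_lit 82262782),Int.ofNat (nat_lit 30760994),Int.negSucc (nat_lit 6646896),Int.ofNat (nat_lit 19033842),Int.ofNat (nat_lit 11679086),Int.ofNat (nat_lit 24997652),Int.negSucc (nat_lit 26105051),Int.ofNat (nat_lit 8647178),Int.ofNat (nat_lit 25168835),Int.ofNat (nat_lit 47296565),Int.negSucc (nat_lit 30469759),Int.negSucc (nat_lit 97576344),Int.negSucc (nat_lit 15593238),Int.ofNat (nat_lit 38681071),Int.negSucc (nat_lit 4181375),Int.negSucc (nat_lit 38955345),Int.negSucc (nat_lit 33836768),Int.negSucc (nat_lit 8675703),Int.negSucc (nat_lit 30014527),Int.negSucc (nat_lit 45236360),Int.negSucc (nat_lit 10074254),Int.negSucc (nat_lit 32408147),Int.ofNat (nat_lit 20864120),Int.ofNat (nat_lit 17548265),Int.ofNat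 (nat_lit 33974442),Int.negSucc (nat_lit 35864799),Int.negSucc (nat_lit 71856097),Int.negSucc (nat_lit 37670195),Int.ofNat (nat_lit 20094487),Int.ofNat (nat_lit 65893867),Int.ofNat (nat_lit 19933021),Int.ofNat (nat_lit 37119947),Int.ofNat (nat_lit 10329321),Int.negSucc (nat_lit 23190522),Int.ofNat (nat_lit 52520795),Int.negSucc (nat_lit 43376320),Int.ofNat (nat_lit 21956445),Int.negSucc (nat_lit 26921042),Int.negSucc (nat_lit 2265772),Int.ofNat (nat_lit 45145324),Int.negSucc (nat_lit 378189),Int.ofNat (nat_lit 15402375),Int.negSucc (nat_lit 568128906),Int.negSucc (nat_lit 329811820),Int.ofNat (nat_lit 51582713),Int.ofNat (nat_lit 46150764),Int.ofNat (nat_lit 233333096),Int.negSucc (nat_lit 598869033),Int.ofNat (nat_lit 427517166),Int.ofNat (nat_lit 1050245149)])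

/-- A row. -/
noncomputable def sr7_c5_11 : List ℕ × List ℤ :=
  ([(nat_lit 1),(nat_lit 0),(nat_lit 0),(nat_lit 0),(nat_lit 0),(nat_lit 0),(nat_lit 0),(nat_lit 0),(nat_lit 0),(nat_lit 0),(nat_lit 0),(nat_lit 0)], [Int.ofNat (nat_lit 1394342411),Int.negSucc (nat_lit 483415930),Int.ofNat (nat_lit 605331542),Int.negSucc (nat_lit 203476060),Int.ofNat (nat_lit 340570082),Int.ofNat (nat_lit 711990129),Int.negSucc (nat_lit 164171193),Int.ofNat (nat_lit 99738176),Int.ofNat (nat_lit 404119657),Int.negSucc (nat_lit 213876503),Int.ofNat (nat_lit 377513692),Int.negSucc (nat_lit 185146438),Int.ofNat (nat_lit 105442823),Int.ofNat (nat_lit 57912286),Int.negSucc (nat_lit 51648242),Int.negSucc (nat_lit 229763343),Int.ofNat (nat_lit 227253369),Int.negSucc (nat_lit 244143665),Int.ofNat (nat_lit 131054221),Int.negSucc (nat_lit 345359556),Int.negSucc (nat_lit 60360844),Int.ofNat (nat_lit 235916960),Int.ofNat (nat_lit 211496754),Int.negSucc (nat_lit 256644491),Int.negSucc (nat_lit 56219668),Int.ofNat (nat_lit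 103231105),Int.ofNat (nat_lit 319875819),Int.ofNat (nat_lit 130268138),Int.negSucc (nat_lit 201721916),Int.ofNat (nat_lit 45560620),Int.ofNat (nat_lit 97843519),Int.ofNat (nat_lit 57348622),Int.negSucc (nat_lit 103799226),Int.ofNat (nat_lit 11726867),Int.ofNat (nat_lit 78588844),Int.negSucc (nat_lit 43648126),Int.negSucc (nat_lit 51267944),Int.ofNat (nat_lit 15417169),Int.ofNat (nat_lit 118635390),Int.ofNat (nat_lit 180394971),Int.negSucc (nat_lit 66475889),Int.negSucc (nat_lit 139830185),Int.negSucc (nat_lit 2814615),Int.negSucc (nat_lit 25210945),Int.ofNat (nat_lit 20942498),Int.negSucc (nat_lit 117724668),Int.negSucc (nat_lit 11609125),Int.negSucc (nat_lit 4464355),Int.ofNat (nat_lit 5691128),Int.ofNat (nat_lit 45212452),Int.negSucc (nat_lit 147935717),Int.ofNat (nat_lit 60742391),Int.negSucc (nat_lit 90730142),Int.ofNat (nat_lit 69949516),Int.ofNat (nat_lit 89881895),Int.ofNat (nat_lit 12154878),Int.negSucc (nat_lit 82824303),Int.ofNat (nat_lit 56947635),Int.ofNat (nat_lit 96935792),Int.ofNat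 (nat_lit 31796064),Int.ofNat (nat_lit 71052832),Int.ofNat (nat_lit 62984261),Int.ofNat (nat_lit 38374294),Int.negSucc (nat_lit 66559376),Int.ofNat (nat_lit 39712815),Int.negSucc (nat_lit 2713333),Int.negSucc (nat_lit 162290417),Int.ofNat (nat_lit 235138273),Int.ofNat (nat_lit 10829335),Int.ofNat (nat_lit 84399920),Int.negSucc (nat_lit 19591640),Int.negSucc (nat_lit 96101953),Int.negSucc (nat_lit 60343596),Int.negSucc (nat_lit 12994601),Int.ofNat (nat_lit 22286259),Int.negSucc (nat_lit 33530265),Int.ofNat (nat_lit 236068461),Int.negSucc (nat_lit 27737364),Int.ofNat (nat_lit 205288052),Int.negSucc (nat_lit 146404872),Int.negSucc (nat_lit 162797075),Int.ofNat (nat_lit 50496089),Int.ofNat (nat_lit 37285131),Int.ofNat (nat_lit 7774622),Int.ofNat (nat_lit 33123865),Int.ofNat (nat_lit 49168143),Int.negSucc (nat_lit 2732177),Int.negSucc (nat_lit 28089762),Int.negSucc (nat_lit 265925),Int.negSucc (nat_lit 86054835),Int.ofNat (nat_lit 81865637),Int.negSucc (nat_lit 90456226),Int.negSucc (nat_lit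 14114385),Int.ofNat (nat_lit 22596083),Int.negSucc (nat_lit 22228438),Int.negSucc (nat_lit 30396292),Int.negSucc (nat_lit 10121074),Int.negSucc (nat_lit 35686567),Int.ofNat (nat_lit 14539295),Int.negSucc (nat_lit 34355302),Int.ofNat (nat_lit 18677664),Int.ofNat (nat_lit 46286266),Int.negSucc (nat_lit 79168214),Int.negSucc (nat_lit 12218090),Int.ofNat (nat_lit 68300290),Int.ofNat (nat_lit 27773908),Int.negSucc (nat_lit 28692048),Int.ofNat (nat_lit 28398489),Int.ofNat (nat_lit 43264077),Int.negSucc (nat_lit 32880854),Int.ofNat (nat_lit 22059871),Int.negSucc (nat_lit 10613145),Int.negSucc (nat_lit 59740895),Int.negSucc (nat_lit 8209278),Int.ofNat (nat_lit 24411873),Int.negSucc (nat_lit 47350733),Int.ofNat (nat_lit 43433387),Int.ofNat (nat_lit 4859871),Int.negSucc (nat_lit 54712782),Int.negSucc (nat_lit 29770891),Int.negSucc (nat_lit 10453402),Int.negSucc (nat_lit 1748691),Int.ofNat (nat_lit 54265994),Int.negSucc (nat_lit 27844358),Int.ofNat (nat_lit 10351353),Int.ofNat (nat_lit 37304606),Int.negSucc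 (nat_lit 20080352),Int.ofNat (nat_lit 11552383),Int.negSucc (nat_lit 15645012),Int.negSucc (nat_lit 63503813),Int.negSucc (nat_lit 14812294),Int.ofNat (nat_lit 54570577),Int.negSucc (nat_lit 63944401),Int.ofNat (nat_lit 22119355),Int.negSucc (nat_lit 71634709),Int.negSucc (nat_lit 20962682),Int.ofNat (nat_lit 3856109),Int.ofNat (nat_lit 28490295),Int.ofNat (nat_lit 767277),Int.ofNat (nat_lit 60879787),Int.negSucc (nat_lit 96577946),Int.negSucc (nat_lit 37992120),Int.negSucc (nat_lit 17997547),Int.negSucc (nat_lit 45240102),Int.negSucc (nat_lit 15339049),Int.ofNat (nat_lit 56484005),Int.ofNat (nat_lit 41631731),Int.negSucc (nat_lit 54727897),Int.ofNat (nat_lit 36691418),Int.ofNat (nat_lit 2052779),Int.negSucc (nat_lit 490937),Int.negSucc (nat_lit 20949396),Int.negSucc (nat_lit 25429754),Int.ofNat (nat_lit 16586260),Int.negSucc (nat_lit 15287209),Int.ofNat (nat_lit 6640358),Int.negSucc (nat_lit 11722005),Int.ofNat (nat_lit 25357109),Int.ofNat (nat_lit 58496989),Int.negSucc (nat_lit 32185265),Int.ofNat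 (nat_lit 17711007),Int.ofNat (nat_lit 2174449),Int.ofNat (nat_lit 24327933),Int.negSucc (nat_lit 52935623),Int.negSucc (nat_lit 22628376),Int.negSucc (nat_lit 21746396),Int.negSucc (nat_lit 26565720),Int.ofNat (nat_lit 6399757),Int.negSucc (nat_lit 1098007),Int.ofNat (nat_lit 37189336),Int.ofNat (nat_lit 3016349),Int.negSucc (nat_lit 38122207),Int.ofNat (nat_lit 8632952),Int.ofNat (nat_lit 23678384),Int.negSucc (nat_lit 57217777),Int.negSucc (nat_lit 8091363),Int.negSucc (nat_lit 35728869),Int.negSucc (nat_lit 81573349),Int.negSucc (nat_lit 2533696),Int.ofNat (nat_lit 52420177),Int.ofNat (nat_lit 26897035),Int.negSucc (nat_lit 73014),Int.ofNat (nat_lit 35967080),Int.negSucc (nat_lit 3980509),Int.negSucc (nat_lit 14340202),Int.negSucc (nat_lit 3675212),Int.ofNat (nat_lit 6234950),Int.ofNat (nat_lit 39448059),Int.negSucc (nat_lit 10627479),Int.negSucc (nat_lit 8755638),Int.ofNat (nat_lit 19436192),Int.ofNat (nat_lit 15187693),Int.negSucc (nat_lit 13431544),Int.ofNat (nat_lit 34445649),Int.ofNat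 (nat_lit 30976539),Int.negSucc (nat_lit 23140683),Int.negSucc (nat_lit 1091871),Int.negSucc (nat_lit 21144642),Int.ofNat (nat_lit 4636717),Int.negSucc (nat_lit 3398047),Int.ofNat (nat_lit 16570152),Int.ofNat (nat_lit 5163733),Int.negSucc (nat_lit 22046254),Int.ofNat (nat_lit 19338222),Int.negSucc (nat_lit 2869147),Int.ofNat (nat_lit 9095558),Int.negSucc (nat_lit 9181884),Int.negSucc (nat_lit 34259104),Int.ofNat (nat_lit 7084232),Int.negSucc (nat_lit 17912793),Int.ofNat (nat_lit 49593524),Int.negSucc (nat_lit 16563804),Int.ofNat (nat_lit 11776237),Int.ofNat (nat_lit 43246922),Int.ofNat (nat_lit 21229429),Int.ofNat (nat_lit 35035138),Int.negSucc (nat_lit 47310912),Int.negSucc (nat_lit 89694783),Int.negSucc (nat_lit 25824181),Int.ofNat (nat_lit 62074516),Int.ofNat (nat_lit 784658),Int.negSucc (nat_lit 18663664),Int.ofNat (nat_lit 39456267),Int.negSucc (nat_lit 33009114),Int.negSucc (nat_lit 68886228),Int.ofNat (nat_lit 27270340),Int.negSucc (nat_lit 4471853),Int.negSucc (nat_lit 17574830),Int.ofNat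 (nat_lit 193152),Int.ofNat (nat_lit 2228036),Int.negSucc (nat_lit 701667574),Int.ofNat (nat_lit 201842936),Int.negSucc (nat_lit 160919548),Int.negSucc (nat_lit 135725662),Int.ofNat (nat_lit 129184216),Int.negSucc (nat_lit 49183529),Int.ofNat (nat_lit 7810379),Int.ofNat (nat_lit 17692342),Int.negSucc (nat_lit 133763454),Int.negSucc (nat_lit 44904049),Int.negSucc (nat_lit 2919036),Int.ofNat (nat_lit 291824679)])

/-- A row. -/
noncomputable def sr7_c5_12 : List ℕ × List ℤ :=
  ([(nat_lit 1),(nat_lit 0),(nat_lit 0),(nat_lit 0),(nat_lit 1),(nat_lit 0),(nat_lit 0),(nat_lit 0),(nat_lit 0),(nat_lit 0),(nat_lit 0),(nat_lit 0)], [Int.negSucc (nat_lit 329452722),Int.ofNat (nat_lit 222282308),Int.negSucc (nat_lit 318629854),Int.negSucc (nat_lit 141916897),Int.negSucc (nat_lit 117566024),Int.negSucc (nat_lit 205768565),Int.ofNat (nat_lit 200869090),Int.ofNat (nat_lit 185469168),Int.negSucc (nat_lit 32199017),Int.ofNat (nat_lit 911468),Int.negSucc (nat_lit 213168533),Int.negSucc (nat_lit 92777976),Int.ofNat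 (nat_lit 27342699),Int.negSucc (nat_lit 239534903),Int.ofNat (nat_lit 249809051),Int.ofNat (nat_lit 20502364),Int.negSucc (nat_lit 107917521),Int.ofNat (nat_lit 31000938),Int.negSucc (nat_lit 11910509),Int.ofNat (nat_lit 96681376),Int.negSucc (nat_lit 29990297),Int.negSucc (nat_lit 89063606),Int.negSucc (nat_lit 44575401),Int.ofNat (nat_lit 168916502),Int.negSucc (nat_lit 14177240),Int.negSucc (nat_lit 78886441),Int.negSucc (nat_lit 163924516),Int.negSucc (nat_lit 62751633),Int.ofNat (nat_lit 92965872),Int.negSucc (nat_lit 54535136),Int.negSucc (nat_lit 42645448),Int.ofNat (nat_lit 15160338),Int.ofNat (nat_lit 11763112),Int.negSucc (nat_lit 8726727),Int.negSucc (nat_lit 99596174),Int.ofNat (nat_lit 165142568),Int.ofNat (nat_lit 9420558),Int.ofNat (nat_lit 31081006),Int.negSucc (nat_lit 61605559),Int.negSucc (nat_lit 66871222),Int.ofNat (nat_lit 22504415),Int.ofNat (nat_lit 142091460),Int.ofNat (nat_lit 54705496),Int.negSucc (nat_lit 1322187),Int.negSucc (nat_lit 15591263),Int.ofNat (nat_lit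 66937189),Int.negSucc (nat_lit 56359970),Int.ofNat (nat_lit 48571353),Int.ofNat (nat_lit 18558319),Int.negSucc (nat_lit 46507169),Int.ofNat (nat_lit 111473073),Int.ofNat (nat_lit 22409833),Int.ofNat (nat_lit 110126320),Int.negSucc (nat_lit 10613956),Int.negSucc (nat_lit 42380111),Int.negSucc (nat_lit 4507495),Int.ofNat (nat_lit 96402348),Int.negSucc (nat_lit 55450962),Int.ofNat (nat_lit 21353741),Int.negSucc (nat_lit 24672262),Int.ofNat (nat_lit 8312849),Int.ofNat (nat_lit 35180673),Int.negSucc (nat_lit 18657015),Int.ofNat (nat_lit 24707492),Int.negSucc (nat_lit 7718848),Int.ofNat (nat_lit 61541873),Int.ofNat (nat_lit 58246428),Int.negSucc (nat_lit 64285939),Int.negSucc (nat_lit 47069283),Int.ofNat (nat_lit 49413230),Int.ofNat (nat_lit 59258331),Int.ofNat (nat_lit 8183315),Int.ofNat (nat_lit 63789809),Int.negSucc (nat_lit 38830721),Int.negSucc (nat_lit 28164939),Int.ofNat (nat_lit 25714701),Int.negSucc (nat_lit 17232756),Int.negSucc (nat_lit 35645789),Int.negSucc (nat_lit 110865982),Int.ofNat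 (nat_lit 22024649),Int.negSucc (nat_lit 22473415),Int.ofNat (nat_lit 2360171),Int.ofNat (nat_lit 525793),Int.ofNat (nat_lit 11123582),Int.negSucc (nat_lit 29373676),Int.negSucc (nat_lit 3210535),Int.negSucc (nat_lit 9571705),Int.negSucc (nat_lit 541150),Int.ofNat (nat_lit 20378856),Int.ofNat (nat_lit 29971385),Int.negSucc (nat_lit 3622877),Int.ofNat (nat_lit 28710219),Int.ofNat (nat_lit 20896666),Int.negSucc (nat_lit 1146811),Int.negSucc (nat_lit 6707753),Int.ofNat (nat_lit 12814268),Int.negSucc (nat_lit 4092709),Int.ofNat (nat_lit 17994235),Int.negSucc (nat_lit 11640231),Int.ofNat (nat_lit 20359803),Int.ofNat (nat_lit 21683978),Int.negSucc (nat_lit 29441337),Int.ofNat (nat_lit 39339387),Int.ofNat (nat_lit 36428344),Int.negSucc (nat_lit 11637135),Int.negSucc (nat_lit 15045028),Int.negSucc (nat_lit 13807784),Int.negSucc (nat_lit 11010059),Int.ofNat (nat_lit 19279018),Int.ofNat (nat_lit 21086314),Int.negSucc (nat_lit 4545634),Int.negSucc (nat_lit 8299712),Int.ofNat (nat_lit 29048991),Int.ofNat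 (nat_lit 11333655),Int.negSucc (nat_lit 1150113),Int.ofNat (nat_lit 12711076),Int.negSucc (nat_lit 8813510),Int.negSucc (nat_lit 4164529),Int.ofNat (nat_lit 37909135),Int.ofNat (nat_lit 20958080),Int.ofNat (nat_lit 22771774),Int.negSucc (nat_lit 2017611),Int.negSucc (nat_lit 12914991),Int.ofNat (nat_lit 41056581),Int.ofNat (nat_lit 11442053),Int.ofNat (nat_lit 2697266),Int.ofNat (nat_lit 13280743),Int.ofNat (nat_lit 3955859),Int.ofNat (nat_lit 7813005),Int.ofNat (nat_lit 39688886),Int.negSucc (nat_lit 18369993),Int.negSucc (nat_lit 33739017),Int.ofNat (nat_lit 17389985),Int.negSucc (nat_lit 16078797),Int.ofNat (nat_lit 24636171),Int.negSucc (nat_lit 2096778),Int.negSucc (nat_lit 15715311),Int.negSucc (nat_lit 12971179),Int.negSucc (nat_lit 10588590),Int.negSucc (nat_lit 5532749),Int.ofNat (nat_lit 15985731),Int.negSucc (nat_lit 11652685),Int.negSucc (nat_lit 11157687),Int.ofNat (nat_lit 22472348),Int.ofNat (nat_lit 23228797),Int.negSucc (nat_lit 11248986),Int.ofNat (nat_lit 2539231),Int.ofNat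 (nat_lit 14009366),Int.negSucc (nat_lit 24107281),Int.ofNat (nat_lit 849034),Int.negSucc (nat_lit 6166355),Int.negSucc (nat_lit 146738),Int.ofNat (nat_lit 18391263),Int.negSucc (nat_lit 16372433),Int.ofNat (nat_lit 729222),Int.ofNat (nat_lit 9689254),Int.ofNat (nat_lit 5995030),Int.ofNat (nat_lit 20074854),Int.ofNat (nat_lit 7944454),Int.ofNat (nat_lit 20578866),Int.negSucc (nat_lit 4431349),Int.negSucc (nat_lit 5382473),Int.negSucc (nat_lit 9202641),Int.ofNat (nat_lit 2112743),Int.negSucc (nat_lit 1372180),Int.ofNat (nat_lit 9007091),Int.negSucc (nat_lit 1118249),Int.ofNat (nat_lit 14202543),Int.negSucc (nat_lit 4247970),Int.negSucc (nat_lit 3105779),Int.negSucc (nat_lit 14065724),Int.ofNat (nat_lit 7164456),Int.ofNat (nat_lit 7702680),Int.ofNat (nat_lit 2753133),Int.ofNat (nat_lit 7160974),Int.ofNat (nat_lit 23823183),Int.ofNat (nat_lit 8772900),Int.negSucc (nat_lit 1686882),Int.negSucc (nat_lit 7411406),Int.negSucc (nat_lit 4682280),Int.negSucc (nat_lit 379022),Int.ofNat (nat_lit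 8119582),Int.negSucc (nat_lit 21876552),Int.negSucc (nat_lit 9699779),Int.negSucc (nat_lit 2715833),Int.ofNat (nat_lit 12357499),Int.negSucc (nat_lit 1329524),Int.negSucc (nat_lit 29349368),Int.ofNat (nat_lit 11262339),Int.ofNat (nat_lit 6388966),Int.negSucc (nat_lit 16276032),Int.negSucc (nat_lit 10433112),Int.ofNat (nat_lit 809380),Int.ofNat (nat_lit 10982094),Int.negSucc (nat_lit 20509441),Int.ofNat (nat_lit 8667708),Int.ofNat (nat_lit 14744290),Int.negSucc (nat_lit 451129),Int.ofNat (nat_lit 3930309),Int.negSucc (nat_lit 3162603),Int.negSucc (nat_lit 24370054),Int.negSucc (nat_lit 2098175),Int.ofNat (nat_lit 5787129),Int.negSucc (nat_lit 13584497),Int.ofNat (nat_lit 12323034),Int.ofNat (nat_lit 14704138),Int.negSucc (nat_lit 6575422),Int.ofNat (nat_lit 5224620),Int.negSucc (nat_lit 3443294),Int.ofNat (nat_lit 763897),Int.negSucc (nat_lit 8676957),Int.negSucc (nat_lit 4064619),Int.negSucc (nat_lit 13523681),Int.negSucc (nat_lit 9948987),Int.negSucc (nat_lit 3485602),Int.ofNat (nat_lit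 25760702),Int.ofNat (nat_lit 4924230),Int.ofNat (nat_lit 16868354),Int.ofNat (nat_lit 22709772),Int.negSucc (nat_lit 24769926),Int.negSucc (nat_lit 7192137),Int.ofNat (nat_lit 339281),Int.negSucc (nat_lit 7737984),Int.ofNat (nat_lit 13150901),Int.ofNat (nat_lit 20576041),Int.negSucc (nat_lit 1903845),Int.ofNat (nat_lit 7206535),Int.negSucc (nat_lit 877575),Int.ofNat (nat_lit 284508),Int.ofNat (nat_lit 5440773),Int.ofNat (nat_lit 150217868),Int.ofNat (nat_lit 11329767),Int.negSucc (nat_lit 216186610),Int.ofNat (nat_lit 44232764),Int.ofNat (nat_lit 7820006),Int.ofNat (nat_lit 11473704),Int.negSucc (nat_lit 6419811),Int.negSucc (nat_lit 12689359),Int.ofNat (nat_lit 2593533),Int.ofNat (nat_lit 1374984),Int.ofNat (nat_lit 9938863),Int.negSucc (nat_lit 3024089),Int.ofNat (nat_lit 51007761)])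

/-- A row. -/
noncomputable def sr7_c5_13 : List ℕ × List ℤ :=
  ([(nat_lit 1),(nat_lit 0),(nat_lit 1),(nat_lit 0),(nat_lit 0),(nat_lit 0),(nat_lit 0),(nat_lit 0),(nat_lit 0),(nat_lit 0),(nat_lit 0),(nat_lit 0)], [Int.ofNat (nat_lit 1129521521),Int.negSucc (nat_lit 14270418),Int.negSucc (nat_lit 471984891),Int.negSucc (nat_lit 114462579),Int.ofNat (nat_lit 301699242),Int.ofNat (nat_lit 774497405),Int.ofNat (nat_lit 43625676),Int.ofNat (nat_lit 427817911),Int.ofNat (nat_lit 271839160),Int.negSucc (nat_lit 35016521),Int.ofNat (nat_lit 52660373),Int.negSucc (nat_lit 259074740),Int.ofNat (nat_lit 48320575),Int.negSucc (nat_lit 276361039),Int.ofNat (nat_lit 455241057),Int.negSucc (nat_lit 252997846),Int.ofNat (nat_lit 211683393),Int.negSucc (nat_lit 281939254),Int.ofNat (nat_lit 199750980),Int.negSucc (nat_lit 148089962),Int.ofNat (nat_lit 10420459),Int.ofNat (nat_lit 143938908),Int.ofNat (nat_lit 223411925),Int.negSucc (nat_lit 54227564),Int.negSucc (nat_lit 109547246),Int.ofNat (nat_lit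 227540577),Int.ofNat (nat_lit 125232051),Int.negSucc (nat_lit 34938650),Int.negSucc (nat_lit 28122144),Int.ofNat (nat_lit 31802907),Int.ofNat (nat_lit 63678591),Int.ofNat (nat_lit 138230829),Int.negSucc (nat_lit 333936868),Int.negSucc (nat_lit 3920197),Int.ofNat (nat_lit 180109624),Int.ofNat (nat_lit 181991450),Int.negSucc (nat_lit 113245732),Int.negSucc (nat_lit 83443343),Int.ofNat (nat_lit 107532484),Int.ofNat (nat_lit 284506064),Int.ofNat (nat_lit 58167708),Int.negSucc (nat_lit 98804514),Int.negSucc (nat_lit 74476141),Int.negSucc (nat_lit 13979533),Int.negSucc (nat_lit 31701798),Int.negSucc (nat_lit 104728749),Int.negSucc (nat_lit 5746778),Int.ofNat (nat_lit 59018578),Int.negSucc (nat_lit 40450656),Int.ofNat (nat_lit 152733725),Int.negSucc (nat_lit 44775554),Int.ofNat (nat_lit 12510192),Int.ofNat (nat_lit 18263986),Int.ofNat (nat_lit 106314285),Int.ofNat (nat_lit 105042323),Int.ofNat (nat_lit 48059048),Int.negSucc (nat_lit 19657472),Int.ofNat (nat_lit 55742946),Int.ofNat (nat_lit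 177839734),Int.ofNat (nat_lit 71834696),Int.ofNat (nat_lit 39492254),Int.negSucc (nat_lit 29557890),Int.ofNat (nat_lit 55946805),Int.negSucc (nat_lit 28825271),Int.ofNat (nat_lit 61383721),Int.ofNat (nat_lit 158985975),Int.negSucc (nat_lit 213597543),Int.ofNat (nat_lit 271679525),Int.ofNat (nat_lit 24803704),Int.negSucc (nat_lit 48796692),Int.negSucc (nat_lit 35491577),Int.negSucc (nat_lit 86768939),Int.negSucc (nat_lit 29137694),Int.ofNat (nat_lit 53713637),Int.ofNat (nat_lit 2777536),Int.negSucc (nat_lit 92623504),Int.ofNat (nat_lit 29938579),Int.ofNat (nat_lit 20758463),Int.ofNat (nat_lit 16669652),Int.negSucc (nat_lit 133733257),Int.negSucc (nat_lit 32845440),Int.negSucc (nat_lit 95197763),Int.ofNat (nat_lit 76387855),Int.ofNat (nat_lit 21808414),Int.negSucc (nat_lit 10118175),Int.ofNat (nat_lit 77363569),Int.negSucc (nat_lit 24861878),Int.negSucc (nat_lit 24643632),Int.ofNat (nat_lit 41671006),Int.ofNat (nat_lit 13937296),Int.ofNat (nat_lit 71580910),Int.negSucc (nat_lit 43295778),Int.ofNat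 (nat_lit 2619689),Int.negSucc (nat_lit 72935912),Int.ofNat (nat_lit 31870411),Int.ofNat (nat_lit 12338951),Int.negSucc (nat_lit 15706205),Int.negSucc (nat_lit 28161225),Int.ofNat (nat_lit 2520427),Int.negSucc (nat_lit 41650178),Int.negSucc (nat_lit 58015748),Int.ofNat (nat_lit 51630419),Int.negSucc (nat_lit 34287678),Int.negSucc (nat_lit 29323693),Int.ofNat (nat_lit 78559320),Int.ofNat (nat_lit 23408248),Int.ofNat (nat_lit 90302653),Int.ofNat (nat_lit 32649620),Int.negSucc (nat_lit 36285025),Int.negSucc (nat_lit 59412951),Int.ofNat (nat_lit 18654916),Int.negSucc (nat_lit 49053628),Int.negSucc (nat_lit 84398981),Int.negSucc (nat_lit 12395689),Int.ofNat (nat_lit 14815438),Int.negSucc (nat_lit 23019840),Int.ofNat (nat_lit 66088445),Int.ofNat (nat_lit 14987265),Int.negSucc (nat_lit 35646964),Int.negSucc (nat_lit 58934751),Int.ofNat (nat_lit 16215751),Int.ofNat (nat_lit 12769882),Int.ofNat (nat_lit 18278841),Int.ofNat (nat_lit 23654868),Int.negSucc (nat_lit 20469713),Int.ofNat (nat_lit 45980790),Int.negSucc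 (nat_lit 62612604),Int.ofNat (nat_lit 7498913),Int.negSucc (nat_lit 14134730),Int.negSucc (nat_lit 77059490),Int.negSucc (nat_lit 14111664),Int.ofNat (nat_lit 23586248),Int.negSucc (nat_lit 8043124),Int.ofNat (nat_lit 3573260),Int.negSucc (nat_lit 81277719),Int.negSucc (nat_lit 23864484),Int.negSucc (nat_lit 53202385),Int.ofNat (nat_lit 2798058),Int.negSucc (nat_lit 34814889),Int.ofNat (nat_lit 11740094),Int.negSucc (nat_lit 116182256),Int.ofNat (nat_lit 101193162),Int.ofNat (nat_lit 42746651),Int.ofNat (nat_lit 24179208),Int.negSucc (nat_lit 1693939),Int.ofNat (nat_lit 21416548),Int.ofNat (nat_lit 70160136),Int.negSucc (nat_lit 66579000),Int.ofNat (nat_lit 33399236),Int.ofNat (nat_lit 5647880),Int.ofNat (nat_lit 30763684),Int.negSucc (nat_lit 19790816),Int.ofNat (nat_lit 16029454),Int.ofNat (nat_lit 8865483),Int.negSucc (nat_lit 22799169),Int.ofNat (nat_lit 24163281),Int.negSucc (nat_lit 17116386),Int.ofNat (nat_lit 55823277),Int.ofNat (nat_lit 29224410),Int.negSucc (nat_lit 37427697),Int.ofNat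 (nat_lit 2867281),Int.negSucc (nat_lit 26567110),Int.ofNat (nat_lit 39129588),Int.negSucc (nat_lit 65696196),Int.negSucc (nat_lit 20086134),Int.negSucc (nat_lit 8310416),Int.negSucc (nat_lit 47722109),Int.ofNat (nat_lit 31397682),Int.ofNat (nat_lit 9620277),Int.ofNat (nat_lit 51275349),Int.ofNat (nat_lit 10570877),Int.negSucc (nat_lit 47585243),Int.ofNat (nat_lit 19706072),Int.ofNat (nat_lit 31308834),Int.negSucc (nat_lit 131303627),Int.negSucc (nat_lit 410054),Int.negSucc (nat_lit 67304024),Int.ofNat (nat_lit 31923314),Int.negSucc (nat_lit 32753478),Int.ofNat (nat_lit 77553139),Int.ofNat (nat_lit 37440494),Int.negSucc (nat_lit 33066746),Int.ofNat (nat_lit 65266758),Int.negSucc (nat_lit 5278915),Int.negSucc (nat_lit 27073392),Int.negSucc (nat_lit 16061345),Int.ofNat (nat_lit 1737660),Int.ofNat (nat_lit 22065775),Int.ofNat (nat_lit 10061911),Int.negSucc (nat_lit 11439145),Int.negSucc (nat_lit 9424226),Int.ofNat (nat_lit 19766514),Int.negSucc (nat_lit 13678791),Int.ofNat (nat_lit 64934259),Int.ofNat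 (nat_lit 27634652),Int.negSucc (nat_lit 16436030),Int.negSucc (nat_lit 7380341),Int.negSucc (nat_lit 32663024),Int.ofNat (nat_lit 13356247),Int.ofNat (nat_lit 2379157),Int.ofNat (nat_lit 3961650),Int.ofNat (nat_lit 4531621),Int.negSucc (nat_lit 35977838),Int.ofNat (nat_lit 11079507),Int.ofNat (nat_lit 12952039),Int.ofNat (nat_lit 37378936),Int.ofNat (nat_lit 1240502),Int.negSucc (nat_lit 44111354),Int.negSucc (nat_lit 13354643),Int.negSucc (nat_lit 28368259),Int.ofNat (nat_lit 19675215),Int.negSucc (nat_lit 33909494),Int.negSucc (nat_lit 6555287),Int.ofNat (nat_lit 47943945),Int.negSucc (nat_lit 7916177),Int.ofNat (nat_lit 43789052),Int.negSucc (nat_lit 69525325),Int.negSucc (nat_lit 123261731),Int.negSucc (nat_lit 37859844),Int.ofNat (nat_lit 148647966),Int.negSucc (nat_lit 14724334),Int.negSucc (nat_lit 25631891),Int.ofNat (nat_lit 67026272),Int.negSucc (nat_lit 29867124),Int.negSucc (nat_lit 74085730),Int.ofNat (nat_lit 36988653),Int.ofNat (nat_lit 10315341),Int.negSucc (nat_lit 16249314),Int.ofNat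 (nat_lit 1682937),Int.ofNat (nat_lit 15649455),Int.negSucc (nat_lit 553838475),Int.ofNat (nat_lit 385116878),Int.negSucc (nat_lit 291159178),Int.negSucc (nat_lit 203196458),Int.negSucc (nat_lit 296830033),Int.ofNat (nat_lit 167123359),Int.ofNat (nat_lit 29552736),Int.ofNat (nat_lit 15461376),Int.negSucc (nat_lit 110094921),Int.negSucc (nat_lit 97590153),Int.negSucc (nat_lit 18656763),Int.ofNat (nat_lit 86346696),Int.negSucc (nat_lit 79422592),Int.ofNat (nat_lit 159629295)])

/-- A row. -/
noncomputable def sr7_c5_14 : List ℕ × List ℤ :=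
  ([(nat_lit 1),(nat_lit 1),(nat_lit 0),(nat_lit 1),(nat_lit 0),(nat_lit 0),(nat_lit 0),(nat_lit 0),(nat_lit 0),(nat_lit 0),(nat_lit 0),(nat_lit 0)], [Int.negSucc (nat_lit 904321914),Int.ofNat (nat_lit 15055401),Int.negSucc (nat_lit 955648089),Int.negSucc (nat_lit 332085855),Int.negSucc (nat_lit 929702557),Int.negSucc (nat_lit 1111732128),Int.ofNat (nat_lit 463385742),Int.ofNat (nat_lit 999181589),Int.negSucc (nat_lit 680848900),Int.ofNat (nat_lit 41142226),Int.negSucc (nat_lit 738917538),Int.negSucc (nat_lit 503116545),Int.negSucc (nat_lit 127846270),Int.negSucc (nat_lit 1020021362),Int.ofNat (nat_lit 659553836),Int.ofNat (nat_lit 226248422),Int.negSucc (nat_lit 444329118),Int.ofNat (nat_lit 14785716),Int.negSucc (nat_lit 122908687),Int.ofNat (nat_lit 259749204),Int.negSucc (nat_lit 151844530),Int.negSucc (nat_lit 202913954),Int.negSucc (nat_lit 58515425),Int.ofNat (nat_lit 613666760),Int.negSucc (nat_lit 3718945),Int.negSucc (nat_lit 429703036),Int.negSucc (nat_lit 778552210),Int.negSucc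 (nat_lit 182711570),Int.ofNat (nat_lit 319647968),Int.negSucc (nat_lit 156943436),Int.negSucc (nat_lit 122124442),Int.negSucc (nat_lit 154120588),Int.negSucc (nat_lit 132359150),Int.ofNat (nat_lit 144029257),Int.negSucc (nat_lit 349624623),Int.ofNat (nat_lit 240426963),Int.ofNat (nat_lit 74257552),Int.ofNat (nat_lit 49298632),Int.negSucc (nat_lit 235461113),Int.negSucc (nat_lit 111961730),Int.ofNat (nat_lit 115020601),Int.ofNat (nat_lit 330327275),Int.ofNat (nat_lit 348410993),Int.ofNat (nat_lit 52887208),Int.ofNat (nat_lit 57909595),Int.ofNat (nat_lit 360902483),Int.negSucc (nat_lit 249089172),Int.ofNat (nat_lit 57635479),Int.ofNat (nat_lit 71223256),Int.negSucc (nat_lit 122588530),Int.ofNat (nat_lit 313529761),Int.ofNat (nat_lit 216994687),Int.ofNat (nat_lit 443562518),Int.negSucc (nat_lit 65281566),Int.negSucc (nat_lit 236788259),Int.ofNat (nat_lit 52549139),Int.ofNat (nat_lit 208657777),Int.negSucc (nat_lit 181491166),Int.ofNat (nat_lit 192183146),Int.negSucc (nat_lit 33382983),Int.ofNat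 (nat_lit 130648924),Int.ofNat (nat_lit 278811402),Int.negSucc (nat_lit 115987382),Int.ofNat (nat_lit 255034808),Int.negSucc (nat_lit 243045578),Int.ofNat (nat_lit 160404934),Int.ofNat (nat_lit 212517931),Int.negSucc (nat_lit 263425557),Int.negSucc (nat_lit 206220694),Int.ofNat (nat_lit 120098376),Int.negSucc (nat_lit 120661881),Int.ofNat (nat_lit 135796076),Int.ofNat (nat_lit 81184167),Int.negSucc (nat_lit 116634145),Int.negSucc (nat_lit 82311998),Int.ofNat (nat_lit 188286652),Int.ofNat (nat_lit 86556146),Int.negSucc (nat_lit 45826267),Int.negSucc (nat_lit 217694576),Int.ofNat (nat_lit 17764339),Int.negSucc (nat_lit 121814189),Int.ofNat (nat_lit 57108118),Int.ofNat (nat_lit 64920625),Int.ofNat (nat_lit 68094808),Int.negSucc (nat_lit 103289487),Int.negSucc (nat_lit 47161375),Int.ofNat (nat_lit 87110798),Int.negSucc (nat_lit 7556424),Int.ofNat (nat_lit 14837167),Int.ofNat (nat_lit 84655296),Int.ofNat (nat_lit 25994438),Int.ofNat (nat_lit 175106781),Int.ofNat (nat_lit 120354887),Int.ofNat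 (nat_lit 15209877),Int.negSucc (nat_lit 39409085),Int.ofNat (nat_lit 47073247),Int.ofNat (nat_lit 37286666),Int.ofNat (nat_lit 8864042),Int.ofNat (nat_lit 34092469),Int.ofNat (nat_lit 105196314),Int.ofNat (nat_lit 125065482),Int.negSucc (nat_lit 25875412),Int.negSucc (nat_lit 59986938),Int.ofNat (nat_lit 19427817),Int.ofNat (nat_lit 25816373),Int.negSucc (nat_lit 18140310),Int.negSucc (nat_lit 40137817),Int.ofNat (nat_lit 7726508),Int.ofNat (nat_lit 133112425),Int.ofNat (nat_lit 118276299),Int.negSucc (nat_lit 25773541),Int.ofNat (nat_lit 117695774),Int.ofNat (nat_lit 65145498),Int.ofNat (nat_lit 71438835),Int.ofNat (nat_lit 15225155),Int.ofNat (nat_lit 15559641),Int.negSucc (nat_lit 35071913),Int.ofNat (nat_lit 8275934),Int.ofNat (nat_lit 140575817),Int.ofNat (nat_lit 210991371),Int.negSucc (nat_lit 1073359),Int.ofNat (nat_lit 30676676),Int.negSucc (nat_lit 62695212),Int.ofNat (nat_lit 80460462),Int.ofNat (nat_lit 32988233),Int.ofNat (nat_lit 34071660),Int.ofNat (nat_lit 5429358),Int.negSucc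 (nat_lit 92460644),Int.negSucc (nat_lit 23447098),Int.ofNat (nat_lit 67789728),Int.ofNat (nat_lit 69298242),Int.negSucc (nat_lit 87563013),Int.ofNat (nat_lit 118048350),Int.negSucc (nat_lit 77755324),Int.negSucc (nat_lit 811160),Int.negSucc (nat_lit 23018605),Int.negSucc (nat_lit 10113831),Int.ofNat (nat_lit 30206672),Int.ofNat (nat_lit 44068229),Int.ofNat (nat_lit 89156326),Int.negSucc (nat_lit 7372471),Int.negSucc (nat_lit 43999551),Int.negSucc (nat_lit 52034067),Int.ofNat (nat_lit 111067190),Int.ofNat (nat_lit 8918316),Int.negSucc (nat_lit 34271768),Int.negSucc (nat_lit 35030215),Int.ofNat (nat_lit 112825160),Int.negSucc (nat_lit 1516759),Int.negSucc (nat_lit 9956599),Int.negSucc (nat_lit 32799789),Int.negSucc (nat_lit 34815496),Int.ofNat (nat_lit 22989495),Int.negSucc (nat_lit 183135041),Int.ofNat (nat_lit 32084330),Int.ofNat (nat_lit 99273391),Int.negSucc (nat_lit 16857627),Int.ofNat (nat_lit 30835954),Int.negSucc (nat_lit 28163680),Int.ofNat (nat_lit 53732193),Int.negSucc (nat_lit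 99669627),Int.negSucc (nat_lit 16245334),Int.negSucc (nat_lit 132456475),Int.ofNat (nat_lit 75591649),Int.ofNat (nat_lit 75055010),Int.ofNat (nat_lit 25067236),Int.ofNat (nat_lit 139565226),Int.negSucc (nat_lit 42358907),Int.negSucc (nat_lit 72273040),Int.negSucc (nat_lit 46437137),Int.negSucc (nat_lit 147743950),Int.ofNat (nat_lit 77747650),Int.ofNat (nat_lit 49545968),Int.negSucc (nat_lit 22262605),Int.ofNat (nat_lit 16649484),Int.ofNat (nat_lit 110810219),Int.negSucc (nat_lit 11063103),Int.ofNat (nat_lit 19581460),Int.negSucc (nat_lit 2861488),Int.negSucc (nat_lit 75247549),Int.negSucc (nat_lit 50300979),Int.ofNat (nat_lit 42402981),Int.negSucc (nat_lit 36780902),Int.negSucc (nat_lit 45603357),Int.negSucc (nat_lit 25531345),Int.ofNat (nat_lit 12288317),Int.negSucc (nat_lit 48941384),Int.negSucc (nat_lit 141391366),Int.negSucc (nat_lit 12014144),Int.negSucc (nat_lit 9694620),Int.negSucc (nat_lit 115517379),Int.negSucc (nat_lit 72886286),Int.negSucc (nat_lit 25561385),Int.ofNat (nat_lit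 65357095),Int.negSucc (nat_lit 61343485),Int.ofNat (nat_lit 76247611),Int.ofNat (nat_lit 72894498),Int.ofNat (nat_lit 1311991),Int.negSucc (nat_lit 415517),Int.negSucc (nat_lit 105791682),Int.negSucc (nat_lit 105213135),Int.ofNat (nat_lit 67270928),Int.negSucc (nat_lit 23225763),Int.negSucc (nat_lit 81166732),Int.ofNat (nat_lit 81319537),Int.ofNat (nat_lit 2051630),Int.ofNat (nat_lit 7713302),Int.negSucc (nat_lit 74687305),Int.negSucc (nat_lit 95668701),Int.negSucc (nat_lit 22950789),Int.ofNat (nat_lit 3861822),Int.negSucc (nat_lit 2176979),Int.ofNat (nat_lit 21749213),Int.negSucc (nat_lit 16400453),Int.negSucc (nat_lit 95696283),Int.ofNat (nat_lit 196029925),Int.ofNat (nat_lit 112428378),Int.ofNat (nat_lit 218597716),Int.ofNat (nat_lit 38573908),Int.negSucc (nat_lit 154043014),Int.ofNat (nat_lit 24296762),Int.ofNat (nat_lit 55107653),Int.negSucc (nat_lit 95198558),Int.ofNat (nat_lit 174442264),Int.ofNat (nat_lit 125907313),Int.negSucc (nat_lit 40652560),Int.ofNat (nat_lit 72373203),Int.negSucc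 (nat_lit 74137919),Int.ofNat (nat_lit 21885558),Int.ofNat (nat_lit 28652226),Int.ofNat (nat_lit 283722442),Int.negSucc (nat_lit 122010018),Int.negSucc (nat_lit 135806627),Int.negSucc (nat_lit 14475022),Int.ofNat (nat_lit 272729750),Int.ofNat (nat_lit 249495970),Int.negSucc (nat_lit 319640672),Int.negSucc (nat_lit 911198327),Int.negSucc (nat_lit 45930773),Int.negSucc (nat_lit 7072869),Int.ofNat (nat_lit 23212320),Int.negSucc (nat_lit 112373745),Int.ofNat (nat_lit 117122093),Int.negSucc (nat_lit 17838284),Int.ofNat (nat_lit 203600605)])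

/-- A row. -/
noncomputable def sr7_c5_15 : List ℕ × List ℤ :=
  ([(nat_lit 1),(nat_lit 2),(nat_lit 0),(nat_lit 0),(nat_lit 0),(nat_lit 0),(nat_lit 0),(nat_lit 0),(nat_lit 0),(nat_lit 0),(nat_lit 0),(nat_lit 0)], [Int.negSucc (nat_lit 405952409),Int.negSucc (nat_lit 517841901),Int.ofNat (nat_lit 3065290129),Int.ofNat (nat_lit 580413313),Int.ofNat (nat_lit 1368295849),Int.ofNat (nat_lit 323767006),Int.negSucc (nat_lit 123200340),Int.negSucc (nat_lit 1455155408),Int.ofNat (nat_lit 1135233811),Int.negSucc (nat_lit 757268923),Int.ofNat (nat_lit 756518183),Int.ofNat (nat_lit 1421796276),Int.ofNat (nat_lit 875576897),Int.ofNat (nat_lit 1001179949),Int.negSucc (nat_lit 1254213063),Int.ofNat (nat_lit 56682478),Int.ofNat (nat_lit 549585704),Int.ofNat (nat_lit 1041735630),Int.ofNat (nat_lit 221609318),Int.negSucc (nat_lit 107752461),Int.negSucc (nat_lit 3858045),Int.ofNat (nat_lit 202953768),Int.ofNat (nat_lit 59870825),Int.negSucc (nat_lit 817240275),Int.ofNat (nat_lit 179647668),Int.ofNat (nat_lit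 57045844),Int.ofNat (nat_lit 1248797069),Int.ofNat (nat_lit 254574603),Int.negSucc (nat_lit 936512437),Int.ofNat (nat_lit 822799636),Int.ofNat (nat_lit 448111221),Int.negSucc (nat_lit 287193145),Int.negSucc (nat_lit 13263048),Int.negSucc (nat_lit 114906271),Int.ofNat (nat_lit 162312018),Int.negSucc (nat_lit 577082685),Int.negSucc (nat_lit 213231808),Int.ofNat (nat_lit 785019),Int.negSucc (nat_lit 69853661),Int.negSucc (nat_lit 355476217),Int.negSucc (nat_lit 164895015),Int.negSucc (nat_lit 153974627),Int.negSucc (nat_lit 649676415),Int.ofNat (nat_lit 438640328),Int.negSucc (nat_lit 178385906),Int.negSucc (nat_lit 275560014),Int.ofNat (nat_lit 478166757),Int.negSucc (nat_lit 120251323),Int.negSucc (nat_lit 363667643),Int.ofNat (nat_lit 194934351),Int.negSucc (nat_lit 548453904),Int.negSucc (nat_lit 300696631),Int.negSucc (nat_lit 476332857),Int.negSucc (nat_lit 3336694),Int.ofNat (nat_lit 79352596),Int.ofNat (nat_lit 275272914),Int.negSucc (nat_lit 220879350),Int.ofNat (nat_lit 159904361),Int.negSucc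 (nat_lit 106907141),Int.negSucc (nat_lit 391739646),Int.negSucc (nat_lit 281592680),Int.negSucc (nat_lit 290142194),Int.ofNat (nat_lit 31356817),Int.negSucc (nat_lit 109032173),Int.ofNat (nat_lit 222728722),Int.negSucc (nat_lit 353222023),Int.ofNat (nat_lit 198062938),Int.ofNat (nat_lit 183285370),Int.negSucc (nat_lit 29741076),Int.ofNat (nat_lit 374725751),Int.negSucc (nat_lit 87206471),Int.ofNat (nat_lit 162613416),Int.ofNat (nat_lit 51512321),Int.ofNat (nat_lit 42893363),Int.ofNat (nat_lit 48187992),Int.ofNat (nat_lit 24668717),Int.negSucc (nat_lit 591070401),Int.ofNat (nat_lit 62266412),Int.negSucc (nat_lit 176090158),Int.negSucc (nat_lit 38744473),Int.ofNat (nat_lit 291847352),Int.negSucc (nat_lit 187549554),Int.ofNat (nat_lit 53600475),Int.negSucc (nat_lit 244182857),Int.ofNat (nat_lit 67777378),Int.ofNat (nat_lit 91928949),Int.ofNat (nat_lit 216535256),Int.ofNat (nat_lit 136320025),Int.negSucc (nat_lit 59838131),Int.negSucc (nat_lit 44618038),Int.negSucc (nat_lit 20432669),Int.negSucc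 (nat_lit 81821390),Int.negSucc (nat_lit 25602312),Int.ofNat (nat_lit 208225574),Int.negSucc (nat_lit 132878214),Int.ofNat (nat_lit 71603957),Int.ofNat (nat_lit 67251702),Int.negSucc (nat_lit 252240284),Int.ofNat (nat_lit 195220044),Int.negSucc (nat_lit 108567404),Int.negSucc (nat_lit 340629730),Int.ofNat (nat_lit 123889411),Int.negSucc (nat_lit 144487026),Int.negSucc (nat_lit 184628652),Int.negSucc (nat_lit 50753877),Int.ofNat (nat_lit 15701582),Int.ofNat (nat_lit 177181316),Int.negSucc (nat_lit 62757436),Int.negSucc (nat_lit 156838022),Int.negSucc (nat_lit 133924468),Int.negSucc (nat_lit 11375770),Int.negSucc (nat_lit 72703065),Int.negSucc (nat_lit 98446145),Int.ofNat (nat_lit 35925399),Int.negSucc (nat_lit 88775793),Int.negSucc (nat_lit 143862957),Int.ofNat (nat_lit 92087274),Int.ofNat (nat_lit 125462332),Int.ofNat (nat_lit 20235315),Int.negSucc (nat_lit 229693773),Int.ofNat (nat_lit 142916501),Int.ofNat (nat_lit 41201411),Int.negSucc (nat_lit 47867383),Int.negSucc (nat_lit 42701182),Int.negSucc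 (nat_lit 78283891),Int.ofNat (nat_lit 1098339),Int.negSucc (nat_lit 225804707),Int.negSucc (nat_lit 24711183),Int.negSucc (nat_lit 122739070),Int.negSucc (nat_lit 43156547),Int.ofNat (nat_lit 135671757),Int.negSucc (nat_lit 10796856),Int.ofNat (nat_lit 183371305),Int.negSucc (nat_lit 7133062),Int.negSucc (nat_lit 129920804),Int.negSucc (nat_lit 109525777),Int.negSucc (nat_lit 25577951),Int.ofNat (nat_lit 46550681),Int.ofNat (nat_lit 56883604),Int.ofNat (nat_lit 5947909),Int.negSucc (nat_lit 62181521),Int.negSucc (nat_lit 61143382),Int.ofNat (nat_lit 46954598),Int.negSucc (nat_lit 136124729),Int.ofNat (nat_lit 136170613),Int.ofNat (nat_lit 145775666),Int.ofNat (nat_lit 16250106),Int.negSucc (nat_lit 41998416),Int.ofNat (nat_lit 164016577),Int.ofNat (nat_lit 51402871),Int.ofNat (nat_lit 64532558),Int.ofNat (nat_lit 210631076),Int.negSucc (nat_lit 80825988),Int.negSucc (nat_lit 298170659),Int.ofNat (nat_lit 109281857),Int.negSucc (nat_lit 204764757),Int.negSucc (nat_lit 98067821),Int.negSucc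 (nat_lit 169875452),Int.negSucc (nat_lit 106073806),Int.ofNat (nat_lit 61292477),Int.negSucc (nat_lit 175630236),Int.negSucc (nat_lit 31896296),Int.ofNat (nat_lit 126687284),Int.negSucc (nat_lit 73200062),Int.ofNat (nat_lit 80911334),Int.negSucc (nat_lit 82705314),Int.negSucc (nat_lit 65053169),Int.ofNat (nat_lit 11836368),Int.ofNat (nat_lit 57035996),Int.ofNat (nat_lit 63683488),Int.ofNat (nat_lit 179495462),Int.negSucc (nat_lit 34774053),Int.ofNat (nat_lit 24134816),Int.negSucc (nat_lit 74728912),Int.negSucc (nat_lit 119738406),Int.ofNat (nat_lit 26604981),Int.ofNat (nat_lit 18405782),Int.ofNat (nat_lit 154829742),Int.negSucc (nat_lit 41312888),Int.ofNat (nat_lit 77296218),Int.ofNat (nat_lit 31894681),Int.negSucc (nat_lit 157800307),Int.ofNat (nat_lit 228354422),Int.negSucc (nat_lit 44040926),Int.negSucc (nat_lit 103715347),Int.negSucc (nat_lit 170680576),Int.negSucc (nat_lit 98715907),Int.ofNat (nat_lit 68609201),Int.negSucc (nat_lit 114297083),Int.negSucc (nat_lit 43731980),Int.negSucc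 (nat_lit 117530320),Int.ofNat (nat_lit 78963699),Int.ofNat (nat_lit 72867206),Int.negSucc (nat_lit 99576974),Int.ofNat (nat_lit 3645190),Int.ofNat (nat_lit 73154283),Int.negSucc (nat_lit 26504874),Int.ofNat (nat_lit 22095050),Int.ofNat (nat_lit 63607618),Int.ofNat (nat_lit 89075872),Int.ofNat (nat_lit 201215766),Int.negSucc (nat_lit 43849498),Int.negSucc (nat_lit 118043374),Int.negSucc (nat_lit 35136296),Int.ofNat (nat_lit 55146918),Int.ofNat (nat_lit 56452303),Int.ofNat (nat_lit 38692397),Int.negSucc (nat_lit 141416605),Int.negSucc (nat_lit 99555067),Int.negSucc (nat_lit 160533517),Int.negSucc (nat_lit 190702860),Int.negSucc (nat_lit 10821389),Int.ofNat (nat_lit 10388066),Int.negSucc (nat_lit 55036835),Int.ofNat (nat_lit 22618626),Int.negSucc (nat_lit 10763997),Int.negSucc (nat_lit 38321554),Int.negSucc (nat_lit 155066665),Int.negSucc (nat_lit 160925019),Int.ofNat (nat_lit 222859537),Int.ofNat (nat_lit 164012455),Int.ofNat (nat_lit 343261129),Int.ofNat (nat_lit 146785240),Int.ofNat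 (nat_lit 22500597),Int.negSucc (nat_lit 211720690),Int.ofNat (nat_lit 111714546),Int.negSucc (nat_lit 99767348),Int.ofNat (nat_lit 41356488),Int.ofNat (nat_lit 9818283),Int.ofNat (nat_lit 39098420),Int.ofNat (nat_lit 211869463),Int.negSucc (nat_lit 36970899),Int.ofNat (nat_lit 676768932),Int.ofNat (nat_lit 55831684),Int.negSucc (nat_lit 1568581862),Int.ofNat (nat_lit 711513488),Int.ofNat (nat_lit 345819123),Int.negSucc (nat_lit 180083648),Int.negSucc (nat_lit 1704139522),Int.ofNat (nat_lit 963962437),Int.negSucc (nat_lit 591464171),Int.ofNat (nat_lit 13741859),Int.negSucc (nat_lit 401803038),Int.ofNat (nat_lit 328102376),Int.ofNat (nat_lit 84647298),Int.ofNat (nat_lit 1075870573)])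

/-- A row. -/
noncomputable def sr7_c5_16 : List ℕ × List ℤ :=
  ([(nat_lit 2),(nat_lit 0),(nat_lit 0),(nat_lit 0),(nat_lit 0),(nat_lit 0),(nat_lit 0),(nat_lit 0),(nat_lit 0),(nat_lit 0),(nat_lit 0),(nat_lit 0)], [Int.negSucc (nat_lit 1112885443),Int.ofNat (nat_lit 886777962),Int.negSucc (nat_lit 1936191838),Int.ofNat (nat_lit 1077839074),Int.negSucc (nat_lit 792326186),Int.negSucc (nat_lit 757414293),Int.negSucc (nat_lit 40445403),Int.ofNat (nat_lit 128703959),Int.negSucc (nat_lit 765556881),Int.ofNat (nat_lit 533591276),Int.negSucc (nat_lit 375068247),Int.ofNat (nat_lit 281195407),Int.negSucc (nat_lit 573885059),Int.ofNat (nat_lit 91476011),Int.ofNat (nat_lit 48870338),Int.ofNat (nat_lit 323128559),Int.negSucc (nat_lit 104816468),Int.negSucc (nat_lit 3880140),Int.negSucc (nat_lit 254204921),Int.ofNat (nat_lit 309524597),Int.ofNat (nat_lit 218464687),Int.negSucc (nat_lit 413772012),Int.negSucc (nat_lit 261151303),Int.ofNat (nat_lit 253430052),Int.negSucc (nat_lit 28271911),Int.ofNat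 (nat_lit 226024884),Int.negSucc (nat_lit 239142298),Int.negSucc (nat_lit 190050217),Int.ofNat (nat_lit 228606799),Int.negSucc (nat_lit 641990),Int.negSucc (nat_lit 72037879),Int.negSucc (nat_lit 52822461),Int.negSucc (nat_lit 84563346),Int.ofNat (nat_lit 175453554),Int.ofNat (nat_lit 214091768),Int.negSucc (nat_lit 111231566),Int.ofNat (nat_lit 80570776),Int.negSucc (nat_lit 232237470),Int.ofNat (nat_lit 21208606),Int.ofNat (nat_lit 27109685),Int.ofNat (nat_lit 235372803),Int.ofNat (nat_lit 97423005),Int.negSucc (nat_lit 34345559),Int.ofNat (nat_lit 52853995),Int.ofNat (nat_lit 2703791),Int.ofNat (nat_lit 23192015),Int.ofNat (nat_lit 107620996),Int.negSucc (nat_lit 25916604),Int.ofNat (nat_lit 15998621),Int.ofNat (nat_lit 113128989),Int.ofNat (nat_lit 146515804),Int.negSucc (nat_lit 220690580),Int.ofNat (nat_lit 324758937),Int.ofNat (nat_lit 79857),Int.negSucc (nat_lit 187519226),Int.negSucc (nat_lit 91805119),Int.negSucc (nat_lit 34258908),Int.ofNat (nat_lit 73317596),Int.negSucc (nat_lit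 298828067),Int.ofNat (nat_lit 314796738),Int.negSucc (nat_lit 66470084),Int.negSucc (nat_lit 178940155),Int.ofNat (nat_lit 40260235),Int.ofNat (nat_lit 106106926),Int.ofNat (nat_lit 51183459),Int.negSucc (nat_lit 8359055),Int.negSucc (nat_lit 86618272),Int.negSucc (nat_lit 174982130),Int.ofNat (nat_lit 115468946),Int.negSucc (nat_lit 406729813),Int.negSucc (nat_lit 49701513),Int.ofNat (nat_lit 96711221),Int.ofNat (nat_lit 14985555),Int.ofNat (nat_lit 185159681),Int.negSucc (nat_lit 37741514),Int.negSucc (nat_lit 57468300),Int.negSucc (nat_lit 309970429),Int.ofNat (nat_lit 133158440),Int.negSucc (nat_lit 147100151),Int.ofNat (nat_lit 225993071),Int.ofNat (nat_lit 370519167),Int.negSucc (nat_lit 276334193),Int.negSucc (nat_lit 88788887),Int.ofNat (nat_lit 26731041),Int.ofNat (nat_lit 16575069),Int.negSucc (nat_lit 8272959),Int.ofNat (nat_lit 34423850),Int.negSucc (nat_lit 17816939),Int.negSucc (nat_lit 25043476),Int.ofNat (nat_lit 64333272),Int.negSucc (nat_lit 169132468),Int.ofNat (nat_lit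 148055208),Int.negSucc (nat_lit 12391919),Int.negSucc (nat_lit 119951570),Int.ofNat (nat_lit 118207171),Int.ofNat (nat_lit 89981418),Int.ofNat (nat_lit 56787425),Int.ofNat (nat_lit 42174543),Int.ofNat (nat_lit 6882198),Int.negSucc (nat_lit 12638075),Int.negSucc (nat_lit 100015785),Int.negSucc (nat_lit 78990759),Int.ofNat (nat_lit 85440627),Int.negSucc (nat_lit 52718416),Int.negSucc (nat_lit 85797167),Int.negSucc (nat_lit 25483602),Int.ofNat (nat_lit 198701340),Int.ofNat (nat_lit 26686913),Int.negSucc (nat_lit 225361465),Int.negSucc (nat_lit 4423778),Int.negSucc (nat_lit 8535297),Int.ofNat (nat_lit 65507586),Int.ofNat (nat_lit 72534268),Int.negSucc (nat_lit 30563459),Int.negSucc (nat_lit 8383347),Int.ofNat (nat_lit 119694125),Int.negSucc (nat_lit 47573855),Int.negSucc (nat_lit 3614740),Int.ofNat (nat_lit 17016578),Int.negSucc (nat_lit 24523285),Int.ofNat (nat_lit 4172141),Int.negSucc (nat_lit 17941929),Int.negSucc (nat_lit 116306560),Int.ofNat (nat_lit 7065488),Int.negSucc (nat_lit 43993202),Int.negSucc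 (nat_lit 43984395),Int.ofNat (nat_lit 32254493),Int.negSucc (nat_lit 6575351),Int.ofNat (nat_lit 1116583),Int.negSucc (nat_lit 59392752),Int.ofNat (nat_lit 11363050),Int.negSucc (nat_lit 21053231),Int.ofNat (nat_lit 84570395),Int.negSucc (nat_lit 33815312),Int.ofNat (nat_lit 75520142),Int.ofNat (nat_lit 16362383),Int.negSucc (nat_lit 8480309),Int.negSucc (nat_lit 33196620),Int.negSucc (nat_lit 4477089),Int.negSucc (nat_lit 178194755),Int.ofNat (nat_lit 140995053),Int.ofNat (nat_lit 226000740),Int.ofNat (nat_lit 78886131),Int.ofNat (nat_lit 135396674),Int.negSucc (nat_lit 63912379),Int.negSucc (nat_lit 142758252),Int.negSucc (nat_lit 41818515),Int.ofNat (nat_lit 30110956),Int.ofNat (nat_lit 57646975),Int.negSucc (nat_lit 21853504),Int.negSucc (nat_lit 3576804),Int.negSucc (nat_lit 22845374),Int.ofNat (nat_lit 55046418),Int.ofNat (nat_lit 48909600),Int.ofNat (nat_lit 7643374),Int.ofNat (nat_lit 51068020),Int.negSucc (nat_lit 15389633),Int.negSucc (nat_lit 85018018),Int.negSucc (nat_lit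 151998364),Int.negSucc (nat_lit 86544993),Int.ofNat (nat_lit 5894765),Int.negSucc (nat_lit 29533115),Int.negSucc (nat_lit 18462910),Int.ofNat (nat_lit 53620138),Int.ofNat (nat_lit 25250732),Int.ofNat (nat_lit 21095793),Int.ofNat (nat_lit 47193195),Int.negSucc (nat_lit 36401192),Int.ofNat (nat_lit 10198652),Int.negSucc (nat_lit 23027289),Int.ofNat (nat_lit 19131097),Int.ofNat (nat_lit 57512966),Int.ofNat (nat_lit 9276273),Int.negSucc (nat_lit 44551607),Int.negSucc (nat_lit 23350375),Int.negSucc (nat_lit 114964976),Int.ofNat (nat_lit 58712421),Int.ofNat (nat_lit 152287811),Int.ofNat (nat_lit 22505596),Int.negSucc (nat_lit 38822136),Int.negSucc (nat_lit 23050227),Int.negSucc (nat_lit 37937899),Int.ofNat (nat_lit 5794532),Int.ofNat (nat_lit 27102414),Int.ofNat (nat_lit 4066564),Int.negSucc (nat_lit 63530885),Int.ofNat (nat_lit 8924363),Int.ofNat (nat_lit 17800406),Int.ofNat (nat_lit 35708304),Int.negSucc (nat_lit 31238487),Int.negSucc (nat_lit 76936152),Int.negSucc (nat_lit 4513793),Int.negSucc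 (nat_lit 23270439),Int.negSucc (nat_lit 45546625),Int.negSucc (nat_lit 34819816),Int.negSucc (nat_lit 12660075),Int.negSucc (nat_lit 22234742),Int.ofNat (nat_lit 37011773),Int.ofNat (nat_lit 9166056),Int.negSucc (nat_lit 21132178),Int.negSucc (nat_lit 26304260),Int.negSucc (nat_lit 7398221),Int.negSucc (nat_lit 14712309),Int.negSucc (nat_lit 10611291),Int.negSucc (nat_lit 3731769),Int.negSucc (nat_lit 10954467),Int.ofNat (nat_lit 7653952),Int.ofNat (nat_lit 31874313),Int.negSucc (nat_lit 18966588),Int.ofNat (nat_lit 1370901),Int.negSucc (nat_lit 87895460),Int.ofNat (nat_lit 24807813),Int.negSucc (nat_lit 5596213),Int.negSucc (nat_lit 68805),Int.negSucc (nat_lit 1477205),Int.negSucc (nat_lit 34049371),Int.ofNat (nat_lit 87782348),Int.negSucc (nat_lit 26483409),Int.negSucc (nat_lit 29241153),Int.negSucc (nat_lit 25677021),Int.ofNat (nat_lit 7650441),Int.negSucc (nat_lit 36200360),Int.negSucc (nat_lit 52994406),Int.ofNat (nat_lit 82846358),Int.ofNat (nat_lit 67906594),Int.negSucc (nat_lit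 40429022),Int.ofNat (nat_lit 41748763),Int.ofNat (nat_lit 30247003),Int.ofNat (nat_lit 58424),Int.ofNat (nat_lit 8577370),Int.ofNat (nat_lit 363825614),Int.negSucc (nat_lit 214252405),Int.ofNat (nat_lit 321637658),Int.ofNat (nat_lit 48425098),Int.negSucc (nat_lit 390374497),Int.ofNat (nat_lit 203338526),Int.negSucc (nat_lit 88462470),Int.negSucc (nat_lit 53015235),Int.ofNat (nat_lit 203442921),Int.negSucc (nat_lit 58832550),Int.negSucc (nat_lit 20956644),Int.negSucc (nat_lit 1067632188),Int.negSucc (nat_lit 188426286),Int.ofNat (nat_lit 234397578),Int.ofNat (nat_lit 15338612),Int.negSucc (nat_lit 275437685),Int.ofNat (nat_lit 204376426)])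

/-- A row. -/
noncomputable def sr7_c5_17 : List ℕ × List ℤ :=
  ([(nat_lit 2),(nat_lit 0),(nat_lit 1),(nat_lit 0),(nat_lit 0),(nat_lit 0),(nat_lit 0),(nat_lit 0),(nat_lit 0),(nat_lit 0),(nat_lit 0),(nat_lit 0)], [Int.negSucc (nat_lit 125379691),Int.negSucc (nat_lit 164440669),Int.ofNat (nat_lit 133340755),Int.ofNat (nat_lit 2100534),Int.negSucc (nat_lit 39325824),Int.negSucc (nat_lit 501350682),Int.ofNat (nat_lit 34112238),Int.negSucc (nat_lit 147286045),Int.negSucc (nat_lit 199432160),Int.negSucc (nat_lit 288128859),Int.negSucc (nat_lit 61640515),Int.negSucc (nat_lit 93989867),Int.negSucc (nat_lit 149523402),Int.negSucc (nat_lit 115450261),Int.negSucc (nat_lit 222566558),Int.ofNat (nat_lit 78623141),Int.negSucc (nat_lit 92351367),Int.ofNat (nat_lit 18911969),Int.negSucc (nat_lit 148123044),Int.ofNat (nat_lit 73239692),Int.negSucc (nat_lit 20405686),Int.negSucc (nat_lit 136206367),Int.negSucc (nat_lit 54846840),Int.ofNat (nat_lit 36362078),Int.ofNat (nat_lit 44591334),Int.negSucc (nat_lit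 151873547),Int.negSucc (nat_lit 119702915),Int.ofNat (nat_lit 132766988),Int.negSucc (nat_lit 55960311),Int.ofNat (nat_lit 37950330),Int.ofNat (nat_lit 18905871),Int.negSucc (nat_lit 163324354),Int.ofNat (nat_lit 217267869),Int.ofNat (nat_lit 118416400),Int.negSucc (nat_lit 212265663),Int.negSucc (nat_lit 1550915),Int.ofNat (nat_lit 102634765),Int.negSucc (nat_lit 6910077),Int.ofNat (nat_lit 15096769),Int.negSucc (nat_lit 55083077),Int.ofNat (nat_lit 18410713),Int.ofNat (nat_lit 165489783),Int.ofNat (nat_lit 130164189),Int.ofNat (nat_lit 27426254),Int.ofNat (nat_lit 37954195),Int.ofNat (nat_lit 69195705),Int.negSucc (nat_lit 90927194),Int.ofNat (nat_lit 1787151),Int.ofNat (nat_lit 90656821),Int.negSucc (nat_lit 164937518),Int.ofNat (nat_lit 44226570),Int.ofNat (nat_lit 7688322),Int.ofNat (nat_lit 65543583),Int.negSucc (nat_lit 26888024),Int.negSucc (nat_lit 119616655),Int.negSucc (nat_lit 87084440),Int.ofNat (nat_lit 77799835),Int.negSucc (nat_lit 62547922),Int.ofNat (nat_lit 5914674),Int.negSucc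 (nat_lit 77562221),Int.ofNat (nat_lit 126763929),Int.ofNat (nat_lit 199261211),Int.negSucc (nat_lit 34081318),Int.negSucc (nat_lit 30206295),Int.negSucc (nat_lit 24972543),Int.negSucc (nat_lit 44336994),Int.ofNat (nat_lit 122137694),Int.negSucc (nat_lit 94843457),Int.ofNat (nat_lit 28344123),Int.ofNat (nat_lit 74252202),Int.ofNat (nat_lit 12885758),Int.ofNat (nat_lit 28411116),Int.negSucc (nat_lit 9733513),Int.negSucc (nat_lit 44569404),Int.ofNat (nat_lit 11478242),Int.ofNat (nat_lit 49326237),Int.negSucc (nat_lit 62787753),Int.ofNat (nat_lit 4345001),Int.negSucc (nat_lit 37164228),Int.ofNat (nat_lit 38061131),Int.negSucc (nat_lit 31643853),Int.ofNat (nat_lit 926524),Int.ofNat (nat_lit 1946649),Int.negSucc (nat_lit 3636375),Int.negSucc (nat_lit 12876215),Int.negSucc (nat_lit 58560015),Int.negSucc (nat_lit 33983983),Int.ofNat (nat_lit 7041069),Int.negSucc (nat_lit 50526564),Int.ofNat (nat_lit 6272505),Int.negSucc (nat_lit 4277258),Int.ofNat (nat_lit 2250630),Int.negSucc (nat_lit 14505195),Int.ofNat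 (nat_lit 33373226),Int.negSucc (nat_lit 24812305),Int.negSucc (nat_lit 13685044),Int.negSucc (nat_lit 4830502),Int.ofNat (nat_lit 12382490),Int.negSucc (nat_lit 11391185),Int.ofNat (nat_lit 26707970),Int.ofNat (nat_lit 23103193),Int.ofNat (nat_lit 20994321),Int.ofNat (nat_lit 3249705),Int.ofNat (nat_lit 40222351),Int.negSucc (nat_lit 24735176),Int.negSucc (nat_lit 29681510),Int.negSucc (nat_lit 63522680),Int.negSucc (nat_lit 2071541),Int.ofNat (nat_lit 2245178),Int.ofNat (nat_lit 22503966),Int.ofNat (nat_lit 2639972),Int.ofNat (nat_lit 21024700),Int.ofNat (nat_lit 60473468),Int.ofNat (nat_lit 25962029),Int.negSucc (nat_lit 12403961),Int.negSucc (nat_lit 2387243),Int.negSucc (nat_lit 34219665),Int.negSucc (nat_lit 6517052),Int.ofNat (nat_lit 23034657),Int.ofNat (nat_lit 50760025),Int.negSucc (nat_lit 44944041),Int.ofNat (nat_lit 24159620),Int.ofNat (nat_lit 23311568),Int.ofNat (nat_lit 11081026),Int.ofNat (nat_lit 13454518),Int.ofNat (nat_lit 1619139),Int.ofNat (nat_lit 32723935),Int.ofNat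 (nat_lit 32516704),Int.ofNat (nat_lit 9553865),Int.ofNat (nat_lit 22958028),Int.negSucc (nat_lit 24163656),Int.negSucc (nat_lit 57047120),Int.negSucc (nat_lit 9506431),Int.ofNat (nat_lit 25183297),Int.ofNat (nat_lit 37708501),Int.ofNat (nat_lit 1042699),Int.ofNat (nat_lit 37904535),Int.negSucc (nat_lit 19610100),Int.ofNat (nat_lit 825719),Int.ofNat (nat_lit 44446542),Int.ofNat (nat_lit 51426736),Int.negSucc (nat_lit 34622389),Int.negSucc (nat_lit 24426255),Int.negSucc (nat_lit 31546904),Int.ofNat (nat_lit 15346679),Int.ofNat (nat_lit 3501274),Int.negSucc (nat_lit 67359970),Int.ofNat (nat_lit 13539918),Int.negSucc (nat_lit 54431497),Int.negSucc (nat_lit 14152842),Int.negSucc (nat_lit 45412114),Int.ofNat (nat_lit 5811397),Int.negSucc (nat_lit 11198866),Int.negSucc (nat_lit 4553734),Int.ofNat (nat_lit 10747480),Int.negSucc (nat_lit 18638974),Int.ofNat (nat_lit 13021578),Int.negSucc (nat_lit 4793867),Int.negSucc (nat_lit 29009384),Int.ofNat (nat_lit 53924315),Int.ofNat (nat_lit 22871102),Int.ofNat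 (nat_lit 27107390),Int.ofNat (nat_lit 6495701),Int.ofNat (nat_lit 53955284),Int.negSucc (nat_lit 2563070),Int.ofNat (nat_lit 6565885),Int.ofNat (nat_lit 19534722),Int.negSucc (nat_lit 22918735),Int.ofNat (nat_lit 25821198),Int.negSucc (nat_lit 31381931),Int.ofNat (nat_lit 5889192),Int.ofNat (nat_lit 32691114),Int.negSucc (nat_lit 16586523),Int.negSucc (nat_lit 9609104),Int.ofNat (nat_lit 90043329),Int.ofNat (nat_lit 40307527),Int.ofNat (nat_lit 28343546),Int.negSucc (nat_lit 15124935),Int.ofNat (nat_lit 33955653),Int.negSucc (nat_lit 56072842),Int.negSucc (nat_lit 35464465),Int.ofNat (nat_lit 32856253),Int.negSucc (nat_lit 49761458),Int.negSucc (nat_lit 1807309),Int.ofNat (nat_lit 31619462),Int.ofNat (nat_lit 20274015),Int.ofNat (nat_lit 17806163),Int.negSucc (nat_lit 11655551),Int.negSucc (nat_lit 8447692),Int.ofNat (nat_lit 2697859),Int.ofNat (nat_lit 1771752),Int.negSucc (nat_lit 3286212),Int.ofNat (nat_lit 17271658),Int.negSucc (nat_lit 12020341),Int.negSucc (nat_lit 2370832),Int.negSucc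 (nat_lit 7309183),Int.ofNat (nat_lit 1335503),Int.ofNat (nat_lit 10623628),Int.negSucc (nat_lit 6352901),Int.negSucc (nat_lit 120822),Int.ofNat (nat_lit 6361600),Int.negSucc (nat_lit 7418468),Int.ofNat (nat_lit 19830917),Int.negSucc (nat_lit 11484648),Int.negSucc (nat_lit 17694223),Int.negSucc (nat_lit 43600609),Int.negSucc (nat_lit 995968),Int.ofNat (nat_lit 24867100),Int.ofNat (nat_lit 2814428),Int.ofNat (nat_lit 57297936),Int.negSucc (nat_lit 50903116),Int.ofNat (nat_lit 38533932),Int.ofNat (nat_lit 8229371),Int.negSucc (nat_lit 18892325),Int.ofNat (nat_lit 20819862),Int.negSucc (nat_lit 38814224),Int.ofNat (nat_lit 31767645),Int.ofNat (nat_lit 62827045),Int.ofNat (nat_lit 28356241),Int.negSucc (nat_lit 101829515),Int.ofNat (nat_lit 5737438),Int.ofNat (nat_lit 8728653),Int.negSucc (nat_lit 28340513),Int.ofNat (nat_lit 17329140),Int.ofNat (nat_lit 26926928),Int.negSucc (nat_lit 30373747),Int.negSucc (nat_lit 167173),Int.ofNat (nat_lit 11836167),Int.ofNat (nat_lit 6231248),Int.negSucc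 (nat_lit 11365825),Int.ofNat (nat_lit 336181178),Int.negSucc (nat_lit 163499648),Int.ofNat (nat_lit 161728520),Int.ofNat (nat_lit 32840091),Int.ofNat (nat_lit 39330335),Int.negSucc (nat_lit 322776613),Int.negSucc (nat_lit 47132730),Int.negSucc (nat_lit 25763161),Int.ofNat (nat_lit 111084154),Int.ofNat (nat_lit 80739996),Int.ofNat (nat_lit 10089979),Int.negSucc (nat_lit 110636863),Int.ofNat (nat_lit 57865318),Int.negSucc (nat_lit 220290115),Int.negSucc (nat_lit 248447),Int.negSucc (nat_lit 20122369),Int.ofNat (nat_lit 2228789),Int.ofNat (nat_lit 40403647)])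

/-- A row. -/
noncomputable def sr7_c5_18 : List ℕ × List ℤ :=
  ([(nat_lit 2),(nat_lit 2),(nat_lit 0),(nat_lit 0),(nat_lit 0),(nat_lit 0),(nat_lit 0),(nat_lit 0),(nat_lit 0),(nat_lit 0),(nat_lit 0),(nat_lit 0)], [Int.ofNat (nat_lit 2126978362),Int.ofNat (nat_lit 116265678),Int.negSucc (nat_lit 1126114129),Int.negSucc (nat_lit 210612798),Int.ofNat (nat_lit 181326678),Int.ofNat (nat_lit 1353730772),Int.negSucc (nat_lit 177072624),Int.negSucc (nat_lit 150598664),Int.ofNat (nat_lit 929373123),Int.ofNat (nat_lit 433955297),Int.ofNat (nat_lit 736520396),Int.negSucc (nat_lit 122962797),Int.negSucc (nat_lit 508347131),Int.ofNat (nat_lit 884263584),Int.negSucc (nat_lit 440178026),Int.negSucc (nat_lit 254105786),Int.ofNat (nat_lit 360239286),Int.negSucc (nat_lit 663353118),Int.ofNat (nat_lit 170096406),Int.negSucc (nat_lit 537733049),Int.ofNat (nat_lit 569446868),Int.negSucc (nat_lit 42363926),Int.negSucc (nat_lit 394200374),Int.negSucc (nat_lit 26462903),Int.negSucc (nat_lit 329412988),Int.ofNat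 (nat_lit 259618310),Int.ofNat (nat_lit 381687041),Int.ofNat (nat_lit 52839737),Int.negSucc (nat_lit 27634374),Int.negSucc (nat_lit 321591389),Int.negSucc (nat_lit 202827014),Int.ofNat (nat_lit 537363967),Int.ofNat (nat_lit 268260284),Int.negSucc (nat_lit 214711234),Int.ofNat (nat_lit 107859412),Int.ofNat (nat_lit 125610546),Int.ofNat (nat_lit 130420282),Int.negSucc (nat_lit 185618385),Int.ofNat (nat_lit 464816419),Int.ofNat (nat_lit 523279538),Int.ofNat (nat_lit 346728028),Int.negSucc (nat_lit 292727022),Int.ofNat (nat_lit 31172656),Int.negSucc (nat_lit 452291262),Int.negSucc (nat_lit 18712263),Int.negSucc (nat_lit 435085978),Int.negSucc (nat_lit 43565680),Int.ofNat (nat_lit 1306695),Int.ofNat (nat_lit 175526893),Int.negSucc (nat_lit 19902793),Int.ofNat (nat_lit 78348660),Int.negSucc (nat_lit 67101688),Int.ofNat (nat_lit 166414559),Int.ofNat (nat_lit 20206280),Int.ofNat (nat_lit 221025185),Int.negSucc (nat_lit 583155450),Int.negSucc (nat_lit 52686223),Int.ofNat (nat_lit 30281750),Int.negSucc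 (nat_lit 413569123),Int.ofNat (nat_lit 339191813),Int.negSucc (nat_lit 32030990),Int.negSucc (nat_lit 122766051),Int.ofNat (nat_lit 284041561),Int.negSucc (nat_lit 513902184),Int.ofNat (nat_lit 189897033),Int.ofNat (nat_lit 94860216),Int.negSucc (nat_lit 411992180),Int.ofNat (nat_lit 243006296),Int.ofNat (nat_lit 303689538),Int.negSucc (nat_lit 474094449),Int.ofNat (nat_lit 468962793),Int.negSucc (nat_lit 371146070),Int.negSucc (nat_lit 132421950),Int.ofNat (nat_lit 8024503),Int.negSucc (nat_lit 20366515),Int.negSucc (nat_lit 213014558),Int.ofNat (nat_lit 411526821),Int.negSucc (nat_lit 56762359),Int.ofNat (nat_lit 497957264),Int.ofNat (nat_lit 187071851),Int.negSucc (nat_lit 156911143),Int.ofNat (nat_lit 16520535),Int.negSucc (nat_lit 180061549),Int.ofNat (nat_lit 51677812),Int.ofNat (nat_lit 169366952),Int.negSucc (nat_lit 18701620),Int.negSucc (nat_lit 213135966),Int.negSucc (nat_lit 217598989),Int.negSucc (nat_lit 13913794),Int.negSucc (nat_lit 321895512),Int.negSucc (nat_lit 310703985),Int.negSucc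 (nat_lit 177078450),Int.negSucc (nat_lit 253811116),Int.negSucc (nat_lit 189378798),Int.negSucc (nat_lit 67712923),Int.negSucc (nat_lit 211530753),Int.negSucc (nat_lit 114896093),Int.ofNat (nat_lit 209333023),Int.negSucc (nat_lit 232686616),Int.negSucc (nat_lit 129905325),Int.ofNat (nat_lit 258181055),Int.negSucc (nat_lit 176753267),Int.ofNat (nat_lit 225571922),Int.ofNat (nat_lit 110842570),Int.ofNat (nat_lit 42773645),Int.ofNat (nat_lit 7556488),Int.negSucc (nat_lit 98757426),Int.ofNat (nat_lit 101007065),Int.negSucc (nat_lit 27896690),Int.negSucc (nat_lit 96070414),Int.negSucc (nat_lit 10331325),Int.negSucc (nat_lit 97079665),Int.ofNat (nat_lit 35665482),Int.negSucc (nat_lit 99572039),Int.ofNat (nat_lit 54774104),Int.ofNat (nat_lit 98858746),Int.ofNat (nat_lit 72956217),Int.negSucc (nat_lit 75425468),Int.negSucc (nat_lit 188198288),Int.ofNat (nat_lit 2665689),Int.negSucc (nat_lit 94007508),Int.negSucc (nat_lit 131246573),Int.ofNat (nat_lit 208972062),Int.negSucc (nat_lit 71636899),Int.ofNat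 (nat_lit 4868801),Int.ofNat (nat_lit 44886692),Int.ofNat (nat_lit 285906231),Int.ofNat (nat_lit 259079922),Int.ofNat (nat_lit 186620734),Int.negSucc (nat_lit 69482687),Int.negSucc (nat_lit 238679776),Int.ofNat (nat_lit 242366747),Int.negSucc (nat_lit 448514472),Int.ofNat (nat_lit 105725756),Int.ofNat (nat_lit 142618396),Int.ofNat (nat_lit 144513901),Int.negSucc (nat_lit 29091304),Int.negSucc (nat_lit 155284780),Int.negSucc (nat_lit 177975047),Int.negSucc (nat_lit 171912319),Int.ofNat (nat_lit 70630529),Int.ofNat (nat_lit 53757792),Int.negSucc (nat_lit 101151049),Int.negSucc (nat_lit 37035925),Int.negSucc (nat_lit 260402213),Int.negSucc (nat_lit 144038336),Int.negSucc (nat_lit 23750208),Int.negSucc (nat_lit 154266842),Int.negSucc (nat_lit 76405936),Int.negSucc (nat_lit 29107007),Int.negSucc (nat_lit 28602638),Int.negSucc (nat_lit 120084748),Int.negSucc (nat_lit 15412647),Int.ofNat (nat_lit 694363519),Int.negSucc (nat_lit 167930391),Int.negSucc (nat_lit 45366806),Int.ofNat (nat_lit 40805883),Int.ofNat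 (nat_lit 152746617),Int.ofNat (nat_lit 142244760),Int.negSucc (nat_lit 109625065),Int.ofNat (nat_lit 329124121),Int.ofNat (nat_lit 128266572),Int.ofNat (nat_lit 96960424),Int.negSucc (nat_lit 68231474),Int.negSucc (nat_lit 232424962),Int.ofNat (nat_lit 62979449),Int.negSucc (nat_lit 166613917),Int.ofNat (nat_lit 54115816),Int.ofNat (nat_lit 98525454),Int.ofNat (nat_lit 62959029),Int.ofNat (nat_lit 161184445),Int.negSucc (nat_lit 105134736),Int.negSucc (nat_lit 135779992),Int.ofNat (nat_lit 173570119),Int.ofNat (nat_lit 118341049),Int.negSucc (nat_lit 290003756),Int.ofNat (nat_lit 12684251),Int.negSucc (nat_lit 298044044),Int.ofNat (nat_lit 74699529),Int.ofNat (nat_lit 52059555),Int.negSucc (nat_lit 9136739),Int.ofNat (nat_lit 3315750),Int.negSucc (nat_lit 201095792),Int.ofNat (nat_lit 71692141),Int.ofNat (nat_lit 75119979),Int.ofNat (nat_lit 60604438),Int.ofNat (nat_lit 125751064),Int.ofNat (nat_lit 244733118),Int.ofNat (nat_lit 152263052),Int.ofNat (nat_lit 21095206),Int.ofNat (nat_lit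 360016917),Int.ofNat (nat_lit 28730998),Int.negSucc (nat_lit 209480),Int.ofNat (nat_lit 63039606),Int.ofNat (nat_lit 7891830),Int.negSucc (nat_lit 245853068),Int.negSucc (nat_lit 26119909),Int.ofNat (nat_lit 12105053),Int.negSucc (nat_lit 47609787),Int.ofNat (nat_lit 94829776),Int.negSucc (nat_lit 55312353),Int.negSucc (nat_lit 90474236),Int.ofNat (nat_lit 85257724),Int.ofNat (nat_lit 230315536),Int.negSucc (nat_lit 182174200),Int.negSucc (nat_lit 157095705),Int.negSucc (nat_lit 134263084),Int.ofNat (nat_lit 188891781),Int.ofNat (nat_lit 324981296),Int.ofNat (nat_lit 192713384),Int.ofNat (nat_lit 282506584),Int.negSucc (nat_lit 18922561),Int.negSucc (nat_lit 59415881),Int.ofNat (nat_lit 123114156),Int.ofNat (nat_lit 266364349),Int.negSucc (nat_lit 255032819),Int.negSucc (nat_lit 78993633),Int.negSucc (nat_lit 235251625),Int.ofNat (nat_lit 51342910),Int.negSucc (nat_lit 74394519),Int.negSucc (nat_lit 131010481),Int.negSucc (nat_lit 415439494),Int.ofNat (nat_lit 25722738),Int.negSucc (nat_lit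 205531356),Int.ofNat (nat_lit 8642005),Int.ofNat (nat_lit 6514260),Int.negSucc (nat_lit 195288499),Int.ofNat (nat_lit 61615286),Int.negSucc (nat_lit 75413896),Int.negSucc (nat_lit 95215063),Int.negSucc (nat_lit 372156211),Int.negSucc (nat_lit 83562173),Int.negSucc (nat_lit 185295227),Int.negSucc (nat_lit 36008776),Int.ofNat (nat_lit 1068577653),Int.negSucc (nat_lit 1330404516),Int.ofNat (nat_lit 368732302),Int.ofNat (nat_lit 1353832441),Int.ofNat (nat_lit 522426672),Int.negSucc (nat_lit 1686754422),Int.ofNat (nat_lit 467189442),Int.ofNat (nat_lit 254182843),Int.ofNat (nat_lit 268588933),Int.negSucc (nat_lit 561806426),Int.negSucc (nat_lit 809604451),Int.negSucc (nat_lit 1640776800),Int.ofNat (nat_lit 178643076),Int.ofNat (nat_lit 236817183),Int.ofNat (nat_lit 310561888)])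

/-- A row. -/
noncomputable def sr7_c5_19 : List ℕ × List ℤ :=
  ([(nat_lit 3),(nat_lit 0),(nat_lit 0),(nat_lit 0),(nat_lit 0),(nat_lit 0),(nat_lit 0),(nat_lit 0),(nat_lit 0),(nat_lit 0),(nat_lit 0),(nat_lit 0)], [Int.negSucc (nat_lit 590228255),Int.negSucc (nat_lit 1047907786),Int.ofNat (nat_lit 2657834292),Int.negSucc (nat_lit 620163769),Int.ofNat (nat_lit 470674829),Int.negSucc (nat_lit 322727698),Int.negSucc (nat_lit 296530822),Int.negSucc (nat_lit 1271973677),Int.negSucc (nat_lit 62090574),Int.negSucc (nat_lit 480361673),Int.ofNat (nat_lit 172667781),Int.negSucc (nat_lit 163074169),Int.ofNat (nat_lit 475367434),Int.ofNat (nat_lit 142775857),Int.negSucc (nat_lit 568662135),Int.negSucc (nat_lit 163131279),Int.negSucc (nat_lit 317860101),Int.ofNat (nat_lit 342260257),Int.negSucc (nat_lit 28470210),Int.ofNat (nat_lit 90290630),Int.negSucc (nat_lit 420491362),Int.ofNat (nat_lit 260447256),Int.ofNat (nat_lit 83238358),Int.negSucc (nat_lit 130811596),Int.ofNat (nat_lit 224357544),Int.negSucc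 (nat_lit 578858449),Int.negSucc (nat_lit 78101889),Int.ofNat (nat_lit 258067043),Int.negSucc (nat_lit 17814298),Int.negSucc (nat_lit 122917100),Int.negSucc (nat_lit 35035337),Int.negSucc (nat_lit 250504029),Int.ofNat (nat_lit 560174272),Int.negSucc (nat_lit 135861979),Int.negSucc (nat_lit 646257311),Int.negSucc (nat_lit 84323581),Int.ofNat (nat_lit 111178606),Int.ofNat (nat_lit 421767924),Int.negSucc (nat_lit 123628167),Int.negSucc (nat_lit 342913972),Int.negSucc (nat_lit 343009931),Int.ofNat (nat_lit 103093751),Int.ofNat (nat_lit 71057804),Int.negSucc (nat_lit 57017214),Int.negSucc (nat_lit 13073653),Int.ofNat (nat_lit 111734760),Int.negSucc (nat_lit 177251880),Int.negSucc (nat_lit 62863695),Int.negSucc (nat_lit 12811503),Int.negSucc (nat_lit 400777136),Int.negSucc (nat_lit 2806794),Int.ofNat (nat_lit 178818852),Int.negSucc (nat_lit 612368581),Int.negSucc (nat_lit 76727666),Int.ofNat (nat_lit 162240590),Int.ofNat (nat_lit 118418851),Int.ofNat (nat_lit 178979105),Int.negSucc (nat_lit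 166740514),Int.ofNat (nat_lit 287158709),Int.negSucc (nat_lit 744087120),Int.ofNat (nat_lit 64950195),Int.ofNat (nat_lit 268897532),Int.negSucc (nat_lit 210740906),Int.negSucc (nat_lit 115303744),Int.negSucc (nat_lit 141620594),Int.ofNat (nat_lit 28061345),Int.ofNat (nat_lit 473160036),Int.negSucc (nat_lit 221066399),Int.negSucc (nat_lit 198674358),Int.ofNat (nat_lit 556757089),Int.ofNat (nat_lit 126947894),Int.negSucc (nat_lit 13365232),Int.negSucc (nat_lit 14188445),Int.negSucc (nat_lit 181642076),Int.ofNat (nat_lit 46789502),Int.ofNat (nat_lit 151458103),Int.ofNat (nat_lit 94282243),Int.negSucc (nat_lit 108149925),Int.negSucc (nat_lit 1314325),Int.negSucc (nat_lit 165790085),Int.negSucc (nat_lit 315390810),Int.ofNat (nat_lit 378525273),Int.ofNat (nat_lit 90861443),Int.negSucc (nat_lit 82378398),Int.negSucc (nat_lit 33048004),Int.negSucc (nat_lit 114838812),Int.negSucc (nat_lit 89415666),Int.ofNat (nat_lit 90883732),Int.ofNat (nat_lit 4133509),Int.ofNat (nat_lit 15739279),Int.ofNat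 (nat_lit 141575021),Int.negSucc (nat_lit 113229663),Int.ofNat (nat_lit 18700713),Int.ofNat (nat_lit 156968474),Int.negSucc (nat_lit 126294007),Int.negSucc (nat_lit 69838589),Int.negSucc (nat_lit 81954923),Int.negSucc (nat_lit 16870581),Int.negSucc (nat_lit 57892586),Int.ofNat (nat_lit 100831817),Int.negSucc (nat_lit 17236766),Int.ofNat (nat_lit 27159780),Int.negSucc (nat_lit 42446918),Int.ofNat (nat_lit 186326306),Int.ofNat (nat_lit 48329932),Int.negSucc (nat_lit 73439018),Int.negSucc (nat_lit 359171104),Int.negSucc (nat_lit 48805448),Int.ofNat (nat_lit 303377561),Int.ofNat (nat_lit 59057347),Int.negSucc (nat_lit 50008063),Int.negSucc (nat_lit 90090757),Int.ofNat (nat_lit 7109467),Int.ofNat (nat_lit 74871779),Int.negSucc (nat_lit 90144091),Int.negSucc (nat_lit 157219647),Int.negSucc (nat_lit 12747939),Int.negSucc (nat_lit 11284312),Int.ofNat (nat_lit 51419421),Int.ofNat (nat_lit 83768765),Int.negSucc (nat_lit 15697518),Int.ofNat (nat_lit 82378440),Int.ofNat (nat_lit 129395566),Int.ofNat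 (nat_lit 19754862),Int.ofNat (nat_lit 64752310),Int.negSucc (nat_lit 7064231),Int.negSucc (nat_lit 22679592),Int.ofNat (nat_lit 13726988),Int.ofNat (nat_lit 32939859),Int.ofNat (nat_lit 235976857),Int.ofNat (nat_lit 3775578),Int.negSucc (nat_lit 97140340),Int.negSucc (nat_lit 3443298),Int.ofNat (nat_lit 94777170),Int.negSucc (nat_lit 13155818),Int.negSucc (nat_lit 2274087),Int.ofNat (nat_lit 31126906),Int.ofNat (nat_lit 36571631),Int.ofNat (nat_lit 32589852),Int.ofNat (nat_lit 203832415),Int.negSucc (nat_lit 75078465),Int.negSucc (nat_lit 307397410),Int.negSucc (nat_lit 57560462),Int.negSucc (nat_lit 219558203),Int.ofNat (nat_lit 149639231),Int.ofNat (nat_lit 222754323),Int.negSucc (nat_lit 20949052),Int.ofNat (nat_lit 25092812),Int.negSucc (nat_lit 167088566),Int.ofNat (nat_lit 12650336),Int.ofNat (nat_lit 777729),Int.ofNat (nat_lit 60496633),Int.negSucc (nat_lit 82452387),Int.negSucc (nat_lit 129920620),Int.ofNat (nat_lit 9140008),Int.negSucc (nat_lit 85618775),Int.ofNat (nat_lit 61889347),Int.ofNat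 (nat_lit 21077200),Int.ofNat (nat_lit 101521518),Int.ofNat (nat_lit 237203812),Int.negSucc (nat_lit 31925686),Int.ofNat (nat_lit 82393856),Int.ofNat (nat_lit 66123315),Int.ofNat (nat_lit 39441323),Int.ofNat (nat_lit 18464428),Int.negSucc (nat_lit 6340965),Int.negSucc (nat_lit 26960067),Int.ofNat (nat_lit 59183055),Int.ofNat (nat_lit 34759419),Int.negSucc (nat_lit 59443783),Int.negSucc (nat_lit 19371623),Int.negSucc (nat_lit 37907652),Int.negSucc (nat_lit 31278454),Int.ofNat (nat_lit 9139580),Int.ofNat (nat_lit 130807310),Int.ofNat (nat_lit 189704326),Int.negSucc (nat_lit 77147033),Int.negSucc (nat_lit 83012385),Int.negSucc (nat_lit 2983178),Int.negSucc (nat_lit 55051039),Int.negSucc (nat_lit 4131525),Int.ofNat (nat_lit 95971177),Int.negSucc (nat_lit 49944111),Int.negSucc (nat_lit 32815437),Int.ofNat (nat_lit 21823128),Int.ofNat (nat_lit 103709630),Int.ofNat (nat_lit 2533495),Int.negSucc (nat_lit 72125370),Int.negSucc (nat_lit 98922983),Int.ofNat (nat_lit 66893555),Int.ofNat (nat_lit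 123867958),Int.negSucc (nat_lit 8869202),Int.ofNat (nat_lit 66012846),Int.negSucc (nat_lit 69778434),Int.ofNat (nat_lit 44454005),Int.ofNat (nat_lit 84582680),Int.negSucc (nat_lit 10883438),Int.negSucc (nat_lit 19930824),Int.negSucc (nat_lit 43777115),Int.ofNat (nat_lit 56192108),Int.ofNat (nat_lit 89656692),Int.ofNat (nat_lit 17590026),Int.ofNat (nat_lit 111799831),Int.negSucc (nat_lit 33749209),Int.negSucc (nat_lit 23372188),Int.negSucc (nat_lit 21549473),Int.ofNat (nat_lit 49719416),Int.ofNat (nat_lit 49323443),Int.ofNat (nat_lit 11101174),Int.ofNat (nat_lit 59083901),Int.negSucc (nat_lit 13802283),Int.ofNat (nat_lit 61521248),Int.ofNat (nat_lit 25492681),Int.negSucc (nat_lit 90161234),Int.negSucc (nat_lit 3473496),Int.negSucc (nat_lit 60660351),Int.negSucc (nat_lit 73945429),Int.ofNat (nat_lit 183193538),Int.ofNat (nat_lit 80845899),Int.negSucc (nat_lit 37274972),Int.negSucc (nat_lit 7010332),Int.ofNat (nat_lit 109378331),Int.ofNat (nat_lit 14145538),Int.negSucc (nat_lit 113024864),Int.negSucc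 (nat_lit 36489784),Int.negSucc (nat_lit 20722473),Int.negSucc (nat_lit 57913348),Int.negSucc (nat_lit 32598926),Int.ofNat (nat_lit 455327),Int.negSucc (nat_lit 38307555),Int.ofNat (nat_lit 551295132),Int.negSucc (nat_lit 254295658),Int.negSucc (nat_lit 105482559),Int.ofNat (nat_lit 269201896),Int.ofNat (nat_lit 238632279),Int.negSucc (nat_lit 470822198),Int.ofNat (nat_lit 173662113),Int.ofNat (nat_lit 48713782),Int.ofNat (nat_lit 159450404),Int.ofNat (nat_lit 390274940),Int.ofNat (nat_lit 103553901),Int.ofNat (nat_lit 1216468205),Int.ofNat (nat_lit 464456091),Int.negSucc (nat_lit 677691581),Int.ofNat (nat_lit 6914632),Int.ofNat (nat_lit 667235797),Int.negSucc (nat_lit 549339702),Int.ofNat (nat_lit 24494167),Int.negSucc (nat_lit 86566292),Int.ofNat (nat_lit 47389364)])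

/-- A row. -/
noncomputable def sr7_c5_20 : List ℕ × List ℤ :=
  ([(nat_lit 4),(nat_lit 0),(nat_lit 0),(nat_lit 0),(nat_lit 0),(nat_lit 0),(nat_lit 0),(nat_lit 0),(nat_lit 0),(nat_lit 0),(nat_lit 0),(nat_lit 0)], [Int.ofNat (nat_lit 396749609),Int.ofNat (nat_lit 629686967),Int.negSucc (nat_lit 1039596774),Int.ofNat (nat_lit 107879399),Int.negSucc (nat_lit 88307146),Int.ofNat (nat_lit 357275883),Int.ofNat (nat_lit 220945987),Int.ofNat (nat_lit 689135495),Int.ofNat (nat_lit 294132647),Int.ofNat (nat_lit 339618264),Int.negSucc (nat_lit 27315501),Int.ofNat (nat_lit 242060382),Int.negSucc (nat_lit 39374713),Int.ofNat (nat_lit 45647529),Int.ofNat (nat_lit 326334259),Int.ofNat (nat_lit 92440827),Int.ofNat (nat_lit 214420741),Int.negSucc (nat_lit 59043789),Int.ofNat (nat_lit 99431786),Int.negSucc (nat_lit 126456752),Int.ofNat (nat_lit 232860610),Int.negSucc (nat_lit 59855027),Int.negSucc (nat_lit 68451038),Int.ofNat (nat_lit 33900088),Int.negSucc (nat_lit 141559416),Int.ofNat (nat_lit 291136277),Int.ofNat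 (nat_lit 141571248),Int.negSucc (nat_lit 183662708),Int.ofNat (nat_lit 15350503),Int.ofNat (nat_lit 49295044),Int.ofNat (nat_lit 7203553),Int.ofNat (nat_lit 233521053),Int.negSucc (nat_lit 315747905),Int.negSucc (nat_lit 69849370),Int.ofNat (nat_lit 393000999),Int.ofNat (nat_lit 62111510),Int.negSucc (nat_lit 121919150),Int.negSucc (nat_lit 185126702),Int.negSucc (nat_lit 11857633),Int.ofNat (nat_lit 87043757),Int.ofNat (nat_lit 125558691),Int.negSucc (nat_lit 131794527),Int.negSucc (nat_lit 81772053),Int.ofNat (nat_lit 6711191),Int.negSucc (nat_lit 1877948),Int.negSucc (nat_lit 63119136),Int.ofNat (nat_lit 137984544),Int.ofNat (nat_lit 43463302),Int.negSucc (nat_lit 32091820),Int.ofNat (nat_lit 253081385),Int.negSucc (nat_lit 55587586),Int.negSucc (nat_lit 71519640),Int.ofNat (nat_lit 262985637),Int.ofNat (nat_lit 25600024),Int.negSucc (nat_lit 29703408),Int.negSucc (nat_lit 18267981),Int.negSucc (nat_lit 122594833),Int.ofNat (nat_lit 94869505),Int.negSucc (nat_lit 171430328),Int.ofNat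 (nat_lit 384459258),Int.negSucc (nat_lit 110966565),Int.negSucc (nat_lit 231035824),Int.ofNat (nat_lit 128333265),Int.ofNat (nat_lit 51739839),Int.ofNat (nat_lit 70777215),Int.negSucc (nat_lit 61729518),Int.negSucc (nat_lit 272935155),Int.ofNat (nat_lit 152912421),Int.ofNat (nat_lit 65103178),Int.negSucc (nat_lit 267704834),Int.negSucc (nat_lit 46725943),Int.ofNat (nat_lit 272448),Int.ofNat (nat_lit 42700365),Int.ofNat (nat_lit 54152451),Int.negSucc (nat_lit 34213978),Int.negSucc (nat_lit 72954863),Int.ofNat (nat_lit 57490335),Int.ofNat (nat_lit 9956030),Int.ofNat (nat_lit 32504581),Int.ofNat (nat_lit 78617175),Int.ofNat (nat_lit 122167888),Int.negSucc (nat_lit 134133031),Int.negSucc (nat_lit 72367765),Int.ofNat (nat_lit 42708987),Int.ofNat (nat_lit 22594580),Int.ofNat (nat_lit 88668457),Int.ofNat (nat_lit 76992449),Int.negSucc (nat_lit 53004861),Int.ofNat (nat_lit 27809315),Int.negSucc (nat_lit 36024579),Int.negSucc (nat_lit 77266040),Int.ofNat (nat_lit 48147576),Int.ofNat (nat_lit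 4836961),Int.negSucc (nat_lit 55140712),Int.ofNat (nat_lit 47321760),Int.ofNat (nat_lit 22874645),Int.ofNat (nat_lit 44770880),Int.ofNat (nat_lit 6093203),Int.ofNat (nat_lit 42365789),Int.negSucc (nat_lit 63502811),Int.ofNat (nat_lit 72291657),Int.negSucc (nat_lit 35521581),Int.ofNat (nat_lit 26240760),Int.negSucc (nat_lit 123630951),Int.negSucc (nat_lit 26732918),Int.ofNat (nat_lit 75503463),Int.ofNat (nat_lit 182972962),Int.ofNat (nat_lit 7256436),Int.negSucc (nat_lit 119294506),Int.negSucc (nat_lit 25793935),Int.ofNat (nat_lit 28570411),Int.ofNat (nat_lit 42823958),Int.negSucc (nat_lit 20627004),Int.negSucc (nat_lit 51139710),Int.ofNat (nat_lit 68035369),Int.ofNat (nat_lit 82532474),Int.ofNat (nat_lit 18885612),Int.ofNat (nat_lit 6786544),Int.negSucc (nat_lit 33679874),Int.negSucc (nat_lit 57131255),Int.ofNat (nat_lit 44970239),Int.negSucc (nat_lit 78371269),Int.negSucc (nat_lit 76450452),Int.negSucc (nat_lit 23036450),Int.negSucc (nat_lit 20516772),Int.ofNat (nat_lit 1571683),Int.ofNat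 (nat_lit 17168405),Int.negSucc (nat_lit 23752591),Int.negSucc (nat_lit 23418776),Int.negSucc (nat_lit 117435313),Int.ofNat (nat_lit 916090),Int.ofNat (nat_lit 88324151),Int.negSucc (nat_lit 21165976),Int.negSucc (nat_lit 76184146),Int.ofNat (nat_lit 2008014),Int.negSucc (nat_lit 7814591),Int.negSucc (nat_lit 13705340),Int.negSucc (nat_lit 5311052),Int.negSucc (nat_lit 8051689),Int.negSucc (nat_lit 114952660),Int.ofNat (nat_lit 28005275),Int.ofNat (nat_lit 111639678),Int.ofNat (nat_lit 5825942),Int.ofNat (nat_lit 119260261),Int.negSucc (nat_lit 86055243),Int.negSucc (nat_lit 131198564),Int.ofNat (nat_lit 42575233),Int.negSucc (nat_lit 8308325),Int.ofNat (nat_lit 113823410),Int.ofNat (nat_lit 5649224),Int.ofNat (nat_lit 14474029),Int.negSucc (nat_lit 28326926),Int.ofNat (nat_lit 47101008),Int.ofNat (nat_lit 70048693),Int.negSucc (nat_lit 4496655),Int.ofNat (nat_lit 40869301),Int.negSucc (nat_lit 39719359),Int.ofNat (nat_lit 1233878),Int.negSucc (nat_lit 9841),Int.negSucc (nat_lit 153250257),Int.ofNat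 (nat_lit 9384141),Int.negSucc (nat_lit 56607808),Int.negSucc (nat_lit 62844073),Int.negSucc (nat_lit 58403343),Int.negSucc (nat_lit 16822756),Int.negSucc (nat_lit 2796131),Int.ofNat (nat_lit 182181),Int.negSucc (nat_lit 24932364),Int.negSucc (nat_lit 54407900),Int.ofNat (nat_lit 49095567),Int.negSucc (nat_lit 2127740),Int.ofNat (nat_lit 9925104),Int.ofNat (nat_lit 23134824),Int.ofNat (nat_lit 3765068),Int.negSucc (nat_lit 84470484),Int.negSucc (nat_lit 109873538),Int.ofNat (nat_lit 49471214),Int.negSucc (nat_lit 1668961),Int.negSucc (nat_lit 16937284),Int.ofNat (nat_lit 58441718),Int.ofNat (nat_lit 15633616),Int.negSucc (nat_lit 67451889),Int.ofNat (nat_lit 31077198),Int.ofNat (nat_lit 14634793),Int.negSucc (nat_lit 30857695),Int.negSucc (nat_lit 52820152),Int.negSucc (nat_lit 20414917),Int.ofNat (nat_lit 35918364),Int.ofNat (nat_lit 64314817),Int.negSucc (nat_lit 31391949),Int.negSucc (nat_lit 59258074),Int.ofNat (nat_lit 272086),Int.negSucc (nat_lit 45898477),Int.ofNat (nat_lit 48261592),Int.negSucc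 (nat_lit 35764142),Int.negSucc (nat_lit 45697696),Int.ofNat (nat_lit 24221072),Int.ofNat (nat_lit 14665564),Int.ofNat (nat_lit 32685384),Int.negSucc (nat_lit 31383663),Int.negSucc (nat_lit 67824745),Int.negSucc (nat_lit 13685921),Int.negSucc (nat_lit 71275125),Int.ofNat (nat_lit 34652565),Int.ofNat (nat_lit 24751620),Int.ofNat (nat_lit 42244778),Int.negSucc (nat_lit 43684816),Int.negSucc (nat_lit 47959089),Int.ofNat (nat_lit 2558321),Int.negSucc (nat_lit 68226713),Int.ofNat (nat_lit 64730166),Int.negSucc (nat_lit 63360721),Int.negSucc (nat_lit 18859594),Int.ofNat (nat_lit 53904876),Int.negSucc (nat_lit 8373912),Int.ofNat (nat_lit 65650485),Int.ofNat (nat_lit 31220130),Int.negSucc (nat_lit 103774079),Int.negSucc (nat_lit 44819882),Int.ofNat (nat_lit 33330413),Int.ofNat (nat_lit 3174846),Int.negSucc (nat_lit 56801217),Int.negSucc (nat_lit 258796),Int.ofNat (nat_lit 54626991),Int.ofNat (nat_lit 18300299),Int.ofNat (nat_lit 38690660),Int.ofNat (nat_lit 20026275),Int.ofNat (nat_lit 13263259),Int.negSucc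 (nat_lit 3756240),Int.ofNat (nat_lit 25882837),Int.negSucc (nat_lit 446471244),Int.ofNat (nat_lit 203479728),Int.negSucc (nat_lit 76207207),Int.negSucc (nat_lit 144190920),Int.ofNat (nat_lit 53225950),Int.ofNat (nat_lit 398229864),Int.negSucc (nat_lit 76503838),Int.negSucc (nat_lit 1617145),Int.negSucc (nat_lit 231315609),Int.negSucc (nat_lit 270129156),Int.negSucc (nat_lit 71242377),Int.negSucc (nat_lit 417619115),Int.negSucc (nat_lit 253626033),Int.ofNat (nat_lit 503995647),Int.negSucc (nat_lit 23691379),Int.negSucc (nat_lit 370696084),Int.ofNat (nat_lit 345419018),Int.negSucc (nat_lit 64899111),Int.ofNat (nat_lit 85149056),Int.negSucc (nat_lit 50846944),Int.ofNat (nat_lit 5186358)])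

/-- A part of a triangular factor. -/
noncomputable def sr7_c5 : Rows :=
  [sr7_c5_0,
   sr7_c5_1,
   sr7_c5_2,
   sr7_c5_3,
   sr7_c5_4,
   sr7_c5_5,
   sr7_c5_6,
   sr7_c5_7,
   sr7_c5_8,
   sr7_c5_9,
   sr7_c5_10,
   sr7_c5_11,
   sr7_c5_12,
   sr7_c5_13,
   sr7_c5_14,
   sr7_c5_15,
   sr7_c5_16,
   sr7_c5_17,
   sr7_c5_18,
   sr7_c5_19,
   sr7_c5_20]

/-- A triangular factor. -/
noncomputable def sr7_rows : List Rows :=
  [sr7_c0, sr7_c1, sr7_c2, sr7_c3, sr7_c4, sr7_c5]

end Vale.Agent.P142K.CertB
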